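import Vale.Agent.P188.R.G008
import Mathlib.Analysis.SpecialFunctions.Pow.Real
import Mathlib.Analysis.Normed.Group.Basic
import Mathlib.GroupTheory.QuotientGroup.Basic
import Mathlib.GroupTheory.Commutator.Basic
import Vale.Agent.P188.R.G003

section

/-!
# Exponentially rare large displacements along random chains
-/

set_option linter.unusedSectionVars false

namespace Agent.P188.H428

open Finset

variable {G : Type*} [Group G] [DecidableEq G]
variable {E : Type*} [NormedAddCommGroup E]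

/-- `Q` is almost invariant under right translations by elements of length `≤ r`. -/
def Fol (l : G → ℕ) (Q : Finset G) (r : ℕ) (φ : ℝ) : Prop :=
  ∀ y, l y ≤ r → (((Q.image fun z => z * y) \ Q).card : ℝ) ≤ φ * Q.card

open Classical in
/-- number of points of `Q` where right translation by `x` moves `W` by more than `τ`. -/
noncomputable def devi (W : G → E) (Q : Finset G) (τ : ℝ) (x : G) : ℕ :=
  (Q.filter fun z => τ < ‖W (z * x) - W z‖).card

end Agent.P188.H428

end

section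

/-!
# From random displacements to a fixed displacement modulo the commutator subgroup
-/

set_option linter.unusedSectionVars false

namespace Agent.P188.H428

open Finset

variable {G : Type*} [Group G] [DecidableEq G]
variable {E : Type*} [NormedAddCommGroup E]

/-- `∏ a_i g_i`. -/
def pr : (J : ℕ) → (Fin J → G) → (Fin J → G) → G
  | 0, _, _ => 1
  | J + 1, a, g => a 0 * g 0 * pr J (Fin.tail a) (Fin.tail g)

/-- `∏ g_i`. -/
def xp (J : ℕ) (g : Fin J → G) : G := pr J (fun _ => 1) g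

lemma out_eq_pr (J : ℕ) (g : Fin J → G) (ω : Fin J → G × G) :
    out J g ω = pr J (fun i => (ω i).1⁻¹ * (ω i).2) g := by
  induction J with
  | zero => rfl
  | succ J ih =>
    simp only [out, pr]
    rw [ih]
    simp only [mul_assoc]
    rfl

lemma pr_xp_mem (N : Subgroup G) [N.Normal] (J : ℕ) (a g : Fin J → G) (ha : ∀ i, a i ∈ N) :
    pr J a g * (xp J g)⁻¹ ∈ N := by
  induction J with
  | zero => simp [pr, xp]
  | succ J ih =>
    have h := ih (Fin.tail a) (Fin.tail g) (fun i => ha i.succ)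
    have h2 : pr (J + 1) a g * (xp (J + 1) g)⁻¹
        = a 0 * (g 0 * (pr J (Fin.tail a) (Fin.tail g) * (xp J (Fin.tail g))⁻¹) * (g 0)⁻¹) := by
      simp only [pr, xp]
      have : (Fin.tail fun _ : Fin (J + 1) => (1 : G)) = fun _ => 1 := rfl
      rw [this]
      group
    rw [h2]
    exact N.mul_mem (ha 0) (‹N.Normal›.conj_mem _ h _)

/-- The key identity modulo commutators. -/
lemma pr_identity {H : Type*} [Group H] (π : G →* H) (N : Subgroup G) [N.Normal]
    (hN : ∀ a ∈ N, ∀ b ∈ N, π a * π b = π b * π a) (J : ℕ) (a s g : Fin J → G)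
    (ha : ∀ i, a i ∈ N) (hs : ∀ i, s i ∈ N) :
    π (pr J (fun i => a i * s i) g) = π (pr J a g) * (π (xp J g))⁻¹ * π (pr J s g) := by
  induction J with
  | zero => simp [pr, xp]
  | succ J ih =>
    have h := ih (Fin.tail a) (Fin.tail s) (Fin.tail g) (fun i => ha i.succ) (fun i => hs i.succ)
    have hm := pr_xp_mem N J (Fin.tail a) (Fin.tail g) (fun i => ha i.succ)
    have hm2 := ‹N.Normal›.conj_mem _ hm (g 0)
    have hc := hN _ (hs 0) _ hm2
    have e0 : (Fin.tail fun i => a i * s i) = fun i => Fin.tail a i * Fin.tail s i := rfl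
    have e1 : xp (J + 1) g = g 0 * xp J (Fin.tail g) := by
      simp only [pr, xp]
      have : (Fin.tail fun _ : Fin (J + 1) => (1 : G)) = fun _ => 1 := rfl
      rw [this]; group
    rw [e1]
    simp only [pr]
    rw [e0]
    simp only [map_mul, h, mul_inv_rev]
    simp only [map_mul, map_inv] at hc
    set A := π (a 0)
    set S := π (s 0)
    set g0 := π (g 0)
    set P := π (pr J (Fin.tail a) (Fin.tail g))
    set X := π (xp J (Fin.tail g))
    set R := π (pr J (Fin.tail s) (Fin.tail g))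
    calc A * S * g0 * (P * X⁻¹ * R) = A * (S * (g0 * (P * X⁻¹) * g0⁻¹)) * g0 * R := by group
      _ = A * (g0 * (P * X⁻¹) * g0⁻¹ * S) * g0 * R := by rw [hc]
      _ = A * g0 * P * (X⁻¹ * g0⁻¹) * (S * g0 * R) := by group

/-- Good displacements. -/
def Gd (l : G → ℕ) (W : G → E) (Q : Finset G) (τ δ : ℝ) (r : ℕ) (x : G) : Prop :=
  l x ≤ r ∧ (devi W Q τ x : ℝ) ≤ δ * Q.card

lemma Gd.mono {l : G → ℕ} {W : G → E} {Q : Finset G} {τ τ' δ δ' : ℝ} {r r' : ℕ} {x : G}
    (h : Gd l W Q τ δ r x) (hτ : τ ≤ τ') (hδ : δ ≤ δ') (hr : r ≤ r') : Gd l W Q τ' δ' r' x := by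
  classical
  refine ⟨h.1.trans hr, ?_⟩
  have h1 : devi W Q τ' x ≤ devi W Q τ x := by
    unfold devi
    refine Finset.card_le_card fun z hz => ?_
    have := Finset.mem_filter.1 hz
    exact Finset.mem_filter.2 ⟨this.1, lt_of_le_of_lt hτ this.2⟩
  calc (devi W Q τ' x : ℝ) ≤ devi W Q τ x := by exact_mod_cast h1
    _ ≤ δ * Q.card := h.2
    _ ≤ δ' * Q.card := mul_le_mul_of_nonneg_right hδ (Nat.cast_nonneg _)

lemma devi_shift_le (W : G → E) (Q : Finset G) (τ : ℝ) (x y : G) :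
    letI := Classical.decPred fun z => τ < ‖W (z * x * y) - W (z * x)‖
    (Q.filter fun z => τ < ‖W (z * x * y) - W (z * x)‖).card
      ≤ devi W Q τ y + ((Q.image fun z => z * x) \ Q).card := by
  classical
  unfold devi
  refine le_trans ?_ (Finset.card_union_le _ _)
  refine Finset.card_le_card_of_injOn (fun z => z * x) ?_ (fun a _ b _ h => mul_right_cancel h)
  intro z hz
  have h1 := Finset.mem_filter.1 hz
  refine Finset.mem_coe.2 (Finset.mem_union.2 ?_)
  by_cases h : z * x ∈ Q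
  · exact Or.inl (Finset.mem_filter.2 ⟨h, h1.2⟩)
  · exact Or.inr (Finset.mem_sdiff.2 ⟨Finset.mem_image_of_mem _ h1.1, h⟩)

lemma Gd.mul {l : G → ℕ} {W : G → E} {Q : Finset G} {τ1 τ2 δ1 δ2 φ : ℝ} {r1 r2 : ℕ} {x y : G}
    (hmul : ∀ x y, l (x * y) ≤ l x + l y)
    (hx : Gd l W Q τ1 δ1 r1 x) (hy : Gd l W Q τ2 δ2 r2 y) (hQ : Fol l Q r1 φ) :
    Gd l W Q (τ1 + τ2) (δ1 + δ2 + φ) (r1 + r2) (x * y) := by
  classical
  refine ⟨(hmul x y).trans (add_le_add hx.1 hy.1), ?_⟩
  have h1 := devi_shift_le W Q τ2 x y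
  have h2 : devi W Q (τ1 + τ2) (x * y) ≤ devi W Q τ1 x +
      (Q.filter fun z => τ2 < ‖W (z * x * y) - W (z * x)‖).card := by
    unfold devi
    refine le_trans (Finset.card_le_card ?_) (Finset.card_union_le _ _)
    intro z hz
    have hz' := Finset.mem_filter.1 hz
    rw [Finset.mem_union, Finset.mem_filter, Finset.mem_filter]
    by_contra hcon
    push Not at hcon
    have e1 := hcon.1 hz'.1
    have e2 := hcon.2 hz'.1
    have e3 : ‖W (z * (x * y)) - W z‖ ≤ τ1 + τ2 := by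
      calc ‖W (z * (x * y)) - W z‖ = ‖(W (z * x) - W z) + (W (z * x * y) - W (z * x))‖ := by
            rw [mul_assoc]; congr 1; abel
        _ ≤ ‖W (z * x) - W z‖ + ‖W (z * x * y) - W (z * x)‖ := norm_add_le _ _
        _ ≤ τ1 + τ2 := add_le_add e1 e2
    exact absurd hz'.2 (not_lt.2 e3)
  have h3 : devi W Q (τ1 + τ2) (x * y) ≤ devi W Q τ1 x +
      (devi W Q τ2 y + ((Q.image fun z => z * x) \ Q).card) := by
    refine le_trans h2 (Nat.add_le_add_left ?_ _)
    convert h1 using 3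
  have h4 : (devi W Q (τ1 + τ2) (x * y) : ℝ) ≤ devi W Q τ1 x +
      (devi W Q τ2 y + ((Q.image fun z => z * x) \ Q).card) := by exact_mod_cast h3
  have h5 := hQ x hx.1
  have h6 := hx.2
  have h7 := hy.2
  nlinarith

lemma Gd.inv {l : G → ℕ} {W : G → E} {Q : Finset G} {τ δ φ : ℝ} {r : ℕ} {x : G}
    (hinv : ∀ x, l x⁻¹ = l x) (hx : Gd l W Q τ δ r x) (hQ : Fol l Q r φ) :
    Gd l W Q τ (δ + φ) r x⁻¹ := by
  classical
  have hlx : l x⁻¹ ≤ r := by rw [hinv]; exact hx.1
  refine ⟨hlx, ?_⟩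
  have h1 : devi W Q τ x⁻¹ ≤ devi W Q τ x + ((Q.image fun z => z * x⁻¹) \ Q).card := by
    unfold devi
    refine le_trans ?_ (Finset.card_union_le _ _)
    refine Finset.card_le_card_of_injOn (fun z => z * x⁻¹) ?_
      (fun a _ b _ h => mul_right_cancel h)
    intro z hz
    have h1 := Finset.mem_filter.1 hz
    refine Finset.mem_coe.2 (Finset.mem_union.2 ?_)
    by_cases h : z * x⁻¹ ∈ Q
    · refine Or.inl (Finset.mem_filter.2 ⟨h, ?_⟩)
      rw [inv_mul_cancel_right, norm_sub_rev]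
      exact h1.2
    · exact Or.inr (Finset.mem_sdiff.2 ⟨Finset.mem_image_of_mem _ h1.1, h⟩)
  have h2 : (devi W Q τ x⁻¹ : ℝ) ≤ devi W Q τ x + ((Q.image fun z => z * x⁻¹) \ Q).card := by
    exact_mod_cast h1
  have h3 := hQ x⁻¹ hlx
  have h4 := hx.2
  linarith

end Agent.P188.H428

end

section

/-!
# Fixed displacements modulo the commutator subgroup
-/

set_option linter.unusedSectionVars false

namespace Agent.P188.H428

open Finset

variable {G : Type*} [Group G] [DecidableEq G]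
variable {E : Type*} [NormedAddCommGroup E]

/-- A big box `B` and a small box `Bs` in `N` at scale `R1`. -/
structure Boxes (l : G → ℕ) (N : Subgroup G) (C1 M R1 : ℕ) (B Bs : Finset G) : Prop where
  ne : Bs.Nonempty
  sub : Bs ⊆ B
  mem : ∀ n ∈ B, n ∈ N
  len : ∀ n ∈ B, l n ≤ C1 * R1
  card : B.card ≤ M * Bs.card
  shift : ∀ a ∈ Bs, ∀ b ∈ Bs, B.card ≤ 2 * (B.filter fun n => n * (a⁻¹ * b) ∈ B).card

open Classical in
/-- Flatness of `W` on all translates of the box, for most points. -/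
def Flat (l : G → ℕ) (W : G → E) (R1 : ℕ) (B : Finset G) (α ε : ℝ) : Prop :=
  ∀ Y, ∃ c, ∀ g, l g ≤ R1 →
    ((B.filter fun n => α < ‖W (Y * (n * g)) - c‖).card : ℝ) ≤ ε * B.card

end Agent.P188.H428

end

section

/-!
# Concentration: every right translation moves `W` little at most points
-/

set_option linter.unusedSectionVars false

namespace Agent.P188.H428

open Finset
open scoped commutatorElement

variable {G : Type*} [Group G] [DecidableEq G]
variable {E : Type*} [NormedAddCommGroup E]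

/-- Bounded generation by commutators with length control. -/
def Gen (l : G → ℕ) (N : Subgroup G) (p Cg : ℕ) : Prop :=
  ∀ i R : ℕ, 1 ≤ R → ∀ x ∈ lcs N (i + 1), l x ≤ R → ∃ ps : List (G × G), ps.length ≤ p ∧
    (∀ q ∈ ps, q.1 ∈ lcs N i ∧ q.2 ∈ N ∧ l q.1 ≤ Cg * R ∧ l q.2 ≤ Cg * R) ∧
    x⁻¹ * (ps.map fun q => ⁅q.1, q.2⁆).prod ∈ lcs N (i + 2)

/-- Elements of length `≤ J * R` are products of `J` elements of length `≤ R`. -/
def Cut (l : G → ℕ) : Prop :=
  ∀ R J : ℕ, 1 ≤ R → ∀ x, l x ≤ J * R → ∃ g : Fin J → G, (∀ i, l (g i) ≤ R) ∧ xp J g = x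

/-- length functions -/
structure IsLen (l : G → ℕ) : Prop where
  one : l 1 = 0
  mul : ∀ x y, l (x * y) ≤ l x + l y
  inv : ∀ x, l x⁻¹ = l x
  cut : Cut l

/-- All the data at the base scale `R1`. -/
structure Setup (l : G → ℕ) (N : Subgroup G) (C1 M : ℕ) (W : G → E) (L : ℝ) (R1 : ℕ)
    (B Bs : Finset G) (α ε κ : ℝ) : Prop where
  hR1 : 1 ≤ R1
  hL : 0 ≤ L
  hW : ∀ z h, ‖W (z * h) - W z‖ ≤ L * l h
  box : Boxes l N C1 M R1 B Bs
  hα : 0 ≤ α
  hκ : 0 < κ
  hε0 : 0 ≤ ε
  hε : M * ε * ((1024 : ℝ) ^ (1 / κ)) ^ 2 ≤ 1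
  flat : Flat l W R1 B α ε

/-- rate of invariance needed -/
noncomputable def tht (B : Finset G) : ℝ := 1 / (16 * ((B.card : ℝ) * B.card))

/-- drift per unit of `J`. -/
noncomputable def tau (C1 R1 : ℕ) (L α κ : ℝ) : ℝ := 2 * α + L * ((2 * C1 + 1) * R1 : ℕ) * κ

lemma tht_pos {B : Finset G} (hB : B.Nonempty) : 0 < tht B := by
  have : (0 : ℝ) < B.card := by exact_mod_cast hB.card_pos
  unfold tht; positivity

lemma tht_le {B : Finset G} (hB : B.Nonempty) : tht B ≤ 1 / 16 := by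
  have h1 : (1 : ℝ) ≤ B.card := by exact_mod_cast hB.card_pos
  unfold tht
  have : (16 : ℝ) ≤ 16 * ((B.card : ℝ) * B.card) := by nlinarith
  exact one_div_le_one_div_of_le (by norm_num) this

/-- invariance condition at scale `J`. -/
def FolJ (l : G → ℕ) (R1 : ℕ) (B Q : Finset G) (F J : ℕ) : Prop :=
  Fol l Q (F * (R1 * J)) (tht B ^ (F * J))

lemma FolJ.use {l : G → ℕ} {R1 : ℕ} {B Q : Finset G} {F J : ℕ} (hB : B.Nonempty)
    (h : FolJ l R1 B Q F J) {r k : ℕ} (hr : r ≤ F * (R1 * J)) (hk : k ≤ F * J) :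
    Fol l Q r (tht B ^ k) := by
  intro y hy
  refine (h y (hy.trans hr)).trans (mul_le_mul_of_nonneg_right ?_ (Nat.cast_nonneg _))
  exact pow_le_pow_of_le_one (tht_pos hB).le ((tht_le hB).trans (by norm_num)) hk

lemma FolJ.scale {l : G → ℕ} {R1 : ℕ} {B Q : Finset G} {F F' k J : ℕ} (hB : B.Nonempty)
    (h : FolJ l R1 B Q F J) (hk : F' * k ≤ F) : FolJ l R1 B Q F' (k * J) := by
  refine h.use hB ?_ ?_
  · calc F' * (R1 * (k * J)) = (F' * k) * (R1 * J) := by ring
      _ ≤ F * (R1 * J) := Nat.mul_le_mul_right _ hk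
  · calc F' * (k * J) = (F' * k) * J := by ring
      _ ≤ F * J := Nat.mul_le_mul_right _ hk

lemma Setup.tau_nonneg {l : G → ℕ} {N : Subgroup G} {C1 M : ℕ} {W : G → E} {L : ℝ} {R1 : ℕ}
    {B Bs : Finset G} {α ε κ : ℝ} (S : Setup l N C1 M W L R1 B Bs α ε κ) :
    0 ≤ tau C1 R1 L α κ := by
  have h1 := S.hL
  have h2 := S.hα
  have h3 := S.hκ
  unfold tau; positivity

lemma Gd.comm {l : G → ℕ} (hl : IsLen l) {W : G → E} {Q : Finset G} {τ1 τ2 δ1 δ2 φ : ℝ}
    {r1 r2 : ℕ} {x y : G} (hx : Gd l W Q τ1 δ1 r1 x) (hy : Gd l W Q τ2 δ2 r2 y)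
    (hQ : Fol l Q (2 * (r1 + r2)) φ) :
    Gd l W Q (2 * (τ1 + τ2)) (2 * (δ1 + δ2) + 5 * φ) (2 * (r1 + r2)) ⁅x, y⁆ := by
  have f : ∀ r ≤ 2 * (r1 + r2), Fol l Q r φ := fun r hr z hz => hQ z (hz.trans hr)
  have h1 := hx.mul hl.mul hy (f r1 (by omega))
  have h2 := h1.mul hl.mul (hx.inv hl.inv (f r1 (by omega))) (f _ (by omega))
  have h3 := h2.mul hl.mul (hy.inv hl.inv (f r2 (by omega))) (f _ (by omega))
  rw [commutatorElement_def]
  exact h3.mono (by linarith) (by linarith) (by omega)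

lemma Gd.list_prod {l : G → ℕ} (hl : IsLen l) {W : G → E} {Q : Finset G} {τ δ φ : ℝ}
    {r : ℕ} (xs : List G) (hxs : ∀ x ∈ xs, Gd l W Q τ δ r x)
    (hQ : Fol l Q (xs.length * r) φ) (hφ : 0 ≤ φ) :
    Gd l W Q (xs.length * τ) (xs.length * (δ + φ)) (xs.length * r) xs.prod := by
  induction xs with
  | nil =>
    refine ⟨by simp [hl.one], ?_⟩
    simp [devi]
  | cons x xs ih =>
    have h1 := hxs x List.mem_cons_self
    have hlen : (x :: xs).length = xs.length + 1 := rfl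
    rw [hlen] at hQ ⊢
    have h2 := ih (fun y hy => hxs y (List.mem_cons_of_mem _ hy))
      (fun y hy => hQ y (hy.trans (by nlinarith)))
    have h3 := h1.mul hl.mul h2 (fun y hy => hQ y (hy.trans (by nlinarith)))
    rw [List.prod_cons]
    refine h3.mono ?_ ?_ ?_
    · push_cast; apply le_of_eq; ring
    · push_cast; linarith
    · apply le_of_eq; ring

end Agent.P188.H428

end
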