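import Mathlib
import Vale.Agent.P188.Defs
import Vale.Agent.P188.R.G014

section

/-!
Coarse maps between groups, in terms of finite sets, and poly-`ℤ` groups (auxiliary notions).
-/

universe u v w

namespace Vale.Agent.P188

/-- `F` is bornologous: it maps pairs at bounded distance to pairs at bounded distance. -/
def Coarse {H : Type u} {G : Type v} [Group H] [Group G] (F : H → G) : Prop :=
  ∀ A : Set H, A.Finite → ∃ B : Set G, B.Finite ∧ ∀ x y : H, x⁻¹ * y ∈ A → (F x)⁻¹ * F y ∈ B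

/-- `f` is at bounded distance from the identity. -/
def CloseId {H : Type u} [Group H] (f : H → H) : Prop :=
  ∃ E : Set H, E.Finite ∧ ∀ x : H, x⁻¹ * f x ∈ E

/-- Coarse equivalence of groups. -/
def CoarseEquiv (H : Type u) (G : Type v) [Group H] [Group G] : Prop :=
  ∃ (F : H → G) (F' : G → H), Coarse F ∧ Coarse F' ∧ CloseId (F' ∘ F) ∧ CloseId (F ∘ F')

/-- Poly-`ℤ` groups of length `n`. -/
def PolyZ : ℕ → ∀ (G : Type u) [Group G], Prop
  | 0, G, _ => Subsingleton G
  | n + 1, G, _ => ∃ φ : G →* Multiplicative ℤ, Function.Surjective φ ∧ PolyZ n φ.ker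

end Vale.Agent.P188

end

section

/-!
Chains on lists: the augmented all tuples complex of a set, as finitely supported
functions on lists, with boundary, cone, push-forward and prism operators.
-/

universe u v w

namespace Vale.Agent.P188

open Finsupp

variable {X : Type u} {Y : Type v} {Z : Type w}

/-- Chains: integer combinations of lists. -/
abbrev Ch (X : Type u) := List X →₀ ℤ

/-- Prepend a vertex. -/
noncomputable def cns (x : X) : Ch X →ₗ[ℤ] Ch X := Finsupp.lmapDomain ℤ ℤ (List.cons x)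

@[simp] lemma cns_single (x : X) (l : List X) (a : ℤ) :
    cns x (single l a) = single (x :: l) a := by
  simp [cns, Finsupp.lmapDomain_apply, Finsupp.mapDomain_single]

/-- The boundary of a list. -/
noncomputable def dl : List X → Ch X
  | [] => 0
  | x :: t => single t 1 - cns x (dl t)

/-- The boundary operator. -/
noncomputable def bd : Ch X →ₗ[ℤ] Ch X := Finsupp.linearCombination ℤ dl

@[simp] lemma bd_single (l : List X) (a : ℤ) : bd (single l a) = a • dl l := by
  simp [bd, Finsupp.linearCombination_single]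

@[simp] lemma dl_nil : dl ([] : List X) = 0 := rfl

lemma dl_cons (x : X) (t : List X) : dl (x :: t) = single t 1 - cns x (dl t) := rfl

/-- Two linear maps on chains agree if they agree on lists. -/
lemma lin_ext {M : Type*} [AddCommGroup M] {f g : Ch X →ₗ[ℤ] M}
    (h : ∀ l, f (single l 1) = g (single l 1)) : f = g := by
  apply Finsupp.lhom_ext'
  intro l
  apply LinearMap.ext_ring
  simpa using h l

lemma bd_cns (x : X) (u : Ch X) : bd (cns x u) = u - cns x (bd u) := by
  have : (bd ∘ₗ cns x : Ch X →ₗ[ℤ] Ch X) = LinearMap.id - cns x ∘ₗ bd := by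
    apply lin_ext
    intro l
    simp [dl_cons]
  have := LinearMap.congr_fun this u
  simpa using this

lemma bd_dl (l : List X) : bd (dl l) = 0 := by
  induction l with
  | nil => simp
  | cons x t ih => rw [dl_cons, map_sub, bd_cns, ih]; simp

@[simp] lemma bd_bd (u : Ch X) : bd (bd u) = 0 := by
  have : (bd ∘ₗ bd : Ch X →ₗ[ℤ] Ch X) = 0 := by
    apply lin_ext
    intro l
    simp [bd_dl]
  exact LinearMap.congr_fun this u

/-- Push-forward of chains. -/
noncomputable def pf (f : X → Y) : Ch X →ₗ[ℤ] Ch Y := Finsupp.lmapDomain ℤ ℤ (List.map f)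

@[simp] lemma pf_single (f : X → Y) (l : List X) (a : ℤ) :
    pf f (single l a) = single (l.map f) a := by
  simp [pf, Finsupp.lmapDomain_apply, Finsupp.mapDomain_single]

lemma pf_cns (f : X → Y) (x : X) (u : Ch X) : pf f (cns x u) = cns (f x) (pf f u) := by
  have : (pf f ∘ₗ cns x : Ch X →ₗ[ℤ] Ch Y) = cns (f x) ∘ₗ pf f := by
    apply lin_ext
    intro l
    simp
  exact LinearMap.congr_fun this u

lemma pf_dl (f : X → Y) (l : List X) : pf f (dl l) = dl (l.map f) := by
  induction l with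
  | nil => simp
  | cons x t ih => rw [dl_cons, map_sub, pf_cns, ih]; simp [dl_cons]

lemma bd_pf (f : X → Y) (u : Ch X) : bd (pf f u) = pf f (bd u) := by
  have : (bd ∘ₗ pf f : Ch X →ₗ[ℤ] Ch Y) = pf f ∘ₗ bd := by
    apply lin_ext
    intro l
    simp [pf_dl]
  exact LinearMap.congr_fun this u

lemma pf_comp (f : X → Y) (g : Y → Z) (u : Ch X) : pf g (pf f u) = pf (g ∘ f) u := by
  have : (pf g ∘ₗ pf f : Ch X →ₗ[ℤ] Ch Z) = pf (g ∘ f) := by
    apply lin_ext
    intro l
    simp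
  exact LinearMap.congr_fun this u

lemma pf_id (u : Ch X) : pf (fun x => x) u = u := by
  have : (pf (fun x => x) : Ch X →ₗ[ℤ] Ch X) = LinearMap.id := by
    apply lin_ext
    intro l
    simp
  exact LinearMap.congr_fun this u

/-- The prism of a list with respect to a self-map. -/
noncomputable def prl (f : X → X) : List X → Ch X
  | [] => 0
  | x :: t => single (x :: f x :: t.map f) 1 - cns x (prl f t)

/-- The prism operator. -/
noncomputable def pr (f : X → X) : Ch X →ₗ[ℤ] Ch X := Finsupp.linearCombination ℤ (prl f)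

@[simp] lemma pr_single (f : X → X) (l : List X) (a : ℤ) : pr f (single l a) = a • prl f l := by
  simp [pr, Finsupp.linearCombination_single]

lemma prl_cons (f : X → X) (x : X) (t : List X) :
    prl f (x :: t) = single (x :: f x :: t.map f) 1 - cns x (prl f t) := rfl

lemma pr_cns (f : X → X) (x : X) (u : Ch X) :
    pr f (cns x u) = cns x (cns (f x) (pf f u)) - cns x (pr f u) := by
  have : (pr f ∘ₗ cns x : Ch X →ₗ[ℤ] Ch X) =
      cns x ∘ₗ cns (f x) ∘ₗ pf f - cns x ∘ₗ pr f := by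
    apply lin_ext
    intro l
    simp [prl_cons]
  have := LinearMap.congr_fun this u
  simpa using this

lemma bd_prl (f : X → X) (l : List X) :
    bd (prl f l) + pr f (dl l) = single (l.map f) 1 - single l 1 := by
  induction l with
  | nil => simp [prl]
  | cons x t ih =>
    have h1 : bd (prl f (x :: t)) = single (f x :: t.map f) 1 - cns x (single (t.map f) 1)
        + cns x (cns (f x) (dl (t.map f))) - prl f t + cns x (bd (prl f t)) := by
      rw [prl_cons, map_sub, bd_cns]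
      simp only [bd_single, one_smul, dl_cons, map_sub]
      simp only [cns_single]
      abel
    have h2 : pr f (dl (x :: t)) = prl f t - cns x (cns (f x) (dl (t.map f)))
        + cns x (pr f (dl t)) := by
      rw [dl_cons, map_sub, pr_cns, pf_dl]
      simp only [pr_single, one_smul]
      abel
    have h3 : cns x (bd (prl f t)) + cns x (pr f (dl t)) =
        cns x (single (t.map f) 1) - single (x :: t) 1 := by
      rw [← map_add, ih, map_sub]; simp
    rw [h1, h2]
    have : single (f x :: List.map f t) (1:ℤ) = single (List.map f (x :: t)) 1 := by simp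
    rw [this]
    rw [← sub_eq_zero] at h3 ⊢
    rw [← h3]
    abel

lemma bd_pr (f : X → X) (u : Ch X) : bd (pr f u) + pr f (bd u) = pf f u - u := by
  have : (bd ∘ₗ pr f + pr f ∘ₗ bd : Ch X →ₗ[ℤ] Ch X) = pf f - LinearMap.id := by
    apply lin_ext
    intro l
    simpa using bd_prl f l
  exact LinearMap.congr_fun this u

end Vale.Agent.P188

end

section

/-!
Polycyclic subgroups of a fixed ambient group, described by explicit cyclic steps.
-/

universe u v w

namespace Vale.Agent.P188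

open Pointwise

section basics

variable {G : Type u} [Group G]

/-- If `t` normalises `U` then the elements `t ^ b * u` form a subgroup. -/
def adjoinCyc (U : Subgroup G) (t : G) (h1 : ∀ n ∈ U, t * n * t⁻¹ ∈ U)
    (h2 : ∀ n ∈ U, t⁻¹ * n * t ∈ U) : Subgroup G where
  carrier := {x | ∃ b : ℤ, (t ^ b)⁻¹ * x ∈ U}
  one_mem' := ⟨0, by simp⟩
  mul_mem' := by
    rintro x y ⟨a, ha⟩ ⟨b, hb⟩
    refine ⟨a + b, ?_⟩
    have key : ∀ (b : ℤ) (n : G), n ∈ U → (t ^ b)⁻¹ * n * t ^ b ∈ U := by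
      intro b
      induction b using Int.induction_on with
      | zero => intro n hn; simpa using hn
      | succ i ih =>
        intro n hn
        have := h2 _ (ih n hn)
        have e : (t ^ ((i : ℤ) + 1))⁻¹ * n * t ^ ((i : ℤ) + 1)
            = t⁻¹ * ((t ^ (i : ℤ))⁻¹ * n * t ^ (i : ℤ)) * t := by
          rw [zpow_add_one]; group
        rw [e]; exact this
      | pred i ih =>
        intro n hn
        have := h1 _ (ih n hn)
        have e : (t ^ (-(i : ℤ) - 1))⁻¹ * n * t ^ (-(i : ℤ) - 1)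
            = t * ((t ^ (-(i : ℤ)))⁻¹ * n * t ^ (-(i : ℤ))) * t⁻¹ := by
          rw [zpow_sub_one]; group
        rw [e]; exact this
    have e : (t ^ (a + b))⁻¹ * (x * y)
        = ((t ^ b)⁻¹ * ((t ^ a)⁻¹ * x) * t ^ b) * ((t ^ b)⁻¹ * y) := by
      rw [zpow_add]; group
    rw [e]
    exact U.mul_mem (key b _ ha) hb
  inv_mem' := by
    rintro x ⟨a, ha⟩
    refine ⟨-a, ?_⟩
    have key : ∀ (b : ℤ) (n : G), n ∈ U → (t ^ b)⁻¹ * n * t ^ b ∈ U := by
      intro b
      induction b using Int.induction_on with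
      | zero => intro n hn; simpa using hn
      | succ i ih =>
        intro n hn
        have := h2 _ (ih n hn)
        have e : (t ^ ((i : ℤ) + 1))⁻¹ * n * t ^ ((i : ℤ) + 1)
            = t⁻¹ * ((t ^ (i : ℤ))⁻¹ * n * t ^ (i : ℤ)) * t := by
          rw [zpow_add_one]; group
        rw [e]; exact this
      | pred i ih =>
        intro n hn
        have := h1 _ (ih n hn)
        have e : (t ^ (-(i : ℤ) - 1))⁻¹ * n * t ^ (-(i : ℤ) - 1)
            = t * ((t ^ (-(i : ℤ)))⁻¹ * n * t ^ (-(i : ℤ))) * t⁻¹ := by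
          rw [zpow_sub_one]; group
        rw [e]; exact this
    have h := key (-a) _ (U.inv_mem ha)
    have e : (t ^ (-a))⁻¹ * x⁻¹ = (t ^ (-a))⁻¹ * ((t ^ a)⁻¹ * x)⁻¹ * t ^ (-a) := by
      rw [zpow_neg]; group
    rw [e]; exact h

theorem conj_zpow {U : Subgroup G} {t : G} (h1 : ∀ n ∈ U, t * n * t⁻¹ ∈ U)
    (h2 : ∀ n ∈ U, t⁻¹ * n * t ∈ U) (b : ℤ) (n : G) (hn : n ∈ U) :
    t ^ b * n * (t ^ b)⁻¹ ∈ U := by
  induction b using Int.induction_on generalizing n with
  | zero => simpa using hn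
  | succ i ih =>
    have := h1 _ (ih n hn)
    have e : t ^ ((i : ℤ) + 1) * n * (t ^ ((i : ℤ) + 1))⁻¹
        = t * (t ^ (i : ℤ) * n * (t ^ (i : ℤ))⁻¹) * t⁻¹ := by
      have : t ^ ((i : ℤ) + 1) = t * t ^ (i : ℤ) := by rw [add_comm, zpow_one_add]
      rw [this]; group
    rw [e]; exact this
  | pred i ih =>
    have := h2 _ (ih n hn)
    have e : t ^ (-(i : ℤ) - 1) * n * (t ^ (-(i : ℤ) - 1))⁻¹
        = t⁻¹ * (t ^ (-(i : ℤ)) * n * (t ^ (-(i : ℤ)))⁻¹) * t := by
      have : t ^ (-(i : ℤ) - 1) = t⁻¹ * t ^ (-(i : ℤ)) := by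
        rw [sub_eq_add_neg, add_comm, zpow_add, zpow_neg_one]
      rw [this]; group
    rw [e]; exact this

/-- `M` is obtained from its normal subgroup `N` by adding the element `t`. -/
structure CycStep (N M : Subgroup G) (t : G) : Prop where
  le : N ≤ M
  mem : t ∈ M
  conj : ∀ n ∈ N, t * n * t⁻¹ ∈ N
  conj' : ∀ n ∈ N, t⁻¹ * n * t ∈ N
  dec : ∀ g ∈ M, ∃ k : ℤ, (t ^ k)⁻¹ * g ∈ N

theorem CycStep.normal {N M : Subgroup G} {t : G} (h : CycStep N M t) {g n : G} (hg : g ∈ M)
    (hn : n ∈ N) : g * n * g⁻¹ ∈ N := by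
  obtain ⟨k, hk⟩ := h.dec g hg
  have e : g * n * g⁻¹ = t ^ k * (((t ^ k)⁻¹ * g) * n * ((t ^ k)⁻¹ * g)⁻¹) * (t ^ k)⁻¹ := by
    group
  rw [e]
  exact conj_zpow h.conj h.conj' k _ (N.mul_mem (N.mul_mem hk hn) (N.inv_mem hk))

/-- Polycyclic subgroups. -/
inductive PCS : Subgroup G → Prop
  | bot : PCS ⊥
  | step {N M : Subgroup G} {t : G} : PCS N → CycStep N M t → PCS M

theorem PCS.fg {M : Subgroup G} (h : PCS M) : M.FG := by
  induction h with
  | bot => exact ⟨∅, by simp⟩
  | @step N M t _ hs ih =>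
    classical
    obtain ⟨S, hS⟩ := ih
    refine ⟨insert t S, le_antisymm ?_ ?_⟩
    · rw [Subgroup.closure_le]
      intro x hx
      rcases Finset.mem_insert.1 (by exact_mod_cast hx) with rfl | hx
      · exact hs.mem
      · exact hs.le (hS ▸ Subgroup.subset_closure hx)
    · intro g hg
      obtain ⟨k, hk⟩ := hs.dec g hg
      have e : g = t ^ k * ((t ^ k)⁻¹ * g) := by group
      rw [e]
      refine Subgroup.mul_mem _ (Subgroup.zpow_mem _ (Subgroup.subset_closure (by simp)) _) ?_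
      rw [← hS] at hk
      exact Subgroup.closure_mono (by intro x hx; simp [Finset.mem_coe.1 hx]) hk

theorem PCS.map {G' : Type v} [Group G'] (f : G →* G') {M : Subgroup G} (h : PCS M) :
    PCS (M.map f) := by
  induction h with
  | bot => rw [Subgroup.map_bot]; exact .bot
  | @step N M t _ hs ih =>
    refine .step ih (t := f t) ⟨Subgroup.map_mono hs.le, Subgroup.mem_map_of_mem f hs.mem, ?_, ?_, ?_⟩
    · rintro _ ⟨n, hn, rfl⟩
      exact ⟨t * n * t⁻¹, hs.conj n hn, by simp⟩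
    · rintro _ ⟨n, hn, rfl⟩
      exact ⟨t⁻¹ * n * t, hs.conj' n hn, by simp⟩
    · rintro _ ⟨g, hg, rfl⟩
      obtain ⟨k, hk⟩ := hs.dec g hg
      exact ⟨k, ⟨_, hk, by simp⟩⟩

theorem PCS.comap_injective {G' : Type v} [Group G'] (f : G' →* G) (hf : Function.Injective f)
    {M : Subgroup G} (h : PCS M) : PCS (M.comap f) := by
  induction h with
  | bot =>
    have : (⊥ : Subgroup G).comap f = ⊥ := by
      rw [MonoidHom.comap_bot, (MonoidHom.ker_eq_bot_iff f).2 hf]
    rw [this]; exact .bot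
  | @step N M t _ hs ih =>
    let D : AddSubgroup ℤ :=
      { carrier := {k | ∃ g ∈ M.comap f, (t ^ k)⁻¹ * f g ∈ N}
        zero_mem' := ⟨1, one_mem _, by simp⟩
        add_mem' := by
          rintro a b ⟨g, hg, hga⟩ ⟨g', hg', hgb⟩
          refine ⟨g * g', mul_mem hg hg', ?_⟩
          have e : (t ^ (a + b))⁻¹ * f (g * g')
              = ((t ^ (-b)) * ((t ^ a)⁻¹ * f g) * (t ^ (-b))⁻¹) * ((t ^ b)⁻¹ * f g') := by
            rw [zpow_add, zpow_neg, map_mul]; group
          rw [e]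
          exact N.mul_mem (conj_zpow hs.conj hs.conj' _ _ hga) hgb
        neg_mem' := by
          rintro a ⟨g, hg, hga⟩
          refine ⟨g⁻¹, inv_mem hg, ?_⟩
          have e : (t ^ (-a))⁻¹ * f g⁻¹
              = t ^ a * ((t ^ a)⁻¹ * f g)⁻¹ * (t ^ a)⁻¹ := by
            rw [zpow_neg, map_inv]; group
          rw [e]
          exact conj_zpow hs.conj hs.conj' _ _ (N.inv_mem hga) }
    obtain ⟨d, hd⟩ := Int.subgroup_cyclic D
    obtain ⟨s, hsM, hsd⟩ : d ∈ D := by
      rw [hd]; exact AddSubgroup.subset_closure rfl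
    refine .step ih (t := s) ⟨Subgroup.comap_mono hs.le, hsM, ?_, ?_, ?_⟩
    · intro n hn
      have : f s * f n * (f s)⁻¹ ∈ N := hs.normal hsM hn
      simpa using this
    · intro n hn
      have : (f s)⁻¹ * f n * ((f s)⁻¹)⁻¹ ∈ N := hs.normal (M.inv_mem hsM) hn
      simpa using this
    · intro g hg
      obtain ⟨k, hk⟩ := hs.dec (f g) hg
      have hkD : k ∈ D := ⟨g, hg, hk⟩
      rw [hd, AddSubgroup.mem_closure_singleton] at hkD
      obtain ⟨c, rfl⟩ := hkD
      refine ⟨c, ?_⟩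
      have h1 : (t ^ (c * d))⁻¹ * f s ^ c ∈ N := by
        have : ∀ c : ℤ, (t ^ (c * d))⁻¹ * f s ^ c ∈ N := by
          intro c
          induction c using Int.induction_on with
          | zero => simp
          | succ i ih =>
            have e : (t ^ (((i : ℤ) + 1) * d))⁻¹ * f s ^ ((i : ℤ) + 1)
                = (t ^ (-d) * ((t ^ ((i : ℤ) * d))⁻¹ * f s ^ (i : ℤ)) * (t ^ (-d))⁻¹) *
                  ((t ^ d)⁻¹ * f s) := by
              rw [add_mul, one_mul, zpow_add, zpow_add_one, zpow_neg]; group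
            rw [e]
            exact N.mul_mem (conj_zpow hs.conj hs.conj' _ _ ih) hsd
          | pred i ih =>
            have e : (t ^ ((-(i : ℤ) - 1) * d))⁻¹ * f s ^ (-(i : ℤ) - 1)
                = (t ^ d * (((t ^ ((-(i : ℤ)) * d))⁻¹ * f s ^ (-(i : ℤ))) *
                  ((t ^ d)⁻¹ * f s)⁻¹) * (t ^ d)⁻¹) := by
              rw [sub_mul, one_mul, zpow_sub, zpow_sub_one]; group
            rw [e]
            exact conj_zpow hs.conj hs.conj' _ _ (N.mul_mem ih (N.inv_mem hsd))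
        exact this c
      have e : f ((s ^ c)⁻¹ * g) = ((t ^ (c * d))⁻¹ * f s ^ c)⁻¹ * ((t ^ (c * d))⁻¹ * f g) := by
        rw [map_mul, map_inv, map_zpow]; group
      show f ((s ^ c)⁻¹ * g) ∈ N
      rw [e]
      have h2 : (t ^ (c * d))⁻¹ * f g ∈ N := by simpa using hk
      exact N.mul_mem (N.inv_mem h1) h2

theorem PCS.le {M K : Subgroup G} (h : PCS M) (hK : K ≤ M) : PCS K := by
  have h1 := (h.comap_injective K.subtype K.subtype_injective).map K.subtype
  have : (M.comap K.subtype).map K.subtype = K := by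
    ext x
    simp only [Subgroup.mem_map, Subgroup.mem_comap, Subgroup.coe_subtype, Subtype.exists,
      exists_and_right, exists_eq_right]
    exact ⟨fun ⟨h, _⟩ => h, fun h => ⟨h, hK h⟩⟩
  rwa [this] at h1

end basics

end Vale.Agent.P188

end

section

/-!
Quasi-isometric groups are coarsely equivalent; coarse equivalence is an equivalence relation.
-/

universe u v w

namespace Vale.Agent.P188

open Pointwise

section WordDist

variable {H : Type u} [Group H]

lemma wordDist_list {S : Set H} (hS : Subgroup.closure S = ⊤) (x y : H) :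
    ∃ l : List H, l.length = wordDist S x y ∧ (∀ a ∈ l, a ∈ S ∨ a⁻¹ ∈ S) ∧
      l.prod = x⁻¹ * y := by
  have hne : {n : ℕ | ∃ l : List H, l.length = n ∧ (∀ a ∈ l, a ∈ S ∨ a⁻¹ ∈ S) ∧
      l.prod = x⁻¹ * y}.Nonempty := by
    have hmem : x⁻¹ * y ∈ (Subgroup.closure S).toSubmonoid := by rw [hS]; trivial
    rw [Subgroup.closure_toSubmonoid] at hmem
    obtain ⟨l, hl, hp⟩ := Submonoid.exists_list_of_mem_closure hmem
    exact ⟨l.length, l, rfl, fun a ha => hl a ha, hp⟩
  exact Nat.sInf_mem hne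

lemma finite_ball {S : Set H} (hS : Subgroup.closure S = ⊤) (hfin : S.Finite) (n : ℕ) :
    ∃ B : Set H, B.Finite ∧ ∀ x y : H, wordDist S x y ≤ n → x⁻¹ * y ∈ B := by
  have hU : (S ∪ S⁻¹).Finite := hfin.union hfin.inv
  have hL : {l : List H | (∀ a ∈ l, a ∈ S ∪ S⁻¹) ∧ l.length ≤ n}.Finite := by
    have : Finite ↥(S ∪ S⁻¹) := hU.to_subtype
    have h1 := List.finite_length_le (↥(S ∪ S⁻¹)) n
    refine (h1.image (fun l => l.map Subtype.val)).subset ?_
    rintro l ⟨hl, hn⟩
    refine ⟨l.pmap (fun a h => ⟨a, h⟩) hl, by simpa using hn, ?_⟩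
    simp only
    rw [List.map_pmap]
    simp
  refine ⟨List.prod '' {l : List H | (∀ a ∈ l, a ∈ S ∪ S⁻¹) ∧ l.length ≤ n}, hL.image _, ?_⟩
  intro x y hxy
  obtain ⟨l, hl, ha, hp⟩ := wordDist_list hS x y
  refine ⟨l, ⟨fun a h => ?_, by omega⟩, hp⟩
  rcases ha a h with h | h
  · exact Or.inl h
  · exact Or.inr h

lemma bounded_wordDist (S : Set H) {A : Set H} (hA : A.Finite) :
    ∃ n : ℕ, ∀ x y : H, x⁻¹ * y ∈ A → wordDist S x y ≤ n := by
  obtain ⟨M, hM⟩ := (hA.image (fun g => wordDist S 1 g)).bddAbove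
  refine ⟨M, fun x y hxy => ?_⟩
  have : wordDist S x y = wordDist S 1 (x⁻¹ * y) := by
    simp [wordDist]
  rw [this]
  exact hM ⟨_, hxy, rfl⟩

end WordDist

lemma Coarse.comp {H : Type u} {G : Type v} {K : Type w} [Group H] [Group G] [Group K]
    {F' : G → K} {F : H → G} (hF' : Coarse F') (hF : Coarse F) : Coarse (F' ∘ F) := by
  intro A hA
  obtain ⟨B, hB, hB'⟩ := hF A hA
  obtain ⟨C, hC, hC'⟩ := hF' B hB
  exact ⟨C, hC, fun x y hxy => hC' _ _ (hB' x y hxy)⟩

lemma CoarseEquiv.symm {H : Type u} {G : Type v} [Group H] [Group G] (h : CoarseEquiv H G) :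
    CoarseEquiv G H := by
  obtain ⟨F, F', h1, h2, h3, h4⟩ := h
  exact ⟨F', F, h2, h1, h4, h3⟩

lemma closeId_aux {H : Type u} {G : Type v} {K : Type w} [Group H] [Group G] [Group K]
    {F : H → G} {F' : G → H} (hF' : Coarse F') (hc : CloseId (F' ∘ F))
    {E : G → K} {E' : K → G} (hc' : CloseId (E' ∘ E)) :
    CloseId ((F' ∘ E') ∘ (E ∘ F)) := by
  obtain ⟨A, hA, hA'⟩ := hc
  obtain ⟨B, hB, hB'⟩ := hc'
  obtain ⟨C, hC, hC'⟩ := hF' B hB
  refine ⟨A * C, hA.mul hC, fun x => ?_⟩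
  refine ⟨x⁻¹ * F' (F x), hA' x, (F' (F x))⁻¹ * F' (E' (E (F x))), hC' _ _ (hB' (F x)), ?_⟩
  simp only [Function.comp_apply]
  group

lemma CoarseEquiv.trans {H : Type u} {G : Type v} {K : Type w} [Group H] [Group G] [Group K]
    (h : CoarseEquiv H G) (h' : CoarseEquiv G K) : CoarseEquiv H K := by
  obtain ⟨F, F', h1, h2, h3, h4⟩ := h
  obtain ⟨E, E', k1, k2, k3, k4⟩ := h'
  exact ⟨E ∘ F, F' ∘ E', k1.comp h1, h2.comp k2, closeId_aux h2 h3 k3, closeId_aux k1 k4 h4⟩

theorem QuasiIsometric.coarseEquiv {H : Type u} {G : Type v} [Group H] [Group G]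
    (h : QuasiIsometric H G) : CoarseEquiv H G := by
  obtain ⟨S, T, hS, hT, K, C, hK, hC, F, hF, hsurj⟩ := h
  have hKpos : 0 < K := lt_of_lt_of_le one_pos hK
  choose F' hF' using hsurj
  have cF : Coarse F := by
    intro A hA
    obtain ⟨n, hn⟩ := bounded_wordDist (S : Set H) hA
    obtain ⟨B, hB, hB'⟩ := finite_ball hT T.finite_toSet ⌈K * n + C⌉₊
    refine ⟨B, hB, fun x y hxy => hB' _ _ ?_⟩
    have h1 := (hF x y).2
    have h2 : (wordDist (S : Set H) x y : ℝ) ≤ n := by exact_mod_cast hn x y hxy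
    have h3 : (wordDist (T : Set G) (F x) (F y) : ℝ) ≤ K * n + C := by nlinarith
    exact_mod_cast h3.trans (Nat.le_ceil _)
  have key : ∀ M : ℝ, ∃ B : Set H, B.Finite ∧
      ∀ x y : H, (wordDist (T : Set G) (F x) (F y) : ℝ) ≤ M → x⁻¹ * y ∈ B := by
    intro M
    obtain ⟨B, hB, hB'⟩ := finite_ball hS S.finite_toSet ⌈K * (M + C)⌉₊
    refine ⟨B, hB, fun x y hxy => hB' _ _ ?_⟩
    have h1 := (hF x y).1
    have h2 : K⁻¹ * (wordDist (S : Set H) x y : ℝ) ≤ M + C := by linarith
    have h3 : (wordDist (S : Set H) x y : ℝ) ≤ K * (M + C) := by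
      have := mul_le_mul_of_nonneg_left h2 hKpos.le
      rwa [← mul_assoc, mul_inv_cancel₀ hKpos.ne', one_mul] at this
    exact_mod_cast h3.trans (Nat.le_ceil _)
  obtain ⟨E, hE, hE'⟩ := finite_ball hT T.finite_toSet ⌊C⌋₊
  have hEF : ∀ y : G, y⁻¹ * F (F' y) ∈ E := fun y => hE' _ _ (Nat.le_floor (hF' y))
  refine ⟨F, F', cF, ?_, ?_, ⟨E, hE, hEF⟩⟩
  · intro B hB
    obtain ⟨n, hn⟩ := bounded_wordDist (T : Set G) ((hE.inv.mul hB).mul hE)
    obtain ⟨A, hA, hA'⟩ := key n
    refine ⟨A, hA, fun x y hxy => hA' _ _ ?_⟩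
    have h1 : (F (F' x))⁻¹ * F (F' y) ∈ E⁻¹ * B * E := by
      refine ⟨(x⁻¹ * F (F' x))⁻¹ * (x⁻¹ * y), ⟨_, Set.inv_mem_inv.mpr (hEF x), _, hxy, rfl⟩,
        y⁻¹ * F (F' y), hEF y, ?_⟩
      simp only
      group
    exact_mod_cast hn _ _ h1
  · obtain ⟨A, hA, hA'⟩ := key C
    exact ⟨A, hA, fun x => hA' _ _ (hF' (F x))⟩

end Vale.Agent.P188

end

section

/-!
Supports of chains, controlled chains.
-/

universe u v w

namespace Vale.Agent.P188

open Finsupp Pointwise

variable {X : Type u} {Y : Type v} {Z : Type w}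

/-- Chains supported on lists in `p`. -/
noncomputable def Sp (p : Set (List X)) : Submodule ℤ (Ch X) := Finsupp.supported ℤ ℤ p

lemma mem_Sp {p : Set (List X)} {u : Ch X} : u ∈ Sp p ↔ ∀ l, u l ≠ 0 → l ∈ p := by
  unfold Sp
  rw [Finsupp.mem_supported]
  constructor
  · intro h l hl
    exact h (by simpa using hl)
  · intro h l hl
    exact h l (by simpa using hl)

lemma single_mem_Sp {p : Set (List X)} {l : List X} (hl : l ∈ p) (a : ℤ) :
    single l a ∈ Sp p := by
  rw [mem_Sp]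
  intro l' h
  by_cases hh : l = l'
  · rwa [← hh]
  · exact absurd (Finsupp.single_eq_of_ne (Ne.symm hh)) h

lemma Sp_mono {p q : Set (List X)} (h : p ⊆ q) {u : Ch X} (hu : u ∈ Sp p) : u ∈ Sp q := by
  rw [mem_Sp] at *
  exact fun l hl => h (hu l hl)

lemma Sp_inter {p q : Set (List X)} {u : Ch X} (hp : u ∈ Sp p) (hq : u ∈ Sp q) :
    u ∈ Sp (p ∩ q) := by
  rw [mem_Sp] at *
  exact fun l hl => ⟨hp l hl, hq l hl⟩

/-- A linear map sends chains supported on `p` into `S` if it does so for lists in `p`. -/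
lemma map_mem_of_Sp {M : Type*} [AddCommGroup M] {L : Ch X →ₗ[ℤ] M} {S : Submodule ℤ M}
    {p : Set (List X)} (h : ∀ l ∈ p, L (single l 1) ∈ S) {u : Ch X} (hu : u ∈ Sp p) :
    L u ∈ S := by
  rw [mem_Sp] at hu
  rw [← Finsupp.sum_single u, Finsupp.sum, map_sum]
  apply Submodule.sum_mem
  intro l hl
  have : single l (u l) = (u l) • single l (1 : ℤ) := by simp
  rw [this, map_smul]
  exact Submodule.smul_mem _ _ (h l (hu l (by simpa using hl)))

/-- Two linear maps agree on chains supported on `p` if they agree on lists in `p`. -/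
lemma eq_of_Sp {M : Type*} [AddCommGroup M] {L L' : Ch X →ₗ[ℤ] M}
    {p : Set (List X)} (h : ∀ l ∈ p, L (single l 1) = L' (single l 1)) {u : Ch X}
    (hu : u ∈ Sp p) : L u = L' u := by
  have : (L - L') u ∈ (⊥ : Submodule ℤ M) := by
    apply map_mem_of_Sp (p := p) _ hu
    intro l hl
    simp [h l hl]
  simpa [sub_eq_zero] using this

/-- Lists of length `q`. -/
def Gr (q : ℕ) : Set (List X) := {l | l.length = q}

lemma mem_Gr {q : ℕ} {l : List X} : l ∈ Gr q ↔ l.length = q := Iff.rfl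

/-- Lists with entries in `E`. -/
def On (E : Set X) : Set (List X) := {l | ∀ x ∈ l, x ∈ E}

/-- A set of lists closed under passing to lists with fewer entries. -/
def SubC (p : Set (List X)) : Prop := ∀ l ∈ p, ∀ l' : List X, l' ⊆ l → l' ∈ p

lemma SubC.inter {p q : Set (List X)} (hp : SubC p) (hq : SubC q) : SubC (p ∩ q) :=
  fun l hl l' hs => ⟨hp l hl.1 l' hs, hq l hl.2 l' hs⟩

lemma cns_mem {p q : Set (List X)} {x : X} (h : ∀ l ∈ p, x :: l ∈ q) {u : Ch X}
    (hu : u ∈ Sp p) : cns x u ∈ Sp q := by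
  apply map_mem_of_Sp _ hu
  intro l hl
  rw [cns_single]
  exact single_mem_Sp (h l hl) _

lemma pf_mem {f : X → Y} {p : Set (List X)} {q : Set (List Y)} (h : ∀ l ∈ p, l.map f ∈ q)
    {u : Ch X} (hu : u ∈ Sp p) : pf f u ∈ Sp q := by
  apply map_mem_of_Sp _ hu
  intro l hl
  rw [pf_single]
  exact single_mem_Sp (h l hl) _

lemma dl_mem (l : List X) : dl l ∈ Sp {l' | l' ⊆ l ∧ l'.length + 1 = l.length} := by
  induction l with
  | nil => simp
  | cons x t ih =>
    rw [dl_cons]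
    apply Submodule.sub_mem
    · apply single_mem_Sp
      exact ⟨List.subset_cons_self x t, by simp⟩
    · apply cns_mem _ ih
      rintro l ⟨hl, hl'⟩
      refine ⟨List.cons_subset_cons x hl, by simp [hl']⟩

lemma bd_mem {p : Set (List X)} (hp : SubC p) {q : ℕ} {u : Ch X}
    (hu : u ∈ Sp (p ∩ Gr (q + 1))) : bd u ∈ Sp (p ∩ Gr q) := by
  apply map_mem_of_Sp _ hu
  rintro l ⟨hl, hl'⟩
  rw [bd_single, one_smul]
  apply Sp_mono _ (dl_mem l)
  rintro l' ⟨h1, h2⟩
  refine ⟨hp l hl l' h1, ?_⟩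
  simp only [mem_Gr] at *
  omega

lemma bd_mem_Gr {q : ℕ} {u : Ch X} (hu : u ∈ Sp (Gr (q + 1))) :
    bd u ∈ Sp (Gr q) := by
  have h := bd_mem (p := Set.univ) (fun _ _ _ _ => trivial) (q := q) (u := u)
    (Sp_mono (Set.subset_inter (Set.subset_univ _) subset_rfl) hu)
  exact Sp_mono Set.inter_subset_right h

lemma bd_of_Gr_zero {u : Ch X} (hu : u ∈ Sp (Gr 0)) : bd u = 0 := by
  have := eq_of_Sp (L := bd) (L' := 0) (p := Gr 0) (u := u) (by
    intro l hl
    have : l = [] := List.length_eq_zero_iff.mp hl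
    subst this
    simp) hu
  simpa using this

lemma prl_mem (f : X → X) (l : List X) :
    prl f l ∈ Sp {l' | l' ⊆ l ++ l.map f ∧ l'.length = l.length + 1} := by
  induction l with
  | nil => simp [prl]
  | cons x t ih =>
    rw [prl_cons]
    apply Submodule.sub_mem
    · apply single_mem_Sp
      refine ⟨?_, by simp⟩
      intro y hy
      simp at hy ⊢
      tauto
    · apply cns_mem _ ih
      rintro l ⟨hl, hl'⟩
      refine ⟨?_, by simp [hl']⟩
      intro y hy
      rcases List.mem_cons.mp hy with h | h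
      · simp [h]
      · have := hl h
        simp at this ⊢
        tauto

lemma pr_mem {f : X → X} {p q : Set (List X)}
    (h : ∀ l ∈ p, ∀ l' : List X, l' ⊆ l ++ l.map f → l'.length = l.length + 1 → l' ∈ q)
    {u : Ch X} (hu : u ∈ Sp p) : pr f u ∈ Sp q := by
  apply map_mem_of_Sp _ hu
  intro l hl
  rw [pr_single, one_smul]
  exact Sp_mono (fun l' hl' => h l hl l' hl'.1 hl'.2) (prl_mem f l)

section Group

variable {G : Type u} [Group G]

/-- Lists controlled by `A`: all `x⁻¹ * y` lie in `A`. -/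
def Ctl (A : Set G) : Set (List G) := {l | ∀ x ∈ l, ∀ y ∈ l, x⁻¹ * y ∈ A}

lemma SubC_Ctl (A : Set G) : SubC (Ctl A) :=
  fun _ hl _ hs x hx y hy => hl x (hs hx) y (hs hy)

lemma Ctl_mono {A B : Set G} (h : A ⊆ B) : Ctl A ⊆ Ctl B :=
  fun _ hl x hx y hy => h (hl x hx y hy)

lemma Ctl_map_mul {A : Set G} {l : List G} (g : G) (h : l ∈ Ctl A) :
    l.map (fun x => g * x) ∈ Ctl A := by
  intro x hx y hy
  rw [List.mem_map] at hx hy
  obtain ⟨x', hx', rfl⟩ := hx
  obtain ⟨y', hy', rfl⟩ := hy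
  have : (g * x')⁻¹ * (g * y') = x'⁻¹ * y' := by group
  rw [this]
  exact h x' hx' y' hy'

/-- Uniform acyclicity: controlled cycles bound controlled chains. -/
def UA (G : Type u) [Group G] : Prop :=
  ∀ (q : ℕ) (A : Set G), A.Finite → ∃ B : Set G, B.Finite ∧
    ∀ u ∈ Sp (Ctl A ∩ Gr q), bd u = 0 → ∃ w ∈ Sp (Ctl B ∩ Gr (q + 1)), bd w = u

lemma UA_of_subsingleton [Subsingleton G] : UA G := by
  intro q A _
  refine ⟨Set.univ, Set.finite_univ, ?_⟩
  intro u hu hbd
  refine ⟨cns 1 u, ?_, ?_⟩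
  · apply cns_mem _ hu
    rintro l ⟨_, hl⟩
    refine ⟨fun x _ y _ => trivial, ?_⟩
    simp only [mem_Gr] at *
    simp [hl]
  · rw [bd_cns, hbd]; simp

/-- The control set of the prism of a map which is `E`-close to the identity on the lists
considered. -/
def prCtl (A E : Set G) : Set G := (A ∪ A * E) ∪ (E⁻¹ * A ∪ E⁻¹ * A * E)

lemma prCtl_finite {A E : Set G} (hA : A.Finite) (hE : E.Finite) : (prCtl A E).Finite :=
  (hA.union (hA.mul hE)).union ((hE.inv.mul hA).union ((hE.inv.mul hA).mul hE))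

lemma prCtl_spec {A E : Set G} {f : G → G} {l l' : List G} (hl : l ∈ Ctl A)
    (hf : ∀ x ∈ l, x⁻¹ * f x ∈ E) (hl' : l' ⊆ l ++ l.map f) : l' ∈ Ctl (prCtl A E) := by
  have key : ∀ x ∈ l', ∃ x₀ ∈ l, x = x₀ ∨ x = f x₀ := by
    intro x hx
    have := hl' hx
    rw [List.mem_append, List.mem_map] at this
    rcases this with h | ⟨x₀, h, rfl⟩
    · exact ⟨x, h, Or.inl rfl⟩
    · exact ⟨x₀, h, Or.inr rfl⟩
  intro x hx y hy
  obtain ⟨x₀, hx₀, hxx⟩ := key x hx
  obtain ⟨y₀, hy₀, hyy⟩ := key y hy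
  have hA := hl x₀ hx₀ y₀ hy₀
  rcases hxx with rfl | rfl <;> rcases hyy with rfl | rfl
  · exact Or.inl (Or.inl hA)
  · refine Or.inl (Or.inr ⟨_, hA, _, hf y₀ hy₀, ?_⟩)
    simp only
    group
  · refine Or.inr (Or.inl ⟨_, Set.inv_mem_inv.mpr (hf x₀ hx₀), _, hA, ?_⟩)
    simp only
    group
  · refine Or.inr (Or.inr ⟨_, ⟨_, Set.inv_mem_inv.mpr (hf x₀ hx₀), _, hA, rfl⟩, _,
      hf y₀ hy₀, ?_⟩)
    simp only
    group

end Group

/-- Uniform acyclicity is inherited by coarse retracts. -/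
lemma UA_of_coarse {H : Type u} {G : Type v} [Group H] [Group G] {F : H → G} {F' : G → H}
    (hF : Coarse F) (hF' : Coarse F') (hE : CloseId (F' ∘ F)) (hG : UA G) : UA H := by
  intro q A hA
  obtain ⟨B₁, hB₁, h₁⟩ := hF A hA
  obtain ⟨B₂, hB₂, h₂⟩ := hG q B₁ hB₁
  obtain ⟨B₃, hB₃, h₃⟩ := hF' B₂ hB₂
  obtain ⟨E, hE, hE'⟩ := hE
  refine ⟨B₃ ∪ prCtl A E, hB₃.union (prCtl_finite hA hE), ?_⟩
  intro u hu hbd
  obtain ⟨w, hw, hbw⟩ := h₂ (pf F u) (by
    apply pf_mem _ hu
    rintro l ⟨hl, hl'⟩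
    refine ⟨?_, by simpa [Gr] using hl'⟩
    intro x hx y hy
    rw [List.mem_map] at hx hy
    obtain ⟨x', hx', rfl⟩ := hx
    obtain ⟨y', hy', rfl⟩ := hy
    exact h₁ _ _ (hl x' hx' y' hy')) (by rw [bd_pf, hbd]; simp)
  refine ⟨pf F' w - pr (F' ∘ F) u, ?_, ?_⟩
  · apply Submodule.sub_mem
    · apply pf_mem _ hw
      rintro l ⟨hl, hl'⟩
      refine ⟨?_, by simpa [Gr] using hl'⟩
      intro x hx y hy
      rw [List.mem_map] at hx hy
      obtain ⟨x', hx', rfl⟩ := hx
      obtain ⟨y', hy', rfl⟩ := hy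
      exact Or.inl (h₃ _ _ (hl x' hx' y' hy'))
    · apply pr_mem _ hu
      rintro l ⟨hl, hl'⟩ l' h1 h2
      refine ⟨Ctl_mono Set.subset_union_right
        (prCtl_spec hl (fun x _ => hE' x) h1), ?_⟩
      simp only [mem_Gr] at *
      omega
  · have h := bd_pr (F' ∘ F) u
    rw [hbd, map_zero, add_zero] at h
    rw [map_sub, h, bd_pf, hbw, pf_comp]
    abel

end Vale.Agent.P188

end

section

/-!
Polycyclic groups and polycyclic subgroups; finite index subgroups.
-/

universe u v w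

namespace Vale.Agent.P188

variable {G : Type u} [Group G]

theorem IsPolycyclic.pcs (h : IsPolycyclic G) : PCS (⊤ : Subgroup G) := by
  obtain ⟨m, s, h0, hm, hs⟩ := h
  have key : ∀ i ≤ m, PCS (s i) := by
    intro i
    induction i with
    | zero => intro _; rw [h0]; exact .bot
    | succ i ih =>
      intro hi
      obtain ⟨hle, hn, hc⟩ := hs i (by omega)
      obtain ⟨q, hq⟩ := hc.exists_generator
      obtain ⟨t, rfl⟩ := QuotientGroup.mk_surjective q
      refine .step (ih (by omega)) (t := (t : G)) ⟨hle, t.2, ?_, ?_, ?_⟩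
      · intro n hn'
        have := hn.conj_mem ⟨n, hle hn'⟩ hn' t
        simpa [Subgroup.mem_subgroupOf] using this
      · intro n hn'
        have := hn.conj_mem ⟨n, hle hn'⟩ hn' t⁻¹
        simpa [Subgroup.mem_subgroupOf] using this
      · intro g hg
        obtain ⟨k, hk⟩ := Subgroup.mem_zpowers_iff.1 (hq (QuotientGroup.mk (⟨g, hg⟩ : s (i + 1))))
        refine ⟨k, ?_⟩
        rw [← QuotientGroup.mk_zpow, QuotientGroup.eq] at hk
        simpa [Subgroup.mem_subgroupOf] using hk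
  rw [← hm]; exact key m le_rfl

/-- one step of a polycyclic series -/
def CycQ (A B : Subgroup G) : Prop :=
  A ≤ B ∧ ∃ _ : (A.subgroupOf B).Normal, IsCyclic (B ⧸ A.subgroupOf B)

theorem CycStep.cycQ {N M : Subgroup G} {t : G} (hs : CycStep N M t) : CycQ N M := by
  have hn : (N.subgroupOf M).Normal := by
    constructor
    intro n hn g
    exact hs.normal g.2 hn
  refine ⟨hs.le, hn, ⟨⟨QuotientGroup.mk ⟨t, hs.mem⟩, ?_⟩⟩⟩
  intro q
  obtain ⟨g, rfl⟩ := QuotientGroup.mk_surjective q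
  obtain ⟨k, hk⟩ := hs.dec g g.2
  refine Subgroup.mem_zpowers_iff.2 ⟨k, ?_⟩
  rw [← QuotientGroup.mk_zpow, QuotientGroup.eq]
  simpa [Subgroup.mem_subgroupOf] using hk

theorem PCS.exists_series {M : Subgroup G} (h : PCS M) :
    ∃ (m : ℕ) (s : ℕ → Subgroup G), s 0 = ⊥ ∧ s m = M ∧
    ∀ i < m, CycQ (s i) (s (i + 1)) := by
  induction h with
  | bot => exact ⟨0, fun _ => ⊥, rfl, rfl, fun i hi => absurd hi (by omega)⟩
  | @step N M t _ hs ih =>
    obtain ⟨m, s, h0, hm, hser⟩ := ih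
    refine ⟨m + 1, fun i => if i ≤ m then s i else M, by simp [h0], by simp, ?_⟩
    intro i hi
    rcases Nat.lt_or_ge i m with h | h
    · have h1 : i ≤ m := h.le
      have h2 : i + 1 ≤ m := h
      have e1 : (if i ≤ m then s i else M) = s i := if_pos h1
      have e2 : (if i + 1 ≤ m then s (i + 1) else M) = s (i + 1) := if_pos h2
      simp only [e1, e2]
      exact hser i h
    · obtain rfl : i = m := by omega
      have h2 : ¬ (i + 1 ≤ i) := by omega
      have e1 : (if i ≤ i then s i else M) = N := by rw [if_pos le_rfl, hm]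
      have e2 : (if i + 1 ≤ i then s (i + 1) else M) = M := if_neg h2
      simp only [e1, e2]
      exact hs.cycQ

theorem isPolycyclic_iff : IsPolycyclic G ↔ PCS (⊤ : Subgroup G) :=
  ⟨fun h => h.pcs, fun h => h.exists_series⟩

theorem isPolycyclic_subgroup_iff {P : Subgroup G} : IsPolycyclic P ↔ PCS P := by
  rw [isPolycyclic_iff]
  constructor
  · intro h
    have := h.map P.subtype
    rwa [← MonoidHom.range_eq_map, Subgroup.range_subtype] at this
  · intro h
    have := h.comap_injective P.subtype P.subtype_injective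
    rwa [show P.comap P.subtype = ⊤ from Subgroup.subgroupOf_self P] at this

theorem isVirtuallyPolycyclic_iff :
    IsVirtuallyPolycyclic G ↔ ∃ P : Subgroup G, P.FiniteIndex ∧ PCS P := by
  simp only [IsVirtuallyPolycyclic, isPolycyclic_subgroup_iff]

/-- finite coset covers bound the index -/
theorem relIndex_ne_zero_of_cover {Q M : Subgroup G} {E : Set G} (hE : E.Finite)
    (h : ∀ g ∈ M, ∃ e ∈ E, e⁻¹ * g ∈ Q) : Q.relIndex M ≠ 0 := by
  classical
  have : Finite E := hE
  have hfin : Finite (M ⧸ Q.subgroupOf M) := by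
    have hc : ∀ q : M ⧸ Q.subgroupOf M, ∃ e : E, (e : G)⁻¹ * (q.out : G) ∈ Q := by
      intro q
      obtain ⟨e, he, h'⟩ := h q.out q.out.2
      exact ⟨⟨e, he⟩, h'⟩
    choose f hf using hc
    refine Finite.of_injective f ?_
    intro q q' hqq
    have h1 := hf q
    have h2 := hf q'
    rw [← hqq] at h2
    rw [← q.out_eq, ← q'.out_eq]
    refine QuotientGroup.eq.2 ?_
    rw [Subgroup.mem_subgroupOf]
    have : (((q.out)⁻¹ * q'.out : M) : G) = ((f q : G)⁻¹ * (q.out : G))⁻¹ * ((f q : G)⁻¹ * (q'.out : G)) := by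
      simp
    rw [this]
    exact Q.mul_mem (Q.inv_mem h1) h2
  rw [Subgroup.relIndex]
  exact Subgroup.index_ne_zero_of_finite

theorem exists_cover_of_relIndex_ne_zero {Q M : Subgroup G} (h : Q.relIndex M ≠ 0) :
    ∃ E : Set G, E.Finite ∧ E ⊆ M ∧ ∀ g ∈ M, ∃ e ∈ E, e⁻¹ * g ∈ Q := by
  rw [Subgroup.relIndex] at h
  have hfin : Finite (M ⧸ Q.subgroupOf M) := Nat.finite_of_card_ne_zero h
  refine ⟨Set.range (fun q : M ⧸ Q.subgroupOf M => (q.out : G)), Set.finite_range _, ?_, ?_⟩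
  · rintro _ ⟨q, rfl⟩; exact q.out.2
  · intro g hg
    refine ⟨_, ⟨(QuotientGroup.mk ⟨g, hg⟩ : M ⧸ Q.subgroupOf M), rfl⟩, ?_⟩
    have h1 : (QuotientGroup.mk (Quotient.out (QuotientGroup.mk ⟨g, hg⟩ : M ⧸ Q.subgroupOf M)) :
      M ⧸ Q.subgroupOf M) = QuotientGroup.mk ⟨g, hg⟩ := Quotient.out_eq' _
    rw [QuotientGroup.eq, Subgroup.mem_subgroupOf] at h1
    simpa using h1

/-- poly-`ℤ` subgroups -/
inductive PZS : Subgroup G → Prop
  | bot : PZS ⊥
  | step {N M : Subgroup G} {t : G} : PZS N → CycStep N M t →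
      (∀ k : ℤ, t ^ k ∈ N → k = 0) → PZS M

theorem PZS.pcs {M : Subgroup G} (h : PZS M) : PCS M := by
  induction h with
  | bot => exact .bot
  | step _ hs _ ih => exact .step ih hs

theorem finite_hom {P : Type*} [Group P] [Finite P] {N : Type*} [Group N] (h : Group.FG N) :
    Finite (N →* P) := by
  obtain ⟨S, hS⟩ := h.out
  refine Finite.of_injective (fun (f : N →* P) (s : (S : Set N)) => f s) ?_
  intro f g hfg
  refine MonoidHom.eq_of_eqOn_dense hS ?_
  intro x hx
  exact congrFun hfg ⟨x, hx⟩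

/-- For `Q` of finite index in the finitely generated group `N`, and an automorphism of `N`,
some positive power of the automorphism preserves `Q`. -/
theorem exists_pow_preserves {N : Type*} [Group N] (hN : Group.FG N) (Q : Subgroup N)
    (hQ : Q.FiniteIndex) (α : N ≃* N) : ∃ k : ℕ, 0 < k ∧ ∀ x, (α ^ k) x ∈ Q ↔ x ∈ Q := by
  classical
  have : Finite (N ⧸ Q) := inferInstance
  have : Finite (Equiv.Perm (N ⧸ Q)) := inferInstance
  have := finite_hom (P := Equiv.Perm (N ⧸ Q)) hN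
  let ρ : N →* Equiv.Perm (N ⧸ Q) := MulAction.toPermHom N (N ⧸ Q)
  have hρ : ∀ x, ρ x (QuotientGroup.mk 1) = QuotientGroup.mk 1 ↔ x ∈ Q := by
    intro x
    show (x • (QuotientGroup.mk 1 : N ⧸ Q)) = _ ↔ _
    rw [MulAction.Quotient.smul_mk, QuotientGroup.eq]
    simp
  obtain ⟨i, j, hij, he⟩ := Finite.exists_ne_map_eq_of_infinite
    (fun i : ℕ => ρ.comp ((α ^ i : N ≃* N) : N →* N))
  wlog hlt : i < j generalizing i j
  · exact this j i hij.symm he.symm (by omega)
  refine ⟨j - i, by omega, ?_⟩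
  intro x
  have h1 : ∀ y, (α ^ i) y ∈ Q ↔ (α ^ j) y ∈ Q := by
    intro y
    rw [← hρ, ← hρ]
    have := DFunLike.congr_fun he y
    simp only [MonoidHom.comp_apply, MonoidHom.coe_coe] at this
    rw [this]
  have h2 := h1 ((α ^ i)⁻¹ x)
  have h3 : (α ^ i) ((α ^ i)⁻¹ x) = x := by
    rw [← MulAut.mul_apply]; simp
  have h4 : (α ^ j) ((α ^ i)⁻¹ x) = (α ^ (j - i)) x := by
    rw [← MulAut.mul_apply]
    congr 1
    rw [← pow_sub _ hlt.le]
  rw [h3, h4] at h2
  exact h2.symm

end Vale.Agent.P188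

end

section

/-!
The word length of an arbitrary (possibly infinite) generating set.
-/

universe u

namespace Vale.Agent.P188.H615

open Agent.P188.H428

variable {S : Type u} [Group S] {Sg : Set S}

/-- word length -/
noncomputable def wl (Sg : Set S) (x : S) : ℕ := wordDist Sg 1 x

theorem wl_le_of_list {x : S} (l : List S) (hl : ∀ a ∈ l, a ∈ Sg ∨ a⁻¹ ∈ Sg) (hp : l.prod = x) :
    wl Sg x ≤ l.length := Nat.sInf_le ⟨l, rfl, hl, by rw [hp, inv_one, one_mul]⟩

theorem wl_list (h : Subgroup.closure Sg = ⊤) (x : S) :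
    ∃ l : List S, l.length = wl Sg x ∧ (∀ a ∈ l, a ∈ Sg ∨ a⁻¹ ∈ Sg) ∧ l.prod = x := by
  obtain ⟨l, h1, h2, h3⟩ := wordDist_list h 1 x
  exact ⟨l, h1, h2, by rw [h3, inv_one, one_mul]⟩

theorem wl_le_one {x : S} (hx : x ∈ Sg) : wl Sg x ≤ 1 :=
  wl_le_of_list [x] (by simp [hx]) (by simp)

theorem wl_one : wl Sg (1 : S) = 0 := Nat.le_zero.1 (wl_le_of_list [] (by simp) rfl)

theorem wl_mul (h : Subgroup.closure Sg = ⊤) (x y : S) : wl Sg (x * y) ≤ wl Sg x + wl Sg y := by
  obtain ⟨l, h1, h2, h3⟩ := wl_list h x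
  obtain ⟨m, k1, k2, k3⟩ := wl_list h y
  rw [← h1, ← k1, ← List.length_append]
  refine wl_le_of_list _ ?_ (by rw [List.prod_append, h3, k3])
  intro a ha
  rcases List.mem_append.1 ha with ha | ha
  · exact h2 a ha
  · exact k2 a ha

theorem wl_inv_le (h : Subgroup.closure Sg = ⊤) (x : S) : wl Sg x⁻¹ ≤ wl Sg x := by
  obtain ⟨l, h1, h2, h3⟩ := wl_list h x
  have h4 : (l.map fun x => x⁻¹).reverse.length = wl Sg x := by
    rw [List.length_reverse, List.length_map, h1]
  rw [← h4]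
  refine wl_le_of_list _ ?_ (by rw [← List.prod_inv_reverse, h3])
  intro a ha
  rw [List.mem_reverse, List.mem_map] at ha
  obtain ⟨b, hb, rfl⟩ := ha
  rcases h2 b hb with h | h
  · right; rwa [inv_inv]
  · left; exact h

theorem wl_inv (h : Subgroup.closure Sg = ⊤) (x : S) : wl Sg x⁻¹ = wl Sg x := by
  refine le_antisymm (wl_inv_le h x) ?_
  have := wl_inv_le h x⁻¹
  rwa [inv_inv] at this

theorem cut_list (R : ℕ) : ∀ (J : ℕ) (l : List S), (∀ a ∈ l, a ∈ Sg ∨ a⁻¹ ∈ Sg) →
    l.length ≤ J * R → ∃ g : Fin J → S, (∀ i, wl Sg (g i) ≤ R) ∧ xp J g = l.prod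
  | 0, l, _, hl => by
    have : l = [] := by
      rw [zero_mul] at hl
      exact List.length_eq_zero_iff.1 (Nat.le_zero.1 hl)
    subst this
    exact ⟨Fin.elim0, fun i => Fin.elim0 i, rfl⟩
  | J + 1, l, ha, hl => by
    obtain ⟨g, hg1, hg2⟩ := cut_list R J (l.drop R) (fun a h => ha a (List.mem_of_mem_drop h))
      (by rw [List.length_drop]; rw [Nat.succ_mul] at hl; omega)
    refine ⟨Fin.cons (l.take R).prod g, ?_, ?_⟩
    · intro i
      refine Fin.cases ?_ (fun i => ?_) i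
      · rw [Fin.cons_zero]
        refine (wl_le_of_list (l.take R) (fun a h => ha a (List.mem_of_mem_take h)) rfl).trans ?_
        rw [List.length_take]
        exact min_le_left _ _
      · rw [Fin.cons_succ]
        exact hg1 i
    · have h1 : xp (J + 1) (Fin.cons (l.take R).prod g : Fin (J + 1) → S) =
        1 * (l.take R).prod * xp J g := rfl
      rw [h1, hg2, one_mul, ← List.prod_append, List.take_append_drop]

/-- the word length is a length function -/
theorem isLen_wl (h : Subgroup.closure Sg = ⊤) : IsLen (wl Sg) where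
  one := wl_one
  mul := wl_mul h
  inv := wl_inv h
  cut := by
    intro R J _ x hx
    obtain ⟨l, h1, h2, h3⟩ := wl_list h x
    obtain ⟨g, hg1, hg2⟩ := cut_list R J l h2 (by rw [h1]; exact hx)
    exact ⟨g, hg1, by rw [hg2, h3]⟩

end Vale.Agent.P188.H615

end
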