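import Mathlib

section

/-! P188, block COH: generic integral directions detect rays. -/

open Set

namespace Vale.Agent.P188.H530

variable {k : ℕ}

/-- an integral vector -/
def iv (v : Fin k → ℤ) : Fin k → ℝ := fun i => (v i : ℝ)

/-- If `ψ` is nonnegative where `b` is positive then `ψ` is a nonnegative multiple of `b`. -/
theorem eq_smul_of_nonneg {E : Type*} [NormedAddCommGroup E] [NormedSpace ℝ E]
    {b ψ : E →L[ℝ] ℝ} (hb : b ≠ 0) (h : ∀ u, 0 < b u → 0 ≤ ψ u) :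
    ∃ t : ℝ, 0 ≤ t ∧ ψ = t • b := by
  obtain ⟨w, hw⟩ : ∃ w, b w ≠ 0 := by
    by_contra hcon
    push Not at hcon
    exact hb (ContinuousLinearMap.ext hcon)
  obtain ⟨w, hw⟩ : ∃ w, 0 < b w := by
    rcases lt_or_gt_of_ne hw with h1 | h1
    · exact ⟨-w, by rw [map_neg]; linarith⟩
    · exact ⟨w, h1⟩
  have hker : ∀ u, b u = 0 → ψ u = 0 := by
    intro u hu
    by_contra hne
    have h1 := h (w + (-(ψ w + 1) / ψ u) • u) (by
      rw [map_add, map_smul, hu, smul_zero, add_zero]; exact hw)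
    rw [map_add, map_smul, smul_eq_mul, div_mul_cancel₀ _ hne] at h1
    linarith
  refine ⟨ψ w / b w, div_nonneg (h w hw) hw.le, ContinuousLinearMap.ext fun u => ?_⟩
  have h2 := hker (u - (b u / b w) • w) (by
    rw [map_sub, map_smul, smul_eq_mul, div_mul_cancel₀ _ hw.ne', sub_self])
  rw [map_sub, map_smul, smul_eq_mul, sub_eq_zero] at h2
  rw [h2, ContinuousLinearMap.smul_apply, smul_eq_mul]
  field_simp

theorem dense_ne_zero {E : Type*} [NormedAddCommGroup E] [NormedSpace ℝ E]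
    [FiniteDimensional ℝ E] {b : E →L[ℝ] ℝ} (hb : b ≠ 0) : Dense {u | b u ≠ 0} := by
  have hsurj : Function.Surjective b := by
    intro y
    obtain ⟨w, hw⟩ : ∃ w, b w ≠ 0 := by
      by_contra hcon
      push Not at hcon
      exact hb (ContinuousLinearMap.ext hcon)
    exact ⟨(y / b w) • w, by rw [map_smul, smul_eq_mul, div_mul_cancel₀ _ hw]⟩
  have h1 : IsOpenMap b := by
    have := LinearMap.isOpenMap_of_finiteDimensional (f := b.toLinearMap) hsurj
    exact this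
  exact (dense_compl_singleton (0 : ℝ)).preimage h1

theorem dense_generic {E : Type*} [NormedAddCommGroup E] [NormedSpace ℝ E]
    [FiniteDimensional ℝ E] (B : Finset (E →L[ℝ] ℝ)) :
    Dense {u | ∀ b ∈ B, b ≠ 0 → b u ≠ 0} ∧ IsOpen {u | ∀ b ∈ B, b ≠ 0 → b u ≠ 0} := by
  classical
  induction B using Finset.induction_on with
  | empty => simp
  | insert b B _ ih =>
    have e : {u | ∀ c ∈ insert b B, c ≠ 0 → c u ≠ 0} =
        {u | b ≠ 0 → b u ≠ 0} ∩ {u | ∀ c ∈ B, c ≠ 0 → c u ≠ 0} := by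
      ext u
      simp
    have ho : IsOpen {u | b ≠ 0 → b u ≠ 0} := by
      by_cases hb : b = 0
      · simp [hb]
      · simpa [hb] using isOpen_ne_fun b.continuous continuous_const
    have hd : Dense {u | b ≠ 0 → b u ≠ 0} := by
      by_cases hb : b = 0
      · simp [hb]
      · simpa [hb] using dense_ne_zero hb
    rw [e]
    exact ⟨hd.inter_of_isOpen_left ih.1 ho, ho.inter ih.2⟩

theorem denseRange_rat : DenseRange (fun q : Fin k → ℚ => fun i => (q i : ℝ)) := by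
  have h := DenseRange.piMap (fun _ : Fin k => Rat.denseRange_cast (𝕜 := ℝ))
  exact h

/-- An open cone contains a generic integral vector. -/
theorem exists_generic_int (B : Finset ((Fin k → ℝ) →L[ℝ] ℝ)) {U : Set (Fin k → ℝ)}
    (hU : IsOpen U) (hne : U.Nonempty) (hcone : ∀ u ∈ U, ∀ t : ℝ, 0 < t → t • u ∈ U) :
    ∃ v : Fin k → ℤ, iv v ∈ U ∧ ∀ b ∈ B, b ≠ 0 → b (iv v) ≠ 0 := by
  obtain ⟨hd, ho⟩ := dense_generic B
  obtain ⟨u, hu⟩ := (hd.inter_open_nonempty U hU hne)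
  obtain ⟨q, hq⟩ := denseRange_rat.exists_mem_open (hU.inter ho) ⟨u, hu⟩
  obtain ⟨N, hN0, hN⟩ : ∃ N : ℕ, 0 < N ∧ ∀ i, ∃ z : ℤ, (N : ℚ) * q i = z := by
    refine ⟨∏ i, (q i).den, Finset.prod_pos fun i _ => (q i).den_pos, fun i => ?_⟩
    refine ⟨(∏ j ∈ Finset.univ.erase i, ((q j).den : ℤ)) * (q i).num, ?_⟩
    rw [← Finset.mul_prod_erase Finset.univ _ (Finset.mem_univ i)]
    push_cast
    have h1 : (q i) * ((q i).den : ℚ) = (q i).num := Rat.mul_den_eq_num (q i)
    calc ((q i).den : ℚ) * (∏ j ∈ Finset.univ.erase i, ((q j).den : ℚ)) * q i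
        = (∏ j ∈ Finset.univ.erase i, ((q j).den : ℚ)) * (q i * ((q i).den : ℚ)) := by ring
      _ = _ := by rw [h1]
  choose z hz using hN
  have hzr : iv z = (N : ℝ) • (fun i => (q i : ℝ)) := by
    ext i
    have := congrArg (fun x : ℚ => (x : ℝ)) (hz i)
    simp only [iv, Pi.smul_apply, smul_eq_mul]
    push_cast at this
    exact this.symm
  have hN0' : (0 : ℝ) < N := by exact_mod_cast hN0
  refine ⟨z, ?_, fun b hb hb0 => ?_⟩
  · rw [hzr]
    exact hcone _ hq.1 _ hN0'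
  · rw [hzr, map_smul, smul_eq_mul]
    exact mul_ne_zero hN0'.ne' (hq.2 b hb hb0)

/-- A finite set of generic integral directions which detects the ray of `b` up to `ε`. -/
theorem exists_net_ray (B : Finset ((Fin k → ℝ) →L[ℝ] ℝ)) {b : (Fin k → ℝ) →L[ℝ] ℝ}
    (hb : b ≠ 0) (L : ℝ) {ε : ℝ} (hε : 0 < ε) :
    ∃ V₀ : Finset (Fin k → ℤ), (∀ v ∈ V₀, ∀ c ∈ B, c ≠ 0 → c (iv v) ≠ 0) ∧
      ∀ ψ : (Fin k → ℝ) →L[ℝ] ℝ, ‖ψ‖ ≤ L → (∀ v ∈ V₀, 0 < b (iv v) → 0 ≤ ψ (iv v)) →
        ∃ t : ℝ, 0 ≤ t ∧ ‖ψ - t • b‖ ≤ ε := by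
  classical
  have : ProperSpace ((Fin k → ℝ) →L[ℝ] ℝ) := FiniteDimensional.proper ℝ _
  set 𝒦 : Set ((Fin k → ℝ) →L[ℝ] ℝ) :=
    Metric.closedBall 0 L ∩ {ψ | ∀ t : ℝ, 0 ≤ t → ε ≤ ‖ψ - t • b‖} with h𝒦
  have hcl : IsClosed {ψ : (Fin k → ℝ) →L[ℝ] ℝ | ∀ t : ℝ, 0 ≤ t → ε ≤ ‖ψ - t • b‖} := by
    have e : {ψ : (Fin k → ℝ) →L[ℝ] ℝ | ∀ t : ℝ, 0 ≤ t → ε ≤ ‖ψ - t • b‖} =
        ⋂ t : ℝ, ⋂ _ : 0 ≤ t, {ψ | ε ≤ ‖ψ - t • b‖} := by
      ext ψ; simp
    rw [e]
    exact isClosed_iInter fun t => isClosed_iInter fun _ =>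
      isClosed_le continuous_const (continuous_norm.comp (continuous_id.sub continuous_const))
  have hcomp : IsCompact 𝒦 := (isCompact_closedBall _ _).inter_right hcl
  let I := {v : Fin k → ℤ // 0 < b (iv v) ∧ ∀ c ∈ B, c ≠ 0 → c (iv v) ≠ 0}
  let U : I → Set ((Fin k → ℝ) →L[ℝ] ℝ) := fun v => {ψ | ψ (iv v.1) < 0}
  have hUo : ∀ v, IsOpen (U v) := fun v =>
    isOpen_lt (ContinuousLinearMap.apply ℝ ℝ (iv v.1)).continuous continuous_const
  have hcov : 𝒦 ⊆ ⋃ v, U v := by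
    intro ψ hψ
    have hnot : ¬ ∃ t : ℝ, 0 ≤ t ∧ ψ = t • b := by
      rintro ⟨t, ht, rfl⟩
      have := hψ.2 t ht
      rw [sub_self, norm_zero] at this
      linarith
    have hex : ∃ u, 0 < b u ∧ ψ u < 0 := by
      by_contra hcon
      push Not at hcon
      exact hnot (eq_smul_of_nonneg hb hcon)
    obtain ⟨v, hv, hvg⟩ := exists_generic_int B (U := {u | 0 < b u ∧ ψ u < 0})
      ((isOpen_lt continuous_const b.continuous).inter (isOpen_lt ψ.continuous continuous_const))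
      hex (by
        rintro u ⟨h1, h2⟩ t ht
        refine ⟨?_, ?_⟩
        · rw [map_smul, smul_eq_mul]; positivity
        · rw [map_smul, smul_eq_mul]; exact mul_neg_of_pos_of_neg ht h2)
    exact mem_iUnion.mpr ⟨⟨v, hv.1, hvg⟩, hv.2⟩
  obtain ⟨t, ht⟩ := hcomp.elim_finite_subcover U hUo hcov
  refine ⟨t.image Subtype.val, ?_, fun ψ hψ hpos => ?_⟩
  · intro v hv
    rw [Finset.mem_image] at hv
    obtain ⟨w, -, rfl⟩ := hv
    exact w.2.2
  · by_contra hcon
    push Not at hcon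
    have hmem : ψ ∈ 𝒦 := ⟨by simpa using hψ, fun t ht => (hcon t ht).le⟩
    have := ht hmem
    rw [mem_iUnion₂] at this
    obtain ⟨v, hv, hvψ⟩ := this
    have h1 := hpos v.1 (Finset.mem_image_of_mem _ hv) v.2.1
    exact absurd hvψ (not_lt.mpr h1)

/-- The same for a finite set of functionals. -/
theorem exists_net_rays (B Φ : Finset ((Fin k → ℝ) →L[ℝ] ℝ)) (hΦ : ∀ b ∈ Φ, b ≠ 0)
    (L : ℝ) {ε : ℝ} (hε : 0 < ε) :
    ∃ V₀ : Finset (Fin k → ℤ), (∀ v ∈ V₀, ∀ c ∈ B, c ≠ 0 → c (iv v) ≠ 0) ∧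
      ∀ b ∈ Φ, ∀ ψ : (Fin k → ℝ) →L[ℝ] ℝ, ‖ψ‖ ≤ L →
        (∀ v ∈ V₀, 0 < b (iv v) → 0 ≤ ψ (iv v)) → ∃ t : ℝ, 0 ≤ t ∧ ‖ψ - t • b‖ ≤ ε := by
  classical
  have h : ∀ b : {b // b ∈ Φ}, ∃ V₀ : Finset (Fin k → ℤ),
      (∀ v ∈ V₀, ∀ c ∈ B, c ≠ 0 → c (iv v) ≠ 0) ∧
      ∀ ψ : (Fin k → ℝ) →L[ℝ] ℝ, ‖ψ‖ ≤ L → (∀ v ∈ V₀, 0 < b.1 (iv v) → 0 ≤ ψ (iv v)) →
        ∃ t : ℝ, 0 ≤ t ∧ ‖ψ - t • b.1‖ ≤ ε := fun b => exists_net_ray B (hΦ b.1 b.2) L hε
  choose V hV1 hV2 using h
  refine ⟨Φ.attach.biUnion V, ?_, fun b hb ψ hψ hpos => ?_⟩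
  · intro v hv
    rw [Finset.mem_biUnion] at hv
    obtain ⟨b, -, hb⟩ := hv
    exact hV1 b v hb
  · refine hV2 ⟨b, hb⟩ ψ hψ fun v hv hbv => hpos v ?_ hbv
    rw [Finset.mem_biUnion]
    exact ⟨⟨b, hb⟩, Finset.mem_attach _ _, hv⟩

end Vale.Agent.P188.H530

end

section

/-!
Sorting words in a group whose generators commute up to short elements.
-/

open Pointwise

universe u

namespace Vale.Agent.P188.H615

section sort

variable {S : Type u} [Group S]

/-- sorted products `a 0 ^ n 0 * ... * a (p-1) ^ n (p-1)` -/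
def pw (a : ℕ → S) (n : ℕ → ℕ) : ℕ → S
  | 0 => 1
  | p + 1 => pw a n p * a p ^ n p

theorem pw_congr (a : ℕ → S) {n n' : ℕ → ℕ} {p : ℕ} (h : ∀ i < p, n i = n' i) :
    pw a n p = pw a n' p := by
  induction p with
  | zero => rfl
  | succ p ih =>
    rw [pw, pw, ih fun i hi => h i (by omega), h p (by omega)]

theorem pw_zero (a : ℕ → S) (p : ℕ) : pw a (fun _ => 0) p = 1 := by
  induction p with
  | zero => rfl
  | succ p ih => rw [pw, ih, pow_zero, one_mul]

/-- hypotheses for sorting: `U M` the elements of size `M` -/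
structure SortD (a : ℕ → S) (p : ℕ) (U : ℝ → Set S) (lam M0 : ℝ) : Prop where
  one : ∀ M, 0 ≤ M → (1 : S) ∈ U M
  mono : ∀ M M', M ≤ M' → U M ⊆ U M'
  hlam : 1 ≤ lam
  hM0 : 0 ≤ M0
  conj : ∀ i < p, ∀ M, ∀ x ∈ U M, (a i)⁻¹ * x * a i ∈ U (lam * M)
  comm : ∀ i < p, ∀ j < p, (a i)⁻¹ * (a j)⁻¹ * a i * a j ∈ U M0

variable {a : ℕ → S} {p : ℕ} {U : ℝ → Set S} {lam M0 : ℝ}

theorem SortD.pow_mono (h : SortD a p U lam M0) {M M' : ℝ} (hM : 0 ≤ M) (hMM : M ≤ M') {r r' : ℕ}
    (hr : r ≤ r') : U M ^ r ⊆ U M' ^ r' := by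
  refine (Set.pow_subset_pow_left (h.mono M M' hMM)).trans ?_
  exact Set.pow_subset_pow_right (h.one M' (hM.trans hMM)) hr

theorem conj_pow_mem {X Y : Set S} (g : S) (hXY : ∀ x ∈ X, g⁻¹ * x * g ∈ Y) (r : ℕ) :
    ∀ x ∈ X ^ r, g⁻¹ * x * g ∈ Y ^ r := by
  induction r with
  | zero =>
    intro x hx
    rw [pow_zero, Set.mem_one] at hx ⊢
    rw [hx]; group
  | succ r ih =>
    intro x hx
    rw [pow_succ] at hx ⊢
    obtain ⟨y, hy, z, hz, rfl⟩ := hx
    have : g⁻¹ * (y * z) * g = (g⁻¹ * y * g) * (g⁻¹ * z * g) := by group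
    simp only
    rw [this]
    exact Set.mul_mem_mul (ih y hy) (hXY z hz)

theorem SortD.conj' (h : SortD a p U lam M0) {i : ℕ} (hi : i < p) {M : ℝ} {r : ℕ} {x : S}
    (hx : x ∈ U M ^ r) : (a i)⁻¹ * x * a i ∈ U (lam * M) ^ r :=
  conj_pow_mem (a i) (h.conj i hi M) r x hx

theorem SortD.conj_pow (h : SortD a p U lam M0) {i : ℕ} (hi : i < p) {M : ℝ} {r : ℕ} {x : S}
    (hx : x ∈ U M ^ r) (k : ℕ) : (a i ^ k)⁻¹ * x * a i ^ k ∈ U (lam ^ k * M) ^ r := by
  induction k with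
  | zero => simpa using hx
  | succ k ih =>
    have h1 := h.conj' hi ih
    have h2 : (a i ^ (k + 1))⁻¹ * x * a i ^ (k + 1) =
        (a i)⁻¹ * ((a i ^ k)⁻¹ * x * a i ^ k) * a i := by
      rw [pow_succ]; group
    rw [h2, pow_succ, mul_comm (lam ^ k) lam, mul_assoc]
    exact h1

/-- commutators of powers with letters -/
theorem SortD.comm_pow (h : SortD a p U lam M0) {i j : ℕ} (hi : i < p) (hj : j < p) (k : ℕ) :
    (a i ^ k)⁻¹ * (a j)⁻¹ * a i ^ k * a j ∈ U (lam ^ k * M0) ^ k := by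
  have hlam0 : (0 : ℝ) ≤ lam := by linarith [h.hlam]
  induction k with
  | zero => simp
  | succ k ih =>
    have h1 := h.conj' hi ih
    have h2 : (a i ^ (k + 1))⁻¹ * (a j)⁻¹ * a i ^ (k + 1) * a j =
        ((a i)⁻¹ * ((a i ^ k)⁻¹ * (a j)⁻¹ * a i ^ k * a j) * a i) *
          ((a i)⁻¹ * (a j)⁻¹ * a i * a j) := by
      rw [pow_succ]; group
    rw [h2, pow_succ (U _)]
    refine Set.mul_mem_mul ?_ ?_
    · rw [← mul_assoc, ← pow_succ'] at h1
      exact h1
    · refine h.mono _ _ ?_ (h.comm i hi j hj)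
      have := one_le_pow₀ h.hlam (n := k + 1)
      nlinarith [h.hM0]

/-- moving a letter into a sorted product -/
theorem SortD.pw_mul (h : SortD a p U lam M0) (n : ℕ → ℕ) {j : ℕ} (hj : j < p) :
    ∀ q ≤ p, j < q → ∃ y ∈ U (lam ^ (∑ i ∈ Finset.range q, n i) * M0) ^
      (∑ i ∈ Finset.range q, n i),
      pw a n q * a j = pw a (Function.update n j (n j + 1)) q * y := by
  have hlam0 : (0 : ℝ) ≤ lam := by linarith [h.hlam]
  intro q hq hjq
  induction q with
  | zero => omega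
  | succ q ih =>
    rcases Nat.lt_succ_iff_lt_or_eq.1 hjq with hlt | heq
    · obtain ⟨y, hy, hy2⟩ := ih (by omega) hlt
      have hq' : q < p := by omega
      refine ⟨(a q ^ n q)⁻¹ * y * a q ^ n q * ((a q ^ n q)⁻¹ * (a j)⁻¹ * a q ^ n q * a j), ?_, ?_⟩
      · rw [Finset.sum_range_succ, pow_add (U _)]
        refine Set.mul_mem_mul ?_ ?_
        · have h1 := h.conj_pow hq' hy (n q)
          rw [← mul_assoc, ← pow_add, add_comm (n q)] at h1
          exact h1
        · refine h.pow_mono ?_ ?_ le_rfl (h.comm_pow hq' hj (n q))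
          · exact mul_nonneg (by positivity) h.hM0
          · refine mul_le_mul_of_nonneg_right ?_ h.hM0
            exact pow_le_pow_right₀ h.hlam (by omega)
      · rw [pw, pw, Function.update_of_ne (by omega : q ≠ j)]
        have h1 : pw a n q = pw a (Function.update n j (n j + 1)) q * y * (a j)⁻¹ := by
          rw [← hy2]; group
        rw [h1]
        group
    · subst heq
      refine ⟨1, ?_, ?_⟩
      · have : (1 : S) ∈ U (lam ^ (∑ i ∈ Finset.range (j + 1), n i) * M0) :=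
          h.one _ (mul_nonneg (by positivity) h.hM0)
        exact Set.one_mem_pow this
      · rw [pw, pw, Function.update_self, mul_one, mul_assoc, ← pow_succ]
        congr 1
        exact pw_congr a fun i hi => by rw [Function.update_of_ne (by omega)]

/-- **sorting**: a word of length `r` in the letters `a i` and the elements of `U M0` -/
theorem SortD.sort (h : SortD a p U lam M0) : ∀ L : List S,
    (∀ x ∈ L, (∃ i < p, a i = x) ∨ x ∈ U M0) →
    ∃ n : ℕ → ℕ, ∑ i ∈ Finset.range p, n i ≤ L.length ∧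
      ∃ y ∈ U (lam ^ L.length * M0) ^ (L.length * (L.length + 1)), L.prod = pw a n p * y := by
  have hlam0 : (0 : ℝ) ≤ lam := by linarith [h.hlam]
  intro L
  induction L using List.reverseRecOn with
  | nil =>
    intro _
    exact ⟨fun _ => 0, by simp, 1, by simp, by rw [pw_zero]; simp⟩
  | append_singleton L x ih =>
    intro hL
    obtain ⟨n, hn, y, hy, hy2⟩ := ih fun z hz => hL z (by simp [hz])
    rw [List.length_append, List.length_singleton, List.prod_append, List.prod_singleton, hy2]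
    rcases hL x (by simp) with ⟨j, hj, rfl⟩ | hx
    · obtain ⟨y', hy', hy'2⟩ := h.pw_mul n hj p le_rfl hj
      refine ⟨Function.update n j (n j + 1), ?_, y' * ((a j)⁻¹ * y * a j), ?_, ?_⟩
      · rw [Finset.sum_update_of_mem (Finset.mem_range.2 hj)]
        have h1 := Finset.add_sum_erase (Finset.range p) n (Finset.mem_range.2 hj)
        rw [Finset.sdiff_singleton_eq_erase]
        omega
      · have h1 := h.conj' hj hy
        have h2 : y' ∈ U (lam ^ (L.length + 1) * M0) ^ L.length := by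
          refine h.pow_mono (mul_nonneg (by positivity) h.hM0) ?_ hn hy'
          refine mul_le_mul_of_nonneg_right ?_ h.hM0
          exact pow_le_pow_right₀ h.hlam (by omega)
        have h3 : (a j)⁻¹ * y * a j ∈ U (lam ^ (L.length + 1) * M0) ^ (L.length * (L.length + 1)) := by
          rw [pow_succ' lam, mul_assoc]
          exact h1
        have h4 := Set.mul_mem_mul h2 h3
        rw [← pow_add] at h4
        refine h.pow_mono (mul_nonneg (by positivity) h.hM0) le_rfl ?_ h4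
        nlinarith
      · have h1 : pw a n p * y * a j = pw a n p * a j * ((a j)⁻¹ * y * a j) := by group
        rw [h1, hy'2]
        group
    · refine ⟨n, by omega, y * x, ?_, by rw [mul_assoc]⟩
      have h2 : y ∈ U (lam ^ (L.length + 1) * M0) ^ (L.length * (L.length + 1)) := by
        refine h.pow_mono (mul_nonneg (by positivity) h.hM0) ?_ le_rfl hy
        refine mul_le_mul_of_nonneg_right ?_ h.hM0
        exact pow_le_pow_right₀ h.hlam (by omega)
      have h3 : x ∈ U (lam ^ (L.length + 1) * M0) ^ 1 := by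
        rw [pow_one]
        refine h.mono _ _ ?_ hx
        have := one_le_pow₀ h.hlam (n := L.length + 1)
        nlinarith [h.hM0]
      have h4 := Set.mul_mem_mul h2 h3
      rw [← pow_add] at h4
      refine h.pow_mono (mul_nonneg (by positivity) h.hM0) le_rfl ?_ h4
      nlinarith

end sort

end Vale.Agent.P188.H615

end

section

/-!
# P188, block LAB: group theory

* `exists_core` : in a finitely generated group the intersection of all subgroups of index at most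
  `N` has finite index;
* `lab_subgroup` : an almost multiplicative map `T : H → E` whose values are determined up to small
  errors by finitely many labels is almost trivial on a subgroup of index at most the number of
  labels.
-/

set_option linter.all false

namespace Vale.Agent.P188.H671

/-- Homomorphisms from a finitely generated group to a finite group. -/
theorem finite_hom {H : Type*} [Group H] (hfg : Group.FG H) (P : Type*) [Group P] [Finite P] :
    Finite (H →* P) := by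
  obtain ⟨S, hS, hSf⟩ := Group.fg_iff.mp hfg
  haveI := hSf.to_subtype
  refine Finite.of_injective (fun (φ : H →* P) (s : S) => φ s) ?_
  intro φ ψ h
  refine MonoidHom.eq_of_eqOn_dense hS ?_
  intro s hs
  exact congrFun h ⟨s, hs⟩

/-- The intersection of all subgroups of bounded index. -/
theorem exists_core {H : Type*} [Group H] (hfg : Group.FG H) (N : ℕ) :
    ∃ H₀ : Subgroup H, H₀.FiniteIndex ∧
      ∀ K : Subgroup H, K.index ≠ 0 → K.index ≤ N → H₀ ≤ K := by
  haveI : ∀ n : Fin (N + 1), Finite (H →* Equiv.Perm (Fin n)) := fun n => finite_hom hfg _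
  refine ⟨⨅ n : Fin (N + 1), ⨅ φ : H →* Equiv.Perm (Fin n), φ.ker, ?_, ?_⟩
  · refine Subgroup.finiteIndex_iInf fun n => Subgroup.finiteIndex_iInf fun φ => ?_
    infer_instance
  · intro K hK0 hKN
    haveI : Finite (H ⧸ K) := Subgroup.index_ne_zero_iff_finite.mp hK0
    let e : (H ⧸ K) ≃ Fin K.index := Finite.equivFinOfCardEq rfl
    refine (iInf_le _ (⟨K.index, Nat.lt_succ_of_le hKN⟩ : Fin (N + 1))).trans ?_
    refine (iInf_le _ (e.permCongrHom.toMonoidHom.comp (MulAction.toPermHom H (H ⧸ K)))).trans ?_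
    intro x hx
    rw [MonoidHom.mem_ker] at hx
    have h1 : MulAction.toPermHom H (H ⧸ K) x = 1 := by
      apply e.permCongrHom.injective
      rw [map_one]
      exact hx
    have h2 : x ∈ K.normalCore := by
      rw [Subgroup.normalCore_eq_ker]
      exact h1
    exact K.normalCore_le h2

/-- **Labels.** -/
theorem lab_subgroup {H ι E : Type*} [Group H] [Finite ι] [NormedRing E] (lab : H → ι)
    (T : H → E) {L ε c : ℝ} (hL : 1 ≤ L) (hT : ∀ h, ‖T h‖ ≤ L) (hε : 0 ≤ ε)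
    (hmul : ∀ h h', ‖T (h * h') - T h * T h'‖ ≤ ε) (hone : ‖T 1 - 1‖ ≤ ε)
    (hpsi : ∀ h h', lab h = lab h' → ‖T h - T h'‖ ≤ ε)
    (hsep : ∀ h h', ‖T h - T h'‖ < c → lab h = lab h') (hc : 8 * L * ε < c) :
    ∃ H₁ : Subgroup H, H₁.index ≠ 0 ∧ H₁.index ≤ Nat.card ι ∧ ∀ h ∈ H₁, ‖T h - 1‖ ≤ 2 * ε := by
  have hLε : ε ≤ L * ε := by nlinarith
  have key : ∀ h, lab h = lab 1 → ‖T h - 1‖ ≤ 2 * ε := by
    intro h hh
    have h1 := norm_add_le (T h - T 1) (T 1 - 1)
    rw [sub_add_sub_cancel] at h1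
    linarith [hpsi h 1 hh]
  let H₁ : Subgroup H :=
    { carrier := {h | lab h = lab 1}
      one_mem' := rfl
      mul_mem' := by
        intro a b ha hb
        refine hsep _ _ ?_
        have e : T (a * b) - T 1 =
            (T (a * b) - T a * T b) + T a * (T b - 1) + (T a - 1) - (T 1 - 1) := by
          noncomm_ring
        rw [e]
        have h1 := norm_sub_le ((T (a * b) - T a * T b) + T a * (T b - 1) + (T a - 1)) (T 1 - 1)
        have h2 := norm_add₃_le (a := T (a * b) - T a * T b) (b := T a * (T b - 1)) (c := T a - 1)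
        have h3 : ‖T a * (T b - 1)‖ ≤ L * (2 * ε) :=
          (norm_mul_le _ _).trans (mul_le_mul (hT a) (key b hb) (norm_nonneg _) (by linarith))
        have h4 := hmul a b
        have h5 := key a ha
        linarith
      inv_mem' := by
        intro a ha
        refine hsep _ _ ?_
        have e : T a⁻¹ - T 1 = -(T a⁻¹ * (T a - 1)) - (T (a⁻¹ * a) - T a⁻¹ * T a) := by
          rw [inv_mul_cancel]
          noncomm_ring
        rw [e]
        have h1 := norm_sub_le (-(T a⁻¹ * (T a - 1))) (T (a⁻¹ * a) - T a⁻¹ * T a)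
        rw [norm_neg] at h1
        have h3 : ‖T a⁻¹ * (T a - 1)‖ ≤ L * (2 * ε) :=
          (norm_mul_le _ _).trans (mul_le_mul (hT _) (key a ha) (norm_nonneg _) (by linarith))
        have h4 := hmul a⁻¹ a
        linarith }
  have hinj : ∀ a b, lab a = lab b → a⁻¹ * b ∈ H₁ := by
    intro a b hab
    show lab (a⁻¹ * b) = lab 1
    refine hsep _ _ ?_
    have e : T (a⁻¹ * b) - T 1 = (T (a⁻¹ * b) - T a⁻¹ * T b) + T a⁻¹ * (T b - T a)
        - (T (a⁻¹ * a) - T a⁻¹ * T a) := by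
      rw [inv_mul_cancel]
      noncomm_ring
    rw [e]
    have h1 := norm_sub_le ((T (a⁻¹ * b) - T a⁻¹ * T b) + T a⁻¹ * (T b - T a))
      (T (a⁻¹ * a) - T a⁻¹ * T a)
    have h2 := norm_add_le (T (a⁻¹ * b) - T a⁻¹ * T b) (T a⁻¹ * (T b - T a))
    have h3 : ‖T a⁻¹ * (T b - T a)‖ ≤ L * ε :=
      (norm_mul_le _ _).trans (mul_le_mul (hT _) (hpsi b a hab.symm) (norm_nonneg _) (by linarith))
    have h4 := hmul a⁻¹ a
    have h5 := hmul a⁻¹ b
    linarith
  have hinj' : Function.Injective fun q : H ⧸ H₁ => lab q.out := by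
    intro q q' h
    have := hinj _ _ h
    rw [← QuotientGroup.eq, QuotientGroup.out_eq', QuotientGroup.out_eq'] at this
    exact this
  haveI : Finite (H ⧸ H₁) := Finite.of_injective _ hinj'
  refine ⟨H₁, Subgroup.index_ne_zero_iff_finite.mpr this, ?_, fun h hh => key h hh⟩
  exact Nat.card_le_card_of_injective _ hinj'

end Vale.Agent.P188.H671

end

section

/-!
A locally compact second countable group with a countable discrete cocompact subgroup is
unimodular, and automorphisms preserving such a subgroup preserve the Haar measure.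
-/

open MeasureTheory MeasureTheory.Measure Topology Set Pointwise

set_option linter.unusedSectionVars false

universe u

namespace Vale.Agent.P188.H131

variable {K : Type u} [Group K] [TopologicalSpace K]

/-- a discrete cocompact subgroup -/
structure Lat (Γ : Subgroup K) : Prop where
  disc : ∃ U ∈ 𝓝 (1 : K), ∀ γ ∈ Γ, γ ∈ U → γ = 1
  coco : ∃ C : Set K, IsCompact C ∧ ∀ x : K, ∃ γ ∈ Γ, γ * x ∈ C

variable [IsTopologicalGroup K] [SecondCountableTopology K] [MeasurableSpace K] [BorelSpace K]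

/-- fundamental set subordinate to a countable family of small open sets -/
theorem exists_fund_aux {Γ : Subgroup K} [Countable Γ] (O : ℕ → Set K) (hO : ∀ n, IsOpen (O n))
    (hU : ∀ n, ∀ a ∈ O n, ∀ γ ∈ Γ, γ * a ∈ O n → γ = 1)
    (hcov : ∀ y, ∃ n, ∃ γ : Γ, (γ : K) * y ∈ O n) :
    ∃ F : Set K, MeasurableSet F ∧ (F ⊆ ⋃ n, O n) ∧ ∀ x : K, ∃! γ : Γ, (γ : K) * x ∈ F := by
  let W : ℕ → Set K := fun n => {y | ∃ γ : Γ, (γ : K) * y ∈ O n}
  have hW : ∀ n, MeasurableSet (W n) := by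
    intro n
    have : W n = ⋃ γ : Γ, {y | (γ : K) * y ∈ O n} := by
      ext y; simp [W]
    rw [this]
    exact MeasurableSet.iUnion fun γ =>
      ((hO n).preimage (continuous_const_mul (γ : K))).measurableSet
  have hWΓ : ∀ n (γ : Γ) y, (γ : K) * y ∈ W n ↔ y ∈ W n := by
    intro n γ y
    constructor
    · rintro ⟨δ, hδ⟩
      exact ⟨δ * γ, by simpa [mul_assoc] using hδ⟩
    · rintro ⟨δ, hδ⟩
      exact ⟨δ * γ⁻¹, by simpa [mul_assoc] using hδ⟩
  classical
  let F : Set K := ⋃ n, (O n \ ⋃ m ∈ Finset.range n, W m)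
  refine ⟨F, MeasurableSet.iUnion fun n => (hO n).measurableSet.diff
    (Finset.measurableSet_biUnion _ fun m _ => hW m),
    iUnion_mono fun n => sdiff_subset, fun y => ?_⟩
  have hex : ∃ n, y ∈ W n := hcov y
  let n := Nat.find hex
  have hn : y ∈ W n := Nat.find_spec hex
  have hmin : ∀ m < n, y ∉ W m := fun m hm => Nat.find_min hex hm
  have hF : ∀ γ : Γ, (γ : K) * y ∈ F ↔ (γ : K) * y ∈ O n := by
    intro γ
    constructor
    · intro h
      simp only [F, mem_iUnion, mem_sdiff, Finset.mem_range, exists_prop, not_exists,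
        not_and] at h
      obtain ⟨k, hk1, hk2⟩ := h
      have hyk : y ∈ W k := ⟨γ, hk1⟩
      have h3 : n ≤ k := Nat.find_min' hex hyk
      rcases h3.eq_or_lt with h4 | h4
      · rw [h4]; exact hk1
      · exact absurd ((hWΓ n γ y).mpr hn) (hk2 n h4)
    · intro h
      simp only [F, mem_iUnion, mem_sdiff, Finset.mem_range, exists_prop, not_exists,
        not_and]
      exact ⟨n, h, fun m hm hm2 => hmin m hm ((hWΓ m γ y).mp hm2)⟩
  obtain ⟨γ, hγ⟩ := hn
  refine ⟨γ, (hF γ).mpr hγ, fun δ hδ => ?_⟩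
  replace hδ := (hF δ).mp hδ
  have h8 : ((δ * γ⁻¹ : Γ) : K) * ((γ : K) * y) = (δ : K) * y := by
    simp only [Subgroup.coe_mul, Subgroup.coe_inv]
    group
  have h9 := hU n _ hγ _ (δ * γ⁻¹).2 (by rw [h8]; exact hδ)
  have h10 : δ * γ⁻¹ = 1 := Subtype.ext h9
  exact mul_inv_eq_one.mp h10

omit [SecondCountableTopology K] [MeasurableSpace K] [BorelSpace K] in
theorem exists_small {Γ : Subgroup K}
    (hΓ : ∃ U ∈ 𝓝 (1 : K), ∀ γ ∈ Γ, γ ∈ U → γ = 1) :
    ∃ V : Set K, IsOpen V ∧ 1 ∈ V ∧ ∀ x, ∀ a, a * x⁻¹ ∈ V → ∀ γ ∈ Γ, γ * a * x⁻¹ ∈ V → γ = 1 := by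
  obtain ⟨U, hU, hUΓ⟩ := hΓ
  have h1 : ∀ᶠ p : K × K in 𝓝 (1 : K) ×ˢ 𝓝 (1 : K), p.1 * p.2⁻¹ ∈ U := by
    rw [← nhds_prod_eq]
    have hc : Continuous fun p : K × K => p.1 * p.2⁻¹ := continuous_fst.mul continuous_snd.inv
    have := hc.tendsto (1, 1)
    simp only [inv_one, mul_one] at this
    exact this hU
  obtain ⟨V₀, hV₀, hV₀U⟩ : ∃ V ∈ 𝓝 (1 : K), ∀ a ∈ V, ∀ b ∈ V, a * b⁻¹ ∈ U := by
    rw [Filter.eventually_prod_iff] at h1
    obtain ⟨p, hp, q, hq, hpq⟩ := h1
    exact ⟨{a | p a ∧ q a}, hp.and hq, fun a ha b hb => hpq ha.1 hb.2⟩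
  obtain ⟨V, hVV₀, hVo, hV1⟩ := mem_nhds_iff.mp hV₀
  refine ⟨V, hVo, hV1, fun x a ha γ hγ hγa => hUΓ γ hγ ?_⟩
  have := hV₀U _ (hVV₀ hγa) _ (hVV₀ ha)
  have h2 : γ * a * x⁻¹ * (a * x⁻¹)⁻¹ = γ := by group
  rwa [h2] at this

/-- Existence of a measurable set meeting every coset `Γ x` in exactly one point. -/
theorem exists_fund {Γ : Subgroup K} [Countable Γ]
    (hΓ : ∃ U ∈ 𝓝 (1 : K), ∀ γ ∈ Γ, γ ∈ U → γ = 1) :
    ∃ F : Set K, MeasurableSet F ∧ ∀ x : K, ∃! γ : Γ, (γ : K) * x ∈ F := by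
  obtain ⟨V, hVo, hV1, hVΓ⟩ := exists_small hΓ
  let O : K → Set K := fun x => {y | y * x⁻¹ ∈ V}
  have hOo : ∀ x, IsOpen (O x) := fun x => hVo.preimage (continuous_mul_const x⁻¹)
  have hOx : ∀ x, O x ∈ 𝓝 x := fun x => (hOo x).mem_nhds (by
    show x * x⁻¹ ∈ V
    rw [mul_inv_cancel]; exact hV1)
  obtain ⟨s, hs, hsU⟩ := TopologicalSpace.countable_cover_nhds hOx
  have hne : s.Nonempty := by
    by_contra h
    rw [not_nonempty_iff_eq_empty] at h
    rw [h] at hsU
    simp only [mem_empty_iff_false, iUnion_of_empty, iUnion_empty] at hsU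
    exact (Set.empty_ne_univ hsU)
  obtain ⟨x, hx⟩ := hs.exists_eq_range hne
  obtain ⟨F, hF, -, hF2⟩ := exists_fund_aux (Γ := Γ) (fun n => O (x n)) (fun n => hOo _)
    (fun n a ha γ hγ hγa => hVΓ (x n) a ha γ hγ hγa) (fun y => by
      have : y ∈ ⋃ z ∈ s, O z := by rw [hsU]; exact mem_univ _
      simp only [mem_iUnion, exists_prop] at this
      obtain ⟨z, hz, hyz⟩ := this
      rw [hx] at hz
      obtain ⟨n, rfl⟩ := hz
      exact ⟨n, 1, by simpa using hyz⟩)
  exact ⟨F, hF, hF2⟩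

/-- Existence of a relatively compact measurable set meeting every coset `Γ x` in exactly one
point. -/
theorem exists_fund_bdd [LocallyCompactSpace K] {Γ : Subgroup K} [Countable Γ] (hΓ : Lat Γ) :
    ∃ F : Set K, MeasurableSet F ∧ (∃ C, IsCompact C ∧ F ⊆ C) ∧
      ∀ x : K, ∃! γ : Γ, (γ : K) * x ∈ F := by
  obtain ⟨V, hVo, hV1, hVΓ⟩ := exists_small hΓ.disc
  obtain ⟨B, hB, hB1⟩ := exists_compact_mem_nhds (1 : K)
  obtain ⟨C, hC, hCΓ⟩ := hΓ.coco
  let V' : Set K := V ∩ interior B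
  have hV'o : IsOpen V' := hVo.inter isOpen_interior
  let O : K → Set K := fun x => {y | y * x⁻¹ ∈ V'}
  have hOo : ∀ x, IsOpen (O x) := fun x => hV'o.preimage (continuous_mul_const x⁻¹)
  have hOx : ∀ x, O x ∈ 𝓝 x := fun x => (hOo x).mem_nhds (by
    show x * x⁻¹ ∈ V'
    rw [mul_inv_cancel]
    exact ⟨hV1, mem_interior_iff_mem_nhds.mpr hB1⟩)
  obtain ⟨t, -, ht⟩ := hC.elim_nhds_subcover O fun x _ => hOx x
  have hne : (t : Set K).Nonempty := by
    obtain ⟨γ, hγ, hγC⟩ := hCΓ 1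
    have := ht hγC
    simp only [mem_iUnion, exists_prop] at this
    obtain ⟨z, hz, -⟩ := this
    exact ⟨z, hz⟩
  obtain ⟨x, hx⟩ := t.countable_toSet.exists_eq_range hne
  obtain ⟨F, hF, hFO, hF2⟩ := exists_fund_aux (Γ := Γ) (fun n => O (x n)) (fun n => hOo _)
    (fun n a ha γ hγ hγa => hVΓ (x n) a ha.1 γ hγ hγa.1) (fun y => by
      obtain ⟨γ, hγ, hγC⟩ := hCΓ y
      have := ht hγC
      simp only [mem_iUnion, exists_prop] at this
      obtain ⟨z, hz, hyz⟩ := this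
      have hz' : z ∈ (t : Set K) := hz
      rw [hx] at hz'
      obtain ⟨n, rfl⟩ := hz'
      exact ⟨n, ⟨γ, hγ⟩, hyz⟩)
  refine ⟨F, hF, ⟨⋃ z ∈ t, (fun y => y * z) '' B, ?_, ?_⟩, hF2⟩
  · exact t.isCompact_biUnion fun z _ => hB.image (continuous_mul_const z)
  · intro y hy
    have := hFO hy
    rw [mem_iUnion] at this
    obtain ⟨n, hn⟩ := this
    have hxn : x n ∈ (t : Set K) := by rw [hx]; exact ⟨n, rfl⟩
    rw [mem_iUnion₂]
    refine ⟨x n, hxn, y * (x n)⁻¹, interior_subset hn.2, by simp⟩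

theorem isFund {Γ : Subgroup K} {F : Set K} (hF : MeasurableSet F)
    (h : ∀ x : K, ∃! γ : Γ, (γ : K) * x ∈ F) (μ : Measure K) : IsFundamentalDomain Γ F μ :=
  IsFundamentalDomain.mk' hF.nullMeasurableSet h

theorem smulInv {Γ : Subgroup K} (μ : Measure K) [μ.IsMulLeftInvariant] :
    SMulInvariantMeasure Γ K μ :=
  ⟨fun γ s hs => by
    have : (fun x : K => γ • x) ⁻¹' s = (fun x => (γ : K) * x) ⁻¹' s := rfl
    rw [this, ← map_apply (measurable_const_mul _) hs, map_mul_left_eq_self]⟩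

theorem fund_finite {Γ : Subgroup K} [Countable Γ] {F : Set K} (hF : MeasurableSet F)
    (h : ∀ x : K, ∃! γ : Γ, (γ : K) * x ∈ F) (hc : ∃ C : Set K, IsCompact C ∧
      ∀ x : K, ∃ γ ∈ Γ, γ * x ∈ C) (μ : Measure K) [μ.IsMulLeftInvariant]
    [IsFiniteMeasureOnCompacts μ] : μ F < ⊤ := by
  obtain ⟨C, hC, hCΓ⟩ := hc
  have hfd := isFund hF h μ
  have := smulInv (Γ := Γ) μ
  have h1 := hfd.measure_eq_tsum C
  have h2 : F ⊆ ⋃ γ : Γ, (γ • C ∩ F) := by
    intro y hy
    obtain ⟨γ, hγ, hγC⟩ := hCΓ y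
    refine mem_iUnion.mpr ⟨(⟨γ, hγ⟩ : Γ)⁻¹, ?_, hy⟩
    rw [mem_inv_smul_set_iff]
    exact hγC
  calc μ F ≤ μ (⋃ γ : Γ, (γ • C ∩ F)) := measure_mono h2
    _ ≤ ∑' γ : Γ, μ (γ • C ∩ F) := measure_iUnion_le _
    _ = μ C := h1.symm
    _ < ⊤ := hC.measure_lt_top

variable [LocallyCompactSpace K]

/-- unimodularity -/
theorem right_inv {Γ : Subgroup K} [Countable Γ] (hΓ : Lat Γ) (μ : Measure K) [IsHaarMeasure μ] :
    IsMulRightInvariant μ := by
  obtain ⟨F, hF, hFx⟩ := exists_fund hΓ.disc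
  have hfin := fund_finite hF hFx hΓ.coco μ
  have := smulInv (Γ := Γ) μ
  have hpos : μ F ≠ 0 := (isFund hF hFx μ).measure_ne_zero (NeZero.ne μ)
  refine ⟨fun g => ?_⟩
  have h1 : map (· * g) μ = haarScalarFactor (map (· * g) μ) μ • μ :=
    isMulLeftInvariant_eq_smul _ _
  have hF' : MeasurableSet ((· * g) ⁻¹' F) := measurable_mul_const g hF
  have hFx' : ∀ x : K, ∃! γ : Γ, (γ : K) * x ∈ ((· * g) ⁻¹' F) := by
    intro x
    obtain ⟨γ, hγ, hu⟩ := hFx (x * g)
    refine ⟨γ, by simpa [mul_assoc] using hγ, fun δ hδ => hu δ (by simpa [mul_assoc] using hδ)⟩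
  have h2 : map (· * g) μ F = μ F := by
    rw [map_apply (measurable_mul_const g) hF]
    exact (isFund hF' hFx' μ).measure_eq (isFund hF hFx μ)
  rw [h1] at h2 ⊢
  have h3 : haarScalarFactor (map (· * g) μ) μ = 1 := by
    rw [Measure.smul_apply, ENNReal.smul_def, smul_eq_mul] at h2
    have h4 := (ENNReal.mul_eq_right hpos hfin.ne).mp h2
    exact_mod_cast h4
  rw [h3, one_smul]

/-- automorphisms preserving the lattice preserve the measure -/
theorem measurePreserving_aut {Γ : Subgroup K} [Countable Γ] (hΓ : Lat Γ) (μ : Measure K)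
    [IsHaarMeasure μ] (α : K ≃* K) (hα : Continuous α) (hα' : Continuous α.symm)
    (hΓα : ∀ x, α x ∈ Γ ↔ x ∈ Γ) : MeasurePreserving α μ μ := by
  obtain ⟨F, hF, hFx⟩ := exists_fund hΓ.disc
  have hfin := fund_finite hF hFx hΓ.coco μ
  have := smulInv (Γ := Γ) μ
  have hpos : μ F ≠ 0 := (isFund hF hFx μ).measure_ne_zero (NeZero.ne μ)
  have hH : IsHaarMeasure (map α μ) := α.isHaarMeasure_map μ hα hα'
  have h1 : map α μ = haarScalarFactor (map α μ) μ • μ := isMulLeftInvariant_eq_smul _ _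
  have hF' : MeasurableSet (α ⁻¹' F) := hα.measurable hF
  have hFx' : ∀ x : K, ∃! γ : Γ, (γ : K) * x ∈ (α ⁻¹' F) := by
    intro x
    obtain ⟨γ, hγ, hu⟩ := hFx (α x)
    have hm : α.symm γ ∈ Γ := by
      rw [← hΓα, MulEquiv.apply_symm_apply]; exact γ.2
    refine ⟨⟨α.symm γ, hm⟩, by simpa [map_mul] using hγ, fun δ hδ => ?_⟩
    have h3 := hu ⟨α δ, (hΓα δ).mpr δ.2⟩ (by simpa [map_mul] using hδ)
    have h4 : α δ = (γ : K) := congrArg Subtype.val h3
    apply Subtype.ext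
    show (δ : K) = α.symm (γ : K)
    rw [← h4]
    simp
  have h2 : map α μ F = μ F := by
    rw [map_apply hα.measurable hF]
    exact (isFund hF' hFx' μ).measure_eq (isFund hF hFx μ)
  refine ⟨hα.measurable, ?_⟩
  rw [h1] at h2 ⊢
  have h3 : haarScalarFactor (map α μ) μ = 1 := by
    rw [Measure.smul_apply, ENNReal.smul_def, smul_eq_mul] at h2
    have h4 := (ENNReal.mul_eq_right hpos hfin.ne).mp h2
    exact_mod_cast h4
  rw [h3, one_smul]

end Vale.Agent.P188.H131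

end

section

/-!
Growth of orbits of a linear automorphism of a finite dimensional real vector space, in a norm-free
form, and the decomposition of the space according to the moduli of the eigenvalues.
-/

namespace Vale.Agent.P188.H269

open Module

section grow

variable {V : Type*} [AddCommGroup V] [Module ℝ V]
variable {W : Type*} [AddCommGroup W] [Module ℝ W]

/-- exponential comparison -/
theorem le_of_exp_bound {a l r : ℝ} (ha : 0 < a)
    (h : ∀ ε > 0, ∃ C : ℝ, ∀ n : ℕ, a * Real.exp (l * n) ≤ C * Real.exp ((r + ε) * n)) :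
    l ≤ r := by
  by_contra hlt
  push Not at hlt
  obtain ⟨C, hC⟩ := h ((l - r) / 2) (by linarith)
  have hpos : 0 < (l - r) / 2 := by linarith
  have key : ∀ n : ℕ, a * Real.exp ((l - r) / 2 * n) ≤ C := by
    intro n
    have h1 := hC n
    have h2 : Real.exp (l * n) = Real.exp ((l - r) / 2 * n) * Real.exp ((r + (l - r) / 2) * n) := by
      rw [← Real.exp_add]; congr 1; ring
    rw [h2, ← mul_assoc] at h1
    exact le_of_mul_le_mul_right h1 (Real.exp_pos _)
  obtain ⟨n, hn⟩ := exists_nat_gt ((C / a) / ((l - r) / 2))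
  have h3 := key n
  have h4 : (l - r) / 2 * n + 1 ≤ Real.exp ((l - r) / 2 * n) := Real.add_one_le_exp _
  rw [div_lt_iff₀ hpos, div_lt_iff₀ ha] at hn
  nlinarith

/-- vectors whose forward orbit under `T` grows at most like `exp ((r + ε) n)` -/
def Gr (T : Module.End ℝ V) (r : ℝ) : Submodule ℝ V where
  carrier := {x | ∀ φ : V →ₗ[ℝ] ℝ, ∀ ε > 0, ∃ C : ℝ, ∀ n : ℕ,
    |φ ((T ^ n) x)| ≤ C * Real.exp ((r + ε) * n)}
  zero_mem' := by
    intro φ ε _
    exact ⟨0, fun n => by simp⟩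
  add_mem' := by
    intro a b ha hb φ ε hε
    obtain ⟨C, hC⟩ := ha φ ε hε
    obtain ⟨D, hD⟩ := hb φ ε hε
    refine ⟨C + D, fun n => ?_⟩
    rw [map_add, map_add, add_mul]
    exact (abs_add_le _ _).trans (add_le_add (hC n) (hD n))
  smul_mem' := by
    intro c a ha φ ε hε
    obtain ⟨C, hC⟩ := ha φ ε hε
    refine ⟨|c| * C, fun n => ?_⟩
    rw [map_smul, map_smul, smul_eq_mul, abs_mul, mul_assoc]
    exact mul_le_mul_of_nonneg_left (hC n) (abs_nonneg c)

/-- a bound which holds with a nonnegative constant -/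
theorem Gr.bound {T : Module.End ℝ V} {r : ℝ} {x : V} (hx : x ∈ Gr T r) (φ : V →ₗ[ℝ] ℝ) {ε : ℝ}
    (hε : 0 < ε) : ∃ C : ℝ, 0 ≤ C ∧ ∀ n : ℕ, |φ ((T ^ n) x)| ≤ C * Real.exp ((r + ε) * n) := by
  obtain ⟨C, hC⟩ := hx φ ε hε
  refine ⟨C, ?_, hC⟩
  have h0 := hC 0
  have h1 : (0 : ℝ) ≤ C * Real.exp ((r + ε) * (0 : ℕ)) := (abs_nonneg _).trans h0
  exact nonneg_of_mul_nonneg_left h1 (Real.exp_pos _)

theorem Gr_mono {T : Module.End ℝ V} {r s : ℝ} (h : r ≤ s) : Gr T r ≤ Gr T s := by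
  intro x hx φ ε hε
  obtain ⟨C, hC0, hC⟩ := Gr.bound hx φ hε
  refine ⟨C, fun n => (hC n).trans ?_⟩
  apply mul_le_mul_of_nonneg_left _ hC0
  apply Real.exp_le_exp.2
  have : (0 : ℝ) ≤ n := Nat.cast_nonneg n
  nlinarith

theorem pow_comm_map {T : Module.End ℝ V} {S : Module.End ℝ W} (f : V →ₗ[ℝ] W)
    (hf : ∀ x, f (T x) = S (f x)) (n : ℕ) (x : V) : f ((T ^ n) x) = (S ^ n) (f x) := by
  induction n generalizing x with
  | zero => simp
  | succ n ih => rw [pow_succ, pow_succ, Module.End.mul_apply, Module.End.mul_apply, ih, hf]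

theorem Gr_map {T : Module.End ℝ V} {S : Module.End ℝ W} (f : V →ₗ[ℝ] W)
    (hf : ∀ x, f (T x) = S (f x)) {r : ℝ} {x : V} (hx : x ∈ Gr T r) : f x ∈ Gr S r := by
  intro φ ε hε
  obtain ⟨C, hC⟩ := hx (φ ∘ₗ f) ε hε
  refine ⟨C, fun n => ?_⟩
  rw [← pow_comm_map f hf n x]
  exact hC n

/-- the vectors of modulus `exp r` -/
def Wt (T T' : Module.End ℝ V) (r : ℝ) : Submodule ℝ V := Gr T r ⊓ Gr T' (-r)

theorem Wt_map {T T' : Module.End ℝ V} {S S' : Module.End ℝ W} (f : V →ₗ[ℝ] W)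
    (hf : ∀ x, f (T x) = S (f x)) (hf' : ∀ x, f (T' x) = S' (f x)) {r : ℝ} {x : V}
    (hx : x ∈ Wt T T' r) : f x ∈ Wt S S' r :=
  ⟨Gr_map f hf hx.1, Gr_map f hf' hx.2⟩

theorem Wt_symm {T T' : Module.End ℝ V} {r : ℝ} {x : V} (hx : x ∈ Wt T T' r) :
    x ∈ Wt T' T (-r) := ⟨hx.2, by rw [neg_neg]; exact hx.1⟩

theorem pow_mul_pow_eq_one {T T' : Module.End ℝ V} (h : T' * T = 1) (n : ℕ) :
    T' ^ n * T ^ n = 1 := by
  induction n with
  | zero => simp
  | succ n ih =>
    rw [pow_succ T', pow_succ' T, mul_assoc, ← mul_assoc T' T, h, one_mul, ih]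

theorem pow_pow_apply {T T' : Module.End ℝ V} (h : T' * T = 1) (n : ℕ) (x : V) :
    (T' ^ n) ((T ^ n) x) = x := by
  rw [← Module.End.mul_apply, pow_mul_pow_eq_one h, Module.End.one_apply]

/-- `Gr T' s` is stable under `T` if `T' T = 1` -/
theorem Gr_inv {T T' : Module.End ℝ V} (h : T' * T = 1) {s : ℝ} {x : V} (hx : x ∈ Gr T' s) :
    T x ∈ Gr T' s := by
  intro φ ε hε
  obtain ⟨C, hC0, hC⟩ := Gr.bound hx φ hε
  refine ⟨max (|φ (T x)|) (C * Real.exp (-(s + ε))), fun n => ?_⟩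
  cases n with
  | zero =>
    simp
  | succ n =>
    have h1 : (T' ^ (n + 1)) (T x) = (T' ^ n) x := by
      rw [pow_succ, Module.End.mul_apply, ← Module.End.mul_apply T' T, h, Module.End.one_apply]
    rw [h1]
    refine (hC n).trans ?_
    have h2 : C * Real.exp ((s + ε) * n) =
        (C * Real.exp (-(s + ε))) * Real.exp ((s + ε) * ((n + 1 : ℕ) : ℝ)) := by
      rw [mul_assoc, ← Real.exp_add]; congr 2; push_cast; ring
    rw [h2]
    exact mul_le_mul_of_nonneg_right (le_max_right _ _) (Real.exp_pos _).le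

theorem Gr_self {T : Module.End ℝ V} {s : ℝ} {x : V} (hx : x ∈ Gr T s) : T x ∈ Gr T s := by
  intro φ ε hε
  obtain ⟨C, hC⟩ := hx φ ε hε
  refine ⟨C * Real.exp (s + ε), fun n => ?_⟩
  have h1 : (T ^ n) (T x) = (T ^ (n + 1)) x := by rw [pow_succ, Module.End.mul_apply]
  rw [h1]
  refine (hC (n + 1)).trans (le_of_eq ?_)
  rw [mul_assoc, ← Real.exp_add]; congr 2; push_cast; ring

theorem Wt_self {T T' : Module.End ℝ V} (h : T' * T = 1) {r : ℝ} {x : V} (hx : x ∈ Wt T T' r) :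
    T x ∈ Wt T T' r := ⟨Gr_self hx.1, Gr_inv h hx.2⟩

theorem Gr_inv_pow {T T' : Module.End ℝ V} (h : T' * T = 1) {s : ℝ} {x : V} (hx : x ∈ Gr T' s)
    (n : ℕ) : (T ^ n) x ∈ Gr T' s := by
  induction n with
  | zero => simpa using hx
  | succ n ih => rw [pow_succ', Module.End.mul_apply]; exact Gr_inv h ih

/-- a bound for a finite family of functionals -/
theorem Gr.bound_fin {ι : Type*} [Fintype ι] {T : Module.End ℝ V} {r : ℝ} {x : V} (hx : x ∈ Gr T r)
    (φ : ι → V →ₗ[ℝ] ℝ) {ε : ℝ} (hε : 0 < ε) :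
    ∃ C : ℝ, 0 ≤ C ∧ ∀ i, ∀ n : ℕ, |φ i ((T ^ n) x)| ≤ C * Real.exp ((r + ε) * n) := by
  choose C hC0 hC using fun i => Gr.bound hx (φ i) hε
  refine ⟨∑ i, C i, Finset.sum_nonneg fun i _ => hC0 i, fun i n => (hC i n).trans ?_⟩
  exact mul_le_mul_of_nonneg_right
    (Finset.single_le_sum (f := C) (fun i _ => hC0 i) (Finset.mem_univ i)) (Real.exp_pos _).le

/-- vectors growing slowly in the future do not grow fast in the past -/
theorem indep_lt [FiniteDimensional ℝ V] {T T' : Module.End ℝ V} (h : T' * T = 1) {r s : ℝ}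
    (hrs : r < s) {x : V} (hx : x ∈ Gr T r) (hx' : x ∈ Gr T' (-s)) : x = 0 := by
  classical
  set U := Gr T' (-s) with hU
  let b := Module.finBasis ℝ U
  -- coordinates, extended to `V`
  have hext : ∀ i, ∃ g : V →ₗ[ℝ] ℝ, g ∘ₗ U.subtype = b.coord i := fun i =>
    LinearMap.exists_extend (b.coord i)
  choose c hc using hext
  rw [← forall_dual_apply_eq_zero_iff ℝ x]
  intro ψ
  by_contra hψ
  have hδ : 0 < (s - r) / 4 := by linarith
  obtain ⟨C, hC0, hC⟩ := Gr.bound_fin hx c hδ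
  have hb : ∀ i, ∃ D : ℝ, 0 ≤ D ∧ ∀ n : ℕ,
      |ψ ((T' ^ n) (b i : V))| ≤ D * Real.exp ((-s + (s - r) / 4) * n) := fun i =>
    Gr.bound (b i).2 ψ hδ
  choose D hD0 hD using hb
  have hsr : (0 : ℝ) < |ψ x| := abs_pos.2 hψ
  have key : (0 : ℝ) ≤ -((s - r) / 4) := by
    refine le_of_exp_bound hsr fun ε hε => ⟨∑ i, C * D i, fun n => ?_⟩
    have hmem : (T ^ n) x ∈ U := Gr_inv_pow h hx' n
    have h1 : (T ^ n) x = ∑ i, (c i ((T ^ n) x)) • (b i : V) := by
      have h2 := b.sum_repr ⟨(T ^ n) x, hmem⟩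
      have h3 := congrArg (U.subtype) h2
      rw [map_sum] at h3
      simp only [map_smul, Submodule.subtype_apply] at h3
      rw [← h3]
      refine Finset.sum_congr rfl fun i _ => ?_
      rw [h3]
      congr 1
      have h4 := congrArg (fun g : U →ₗ[ℝ] ℝ => g ⟨(T ^ n) x, hmem⟩) (hc i)
      simpa using h4.symm
    have h5 : ψ x = ∑ i, (c i ((T ^ n) x)) * ψ ((T' ^ n) (b i : V)) := by
      have h6 : x = (T' ^ n) ((T ^ n) x) := (pow_pow_apply h n x).symm
      conv_lhs => rw [h6, h1]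
      rw [map_sum, map_sum]
      refine Finset.sum_congr rfl fun i _ => ?_
      rw [map_smul, map_smul, smul_eq_mul]
    have h7 : |ψ x| ≤ ∑ i, C * D i * (Real.exp ((r + (s - r) / 4) * n) *
        Real.exp ((-s + (s - r) / 4) * n)) := by
      rw [h5]
      refine (Finset.abs_sum_le_sum_abs _ _).trans (Finset.sum_le_sum fun i _ => ?_)
      rw [abs_mul]
      calc |c i ((T ^ n) x)| * |ψ ((T' ^ n) (b i : V))|
          ≤ (C * Real.exp ((r + (s - r) / 4) * n)) *
            (D i * Real.exp ((-s + (s - r) / 4) * n)) :=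
            mul_le_mul (hC i n) (hD i n) (abs_nonneg _)
              (mul_nonneg hC0 (Real.exp_pos _).le)
        _ = _ := by ring
    rw [← Finset.sum_mul] at h7
    simp only [zero_mul, Real.exp_zero, mul_one]
    refine h7.trans ?_
    apply mul_le_mul_of_nonneg_left _ (Finset.sum_nonneg fun i _ => mul_nonneg hC0 (hD0 i))
    rw [← Real.exp_add]
    apply Real.exp_le_exp.2
    have hn : (0 : ℝ) ≤ n := Nat.cast_nonneg n
    nlinarith
  linarith

/-- independence of the modulus spaces -/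
theorem Wt_finsupp_eq_zero [FiniteDimensional ℝ V] {T T' : Module.End ℝ V} (h : T' * T = 1)
    (f : ℝ →₀ V) (hf : ∀ r, f r ∈ Wt T T' r) (hsum : (f.sum fun _ x => x) = 0) : f = 0 := by
  classical
  by_contra hne
  have hs : f.support.Nonempty := Finsupp.support_nonempty_iff.2 hne
  set m := f.support.max' hs with hm
  have hmem : m ∈ f.support := Finset.max'_mem _ _
  have hfm : f m ≠ 0 := Finsupp.mem_support_iff.1 hmem
  obtain ⟨s, hsm, hs'⟩ : ∃ s, s < m ∧ ∀ r ∈ f.support.erase m, r ≤ s := by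
    rcases (f.support.erase m).eq_empty_or_nonempty with he | he
    · exact ⟨m - 1, by linarith, by rw [he]; simp⟩
    · refine ⟨(f.support.erase m).max' he, ?_, fun r hr => Finset.le_max' _ _ hr⟩
      have h1 := Finset.max'_mem _ he
      rw [Finset.mem_erase] at h1
      exact lt_of_le_of_ne (Finset.le_max' _ _ h1.2) h1.1
  apply hfm
  have h2 : f m = - ∑ r ∈ f.support.erase m, f r := by
    have h3 := hsum
    rw [Finsupp.sum, ← Finset.add_sum_erase _ _ hmem] at h3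
    exact eq_neg_of_add_eq_zero_left h3
  refine indep_lt h hsm ?_ (hf m).2
  rw [h2]
  exact Submodule.neg_mem _ (Submodule.sum_mem _ fun r hr => Gr_mono (hs' r hr) (hf r).1)

theorem Wt_indep [FiniteDimensional ℝ V] {T T' : Module.End ℝ V} (h : T' * T = 1)
    {r : ℝ} (f : ℝ →₀ V) (hf : ∀ s, f s ∈ Wt T T' s) {x : V} (hx : x ∈ Wt T T' r)
    (hsum : (f.sum fun _ x => x) = x) : f = Finsupp.single r x := by
  classical
  have h1 : f - Finsupp.single r x = 0 := by
    apply Wt_finsupp_eq_zero h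
    · intro s
      rw [Finsupp.sub_apply]
      refine Submodule.sub_mem _ (hf s) ?_
      by_cases hs : r = s
      · subst hs; simpa using hx
      · rw [Finsupp.single_eq_of_ne (Ne.symm hs)]; exact Submodule.zero_mem _
    · rw [Finsupp.sum_sub_index (by intros; rfl), hsum, Finsupp.sum_single_index rfl, sub_self]
  exact sub_eq_zero.1 h1

/-- intersection of a modulus space with a sum of the others -/
theorem Wt_inf_iSup [FiniteDimensional ℝ V] {T T' : Module.End ℝ V} (h : T' * T = 1) {r : ℝ}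
    (p : ℝ → Submodule ℝ V) (hp : ∀ s, p s ≤ Wt T T' s)
    {x : V} (hx : x ∈ Wt T T' r) (hx' : x ∈ ⨆ s, p s) : x ∈ p r := by
  rw [Submodule.mem_iSup_iff_exists_finsupp] at hx'
  obtain ⟨f, hf, hsum⟩ := hx'
  have h1 := Wt_indep h f (fun s => hp s (hf s)) hx hsum
  have h2 : f r = x := by rw [h1, Finsupp.single_eq_same]
  rw [← h2]; exact hf r

end grow

end Vale.Agent.P188.H269

end
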