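import Mathlib.MeasureTheory.Measure.Prod
import Mathlib.MeasureTheory.Group.Arithmetic
import Mathlib.MeasureTheory.Group.Defs
import Mathlib.Tactic
import Mathlib.MeasureTheory.Integral.Average
import Mathlib.Analysis.Normed.Group.Basic
import Mathlib.MeasureTheory.Group.Measure
import Mathlib.MeasureTheory.Constructions.BorelSpace.Metric

section

/-!
# P188, block FLATNESS, part 2: scripts, selection of a base point, exact base point
-/

set_option linter.all false

namespace Vale.Agent.P188.H616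

open MeasureTheory Set

variable {S : Type*} [Group S]

/-! ### the moves `Φ u g` -/

/-- A class function `s` (section modulo `E`). -/
structure Sec (E : Subgroup S) (s : S → S) : Prop where
  mem : ∀ z, z * (s z)⁻¹ ∈ E
  inv : ∀ e ∈ E, ∀ z, s (e * z) = s z

/-- `n c ↦ n u c g` -/
def Phi (s : S → S) (u g z : S) : S := z * (s z)⁻¹ * u * s z * g

theorem Phi_mul (s : S → S) (u g h z : S) : Phi s u (g * h) z = Phi s u g z * h := by
  unfold Phi; group

theorem Phi_one (s : S → S) (z : S) : Phi s 1 1 z = z := by unfold Phi; group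

variable {E : Subgroup S} {s : S → S}

theorem Sec.s_s (h : Sec E s) (z : S) : s (s z) = s z := by
  have h1 := h.inv _ (h.mem z) (s z)
  rw [inv_mul_cancel_right] at h1
  exact h1.symm

theorem Sec.s_Phi (h : Sec E s) {u : S} (hu : u ∈ E) (g z : S) : s (Phi s u g z * g⁻¹) = s z := by
  have h1 := h.inv (z * (s z)⁻¹ * u) (mul_mem (h.mem z) hu) (s z)
  rw [h.s_s] at h1
  rw [← h1]
  congr 1
  unfold Phi; group

/-- the slide `τ` in the frame `g` -/
def slide (s : S → S) (u g w : S) : S := w * ((s (w * g⁻¹) * g)⁻¹ * u * (s (w * g⁻¹) * g))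

theorem Sec.slide_Phi (h : Sec E s) {u : S} (hu : u ∈ E) (v g z : S) :
    slide s v g (Phi s u g z) = Phi s (u * v) g z := by
  unfold slide
  rw [h.s_Phi hu]
  unfold Phi; group

/-! ### scripts -/

section script

variable {Λ V W : Type*} [NormedAddCommGroup V] [AddCommGroup W]

/-- the bad set of one step -/
def badStep (σ : S → Λ) (f : S → V) (T : Λ → W →+ V) (D : Set S) (p q : S → S) (a : W) (err : ℝ) :
    Set S :=
  {z | z ∈ D ∧ (σ (q z) ≠ σ (p z) ∨ err < ‖f (q z) - f (p z) - T (σ (p z)) a‖)}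

end script

/-! ### selection -/

theorem exists_good [MeasurableSpace S] {E' : Type*} [MeasurableSpace E'] (μ : Measure S)
    [SFinite μ] (ν : Measure E') [SFinite ν] {D : Set S} (hD : MeasurableSet D) (hD0 : μ D ≠ 0)
    (hD1 : μ D ≠ ⊤) {Bx : Set E'} (hBx : MeasurableSet Bx) {bad : Set (S × E')}
    (hbad : MeasurableSet bad) {ε : ENNReal}
    (h : ∀ u ∈ Bx, μ {z | z ∈ D ∧ (z, u) ∈ bad} ≤ ε * μ D) :
    ∃ z ∈ D, ν {u | u ∈ Bx ∧ (z, u) ∈ bad} ≤ ε * ν Bx := by
  set F : S → ENNReal := fun z => ν {u | u ∈ Bx ∧ (z, u) ∈ bad} with hF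
  have hFm : Measurable F := by
    have : MeasurableSet ((univ ×ˢ Bx) ∩ bad) := (MeasurableSet.univ.prod hBx).inter hbad
    have h2 := measurable_measure_prodMk_left (ν := ν) this
    have h3 : F = fun z => ν (Prod.mk z ⁻¹' ((univ ×ˢ Bx) ∩ bad)) := by
      funext z
      simp only [hF]
      congr 1
      ext u
      simp
    rw [h3]
    exact h2
  have h1 : ∫⁻ z in D, F z ∂μ ≤ ε * μ D * ν Bx := by
    have hset : MeasurableSet ((D ×ˢ Bx) ∩ bad) := (hD.prod hBx).inter hbad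
    calc ∫⁻ z in D, F z ∂μ = ∫⁻ z, ν (Prod.mk z ⁻¹' ((D ×ˢ Bx) ∩ bad)) ∂μ := by
          rw [← lintegral_indicator hD]
          refine lintegral_congr fun z => ?_
          by_cases hz : z ∈ D
          · rw [indicator_of_mem hz]
            simp only [hF]
            congr 1
            ext u
            simp [hz]
          · rw [indicator_of_notMem hz]
            symm
            convert measure_empty (μ := ν)
            ext u
            simp [hz]
      _ = (μ.prod ν) ((D ×ˢ Bx) ∩ bad) := (Measure.prod_apply hset).symm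
      _ = ∫⁻ u, μ ((fun z => (z, u)) ⁻¹' ((D ×ˢ Bx) ∩ bad)) ∂ν := Measure.prod_apply_symm hset
      _ ≤ ∫⁻ u, Bx.indicator (fun _ => ε * μ D) u ∂ν := by
          refine lintegral_mono fun u => ?_
          by_cases hu : u ∈ Bx
          · rw [indicator_of_mem hu]
            refine le_trans (measure_mono ?_) (h u hu)
            rintro z ⟨h3, h4⟩
            exact ⟨h3.1, h4⟩
          · rw [indicator_of_notMem hu]
            refine le_of_eq ?_
            convert measure_empty (μ := μ)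
            ext z
            simp [hu]
      _ = ε * μ D * ν Bx := by
          rw [lintegral_indicator hBx, setLIntegral_const]
  obtain ⟨z, hz, hz2⟩ := exists_le_setLAverage hD0 hD1 (hFm.aemeasurable)
  refine ⟨z, hz, ?_⟩
  refine hz2.trans ?_
  rw [setLAverage_eq]
  refine (ENNReal.div_le_of_le_mul ?_)
  refine h1.trans (le_of_eq ?_)
  ring

end Vale.Agent.P188.H616

end

section

/-!
# P188, route A, block hinput: a measure on a subgroup against a measure on the group
-/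

set_option linter.all false

namespace Vale.Agent.P188.H235

open MeasureTheory Set
open scoped ENNReal

/-- `ν` is carried by `E` and is invariant under `E` on both sides. -/
structure EMeas {S : Type} [Group S] [MeasurableSpace S] (E : Subgroup S) (ν : Measure S) :
    Prop where
  sfin : SFinite ν
  mpr : ∀ g ∈ E, MeasurePreserving (fun x => x * g) ν ν
  mpl : ∀ g ∈ E, MeasurePreserving (fun x => g * x) ν ν
  supp : ∀ A : Set S, MeasurableSet A → ν A ≠ 0 → ∃ n ∈ E, n ∈ A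

variable {S : Type} [Group S] [MeasurableSpace S] [MeasurableMul₂ S] [MeasurableInv S]
  {E : Subgroup S} {ν μ : Measure S}

theorem EMeas.sup (h : EMeas E ν) {U U' : Set S} (hU : MeasurableSet U) (hU' : MeasurableSet U')
    (hUU : ∀ u ∈ U, ∀ v ∈ U, u * v⁻¹ ∈ U') (x : S) : ν {n | n⁻¹ * x ∈ U} ≤ ν U' := by
  have hm : MeasurableSet {n | n⁻¹ * x ∈ U} :=
    (measurable_inv.mul_const x) hU
  by_cases h0 : ν {n | n⁻¹ * x ∈ U} = 0
  · rw [h0]; exact zero_le
  obtain ⟨n₀, hn₀, hn₀U⟩ := h.supp _ hm h0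
  have hsub : {n | n⁻¹ * x ∈ U} ⊆ (fun y => n₀⁻¹ * y) ⁻¹' U' := by
    intro n hn
    have := hUU _ hn₀U _ hn
    have e : n₀⁻¹ * x * (n⁻¹ * x)⁻¹ = n₀⁻¹ * n := by group
    rw [e] at this
    exact this
  refine (measure_mono hsub).trans ?_
  rw [(h.mpl _ (E.inv_mem hn₀)).measure_preimage hU'.nullMeasurableSet]

/-- **Fubini.** -/
theorem EMeas.fub [SFinite μ] (h : EMeas E ν)
    (hμ : ∀ w : S, MeasurePreserving (fun x => w * x) μ μ) {U A : Set S}
    (hU : MeasurableSet U) (hA : MeasurableSet A) {H : ℝ≥0∞}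
    (hH : ∀ x, ν {n | n⁻¹ * x ∈ U} ≤ H) :
    ∫⁻ u in U, ν {n | n * u ∈ A} ∂μ ≤ H * μ A := by
  haveI := h.sfin
  -- first set
  set P : Set (S × S) := {p | p.1 ∈ U ∧ p.2 * p.1 ∈ A} with hP
  have hPm : MeasurableSet P :=
    (measurable_fst hU).inter ((measurable_snd.mul measurable_fst) hA)
  set P' : Set (S × S) := {p | p.2⁻¹ * p.1 ∈ U ∧ p.1 ∈ A} with hP'
  have hPm' : MeasurableSet P' :=
    ((measurable_snd.inv.mul measurable_fst) hU).inter (measurable_fst hA)
  have e1 : ∫⁻ u in U, ν {n | n * u ∈ A} ∂μ = (μ.prod ν) P := by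
    rw [Measure.prod_apply hPm, ← lintegral_indicator hU]
    refine lintegral_congr fun u => ?_
    by_cases hu : u ∈ U
    · rw [Set.indicator_of_mem hu]
      congr 1
      ext n
      simp [hP, hu]
    · rw [Set.indicator_of_notMem hu]
      have : Prod.mk u ⁻¹' P = ∅ := by
        ext n
        simp [hP, hu]
      rw [this, measure_empty]
  have e2 : (μ.prod ν) P = (μ.prod ν) P' := by
    rw [Measure.prod_apply_symm hPm, Measure.prod_apply_symm hPm']
    refine lintegral_congr fun n => ?_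
    have hm : MeasurableSet ((fun x => (x, n)) ⁻¹' P') := measurable_prodMk_right hPm'
    rw [← (hμ n).measure_preimage hm.nullMeasurableSet]
    congr 1
    ext u
    simp only [hP, hP', mem_preimage, mem_setOf_eq, inv_mul_cancel_left]
  rw [e1, e2, Measure.prod_apply hPm']
  calc ∫⁻ x, ν (Prod.mk x ⁻¹' P') ∂μ ≤ ∫⁻ x, A.indicator (fun _ => H) x ∂μ := by
        refine lintegral_mono fun x => ?_
        by_cases hx : x ∈ A
        · rw [Set.indicator_of_mem hx]
          refine le_trans (measure_mono fun n hn => ?_) (hH x)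
          exact hn.1
        · rw [Set.indicator_of_notMem hx]
          have : Prod.mk x ⁻¹' P' = ∅ := by
            ext n
            simp [hP', hx]
          rw [this, measure_empty]
    _ = H * μ A := by rw [lintegral_indicator hA, lintegral_const, Measure.restrict_apply_univ]

/-- Choice of a good translate. -/
theorem EMeas.pick [SFinite μ] (h : EMeas E ν)
    (hμ : ∀ w : S, MeasurePreserving (fun x => w * x) μ μ) {U A : Set S}
    (hU : MeasurableSet U) (hA : MeasurableSet A) {H : ℝ≥0∞}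
    (hH : ∀ x, ν {n | n⁻¹ * x ∈ U} ≤ H) (h0 : μ U ≠ 0) (h1 : μ U ≠ ⊤) :
    ∃ u ∈ U, ν {n | n * u ∈ A} * μ U ≤ H * μ A := by
  haveI := h.sfin
  have hm : Measurable fun u => ν {n | n * u ∈ A} := by
    have hs : MeasurableSet {p : S × S | p.2 * p.1 ∈ A} :=
      (measurable_snd.mul measurable_fst) hA
    exact measurable_measure_prodMk_left hs
  obtain ⟨u, hu, hle⟩ := exists_le_setLAverage (μ := μ) (s := U)
    (f := fun u => ν {n | n * u ∈ A}) h0 h1 hm.aemeasurable
  refine ⟨u, hu, ?_⟩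
  have h2 := h.fub hμ hU hA hH
  rw [setLAverage_eq] at hle
  calc ν {n | n * u ∈ A} * μ U ≤ ((∫⁻ u in U, ν {n | n * u ∈ A} ∂μ) / μ U) * μ U := by gcongr
    _ = ∫⁻ u in U, ν {n | n * u ∈ A} ∂μ := ENNReal.div_mul_cancel h0 h1
    _ ≤ H * μ A := h2

/-- Lower bound form. -/
theorem EMeas.low [SFinite μ] (h : EMeas E ν)
    (hμ : ∀ w : S, MeasurePreserving (fun x => w * x) μ μ) {U A A₀ : Set S}
    (hU : MeasurableSet U) (hA : MeasurableSet A) {H : ℝ≥0∞}
    (hH : ∀ x, ν {n | n⁻¹ * x ∈ U} ≤ H) (hl : ∀ u ∈ U, ν A₀ ≤ ν {n | n * u ∈ A}) :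
    ν A₀ * μ U ≤ H * μ A := by
  refine le_trans ?_ (h.fub hμ hU hA hH)
  calc ν A₀ * μ U = ∫⁻ u in U, ν A₀ ∂μ := by
        rw [lintegral_const, Measure.restrict_apply_univ]
    _ ≤ _ := setLIntegral_mono' hU hl

omit [MeasurableMul₂ S] [MeasurableInv S] in
/-- **Covering by a maximal disjoint family.** -/
theorem cover {μ : Measure S} (hμ : ∀ w : S, MeasurePreserving (fun x => w * x) μ μ)
    {Q Q' W A : Set S} (hQ : MeasurableSet Q) (h0 : μ Q ≠ 0) (h1 : μ W ≠ ⊤)
    (hAW : ∀ n ∈ A, ∀ q ∈ Q, n * q ∈ W) (hQQ : ∀ p ∈ Q, ∀ q ∈ Q, p * q⁻¹ ∈ Q') {m : ℕ}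
    (hm : μ W ≤ m * μ Q) :
    ∃ F : Finset S, (∀ f ∈ F, f ∈ A) ∧ F.card ≤ m ∧ ∀ n ∈ A, ∃ f ∈ F, f⁻¹ * n ∈ Q' := by
  classical
  have hQne : Q.Nonempty := by
    rw [Set.nonempty_iff_ne_empty]
    rintro rfl
    simp at h0
  have hQt : μ Q ≠ ⊤ ∨ A = ∅ := by
    by_cases hA : A = ∅
    · exact Or.inr hA
    · obtain ⟨n, hn⟩ := Set.nonempty_iff_ne_empty.2 hA
      left
      have : μ Q ≤ μ W := by
        rw [← (hμ n⁻¹).measure_preimage hQ.nullMeasurableSet]
        refine measure_mono fun x hx => ?_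
        have := hAW n hn _ hx
        simpa using this
      exact ne_top_of_le_ne_top h1 this
  rcases hQt with hQt | hA
  swap
  · exact ⟨∅, by simp, by simp, by simp [hA]⟩
  -- disjoint families
  let Good : Finset S → Prop := fun F => (∀ f ∈ F, f ∈ A) ∧
    (F : Set S).PairwiseDisjoint fun f => (fun x => f⁻¹ * x) ⁻¹' Q
  have hcard : ∀ F, Good F → F.card ≤ m := by
    intro F hF
    have h2 : (F.card : ℝ≥0∞) * μ Q ≤ m * μ Q := by
      calc (F.card : ℝ≥0∞) * μ Q = ∑ f ∈ F, μ ((fun x => f⁻¹ * x) ⁻¹' Q) := by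
            rw [Finset.sum_congr rfl fun f _ => (hμ f⁻¹).measure_preimage hQ.nullMeasurableSet,
              Finset.sum_const, nsmul_eq_mul]
        _ = μ (⋃ f ∈ F, (fun x => f⁻¹ * x) ⁻¹' Q) :=
            (measure_biUnion_finset hF.2 fun f _ => (hμ f⁻¹).measurable hQ).symm
        _ ≤ μ W := by
            refine measure_mono fun x hx => ?_
            obtain ⟨f, hf, hx⟩ := mem_iUnion₂.1 hx
            have := hAW f (hF.1 f hf) _ hx
            simpa using this
        _ ≤ m * μ Q := hm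
    rw [ENNReal.mul_le_mul_iff_left h0 hQt] at h2
    exact_mod_cast h2
  have hex : ∃ F, Good F ∧ ∀ F', Good F' → F'.card ≤ F.card := by
    have hne : ∃ F, Good F := ⟨∅, by simp [Good]⟩
    by_contra hcon
    push Not at hcon
    have : ∀ j : ℕ, ∃ F, Good F ∧ j ≤ F.card := by
      intro j
      induction j with
      | zero => obtain ⟨F, hF⟩ := hne; exact ⟨F, hF, Nat.zero_le _⟩
      | succ j ih =>
        obtain ⟨F, hF, hj⟩ := ih
        obtain ⟨F', hF', hlt⟩ := hcon F hF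
        exact ⟨F', hF', by omega⟩
    obtain ⟨F, hF, hj⟩ := this (m + 1)
    have := hcard F hF
    omega
  obtain ⟨F, hF, hmax⟩ := hex
  refine ⟨F, hF.1, hcard F hF, fun n hn => ?_⟩
  by_contra hcon
  push Not at hcon
  have hdisj : ∀ f ∈ F, Disjoint ((fun x => f⁻¹ * x) ⁻¹' Q) ((fun x => n⁻¹ * x) ⁻¹' Q) := by
    intro f hf
    rw [Set.disjoint_left]
    intro x hx hx'
    refine hcon f hf ?_
    have := hQQ _ hx _ hx'
    have e : f⁻¹ * x * (n⁻¹ * x)⁻¹ = f⁻¹ * n := by group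
    rwa [e] at this
  have hnF : n ∉ F := by
    intro hnF
    have := hdisj n hnF
    rw [disjoint_self] at this
    obtain ⟨q, hq⟩ := hQne
    have h3 : n * q ∈ ((fun x => n⁻¹ * x) ⁻¹' Q) := by simpa using hq
    rw [this] at h3
    exact h3
  have hG : Good (insert n F) := by
    refine ⟨?_, ?_⟩
    · intro f hf
      rcases Finset.mem_insert.1 hf with rfl | hf
      · exact hn
      · exact hF.1 f hf
    · rw [Finset.coe_insert]
      refine hF.2.insert fun f hf _ => (hdisj f hf).symm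
  have := hmax _ hG
  rw [Finset.card_insert_of_notMem hnF] at this
  omega

/-- **Doubling for the measure of the subgroup.** -/
theorem EMeas.dbl (h : EMeas E ν) (hμ : ∀ w : S, MeasurePreserving (fun x => w * x) μ μ)
    {Q Q' W A : Set S} (hQ : MeasurableSet Q) (hQ' : MeasurableSet Q') (hA : MeasurableSet A)
    (h0 : μ Q ≠ 0) (h1 : μ W ≠ ⊤)
    (hAW : ∀ n ∈ A, ∀ q ∈ Q, n * q ∈ W) (hQQ : ∀ p ∈ Q, ∀ q ∈ Q, p * q⁻¹ ∈ Q') {m : ℕ}
    (hm : μ W ≤ m * μ Q) : ν A ≤ m * ν Q' := by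
  obtain ⟨F, hF, hc, hcov⟩ := cover hμ (A := A ∩ E) hQ h0 h1 (fun n hn => hAW n hn.1) hQQ hm
  have hsub : ν A ≤ ν (⋃ f ∈ F, (fun x => f⁻¹ * x) ⁻¹' Q') := by
    by_contra hcon
    rw [not_le] at hcon
    have hmu : MeasurableSet (⋃ f ∈ F, (fun x => f⁻¹ * x) ⁻¹' Q') :=
      Finset.measurableSet_biUnion F fun f _ => (measurable_const_mul f⁻¹) hQ'
    have h3 : ν (A \ ⋃ f ∈ F, (fun x => f⁻¹ * x) ⁻¹' Q') ≠ 0 := by
      intro h4
      have := measure_le_inter_add_sdiff ν A (⋃ f ∈ F, (fun x => f⁻¹ * x) ⁻¹' Q')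
      rw [h4, add_zero] at this
      exact absurd (this.trans (measure_mono inter_subset_right)) (not_le.2 hcon)
    obtain ⟨n, hnE, hn⟩ := h.supp _ (hA.diff hmu) h3
    obtain ⟨f, hf, hfn⟩ := hcov n ⟨hn.1, hnE⟩
    exact hn.2 (mem_iUnion₂.2 ⟨f, hf, hfn⟩)
  refine hsub.trans ((measure_biUnion_finset_le _ _).trans ?_)
  calc ∑ f ∈ F, ν ((fun x => f⁻¹ * x) ⁻¹' Q') = F.card * ν Q' := by
        rw [Finset.sum_congr rfl fun f hf =>
          (h.mpl _ (E.inv_mem (hF f hf).2)).measure_preimage hQ'.nullMeasurableSet,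
          Finset.sum_const, nsmul_eq_mul]
    _ ≤ m * ν Q' := by gcongr

end Vale.Agent.P188.H235

end

section

/-!
# P188, block FLATNESS, part 3: from a good base point to the exact base point
-/

set_option linter.all false

namespace Vale.Agent.P188.H616

open MeasureTheory Set

variable {S : Type*} [Group S] {E : Subgroup S} {s : S → S}
  {V W : Type*} [NormedAddCommGroup V] [AddCommGroup W]

theorem exact_base [MeasurableSpace E] (ν : Measure E)
    (hinv : ∀ (n e : E) (A : Set E), ν {v | n * v * e ∈ A} ≤ ν A)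
    {l : S → ℝ} {f : S → V} {L K κ : ℝ} (hf : ∀ z g, ‖f (z * g) - f z‖ ≤ L * l g) (hL : 0 ≤ L)
    {θ : S → W} (hθ : ∀ x y, θ (x * y) = θ x + θ y) (hθE : ∀ e ∈ E, θ e = 0)
    {T : W →+ V} (hs : Sec E s) {z0 g g' r : S} {e : E} (hTr : ‖T (θ r)‖ ≤ K)
    (hr : l r ≤ κ) (hg : g = e * s z0 * g' * r) {Bx : Set E} {ε1 ε2 : ENNReal} {err : ℝ}
    (h1 : ν {u | u ∈ Bx ∧ err < ‖f (Phi s u g' z0) - f z0 - T (θ g')‖} ≤ ε1)
    (h2 : ν {v | v ∈ Bx ∧ (⟨z0 * (s z0)⁻¹, hs.mem z0⟩ : E)⁻¹ * v * e ∉ Bx} ≤ ε2) :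
    ν {v | v ∈ Bx ∧ err + L * κ + K < ‖f ((v : S) * g) - (f z0 - T (θ (s z0))) - T (θ g)‖} ≤
      ε1 + ε2 := by
  set n : E := ⟨z0 * (s z0)⁻¹, hs.mem z0⟩ with hn
  have hsub : {v | v ∈ Bx ∧ err + L * κ + K < ‖f ((v : S) * g) - (f z0 - T (θ (s z0))) - T (θ g)‖} ⊆
      {v | n⁻¹ * v * e ∈ {u | u ∈ Bx ∧ err < ‖f (Phi s u g' z0) - f z0 - T (θ g')‖}} ∪
        {v | v ∈ Bx ∧ n⁻¹ * v * e ∉ Bx} := by
    rintro v ⟨hv, hv2⟩
    by_cases h3 : n⁻¹ * v * e ∈ Bx
    · refine Or.inl ⟨h3, ?_⟩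
      by_contra h4
      rw [not_lt] at h4
      have e1 : Phi s ((n⁻¹ * v * e : E) : S) g' z0 = v * e * s z0 * g' := by
        unfold Phi
        rw [hn]
        push_cast
        group
      rw [e1] at h4
      have e2 : (v : S) * g = v * e * s z0 * g' * r := by rw [hg]; group
      have h5 := hf ((v : S) * e * s z0 * g') r
      rw [← e2] at h5
      have h6 : θ g = θ (s z0) + θ g' + θ r := by
        rw [hg, hθ, hθ, hθ, hθE _ e.2, zero_add]
      refine absurd hv2 (not_lt.2 ?_)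
      have h7 : f ((v : S) * g) - (f z0 - T (θ (s z0))) - T (θ g) =
          (f ((v : S) * g) - f (v * e * s z0 * g')) +
            ((f (v * e * s z0 * g') - f z0 - T (θ g')) - T (θ r)) := by
        rw [h6, map_add, map_add]; abel
      rw [h7]
      calc _ ≤ ‖f ((v : S) * g) - f (v * e * s z0 * g')‖ +
            ‖(f (v * e * s z0 * g') - f z0 - T (θ g')) - T (θ r)‖ := norm_add_le _ _
        _ ≤ L * κ + (err + K) := by
            refine add_le_add (h5.trans (mul_le_mul_of_nonneg_left hr hL)) ?_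
            exact (norm_sub_le _ _).trans (add_le_add h4 hTr)
        _ = _ := by ring
    · exact Or.inr ⟨hv, h3⟩
  refine (measure_mono hsub).trans ((measure_union_le _ _).trans (add_le_add ?_ h2))
  exact (hinv n⁻¹ e _).trans h1

end Vale.Agent.P188.H616

end

section

/-!
# P188, block FLATNESS, part 4: the complete abstract statement

Every `u` in the natural box is a product of boundedly many letters; every letter is applied at the
facet of the window where it merges.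
-/

set_option linter.all false

namespace Vale.Agent.P188.H616

open MeasureTheory Set

variable {S : Type*} [Group S] {E : Subgroup S} {s : S → S}
  {Λ V W : Type*} [NormedAddCommGroup V] [AddCommGroup W]

section steps

variable [MeasurableSpace S] (μ : Measure S) (σ : S → Λ) (f : S → V) (T : Λ → W →+ V)

theorem badStep_trans (D : Set S) (p q r : S → S) (a b : W) (e1 e2 : ℝ) :
    μ (badStep σ f T D p r (a + b) (e1 + e2)) ≤
      μ (badStep σ f T D p q a e1) + μ (badStep σ f T D q r b e2) := by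
  refine le_trans (measure_mono ?_) (measure_union_le _ _)
  rintro z ⟨hz, hz2⟩
  by_contra hcon
  simp only [badStep, mem_union, mem_setOf_eq, not_or, not_and, not_not, not_lt] at hcon
  obtain ⟨h1, h2⟩ := hcon
  obtain ⟨h3, h4⟩ := h1 hz
  obtain ⟨h5, h6⟩ := h2 hz
  rcases hz2 with h7 | h7
  · exact h7 (h5.trans h3)
  · rw [h3] at h6
    refine absurd h7 (not_lt.2 ?_)
    have e : f (r z) - f (p z) - T (σ (p z)) (a + b) =
        (f (r z) - f (q z) - T (σ (p z)) b) + (f (q z) - f (p z) - T (σ (p z)) a) := by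
      rw [map_add]; abel
    rw [e]
    exact (norm_add_le _ _).trans (by linarith)

/-- the bad set of the right multiplication by `h` -/
def badR (θ : S → W) (h : S) (err : ℝ) : Set S :=
  {w | σ (w * h) ≠ σ w ∨ err < ‖f (w * h) - f w - T (σ w) (θ h)‖}

/-- the bad set of the slide `sl` -/
def badL (sl : S → S) (err : ℝ) : Set S := {w | σ (sl w) ≠ σ w ∨ err < ‖f (sl w) - f w‖}

end steps

/-- Data of a script: frames `g b`, sets of positions. -/
structure Script [MeasurableSpace S] (μ : Measure S) (E : Subgroup S) (s : S → S) (σ : S → Λ)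
    (f : S → V) (T : Λ → W →+ V) (θ : S → W) {B : Type*} (g : B → S) (Lt : B → Set S)
    (D0 Dm : Set S) (Ds : B → Set S) (PE : Set S) (err : ℝ) (e : ENNReal) : Prop where
  sec : Sec E s
  mp : ∀ u ∈ E, ∀ g (A : Set S), μ ((Phi s u g) ⁻¹' A) ≤ μ A
  θ_mul : ∀ x y, θ (x * y) = θ x + θ y
  LtE : ∀ b, Lt b ⊆ E
  PEE : PE ⊆ E
  inDm : ∀ z ∈ D0, ∀ U ∈ PE, Phi s U 1 z ∈ Dm
  inDs : ∀ z ∈ D0, ∀ U ∈ PE, ∀ b, Phi s U (g b) z ∈ Ds b
  go : ∀ b, μ (Dm ∩ badR σ f T θ (g b) err) ≤ e
  back : ∀ b, μ (Ds b ∩ badR σ f T θ (g b)⁻¹ err) ≤ e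
  nofold : ∀ b, ∀ u ∈ Lt b, μ (Ds b ∩ badL σ f (slide s u (g b)) err) ≤ e

namespace Script

variable [MeasurableSpace S] {μ : Measure S} {σ : S → Λ} {f : S → V} {T : Λ → W →+ V} {θ : S → W}
  {B : Type*} {g : B → S} {Lt : B → Set S} {D0 Dm : Set S} {Ds : B → Set S} {PE : Set S} {err : ℝ}
  {e : ENNReal}

theorem right_le (Sc : Script μ E s σ f T θ g Lt D0 Dm Ds PE err e) {U g0 h : S} (hU : U ∈ E)
    {Dx : Set S} (hD : ∀ z ∈ D0, Phi s U g0 z ∈ Dx) (hb : μ (Dx ∩ badR σ f T θ h err) ≤ e) :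
    μ (badStep σ f T D0 (Phi s U g0) (Phi s U (g0 * h)) (θ h) err) ≤ e := by
  refine le_trans (measure_mono ?_) ((Sc.mp U hU g0 _).trans hb)
  rintro z ⟨hz, hz2⟩
  refine ⟨hD z hz, ?_⟩
  rw [Phi_mul] at hz2
  exact hz2

theorem slide_le (Sc : Script μ E s σ f T θ g Lt D0 Dm Ds PE err e) {U u : S} {b : B}
    (hU : U ∈ PE) (hu : u ∈ Lt b) :
    μ (badStep σ f T D0 (Phi s U (g b)) (Phi s (U * u) (g b)) 0 err) ≤ e := by
  refine le_trans (measure_mono ?_) ((Sc.mp U (Sc.PEE hU) (g b) _).trans (Sc.nofold b u hu))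
  rintro z ⟨hz, hz2⟩
  refine ⟨Sc.inDs z hz U hU b, ?_⟩
  rw [map_zero, sub_zero, ← Sc.sec.slide_Phi (Sc.PEE hU)] at hz2
  exact hz2

theorem letter_le (Sc : Script μ E s σ f T θ g Lt D0 Dm Ds PE err e) {U u : S} {b : B}
    (hU : U ∈ PE) (hu : u ∈ Lt b) (hUu : U * u ∈ PE) :
    μ (badStep σ f T D0 (Phi s U 1) (Phi s (U * u) 1) 0 (3 * err)) ≤ 3 * e := by
  have h1 := Sc.right_le (U := U) (g0 := 1) (h := g b) (Sc.PEE hU)
    (fun z hz => Sc.inDm z hz U hU) (Sc.go b)
  have h2 := Sc.slide_le hU hu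
  have h3 := Sc.right_le (U := U * u) (g0 := g b) (h := (g b)⁻¹) (Sc.PEE hUu)
    (fun z hz => Sc.inDs z hz _ hUu b) (Sc.back b)
  rw [one_mul] at h1
  rw [mul_inv_cancel] at h3
  have h4 := badStep_trans μ σ f T D0 (Phi s U 1) (Phi s U (g b)) (Phi s (U * u) (g b)) (θ (g b)) 0
    err err
  have h5 := badStep_trans μ σ f T D0 (Phi s U 1) (Phi s (U * u) (g b)) (Phi s (U * u) 1)
    (θ (g b) + 0) (θ (g b)⁻¹) (err + err) err
  have h6 : θ (g b) + 0 + θ (g b)⁻¹ = 0 := by
    have h7 := Sc.θ_mul (g b) (g b)⁻¹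
    have h8 := Sc.θ_mul 1 1
    rw [mul_one] at h8
    have h9 : θ 1 = 0 := by
      have := h8
      exact left_eq_add.1 this
    rw [mul_inv_cancel, h9] at h7
    rw [add_zero]; exact h7.symm
  rw [h6] at h5
  calc _ = μ (badStep σ f T D0 (Phi s U 1) (Phi s (U * u) 1) 0 (err + err + err)) := by
        congr 2; ring
    _ ≤ (e + e) + e := h5.trans (add_le_add (h4.trans (add_le_add h1 h2)) h3)
    _ = 3 * e := by ring

/-- all prefixes of `us`, started at `U`, are in `PE` -/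
def Pre (PE : Set S) : S → List (B × S) → Prop
  | U, [] => U ∈ PE
  | U, q :: us => U ∈ PE ∧ Pre PE (U * q.2) us

theorem Pre.start {PE : Set S} {U : S} {us : List (B × S)} (h : Pre PE U us) : U ∈ PE := by
  cases us with
  | nil => exact h
  | cons q us => exact h.1

theorem Pre.end {PE : Set S} {U : S} {us : List (B × S)} (h : Pre PE U us) :
    U * (us.map Prod.snd).prod ∈ PE := by
  induction us generalizing U with
  | nil =>
    have h' : U ∈ PE := h
    simpa using h'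
  | cons q us ih =>
    have := ih h.2
    rwa [List.map_cons, List.prod_cons, ← mul_assoc]

theorem list_le (Sc : Script μ E s σ f T θ g Lt D0 Dm Ds PE err e) (us : List (B × S))
    (hus : ∀ q ∈ us, q.2 ∈ Lt q.1) {U : S} (hp : Pre PE U us) :
    μ (badStep σ f T D0 (Phi s U 1) (Phi s (U * (us.map Prod.snd).prod) 1) 0
      (us.length * (3 * err))) ≤ us.length * (3 * e) := by
  induction us generalizing U with
  | nil =>
    simp only [List.map_nil, List.prod_nil, mul_one, List.length_nil, Nat.cast_zero, zero_mul]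
    refine le_of_eq ?_
    convert measure_empty (μ := μ)
    rw [eq_empty_iff_forall_notMem]
    rintro z ⟨_, h | h⟩
    · exact h rfl
    · simp at h
  | cons q us ih =>
    have h1 := Sc.letter_le hp.1 (hus q (by simp)) hp.2.start
    have h2 := ih (fun q' hq' => hus q' (by simp [hq'])) hp.2
    have h3 := badStep_trans μ σ f T D0 (Phi s U 1) (Phi s (U * q.2) 1)
      (Phi s (U * q.2 * (us.map Prod.snd).prod) 1) 0 0 (3 * err) (us.length * (3 * err))
    rw [add_zero] at h3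
    rw [List.map_cons, List.prod_cons, ← mul_assoc, List.length_cons]
    calc _ = μ (badStep σ f T D0 (Phi s U 1) (Phi s (U * q.2 * (us.map Prod.snd).prod) 1) 0
          (3 * err + us.length * (3 * err))) := by
          congr 2; push_cast; ring
      _ ≤ 3 * e + us.length * (3 * e) := h3.trans (add_le_add h1 h2)
      _ = _ := by push_cast; ring

/-- **the script bound** -/
theorem final_le (Sc : Script μ E s σ f T θ g Lt D0 Dm Ds PE err e) (he : 0 ≤ err) {M : ℕ}
    (us : List (B × S)) (hM : us.length ≤ M)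
    (hus : ∀ q ∈ us, q.2 ∈ Lt q.1) (hp : Pre PE 1 us) {h : S} (hgo : μ (Dm ∩ badR σ f T θ h err) ≤ e) :
    μ {z | z ∈ D0 ∧ (σ (Phi s (us.map Prod.snd).prod h z) ≠ σ z ∨
      (3 * M + 1 : ℕ) * err < ‖f (Phi s (us.map Prod.snd).prod h z) - f z - T (σ z) (θ h)‖)} ≤
      (3 * M + 1 : ℕ) * e := by
  have h1 := Sc.list_le us hus hp
  have h2 := hp.end
  rw [one_mul] at h1 h2
  have h3 := Sc.right_le (U := (us.map Prod.snd).prod) (g0 := 1) (h := h) (Sc.PEE h2)
    (fun z hz => Sc.inDm z hz _ h2) hgo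
  rw [one_mul] at h3
  have h4 := badStep_trans μ σ f T D0 (Phi s 1 1) (Phi s (us.map Prod.snd).prod 1)
      (Phi s (us.map Prod.snd).prod h) 0 (θ h) (us.length * (3 * err)) err
  rw [zero_add] at h4
  have hle : (us.length : ℝ) ≤ M := by exact_mod_cast hM
  calc _ ≤ μ (badStep σ f T D0 (Phi s 1 1) (Phi s (us.map Prod.snd).prod h) (θ h)
        (us.length * (3 * err) + err)) := by
        refine measure_mono ?_
        rintro z ⟨hz, hz2⟩
        refine ⟨hz, ?_⟩
        rw [Phi_one]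
        rcases hz2 with h5 | h5
        · exact Or.inl h5
        · refine Or.inr (lt_of_le_of_lt ?_ h5)
          push_cast
          nlinarith
    _ ≤ us.length * (3 * e) + e := h4.trans (add_le_add h1 h3)
    _ ≤ M * (3 * e) + e := by gcongr
    _ = _ := by push_cast; ring

end Script

end Vale.Agent.P188.H616

end

section

/-!
# P188, block FLATNESS, part 5: all slices of the window are flat
-/

set_option linter.all false

namespace Vale.Agent.P188.H616

open MeasureTheory Set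

variable {S : Type*} [Group S] {E : Subgroup S} {s : S → S}
  {Λ V W : Type*} [NormedAddCommGroup V] [AddCommGroup W]
  [MeasurableSpace S] {μ : Measure S} {σ : S → Λ} {f : S → V} {T : Λ → W →+ V} {θ : S → W}
  {B : Type*} {g : B → S} {Lt : B → Set S} {D0 Dm : Set S} {Ds : B → Set S} {PE : Set S} {err : ℝ}
  {e : ENNReal}

/-- **Selection of a base point** which is good for finitely many end frames `h i`. -/
theorem Script.exists_base [MeasurableMul₂ S] [MeasurableInv S] [MeasurableSpace V] [BorelSpace V]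
    [SecondCountableTopology V] [MeasurableSpace Λ] [Countable Λ] [MeasurableSingletonClass Λ]
    [SFinite μ] (Sc : Script μ E s σ f T θ g Lt D0 Dm Ds PE err e) (he : 0 ≤ err) {M : ℕ}
    (hsm : Measurable s) (hσ : Measurable σ) (hf : Measurable f)
    {I : Type*} [Fintype I] {h : I → S} (hgo : ∀ i, μ (Dm ∩ badR σ f T θ (h i) err) ≤ e)
    (ν : Measure E) [SFinite ν] {Bx : Set E} (hBx : MeasurableSet Bx)
    (hus : ∀ u ∈ Bx, ∃ us : List (B × S), us.length ≤ M ∧ (∀ q ∈ us, q.2 ∈ Lt q.1) ∧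
      Script.Pre PE 1 us ∧ (us.map Prod.snd).prod = (u : S))
    (hD0 : MeasurableSet D0) (h0 : μ D0 ≠ 0) (h1 : μ D0 ≠ ⊤) {ε : ENNReal}
    (hε : (3 * M + 1 : ℕ) * e ≤ ε * μ D0) :
    ∃ z ∈ D0, ∀ i, ν {u | u ∈ Bx ∧ (σ (Phi s (u : S) (h i) z) ≠ σ z ∨
      (3 * M + 1 : ℕ) * err < ‖f (Phi s (u : S) (h i) z) - f z - T (σ z) (θ (h i))‖)} ≤
      Fintype.card I * ε * ν Bx := by
  classical
  set bad : I → Set (S × E) := fun i => {q | σ (Phi s (q.2 : S) (h i) q.1) ≠ σ q.1 ∨
      (3 * M + 1 : ℕ) * err < ‖f (Phi s (q.2 : S) (h i) q.1) - f q.1 - T (σ q.1) (θ (h i))‖}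
    with hbad
  have hP : ∀ i, Measurable fun q : S × E => Phi s (q.2 : S) (h i) q.1 := by
    intro i
    unfold Phi
    have a1 : Measurable fun q : S × E => s q.1 := hsm.comp measurable_fst
    exact (((measurable_fst.mul a1.inv).mul (measurable_subtype_coe.comp measurable_snd)).mul
      a1).mul measurable_const
  have hbm : ∀ i, MeasurableSet (bad i) := by
    intro i
    have hT : Measurable fun q : S × E => T (σ q.1) (θ (h i)) := by
      have : Measurable fun a : Λ => T a (θ (h i)) := measurable_of_countable _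
      exact this.comp (hσ.comp measurable_fst)
    refine MeasurableSet.union ?_ ?_
    · have : {q : S × E | σ (Phi s (q.2 : S) (h i) q.1) = σ q.1} = ⋃ a : Λ,
          ((fun q : S × E => σ (Phi s (q.2 : S) (h i) q.1)) ⁻¹' {a} ∩
            (fun q : S × E => σ q.1) ⁻¹' {a}) := by
        ext q
        simp only [mem_setOf_eq, mem_iUnion, mem_inter_iff, mem_preimage, mem_singleton_iff]
        constructor
        · intro h5
          exact ⟨σ q.1, h5, rfl⟩
        · rintro ⟨a, h5, h6⟩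
          exact h5.trans h6.symm
      have hm : MeasurableSet {q : S × E | σ (Phi s (q.2 : S) (h i) q.1) = σ q.1} := by
        rw [this]
        exact MeasurableSet.iUnion fun a => ((hσ.comp (hP i)) (measurableSet_singleton a)).inter
          ((hσ.comp measurable_fst) (measurableSet_singleton a))
      exact hm.compl
    · exact measurableSet_lt measurable_const
        ((((hf.comp (hP i)).sub (hf.comp measurable_fst)).sub hT).norm)
  have hbU : MeasurableSet (⋃ i, bad i) := MeasurableSet.iUnion hbm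
  obtain ⟨z, hz, hz2⟩ := exists_good μ ν hD0 h0 h1 hBx hbU (ε := Fintype.card I * ε) (by
    intro u hu
    obtain ⟨us, k1, k2, k3, k4⟩ := hus u hu
    have k5 : ∀ i, μ {z | z ∈ D0 ∧ (z, u) ∈ bad i} ≤ ε * μ D0 := by
      intro i
      have := Sc.final_le he us k1 k2 k3 (hgo i)
      rw [k4] at this
      exact this.trans hε
    calc μ {z | z ∈ D0 ∧ (z, u) ∈ ⋃ i, bad i} ≤ μ (⋃ i, {z | z ∈ D0 ∧ (z, u) ∈ bad i}) := by
          refine measure_mono ?_
          rintro z ⟨h3, h4⟩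
          rw [mem_iUnion] at h4 ⊢
          obtain ⟨i, hi⟩ := h4
          exact ⟨i, h3, hi⟩
      _ ≤ ∑ i, μ {z | z ∈ D0 ∧ (z, u) ∈ bad i} := by
          have := measure_iUnion_fintype_le μ fun i => {z | z ∈ D0 ∧ (z, u) ∈ bad i}
          exact this
      _ ≤ ∑ i : I, ε * μ D0 := Finset.sum_le_sum fun i _ => k5 i
      _ = Fintype.card I * ε * μ D0 := by
          rw [Finset.sum_const, Finset.card_univ, nsmul_eq_mul, mul_assoc])
  refine ⟨z, hz, fun i => le_trans (measure_mono ?_) hz2⟩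
  rintro u ⟨hu, hu2⟩
  exact ⟨hu, mem_iUnion.2 ⟨i, hu2⟩⟩

/-- **FLATNESS**: all slices `Bx * x` with `x = e * s z * h i * r` are flat, with the same label and
the same constant. -/
theorem Script.flat [MeasurableMul₂ S] [MeasurableInv S] [MeasurableSpace V] [BorelSpace V]
    [SecondCountableTopology V] [MeasurableSpace Λ] [Countable Λ] [MeasurableSingletonClass Λ]
    [SFinite μ] (Sc : Script μ E s σ f T θ g Lt D0 Dm Ds PE err e) (he : 0 ≤ err) {M : ℕ}
    (hsm : Measurable s) (hσ : Measurable σ) (hf : Measurable f)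
    {I : Type*} [Fintype I] {h : I → S} (hgo : ∀ i, μ (Dm ∩ badR σ f T θ (h i) err) ≤ e)
    (ν : Measure E) [SFinite ν] {Bx : Set E} (hBx : MeasurableSet Bx)
    (hus : ∀ u ∈ Bx, ∃ us : List (B × S), us.length ≤ M ∧ (∀ q ∈ us, q.2 ∈ Lt q.1) ∧
      Script.Pre PE 1 us ∧ (us.map Prod.snd).prod = (u : S))
    (hD0 : MeasurableSet D0) (h0 : μ D0 ≠ 0) (h1 : μ D0 ≠ ⊤) {ε : ENNReal}
    (hε : (3 * M + 1 : ℕ) * e ≤ ε * μ D0)
    (hinv : ∀ (n e : E) (A : Set E), ν {v | n * v * e ∈ A} ≤ ν A)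
    {l : S → ℝ} {L K κ : ℝ} (hlip : ∀ z g, ‖f (z * g) - f z‖ ≤ L * l g) (hL : 0 ≤ L)
    (hθE : ∀ e ∈ E, θ e = 0) (hK : ∀ (a : Λ) (r : S), l r ≤ κ → ‖T a (θ r)‖ ≤ K)
    {G : Set S} {ε2 : ENNReal}
    (hG : ∀ z ∈ D0, ∀ x ∈ G, ∃ i, ∃ e' : E, ∃ r, l r ≤ κ ∧ x = e' * s z * h i * r ∧
      ν {v | v ∈ Bx ∧ (⟨z * (s z)⁻¹, Sc.sec.mem z⟩ : E)⁻¹ * v * e' ∉ Bx} ≤ ε2) :
    ∃ a : Λ, ∃ c : V, ∀ x ∈ G, ν {v | v ∈ Bx ∧
      (3 * M + 1 : ℕ) * err + L * κ + K < ‖f ((v : S) * x) - c - T a (θ x)‖} ≤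
        Fintype.card I * ε * ν Bx + ε2 := by
  obtain ⟨z, hz, hz2⟩ := Sc.exists_base he hsm hσ hf hgo ν hBx hus hD0 h0 h1 hε
  refine ⟨σ z, f z - T (σ z) (θ (s z)), fun x hx => ?_⟩
  obtain ⟨i, e', r, hr, hxe, hν⟩ := hG z hz x hx
  refine exact_base ν hinv hlip hL Sc.θ_mul hθE Sc.sec (hK _ _ hr) hr hxe ?_ hν
  refine le_trans (measure_mono ?_) (hz2 i)
  rintro u ⟨hu, hu2⟩
  exact ⟨hu, Or.inr hu2⟩

end Vale.Agent.P188.H616

end
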