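import Mathlib.RingTheory.Nilpotent.Exp
import Mathlib.Algebra.Polynomial.Derivative
import Mathlib.Algebra.Polynomial.AlgebraMap
import Mathlib.Analysis.Real.Cardinality
import Mathlib.Tactic
import Mathlib.LinearAlgebra.Basis.VectorSpace
import Mathlib.Data.Fintype.Vector

section

/-!
# P188, FILL block, part 1: the curve group

`A` a real algebra, `e : ι → A` a finite family such that all words of length `> r` in the `e i`
vanish. The curve group `F` is the group of polynomial curves `X ↦ ∏ exp (X x_t e_{i_t})`.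
-/

set_option linter.all false

namespace Vale.Agent.P188.H329

open Polynomial Finset

variable {A : Type} [Ring A] [Algebra ℝ A]

/-- vanishing order at least `j` -/
def Ord (j : ℕ) (p : A[X]) : Prop := ∀ k < j, p.coeff k = 0

theorem Ord.mono {j k : ℕ} {p : A[X]} (h : Ord k p) (hjk : j ≤ k) : Ord j p :=
  fun i hi => h i (lt_of_lt_of_le hi hjk)

theorem Ord.add {j : ℕ} {p q : A[X]} (hp : Ord j p) (hq : Ord j q) : Ord j (p + q) :=
  fun i hi => by rw [coeff_add, hp i hi, hq i hi, add_zero]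

theorem Ord.sub {j : ℕ} {p q : A[X]} (hp : Ord j p) (hq : Ord j q) : Ord j (p - q) :=
  fun i hi => by rw [coeff_sub, hp i hi, hq i hi, sub_zero]

theorem Ord.neg {j : ℕ} {p : A[X]} (hp : Ord j p) : Ord j (-p) :=
  fun i hi => by rw [coeff_neg, hp i hi, neg_zero]

theorem ord_zero (p : A[X]) : Ord 0 p := fun i hi => absurd hi (Nat.not_lt_zero _)

theorem Ord.mul {j k : ℕ} {p q : A[X]} (hp : Ord j p) (hq : Ord k q) : Ord (j + k) (p * q) := by
  intro i hi
  rw [coeff_mul]
  refine Finset.sum_eq_zero fun x hx => ?_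
  rw [mem_antidiagonal] at hx
  by_cases h : x.1 < j
  · rw [hp _ h, zero_mul]
  · rw [hq _ (by omega), mul_zero]

theorem Ord.coeff_mul {j k : ℕ} {p q : A[X]} (hp : Ord j p) (hq : Ord k q) :
    (p * q).coeff (j + k) = p.coeff j * q.coeff k := by
  rw [Polynomial.coeff_mul]
  refine Finset.sum_eq_single_of_mem (j, k) (by simp) fun x hx hne => ?_
  rw [mem_antidiagonal] at hx
  by_cases h : x.1 < j
  · rw [hp _ h, zero_mul]
  · have : x.2 < k := by
      by_contra h2
      apply hne
      have : x.1 = j := by omega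
      have : x.2 = k := by omega
      ext <;> simp [*]
    rw [hq _ this, mul_zero]

theorem Ord.mul_left {j : ℕ} {p q : A[X]} (hq : Ord j q) : Ord j (p * q) := by
  have := (ord_zero p).mul hq
  rwa [zero_add] at this

theorem Ord.mul_right {j : ℕ} {p q : A[X]} (hp : Ord j p) : Ord j (p * q) := by
  have := hp.mul (ord_zero q)
  rwa [add_zero] at this

/-! ### graded subalgebras -/

/-- the derivation `X d/dX` -/
noncomputable def D (p : A[X]) : A[X] := derivative p * X

theorem D_mul (p q : A[X]) : D (p * q) = D p * q + p * D q := by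
  unfold D
  rw [derivative_mul, add_mul, mul_assoc, mul_assoc, mul_assoc, X_mul]

theorem coeff_D (p : A[X]) (k : ℕ) : (D p).coeff k = (k : ℝ) • p.coeff k := by
  unfold D
  cases k with
  | zero => simp
  | succ k =>
    rw [coeff_mul_X, coeff_derivative]
    have : (((k + 1 : ℕ) : ℝ)) • p.coeff (k + 1) = (k + 1 : ℕ) • p.coeff (k + 1) := by
      rw [← Nat.cast_smul_eq_nsmul ℝ]
    rw [this, nsmul_eq_mul]
    push_cast
    have hc : Commute (p.coeff (k + 1)) ((k : A) + 1) := by
      have := Nat.cast_commute (k + 1) (p.coeff (k + 1))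
      push_cast at this
      exact this.symm
    exact hc.eq

theorem D_one : D (1 : A[X]) = 0 := by
  unfold D
  simp

/-! ### exponentials of nilpotent elements of a real algebra -/

section exp

variable {B : Type} [Ring B] [Algebra ℝ B]

/-- the exponential, truncated at order `n` -/
noncomputable def rexp (n : ℕ) (a : B) : B := ∑ k ∈ range n, ((k.factorial : ℝ)⁻¹) • a ^ k

/-- the rational structure -/
@[reducible] noncomputable def ratMod (B : Type) [Ring B] [Algebra ℝ B] : Module ℚ B :=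
  Module.compHom B (algebraMap ℚ ℝ)

theorem rexp_eq {n : ℕ} {a : B} (h : a ^ n = 0) :
    rexp n a = @IsNilpotent.exp B _ (ratMod B) a := by
  letI := ratMod B
  rw [IsNilpotent.exp_eq_sum h]
  refine Finset.sum_congr rfl fun k _ => ?_
  have : ((k.factorial : ℚ)⁻¹ • a ^ k : B) = (algebraMap ℚ ℝ (k.factorial : ℚ)⁻¹) • a ^ k := rfl
  rw [this]
  congr 1
  simp

theorem rexp_add {n m l : ℕ} {a b : B} (hc : Commute a b) (ha : a ^ n = 0) (hb : b ^ m = 0)
    (hab : (a + b) ^ l = 0) : rexp l (a + b) = rexp n a * rexp m b := by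
  letI := ratMod B
  rw [rexp_eq ha, rexp_eq hb, rexp_eq hab]
  exact IsNilpotent.exp_add_of_commute hc ⟨n, ha⟩ ⟨m, hb⟩

theorem rexp_zero {n : ℕ} (hn : 0 < n) : rexp n (0 : B) = 1 := by
  unfold rexp
  rw [Finset.sum_eq_single_of_mem 0 (by simpa using hn)]
  · simp
  · intro k _ hk
    simp [zero_pow hk]

/-- conjugation by an exponential in terms of iterated brackets -/
theorem rexp_conj {n : ℕ} {a p : B} (ha : a ^ n = 0) (M : Submodule ℝ B)
    (hM : ∀ q ∈ M, q * a - a * q ∈ M) (hp : p ∈ M) : rexp n (-a) * p * rexp n a ∈ M := by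
  letI := ratMod (Module.End ℝ B)
  have ha' : (-a) ^ n = 0 := by rw [neg_pow, ha, mul_zero]
  set L : Module.End ℝ B := LinearMap.mulLeft ℝ (-a) with hL
  set R : Module.End ℝ B := LinearMap.mulRight ℝ a with hR
  have hLp : ∀ k, L ^ k = LinearMap.mulLeft ℝ ((-a) ^ k) := fun k => LinearMap.pow_mulLeft ..
  have hRp : ∀ k, R ^ k = LinearMap.mulRight ℝ (a ^ k) := fun k => LinearMap.pow_mulRight ..
  have hL0 : L ^ n = 0 := by rw [hLp, ha']; simp
  have hR0 : R ^ n = 0 := by rw [hRp, ha]; simp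
  have hc : Commute L R := LinearMap.commute_mulLeft_right ..
  obtain ⟨l, hl⟩ := hc.isNilpotent_add ⟨n, hL0⟩ ⟨n, hR0⟩
  have hsum := rexp_add hc hL0 hR0 hl
  have e1 : rexp n L = LinearMap.mulLeft ℝ (rexp n (-a)) := by
    ext x
    simp [rexp, hLp, LinearMap.sum_apply, Finset.sum_mul]
  have e2 : rexp n R = LinearMap.mulRight ℝ (rexp n a) := by
    ext x
    simp [rexp, hRp, LinearMap.sum_apply, Finset.mul_sum]
  have e3 : rexp n (-a) * p * rexp n a = (rexp l (L + R)) p := by
    rw [hsum, e1, e2]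
    simp [mul_assoc]
  rw [e3]
  have e4 : ∀ k, ((L + R) ^ k) p ∈ M := by
    intro k
    induction k with
    | zero => simpa using hp
    | succ k ih =>
      rw [pow_succ', Module.End.mul_apply]
      have := hM _ ih
      have h5 : (L + R) (((L + R) ^ k) p) = ((L + R) ^ k) p * a - a * ((L + R) ^ k) p := by
        simp [hL, hR, sub_eq_add_neg, add_comm]
      rw [h5]
      exact this
  unfold rexp
  rw [LinearMap.sum_apply]
  exact Submodule.sum_mem _ fun k _ => by
    rw [LinearMap.smul_apply]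
    exact M.smul_mem _ (e4 k)

end exp

end Vale.Agent.P188.H329

end

section

/-!
# P188, FILL block, part 2: letters, the derivation trick
-/

set_option linter.all false

namespace Vale.Agent.P188.H329

open Polynomial Finset

variable {A : Type} [Ring A] [Algebra ℝ A] {ι : Type}

/-- all words of length `> r` in the `e i` vanish -/
def Nil (e : ι → A) (r : ℕ) : Prop := ∀ w : List ι, r < w.length → (w.map e).prod = 0

/-- the monomial `X x e_i` -/
noncomputable def mon (e : ι → A) (i : ι) (x : ℝ) : A[X] := monomial 1 (x • e i)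

theorem mon_pow (e : ι → A) (i : ι) (x : ℝ) (k : ℕ) :
    mon e i x ^ k = monomial k (x ^ k • e i ^ k) := by
  unfold mon
  rw [monomial_pow, one_mul, smul_pow]

theorem Nil.pow_eq_zero {e : ι → A} {r : ℕ} (h : Nil e r) (i : ι) : e i ^ (r + 1) = 0 := by
  have := h (List.replicate (r + 1) i) (by simp)
  simpa using this

theorem Nil.mon_pow {e : ι → A} {r : ℕ} (h : Nil e r) (i : ι) (x : ℝ) :
    mon e i x ^ (r + 1) = 0 := by
  rw [H329.mon_pow, h.pow_eq_zero, smul_zero, monomial_zero_right]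

/-- the curve `exp (X x e_i)` -/
noncomputable def lt (e : ι → A) (r : ℕ) (i : ι) (x : ℝ) : A[X] := rexp (r + 1) (mon e i x)

theorem lt_coeff (e : ι → A) (r : ℕ) (i : ι) (x : ℝ) (k : ℕ) :
    (lt e r i x).coeff k = if k < r + 1 then ((k.factorial : ℝ)⁻¹ * x ^ k) • e i ^ k else 0 := by
  unfold lt rexp
  rw [finset_sum_coeff]
  split_ifs with hk
  · rw [Finset.sum_eq_single_of_mem k (by simpa using hk)]
    · rw [mon_pow, coeff_smul, coeff_monomial, if_pos rfl, smul_smul]
    · intro j _ hj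
      rw [mon_pow, coeff_smul, coeff_monomial, if_neg hj, smul_zero]
  · refine Finset.sum_eq_zero fun j hj => ?_
    rw [Finset.mem_range] at hj
    rw [mon_pow, coeff_smul, coeff_monomial, if_neg (by omega), smul_zero]

theorem lt_coeff_zero (e : ι → A) (r : ℕ) (i : ι) (x : ℝ) : (lt e r i x).coeff 0 = 1 := by
  rw [lt_coeff, if_pos (Nat.succ_pos _)]
  simp

theorem lt_coeff_one (e : ι → A) {r : ℕ} (hr : 0 < r) (i : ι) (x : ℝ) :
    (lt e r i x).coeff 1 = x • e i := by
  rw [lt_coeff, if_pos (by omega)]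
  simp

theorem mon_add (e : ι → A) (i : ι) (x y : ℝ) : mon e i (x + y) = mon e i x + mon e i y := by
  unfold mon
  rw [add_smul, map_add]

theorem mon_neg (e : ι → A) (i : ι) (x : ℝ) : mon e i (-x) = -mon e i x := by
  unfold mon
  rw [neg_smul, monomial_neg]

theorem mon_comm (e : ι → A) (i : ι) (x y : ℝ) : Commute (mon e i x) (mon e i y) := by
  unfold mon Commute SemiconjBy
  rw [monomial_mul_monomial, monomial_mul_monomial]
  simp [smul_smul, mul_comm]

theorem Nil.lt_add {e : ι → A} {r : ℕ} (h : Nil e r) (i : ι) (x y : ℝ) :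
    lt e r i (x + y) = lt e r i x * lt e r i y := by
  unfold lt
  rw [mon_add]
  exact rexp_add (mon_comm e i x y) (h.mon_pow i x) (h.mon_pow i y)
    (by rw [← mon_add]; exact h.mon_pow i _)

theorem lt_zero (e : ι → A) (r : ℕ) (i : ι) : lt e r i 0 = 1 := by
  unfold lt
  have : mon e i 0 = 0 := by simp [mon]
  rw [this]
  exact rexp_zero (Nat.succ_pos _)

/-- the letter as a unit -/
noncomputable def lu {e : ι → A} {r : ℕ} (h : Nil e r) (i : ι) (x : ℝ) : A[X]ˣ where
  val := lt e r i x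
  inv := lt e r i (-x)
  val_inv := by rw [← h.lt_add, add_neg_cancel, lt_zero]
  inv_val := by rw [← h.lt_add, neg_add_cancel, lt_zero]

@[simp] theorem lu_val {e : ι → A} {r : ℕ} (h : Nil e r) (i : ι) (x : ℝ) :
    ((lu h i x : A[X]ˣ) : A[X]) = lt e r i x := rfl

@[simp] theorem lu_inv {e : ι → A} {r : ℕ} (h : Nil e r) (i : ι) (x : ℝ) :
    (lu h i x)⁻¹ = lu h i (-x) := by
  apply Units.ext
  rfl

theorem lu_add {e : ι → A} {r : ℕ} (h : Nil e r) (i : ι) (x y : ℝ) :
    lu h i (x + y) = lu h i x * lu h i y := by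
  apply Units.ext
  exact h.lt_add i x y

theorem lu_zero {e : ι → A} {r : ℕ} (h : Nil e r) (i : ι) : lu h i 0 = 1 := by
  apply Units.ext
  exact lt_zero e r i

/-- The group of curves. -/
noncomputable def F {e : ι → A} {r : ℕ} (h : Nil e r) : Subgroup A[X]ˣ :=
  Subgroup.closure {g | ∃ i x, g = lu h i x}

theorem lu_mem {e : ι → A} {r : ℕ} (h : Nil e r) (i : ι) (x : ℝ) : lu h i x ∈ F h :=
  Subgroup.subset_closure ⟨i, x, rfl⟩

theorem F_induction {e : ι → A} {r : ℕ} {h : Nil e r} {p : A[X]ˣ → Prop} (one : p 1)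
    (step : ∀ i x g, p g → p (lu h i x * g)) {g : A[X]ˣ} (hg : g ∈ F h) : p g := by
  unfold F at hg
  induction hg using Subgroup.closure_induction_left with
  | one => exact one
  | mul_left x hx y hy ih =>
    obtain ⟨i, t, rfl⟩ := hx
    exact step _ _ _ ih
  | inv_mul_cancel x hx y hy ih =>
    obtain ⟨i, t, rfl⟩ := hx
    rw [lu_inv]
    exact step _ _ _ ih

/-! ### iterated brackets -/

/-- the iterated bracket `[e_{w_1}, [e_{w_2}, ...]]` -/
def br (e : ι → A) : List ι → A
  | [] => 0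
  | [i] => e i
  | i :: j :: w => e i * br e (j :: w) - br e (j :: w) * e i

/-- `L_k`, spanned by the `k`-fold brackets -/
def Lay (e : ι → A) (k : ℕ) : Submodule ℝ A := Submodule.span ℝ {a | ∃ w : List ι, w.length = k ∧ a = br e w}

theorem br_mem (e : ι → A) (w : List ι) : br e w ∈ Lay e w.length :=
  Submodule.subset_span ⟨w, rfl, rfl⟩

theorem lay_zero (e : ι → A) {a : A} (ha : a ∈ Lay e 0) : a = 0 := by
  unfold Lay at ha
  have : {a | ∃ w : List ι, w.length = 0 ∧ a = br e w} ⊆ {0} := by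
    rintro a ⟨w, hw, rfl⟩
    rw [List.length_eq_zero_iff] at hw
    subst hw
    rfl
  have h2 := Submodule.span_mono (R := ℝ) this ha
  simpa using h2

theorem e_mem (e : ι → A) (i : ι) : e i ∈ Lay e 1 := br_mem e [i]

theorem lay_bracket (e : ι → A) (i : ι) {k : ℕ} {a : A} (ha : a ∈ Lay e k) :
    e i * a - a * e i ∈ Lay e (k + 1) := by
  unfold Lay at ha
  induction ha using Submodule.span_induction with
  | mem x hx =>
    obtain ⟨w, hw, rfl⟩ := hx
    cases w with
    | nil => simp [br, Submodule.zero_mem]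
    | cons j w =>
      have := br_mem e (i :: j :: w)
      rw [List.length_cons, hw] at this
      exact this
  | zero => simp [Submodule.zero_mem]
  | add x y _ _ hx hy =>
    have := Submodule.add_mem _ hx hy
    convert this using 1
    noncomm_ring
  | smul c x _ hx =>
    have := Submodule.smul_mem _ c hx
    convert this using 1
    simp [smul_sub]

/-- curves all of whose coefficients lie in the layers -/
def LayP (e : ι → A) : Submodule ℝ A[X] where
  carrier := {p | ∀ k, p.coeff k ∈ Lay e k}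
  add_mem' := fun hp hq k => by rw [coeff_add]; exact Submodule.add_mem _ (hp k) (hq k)
  zero_mem' := fun k => by rw [coeff_zero]; exact Submodule.zero_mem _
  smul_mem' := fun c p hp k => by rw [coeff_smul]; exact Submodule.smul_mem _ c (hp k)

theorem mon_mem (e : ι → A) (i : ι) (x : ℝ) : mon e i x ∈ LayP e := by
  intro k
  unfold mon
  rw [coeff_monomial]
  split_ifs with h
  · subst h
    exact Submodule.smul_mem _ _ (e_mem e i)
  · exact Submodule.zero_mem _

theorem LayP_bracket (e : ι → A) (i : ι) (x : ℝ) {p : A[X]} (hp : p ∈ LayP e) :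
    p * mon e i x - mon e i x * p ∈ LayP e := by
  intro k
  unfold mon
  rw [coeff_sub]
  cases k with
  | zero =>
    have h0 : p.coeff 0 = 0 := lay_zero e (hp 0)
    simp [mul_coeff_zero, Submodule.zero_mem]
  | succ k =>
    have h1 : (p * monomial 1 (x • e i)).coeff (k + 1) = p.coeff k * (x • e i) := by
      rw [← C_mul_X_pow_eq_monomial, pow_one, ← mul_assoc, coeff_mul_X, coeff_mul_C]
    have h2 : (monomial 1 (x • e i) * p).coeff (k + 1) = (x • e i) * p.coeff k := by
      rw [← C_mul_X_pow_eq_monomial, pow_one, mul_assoc, X_mul, ← mul_assoc, coeff_mul_X,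
        coeff_C_mul]
    rw [h1, h2]
    have := Submodule.smul_mem _ (-x) (lay_bracket e i (hp k))
    convert this using 1
    simp only [smul_sub, neg_smul, mul_smul_comm, smul_mul_assoc]
    abel

theorem LayP_conj {e : ι → A} {r : ℕ} (h : Nil e r) (i : ι) (x : ℝ) {p : A[X]} (hp : p ∈ LayP e) :
    lt e r i (-x) * p * lt e r i x ∈ LayP e := by
  unfold lt
  rw [mon_neg]
  exact rexp_conj (h.mon_pow i x) (LayP e) (fun q hq => LayP_bracket e i x hq) hp

theorem D_lt {e : ι → A} {r : ℕ} (h : Nil e r) (i : ι) (x : ℝ) :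
    D (lt e r i x) = lt e r i x * mon e i x := by
  ext k
  rw [coeff_D]
  unfold mon
  cases k with
  | zero => simp [mul_coeff_zero]
  | succ k =>
    have h1 : (lt e r i x * monomial 1 (x • e i)).coeff (k + 1) =
        (lt e r i x).coeff k * (x • e i) := by
      rw [← C_mul_X_pow_eq_monomial, pow_one, ← mul_assoc, coeff_mul_X, coeff_mul_C]
    rw [h1, lt_coeff, lt_coeff]
    by_cases hk : k + 1 < r + 1
    · rw [if_pos hk, if_pos (by omega)]
      rw [smul_smul, smul_mul_assoc, mul_smul_comm, smul_smul, ← pow_succ]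
      congr 1
      rw [Nat.factorial_succ]
      push_cast
      have : (k.factorial : ℝ) ≠ 0 := by exact_mod_cast k.factorial_ne_zero
      field_simp
      ring
    · rw [if_neg hk, smul_zero]
      split_ifs with h2
      · have : k = r := by omega
        subst this
        rw [smul_mul_assoc, mul_smul_comm, ← pow_succ, h.pow_eq_zero]
        simp
      · simp

theorem conj_mem {e : ι → A} {r : ℕ} {h : Nil e r} {g : A[X]ˣ} (hg : g ∈ F h) :
    ∀ p ∈ LayP e, ((g⁻¹ : A[X]ˣ) : A[X]) * p * (g : A[X]) ∈ LayP e := by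
  refine F_induction (h := h) (p := fun g => ∀ p ∈ LayP e,
    ((g⁻¹ : A[X]ˣ) : A[X]) * p * (g : A[X]) ∈ LayP e) ?_ ?_ hg
  · intro p hp
    simpa using hp
  · intro i x g ih p hp
    have e1 : (((lu h i x * g)⁻¹ : A[X]ˣ) : A[X]) = ((g⁻¹ : A[X]ˣ) : A[X]) * lt e r i (-x) := by
      rw [mul_inv_rev, Units.val_mul, lu_inv, lu_val]
    have e2 : ((lu h i x * g : A[X]ˣ) : A[X]) = lt e r i x * (g : A[X]) := by
      rw [Units.val_mul, lu_val]
    rw [e1, e2]
    have := ih _ (LayP_conj h i x hp)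
    convert this using 1
    simp only [mul_assoc]

/-- The derivation trick. -/
theorem logder {e : ι → A} {r : ℕ} {h : Nil e r} {g : A[X]ˣ} (hg : g ∈ F h) :
    ((g⁻¹ : A[X]ˣ) : A[X]) * D (g : A[X]) ∈ LayP e := by
  have key : g ∈ F h ∧ ((g⁻¹ : A[X]ˣ) : A[X]) * D (g : A[X]) ∈ LayP e := by
    refine F_induction (h := h) (p := fun g => g ∈ F h ∧
      ((g⁻¹ : A[X]ˣ) : A[X]) * D (g : A[X]) ∈ LayP e) ?_ ?_ hg
    · refine ⟨one_mem _, ?_⟩
      simp [D_one, Submodule.zero_mem]
    · intro i x g ih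
      refine ⟨mul_mem (lu_mem h i x) ih.1, ?_⟩
      have e1 : (((lu h i x * g)⁻¹ : A[X]ˣ) : A[X]) = ((g⁻¹ : A[X]ˣ) : A[X]) * lt e r i (-x) := by
        rw [mul_inv_rev, Units.val_mul, lu_inv, lu_val]
      have e2 : ((lu h i x * g : A[X]ˣ) : A[X]) = lt e r i x * (g : A[X]) := by
        rw [Units.val_mul, lu_val]
      have e3 : lt e r i (-x) * lt e r i x = 1 := by
        rw [← h.lt_add, neg_add_cancel, lt_zero]
      rw [e1, e2, D_mul, D_lt h]
      have h1 := conj_mem ih.1 _ (mon_mem e i x)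
      have h2 := Submodule.add_mem _ h1 ih.2
      convert h2 using 1
      have e4 : ∀ q : A[X], lt e r i (-x) * (lt e r i x * q) = q := by
        intro q
        rw [← mul_assoc, e3, one_mul]
      simp only [mul_add, mul_assoc, e4]
  exact key.2

/-- If a curve in `F` is `1 + O(X^j)` then its `j`-th coefficient lies in `L_j`. -/
theorem lead_mem {e : ι → A} {r : ℕ} {h : Nil e r} {g : A[X]ˣ} (hg : g ∈ F h) {j : ℕ}
    (hj : 0 < j) (ho : Ord j ((g : A[X]) - 1)) : (g : A[X]).coeff j ∈ Lay e j := by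
  have h1 := logder hg j
  have hD : Ord j (D (g : A[X])) := by
    intro k hk
    rw [coeff_D]
    cases k with
    | zero => simp
    | succ k =>
      have := ho _ hk
      rw [coeff_sub, coeff_one, if_neg (by omega), sub_zero] at this
      rw [this, smul_zero]
  have h2 : (((g⁻¹ : A[X]ˣ) : A[X]) * D (g : A[X])).coeff (0 + j) =
      ((g⁻¹ : A[X]ˣ) : A[X]).coeff 0 * (D (g : A[X])).coeff j := (ord_zero _).coeff_mul hD
  have h3 : ((g⁻¹ : A[X]ˣ) : A[X]).coeff 0 = 1 := by
    have h4 : (((g⁻¹ : A[X]ˣ) : A[X]) * (g : A[X])).coeff 0 = 1 := by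
      rw [← Units.val_mul, inv_mul_cancel]
      simp
    rw [mul_coeff_zero] at h4
    have h5 : (g : A[X]).coeff 0 = 1 := by
      have := ho 0 hj
      rw [coeff_sub, coeff_one_zero, sub_eq_zero] at this
      exact this
    rwa [h5, mul_one] at h4
  rw [zero_add, h3, one_mul, coeff_D] at h2
  rw [h2] at h1
  have h6 := Submodule.smul_mem _ ((j : ℝ)⁻¹) h1
  rwa [smul_smul, inv_mul_cancel₀ (by exact_mod_cast hj.ne'), one_smul] at h6

/-! ### the grading by word length -/

/-- spans of words of length `k` -/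
def Wd (e : ι → A) (k : ℕ) : Submodule ℝ A :=
  Submodule.span ℝ {a | ∃ w : List ι, w.length = k ∧ a = (w.map e).prod}

theorem Wd_mul {e : ι → A} {k l : ℕ} {a b : A} (ha : a ∈ Wd e k) (hb : b ∈ Wd e l) :
    a * b ∈ Wd e (k + l) := by
  unfold Wd at ha
  induction ha using Submodule.span_induction with
  | mem x hx =>
    obtain ⟨w, hw, rfl⟩ := hx
    unfold Wd at hb
    induction hb using Submodule.span_induction with
    | mem y hy =>
      obtain ⟨v, hv, rfl⟩ := hy
      refine Submodule.subset_span ⟨w ++ v, by simp [hw, hv], by simp⟩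
    | zero => simp [Submodule.zero_mem]
    | add y z _ _ hy hz => rw [mul_add]; exact Submodule.add_mem _ hy hz
    | smul c y _ hy => rw [mul_smul_comm]; exact Submodule.smul_mem _ _ hy
  | zero => simp [Submodule.zero_mem]
  | add y z _ _ hy hz => rw [add_mul]; exact Submodule.add_mem _ hy hz
  | smul c y _ hy => rw [smul_mul_assoc]; exact Submodule.smul_mem _ _ hy

theorem Nil.Wd_zero {e : ι → A} {r k : ℕ} (h : Nil e r) (hk : r < k) {a : A} (ha : a ∈ Wd e k) :
    a = 0 := by
  unfold Wd at ha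
  have : {a | ∃ w : List ι, w.length = k ∧ a = (w.map e).prod} ⊆ {0} := by
    rintro a ⟨w, hw, rfl⟩
    exact h w (by omega)
  have h2 := Submodule.span_mono (R := ℝ) this ha
  simpa using h2

theorem F_coeff_mem {e : ι → A} {r : ℕ} {h : Nil e r} {g : A[X]ˣ} (hg : g ∈ F h) (k : ℕ) :
    (g : A[X]).coeff k ∈ Wd e k := by
  revert k
  refine F_induction (h := h) (p := fun g => ∀ k, (g : A[X]).coeff k ∈ Wd e k) ?_ ?_ hg
  · intro k
    rw [Units.val_one, coeff_one]
    split_ifs with hk
    · subst hk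
      exact Submodule.subset_span ⟨[], rfl, rfl⟩
    · exact Submodule.zero_mem _
  · intro i x g ih k
    rw [Units.val_mul, lu_val, Polynomial.coeff_mul]
    refine Submodule.sum_mem _ fun q hq => ?_
    rw [mem_antidiagonal] at hq
    rw [← hq]
    refine Wd_mul ?_ (ih _)
    rw [lt_coeff]
    split_ifs
    · refine Submodule.smul_mem _ _ (Submodule.subset_span ⟨List.replicate q.1 i, by simp, by simp⟩)
    · exact Submodule.zero_mem _

theorem F_coeff_zero_of_lt {e : ι → A} {r : ℕ} {h : Nil e r} {g : A[X]ˣ} (hg : g ∈ F h) {k : ℕ}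
    (hk : r < k) : (g : A[X]).coeff k = 0 := h.Wd_zero hk (F_coeff_mem hg k)

theorem F_eq_one {e : ι → A} {r : ℕ} {h : Nil e r} {g : A[X]ˣ} (hg : g ∈ F h)
    (ho : Ord (r + 1) ((g : A[X]) - 1)) : g = 1 := by
  apply Units.ext
  rw [Units.val_one]
  ext k
  by_cases hk : k < r + 1
  · have := ho k hk
    rwa [coeff_sub, sub_eq_zero] at this
  · rw [F_coeff_zero_of_lt hg (by omega), coeff_one, if_neg (by omega)]

end Vale.Agent.P188.H329

end

section

/-!
# P188, FILL block, part 3: coordinates of the second kind on the curve group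
-/

set_option linter.all false

namespace Vale.Agent.P188.H329

open Polynomial Finset

variable {A : Type} [Ring A] [Algebra ℝ A] {ι : Type}

/-! ### elements `1 + O(X^j)` -/

/-- `g = 1 + O(X^j)` -/
def Uo (j : ℕ) (g : A[X]ˣ) : Prop := Ord j ((g : A[X]) - 1)

theorem Uo.mono {j k : ℕ} {g : A[X]ˣ} (h : Uo k g) (hjk : j ≤ k) : Uo j g := Ord.mono h hjk

theorem Uo.coeff_zero {j : ℕ} {g : A[X]ˣ} (h : Uo j g) (hj : 0 < j) : (g : A[X]).coeff 0 = 1 := by
  have := h 0 hj
  rwa [coeff_sub, coeff_one_zero, sub_eq_zero] at this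

theorem Uo.coeff_sub_one {j : ℕ} {g : A[X]ˣ} (hj : 0 < j) :
    ((g : A[X]) - 1).coeff j = (g : A[X]).coeff j := by
  rw [coeff_sub, coeff_one, if_neg (by omega), sub_zero]

theorem Uo.one (j : ℕ) : Uo j (1 : A[X]ˣ) := by
  intro k _
  simp

theorem Uo.mul {j : ℕ} {g h : A[X]ˣ} (hg : Uo j g) (hh : Uo j h) : Uo j (g * h) := by
  have e : ((g * h : A[X]ˣ) : A[X]) - 1 =
      ((g : A[X]) - 1) * ((h : A[X]) - 1) + ((g : A[X]) - 1) + ((h : A[X]) - 1) := by
    rw [Units.val_mul]; noncomm_ring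
  unfold Uo
  rw [e]
  exact ((Ord.mul_right hg).add hg).add hh

theorem Uo.coeff_mul {j : ℕ} (hj : 0 < j) {g h : A[X]ˣ} (hg : Uo j g) (hh : Uo j h) :
    ((g * h : A[X]ˣ) : A[X]).coeff j = (g : A[X]).coeff j + (h : A[X]).coeff j := by
  have e : ((g * h : A[X]ˣ) : A[X]) - 1 =
      ((g : A[X]) - 1) * ((h : A[X]) - 1) + ((g : A[X]) - 1) + ((h : A[X]) - 1) := by
    rw [Units.val_mul]; noncomm_ring
  have h2 : (((g : A[X]) - 1) * ((h : A[X]) - 1)).coeff j = 0 := (Ord.mul hg hh) j (by omega)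
  rw [← Uo.coeff_sub_one hj, e, coeff_add, coeff_add, h2, zero_add, Uo.coeff_sub_one hj,
    Uo.coeff_sub_one hj]

theorem Uo.inv {j : ℕ} {g : A[X]ˣ} (hg : Uo j g) : Uo j g⁻¹ := by
  have e : ((g⁻¹ : A[X]ˣ) : A[X]) - 1 = -(((g⁻¹ : A[X]ˣ) : A[X]) * ((g : A[X]) - 1)) := by
    rw [mul_sub, ← Units.val_mul, inv_mul_cancel]
    simp
  unfold Uo
  rw [e]
  exact (Ord.mul_left hg).neg

theorem Uo.coeff_inv {j : ℕ} (hj : 0 < j) {g : A[X]ˣ} (hg : Uo j g) :
    ((g⁻¹ : A[X]ˣ) : A[X]).coeff j = - (g : A[X]).coeff j := by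
  have h1 := Uo.coeff_mul hj hg hg.inv
  rw [mul_inv_cancel, Units.val_one, coeff_one, if_neg (by omega)] at h1
  rw [eq_neg_iff_add_eq_zero, add_comm]
  exact h1.symm

theorem Uo.comm_aux {a b : ℕ} (ha : 0 < a) (hb : 0 < b) {g h : A[X]ˣ} (hg : Uo a g) (hh : Uo b h) :
    Uo (a + b) (g * (h * (g⁻¹ * h⁻¹))) ∧ ((g * (h * (g⁻¹ * h⁻¹)) : A[X]ˣ) : A[X]).coeff (a + b) =
      (g : A[X]).coeff a * (h : A[X]).coeff b - (h : A[X]).coeff b * (g : A[X]).coeff a := by
  set u : A[X]ˣ := g⁻¹ * h⁻¹ with hu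
  have e : ((g * (h * u) : A[X]ˣ) : A[X]) - 1 =
      (((g : A[X]) - 1) * ((h : A[X]) - 1) - ((h : A[X]) - 1) * ((g : A[X]) - 1)) * (u : A[X]) := by
    have e1 : (h : A[X]) * (g : A[X]) * (u : A[X]) = 1 := by
      rw [← Units.val_mul, ← Units.val_mul, hu]
      simp
    have e2 : ((g * (h * u) : A[X]ˣ) : A[X]) = (g : A[X]) * (h : A[X]) * (u : A[X]) := by
      rw [Units.val_mul, Units.val_mul, mul_assoc]
    rw [e2]
    have e3 : (((g : A[X]) - 1) * ((h : A[X]) - 1) - ((h : A[X]) - 1) * ((g : A[X]) - 1)) * (u : A[X])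
        = (g : A[X]) * (h : A[X]) * (u : A[X]) - (h : A[X]) * (g : A[X]) * (u : A[X]) := by
      noncomm_ring
    rw [e3, e1]
  have hO : Ord (a + b) (((g : A[X]) - 1) * ((h : A[X]) - 1) - ((h : A[X]) - 1) * ((g : A[X]) - 1)) := by
    refine (Ord.mul hg hh).sub ?_
    rw [add_comm]
    exact Ord.mul hh hg
  constructor
  · unfold Uo
    rw [e]
    exact Ord.mul_right hO
  · have hu0 : (u : A[X]).coeff 0 = 1 := by
      rw [hu, Units.val_mul, mul_coeff_zero, hg.inv.coeff_zero ha, hh.inv.coeff_zero hb, one_mul]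
    have h1 := Ord.coeff_mul hO (ord_zero (u : A[X]))
    rw [← Uo.coeff_sub_one (by omega : 0 < a + b), e]
    rw [add_zero, hu0, mul_one] at h1
    rw [h1, coeff_sub, Ord.coeff_mul hg hh]
    have h2 := Ord.coeff_mul hh hg
    rw [add_comm b a] at h2
    rw [h2, Uo.coeff_sub_one ha, Uo.coeff_sub_one hb]

/-! ### words with parameters -/

/-- A symbol `(i, b, α, β)`: the letter `e_i (α s_b + β)`. -/
abbrev Sym (ι : Type) : Type := ι × List ι × ℝ × ℝ

/-- parameter value of a symbol -/
def Sym.val (q : Sym ι) (s : List ι → ℝ) : ℝ := q.2.2.1 * s q.2.1 + q.2.2.2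

/-- evaluation of a list of symbols -/
noncomputable def ev {e : ι → A} {r : ℕ} (h : Nil e r) (l : List (Sym ι)) (s : List ι → ℝ) : A[X]ˣ :=
  (l.map fun q => lu h q.1 (Sym.val q s)).prod

theorem ev_nil {e : ι → A} {r : ℕ} (h : Nil e r) (s : List ι → ℝ) : ev h [] s = 1 := by simp [ev]

theorem ev_cons {e : ι → A} {r : ℕ} (h : Nil e r) (q : Sym ι) (l : List (Sym ι)) (s : List ι → ℝ) :
    ev h (q :: l) s = lu h q.1 (Sym.val q s) * ev h l s := by
  simp [ev]

theorem ev_append {e : ι → A} {r : ℕ} (h : Nil e r) (l l' : List (Sym ι)) (s : List ι → ℝ) :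
    ev h (l ++ l') s = ev h l s * ev h l' s := by
  simp [ev]

theorem ev_mem {e : ι → A} {r : ℕ} (h : Nil e r) (l : List (Sym ι)) (s : List ι → ℝ) :
    ev h l s ∈ F h := by
  induction l with
  | nil => rw [ev_nil]; exact one_mem _
  | cons q l ih => rw [ev_cons]; exact mul_mem (lu_mem h _ _) ih

theorem ev_congr {e : ι → A} {r : ℕ} (h : Nil e r) {l : List (Sym ι)} {s s' : List ι → ℝ}
    (hs : ∀ q ∈ l, s q.2.1 = s' q.2.1) : ev h l s = ev h l s' := by
  induction l with
  | nil => rw [ev_nil, ev_nil]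
  | cons q l ih =>
    rw [ev_cons, ev_cons, ih fun q hq => hs q (List.mem_cons_of_mem _ hq)]
    unfold Sym.val
    rw [hs q (List.mem_cons_self ..)]

/-- inverse list -/
def linv (l : List (Sym ι)) : List (Sym ι) :=
  (l.map fun q => (q.1, q.2.1, -q.2.2.1, -q.2.2.2)).reverse

theorem ev_linv {e : ι → A} {r : ℕ} (h : Nil e r) (l : List (Sym ι)) (s : List ι → ℝ) :
    ev h (linv l) s = (ev h l s)⁻¹ := by
  induction l with
  | nil => simp [linv, ev]
  | cons q l ih =>
    have : linv (q :: l) = linv l ++ [(q.1, q.2.1, -q.2.2.1, -q.2.2.2)] := by simp [linv]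
    have e2 : Sym.val (q.1, q.2.1, -q.2.2.1, -q.2.2.2) s = -Sym.val q s := by
      simp only [Sym.val]
      ring
    rw [this, ev_append, ih, ev_cons, ev_nil, mul_one, ev_cons h q l, mul_inv_rev, lu_inv, e2]

/-- the commutator word `[E_{w_1}(1), [E_{w_2}(1), ... E_{w_j}(s_b)]]` -/
def vw (b : List ι) : List ι → List (Sym ι)
  | [] => []
  | [i] => [(i, b, 1, 0)]
  | i :: j :: w => (i, b, 0, 1) :: (vw b (j :: w) ++ (i, b, 0, -1) :: linv (vw b (j :: w)))

theorem mem_linv {l : List (Sym ι)} {q : Sym ι} (hq : q ∈ linv l) : ∃ q' ∈ l, q'.2.1 = q.2.1 := by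
  unfold linv at hq
  rw [List.mem_reverse, List.mem_map] at hq
  obtain ⟨a, ha, rfl⟩ := hq
  exact ⟨a, ha, rfl⟩

theorem vw_index (b : List ι) (w : List ι) : ∀ q ∈ vw b w, q.2.1 = b := by
  induction w with
  | nil => intro q hq; simp [vw] at hq
  | cons i w ih =>
    cases w with
    | nil => intro q hq; simp [vw] at hq; subst hq; rfl
    | cons j w =>
      intro q hq
      simp only [vw, List.mem_cons, List.mem_append] at hq
      rcases hq with rfl | hq | rfl | hq
      · rfl
      · exact ih q hq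
      · rfl
      · obtain ⟨q', h1, h2⟩ := mem_linv hq
        rw [← h2]
        exact ih q' h1

theorem Nil.coeff_one {e : ι → A} {r : ℕ} (h : Nil e r) (i : ι) (x : ℝ) :
    (lt e r i x).coeff 1 = x • e i := by
  rcases Nat.eq_zero_or_pos r with hr | hr
  · subst hr
    have : e i = 0 := by simpa using h [i] (by simp)
    rw [lt_coeff, this]
    simp
  · exact lt_coeff_one e hr i x

theorem lu_Uo {e : ι → A} {r : ℕ} (h : Nil e r) (i : ι) (x : ℝ) : Uo 1 (lu h i x) := by
  intro k hk
  have : k = 0 := by omega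
  subst this
  rw [coeff_sub, lu_val, lt_coeff_zero, coeff_one_zero, sub_self]

theorem vw_spec {e : ι → A} {r : ℕ} (h : Nil e r) (b : List ι) (s : List ι → ℝ) (w : List ι)
    (hw : w ≠ []) : Uo w.length (ev h (vw b w) s) ∧
      ((ev h (vw b w) s : A[X]ˣ) : A[X]).coeff w.length = s b • br e w := by
  induction w with
  | nil => exact absurd rfl hw
  | cons i w ih =>
    cases w with
    | nil =>
      have : ev h (vw b [i]) s = lu h i (s b) := by
        simp [vw, ev_cons, ev_nil, Sym.val]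
      rw [this]
      refine ⟨lu_Uo h i _, ?_⟩
      rw [lu_val]
      exact h.coeff_one i _
    | cons j w =>
      obtain ⟨h1, h2⟩ := ih (by simp)
      set v := ev h (vw b (j :: w)) s with hv
      have e1 : ev h (vw b (i :: j :: w)) s = lu h i 1 * (v * ((lu h i 1)⁻¹ * v⁻¹)) := by
        simp only [vw, ev_cons, ev_append, ev_linv]
        rw [← hv]
        simp only [Sym.val, zero_mul, zero_add, lu_inv]
      obtain ⟨h3, h4⟩ := Uo.comm_aux (a := 1) (b := (j :: w).length) one_pos (by simp)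
        (lu_Uo h i 1) h1
      rw [e1]
      have e2 : (i :: j :: w).length = 1 + (j :: w).length := by simp; omega
      rw [e2]
      refine ⟨h3, ?_⟩
      rw [h4, h2, lu_val, h.coeff_one, one_smul]
      simp only [br, mul_smul_comm, smul_mul_assoc, smul_sub]

end Vale.Agent.P188.H329

end
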