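import Mathlib.Algebra.Order.Chebyshev
import Mathlib.Data.Real.Basic
import Mathlib.Data.Fin.Tuple.Basic
import Mathlib.Data.Fintype.Pi
import Mathlib.Algebra.Group.Basic
import Mathlib.Tactic.Ring
import Mathlib.Tactic.Group
import Mathlib.Tactic.Positivity
import Mathlib.Tactic.Linarith

/-!
# Operator bound for random chains in a group

`G` a group, `A'`, `A` finite subsets.  One block of a chain goes from `z` to
`z * n'⁻¹ * (n * g)` with `n' ∈ A'`, `n ∈ A`.  The point `Y = z * n'⁻¹` is the common corner.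
-/

set_option linter.unusedSectionVars false

namespace Agent.P188.H428

open Finset

variable {G : Type*} [Group G] [DecidableEq G]

/-- Displacement of a chain. -/
def out : (J : ℕ) → (Fin J → G) → (Fin J → G × G) → G
  | 0, _, _ => 1
  | J + 1, g, ω => (ω 0).1⁻¹ * ((ω 0).2 * g 0) * out J (Fin.tail g) (Fin.tail ω)

/-- Product of the values of `b` along a chain. -/
def wt (b : G → G → ℝ) : (J : ℕ) → (Fin J → G) → (Fin J → G × G) → G → ℝ
  | 0, _, _, _ => 1
  | J + 1, g, ω, z => b (z * (ω 0).1⁻¹) (ω 0).1 * b (z * (ω 0).1⁻¹) ((ω 0).2 * g 0) *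
      wt b J (Fin.tail g) (Fin.tail ω) (z * (ω 0).1⁻¹ * ((ω 0).2 * g 0))

end Agent.P188.H428
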