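import Mathlib.Analysis.BoxIntegral.UnitPartition
import Mathlib.Analysis.Convex.Measure
import Mathlib.MeasureTheory.Measure.Haar.OfBasis
import Mathlib.Tactic

section

/-!
# P188, block DBOX: lattice points in dilated convex bodies
-/

set_option linter.all false

open MeasureTheory Set Filter Topology Submodule
open scoped Pointwise

namespace Vale.Agent.P188.H540

variable {k : ℕ}

/-- an integral vector as a real vector -/
def vec (w : Fin k → ℤ) : Fin k → ℝ := fun i => (w i : ℝ)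

theorem vec_injective : Function.Injective (vec (k := k)) := by
  intro w w' h
  funext i
  have h1 : (w i : ℝ) = (w' i : ℝ) := congrFun h i
  exact_mod_cast h1

theorem range_vec : (span ℤ (Set.range (Pi.basisFun ℝ (Fin k))) : Set (Fin k → ℝ)) =
    Set.range (vec (k := k)) := by
  ext v
  rw [SetLike.mem_coe, Module.Basis.mem_span_iff_repr_mem]
  simp only [Pi.basisFun_repr, mem_range]
  constructor
  · intro h
    choose w hw using h
    exact ⟨w, by funext i; simpa [vec] using hw i⟩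
  · rintro ⟨w, rfl⟩ i
    exact ⟨w i, by simp [vec]⟩

/-- lattice points of `x • P` -/
def LP (P : Set (Fin k → ℝ)) (x : ℝ) : Set (Fin k → ℤ) := {w | vec w ∈ x • P}

theorem card_LP {P : Set (Fin k → ℝ)} {x : ℝ} (hx : 0 < x) :
    (LP P x).ncard = Nat.card ↑(P ∩ x⁻¹ • (span ℤ (Set.range (Pi.basisFun ℝ (Fin k))))) := by
  have hx0 : x ≠ 0 := hx.ne'
  have h1 : (P ∩ x⁻¹ • (span ℤ (Set.range (Pi.basisFun ℝ (Fin k))) : Set (Fin k → ℝ))) =
      (fun w => x⁻¹ • vec w) '' (LP P x) := by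
    ext v
    rw [range_vec]
    constructor
    · rintro ⟨h1, h2⟩
      rw [Set.mem_smul_set] at h2
      obtain ⟨_, ⟨w, rfl⟩, rfl⟩ := h2
      exact ⟨w, (Set.mem_smul_set_iff_inv_smul_mem₀ hx0 _ _).2 h1, rfl⟩
    · rintro ⟨w, hw, rfl⟩
      exact ⟨(Set.mem_smul_set_iff_inv_smul_mem₀ hx0 _ _).1 hw,
        Set.smul_mem_smul_set ⟨w, rfl⟩⟩
  show (LP P x).ncard = Nat.card ↑(P ∩ x⁻¹ • (span ℤ (Set.range (Pi.basisFun ℝ (Fin k))) :
    Set (Fin k → ℝ)))
  rw [h1, Nat.card_coe_set_eq, Set.ncard_image_of_injective]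
  intro w w' h
  exact vec_injective (smul_right_injective _ (inv_ne_zero hx0) h)

theorem LP_finite {P : Set (Fin k → ℝ)} (hb : Bornology.IsBounded P) (x : ℝ) : (LP P x).Finite := by
  have h1 : Bornology.IsBounded (x • P) := hb.smul₀ x
  have h2 := ZSpan.setFinite_inter (b := Pi.basisFun ℝ (Fin k)) (s := x • P) h1
  refine Set.Finite.of_finite_image (f := vec) (h2.subset ?_) vec_injective.injOn
  rintro _ ⟨w, hw, rfl⟩
  refine ⟨hw, ?_⟩
  rw [range_vec]
  exact ⟨w, rfl⟩

theorem LP_mono {P : Set (Fin k → ℝ)} (hc : Convex ℝ P) (h0 : (0 : Fin k → ℝ) ∈ P) {x y : ℝ}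
    (hx : 0 < x) (hxy : x ≤ y) : x • P ⊆ y • P := by
  rintro _ ⟨v, hv, rfl⟩
  have hy : 0 < y := hx.trans_le hxy
  refine ⟨(x / y) • v, ?_, ?_⟩
  · have := hc.smul_mem_of_zero_mem h0 hv (t := x / y)
      ⟨by positivity, by rw [div_le_one hy]; exact hxy⟩
    exact this
  · show y • ((x / y) • v) = x • v
    rw [smul_smul, mul_div_cancel₀ _ hy.ne']

/-- **the number of lattice points of a dilated convex body** -/
theorem tendsto_LP {P : Set (Fin k → ℝ)} (hc : Convex ℝ P) (hb : Bornology.IsBounded P)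
    (hm : MeasurableSet P) (h0 : (0 : Fin k → ℝ) ∈ P) :
    Tendsto (fun x : ℝ => ((LP P x).ncard : ℝ) / x ^ k) atTop (𝓝 (volume.real P)) := by
  have h1 := tendsto_card_div_pow_atTop_volume' P hb hm (hc.addHaar_frontier volume)
    (fun x y hx hxy => LP_mono hc h0 hx hxy)
  refine h1.congr' ?_
  filter_upwards [eventually_gt_atTop 0] with x hx
  rw [card_LP hx, Fintype.card_fin]

/-- dilating by `t > 1` close to `1` adds few lattice points -/
theorem lat_ratio {P : Set (Fin k → ℝ)} (hc : Convex ℝ P) (hb : Bornology.IsBounded P)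
    (hm : MeasurableSet P) (hi : (0 : Fin k → ℝ) ∈ interior P) {ε : ℝ} (hε : 0 < ε) :
    ∃ t : ℝ, 1 < t ∧ ∃ s₀ : ℝ, 0 < s₀ ∧ ∀ s : ℝ, s₀ ≤ s →
      ((LP P (t * s)).ncard : ℝ) ≤ (1 + ε) * (LP P s).ncard := by
  have h0 : (0 : Fin k → ℝ) ∈ P := interior_subset hi
  have hv : 0 < volume.real P := by
    rw [Measure.real, ENNReal.toReal_pos_iff]
    refine ⟨?_, hb.measure_lt_top⟩
    exact lt_of_lt_of_le (isOpen_interior.measure_pos volume ⟨0, hi⟩)
      (measure_mono interior_subset)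
  have hT := tendsto_LP hc hb hm h0
  -- choose `t` with `t ^ k < 1 + ε / 2`
  obtain ⟨t, ht1, ht2⟩ : ∃ t : ℝ, 1 < t ∧ t ^ k < 1 + ε / 2 := by
    have hcont : Tendsto (fun t : ℝ => t ^ k) (𝓝[>] 1) (𝓝 1) := by
      have : Tendsto (fun t : ℝ => t ^ k) (𝓝 1) (𝓝 (1 ^ k)) := (continuous_pow k).tendsto 1
      rw [one_pow] at this
      exact this.mono_left nhdsWithin_le_nhds
    have h1 : ∀ᶠ t : ℝ in 𝓝[>] 1, t ^ k < 1 + ε / 2 :=
      hcont.eventually_lt_const (by linarith)
    obtain ⟨t, ht, ht'⟩ := (h1.and self_mem_nhdsWithin).exists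
    exact ⟨t, ht', ht⟩
  refine ⟨t, ht1, ?_⟩
  have hT2 : Tendsto (fun s : ℝ => ((LP P (t * s)).ncard : ℝ) / (t * s) ^ k) atTop
      (𝓝 (volume.real P)) := hT.comp (tendsto_id.const_mul_atTop (by linarith))
  have hT3 : Tendsto (fun s : ℝ => ((LP P (t * s)).ncard : ℝ) / s ^ k) atTop
      (𝓝 (volume.real P * t ^ k)) := by
    refine (hT2.mul_const (t ^ k)).congr' ?_
    filter_upwards [eventually_gt_atTop 0] with s hs
    have : (t * s) ^ k = t ^ k * s ^ k := mul_pow _ _ _
    rw [this]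
    have h1 : t ^ k ≠ 0 := by positivity
    have h2 : s ^ k ≠ 0 := by positivity
    field_simp
  have hT4 : Tendsto (fun s : ℝ => (1 + ε) * (((LP P s).ncard : ℝ) / s ^ k)) atTop
      (𝓝 ((1 + ε) * volume.real P)) := hT.const_mul _
  have hlt : volume.real P * t ^ k < (1 + ε) * volume.real P := by nlinarith
  have hev := hT3.eventually_lt hT4 hlt
  obtain ⟨s₀, hs₀⟩ := (hev.and (eventually_gt_atTop 0)).exists_forall_of_atTop
  refine ⟨max s₀ 1, by positivity, fun s hs => ?_⟩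
  obtain ⟨h1, h2⟩ := hs₀ s ((le_max_left _ _).trans hs)
  have h3 : (0 : ℝ) < s ^ k := by positivity
  have h4 : (1 + ε) * (((LP P s).ncard : ℝ) / s ^ k) = ((1 + ε) * (LP P s).ncard) / s ^ k := by ring
  rw [h4, div_lt_div_iff_of_pos_right h3] at h1
  exact h1.le

end Vale.Agent.P188.H540

end

section

/-!
# P188, route A, block hinput: grids in convex bodies
-/

set_option linter.all false

namespace Vale.Agent.P188.H235

open MeasureTheory Set Filter Topology
open scoped Pointwise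
open Vale.Agent.P188.H540

/-- the ratio between the small and the big box -/
noncomputable def tg (d : ℕ) : ℝ := 1 / (8 * (d + 1))

theorem tg_pos (d : ℕ) : 0 < tg d := by unfold tg; positivity

theorem tg_le (d : ℕ) : tg d ≤ 1 / 8 := by
  unfold tg
  apply one_div_le_one_div_of_le (by norm_num)
  have : (0 : ℝ) ≤ d := Nat.cast_nonneg d
  linarith

theorem tg_pow (d : ℕ) : 3 / 4 ≤ (1 - 2 * tg d) ^ d := by
  have h := one_add_mul_le_pow (a := -(2 * tg d)) (by have := tg_le d; linarith) d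
  have h2 : (d : ℝ) * tg d ≤ 1 / 8 := by
    unfold tg
    rw [mul_one_div, div_le_iff₀ (by positivity)]
    have : (0 : ℝ) ≤ d := Nat.cast_nonneg d
    nlinarith
  have h3 : (1 + -(2 * tg d)) ^ d = (1 - 2 * tg d) ^ d := by ring
  rw [h3] at h
  linarith

/-- the constant of the grids -/
def Mg (d : ℕ) : ℕ := 2 * (8 * (d + 1)) ^ d

theorem Mg_mul (d : ℕ) : (Mg d : ℝ) * tg d ^ d = 2 := by
  unfold Mg tg
  push_cast
  rw [one_div, inv_pow]
  field_simp

/-- A fine grid in a convex body. -/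
structure GridP (d : ℕ) (K : Set (Fin d → ℝ)) (q : ℝ) : Prop where
  q_pos : 0 < q
  fin : (LP K q).Finite
  card : (LP K q).ncard ≤ Mg d * (LP K (tg d * q)).ncard
  ne : (0 : Fin d → ℤ) ∈ LP K (tg d * q)
  sub : LP K (tg d * q) ⊆ LP K q
  shift : ∀ a ∈ LP K (tg d * q), ∀ b ∈ LP K (tg d * q),
    (LP K q).ncard ≤ 2 * {n | n ∈ LP K q ∧ n - a + b ∈ LP K q}.ncard
  vol : volume.real K * q ^ d ≤ 2 * (LP K q).ncard

theorem vec_zero {d : ℕ} : vec (0 : Fin d → ℤ) = 0 := by funext i; simp [vec]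

theorem vec_shift {d : ℕ} (n a b : Fin d → ℤ) : vec (n - a + b) = vec n - vec a + vec b := by
  funext i; simp [vec]

/-- **Fine grids exist.** -/
theorem exists_grid {d : ℕ} {K : Set (Fin d → ℝ)} (hc : Convex ℝ K) (hk : IsCompact K)
    (hi : (0 : Fin d → ℝ) ∈ interior K) (hs : ∀ x ∈ K, -x ∈ K) :
    ∀ᶠ q : ℝ in atTop, GridP d K q := by
  have h0 : (0 : Fin d → ℝ) ∈ K := interior_subset hi
  have hb := hk.isBounded
  have hV : 0 < volume.real K := by
    rw [Measure.real, ENNReal.toReal_pos_iff]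
    exact ⟨lt_of_lt_of_le (isOpen_interior.measure_pos volume ⟨0, hi⟩)
      (measure_mono interior_subset), hb.measure_lt_top⟩
  set V := volume.real K with hVd
  have ht := tg_pos d
  have ht8 := tg_le d
  have hT := tendsto_LP hc hb hk.measurableSet h0
  -- scaled versions
  have hTt : ∀ t : ℝ, 0 < t → Tendsto (fun q : ℝ => ((LP K (t * q)).ncard : ℝ) / q ^ d) atTop
      (𝓝 (V * t ^ d)) := by
    intro t ht
    have hT2 : Tendsto (fun s : ℝ => ((LP K (t * s)).ncard : ℝ) / (t * s) ^ d) atTop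
        (𝓝 V) := hT.comp (tendsto_id.const_mul_atTop ht)
    refine (hT2.mul_const (t ^ d)).congr' ?_
    filter_upwards [eventually_gt_atTop 0] with s hs
    have : (t * s) ^ d = t ^ d * s ^ d := mul_pow _ _ _
    rw [this]
    have h1 : t ^ d ≠ 0 := by positivity
    have h2 : s ^ d ≠ 0 := by positivity
    field_simp
  have e1 := hTt (tg d) ht
  have e2 := hTt (1 - 2 * tg d) (by linarith)
  have e3 := hT.eventually_lt (e1.const_mul (Mg d : ℝ)) (by
    have := Mg_mul d
    have h4 : (Mg d : ℝ) * (V * tg d ^ d) = 2 * V := by linear_combination V * this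
    rw [h4]; linarith)
  have e4 := hT.eventually_lt (e2.const_mul (2 : ℝ)) (by
    have := tg_pow d
    have h5 : 3 / 4 * V ≤ (1 - 2 * tg d) ^ d * V := mul_le_mul_of_nonneg_right this hV.le
    linarith)
  have e5 : ∀ᶠ q : ℝ in atTop, V / 2 < ((LP K q).ncard : ℝ) / q ^ d :=
    hT.eventually_const_lt (by linarith)
  filter_upwards [eventually_gt_atTop 0, e3, e4, e5] with q hq h3 h4 h5
  have hqd : (0 : ℝ) < q ^ d := by positivity
  have hfin : (LP K q).Finite := LP_finite hb q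
  refine ⟨hq, hfin, ?_, ?_, ?_, ?_, ?_⟩
  · rw [← mul_div_assoc, div_lt_div_iff_of_pos_right hqd] at h3
    exact_mod_cast h3.le
  · show vec (0 : Fin d → ℤ) ∈ (tg d * q) • K
    rw [vec_zero]
    exact ⟨0, h0, smul_zero _⟩
  · intro w hw
    exact LP_mono hc h0 (by positivity) (by nlinarith) hw
  · intro a ha b hb'
    have hsub : LP K ((1 - 2 * tg d) * q) ⊆ {n | n ∈ LP K q ∧ n - a + b ∈ LP K q} := by
      intro n hn
      refine ⟨LP_mono hc h0 (by nlinarith) (by nlinarith) hn, ?_⟩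
      show vec (n - a + b) ∈ q • K
      rw [vec_shift]
      have ha' : -vec a ∈ (tg d * q) • K := by
        obtain ⟨x, hx, hx2⟩ := ha
        exact ⟨-x, hs x hx, by rw [← hx2]; simp⟩
      have hq2 : q = (1 - 2 * tg d) * q + (tg d * q + tg d * q) := by ring
      have hv : vec n - vec a + vec b = vec n + (-vec a + vec b) := by abel
      rw [hv, hq2, hc.add_smul (by nlinarith) (by positivity), hc.add_smul (by positivity)
        (by positivity)]
      exact Set.add_mem_add hn (Set.add_mem_add ha' hb')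
    have h6 : (LP K ((1 - 2 * tg d) * q)).ncard ≤ {n | n ∈ LP K q ∧ n - a + b ∈ LP K q}.ncard :=
      Set.ncard_le_ncard hsub (hfin.subset fun n hn => hn.1)
    rw [← mul_div_assoc, div_lt_div_iff_of_pos_right hqd] at h4
    have h7 : (LP K q).ncard ≤ 2 * (LP K ((1 - 2 * tg d) * q)).ncard := by exact_mod_cast h4.le
    omega
  · rw [div_lt_div_iff₀ (by norm_num) hqd] at h5
    linarith

end Vale.Agent.P188.H235

end

section

/-!
# P188, block DBOX: lattice points in dilated convex bodies, uniform versions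
-/

set_option linter.all false

open MeasureTheory Set Filter Topology Submodule
open scoped Pointwise

namespace Vale.Agent.P188.H540

variable {k : ℕ}

theorem volume_pos {P : Set (Fin k → ℝ)} (hb : Bornology.IsBounded P)
    (hi : (0 : Fin k → ℝ) ∈ interior P) : 0 < volume.real P := by
  rw [Measure.real, ENNReal.toReal_pos_iff]
  exact ⟨lt_of_lt_of_le (isOpen_interior.measure_pos volume ⟨0, hi⟩)
    (measure_mono interior_subset), hb.measure_lt_top⟩

/-- dilating by `t > 1` close to `1` (depending only on the dimension) adds few lattice points -/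
theorem lat_ratio' (k : ℕ) {ε : ℝ} (hε : 0 < ε) :
    ∃ t : ℝ, 1 < t ∧ ∀ P : Set (Fin k → ℝ), Convex ℝ P → Bornology.IsBounded P →
      MeasurableSet P → (0 : Fin k → ℝ) ∈ interior P → ∃ s₀ : ℝ, 0 < s₀ ∧ ∀ s : ℝ, s₀ ≤ s →
      ((LP P (t * s)).ncard : ℝ) ≤ (1 + ε) * (LP P s).ncard := by
  obtain ⟨t, ht1, ht2⟩ : ∃ t : ℝ, 1 < t ∧ t ^ k < 1 + ε / 2 := by
    have hcont : Tendsto (fun t : ℝ => t ^ k) (𝓝[>] 1) (𝓝 1) := by
      have : Tendsto (fun t : ℝ => t ^ k) (𝓝 1) (𝓝 (1 ^ k)) := (continuous_pow k).tendsto 1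
      rw [one_pow] at this
      exact this.mono_left nhdsWithin_le_nhds
    have h1 : ∀ᶠ t : ℝ in 𝓝[>] 1, t ^ k < 1 + ε / 2 :=
      hcont.eventually_lt_const (by linarith)
    obtain ⟨t, ht, ht'⟩ := (h1.and self_mem_nhdsWithin).exists
    exact ⟨t, ht', ht⟩
  refine ⟨t, ht1, fun P hc hb hm hi => ?_⟩
  have h0 : (0 : Fin k → ℝ) ∈ P := interior_subset hi
  have hv := volume_pos hb hi
  have hT := tendsto_LP hc hb hm h0
  have hT2 : Tendsto (fun s : ℝ => ((LP P (t * s)).ncard : ℝ) / (t * s) ^ k) atTop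
      (𝓝 (volume.real P)) := hT.comp (tendsto_id.const_mul_atTop (by linarith))
  have hT3 : Tendsto (fun s : ℝ => ((LP P (t * s)).ncard : ℝ) / s ^ k) atTop
      (𝓝 (volume.real P * t ^ k)) := by
    refine (hT2.mul_const (t ^ k)).congr' ?_
    filter_upwards [eventually_gt_atTop 0] with s hs
    have : (t * s) ^ k = t ^ k * s ^ k := mul_pow _ _ _
    rw [this]
    have h1 : t ^ k ≠ 0 := by positivity
    have h2 : s ^ k ≠ 0 := by positivity
    field_simp
  have hT4 : Tendsto (fun s : ℝ => (1 + ε) * (((LP P s).ncard : ℝ) / s ^ k)) atTop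
      (𝓝 ((1 + ε) * volume.real P)) := hT.const_mul _
  have hlt : volume.real P * t ^ k < (1 + ε) * volume.real P := by nlinarith
  have hev := hT3.eventually_lt hT4 hlt
  obtain ⟨s₀, hs₀⟩ := (hev.and (eventually_gt_atTop 0)).exists_forall_of_atTop
  refine ⟨max s₀ 1, by positivity, fun s hs => ?_⟩
  obtain ⟨h1, h2⟩ := hs₀ s ((le_max_left _ _).trans hs)
  have h3 : (0 : ℝ) < s ^ k := by positivity
  have h4 : (1 + ε) * (((LP P s).ncard : ℝ) / s ^ k) = ((1 + ε) * (LP P s).ncard) / s ^ k := by ring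
  rw [h4, div_lt_div_iff_of_pos_right h3] at h1
  exact h1.le

/-- lattice points of two homothetic convex bodies -/
theorem lat_dbl {P : Set (Fin k → ℝ)} (hc : Convex ℝ P) (hb : Bornology.IsBounded P)
    (hm : MeasurableSet P) (hi : (0 : Fin k → ℝ) ∈ interior P) {A a : ℝ} (hA : 0 < A) (ha : 0 < a) :
    ∃ C s₀ : ℝ, 0 < s₀ ∧ 0 ≤ C ∧ ∀ s : ℝ, s₀ ≤ s →
      ((LP P (A * s)).ncard : ℝ) ≤ C * (LP P (a * s)).ncard := by
  have h0 : (0 : Fin k → ℝ) ∈ P := interior_subset hi
  have hv := volume_pos hb hi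
  have hT := tendsto_LP hc hb hm h0
  have hA' : Tendsto (fun s : ℝ => ((LP P (A * s)).ncard : ℝ) / (A * s) ^ k) atTop
      (𝓝 (volume.real P)) := hT.comp (tendsto_id.const_mul_atTop hA)
  have ha' : Tendsto (fun s : ℝ => ((LP P (a * s)).ncard : ℝ) / (a * s) ^ k) atTop
      (𝓝 (volume.real P)) := hT.comp (tendsto_id.const_mul_atTop ha)
  set v := volume.real P with hvdef
  have h1 := hA'.eventually_lt_const (show v < 2 * v by linarith)
  have h2 := ha'.eventually_const_lt (show v / 2 < v by linarith)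
  obtain ⟨s₀, hs₀⟩ := ((h1.and h2).and (eventually_gt_atTop 0)).exists_forall_of_atTop
  refine ⟨4 * (A / a) ^ k, max s₀ 1, by positivity, by positivity, fun s hs => ?_⟩
  obtain ⟨⟨h3, h4⟩, h5⟩ := hs₀ s ((le_max_left _ _).trans hs)
  have hAs : 0 < (A * s) ^ k := by positivity
  have has : 0 < (a * s) ^ k := by positivity
  rw [div_lt_iff₀ hAs] at h3
  rw [lt_div_iff₀ has] at h4
  have h6 : (A * s) ^ k = (A / a) ^ k * (a * s) ^ k := by
    rw [← mul_pow]
    congr 1
    field_simp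
  calc ((LP P (A * s)).ncard : ℝ) ≤ 2 * v * (A * s) ^ k := h3.le
    _ = 4 * (A / a) ^ k * (v / 2 * (a * s) ^ k) := by rw [h6]; ring
    _ ≤ 4 * (A / a) ^ k * (LP P (a * s)).ncard := by gcongr

/-- lattice vectors of norm at most `x` -/
theorem LP_ball {x : ℝ} (hx : 0 < x) :
    LP (Metric.closedBall (0 : Fin k → ℝ) 1) x = {w | ‖vec w‖ ≤ x} := by
  ext w
  simp only [LP, mem_setOf_eq, mem_smul_set_iff_inv_smul_mem₀ hx.ne', mem_closedBall_zero_iff]
  rw [norm_smul, norm_inv, Real.norm_eq_abs, abs_of_pos hx, inv_mul_le_iff₀ hx, mul_one]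

/-- doubling for the cubes -/
theorem ball_dbl (k : ℕ) {A a : ℝ} (hA : 0 < A) (ha : 0 < a) :
    ∃ C s₀ : ℝ, 0 < s₀ ∧ 0 ≤ C ∧ ∀ s : ℝ, s₀ ≤ s →
      (({w : Fin k → ℤ | ‖vec w‖ ≤ A * s}).ncard : ℝ) ≤
        C * ({w : Fin k → ℤ | ‖vec w‖ ≤ a * s}).ncard := by
  obtain ⟨C, s₀, hs₀, hC, h⟩ := lat_dbl (k := k) (P := Metric.closedBall 0 1)
    (convex_closedBall _ _) Metric.isBounded_closedBall Metric.isClosed_closedBall.measurableSet
    (by
      rw [mem_interior_iff_mem_nhds]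
      exact Metric.closedBall_mem_nhds _ one_pos) hA ha
  refine ⟨C, s₀, hs₀, hC, fun s hs => ?_⟩
  have hs0 : 0 < s := hs₀.trans_le hs
  have := h s hs
  rw [LP_ball (by positivity), LP_ball (by positivity)] at this
  exact this

theorem ball_finite (x : ℝ) : {w : Fin k → ℤ | ‖vec w‖ ≤ x}.Finite := by
  have h1 := LP_finite (k := k) (P := Metric.closedBall 0 x) Metric.isBounded_closedBall 1
  refine h1.subset fun w hw => ?_
  show vec w ∈ (1 : ℝ) • Metric.closedBall (0 : Fin k → ℝ) x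
  rw [one_smul, mem_closedBall_zero_iff]
  exact hw

end Vale.Agent.P188.H540

end
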