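import Mathlib.MeasureTheory.Measure.MeasureSpace
import Mathlib.Analysis.SpecialFunctions.Exp
import Mathlib.Analysis.Complex.Norm
import Mathlib.Tactic

/-!
# P188, block NOFOLD (core): no fold at a facet of the window

`X` is the absolute target coordinate `D_β (Ψ z)`, `h = β ∘ f` the target height. Class 1 lines have
maximal height at the top `z t^m`, class 2 lines have minimal height there. If a positive proportion
of class 2 points is attached (by `τ`, merging at the top) to class 1 points, then the coordinate `X`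
of the class 2 points takes few values, which contradicts the spreading property.
-/

set_option linter.all false

namespace Vale.Agent.P188.H616

open MeasureTheory Set Real

variable {S : Type*} [Group S]

/-- The standing assumptions on length `l`, height `h` and coordinate `X`. -/
structure Coord (l h : S → ℝ) (X : S → ℂ) (A L : ℝ) : Prop where
  A0 : 0 ≤ A
  L0 : 0 ≤ L
  l0 : ∀ g, 0 ≤ l g
  linv : ∀ g, l g⁻¹ = l g
  step : ∀ z g, ‖X (z * g) - X z‖ ≤ A * (1 + l g) * exp (h z + L * l g)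
  lip : ∀ z g, |h (z * g) - h z| ≤ L * l g

variable {l h : S → ℝ} {X : S → ℂ} {A L : ℝ}

theorem Coord.lip' (c : Coord l h X A L) (z w : S) : |h w - h z| ≤ L * l (z⁻¹ * w) := by
  have := c.lip z (z⁻¹ * w)
  rwa [mul_inv_cancel_left] at this

theorem Coord.step' (c : Coord l h X A L) (z w : S) {H d : ℝ} (hH : h z ≤ H)
    (hd : l (z⁻¹ * w) ≤ d) : ‖X w - X z‖ ≤ A * (1 + d) * exp (H + L * d) := by
  have := c.step z (z⁻¹ * w)
  rw [mul_inv_cancel_left] at this
  refine this.trans ?_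
  have h1 : 0 ≤ l (z⁻¹ * w) := c.l0 _
  have h2 : L * l (z⁻¹ * w) ≤ L * d := mul_le_mul_of_nonneg_left hd c.L0
  refine mul_le_mul ?_ (exp_le_exp.2 (by linarith)) (exp_pos _).le ?_
  · exact mul_le_mul_of_nonneg_left (by linarith) c.A0
  · exact mul_nonneg c.A0 (by linarith)

/-- the coordinate along a segment below height `H` -/
theorem Coord.segment (c : Coord l h X A L) (z t : S) {H lt : ℝ} (hlt : l t ≤ lt) (m : ℕ)
    (hH : ∀ j ≤ m, h (z * t ^ j) ≤ H) :
    ‖X (z * t ^ m) - X z‖ ≤ m * (A * (1 + lt) * exp (H + L * lt)) := by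
  induction m with
  | zero => simp
  | succ m ih =>
    have h1 := ih fun j hj => hH j (by omega)
    have h2 : ‖X (z * t ^ (m + 1)) - X (z * t ^ m)‖ ≤ A * (1 + lt) * exp (H + L * lt) := by
      refine c.step' _ _ (hH m (by omega)) ?_
      have : (z * t ^ m)⁻¹ * (z * t ^ (m + 1)) = t := by rw [pow_succ]; group
      rw [this]; exact hlt
    calc ‖X (z * t ^ (m + 1)) - X z‖
        = ‖(X (z * t ^ (m + 1)) - X (z * t ^ m)) + (X (z * t ^ m) - X z)‖ := by ring_nf
      _ ≤ _ := norm_add_le _ _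
      _ ≤ A * (1 + lt) * exp (H + L * lt) + m * (A * (1 + lt) * exp (H + L * lt)) := add_le_add h2 h1
      _ = _ := by push_cast; ring

/-- two lines that merge -/
theorem Coord.merge (c : Coord l h X A L) (z w t : S) {H lt d : ℝ} (hlt : l t ≤ lt) (hd0 : 0 ≤ d)
    (m : ℕ) (hz : ∀ j ≤ m, h (z * t ^ j) ≤ H) (hw : ∀ j ≤ m, h (w * t ^ j) ≤ H)
    (hd : l ((z * t ^ m)⁻¹ * (w * t ^ m)) ≤ d) :
    ‖X w - X z‖ ≤ (2 * m + 1) * (A * (1 + d + lt) * exp (H + L * (d + lt))) := by
  have hlt0 : 0 ≤ lt := (c.l0 t).trans hlt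
  have h1 := c.segment z t hlt m hz
  have h2 := c.segment w t hlt m hw
  have h3 := c.step' (z * t ^ m) (w * t ^ m) (hz m le_rfl) hd
  have hA := c.A0
  have hL := c.L0
  set B := A * (1 + d + lt) * exp (H + L * (d + lt)) with hB
  have hb1 : A * (1 + lt) * exp (H + L * lt) ≤ B := by
    refine mul_le_mul ?_ (exp_le_exp.2 ?_) (exp_pos _).le ?_
    · exact mul_le_mul_of_nonneg_left (by linarith) hA
    · nlinarith [mul_nonneg hL hd0]
    · exact mul_nonneg hA (by linarith)
  have hb2 : A * (1 + d) * exp (H + L * d) ≤ B := by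
    refine mul_le_mul ?_ (exp_le_exp.2 ?_) (exp_pos _).le ?_
    · exact mul_le_mul_of_nonneg_left (by linarith) hA
    · nlinarith [mul_nonneg hL hlt0]
    · exact mul_nonneg hA (by linarith)
  have hm : (0 : ℝ) ≤ m := Nat.cast_nonneg m
  calc ‖X w - X z‖ = ‖-(X (w * t ^ m) - X w) + ((X (w * t ^ m) - X (z * t ^ m)) +
        (X (z * t ^ m) - X z))‖ := by ring_nf
    _ ≤ ‖-(X (w * t ^ m) - X w)‖ + ‖(X (w * t ^ m) - X (z * t ^ m)) + (X (z * t ^ m) - X z)‖ :=
        norm_add_le _ _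
    _ ≤ ‖X (w * t ^ m) - X w‖ + (‖X (w * t ^ m) - X (z * t ^ m)‖ + ‖X (z * t ^ m) - X z‖) := by
        rw [norm_neg]
        gcongr
        exact norm_add_le _ _
    _ ≤ m * B + (B + m * B) := by
        refine add_le_add (h2.trans ?_) (add_le_add (h3.trans hb2) (h1.trans ?_))
        · exact mul_le_mul_of_nonneg_left hb1 hm
        · exact mul_le_mul_of_nonneg_left hb1 hm
    _ = _ := by ring

/-- `z` and `w` merge along `t` (at the top or at the bottom) -/
def Mv (l : S → ℝ) (t : S) (m : ℕ) (d : ℝ) (z w : S) : Prop :=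
  l ((z * t ^ m)⁻¹ * (w * t ^ m)) ≤ d ∨ l ((z * t⁻¹ ^ m)⁻¹ * (w * t⁻¹ ^ m)) ≤ d

/-- Class 1 property: the height is maximal at the top. -/
structure Up (h : S → ℝ) (t : S) (m : ℕ) (err s1 : ℝ) (z : S) : Prop where
  up : ∀ j ≤ m, h (z * t ^ j) ≤ h (z * t ^ m) + err
  down : ∀ j ≤ m, h (z * t⁻¹ ^ j) ≤ h (z * t ^ m) + err
  slope : |h (z * t ^ m) - h (z * t⁻¹ ^ m) - s1| ≤ err

theorem Up.mv (c : Coord l h X A L) {t : S} {m : ℕ} {err s1 d : ℝ} {z w : S}
    (hz : Up h t m err s1 z) (hw : Up h t m err s1 w) (hd0 : 0 ≤ d) (hm : Mv l t m d z w) :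
    |h (w * t ^ m) - h (z * t ^ m)| ≤ L * d + 2 * err := by
  have he : 0 ≤ err := (abs_nonneg _).trans hz.slope
  rcases hm with hm | hm
  · refine (c.lip' _ _).trans ?_
    have := mul_le_mul_of_nonneg_left hm c.L0
    linarith
  · have h1 := (c.lip' (z * t⁻¹ ^ m) (w * t⁻¹ ^ m)).trans (mul_le_mul_of_nonneg_left hm c.L0)
    have h2 := hz.slope
    have h3 := hw.slope
    rw [abs_le] at h1 h2 h3 ⊢
    constructor <;> linarith [h1.1, h1.2, h2.1, h2.2, h3.1, h3.2]

theorem Up.close (c : Coord l h X A L) {t : S} {m : ℕ} {err s1 d lt : ℝ} {z w : S}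
    (hlt : l t ≤ lt) (hlt' : l t⁻¹ ≤ lt)
    (hz : Up h t m err s1 z) (hw : Up h t m err s1 w) (hd0 : 0 ≤ d) (hm : Mv l t m d z w) :
    ‖X w - X z‖ ≤ (2 * m + 1) * (A * (1 + d + lt) *
      exp (h (z * t ^ m) + (L * d + 2 * err) + err + L * (d + lt))) := by
  have h0 := hz.mv c hw hd0 hm
  rw [abs_le] at h0
  have he : 0 ≤ err := (abs_nonneg _).trans hz.slope
  have hLd : 0 ≤ L * d := mul_nonneg c.L0 hd0
  rcases hm with hm | hm
  · refine c.merge z w t hlt hd0 m (fun j hj => ?_) (fun j hj => ?_) hm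
    · have := hz.up j hj; linarith
    · have := hw.up j hj; linarith [h0.2]
  · refine c.merge z w t⁻¹ hlt' hd0 m (fun j hj => ?_) (fun j hj => ?_) hm
    · have := hz.down j hj; linarith
    · have := hw.down j hj; linarith [h0.2]

/-- `w` is joined to `y` by `n` moves inside `Γ` -/
def Join (l : S → ℝ) (t : S) (m : ℕ) (d : ℝ) (Γ : Set S) (n : ℕ) (w y : S) : Prop :=
  ∃ p : ℕ → S, p 0 = w ∧ p n = y ∧ (∀ j ≤ n, p j ∈ Γ) ∧ ∀ j < n, Mv l t m d (p j) (p (j + 1))

theorem Join.close (c : Coord l h X A L) {t : S} {m : ℕ} {err s1 d lt : ℝ} {Γ : Set S}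
    (hlt : l t ≤ lt) (hlt' : l t⁻¹ ≤ lt) (hd0 : 0 ≤ d) (he : 0 ≤ err)
    (hΓ : ∀ z ∈ Γ, Up h t m err s1 z) {n : ℕ} {w y : S} (hj : Join l t m d Γ n w y) :
    ‖X y - X w‖ ≤ n * ((2 * m + 1) * (A * (1 + d + lt) *
      exp (h (w * t ^ m) + (n + 1) * (L * d + 2 * err) + err + L * (d + lt)))) := by
  obtain ⟨p, h0, hn, hp, hmv⟩ := hj
  subst h0
  set e1 := L * d + 2 * err with he1
  have hLd : 0 ≤ L * d := mul_nonneg c.L0 hd0
  have he10 : 0 ≤ e1 := by rw [he1]; linarith
  have hlt0 : 0 ≤ lt := (c.l0 t).trans hlt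
  -- heights of the tops
  have htop : ∀ j ≤ n, h (p j * t ^ m) ≤ h (p 0 * t ^ m) + j * e1 := by
    intro j
    induction j with
    | zero => intro _; simp
    | succ j ih =>
      intro hj
      have h1 := ih (by omega)
      have h2 := (hΓ _ (hp j (by omega))).mv c (hΓ _ (hp (j + 1) hj)) hd0 (hmv j (by omega))
      rw [abs_le] at h2
      push_cast
      linarith [h2.2]
  set B := (2 * (m : ℝ) + 1) * (A * (1 + d + lt) *
      exp (h (p 0 * t ^ m) + (n + 1) * e1 + err + L * (d + lt))) with hB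
  have hstep : ∀ j < n, ‖X (p (j + 1)) - X (p j)‖ ≤ B := by
    intro j hj
    have h1 := (hΓ _ (hp j (by omega))).close c hlt hlt' (hΓ _ (hp (j + 1) (by omega))) hd0
      (hmv j hj)
    refine h1.trans ?_
    rw [hB]
    have hA := c.A0
    have h2 := htop j (by omega)
    have h3 : (j : ℝ) + 1 ≤ n := by exact_mod_cast hj
    have h4 : (j : ℝ) * e1 + e1 ≤ (n + 1) * e1 := by nlinarith
    gcongr (2 * (m : ℝ) + 1) * (A * (1 + d + lt) * exp ?_)
    linarith
  have hsum : ∀ j ≤ n, ‖X (p j) - X (p 0)‖ ≤ j * B := by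
    intro j
    induction j with
    | zero => intro _; simp
    | succ j ih =>
      intro hj
      have h1 := ih (by omega)
      have h2 := hstep j (by omega)
      calc ‖X (p (j + 1)) - X (p 0)‖ = ‖(X (p (j + 1)) - X (p j)) + (X (p j) - X (p 0))‖ := by
            ring_nf
        _ ≤ _ := norm_add_le _ _
        _ ≤ B + j * B := add_le_add h2 h1
        _ = _ := by push_cast; ring
  rw [← hn]
  exact hsum n le_rfl

end Vale.Agent.P188.H616
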