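import Mathlib

section

/-!
# P188, D-block (616 v2): LC and STRAIGHT

* `LData.sigma_eq`, `LData.sigma_eq_list`: deterministic comparison of labels of two nearby points.
* `markov_count`: Markov inequality for a finite family of arbitrary sets.
* `LData.mu_sigma_ne_le`: measure form of LC.
* `straight_det`, `mu_straight_le`: straightness of `f` along finite paths.
-/

noncomputable section

namespace Vale.P188.H654

open MeasureTheory Finset
open scoped ENNReal

/-- Data for the comparison of labels.  `t v` are the translations in the directions `v`,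
`β b` the target functionals, `P v s` the set of `b` which grow in direction `v` at a point with
label `s`. -/
structure LData (S V Φ Lab Dir : Type*) [Group S] [NormedAddCommGroup V] where
  t : Dir → S
  neg : Dir → Dir
  t_neg : ∀ v, t (neg v) = (t v)⁻¹
  β : Φ → V → ℝ
  B : ℝ
  B_nonneg : 0 ≤ B
  lipβ : ∀ b x y, |β b x - β b y| ≤ B * ‖x - y‖
  P : Dir → Lab → Set Φ
  P_neg : ∀ v s, P (neg v) s = (P v s)ᶜ
  P_inj : ∀ s s', (∀ v, P v s = P v s') → s = s'
  f : S → V
  l : S → ℝ
  L : ℝ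
  L_nonneg : 0 ≤ L
  lipf : ∀ z g, ‖f (z * g) - f z‖ ≤ L * l g

namespace LData

variable {S V Φ Lab Dir : Type*} [Group S] [NormedAddCommGroup V] (Δ : LData S V Φ Lab Dir)
variable (σ : S → Lab) (J : ℕ) (m d : ℝ)

/-- at `z` every `β b ∘ f` moves by at least `m`, in the sense given by the label of `z`, along
`J` steps in direction `v`. -/
def Mg (z : S) (v : Dir) : Prop :=
  ∀ b, (b ∈ Δ.P v (σ z) → m ≤ Δ.β b (Δ.f (z * Δ.t v ^ J)) - Δ.β b (Δ.f z)) ∧
    (b ∉ Δ.P v (σ z) → Δ.β b (Δ.f (z * Δ.t v ^ J)) - Δ.β b (Δ.f z) ≤ -m)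

/-- all directions -/
def Good (z : S) : Prop := ∀ v, Δ.Mg σ J m z v

variable {Δ σ J m d}

end LData

/-! ### measure part -/

variable {S : Type*} [Group S] [MeasurableSpace S]

/-- right translations do not increase the (outer) measure of any set -/
def RI (μ : Measure S) : Prop := ∀ (g : S) (A : Set S), μ ((fun z => z * g) ⁻¹' A) ≤ μ A

theorem RI.of_measurable (μ : Measure S)
    (h : ∀ (g : S) (A : Set S), MeasurableSet A → μ ((fun z => z * g) ⁻¹' A) = μ A) : RI μ := by
  intro g A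
  calc μ ((fun z => z * g) ⁻¹' A) ≤ μ ((fun z => z * g) ⁻¹' toMeasurable μ A) :=
        measure_mono (Set.preimage_mono (subset_toMeasurable μ A))
    _ = μ (toMeasurable μ A) := h g _ (measurableSet_toMeasurable μ A)
    _ = μ A := measure_toMeasurable A

open Classical in
/-- Markov inequality for a finite family of arbitrary sets. -/
theorem markov_count {X : Type*} [MeasurableSpace X] (μ : Measure X) {I : Type*} (s : Finset I)
    (A : I → Set X) (c : ℕ) :
    (c : ℝ≥0∞) * μ {z | c ≤ (s.filter fun i => z ∈ A i).card} ≤ ∑ i ∈ s, μ (A i) := by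
  set F : X → ℝ≥0∞ := fun z => ∑ i ∈ s, (toMeasurable μ (A i)).indicator (fun _ => 1) z with hF
  have hFm : Measurable F :=
    Finset.measurable_sum s fun i _ => measurable_const.indicator (measurableSet_toMeasurable _ _)
  have h1 : {z | c ≤ (s.filter fun i => z ∈ A i).card} ⊆ {z | (c : ℝ≥0∞) ≤ F z} := by
    intro z hz
    simp only [Set.mem_ofPred_eq] at hz ⊢
    calc (c : ℝ≥0∞) ≤ ((s.filter fun i => z ∈ A i).card : ℝ≥0∞) := by exact_mod_cast hz
      _ = ∑ i ∈ s, (if z ∈ A i then 1 else 0 : ℝ≥0∞) := by simp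
      _ ≤ F z := by
        refine Finset.sum_le_sum fun i _ => ?_
        split_ifs with h
        · rw [Set.indicator_of_mem (subset_toMeasurable μ _ h)]
        · exact zero_le
  calc (c : ℝ≥0∞) * μ {z | c ≤ (s.filter fun i => z ∈ A i).card}
      ≤ c * μ {z | (c : ℝ≥0∞) ≤ F z} := mul_le_mul_right (measure_mono h1) _
    _ ≤ ∫⁻ z, F z ∂μ := mul_meas_ge_le_lintegral hFm _
    _ = ∑ i ∈ s, μ (A i) := by
        rw [hF, lintegral_finsetSum]
        · refine Finset.sum_congr rfl fun i _ => ?_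
          rw [lintegral_indicator_const (measurableSet_toMeasurable _ _), one_mul,
            measure_toMeasurable]
        · exact fun i _ => measurable_const.indicator (measurableSet_toMeasurable _ _)

/-- union bound over prefixes -/
theorem mu_prefix_le {μ : Measure S} (hμ : RI μ) {D Dp G : Set S} {n : ℕ} (w : ℕ → S)
    (hD : ∀ i ≤ n, ∀ z ∈ D, z * w i ∈ Dp) {e : ℝ≥0∞} (he : μ (Dp \ G) ≤ e) :
    μ {z ∈ D | ∃ i ≤ n, z * w i ∉ G} ≤ (n + 1) * e := by
  have h1 : {z ∈ D | ∃ i ≤ n, z * w i ∉ G}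
      ⊆ ⋃ i ∈ Finset.range (n + 1), (fun z => z * w i) ⁻¹' (Dp \ G) := by
    rintro z ⟨hz, i, hi, hG⟩
    simp only [Set.mem_iUnion, Finset.mem_range]
    exact ⟨i, Nat.lt_succ_of_le hi, hD i hi z hz, hG⟩
  calc μ {z ∈ D | ∃ i ≤ n, z * w i ∉ G}
      ≤ μ (⋃ i ∈ Finset.range (n + 1), (fun z => z * w i) ⁻¹' (Dp \ G)) := measure_mono h1
    _ ≤ ∑ i ∈ Finset.range (n + 1), μ ((fun z => z * w i) ⁻¹' (Dp \ G)) :=
        measure_biUnion_finset_le _ _
    _ ≤ ∑ _i ∈ Finset.range (n + 1), e :=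
        Finset.sum_le_sum fun i _ => (hμ _ _).trans he
    _ = (n + 1) * e := by simp

/-! ### STRAIGHT -/

omit [MeasurableSpace S] in
open Classical in
/-- **STRAIGHT**, deterministic form. -/
theorem straight_det {V H Lab : Type*} [NormedAddCommGroup V] [AddCommGroup H]
    (f : S → V) (θ : S → H) (hθ : ∀ x y, θ (x * y) = θ x + θ y) (hθ1 : θ 1 = 0)
    (T : Lab → H →+ V) (σ : S → Lab) (D0 : Set S) (l : S → ℝ) (L K ρ ε1 : ℝ)
    (hf : ∀ z g, ‖f (z * g) - f z‖ ≤ L * l g) (hT : ∀ s g, ‖T s (θ g)‖ ≤ K * l g)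
    (hL : 0 ≤ L) (hK : 0 ≤ K)
    (lin : ∀ x u, x ∈ D0 → x * u ∈ D0 → l u ≤ ρ → ‖f (x * u) - f x - T (σ x) (θ u)‖ ≤ ε1)
    (w : ℕ → S) (hw0 : w 0 = 1) (hw : ∀ i, l ((w i)⁻¹ * w (i + 1)) ≤ ρ) (z : S) (N : ℕ)
    (hε1 : 0 ≤ ε1) :
    ‖f (z * w N) - f z - T (σ z) (θ (w N))‖ ≤ N * ε1 + (L + K) * ρ *
      (((Finset.range N).filter fun i => z * w i ∉ D0 ∨ z * w (i + 1) ∉ D0 ∨
        σ (z * w i) ≠ σ z).card : ℕ) := by
  induction N with
  | zero => simp [hw0, hθ1]
  | succ N ih =>
    set u : S := (w N)⁻¹ * w (N + 1) with hu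
    have e1 : w (N + 1) = w N * u := by rw [hu]; group
    have e2 : f (z * w (N + 1)) - f z - T (σ z) (θ (w (N + 1)))
        = (f (z * w N) - f z - T (σ z) (θ (w N))) +
          (f (z * w N * u) - f (z * w N) - T (σ z) (θ u)) := by
      rw [e1, hθ, map_add, ← mul_assoc]; abel
    have hul : l u ≤ ρ := hw N
    have hbad : ‖f (z * w N * u) - f (z * w N) - T (σ z) (θ u)‖ ≤ (L + K) * ρ := by
      calc ‖f (z * w N * u) - f (z * w N) - T (σ z) (θ u)‖
          ≤ ‖f (z * w N * u) - f (z * w N)‖ + ‖T (σ z) (θ u)‖ := norm_sub_le _ _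
        _ ≤ L * l u + K * l u := add_le_add (hf _ _) (hT _ _)
        _ ≤ L * ρ + K * ρ := add_le_add (mul_le_mul_of_nonneg_left hul hL)
            (mul_le_mul_of_nonneg_left hul hK)
        _ = (L + K) * ρ := by ring
    rw [Finset.range_add_one, Finset.filter_insert]
    by_cases hb : z * w N ∉ D0 ∨ z * w (N + 1) ∉ D0 ∨ σ (z * w N) ≠ σ z
    · rw [if_pos hb, Finset.card_insert_of_notMem (by simp)]
      rw [e2]
      refine (norm_add_le _ _).trans ?_
      push_cast
      have : (0 : ℝ) ≤ ε1 := hε1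
      nlinarith [ih, hbad]
    · rw [if_neg hb]
      push Not at hb
      have h1 := lin (z * w N) u hb.1 (by rw [mul_assoc, ← e1]; exact hb.2.1) hul
      rw [hb.2.2] at h1
      rw [e2]
      refine (norm_add_le _ _).trans ?_
      push_cast
      linarith

open Classical in
/-- **STRAIGHT**, measure form.  `A i = {z ∈ D | z * w i ∉ D0}` and
`B i = {z ∈ D | σ (z * w i) ≠ σ z}` have measure at most `e`; then off a set of measure at most
`4 e / δ` one has straightness with error `N ε1 + (L + K) ρ (δ N + 1)`. -/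
theorem mu_straight_le {V H Lab : Type*} [NormedAddCommGroup V] [AddCommGroup H]
    {μ : Measure S} (D : Set S)
    (f : S → V) (θ : S → H) (hθ : ∀ x y, θ (x * y) = θ x + θ y) (hθ1 : θ 1 = 0)
    (T : Lab → H →+ V) (σ : S → Lab) (D0 : Set S) (l : S → ℝ) (L K ρ ε1 : ℝ)
    (hf : ∀ z g, ‖f (z * g) - f z‖ ≤ L * l g) (hT : ∀ s g, ‖T s (θ g)‖ ≤ K * l g)
    (hL : 0 ≤ L) (hK : 0 ≤ K) (hρ : 0 ≤ ρ)
    (lin : ∀ x u, x ∈ D0 → x * u ∈ D0 → l u ≤ ρ → ‖f (x * u) - f x - T (σ x) (θ u)‖ ≤ ε1)
    (hε1 : 0 ≤ ε1) (w : ℕ → S) (hw0 : w 0 = 1) (hw : ∀ i, l ((w i)⁻¹ * w (i + 1)) ≤ ρ)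
    (N : ℕ) (e : ℝ≥0∞)
    (hA : ∀ i ≤ N, μ {z ∈ D | z * w i ∉ D0} ≤ e)
    (hB : ∀ i ≤ N, μ {z ∈ D | σ (z * w i) ≠ σ z} ≤ e) (M : ℕ) :
    (M : ℝ≥0∞) * μ {z ∈ D | ∃ n ≤ N,
        n * ε1 + (L + K) * ρ * M < ‖f (z * w n) - f z - T (σ z) (θ (w n))‖}
      ≤ 3 * N * e := by
  set A : ℕ → Set S := fun i => {z ∈ D | z * w i ∉ D0 ∨ z * w (i + 1) ∉ D0 ∨
        σ (z * w i) ≠ σ z} with hAdef
  have hm := markov_count μ (Finset.range N) A M
  have hsum : ∑ i ∈ Finset.range N, μ (A i) ≤ ∑ _i ∈ Finset.range N, 3 * e := by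
    refine Finset.sum_le_sum fun i hi => ?_
    rw [Finset.mem_range] at hi
    have hsub : A i ⊆ {z ∈ D | z * w i ∉ D0} ∪ ({z ∈ D | z * w (i + 1) ∉ D0} ∪
        {z ∈ D | σ (z * w i) ≠ σ z}) := by
      rintro z ⟨hz, h | h | h⟩
      · exact Or.inl ⟨hz, h⟩
      · exact Or.inr (Or.inl ⟨hz, h⟩)
      · exact Or.inr (Or.inr ⟨hz, h⟩)
    calc μ (A i) ≤ μ _ := measure_mono hsub
      _ ≤ μ {z ∈ D | z * w i ∉ D0} + (μ {z ∈ D | z * w (i + 1) ∉ D0} +
        μ {z ∈ D | σ (z * w i) ≠ σ z}) :=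
          (measure_union_le _ _).trans (add_le_add le_rfl (measure_union_le _ _))
      _ ≤ e + (e + e) := add_le_add (hA i hi.le) (add_le_add (hA (i + 1) hi) (hB i hi.le))
      _ = 3 * e := by ring
  rw [Finset.sum_const, Finset.card_range, nsmul_eq_mul] at hsum
  have hsub : {z ∈ D | ∃ n ≤ N,
        n * ε1 + (L + K) * ρ * M < ‖f (z * w n) - f z - T (σ z) (θ (w n))‖}
      ⊆ {z | M ≤ ((Finset.range N).filter fun i => z ∈ A i).card} := by
    rintro z ⟨hz, n, hn, h⟩
    simp only [Set.mem_ofPred_eq]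
    have hdet := straight_det f θ hθ hθ1 T σ D0 l L K ρ ε1 hf hT hL hK lin w hw0 hw z n hε1
    have hlt : (L + K) * ρ * M < (L + K) * ρ *
      (((Finset.range n).filter fun i => z * w i ∉ D0 ∨ z * w (i + 1) ∉ D0 ∨
        σ (z * w i) ≠ σ z).card : ℕ) := by linarith
    have hpos : 0 ≤ (L + K) * ρ := mul_nonneg (add_nonneg hL hK) hρ
    have hlt2 := lt_of_mul_lt_mul_left hlt hpos
    have hlt3 : M < ((Finset.range n).filter fun i => z * w i ∉ D0 ∨ z * w (i + 1) ∉ D0 ∨
        σ (z * w i) ≠ σ z).card := by exact_mod_cast hlt2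
    refine hlt3.le.trans (Finset.card_le_card ?_)
    intro i hi
    rw [Finset.mem_filter, Finset.mem_range] at hi ⊢
    exact ⟨lt_of_lt_of_le hi.1 hn, hz, hi.2⟩
  calc (M : ℝ≥0∞) * μ {z ∈ D | ∃ n ≤ N,
        n * ε1 + (L + K) * ρ * M < ‖f (z * w n) - f z - T (σ z) (θ (w n))‖}
      ≤ M * μ {z | M ≤ ((Finset.range N).filter fun i => z ∈ A i).card} :=
        mul_le_mul_right (measure_mono hsub) _
    _ ≤ N * (3 * e) := by
        refine le_trans ?_ (hm.trans hsum)
        apply le_of_eq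
        congr!
    _ = 3 * N * e := by ring

end Vale.P188.H654

end

end

section

/-!
Lie-Kolchin-Malcev: a solvable group all of whose subgroups are finitely generated, acting on a
finite dimensional complex vector space, has a finite index subgroup preserving a full flag, acting
by scalars on the successive quotients.
-/

universe u v

namespace Vale.Agent.P188.H754

open Module
open scoped commutatorElement

/-! ### finite index from finite range -/

theorem finiteIndex_of_finite_range {Γ : Type u} {X : Type v} [Group Γ] (H : Subgroup Γ)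
    (f : Γ → X) (hf : (Set.range f).Finite) (h : ∀ a b, f a = f b → a⁻¹ * b ∈ H) :
    H.FiniteIndex := by
  have : Finite (Set.range f) := hf
  have inj : Function.Injective (fun q : Γ ⧸ H => (⟨f q.out, ⟨_, rfl⟩⟩ : Set.range f)) := by
    intro q q' hq
    have h1 : f q.out = f q'.out := congrArg Subtype.val hq
    have h2 := h _ _ h1
    have h3 : (q.out : Γ ⧸ H) = (q'.out : Γ ⧸ H) := QuotientGroup.eq.2 h2
    simpa using h3
  have : Finite (Γ ⧸ H) := Finite.of_injective _ inj
  exact Subgroup.finiteIndex_of_finite_quotient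

/-! ### representations as homomorphisms to `End` -/

section rep

variable {Γ : Type u} [Group Γ] {V : Type v} [AddCommGroup V] [Module ℂ V]
  (ρ : Γ →* Module.End ℂ V)

theorem ρ_inv_mul (g : Γ) : ρ g⁻¹ * ρ g = 1 := by rw [← map_mul]; simp

theorem ρ_mul_inv (g : Γ) : ρ g * ρ g⁻¹ = 1 := by rw [← map_mul]; simp

theorem ρ_inv_apply (g : Γ) (x : V) : ρ g⁻¹ (ρ g x) = x := by
  have := congrArg (fun A : Module.End ℂ V => A x) (ρ_inv_mul ρ g)
  simpa using this

theorem ρ_apply_inv (g : Γ) (x : V) : ρ g (ρ g⁻¹ x) = x := by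
  have := congrArg (fun A : Module.End ℂ V => A x) (ρ_mul_inv ρ g)
  simpa using this

/-- no proper nonzero subspace is invariant under a finite index subgroup -/
def StrongIrr : Prop :=
  ∀ H : Subgroup Γ, H.FiniteIndex → ∀ W : Submodule ℂ V, (∀ g ∈ H, ∀ x ∈ W, ρ g x ∈ W) →
    W = ⊥ ∨ W = ⊤

/-- an element acting by a scalar -/
def Scal (g : Γ) : Prop := ∃ c : ℂ, ρ g = c • (1 : Module.End ℂ V)

variable [FiniteDimensional ℂ V]

/-- A commuting family has a common eigenvector. -/
theorem exists_common_eigenvector [Nontrivial V] {ι : Type*} (f : ι → Module.End ℂ V)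
    (hf : ∀ i j, Commute (f i) (f j)) :
    ∃ χ : ι → ℂ, ∃ x : V, x ≠ 0 ∧ ∀ i, f i x = χ i • x := by
  generalize hn : finrank ℂ V = n
  induction n using Nat.strong_induction_on generalizing V with
  | _ n ih =>
  by_cases hs : ∀ i, ∃ c : ℂ, f i = c • (1 : Module.End ℂ V)
  · choose χ hχ using hs
    obtain ⟨x, hx⟩ := exists_ne (0 : V)
    exact ⟨χ, x, hx, fun i => by rw [hχ i]; simp⟩
  · push Not at hs
    obtain ⟨i, hi⟩ := hs
    obtain ⟨c, hc⟩ := Module.End.exists_eigenvalue (f i)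
    set W := (f i).eigenspace c with hW
    have hWne : W ≠ ⊥ := hc
    have hWlt : W ≠ ⊤ := by
      intro hT
      apply hi c
      ext x
      have : x ∈ W := by rw [hT]; trivial
      rw [hW, Module.End.mem_eigenspace_iff] at this
      simpa using this
    have hmaps : ∀ j, ∀ x ∈ W, f j x ∈ W := by
      intro j x hx
      rw [hW, Module.End.mem_eigenspace_iff] at hx ⊢
      have := congrArg (fun A : Module.End ℂ V => A x) (hf i j).eq
      simp only [Module.End.mul_apply] at this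
      rw [this, hx, map_smul]
    have : Nontrivial W := Submodule.nontrivial_iff_ne_bot.2 hWne
    have hlt : finrank ℂ W < n := hn ▸ Submodule.finrank_lt hWlt
    obtain ⟨χ, x, hx0, hx⟩ := ih _ hlt (V := W) (fun j => (f j).restrict (hmaps j))
      (by
        intro a b
        ext x
        have := congrArg (fun A : Module.End ℂ V => A x) (hf a b).eq
        simpa using this) rfl
    refine ⟨χ, x, by simpa using hx0, fun j => ?_⟩
    have := congrArg Subtype.val (hx j)
    simpa using this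

/-- Lemma A: a normal subgroup with commutative image acts by scalars, if the representation is
strongly irreducible. -/
theorem scal_of_comm [Nontrivial V] (hirr : StrongIrr ρ) (N : Subgroup Γ) [N.Normal]
    (hN : ∀ a ∈ N, ∀ b ∈ N, Commute (ρ a) (ρ b)) : ∀ a ∈ N, Scal ρ a := by
  classical
  let f : N → Module.End ℂ V := fun a => ρ a
  have hf : ∀ i j, Commute (f i) (f j) := fun i j => hN _ i.2 _ j.2
  obtain ⟨χ₀, x₀, hx₀, hχ₀⟩ := exists_common_eigenvector f hf
  have hind : iSupIndep fun χ : N → ℂ ↦ ⨅ i, (f i).maxGenEigenspace (χ i) :=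
    Module.End.independent_iInf_maxGenEigenspace_of_forall_mapsTo f
      (fun i j φ => Module.End.mapsTo_maxGenEigenspace_of_comm (hf j i) φ)
  let E : (N → ℂ) → Submodule ℂ V := fun χ => ⨅ i, (f i).eigenspace (χ i)
  have hEle : ∀ χ, E χ ≤ ⨅ i, (f i).maxGenEigenspace (χ i) := fun χ =>
    iInf_mono fun i => Module.End.eigenspace_le_maxGenEigenspace
  have hEind : iSupIndep E := hind.mono hEle
  have hfin : {χ : N → ℂ | E χ ≠ ⊥}.Finite := WellFoundedGT.finite_ne_bot_of_iSupIndep hEind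
  have hmemE : ∀ χ x, x ∈ E χ ↔ ∀ i, f i x = χ i • x := by
    intro χ x
    simp [E, Submodule.mem_iInf, Module.End.mem_eigenspace_iff]
  -- conjugation of characters
  let cj : Γ → N → ℂ := fun g n => χ₀ (MulAut.conjNormal g⁻¹ n)
  have hcj : ∀ g, ∀ x ∈ E χ₀, ρ g x ∈ E (cj g) := by
    intro g x hx
    rw [hmemE] at hx ⊢
    intro n
    have h1 := hx (MulAut.conjNormal g⁻¹ n)
    have h2 : f (MulAut.conjNormal g⁻¹ n) = ρ g⁻¹ * ρ n * ρ g := by
      simp only [f, MulAut.conjNormal_apply, inv_inv]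
      rw [map_mul, map_mul]
    rw [h2] at h1
    simp only [Module.End.mul_apply] at h1
    have h3 := congrArg (ρ g) h1
    rw [ρ_apply_inv, map_smul] at h3
    exact h3
  have hmem₀ : x₀ ∈ E χ₀ := (hmemE _ _).2 hχ₀
  have hrange : (Set.range cj).Finite := by
    refine hfin.subset ?_
    rintro _ ⟨g, rfl⟩ hbot
    have := hcj g _ hmem₀
    rw [hbot, Submodule.mem_bot] at this
    apply hx₀
    rw [← ρ_inv_apply ρ g x₀, this, map_zero]
  let H : Subgroup Γ :=
    { carrier := {g | ∀ n : N, χ₀ (MulAut.conjNormal g⁻¹ n) = χ₀ n}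
      one_mem' := by intro n; simp
      mul_mem' := by
        intro a b ha hb n
        have : (MulAut.conjNormal (a * b)⁻¹ n : N)
            = MulAut.conjNormal b⁻¹ (MulAut.conjNormal a⁻¹ n) := by
          rw [mul_inv_rev, map_mul]; rfl
        rw [this, hb, ha]
      inv_mem' := by
        intro a ha n
        have := ha (MulAut.conjNormal a n)
        rw [inv_inv, ← this]
        congr 1
        rw [← MulAut.mul_apply, ← map_mul]; simp }
  have hH : H.FiniteIndex := by
    refine finiteIndex_of_finite_range H cj hrange ?_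
    intro a b hab n
    have h1 := congrFun hab (MulAut.conjNormal a n)
    simp only [cj] at h1
    rw [← MulAut.mul_apply, ← map_mul, inv_mul_cancel, map_one, MulAut.one_apply,
      ← MulAut.mul_apply, ← map_mul] at h1
    rw [mul_inv_rev, inv_inv]
    exact h1.symm
  have hEinv : ∀ g ∈ H, ∀ x ∈ E χ₀, ρ g x ∈ E χ₀ := by
    intro g hg x hx
    have h1 := hcj g x hx
    have h2 : cj g = χ₀ := funext fun n => hg n
    rwa [h2] at h1
  have htop : E χ₀ = ⊤ := by
    rcases hirr H hH (E χ₀) hEinv with h | h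
    · rw [h, Submodule.mem_bot] at hmem₀; exact absurd hmem₀ hx₀
    · exact h
  intro a ha
  refine ⟨χ₀ ⟨a, ha⟩, ?_⟩
  ext x
  have : x ∈ E χ₀ := by rw [htop]; trivial
  have := (hmemE _ _).1 this ⟨a, ha⟩
  simpa [f] using this

/-- An element with finitely many conjugates in the image acts by a scalar. -/
theorem scal_of_finite_orbit [Nontrivial V] (hirr : StrongIrr ρ) (c : Γ)
    (hfin : (Set.range fun g => ρ (g * c * g⁻¹)).Finite) : Scal ρ c := by
  let H : Subgroup Γ :=
    { carrier := {g | ρ g * ρ c = ρ c * ρ g}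
      one_mem' := by simp
      mul_mem' := by
        intro a b ha hb
        simp only [Set.mem_setOf_eq] at ha hb ⊢
        rw [map_mul, mul_assoc, hb, ← mul_assoc, ha, mul_assoc]
      inv_mem' := by
        intro a ha
        simp only [Set.mem_setOf_eq] at ha ⊢
        calc ρ a⁻¹ * ρ c = ρ a⁻¹ * ρ c * (ρ a * ρ a⁻¹) := by rw [ρ_mul_inv, mul_one]
          _ = ρ a⁻¹ * (ρ c * ρ a) * ρ a⁻¹ := by simp only [mul_assoc]
          _ = ρ a⁻¹ * (ρ a * ρ c) * ρ a⁻¹ := by rw [ha]
          _ = (ρ a⁻¹ * ρ a) * ρ c * ρ a⁻¹ := by simp only [mul_assoc]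
          _ = ρ c * ρ a⁻¹ := by rw [ρ_inv_mul, one_mul] }
  have hH : H.FiniteIndex := by
    refine finiteIndex_of_finite_range H _ hfin ?_
    intro a b hab
    simp only [map_mul] at hab
    change ρ (a⁻¹ * b) * ρ c = ρ c * ρ (a⁻¹ * b)
    rw [map_mul]
    calc ρ a⁻¹ * ρ b * ρ c = ρ a⁻¹ * (ρ b * ρ c * ρ b⁻¹) * ρ b := by
          simp only [mul_assoc]; rw [ρ_inv_mul, mul_one]
      _ = ρ a⁻¹ * (ρ a * ρ c * ρ a⁻¹) * ρ b := by rw [hab]
      _ = (ρ a⁻¹ * ρ a) * ρ c * (ρ a⁻¹ * ρ b) := by simp only [mul_assoc]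
      _ = ρ c * (ρ a⁻¹ * ρ b) := by rw [ρ_inv_mul, one_mul]
  obtain ⟨μ, hμ⟩ := Module.End.exists_eigenvalue (ρ c)
  have hinv : ∀ g ∈ H, ∀ x ∈ (ρ c).eigenspace μ, ρ g x ∈ (ρ c).eigenspace μ := by
    intro g hg x hx
    rw [Module.End.mem_eigenspace_iff] at hx ⊢
    have h1 : ρ g * ρ c = ρ c * ρ g := hg
    have := congrArg (fun A : Module.End ℂ V => A x) h1
    simp only [Module.End.mul_apply] at this
    rw [← this, hx, map_smul]
  rcases hirr H hH _ hinv with h | h
  · exact absurd h hμ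
  · refine ⟨μ, ?_⟩
    ext x
    have : x ∈ (ρ c).eigenspace μ := by rw [h]; trivial
    rw [Module.End.mem_eigenspace_iff] at this
    simpa using this

theorem det_ne_zero (g : Γ) : LinearMap.det (ρ g) ≠ 0 := by
  intro h
  have h1 := congrArg LinearMap.det (ρ_mul_inv ρ g)
  rw [map_mul, h, zero_mul, map_one] at h1
  exact zero_ne_one h1

theorem det_comm (g h : Γ) : LinearMap.det (ρ (g * h * g⁻¹)) = LinearMap.det (ρ h) := by
  rw [map_mul, map_mul, map_mul, map_mul]
  have h1 := congrArg LinearMap.det (ρ_mul_inv ρ g)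
  rw [map_mul, map_one] at h1
  calc LinearMap.det (ρ g) * LinearMap.det (ρ h) * LinearMap.det (ρ g⁻¹)
      = LinearMap.det (ρ h) * (LinearMap.det (ρ g) * LinearMap.det (ρ g⁻¹)) := by ring
    _ = LinearMap.det (ρ h) := by rw [h1, mul_one]

omit [FiniteDimensional ℂ V] in
theorem finite_roots {d : ℕ} (hd : 0 < d) (a : ℂ) : {z : ℂ | z ^ d = a}.Finite := by
  refine (Multiset.finite_toSet (Polynomial.nthRoots d a)).subset ?_
  intro z hz
  exact (Polynomial.mem_nthRoots hd).2 hz

/-- Lemma B. -/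
theorem scal_of_commutator [Nontrivial V] (hirr : StrongIrr ρ) (C : Subgroup Γ) [C.Normal]
    (hfg : C.FG) (hC : ∀ a ∈ C, ∀ b ∈ C, Scal ρ ⁅a, b⁆) : ∀ a ∈ C, Scal ρ a := by
  classical
  set d := finrank ℂ V with hd
  have hdpos : 0 < d := finrank_pos
  -- the commutation scalar
  have hlam : ∀ a ∈ C, ∀ b ∈ C, ∃ l : ℂ, l ^ d = 1 ∧ ρ a * ρ b = l • (ρ b * ρ a) := by
    intro a ha b hb
    obtain ⟨l, hl⟩ := hC a ha b hb
    refine ⟨l, ?_, ?_⟩
    · have h1 : LinearMap.det (ρ ⁅a, b⁆) = 1 := by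
        rw [commutatorElement_def, map_mul, map_mul, det_comm ρ a b, ← map_mul,
          ρ_mul_inv, map_one]
      rw [hl, LinearMap.det_smul, map_one, mul_one] at h1
      exact h1
    · have h2 : a * b = ⁅a, b⁆ * (b * a) := by rw [commutatorElement_def]; group
      rw [← map_mul, h2, map_mul, hl, smul_mul_assoc, one_mul, map_mul]
  let D : Subgroup Γ :=
    { carrier := {c | c ∈ C ∧ ∀ b ∈ C, ρ c * ρ b = ρ b * ρ c}
      one_mem' := ⟨C.one_mem, by simp⟩
      mul_mem' := by
        rintro a b ⟨ha, ha'⟩ ⟨hb, hb'⟩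
        refine ⟨C.mul_mem ha hb, fun c hc => ?_⟩
        rw [map_mul, mul_assoc, hb' c hc, ← mul_assoc, ha' c hc, mul_assoc]
      inv_mem' := by
        rintro a ⟨ha, ha'⟩
        refine ⟨C.inv_mem ha, fun c hc => ?_⟩
        calc ρ a⁻¹ * ρ c = ρ a⁻¹ * ρ c * (ρ a * ρ a⁻¹) := by rw [ρ_mul_inv, mul_one]
          _ = ρ a⁻¹ * (ρ c * ρ a) * ρ a⁻¹ := by simp only [mul_assoc]
          _ = ρ a⁻¹ * (ρ a * ρ c) * ρ a⁻¹ := by rw [ha' c hc]
          _ = (ρ a⁻¹ * ρ a) * ρ c * ρ a⁻¹ := by simp only [mul_assoc]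
          _ = ρ c * ρ a⁻¹ := by rw [ρ_inv_mul, one_mul] }
  have hDn : D.Normal := by
    constructor
    rintro a ⟨ha, ha'⟩ g
    refine ⟨Subgroup.Normal.conj_mem inferInstance a ha g, fun b hb => ?_⟩
    have hb1 : g⁻¹ * b * g ∈ C := by
      have := Subgroup.Normal.conj_mem (inferInstance : C.Normal) b hb g⁻¹
      simpa using this
    have h1 := ha' _ hb1
    rw [← map_mul, ← map_mul] at h1 ⊢
    have h2 : g * a * g⁻¹ * b = g * (a * (g⁻¹ * b * g)) * g⁻¹ := by group
    have h3 : b * (g * a * g⁻¹) = g * ((g⁻¹ * b * g) * a) * g⁻¹ := by group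
    rw [h2, h3, map_mul, map_mul, h1, ← map_mul, ← map_mul]
  have hDscal : ∀ a ∈ D, Scal ρ a := scal_of_comm ρ hirr D (fun a ha b hb => ha.2 b hb.1)
  -- the quotient
  have hnorm : (D.subgroupOf C).Normal := inferInstance
  have hfin : Finite (C ⧸ D.subgroupOf C) := by
    have hcomm : ∀ a b : C ⧸ D.subgroupOf C, a * b = b * a := by
      intro a b
      induction a using QuotientGroup.induction_on with | H a => ?_
      induction b using QuotientGroup.induction_on with | H b => ?_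
      rw [← QuotientGroup.mk_mul, ← QuotientGroup.mk_mul, QuotientGroup.eq,
        Subgroup.mem_subgroupOf]
      refine ⟨SetLike.coe_mem _, fun c hc => ?_⟩
      obtain ⟨l, hl⟩ := hC (b : Γ)⁻¹ (C.inv_mem b.2) (a : Γ)⁻¹ (C.inv_mem a.2)
      have h1 : (((a * b)⁻¹ * (b * a) : C) : Γ) = ⁅(b : Γ)⁻¹, (a : Γ)⁻¹⁆ := by
        rw [commutatorElement_def]; push_cast; group
      rw [h1, hl]; simp
    letI : CommGroup (C ⧸ D.subgroupOf C) :=
      { (inferInstance : Group (C ⧸ D.subgroupOf C)) with mul_comm := hcomm }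
    have hfgC : Group.FG C := (Group.fg_iff_subgroup_fg C).2 hfg
    have hfgQ : Group.FG (C ⧸ D.subgroupOf C) := QuotientGroup.fg _
    refine CommGroup.finite_of_fg_isMulTorsion _ ?_
    intro q
    rw [isOfFinOrder_iff_pow_eq_one]
    refine ⟨d, hdpos, ?_⟩
    induction q using QuotientGroup.induction_on with | H a => ?_
    rw [← QuotientGroup.mk_pow, QuotientGroup.eq_one_iff, Subgroup.mem_subgroupOf]
    refine ⟨SetLike.coe_mem _, fun c hc => ?_⟩
    obtain ⟨l, hl1, hl⟩ := hlam a a.2 c hc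
    have h2 : ∀ k : ℕ, ρ a ^ k * ρ c = l ^ k • (ρ c * ρ a ^ k) := by
      intro k
      induction k with
      | zero => simp
      | succ k ih =>
        rw [pow_succ', mul_assoc, ih, mul_smul_comm, ← mul_assoc, hl, smul_mul_assoc, smul_smul,
          ← pow_succ, mul_assoc, ← pow_succ']
    push_cast
    rw [map_pow, h2 d, hl1, one_smul]
  intro c hc
  refine scal_of_finite_orbit ρ hirr c ?_
  have hsub : (Set.range fun g => ρ (g * c * g⁻¹)) ⊆
      ⋃ q : C ⧸ D.subgroupOf C, (fun z : ℂ => z • ρ (q.out : Γ)) ''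
        {z : ℂ | z ^ d = LinearMap.det (ρ c) / LinearMap.det (ρ (q.out : Γ))} := by
    rintro _ ⟨g, rfl⟩
    have hx : g * c * g⁻¹ ∈ C := Subgroup.Normal.conj_mem inferInstance c hc g
    refine Set.mem_iUnion.2 ⟨((⟨g * c * g⁻¹, hx⟩ : C) : C ⧸ D.subgroupOf C), ?_⟩
    set q : C ⧸ D.subgroupOf C := ((⟨g * c * g⁻¹, hx⟩ : C) : C ⧸ D.subgroupOf C) with hq
    have h1 : ((q.out : C) : C ⧸ D.subgroupOf C) = ((⟨g * c * g⁻¹, hx⟩ : C) : C ⧸ _) := by
      rw [← hq]; simp
    rw [QuotientGroup.eq, Subgroup.mem_subgroupOf] at h1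
    obtain ⟨z, hz⟩ := hDscal _ h1
    have h2 : ρ (g * c * g⁻¹) = z • ρ (q.out : Γ) := by
      have h3 : g * c * g⁻¹ = (q.out : Γ) * ((((q.out : C))⁻¹ * ⟨g * c * g⁻¹, hx⟩ : C) : Γ) := by
        push_cast; group
      rw [h3, map_mul, hz, mul_smul_comm, mul_one]
    refine ⟨z, ?_, h2.symm⟩
    have h4 := congrArg LinearMap.det h2
    rw [det_comm, LinearMap.det_smul] at h4
    change z ^ d = _
    rw [h4, mul_div_assoc, div_self (det_ne_zero ρ _), mul_one]
  refine Set.Finite.subset (Set.finite_iUnion fun q => ?_) hsub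
  exact (finite_roots hdpos _).image _

/-- A strongly irreducible representation of a solvable group with all subgroups finitely generated
is by scalars. -/
theorem scal_of_strongIrr [Nontrivial V] (hirr : StrongIrr ρ) (hs : Group.IsSolvable Γ)
    (hfg : ∀ H : Subgroup Γ, H.FG) : ∀ a, Scal ρ a := by
  obtain ⟨n, hn⟩ := hs.solvable
  have key : ∀ i, i ≤ n → ∀ a ∈ derivedSeries Γ (n - i), Scal ρ a := by
    intro i
    induction i with
    | zero =>
      intro _ a ha
      rw [Nat.sub_zero, hn, Subgroup.mem_bot] at ha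
      subst ha
      exact ⟨1, by simp⟩
    | succ i ih =>
      intro hi
      refine scal_of_commutator ρ hirr _ (hfg _) ?_
      intro a ha b hb
      refine ih (by omega) _ ?_
      have : n - i = (n - (i + 1)) + 1 := by omega
      rw [this, derivedSeries_succ]
      exact Subgroup.commutator_mem_commutator ha hb
  intro a
  refine key n le_rfl a ?_
  rw [Nat.sub_self, derivedSeries_zero]; trivial

omit [FiniteDimensional ℂ V] in
/-- A finite index subgroup preserves a full flag, and acts on the quotients by scalars. -/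
def HasFlag : Prop :=
  ∃ Γ1 : Subgroup Γ, Γ1.FiniteIndex ∧ ∃ (F : ℕ → Submodule ℂ V) (m : ℕ), F 0 = ⊥ ∧ F m = ⊤ ∧
    Monotone F ∧ ∀ g ∈ Γ1, ∀ i, ∃ c : ℂ, ∀ x ∈ F (i + 1), ρ g x - c • x ∈ F i

/-- restriction of a representation to an invariant subspace -/
def resRep (H : Subgroup Γ) (W : Submodule ℂ V) (hW : ∀ g ∈ H, ∀ x ∈ W, ρ g x ∈ W) :
    H →* Module.End ℂ W where
  toFun g := (ρ g).restrict (hW g g.2)
  map_one' := by ext x; simp
  map_mul' a b := by ext x; simp

/-- the quotient of a representation by an invariant subspace -/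
def quoRep (H : Subgroup Γ) (W : Submodule ℂ V) (hW : ∀ g ∈ H, ∀ x ∈ W, ρ g x ∈ W) :
    H →* Module.End ℂ (V ⧸ W) where
  toFun g := W.mapQ W (ρ g) (fun x hx => hW g g.2 x hx)
  map_one' := by
    apply Submodule.linearMap_qext
    ext x; simp
  map_mul' a b := by
    apply Submodule.linearMap_qext
    ext x; simp

theorem finiteIndex_map_subtype (H : Subgroup Γ) (K : Subgroup H) (hH : H.FiniteIndex)
    (hK : K.FiniteIndex) : (K.map H.subtype).FiniteIndex := by
  refine ⟨?_⟩
  rw [Subgroup.index_map, Subgroup.ker_subtype, sup_bot_eq, Subgroup.range_subtype]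
  exact mul_ne_zero hK.index_ne_zero hH.index_ne_zero

theorem hasFlag_combine (H : Subgroup Γ) (hH : H.FiniteIndex) (W : Submodule ℂ V)
    (hW : ∀ g ∈ H, ∀ x ∈ W, ρ g x ∈ W) (h1 : HasFlag (resRep ρ H W hW))
    (h2 : HasFlag (quoRep ρ H W hW)) : HasFlag ρ := by
  obtain ⟨Γ1, hΓ1, F, m, hF0, hFm, hFmono, hF⟩ := h1
  obtain ⟨Γ2, hΓ2, E, k, hE0, hEk, hEmono, hE⟩ := h2
  refine ⟨(Γ1 ⊓ Γ2).map H.subtype, finiteIndex_map_subtype H _ hH inferInstance,
    fun i => if i ≤ m then (F i).map W.subtype else (E (i - m)).comap W.mkQ, m + k, ?_, ?_, ?_, ?_⟩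
  · simp [hF0]
  · by_cases hk : k = 0
    · subst hk
      simp only [add_zero, le_refl, if_true, hFm, Submodule.map_top, Submodule.range_subtype]
      have h3 : (E 0).comap W.mkQ = (⊤ : Submodule ℂ (V ⧸ W)).comap W.mkQ := by rw [hEk]
      rw [hE0] at h3
      simpa using h3
    · have : ¬ (m + k ≤ m) := by omega
      simp only [this, if_false]
      have e : m + k - m = k := by omega
      rw [e, hEk, Submodule.comap_top]
  · apply monotone_nat_of_le_succ
    intro i
    by_cases h1 : i + 1 ≤ m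
    · have h2 : i ≤ m := by omega
      simp only [h1, h2, if_true]
      exact Submodule.map_mono (hFmono (Nat.le_succ i))
    · by_cases h2 : i ≤ m
      · simp only [h1, h2, if_true, if_false]
        rintro _ ⟨x, _, rfl⟩
        rw [Submodule.mem_comap]
        have h3 : W.mkQ (W.subtype x) = 0 := by simp
        rw [h3]
        exact zero_mem _
      · simp only [h1, h2, if_false]
        exact Submodule.comap_mono (hEmono (by omega))
  · rintro _ ⟨g, hg, rfl⟩ i
    obtain ⟨hg1, hg2⟩ := hg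
    by_cases h1 : i + 1 ≤ m
    · have h2 : i ≤ m := by omega
      obtain ⟨c, hc⟩ := hF g hg1 i
      refine ⟨c, ?_⟩
      simp only [h1, h2, if_true]
      rintro _ ⟨x, hx, rfl⟩
      exact ⟨_, hc x hx, by simp [resRep]⟩
    · obtain ⟨c, hc⟩ := hE g hg2 (i - m)
      refine ⟨c, ?_⟩
      by_cases h2 : i ≤ m
      · simp only [h1, h2, if_true, if_false]
        have e : m = i := by omega
        subst e
        rw [hFm, Submodule.map_top, Submodule.range_subtype]
        intro x hx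
        rw [Submodule.mem_comap] at hx
        have e2 : m + 1 - m = m - m + 1 := by omega
        rw [e2] at hx
        have h3 := hc _ hx
        rw [Nat.sub_self, hE0, Submodule.mem_bot] at h3
        rw [← Submodule.Quotient.mk_eq_zero]
        simpa [quoRep] using h3
      · simp only [h1, h2, if_false]
        intro x hx
        rw [Submodule.mem_comap] at hx ⊢
        have e2 : i + 1 - m = i - m + 1 := by omega
        rw [e2] at hx
        have h3 := hc _ hx
        simpa [quoRep] using h3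

end rep

/-- **Lie-Kolchin-Malcev.** -/
theorem exists_flag {V : Type v} [AddCommGroup V] [Module ℂ V] [FiniteDimensional ℂ V]
    {Γ : Type u} [Group Γ] (ρ : Γ →* Module.End ℂ V) (hs : Group.IsSolvable Γ)
    (hfg : ∀ H : Subgroup Γ, H.FG) : HasFlag ρ := by
  classical
  generalize hn : finrank ℂ V = n
  induction n using Nat.strong_induction_on generalizing V Γ with
  | _ n ih =>
  rcases subsingleton_or_nontrivial V with hV | hV
  · refine ⟨⊤, inferInstance, fun _ => ⊤, 0, Subsingleton.elim _ _, rfl, fun _ _ _ => le_rfl, ?_⟩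
    intro g _ i
    exact ⟨0, fun x _ => trivial⟩
  by_cases hirr : StrongIrr ρ
  · have hsc := scal_of_strongIrr ρ hirr hs hfg
    refine ⟨⊤, inferInstance, fun i => if i = 0 then ⊥ else ⊤, 1, by simp, by simp, ?_, ?_⟩
    · apply monotone_nat_of_le_succ
      intro i
      simp
    · intro g _ i
      obtain ⟨c, hc⟩ := hsc g
      refine ⟨c, fun x _ => ?_⟩
      rw [hc]; simp
  · unfold StrongIrr at hirr
    push Not at hirr
    obtain ⟨H, hH, W, hW, hW0, hW1⟩ := hirr
    have hsol : Group.IsSolvable H := inferInstance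
    have hfgH : ∀ K : Subgroup H, K.FG := by
      intro K
      have h1 := hfg (K.map H.subtype)
      rw [Subgroup.fg_iff_submonoid_fg] at h1 ⊢
      exact Submonoid.FG.map_injective H.subtype H.subtype_injective h1
    have hlt1 : finrank ℂ W < n := hn ▸ Submodule.finrank_lt hW1
    have hlt2 : finrank ℂ (V ⧸ W) < n := by
      have h1 := Submodule.finrank_quotient_add_finrank W
      have h2 : 0 < finrank ℂ W := by
        have : Nontrivial W := Submodule.nontrivial_iff_ne_bot.2 hW0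
        exact finrank_pos
      omega
    exact hasFlag_combine ρ H hH W hW (ih _ hlt1 (resRep ρ H W hW) hsol hfgH rfl)
      (ih _ hlt2 (quoRep ρ H W hW) hsol hfgH rfl)

end Vale.Agent.P188.H754

end

section

/-!
P188, Gromov-lite: growth of finite sets and the deviation from the identity in an isometric
representation on a finite-dimensional complex inner product space.
-/

open Pointwise

namespace Vale.Agent.P188.H796

universe u v

/-- All finite subsets have polynomial growth of degree at most `D`. -/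
def GrowthLE (G : Type u) [Group G] (D : ℕ) : Prop :=
  ∀ F : Set G, F.Finite → ∃ C : ℕ, ∀ n : ℕ, (F ^ n).ncard ≤ C * (n + 1) ^ D

theorem finite_pow {G : Type u} [Group G] {F : Set G} (hF : F.Finite) (n : ℕ) :
    (F ^ n).Finite := by
  induction n with
  | zero => simp
  | succ n ih => rw [pow_succ]; exact ih.mul hF

theorem GrowthLE.of_injective {G K : Type*} [Group G] [Group K] {D : ℕ} (h : GrowthLE G D)
    (f : K →* G) (hf : Function.Injective f) : GrowthLE K D := by
  intro F hF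
  obtain ⟨C, hC⟩ := h (f '' F) (hF.image f)
  refine ⟨C, fun n => ?_⟩
  rw [← Set.ncard_image_of_injective (F ^ n) hf, Set.image_pow]
  exact hC n

theorem GrowthLE.subgroup {G : Type u} [Group G] {D : ℕ} (h : GrowthLE G D) (K : Subgroup G) :
    GrowthLE K D := h.of_injective K.subtype K.subtype_injective

section Rep

variable {G : Type u} [Group G] {V : Type v} [NormedAddCommGroup V] [InnerProductSpace ℂ V]

/-- isometric representations -/
def IsoRep (ρ : G →* (V →L[ℂ] V)) : Prop := ∀ g v, ‖ρ g v‖ = ‖v‖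

/-- distance to the identity -/
noncomputable def dev (ρ : G →* (V →L[ℂ] V)) (g : G) : ℝ := ‖ρ g - 1‖

variable {ρ : G →* (V →L[ℂ] V)}

theorem IsoRep.norm_le (hρ : IsoRep ρ) (g : G) : ‖ρ g‖ ≤ 1 :=
  ContinuousLinearMap.opNorm_le_bound _ zero_le_one fun v => by rw [hρ, one_mul]

theorem dev_nonneg (g : G) : 0 ≤ dev ρ g := norm_nonneg _

theorem dev_one : dev ρ 1 = 0 := by simp [dev]

theorem eq_one_of_dev {g : G} (h : dev ρ g ≤ 0) : ρ g = 1 := by
  have := norm_le_zero_iff.1 h
  exact sub_eq_zero.1 this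

theorem dev_mul_le (hρ : IsoRep ρ) (g h : G) : dev ρ (g * h) ≤ dev ρ g + dev ρ h := by
  have e : ρ (g * h) - 1 = (ρ g - 1) * ρ h + (ρ h - 1) := by
    rw [map_mul]; noncomm_ring
  unfold dev
  rw [e]
  refine (norm_add_le _ _).trans (add_le_add_left ?_ _)
  refine (norm_mul_le _ _).trans ?_
  exact mul_le_of_le_one_right (norm_nonneg _) (hρ.norm_le h)

theorem dev_inv_le (hρ : IsoRep ρ) (g : G) : dev ρ g⁻¹ ≤ dev ρ g := by
  have e : ρ g⁻¹ - 1 = -(ρ g⁻¹ * (ρ g - 1)) := by
    rw [mul_sub, ← map_mul, inv_mul_cancel, map_one]; noncomm_ring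
  unfold dev
  rw [e, norm_neg]
  refine (norm_mul_le _ _).trans ?_
  exact mul_le_of_le_one_left (norm_nonneg _) (hρ.norm_le _)

theorem dev_comm_le (hρ : IsoRep ρ) (g h : G) :
    dev ρ (g * h * g⁻¹ * h⁻¹) ≤ 2 * dev ρ g * dev ρ h := by
  have e : ρ (g * h * g⁻¹ * h⁻¹) - 1 =
      ((ρ g - 1) * (ρ h - 1) - (ρ h - 1) * (ρ g - 1)) * ρ (g⁻¹ * h⁻¹) := by
    have h1 : ρ (g * h * g⁻¹ * h⁻¹) = ρ (g * h) * ρ (g⁻¹ * h⁻¹) := by
      rw [← map_mul]; congr 1; group
    have h2 : (1 : V →L[ℂ] V) = ρ (h * g) * ρ (g⁻¹ * h⁻¹) := by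
      rw [← map_mul]
      have : h * g * (g⁻¹ * h⁻¹) = 1 := by group
      rw [this, map_one]
    have h3 : (ρ g - 1) * (ρ h - 1) - (ρ h - 1) * (ρ g - 1) = ρ (g * h) - ρ (h * g) := by
      rw [map_mul, map_mul]; noncomm_ring
    rw [h3, sub_mul, ← h2, h1]
  unfold dev
  rw [e]
  refine (norm_mul_le _ _).trans ?_
  refine (mul_le_of_le_one_right (norm_nonneg _) (hρ.norm_le _)).trans ?_
  refine (norm_sub_le _ _).trans ?_
  have h1 := norm_mul_le (ρ g - 1) (ρ h - 1)
  have h2 := norm_mul_le (ρ h - 1) (ρ g - 1)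
  linarith [mul_comm ‖ρ h - 1‖ ‖ρ g - 1‖]

theorem dev_pow_aux (hρ : IsoRep ρ) (g : G) (b : ℕ) :
    ‖ρ (g ^ b) - 1 - (b : ℂ) • (ρ g - 1)‖ ≤ (b : ℝ) ^ 2 * dev ρ g ^ 2 := by
  induction b with
  | zero => simp
  | succ b ih =>
    have e : ρ (g ^ (b + 1)) - 1 - ((b + 1 : ℕ) : ℂ) • (ρ g - 1) =
        ρ g * (ρ (g ^ b) - 1 - (b : ℂ) • (ρ g - 1)) + (b : ℂ) • ((ρ g - 1) * (ρ g - 1)) := by
      rw [pow_succ', map_mul]
      push_cast
      simp only [mul_sub, sub_mul, add_smul, smul_sub, mul_smul_comm, one_smul, mul_one, one_mul]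
      abel
    rw [e]
    refine (norm_add_le _ _).trans ?_
    have h1 : ‖ρ g * (ρ (g ^ b) - 1 - (b : ℂ) • (ρ g - 1))‖ ≤ (b : ℝ) ^ 2 * dev ρ g ^ 2 := by
      refine (norm_mul_le _ _).trans ?_
      exact (mul_le_of_le_one_left (norm_nonneg _) (hρ.norm_le _)).trans ih
    have h2 : ‖(b : ℂ) • ((ρ g - 1) * (ρ g - 1))‖ ≤ b * dev ρ g ^ 2 := by
      rw [norm_smul, Complex.norm_natCast, sq]
      exact mul_le_mul_of_nonneg_left (norm_mul_le _ _) (Nat.cast_nonneg _)
    have h3 : (0 : ℝ) ≤ b * dev ρ g ^ 2 := by positivity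
    have h4 : (0 : ℝ) ≤ dev ρ g ^ 2 := by positivity
    push_cast
    nlinarith

theorem dev_pow_ge (hρ : IsoRep ρ) (g : G) (b : ℕ) :
    (b : ℝ) * dev ρ g - (b : ℝ) ^ 2 * dev ρ g ^ 2 ≤ dev ρ (g ^ b) := by
  have h := dev_pow_aux hρ g b
  have h2 : ‖(b : ℂ) • (ρ g - 1)‖ = b * dev ρ g := by
    rw [norm_smul, Complex.norm_natCast]; rfl
  have h3 : ‖(b : ℂ) • (ρ g - 1)‖ ≤ ‖ρ (g ^ b) - 1‖ +
      ‖ρ (g ^ b) - 1 - (b : ℂ) • (ρ g - 1)‖ := by
    have := norm_sub_le (ρ (g ^ b) - 1) (ρ (g ^ b) - 1 - (b : ℂ) • (ρ g - 1))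
    rwa [sub_sub_cancel] at this
  unfold dev at *
  linarith

theorem dev_pow_le (hρ : IsoRep ρ) (g : G) (b : ℕ) : dev ρ (g ^ b) ≤ b * dev ρ g := by
  induction b with
  | zero => simp [dev_one]
  | succ b ih =>
    rw [pow_succ]
    refine (dev_mul_le hρ _ _).trans ?_
    push_cast
    linarith

end Rep

end Vale.Agent.P188.H796

end

section

/-!
Polynomial curves with values in a real vector space or algebra, and real powers of unipotent
elements.
-/

open Finset

namespace Vale.Agent.P188.H796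

/-! ### polynomial curves -/

section PC

variable {E F : Type*} [AddCommGroup E] [Module ℝ E] [AddCommGroup F] [Module ℝ F]

/-- polynomial curves -/
def PC (f : ℝ → E) : Prop := ∃ (n : ℕ) (a : ℕ → E), ∀ t, f t = ∑ k ∈ range n, t ^ k • a k

theorem PC.congr {f g : ℝ → E} (hf : PC f) (h : ∀ t, g t = f t) : PC g := by
  obtain ⟨n, a, ha⟩ := hf
  exact ⟨n, a, fun t => by rw [h t, ha t]⟩

theorem PC.extend {f : ℝ → E} (hf : PC f) :
    ∃ (n : ℕ) (a : ℕ → E), (∀ k, n ≤ k → a k = 0) ∧ ∀ m, n ≤ m → ∀ t,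
      f t = ∑ k ∈ range m, t ^ k • a k := by
  obtain ⟨n, a, ha⟩ := hf
  refine ⟨n, fun k => if k < n then a k else 0, fun k hk => if_neg (by omega), ?_⟩
  intro m hm t
  rw [ha t]
  have : range n ⊆ range m := range_subset_range.2 hm
  rw [← sum_subset this (f := fun k => t ^ k • (if k < n then a k else 0))]
  · refine sum_congr rfl fun k hk => ?_
    rw [if_pos (mem_range.1 hk)]
  · intro k _ hk
    simp only [mem_range] at hk
    simp [hk]

theorem PC.const (v : E) : PC (fun _ => v) := ⟨1, fun _ => v, fun t => by simp⟩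

theorem PC.zero : PC (fun _ => (0 : E)) := PC.const 0

theorem PC.id : PC (fun t : ℝ => t) :=
  ⟨2, fun k => if k = 1 then 1 else 0, fun t => by simp⟩

theorem PC.add {f g : ℝ → E} (hf : PC f) (hg : PC g) : PC (fun t => f t + g t) := by
  obtain ⟨n, a, _, ha⟩ := hf.extend
  obtain ⟨m, b, _, hb⟩ := hg.extend
  refine ⟨max n m, fun k => a k + b k, fun t => ?_⟩
  beta_reduce
  rw [ha _ (le_max_left n m) t, hb _ (le_max_right n m) t, ← sum_add_distrib]
  exact sum_congr rfl fun k _ => (smul_add _ _ _).symm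

theorem PC.map {f : ℝ → E} (hf : PC f) (L : E →ₗ[ℝ] F) : PC (fun t => L (f t)) := by
  obtain ⟨n, a, ha⟩ := hf
  exact ⟨n, fun k => L (a k), fun t => by simp [ha t]⟩

theorem PC.neg {f : ℝ → E} (hf : PC f) : PC (fun t => - f t) :=
  hf.map (-LinearMap.id)

theorem PC.sub {f g : ℝ → E} (hf : PC f) (hg : PC g) : PC (fun t => f t - g t) :=
  (hf.add hg.neg).congr fun t => sub_eq_add_neg _ _

theorem PC.sum {ι : Type*} (s : Finset ι) {f : ι → ℝ → E} (hf : ∀ i ∈ s, PC (f i)) :
    PC (fun t => ∑ i ∈ s, f i t) := by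
  classical
  induction s using Finset.induction_on with
  | empty => exact PC.zero.congr fun t => by simp
  | insert i s hi ih =>
    refine ((hf i (mem_insert_self i s)).add
      (ih fun j hj => hf j (mem_insert_of_mem hj))).congr fun t => ?_
    rw [sum_insert hi]

/-- bilinear operations -/
theorem PC.bilin {G : Type*} [AddCommGroup G] [Module ℝ G] {f : ℝ → E} {g : ℝ → F}
    (hf : PC f) (hg : PC g) (B : E →ₗ[ℝ] F →ₗ[ℝ] G) : PC (fun t => B (f t) (g t)) := by
  obtain ⟨n, a, ha⟩ := hf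
  obtain ⟨m, b, hb⟩ := hg
  have key : ∀ t, B (f t) (g t) = ∑ k ∈ range n, ∑ l ∈ range m, t ^ (k + l) • B (a k) (b l) := by
    intro t
    rw [ha t, hb t]
    simp only [map_sum, LinearMap.sum_apply, map_smul, LinearMap.smul_apply, smul_sum, smul_smul]
    rw [sum_comm]
    exact sum_congr rfl fun k _ => sum_congr rfl fun l _ => by rw [pow_add]; ring_nf
  have hmon : ∀ (k : ℕ) (v : G), PC (fun t : ℝ => t ^ k • v) := by
    intro k v
    refine ⟨k + 1, fun j => if j = k then v else 0, fun t => ?_⟩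
    simp
  refine (PC.sum (range n) (f := fun k t => ∑ l ∈ range m, t ^ (k + l) • B (a k) (b l))
    fun k _ => PC.sum (range m) fun l _ => hmon _ _).congr key

theorem PC.smul {f : ℝ → ℝ} {g : ℝ → E} (hf : PC f) (hg : PC g) : PC (fun t => f t • g t) :=
  hf.bilin hg (LinearMap.lsmul ℝ E)

theorem PC.eq_zero_of_nat {f : ℝ → E} (hf : PC f) (h : ∀ n : ℕ, f n = 0) : ∀ t, f t = 0 := by
  obtain ⟨n, a, ha⟩ := hf
  -- all coefficients vanish: use linear functionals
  intro t
  by_contra hne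
  obtain ⟨φ, hφ⟩ : ∃ φ : E →ₗ[ℝ] ℝ, φ (f t) ≠ 0 := by
    by_contra hcon
    push Not at hcon
    exact hne ((Module.forall_dual_apply_eq_zero_iff ℝ (f t)).1 hcon)
  let p : Polynomial ℝ := ∑ k ∈ range n, Polynomial.C (φ (a k)) * Polynomial.X ^ k
  have hp : ∀ s : ℝ, p.eval s = φ (f s) := by
    intro s
    rw [ha s]
    simp only [p, Polynomial.eval_finsetSum, Polynomial.eval_mul, Polynomial.eval_C,
      Polynomial.eval_pow, Polynomial.eval_X, map_sum, map_smul, smul_eq_mul]
    exact sum_congr rfl fun k _ => mul_comm _ _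
  have hp0 : p = 0 := by
    refine Polynomial.eq_zero_of_infinite_isRoot p ?_
    refine Set.Infinite.mono (s := Set.range fun k : ℕ => (k : ℝ)) ?_
      (Set.infinite_range_of_injective Nat.cast_injective)
    rintro _ ⟨k, rfl⟩
    change p.eval (k : ℝ) = 0
    rw [hp, h k, map_zero]
  have := hp t
  rw [hp0, Polynomial.eval_zero] at this
  exact hφ this.symm

theorem PC.eq_of_nat {f g : ℝ → E} (hf : PC f) (hg : PC g) (h : ∀ n : ℕ, f n = g n) :
    ∀ t, f t = g t := by
  intro t
  have := (hf.sub hg).eq_zero_of_nat (fun n => by simp [h n]) t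
  exact sub_eq_zero.1 this

end PC

section PCalg

variable {A : Type*} [Ring A] [Algebra ℝ A]

theorem PC.mul {f g : ℝ → A} (hf : PC f) (hg : PC g) : PC (fun t => f t * g t) :=
  hf.bilin hg (LinearMap.mul ℝ A)

theorem PC.pow {f : ℝ → A} (hf : PC f) (n : ℕ) : PC (fun t => f t ^ n) := by
  induction n with
  | zero => simpa using PC.const (1 : A)
  | succ n ih => exact (ih.mul hf).congr fun t => pow_succ _ _

theorem PC.list_prod {ι : Type*} (L : List ι) {f : ι → ℝ → A} (hf : ∀ i ∈ L, PC (f i)) :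
    PC (fun t => (L.map fun i => f i t).prod) := by
  induction L with
  | nil => simpa using PC.const (1 : A)
  | cons i L ih =>
    refine ((hf i (by simp)).mul (ih fun j hj => hf j (by simp [hj]))).congr fun t => ?_
    simp

theorem PC.finset_prod {ι : Type*} (s : Finset ι) {f : ι → ℝ → ℝ} (hf : ∀ i ∈ s, PC (f i)) :
    PC (fun t => ∏ i ∈ s, f i t) := by
  classical
  induction s using Finset.induction_on with
  | empty => simpa using PC.const (1 : ℝ)
  | insert i s hi ih =>
    refine ((hf i (mem_insert_self i s)).mul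
      (ih fun j hj => hf j (mem_insert_of_mem hj))).congr fun t => ?_
    rw [prod_insert hi]

/-! ### real binomial coefficients -/

/-- binomial coefficient `t (t-1) ... (t-k+1) / k!` -/
noncomputable def bc (k : ℕ) (t : ℝ) : ℝ := ∏ i ∈ range k, ((t - i) / (i + 1))

theorem bc_zero (t : ℝ) : bc 0 t = 1 := by simp [bc]

theorem bc_succ (k : ℕ) (t : ℝ) : bc (k + 1) t = bc k t * ((t - k) / (k + 1)) := by
  rw [bc, prod_range_succ]; rfl

theorem bc_nat (k n : ℕ) : bc k (n : ℝ) = (n.choose k : ℝ) := by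
  induction k with
  | zero => simp [bc_zero]
  | succ k ih =>
    rw [bc_succ, ih]
    have h1 : ((k : ℝ) + 1) ≠ 0 := by positivity
    rcases le_or_gt k n with h | h
    · have h2 := Nat.choose_succ_right_eq n k
      have h3 : ((n.choose (k + 1) : ℕ) : ℝ) * (k + 1) = n.choose k * ((n : ℝ) - k) := by
        have := congrArg (Nat.cast (R := ℝ)) h2
        push_cast [Nat.cast_sub h] at this
        exact this
      field_simp
      linarith
    · rw [Nat.choose_eq_zero_of_lt h, Nat.choose_eq_zero_of_lt (by omega)]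
      simp

theorem PC.bc {p : ℝ → ℝ} (hp : PC p) (k : ℕ) : PC (fun t => bc k (p t)) := by
  unfold H796.bc
  refine PC.finset_prod _ fun i _ => ?_
  have h := (hp.sub (PC.const (i : ℝ))).smul (PC.const (1 / ((i : ℝ) + 1)))
  refine h.congr fun t => ?_
  simp only [smul_eq_mul]
  ring

/-- the real power `u ^ t` of a unipotent element, `(u - 1) ^ m = 0` -/
noncomputable def rp (m : ℕ) (u : A) (t : ℝ) : A := ∑ k ∈ range m, bc k t • (u - 1) ^ k

theorem PC.rp {p : ℝ → ℝ} (hp : PC p) (m : ℕ) (u : A) : PC (fun t => rp m u (p t)) := by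
  unfold H796.rp
  exact PC.sum _ fun k _ => (hp.bc k).smul (PC.const _)

variable {m : ℕ} {u : A}

theorem rp_nat (hu : (u - 1) ^ m = 0) (n : ℕ) : rp m u n = u ^ n := by
  have h1 : u ^ n = ∑ k ∈ range (n + 1), (n.choose k : ℝ) • (u - 1) ^ k := by
    have h2 : u = (u - 1) + 1 := by simp
    conv_lhs => rw [h2]
    rw [(Commute.one_right (u - 1)).add_pow]
    refine sum_congr rfl fun k _ => ?_
    rw [one_pow, mul_one, Algebra.smul_def, Algebra.commutes, map_natCast]
  rw [h1, rp]
  have h3 : ∀ k, m ≤ k → (u - 1) ^ k = 0 := by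
    intro k hk
    rw [← Nat.sub_add_cancel hk, pow_add, hu, mul_zero]
  rcases le_total m (n + 1) with h | h
  · have hsub : range m ⊆ range (n + 1) := range_subset_range.2 h
    rw [← sum_subset hsub (f := fun k => (n.choose k : ℝ) • (u - 1) ^ k)]
    · exact sum_congr rfl fun k _ => by rw [bc_nat]
    · intro k _ hk
      simp only [mem_range, not_lt] at hk
      rw [h3 k hk, smul_zero]
  · have hsub : range (n + 1) ⊆ range m := range_subset_range.2 h
    rw [← sum_subset hsub (f := fun k => bc k (n : ℝ) • (u - 1) ^ k)]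
    · exact sum_congr rfl fun k _ => by rw [bc_nat]
    · intro k _ hk
      simp only [mem_range, not_lt] at hk
      rw [bc_nat, Nat.choose_eq_zero_of_lt (by omega), Nat.cast_zero, zero_smul]

theorem rp_zero (hu : (u - 1) ^ m = 0) : rp m u 0 = 1 := by
  have := rp_nat hu 0
  simpa using this

theorem rp_one (hu : (u - 1) ^ m = 0) : rp m u 1 = u := by
  have := rp_nat hu 1
  simpa using this

theorem rp_add (hu : (u - 1) ^ m = 0) (s t : ℝ) : rp m u (s + t) = rp m u s * rp m u t := by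
  -- first `s` natural
  have h1 : ∀ (n : ℕ) (t : ℝ), rp m u (n + t) = rp m u n * rp m u t := by
    intro n
    refine PC.eq_of_nat (f := fun t => rp m u (n + t)) (g := fun t => rp m u n * rp m u t)
      (((PC.const (n : ℝ)).add PC.id).rp m u) ((PC.const _).mul (PC.id.rp m u)) ?_
    intro k
    have : ((n : ℝ) + k) = ((n + k : ℕ) : ℝ) := by push_cast; ring
    simp only [this]
    rw [rp_nat hu, rp_nat hu, rp_nat hu, pow_add]
  exact PC.eq_of_nat (f := fun s => rp m u (s + t)) (g := fun s => rp m u s * rp m u t)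
    ((PC.id.add (PC.const t)).rp m u) ((PC.id.rp m u).mul (PC.const _)) (fun n => h1 n t) s

theorem rp_neg_mul (hu : (u - 1) ^ m = 0) (t : ℝ) : rp m u (-t) * rp m u t = 1 := by
  rw [← rp_add hu, neg_add_cancel, rp_zero hu]

theorem rp_mul_neg (hu : (u - 1) ^ m = 0) (t : ℝ) : rp m u t * rp m u (-t) = 1 := by
  rw [← rp_add hu, add_neg_cancel, rp_zero hu]

/-- integer powers -/
theorem rp_int {N : Type*} [Group N] (ρ : N →* A) (x : N) (hu : (ρ x - 1) ^ m = 0) (n : ℤ) :
    rp m (ρ x) n = ρ (x ^ n) := by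
  obtain ⟨k, rfl | rfl⟩ := n.eq_nat_or_neg
  · rw [Int.cast_natCast, rp_nat hu, zpow_natCast, map_pow]
  · have h1 := rp_mul_neg hu (k : ℝ)
    rw [rp_nat hu] at h1
    have h2 : ρ (x ^ (-(k : ℤ))) * ρ x ^ k = 1 := by
      rw [← map_pow, ← map_mul, zpow_neg, zpow_natCast, inv_mul_cancel, map_one]
    push_cast
    calc rp m (ρ x) (-(k : ℝ)) = (ρ (x ^ (-(k : ℤ))) * ρ x ^ k) * rp m (ρ x) (-(k : ℝ)) := by
          rw [h2, one_mul]
      _ = ρ (x ^ (-(k : ℤ))) := by rw [mul_assoc, h1, mul_one]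

/-- a commuting element commutes with real powers -/
theorem Commute.rp {v : A} (h : Commute v u) (t : ℝ) : Commute v (rp m u t) := by
  unfold H796.rp
  refine Commute.sum_right _ _ _ fun k _ => ?_
  exact ((h.sub_right (Commute.one_right v)).pow_right k).smul_right _

end PCalg

/-! ### polynomial maps: maps which send polynomial curves to polynomial curves -/

section PM

variable {ι κ : Type*} {E : Type*} [AddCommGroup E] [Module ℝ E]

/-- polynomial maps -/
def PM (F : (ι → ℝ) → E) : Prop := ∀ γ : ℝ → ι → ℝ, (∀ i, PC fun t => γ t i) → PC fun t => F (γ t)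

theorem PM.zero_of_int [Finite ι] {F : (ι → ℝ) → E} (hF : PM F)
    (h : ∀ s : ι → ℤ, F (fun i => (s i : ℝ)) = 0) : ∀ s, F s = 0 := by
  classical
  have := Fintype.ofFinite ι
  -- replace coordinates one at a time
  have key : ∀ T : Finset ι, ∀ s : ι → ℝ, (∀ i, i ∉ T → ∃ n : ℤ, s i = n) → F s = 0 := by
    intro T
    induction T using Finset.induction_on with
    | empty =>
      intro s hs
      choose n hn using fun i => hs i (by simp)
      have : s = fun i => (n i : ℝ) := funext hn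
      rw [this]; exact h n
    | insert j T hj ih =>
      intro s hs
      have h1 : PC fun t => F (Function.update s j t) := by
        refine hF _ fun i => ?_
        by_cases hij : i = j
        · subst hij; simpa using PC.id
        · simpa [Function.update_of_ne hij] using PC.const (s i)
      have h2 := h1.eq_zero_of_nat (fun n => ih _ fun i hi => by
        by_cases hij : i = j
        · subst hij; exact ⟨n, by simp⟩
        · obtain ⟨k, hk⟩ := hs i (by simp [hij, hi])
          exact ⟨k, by rw [Function.update_of_ne hij, hk]⟩) (s j)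
      simpa using h2
  exact fun s => key Finset.univ s (by simp)

theorem PM.eq_of_int [Finite ι] {F F' : (ι → ℝ) → E} (hF : PM F) (hF' : PM F')
    (h : ∀ s : ι → ℤ, F (fun i => (s i : ℝ)) = F' (fun i => (s i : ℝ))) : ∀ s, F s = F' s := by
  intro s
  have h1 : PM fun s => F s - F' s := fun γ hγ => (hF γ hγ).sub (hF' γ hγ)
  exact sub_eq_zero.1 (h1.zero_of_int (fun s => by simp [h s]) s)

end PM

end Vale.Agent.P188.H796

end
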