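import Mathlib

section

/-!
The pushout group `S = (K ⋊ Γ) / {((ι n)⁻¹, n)}`.
-/

universe u v w

namespace Vale.Agent.P188.H796

/-- data for the pushout: a normal subgroup `N` of `Γ`, an injective homomorphism `ι : N → K`, and
an action of `Γ` on `K` extending conjugation. -/
structure PushData (Γ : Type u) [Group Γ] (N : Subgroup Γ) (K : Type v) [Group K] where
  normal : N.Normal
  ι : N →* K
  inj : Function.Injective ι
  α : Γ →* MulAut K
  α_ι : ∀ (g : Γ) (n : N), α g (ι n) = ι ⟨g * n * g⁻¹, normal.conj_mem n n.2 g⟩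
  α_n : ∀ (n : N) (k : K), α n k = ι n * k * (ι n)⁻¹

namespace PushData

variable {Γ : Type u} [Group Γ] {N : Subgroup Γ} {K : Type v} [Group K] (P : PushData Γ N K)

/-- the antidiagonal copy of `N` -/
def Δ : Subgroup (K ⋊[P.α] Γ) where
  carrier := {x | ∃ n : N, x.right = n ∧ x.left = (P.ι n)⁻¹}
  one_mem' := ⟨1, rfl, by simp⟩
  mul_mem' := by
    rintro a b ⟨n, hn1, hn2⟩ ⟨n', hn1', hn2'⟩
    refine ⟨n * n', by simp [hn1, hn1'], ?_⟩
    rw [SemidirectProduct.mul_left, hn1, hn2, hn2', P.α_n, map_mul]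
    group
  inv_mem' := by
    rintro a ⟨n, hn1, hn2⟩
    refine ⟨n⁻¹, by simp [hn1], ?_⟩
    rw [SemidirectProduct.inv_left, hn1, hn2]
    have h : P.α ((n : Γ)⁻¹) = P.α ((n⁻¹ : N) : Γ) := by rw [Subgroup.coe_inv]
    rw [h, P.α_n]
    simp

instance : P.Δ.Normal where
  conj_mem := by
    rintro a ⟨n, hn1, hn2⟩ ⟨k, g⟩
    refine ⟨⟨g * n * g⁻¹, P.normal.conj_mem n n.2 g⟩, ?_, ?_⟩
    · simp [hn1]
    · rw [SemidirectProduct.mul_left, SemidirectProduct.mul_left, SemidirectProduct.inv_left,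
        SemidirectProduct.mul_right, hn1, hn2]
      simp only
      rw [map_inv, P.α_ι]
      have h1 : (P.α (g * n)) ((P.α g⁻¹) k⁻¹) =
          P.α ((⟨g * n * g⁻¹, P.normal.conj_mem n n.2 g⟩ : N) : Γ) k⁻¹ := by
        rw [← MulAut.mul_apply, ← map_mul]
      rw [h1, P.α_n]
      group

/-- the pushout group -/
def S : Type (max u v) := (K ⋊[P.α] Γ) ⧸ P.Δ

instance : Group P.S := inferInstanceAs (Group ((K ⋊[P.α] Γ) ⧸ P.Δ))

/-- the embedding of `K` -/
def inK : K →* P.S := (QuotientGroup.mk' P.Δ).comp SemidirectProduct.inl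

/-- the embedding of `Γ` -/
def inG : Γ →* P.S := (QuotientGroup.mk' P.Δ).comp SemidirectProduct.inr

theorem inK_mul_inG_eq_one {k : K} {g : Γ} (h : P.inK k * P.inG g = 1) :
    ∃ n : N, g = n ∧ k = (P.ι n)⁻¹ := by
  have h1 : (QuotientGroup.mk' P.Δ) (SemidirectProduct.inl k * SemidirectProduct.inr g) = 1 := by
    rw [map_mul]; exact h
  rw [QuotientGroup.mk'_apply, QuotientGroup.eq_one_iff] at h1
  obtain ⟨n, hn1, hn2⟩ := h1
  refine ⟨n, by simpa using hn1, by simpa using hn2⟩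

theorem inK_injective : Function.Injective P.inK := by
  rw [injective_iff_map_eq_one]
  intro k hk
  obtain ⟨n, h1, h2⟩ := P.inK_mul_inG_eq_one (k := k) (g := 1) (by rw [hk, map_one, mul_one])
  have : n = 1 := Subtype.ext h1.symm
  rw [h2, this, map_one, inv_one]

theorem inG_injective : Function.Injective P.inG := by
  rw [injective_iff_map_eq_one]
  intro g hg
  obtain ⟨n, h1, h2⟩ := P.inK_mul_inG_eq_one (k := 1) (g := g) (by rw [hg, map_one, mul_one])
  have h3 : P.ι n = 1 := inv_eq_one.1 h2.symm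
  have h4 : n = 1 := P.inj (by rw [h3, map_one])
  rw [h1, h4]; rfl

theorem inG_coe (n : N) : P.inG n = P.inK (P.ι n) := by
  rw [← inv_mul_eq_one, ← map_inv]
  have h : (QuotientGroup.mk' P.Δ) (SemidirectProduct.inr ((n : Γ)⁻¹) *
      SemidirectProduct.inl (P.ι n)) = 1 := by
    rw [QuotientGroup.mk'_apply, QuotientGroup.eq_one_iff]
    refine ⟨n⁻¹, by simp, ?_⟩
    have h1 : P.α ((n : Γ)⁻¹) = P.α ((n⁻¹ : N) : Γ) := by rw [Subgroup.coe_inv]
    rw [SemidirectProduct.mul_left]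
    simp only [SemidirectProduct.left_inr, SemidirectProduct.right_inr,
      SemidirectProduct.left_inl, one_mul]
    rw [h1, P.α_n]
    simp
  rw [map_mul] at h
  exact h

theorem inG_conj (g : Γ) (k : K) : P.inG g * P.inK k * (P.inG g)⁻¹ = P.inK (P.α g k) := by
  rw [← map_inv]
  have h : (SemidirectProduct.inr g * SemidirectProduct.inl k * SemidirectProduct.inr g⁻¹ :
      K ⋊[P.α] Γ) = SemidirectProduct.inl (P.α g k) := by
    ext <;> simp
  have := congrArg (QuotientGroup.mk' P.Δ) h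
  rw [map_mul, map_mul] at this
  exact this

theorem inG_mul_inK (g : Γ) (k : K) : P.inG g * P.inK k = P.inK (P.α g k) * P.inG g := by
  rw [← inG_conj]; group

theorem inK_mul_inG (g : Γ) (k : K) : P.inK k * P.inG g = P.inG g * P.inK (P.α g⁻¹ k) := by
  rw [inG_mul_inK, ← MulAut.mul_apply, ← map_mul, mul_inv_cancel, map_one, MulAut.one_apply]

theorem exists_eq (s : P.S) : ∃ (k : K) (g : Γ), s = P.inK k * P.inG g := by
  obtain ⟨x, rfl⟩ := QuotientGroup.mk'_surjective P.Δ s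
  refine ⟨x.left, x.right, ?_⟩
  have h : x = SemidirectProduct.inl x.left * SemidirectProduct.inr x.right :=
    (SemidirectProduct.inl_left_mul_inr_right x).symm
  conv_lhs => rw [h, map_mul]
  rfl

theorem exists_eq' (s : P.S) : ∃ (g : Γ) (k : K), s = P.inG g * P.inK k := by
  obtain ⟨k, g, rfl⟩ := P.exists_eq s
  exact ⟨g, _, P.inK_mul_inG g k⟩

/-- when do two products agree -/
theorem inG_mul_inK_eq_iff {g g' : Γ} {k k' : K} :
    P.inG g * P.inK k = P.inG g' * P.inK k' ↔ ∃ n : N, g' = g * n ∧ k = P.ι n * k' := by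
  constructor
  · intro h
    have h1 : P.inK k * P.inK k'⁻¹ * P.inG (g'⁻¹ * g) = 1 := by
      rw [map_mul, map_inv, map_inv]
      have : (P.inG g)⁻¹ * P.inG g' = P.inK k * (P.inK k')⁻¹ := by
        rw [eq_mul_inv_iff_mul_eq, mul_assoc, ← h]; group
      rw [← this]; group
    rw [← map_mul] at h1
    obtain ⟨n, hn1, hn2⟩ := P.inK_mul_inG_eq_one h1
    refine ⟨n⁻¹, ?_, ?_⟩
    · rw [Subgroup.coe_inv, ← hn1]; group
    · rw [map_inv, ← hn2]; group
  · rintro ⟨n, rfl, rfl⟩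
    rw [map_mul, map_mul, inG_coe, mul_assoc]

/-- range of `inK` is normal -/
theorem range_inK_normal : (P.inK.range).Normal := by
  constructor
  rintro _ ⟨k, rfl⟩ s
  obtain ⟨k', g, rfl⟩ := P.exists_eq s
  refine ⟨k' * P.α g k * k'⁻¹, ?_⟩
  rw [map_mul, map_mul, ← inG_conj, map_inv]
  group

/-- homomorphisms of `Γ` which are trivial on `N` extend to `S` -/
def lift {Q : Type w} [Group Q] (η : Γ →* Q) (h : ∀ n : N, η n = 1) : P.S →* Q :=
  QuotientGroup.lift P.Δ (η.comp SemidirectProduct.rightHom) (by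
    rintro x ⟨n, hn1, _⟩
    change η x.right = 1
    rw [hn1, h])

theorem lift_inK {Q : Type w} [Group Q] (η : Γ →* Q) (h : ∀ n : N, η n = 1) (k : K) :
    P.lift η h (P.inK k) = 1 := by
  change η (SemidirectProduct.inl k : K ⋊[P.α] Γ).right = 1
  simp

theorem lift_inG {Q : Type w} [Group Q] (η : Γ →* Q) (h : ∀ n : N, η n = 1) (g : Γ) :
    P.lift η h (P.inG g) = η g := by
  change η (SemidirectProduct.inr g : K ⋊[P.α] Γ).right = η g
  simp

theorem ker_lift {Q : Type w} [Group Q] (η : Γ →* Q) (h : η.ker = N) (s : P.S) :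
    P.lift η (fun n => by rw [← MonoidHom.mem_ker, h]; exact n.2) s = 1 ↔ s ∈ P.inK.range := by
  constructor
  · intro hs
    obtain ⟨k, g, rfl⟩ := P.exists_eq s
    rw [map_mul, lift_inK, lift_inG, one_mul] at hs
    have hg : g ∈ N := by rw [← h]; exact hs
    refine ⟨k * P.ι ⟨g, hg⟩, ?_⟩
    rw [map_mul, ← inG_coe]
  · rintro ⟨k, rfl⟩
    exact P.lift_inK _ _ k

end PushData

end Vale.Agent.P188.H796

end

section

/-!
# Coarse differentiation along cyclic subgroups, with a common scale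

`S` a group with a measure `μ` invariant under right translations, `f : S → ℝ` with
`|f (x t) - f x| ≤ L`, `D` of finite positive measure, nearly invariant under the powers of `t`.
-/

open MeasureTheory Set Finset
open scoped ENNReal BigOperators

namespace P188.H882

section Energy

variable {S : Type*} [Group S]

/-- difference quotient at scale `n` -/
noncomputable def dq (f : S → ℝ) (t : S) (n : ℕ) (x : S) : ℝ := (f (x * t ^ n) - f x) / n

lemma abs_dist_pow {f : S → ℝ} {t : S} {L : ℝ} (hL : ∀ x, |f (x * t) - f x| ≤ L) (n : ℕ) (x : S) :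
    |f (x * t ^ n) - f x| ≤ n * L := by
  induction n with
  | zero => simp
  | succ n ih =>
    have h1 := hL (x * t ^ n)
    have : f (x * t ^ (n+1)) - f x = (f (x * t ^ n * t) - f (x * t ^ n)) + (f (x * t ^ n) - f x) := by
      rw [pow_succ, mul_assoc]; ring
    rw [this]
    push_cast
    calc _ ≤ |f (x * t ^ n * t) - f (x * t ^ n)| + |f (x * t ^ n) - f x| := abs_add_le _ _
      _ ≤ L + n * L := add_le_add h1 ih
      _ = _ := by ring

lemma abs_dq_le {f : S → ℝ} {t : S} {L : ℝ} (hL : ∀ x, |f (x * t) - f x| ≤ L) {n : ℕ}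
    (hn : 0 < n) (x : S) : |dq f t n x| ≤ L := by
  unfold dq
  rw [abs_div, Nat.abs_cast, div_le_iff₀ (by exact_mod_cast hn)]
  simpa [mul_comm] using abs_dist_pow hL n x

lemma sum_dq (f : S → ℝ) (t : S) {n : ℕ} (j : ℕ) (x : S) :
    ∑ l ∈ range j, dq f t n (x * t ^ (l * n)) = (f (x * t ^ (j * n)) - f x) / n := by
  induction j with
  | zero => simp
  | succ j ih =>
    rw [Finset.sum_range_succ, ih]
    unfold dq
    rw [mul_assoc, ← pow_add, Nat.succ_mul]
    ring

/-- variance of the increments over `Q` consecutive segments of length `n` -/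
noncomputable def vr (f : S → ℝ) (t : S) (n Q : ℕ) (x : S) : ℝ :=
  (∑ l ∈ range Q, (dq f t n (x * t ^ (l * n))) ^ 2) / Q - (dq f t (Q * n) x) ^ 2

lemma vr_eq (f : S → ℝ) (t : S) {n Q : ℕ} (hn : 0 < n) (hQ : 0 < Q) (x : S) :
    vr f t n Q x =
      (∑ l ∈ range Q, (dq f t n (x * t ^ (l * n)) - dq f t (Q * n) x) ^ 2) / Q := by
  have hs := sum_dq f t (n := n) Q x
  have hQ' : (Q : ℝ) ≠ 0 := by positivity
  have hn' : (n : ℝ) ≠ 0 := by positivity
  have h1 : ∑ l ∈ range Q, dq f t n (x * t ^ (l * n)) = Q * dq f t (Q * n) x := by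
    rw [hs]; unfold dq; push_cast; field_simp
  have h2 : ∑ l ∈ range Q, (dq f t n (x * t ^ (l * n)) - dq f t (Q * n) x) ^ 2
      = ∑ l ∈ range Q, (dq f t n (x * t ^ (l * n))) ^ 2
        - 2 * dq f t (Q * n) x * ∑ l ∈ range Q, dq f t n (x * t ^ (l * n))
        + Q * (dq f t (Q * n) x) ^ 2 := by
    rw [Finset.mul_sum, ← Finset.sum_sub_distrib]
    have : (Q : ℝ) * (dq f t (Q * n) x) ^ 2 = ∑ l ∈ range Q, (dq f t (Q * n) x) ^ 2 := by simp
    rw [this, ← Finset.sum_add_distrib]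
    refine Finset.sum_congr rfl fun l _ => by ring
  rw [h2, h1]
  unfold vr
  field_simp
  ring

lemma vr_nonneg (f : S → ℝ) (t : S) {n Q : ℕ} (hn : 0 < n) (hQ : 0 < Q) (x : S) :
    0 ≤ vr f t n Q x := by
  rw [vr_eq f t hn hQ]
  positivity

lemma vr_le {f : S → ℝ} {t : S} {L : ℝ} (hL : ∀ x, |f (x * t) - f x| ≤ L) {n Q : ℕ}
    (hn : 0 < n) (hQ : 0 < Q) (x : S) : vr f t n Q x ≤ L ^ 2 := by
  unfold vr
  have h1 : (∑ l ∈ range Q, (dq f t n (x * t ^ (l * n))) ^ 2) / Q ≤ L ^ 2 := by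
    rw [div_le_iff₀ (by exact_mod_cast hQ)]
    calc _ ≤ ∑ l ∈ range Q, L ^ 2 := by
          refine Finset.sum_le_sum fun l _ => ?_
          rw [← sq_abs]
          exact pow_le_pow_left₀ (abs_nonneg _) (abs_dq_le hL hn _) 2
      _ = _ := by simp [mul_comm]
  nlinarith [sq_nonneg (dq f t (Q * n) x)]

/-- if the variance is small, `f` is nearly affine on the line -/
lemma affine_of_vr {f : S → ℝ} {t : S} {L ω : ℝ} (hL0 : 0 ≤ L)
    (hL : ∀ x, |f (x * t) - f x| ≤ L) {n q : ℕ} (hn : 0 < n) (hq : 0 < q) (hω : 0 ≤ ω) (x : S)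
    (hv : vr f t n (2 * q) (x * t ^ (-((q * n : ℕ) : ℤ))) ≤ ω ^ 2 / (2 * q : ℕ))
    (m : ℤ) (hm : |m| ≤ (q * n : ℕ)) :
    |f (x * t ^ m) - f x - m * dq f t (q * n) x| ≤ 2 * (q * n : ℕ) * ω + 2 * n * L := by
  set y : S := x * t ^ (-((q * n : ℕ) : ℤ)) with hy
  have hxy : y * t ^ (q * n) = x := by
    rw [hy, mul_assoc, ← zpow_natCast, ← zpow_add]; simp
  set a : ℝ := dq f t (2 * q * n) y with ha
  have hn' : (0:ℝ) < n := by exact_mod_cast hn
  have hq' : (0:ℝ) < q := by exact_mod_cast hq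
  -- each increment is close to the average
  have h1 : ∀ l ∈ range (2 * q), |dq f t n (y * t ^ (l * n)) - a| ≤ ω := by
    intro l hl
    rw [vr_eq f t hn (by omega)] at hv
    rw [div_le_div_iff_of_pos_right (by positivity)] at hv
    have h2 : (dq f t n (y * t ^ (l * n)) - a) ^ 2 ≤ ω ^ 2 :=
      le_trans (Finset.single_le_sum (f := fun l => (dq f t n (y * t ^ (l * n)) - a) ^ 2)
        (fun _ _ => sq_nonneg _) hl) hv
    exact abs_le_of_sq_le_sq h2 hω
  -- between two grid points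
  have h3 : ∀ j j' : ℕ, j ≤ j' → j' ≤ 2 * q →
      |f (y * t ^ (j' * n)) - f (y * t ^ (j * n)) - ((j':ℝ) - j) * n * a| ≤ ((j':ℝ) - j) * n * ω := by
    intro j j' hjj hj'
    induction j', hjj using Nat.le_induction with
    | base => simp
    | succ j' hjj ih =>
      have ih' := ih (by omega)
      have h4 := h1 j' (by simp; omega)
      have h5 : f (y * t ^ ((j'+1) * n)) - f (y * t ^ (j' * n)) = n * dq f t n (y * t ^ (j' * n)) := by
        unfold dq
        rw [mul_assoc y, ← pow_add, Nat.succ_mul]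
        field_simp
      have h6 : |f (y * t ^ ((j'+1) * n)) - f (y * t ^ (j' * n)) - n * a| ≤ n * ω := by
        rw [h5, ← mul_sub, abs_mul, abs_of_pos hn']
        exact mul_le_mul_of_nonneg_left h4 hn'.le
      push_cast
      calc _ = |(f (y * t ^ ((j'+1) * n)) - f (y * t ^ (j' * n)) - n * a)
            + (f (y * t ^ (j' * n)) - f (y * t ^ (j * n)) - ((j':ℝ) - j) * n * a)| := by
            congr 1; ring
        _ ≤ _ := abs_add_le _ _
        _ ≤ n * ω + ((j':ℝ) - j) * n * ω := add_le_add h6 ih'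
        _ = _ := by ring
  have h3' : ∀ j' : ℕ, j' ≤ 2 * q →
      |f (y * t ^ (j' * n)) - f x - ((j':ℝ) - q) * n * a| ≤ q * n * ω := by
    intro j' hj'
    rcases le_total q j' with h | h
    · have := h3 q j' h hj'
      rw [hxy] at this
      refine this.trans ?_
      have : ((j':ℝ) - q) ≤ q := by
        have : (j':ℝ) ≤ 2 * q := by exact_mod_cast hj'
        linarith
      have h7 : ((j':ℝ) - q) * n * ω ≤ q * n * ω := by
        have := mul_nonneg hn'.le hω
        nlinarith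
      exact h7
    · have := h3 j' q h (by omega)
      rw [hxy] at this
      rw [← abs_neg]
      have e : -(f (y * t ^ (j' * n)) - f x - ((j':ℝ) - q) * n * a)
        = f x - f (y * t ^ (j' * n)) - ((q:ℝ) - j') * n * a := by ring
      rw [e]
      refine this.trans ?_
      have h8 : (0:ℝ) ≤ j' := by positivity
      have := mul_nonneg hn'.le hω
      nlinarith
  -- the slope at `x`
  have h9 : |dq f t (q * n) x - a| ≤ ω := by
    have := h3' (2 * q) le_rfl
    have e : y * t ^ (2 * q * n) = x * t ^ (q * n) := by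
      have e0 : y * t ^ (2 * q * n) = y * t ^ (q * n) * t ^ (q * n) := by
        rw [mul_assoc y, ← pow_add]; congr 2; ring
      rw [e0, hxy]
    rw [e] at this
    have h10 : f (x * t ^ (q * n)) - f x = (q * n) * dq f t (q * n) x := by
      unfold dq; push_cast; field_simp
    rw [h10] at this
    have e2 : (q * n : ℝ) * dq f t (q * n) x - (((2 * q : ℕ):ℝ) - q) * n * a
      = (q * n) * (dq f t (q * n) x - a) := by push_cast; ring
    rw [e2, abs_mul, abs_of_pos (by positivity)] at this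
    exact le_of_mul_le_mul_left this (by positivity)
  have haL : |a| ≤ L := abs_dq_le hL (by positivity) _
  -- position of `m`
  have hm' := abs_le.mp hm
  obtain ⟨M, hM⟩ : ∃ M : ℕ, (M : ℤ) = m + (q * n : ℕ) := ⟨(m + (q * n : ℕ)).toNat, by
    rw [Int.toNat_of_nonneg]; linarith [hm'.1]⟩
  have hMle : M ≤ 2 * q * n := by
    have : (M : ℤ) ≤ 2 * ((q * n : ℕ) : ℤ) := by rw [hM]; linarith [hm'.2]
    have h : M ≤ 2 * (q * n) := by exact_mod_cast this
    linarith [h, (show 2 * (q * n) = 2 * q * n by ring)]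
  obtain ⟨j0, r0, hr0, hMj⟩ : ∃ j0 r0 : ℕ, r0 < n ∧ M = j0 * n + r0 :=
    ⟨M / n, M % n, Nat.mod_lt M hn, (Nat.div_add_mod' M n).symm⟩
  have hxm : x * t ^ m = y * t ^ (j0 * n) * t ^ r0 := by
    have e0 : t ^ (q * n) * t ^ m = t ^ (j0 * n) * t ^ r0 := by
      rw [← pow_add, ← hMj, ← zpow_natCast, ← zpow_natCast, ← zpow_add, hM, add_comm]
    rw [mul_assoc, ← e0, ← mul_assoc, hxy]
  have hj' : j0 ≤ 2 * q := by
    by_contra hcon
    have : (2 * q + 1) * n ≤ j0 * n := Nat.mul_le_mul_right n (by omega)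
    have h15 : (2 * q + 1) * n = 2 * q * n + n := by ring
    omega
  have h11 := h3' j0 hj'
  have h12 := abs_dist_pow hL r0 (y * t ^ (j0 * n))
  rw [← hxm] at h12
  have hr : (r0 : ℝ) ≤ n := by exact_mod_cast hr0.le
  have hmM : (m : ℝ) = j0 * n + r0 - q * n := by
    have h13 : (m : ℤ) = (M : ℤ) - (q * n : ℕ) := by rw [hM]; ring
    rw [hMj] at h13
    have : (m : ℝ) = (((j0 * n + r0 : ℕ) : ℤ) : ℝ) - ((q * n : ℕ) : ℤ) := by
      rw [h13]; push_cast; ring
    rw [this]; push_cast; ring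
  have hmabs : |(m:ℝ)| ≤ q * n := by
    have : |(m:ℝ)| = ((|m| : ℤ) : ℝ) := by push_cast; rfl
    rw [this]
    exact_mod_cast hm
  have key : f (x * t ^ m) - f x - m * dq f t (q * n) x
      = (f (x * t ^ m) - f (y * t ^ (j0 * n)))
        + (f (y * t ^ (j0 * n)) - f x - ((j0:ℝ) - q) * n * a)
        + (-(r0:ℝ) * a) + (-(m * (dq f t (q * n) x - a))) := by
    have : (((j0:ℝ) - q) * n) = m - r0 := by rw [hmM]; ring
    rw [this]; ring
  rw [key]
  have b1 : |f (x * t ^ m) - f (y * t ^ (j0 * n))| ≤ n * L :=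
    h12.trans (mul_le_mul_of_nonneg_right hr hL0)
  have b3 : |(-(r0:ℝ) * a)| ≤ n * L := by
    rw [abs_mul, abs_neg, Nat.abs_cast]
    exact mul_le_mul hr haL (abs_nonneg _) hn'.le
  have b4 : |(-(m * (dq f t (q * n) x - a)))| ≤ q * n * ω := by
    rw [abs_neg, abs_mul]
    exact mul_le_mul hmabs h9 (abs_nonneg _) (by positivity)
  calc _ ≤ |f (x * t ^ m) - f (y * t ^ (j0 * n))|
        + |f (y * t ^ (j0 * n)) - f x - ((j0:ℝ) - q) * n * a|
        + |(-(r0:ℝ) * a)| + |(-(m * (dq f t (q * n) x - a)))| :=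
        (abs_add_le _ _).trans (add_le_add (abs_add_three _ _ _) le_rfl)
    _ ≤ n * L + q * n * ω + n * L + q * n * ω := by
        gcongr
    _ = _ := by push_cast; ring

end Energy

section Int

variable {S : Type*} [Group S] [MeasurableSpace S] {μ : Measure S}

/-- shift inequality -/
lemma setIntegral_shift {D : Set S} (hD : MeasurableSet D) (hDf : μ D ≠ ∞) {s : S}
    (hs : MeasurePreserving (fun x : S => x * s) μ μ) {g : S → ℝ} (hg : Measurable g) {B : ℝ}
    (hg0 : ∀ x, 0 ≤ g x) (hgB : ∀ x, g x ≤ B) :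
    ∫ x in D, g (x * s) ∂μ ≤ ∫ x in D, g x ∂μ + B * μ.real {x ∈ D | x * s ∉ D} := by
  have hms := hs.measurable
  have hE : MeasurableSet {x ∈ D | x * s ∉ D} := hD.inter (hms hD.compl)
  have hB0 : 0 ≤ B := (hg0 1).trans (hgB 1)
  have hint : ∀ A : Set S, MeasurableSet A → μ A ≠ ∞ → ∀ h : S → ℝ, Measurable h →
      (∀ x, 0 ≤ h x) → (∀ x, h x ≤ B) → Integrable (A.indicator h) μ := by
    intro A hA hAf h hh h0 hB
    rw [integrable_indicator_iff hA]
    refine Measure.integrableOn_of_bounded (M := B) hAf hh.aestronglyMeasurable ?_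
    refine Filter.Eventually.of_forall fun x => ?_
    rw [Real.norm_eq_abs, abs_of_nonneg (h0 x)]
    exact hB x
  rw [← integral_indicator hD, ← integral_indicator hD]
  have e1 : ∫ x, D.indicator g x ∂μ = ∫ x, D.indicator g (x * s) ∂μ := by
    conv_lhs => rw [← hs.map_eq]
    rw [integral_map hms.aemeasurable]
    exact (hg.indicator hD).aestronglyMeasurable
  have e2 : B * μ.real {x ∈ D | x * s ∉ D}
      = ∫ x, ({x ∈ D | x * s ∉ D}).indicator (fun _ => B) x ∂μ := by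
    rw [integral_indicator hE, setIntegral_const, smul_eq_mul, mul_comm]
  rw [e1, e2, ← integral_add]
  · refine integral_mono ?_ ?_ ?_
    · exact hint D hD hDf _ (hg.comp hms) (fun x => hg0 _) (fun x => hgB _)
    · refine Integrable.add ?_ ?_
      · have := hint D hD hDf g hg hg0 hgB
        exact hs.integrable_comp_of_integrable this
      · exact hint _ hE (ne_top_of_le_ne_top hDf (measure_mono (Set.sep_subset _ _))) _
          measurable_const (fun _ => hB0) (fun _ => le_rfl)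
    · intro x
      by_cases hx : x ∈ D
      · by_cases hx2 : x * s ∈ D
        · have : x ∉ {x ∈ D | x * s ∉ D} := fun h => h.2 hx2
          simp [Set.indicator_of_mem hx, Set.indicator_of_mem hx2, Set.indicator_of_notMem this]
        · have : x ∈ {x ∈ D | x * s ∉ D} := ⟨hx, hx2⟩
          simp only [Set.indicator_of_mem hx, Set.indicator_of_notMem hx2, Set.indicator_of_mem this]
          simpa using hgB _
      · have : x ∉ {x ∈ D | x * s ∉ D} := fun h => hx h.1
        simp only [Set.indicator_of_notMem hx, Set.indicator_of_notMem this, add_zero]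
        exact Set.indicator_nonneg (fun x _ => hg0 x) _
  · have := hint D hD hDf g hg hg0 hgB
    exact hs.integrable_comp_of_integrable this
  · exact hint _ hE (ne_top_of_le_ne_top hDf (measure_mono (Set.sep_subset _ _))) _
          measurable_const (fun _ => hB0) (fun _ => le_rfl)

lemma measurable_dq {f : S → ℝ} {t : S} {n : ℕ} (hf : Measurable f)
    (hs : Measurable (fun x : S => x * t ^ n)) : Measurable (dq f t n) :=
  ((hf.comp hs).sub hf).div_const _

lemma measurable_vr {f : S → ℝ} {t : S} {n Q : ℕ} (hf : Measurable f)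
    (hs : ∀ m : ℤ, Measurable (fun x : S => x * t ^ m)) : Measurable (vr f t n Q) := by
  have hs' : ∀ m : ℕ, Measurable (fun x : S => x * t ^ m) := fun m => by
    simpa using hs m
  unfold vr
  refine Measurable.sub (Measurable.div_const ?_ _) ((measurable_dq hf (hs' _)).pow_const 2)
  refine Finset.measurable_sum _ fun l _ => ?_
  exact ((measurable_dq hf (hs' _)).comp (hs' _)).pow_const 2

lemma int_vr_le {D : Set S} (hD : MeasurableSet D) (hDf : μ D ≠ ∞) {t : S}
    (hs : ∀ m : ℤ, MeasurePreserving (fun x : S => x * t ^ m) μ μ)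
    {f : S → ℝ} (hf : Measurable f) {L δ : ℝ}
    (hL : ∀ x, |f (x * t) - f x| ≤ L) {n q : ℕ} (hn : 0 < n) (hq : 0 < q)
    (hinv : ∀ m : ℤ, |m| ≤ (2 * q * n : ℕ) → μ.real {x ∈ D | x * t ^ m ∉ D} ≤ δ * μ.real D) :
    ∫ x in D, vr f t n (2 * q) (x * t ^ (-((q * n : ℕ) : ℤ))) ∂μ ≤
      (∫ x in D, (dq f t n x) ^ 2 ∂μ) - (∫ x in D, (dq f t (2 * q * n) x) ^ 2 ∂μ)
        + 2 * L ^ 2 * δ * μ.real D := by
  have hL0 : 0 ≤ L := (abs_nonneg _).trans (hL 1)
  have hs' : ∀ m : ℕ, MeasurePreserving (fun x : S => x * t ^ m) μ μ := fun m => by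
    simpa using hs m
  have hbd : ∀ k : ℕ, 0 < k → ∀ x, (dq f t k x) ^ 2 ≤ L ^ 2 := fun k hk x => by
    rw [← sq_abs]
    exact pow_le_pow_left₀ (abs_nonneg _) (abs_dq_le hL hk _) 2
  have h1 := setIntegral_shift (B := L ^ 2) hD hDf (hs (-((q * n : ℕ) : ℤ)))
    (measurable_vr (n := n) (Q := 2 * q) hf fun m => (hs m).measurable)
    (fun x => vr_nonneg f t hn (by omega) x) (fun x => vr_le hL hn (by omega) x)
  have h2 := hinv (-((q * n : ℕ) : ℤ)) (by
    rw [abs_neg, abs_of_nonneg (by positivity)]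
    have : q * n ≤ 2 * q * n := by nlinarith
    exact_mod_cast this)
  have hint : ∀ k : ℕ, 0 < k → ∀ m : ℕ, IntegrableOn (fun x => (dq f t k (x * t ^ m)) ^ 2) D μ := by
    intro k hk m
    refine Measure.integrableOn_of_bounded (M := L ^ 2) hDf
      (((measurable_dq hf (hs' _).measurable).comp (hs' m).measurable).pow_const 2).aestronglyMeasurable ?_
    refine Filter.Eventually.of_forall fun x => ?_
    rw [Real.norm_eq_abs, abs_of_nonneg (sq_nonneg _)]
    exact hbd k hk _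
  have hint0 : ∀ k : ℕ, 0 < k → IntegrableOn (fun x => (dq f t k x) ^ 2) D μ := fun k hk => by
    simpa using hint k hk 0
  have h3 : ∫ x in D, vr f t n (2 * q) x ∂μ ≤
      (∫ x in D, (dq f t n x) ^ 2 ∂μ) - (∫ x in D, (dq f t (2 * q * n) x) ^ 2 ∂μ)
        + L ^ 2 * δ * μ.real D := by
    unfold vr
    rw [integral_sub, integral_div, integral_finsetSum]
    · have h4 : ∀ l ∈ range (2 * q), ∫ x in D, (dq f t n (x * t ^ (l * n))) ^ 2 ∂μ
          ≤ (∫ x in D, (dq f t n x) ^ 2 ∂μ) + L ^ 2 * δ * μ.real D := by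
        intro l hl
        have h5 := setIntegral_shift (B := L ^ 2) (g := fun x => (dq f t n x) ^ 2) hD hDf
          (hs' (l * n)) ((measurable_dq hf (hs' _).measurable).pow_const 2)
          (fun x => sq_nonneg _) (hbd n hn)
        refine h5.trans ?_
        have h6 := hinv ((l * n : ℕ) : ℤ) (by
          rw [abs_of_nonneg (by positivity)]
          have : l * n ≤ 2 * q * n := Nat.mul_le_mul_right n (Finset.mem_range.mp hl).le
          exact_mod_cast this)
        rw [zpow_natCast] at h6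
        have := mul_le_mul_of_nonneg_left h6 (sq_nonneg L)
        linarith
      have h7 : (∑ l ∈ range (2 * q), ∫ x in D, (dq f t n (x * t ^ (l * n))) ^ 2 ∂μ) / (2 * q : ℕ)
          ≤ (∫ x in D, (dq f t n x) ^ 2 ∂μ) + L ^ 2 * δ * μ.real D := by
        rw [div_le_iff₀ (by exact_mod_cast (by omega : 0 < 2 * q))]
        refine (Finset.sum_le_sum h4).trans ?_
        rw [Finset.sum_const, Finset.card_range, nsmul_eq_mul, mul_comm]
      linarith
    · intro l _
      exact hint n hn _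
    · exact (integrable_finsetSum _ fun l _ => hint n hn _).div_const _
    · exact hint0 _ (by positivity)
  have h8 := mul_le_mul_of_nonneg_left h2 (sq_nonneg L)
  linarith

omit [Group S] in
lemma markov_real {D : Set S} (hD : MeasurableSet D) (hDf : μ D ≠ ∞) {g : S → ℝ}
    (hg : Measurable g) (hg0 : ∀ x, 0 ≤ g x) {B : ℝ} (hgB : ∀ x, g x ≤ B) {c : ℝ} (hc : 0 < c) :
    μ.real {x ∈ D | c < g x} ≤ (∫ x in D, g x ∂μ) / c := by
  have hE : MeasurableSet {x ∈ D | c < g x} := hD.inter (measurableSet_lt measurable_const hg)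
  have hEf : μ {x ∈ D | c < g x} ≠ ∞ := ne_top_of_le_ne_top hDf (measure_mono (Set.sep_subset _ _))
  rw [le_div_iff₀ hc]
  have hi : IntegrableOn g D μ := Measure.integrableOn_of_bounded (M := B) hDf
    hg.aestronglyMeasurable (Filter.Eventually.of_forall fun x => by
      rw [Real.norm_eq_abs, abs_of_nonneg (hg0 x)]; exact hgB x)
  calc μ.real {x ∈ D | c < g x} * c = ∫ x in {x ∈ D | c < g x}, c ∂μ := by
        rw [setIntegral_const, smul_eq_mul]
    _ ≤ ∫ x in {x ∈ D | c < g x}, g x ∂μ := by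
        refine setIntegral_mono_on ?_ (hi.mono_set (Set.sep_subset _ _)) hE ?_
        · exact (integrableOn_const_iff).mpr (Or.inr hEf.lt_top)
        · intro x hx; exact hx.2.le
    _ ≤ ∫ x in D, g x ∂μ := by
        refine setIntegral_mono_set hi (Filter.Eventually.of_forall fun x => hg0 x) ?_
        exact (Set.sep_subset _ _).eventuallyLE

end Int

end P188.H882

end

section

/-!
# P188, Z1, block GCL: the choice of the parameters (real numbers only)
-/

set_option linter.all false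

open Filter

namespace Vale.Agent.P188.Z1.GclNum

theorem ev_const' (B : ℝ) {ε : ℝ} (hε : 0 < ε) : ∀ᶠ r : ℝ in atTop, B ≤ Real.exp (ε * r) := by
  have h1 : Tendsto (fun r : ℝ => Real.exp (ε * r)) atTop atTop :=
    Real.tendsto_exp_atTop.comp (tendsto_id.const_mul_atTop hε)
  exact h1.eventually_ge_atTop B

/-- number of points of the filling -/
theorem floor_le (K' : ℕ) {ε c1 r : ℝ} (hε : 0 ≤ ε * r) :
    ((⌊((K' : ℝ) * (1 + Real.exp (ε * r)) / Real.exp (-(c1 * r))) ^ K'⌋₊ : ℕ) : ℝ) ≤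
      (2 * (K' : ℝ)) ^ K' * Real.exp ((K' : ℝ) * (ε + c1) * r) := by
  have hCI1 : 1 ≤ Real.exp (ε * r) := Real.one_le_exp hε
  have hK : (0 : ℝ) ≤ K' := Nat.cast_nonneg _
  refine (Nat.floor_le (by positivity)).trans ?_
  have e1 : (K' : ℝ) * (1 + Real.exp (ε * r)) / Real.exp (-(c1 * r)) ≤
      2 * K' * Real.exp ((ε + c1) * r) := by
    rw [div_eq_mul_inv, ← Real.exp_neg, neg_neg, add_mul ε c1 r, Real.exp_add]
    have h1 : (K' : ℝ) * (1 + Real.exp (ε * r)) ≤ 2 * K' * Real.exp (ε * r) := by nlinarith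
    calc (K' : ℝ) * (1 + Real.exp (ε * r)) * Real.exp (c1 * r)
        ≤ 2 * K' * Real.exp (ε * r) * Real.exp (c1 * r) :=
          mul_le_mul_of_nonneg_right h1 (Real.exp_pos _).le
      _ = _ := by ring
  have e2 := pow_le_pow_left₀ (by positivity) e1 K'
  refine e2.trans (le_of_eq ?_)
  rw [mul_pow, ← Real.exp_nat_mul, mul_assoc (K' : ℝ)]

theorem two_pow_le {C η r : ℝ} (j : ℕ) (hj : (j : ℝ) ≤ C + 4 * η * r + 1) :
    (2 : ℝ) ^ j ≤ Real.exp (C + 1) * Real.exp (4 * η * r) := by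
  have hlog1 : Real.log 2 ≤ 1 := by
    have := Real.log_le_sub_one_of_pos (show (0 : ℝ) < 2 by norm_num)
    linarith
  rw [← Real.exp_add]
  have e1 : (2 : ℝ) ^ j = Real.exp (Real.log 2 * j) := by
    rw [mul_comm, Real.exp_nat_mul, Real.exp_log (by norm_num)]
  rw [e1]
  apply Real.exp_le_exp.2
  have : Real.log 2 * j ≤ 1 * j := mul_le_mul_of_nonneg_right hlog1 (Nat.cast_nonneg _)
  linarith

theorem le_two_pow {κ C r σ : ℝ} (hσ : σ = κ / C * Real.log 2) (q : ℕ)
    (hq : κ * r / C - 2 ≤ q) : Real.exp (σ * r) / 4 ≤ (2 : ℝ) ^ q := by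
  have hlog : 0 < Real.log 2 := Real.log_pos (by norm_num)
  have e1 : (2 : ℝ) ^ q = Real.exp (Real.log 2 * q) := by
    rw [mul_comm, Real.exp_nat_mul, Real.exp_log (by norm_num)]
  have e2 : Real.exp (σ * r) / 4 = Real.exp (Real.log 2 * (κ * r / C - 2)) := by
    have e3 : Real.log 2 * (κ * r / C - 2) = σ * r - 2 * Real.log 2 := by
      rw [hσ]; ring
    rw [e3, Real.exp_sub]
    congr 1
    have : (2 : ℝ) * Real.log 2 = ((2 : ℕ) : ℝ) * Real.log 2 := by norm_num
    rw [this, Real.exp_nat_mul, Real.exp_log (by norm_num)]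
    norm_num
  rw [e1, e2]
  exact Real.exp_le_exp.2 (mul_le_mul_of_nonneg_left hq hlog.le)

theorem expo {σ c1 η ε : ℝ} (K' : ℕ) (hσ : 0 < σ) (hc1 : c1 = σ / (8 * (K' + 1)))
    (hη : η = σ / 64) (hε : ε = σ / (16 * (K' + 1))) :
    ε + K' * (ε + c1) + 4 * η ≤ σ / 4 ∧ c1 ≤ σ / 8 := by
  have hK : (0 : ℝ) ≤ K' := Nat.cast_nonneg _
  have hK1 : (0 : ℝ) < K' + 1 := by linarith
  have e1 : ε * (K' + 1) = σ / 16 := by rw [hε]; field_simp
  have e2 : c1 * (K' + 1) = σ / 8 := by rw [hc1]; field_simp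
  have h0 : 0 < c1 := by rw [hc1]; positivity
  constructor
  · rw [hη]
    nlinarith
  · nlinarith

/-- the main inequality between the number of points and the number of cells -/
theorem main_ineq {σ c1 η ε C r : ℝ} (K' : ℕ) (m' j q Nn : ℕ) (hr : 0 ≤ r) (hC : 0 < C)
    (hex : ε + K' * (ε + c1) + 4 * η ≤ σ / 4) (hc1 : c1 ≤ σ / 8) (hσ : 0 < σ)
    (hN : (Nn : ℝ) ≤ Real.exp (ε * r) *
      ((2 * (K' : ℝ)) ^ K' * Real.exp ((K' : ℝ) * (ε + c1) * r)))
    (h2j : (2 : ℝ) ^ j ≤ Real.exp (C + 1) * Real.exp (4 * η * r))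
    (h2q : Real.exp (σ * r) / 4 ≤ (2 : ℝ) ^ q)
    (h1 : 4 * C * m' * Real.exp (C + 1) * (2 * (K' : ℝ)) ^ K' + 1 ≤ Real.exp (σ / 2 * r)) :
    ((Nn * 2 ^ j : ℕ) : ℝ) * (C * m') < 2 ^ q * Real.exp (-(c1 * r)) := by
  have hK : (0 : ℝ) ≤ K' := Nat.cast_nonneg _
  have hm : (0 : ℝ) ≤ m' := Nat.cast_nonneg _
  set P : ℝ := (2 * (K' : ℝ)) ^ K' with hP
  have hP0 : 0 ≤ P := by positivity
  have e0 : Real.exp (ε * r) * (P * Real.exp ((K' : ℝ) * (ε + c1) * r)) *
      (Real.exp (C + 1) * Real.exp (4 * η * r)) * (C * m') =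
      C * m' * Real.exp (C + 1) * P * Real.exp ((ε + K' * (ε + c1) + 4 * η) * r) := by
    have : Real.exp ((ε + K' * (ε + c1) + 4 * η) * r) =
        Real.exp (ε * r) * Real.exp ((K' : ℝ) * (ε + c1) * r) * Real.exp (4 * η * r) := by
      rw [← Real.exp_add, ← Real.exp_add]
      congr 1
      ring
    rw [this]
    ring
  have e1 : ((Nn * 2 ^ j : ℕ) : ℝ) * (C * m') ≤
      C * m' * Real.exp (C + 1) * P * Real.exp (σ / 4 * r) := by
    have h2 : ((Nn * 2 ^ j : ℕ) : ℝ) ≤ Real.exp (ε * r) *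
        (P * Real.exp ((K' : ℝ) * (ε + c1) * r)) *
        (Real.exp (C + 1) * Real.exp (4 * η * r)) := by
      push_cast
      exact mul_le_mul hN h2j (by positivity) (by positivity)
    have h3 : ((Nn * 2 ^ j : ℕ) : ℝ) * (C * m') ≤ _ :=
      mul_le_mul_of_nonneg_right h2 (by positivity)
    refine h3.trans ?_
    rw [e0]
    exact mul_le_mul_of_nonneg_left (Real.exp_le_exp.2
      (mul_le_mul_of_nonneg_right hex hr)) (by positivity)
  have e2 : Real.exp (7 * σ / 8 * r) / 4 ≤ 2 ^ q * Real.exp (-(c1 * r)) := by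
    have h2 : Real.exp (7 * σ / 8 * r) / 4 ≤ Real.exp (σ * r) / 4 * Real.exp (-(c1 * r)) := by
      have h3 : Real.exp (σ * r) / 4 * Real.exp (-(c1 * r)) =
          Real.exp (σ * r + -(c1 * r)) / 4 := by
        rw [Real.exp_add]; ring
      rw [h3]
      refine div_le_div_of_nonneg_right (Real.exp_le_exp.2 ?_) (by norm_num)
      nlinarith
    exact h2.trans (mul_le_mul_of_nonneg_right h2q (Real.exp_pos _).le)
  refine lt_of_le_of_lt e1 (lt_of_lt_of_le ?_ e2)
  have e3 : Real.exp (σ / 4 * r) ≤ Real.exp (3 * σ / 8 * r) :=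
    Real.exp_le_exp.2 (mul_le_mul_of_nonneg_right (by linarith) hr)
  have e4 : Real.exp (7 * σ / 8 * r) = Real.exp (σ / 2 * r) * Real.exp (3 * σ / 8 * r) := by
    rw [← Real.exp_add]; congr 1; ring
  rw [e4, lt_div_iff₀ (by norm_num)]
  have e5 := Real.exp_pos (3 * σ / 8 * r)
  have e6 : 0 ≤ C * m' * Real.exp (C + 1) * P := by positivity
  have e7 : C * m' * Real.exp (C + 1) * P * Real.exp (σ / 4 * r) * 4 ≤
      C * m' * Real.exp (C + 1) * P * Real.exp (3 * σ / 8 * r) * 4 :=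
    mul_le_mul_of_nonneg_right (mul_le_mul_of_nonneg_left e3 e6) (by norm_num)
  have e8 : (4 * C * m' * Real.exp (C + 1) * P) * Real.exp (3 * σ / 8 * r) <
      Real.exp (σ / 2 * r) * Real.exp (3 * σ / 8 * r) :=
    mul_lt_mul_of_pos_right (by linarith) e5
  linarith

/-- the distortion inequality -/
theorem big_ineq {η r B C a : ℝ} (nf m : ℕ) (hm : (m : ℝ) ≤ Real.exp (η * r)) (hr : 0 ≤ η * r)
    (ha : 0 ≤ a) (hj : 4 * η * r ≤ B)
    (h2 : 2 * (nf : ℝ) * 3 * a * Real.exp C ≤ Real.exp (η * r)) :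
    2 * ((nf : ℝ) * ((2 * m + 1) * (a * Real.exp (2 * (η * r) + C)))) ≤ Real.exp B := by
  have h0 : 1 ≤ Real.exp (η * r) := Real.one_le_exp hr
  have hf : (0 : ℝ) ≤ nf := Nat.cast_nonneg _
  have e1 : (2 * (m : ℝ) + 1) ≤ 3 * Real.exp (η * r) := by linarith
  have e0 : 0 ≤ a * Real.exp (2 * (η * r) + C) := by positivity
  have e2 : 2 * ((nf : ℝ) * ((2 * m + 1) * (a * Real.exp (2 * (η * r) + C)))) ≤
      2 * ((nf : ℝ) * ((3 * Real.exp (η * r)) * (a * Real.exp (2 * (η * r) + C)))) :=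
    mul_le_mul_of_nonneg_left (mul_le_mul_of_nonneg_left
      (mul_le_mul_of_nonneg_right e1 e0) hf) (by norm_num)
  refine e2.trans ?_
  have e3 : 2 * ((nf : ℝ) * ((3 * Real.exp (η * r)) * (a * Real.exp (2 * (η * r) + C)))) =
      (2 * (nf : ℝ) * 3 * a * Real.exp C) * Real.exp (3 * (η * r)) := by
    rw [Real.exp_add, show 3 * (η * r) = η * r + 2 * (η * r) by ring, Real.exp_add]
    ring
  rw [e3]
  refine (mul_le_mul_of_nonneg_right h2 (Real.exp_pos _).le).trans ?_
  rw [← Real.exp_add]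
  exact Real.exp_le_exp.2 (by linarith)

/-- **All the parameters.** -/
theorem params {C κ : ℝ} (hC : 1 ≤ C) (hκ : 0 < κ) (K' m' nf nι : ℕ) {a B B0 : ℝ} (ha : 0 ≤ a) :
    ∃ (η c1 ε : ℝ) (Mn : ℕ), 0 < η ∧ 0 < c1 ∧ 0 < ε ∧ 2 ≤ Mn ∧ B0 ≤ ((Mn : ℝ) - 2) * η ∧
    ∀ᶠ r : ℝ in atTop, ∃ q j : ℕ, C * ((q : ℝ) + 1) ≤ κ * r ∧
      ((⌊Real.exp (ε * r)⌋₊ * ⌊((K' : ℝ) * (1 + Real.exp (ε * r)) /
        Real.exp (-(c1 * r))) ^ K'⌋₊ * 2 ^ j : ℕ) : ℝ) * (C * m') <
        2 ^ q * Real.exp (-(c1 * r)) ∧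
      (∀ m : ℕ, (m : ℝ) ≤ Real.exp (η * r) →
        2 * ((nf : ℝ) * ((2 * m + 1) * (a * Real.exp (2 * (η * r) + B)))) ≤
          Real.exp ((j : ℝ) - C)) ∧
      (Mn : ℝ) * (1 + nι * m') * Real.exp (-(c1 * r)) ≤ Real.exp (-(c1 / 2 * r)) := by
  have hCpos : 0 < C := by linarith
  have hlog : 0 < Real.log 2 := Real.log_pos (by norm_num)
  obtain ⟨σ, hσ⟩ : ∃ σ : ℝ, σ = κ / C * Real.log 2 := ⟨_, rfl⟩
  have hσ0 : 0 < σ := by rw [hσ]; positivity
  obtain ⟨c1, hc1⟩ : ∃ c1 : ℝ, c1 = σ / (8 * (K' + 1)) := ⟨_, rfl⟩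
  obtain ⟨η, hη⟩ : ∃ η : ℝ, η = σ / 64 := ⟨_, rfl⟩
  obtain ⟨ε, hε⟩ : ∃ ε : ℝ, ε = σ / (16 * (K' + 1)) := ⟨_, rfl⟩
  have hK : (0 : ℝ) ≤ K' := Nat.cast_nonneg _
  have hc10 : 0 < c1 := by rw [hc1]; positivity
  have hη0 : 0 < η := by rw [hη]; positivity
  have hε0 : 0 < ε := by rw [hε]; positivity
  obtain ⟨hex, hc1σ⟩ := expo K' hσ0 hc1 hη hε
  obtain ⟨Mn, hMn⟩ : ∃ Mn : ℕ, Mn = ⌈B0 / η⌉₊ + 2 := ⟨_, rfl⟩
  have ev1 := ev_const' (4 * C * m' * Real.exp (C + 1) * (2 * (K' : ℝ)) ^ K' + 1) (ε := σ / 2)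
    (by positivity)
  have ev2 := ev_const' (2 * (nf : ℝ) * 3 * a * Real.exp B) hη0
  have ev3 := ev_const' ((Mn : ℝ) * (1 + nι * m')) (ε := c1 / 2) (by positivity)
  refine ⟨η, c1, ε, Mn, hη0, hc10, hε0, by omega, ?_, ?_⟩
  · have e1 : B0 / η ≤ (Mn : ℝ) - 2 := by
      rw [hMn]; push_cast
      have := Nat.le_ceil (B0 / η)
      linarith
    rwa [div_le_iff₀ hη0] at e1
  filter_upwards [ev1, ev2, ev3, eventually_ge_atTop (C / κ), eventually_ge_atTop (0 : ℝ)]
    with r h1 h2 h3 h4 hr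
  have h4' : 1 ≤ κ * r / C := by
    rw [div_le_iff₀ hκ] at h4
    rw [le_div_iff₀ hCpos]
    linarith
  have hεr : 0 ≤ ε * r := by positivity
  have hηr : 0 ≤ η * r := by positivity
  obtain ⟨q, hq⟩ : ∃ q : ℕ, q = ⌊κ * r / C - 1⌋₊ := ⟨_, rfl⟩
  obtain ⟨j, hj⟩ : ∃ j : ℕ, j = ⌈C + 4 * η * r⌉₊ := ⟨_, rfl⟩
  have hq1 : (q : ℝ) ≤ κ * r / C - 1 := by rw [hq]; exact Nat.floor_le (by linarith)
  have hq2 : κ * r / C - 2 ≤ q := by
    have := Nat.lt_floor_add_one (κ * r / C - 1)
    rw [← hq] at this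
    linarith
  have hj1 : C + 4 * η * r ≤ j := by rw [hj]; exact Nat.le_ceil _
  have hj2 : (j : ℝ) ≤ C + 4 * η * r + 1 := by
    rw [hj]; exact (Nat.ceil_lt_add_one (by positivity)).le
  refine ⟨q, j, ?_, ?_, ?_, ?_⟩
  · have : C * ((q : ℝ) + 1) ≤ C * (κ * r / C) :=
      mul_le_mul_of_nonneg_left (by linarith) hCpos.le
    rwa [mul_div_cancel₀ _ hCpos.ne'] at this
  · refine main_ineq K' m' j q _ hr hCpos hex hc1σ hσ0 ?_ (two_pow_le j hj2)
      (le_two_pow hσ q hq2) h1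
    push_cast
    exact mul_le_mul (Nat.floor_le (Real.exp_pos _).le) (floor_le K' hεr) (Nat.cast_nonneg _)
      (Real.exp_pos _).le
  · intro m hm
    exact big_ineq nf m hm hηr ha (by linarith) h2
  · have e1 : (Mn : ℝ) * (1 + nι * m') * Real.exp (-(c1 * r)) ≤
        Real.exp (c1 / 2 * r) * Real.exp (-(c1 * r)) :=
      mul_le_mul_of_nonneg_right h3 (Real.exp_pos _).le
    refine e1.trans (le_of_eq ?_)
    rw [← Real.exp_add]; congr 1; ring

end Vale.Agent.P188.Z1.GclNum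

end

section

/-!
Triangular differentiable bijections of a finite dimensional space preserve Lebesgue measure.
-/

open MeasureTheory MeasureTheory.Measure Topology Set Filter
open scoped ENNReal

universe u v

namespace Vale.Agent.P188.H131

variable {V : Type u} [NormedAddCommGroup V] [NormedSpace ℝ V] [FiniteDimensional ℝ V]

/-- a unipotent map has determinant one -/
theorem det_eq_one {T : V →ₗ[ℝ] V} (F : ℕ → Submodule ℝ V) (h0 : F 0 = ⊤) {c : ℕ}
    (hc : F c = ⊥) (hF : ∀ i, ∀ u ∈ F i, T u - u ∈ F (i + 1)) : LinearMap.det T = 1 := by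
  set N : Module.End ℝ V := T - 1 with hN
  have h1 : ∀ k : ℕ, ∀ u, (N ^ k) u ∈ F k := by
    intro k
    induction k with
    | zero => intro u; rw [h0]; trivial
    | succ k ih =>
      intro u
      rw [pow_succ', Module.End.mul_apply]
      exact hF k _ (ih u)
  have hnil : IsNilpotent N := by
    refine ⟨c, ?_⟩
    ext u
    have := h1 c u
    rw [hc] at this
    simpa using this
  have hT : T = 1 + N := by rw [hN]; abel
  have hnil' : IsNilpotent (-N) := hnil.neg
  have h2 := hnil'.charpoly_eq_X_pow_finrank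
  have h3 : (LinearMap.charpoly (-N)).eval 1 = LinearMap.det (algebraMap ℝ (Module.End ℝ V) 1 - (-N)) := by
    rw [LinearMap.eval_charpoly]
  rw [h2] at h3
  rw [map_one, sub_neg_eq_add] at h3
  rw [hT, ← h3]
  simp

variable [MeasurableSpace V] [BorelSpace V]

theorem tri_mp (μ : Measure V) [μ.IsAddHaarMeasure] {f : V → V} (hd : Differentiable ℝ f)
    (hb : Function.Bijective f) (F : ℕ → Submodule ℝ V) (h0 : F 0 = ⊤) {c : ℕ} (hc : F c = ⊥)
    (hF : ∀ i x u, u ∈ F i → f (x + u) - f x - u ∈ F (i + 1)) : MeasurePreserving f μ μ := by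
  have hder : ∀ x, (fderiv ℝ f x).det = 1 := by
    intro x
    show LinearMap.det ((fderiv ℝ f x : V →L[ℝ] V) : V →ₗ[ℝ] V) = 1
    refine det_eq_one F h0 hc fun i u hu => ?_
    have h1 : HasFDerivAt f (fderiv ℝ f x) x := (hd x).hasFDerivAt
    have h2 : HasDerivAt (fun t : ℝ => f (x + t • u)) (fderiv ℝ f x u) 0 := by
      have h3 : HasDerivAt (fun t : ℝ => x + t • u) u 0 := by
        simpa using ((hasDerivAt_id (0 : ℝ)).smul_const u).const_add x
      have h4 : HasFDerivAt f (fderiv ℝ f x) ((fun t : ℝ => x + t • u) 0) := by simpa using h1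
      exact h4.comp_hasDerivAt (0 : ℝ) h3
    have h5 : HasDerivAt (fun t : ℝ => f (x + t • u) - f x - t • u) (fderiv ℝ f x u - u) 0 := by
      have := (h2.sub_const (f x)).fun_sub ((hasDerivAt_id (0 : ℝ)).smul_const u)
      simpa using this
    have h6 : Tendsto (fun t : ℝ => t⁻¹ • (f (x + t • u) - f x - t • u)) (𝓝[≠] 0)
        (𝓝 (fderiv ℝ f x u - u)) := by
      have := hasDerivAt_iff_tendsto_slope_zero.mp h5
      simpa using this
    have hcl : IsClosed (F (i + 1) : Set V) := (F (i + 1)).closed_of_finiteDimensional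
    refine hcl.mem_of_tendsto h6 ?_
    refine Eventually.of_forall fun t => ?_
    exact (F (i + 1)).smul_mem _ (hF i x (t • u) ((F i).smul_mem _ hu))
  refine ⟨hd.continuous.measurable, ?_⟩
  have h := map_withDensity_abs_det_fderiv_eq_addHaar μ (s := univ) (f := f)
    (f' := fun x => fderiv ℝ f x) MeasurableSet.univ.nullMeasurableSet
    (fun x _ => (hd x).hasFDerivAt.hasFDerivWithinAt) hb.1.injOn
  simp only [hder, abs_one, ENNReal.ofReal_one, restrict_univ, image_univ, hb.2.range_eq] at h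
  rwa [show (fun _ : V => (1 : ℝ≥0∞)) = 1 from rfl, withDensity_one] at h

end Vale.Agent.P188.H131

end
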