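import Vale.Agent.P188.R.G011

section

/-!
# P188, D-block: LINE

If a function on `ℤ` goes up around `j1` and down around a later `j2`, it has a peak in between.
-/

noncomputable section

namespace Vale.P188.H654

open MeasureTheory Finset
open scoped ENNReal

theorem lip_int {ψ : ℤ → ℝ} {L : ℝ} (hL : ∀ j, |ψ (j + 1) - ψ j| ≤ L) (a : ℤ) (n : ℕ) :
    |ψ (a + n) - ψ a| ≤ L * n := by
  induction n with
  | zero => simp
  | succ n ih =>
    have h1 := hL (a + n)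
    have e : a + ((n + 1 : ℕ) : ℤ) = a + n + 1 := by push_cast; ring
    rw [e]
    calc |ψ (a + n + 1) - ψ a| = |(ψ (a + n + 1) - ψ (a + n)) + (ψ (a + n) - ψ a)| := by
          congr 1; ring
      _ ≤ |ψ (a + n + 1) - ψ (a + n)| + |ψ (a + n) - ψ a| := abs_add_le _ _
      _ ≤ L + L * n := add_le_add h1 ih
      _ = L * ((n + 1 : ℕ) : ℝ) := by push_cast; ring

theorem lip_int' {ψ : ℤ → ℝ} {L : ℝ} (hL : ∀ j, |ψ (j + 1) - ψ j| ≤ L) {a b : ℤ} (h : a ≤ b) :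
    |ψ b - ψ a| ≤ L * (b - a : ℤ) := by
  obtain ⟨n, hn⟩ := Int.le.dest h
  have := lip_int hL a n
  rw [hn] at this
  have e : ((b - a : ℤ) : ℝ) = n := by
    have : b - a = n := by omega
    rw [this]; simp
  rw [e]; exact this

/-- up at `j1`, down at `j2 > j1` forces a peak in between. -/
theorem exists_peak {ψ : ℤ → ℝ} {L : ℝ} (hL : ∀ j, |ψ (j + 1) - ψ j| ≤ L) (hL0 : 0 < L)
    {c0 e1 lam1 lam2 : ℝ} {ρ r j1 j2 : ℤ} (hρ : 0 ≤ ρ) (h12 : j1 ≤ j2)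
    (h1 : ∀ i, |i| ≤ ρ → |ψ (j1 + i) - ψ j1 - i * lam1| ≤ e1) (hl1 : c0 ≤ lam1)
    (h2 : ∀ i, |i| ≤ ρ → |ψ (j2 + i) - ψ j2 - i * lam2| ≤ e1) (hl2 : lam2 ≤ -c0)
    (hr : L * r ≤ c0 * ρ - e1) (he : 2 * e1 < c0 * ρ) (he1 : 0 ≤ e1) :
    ∃ j, j1 ≤ j ∧ j ≤ j2 ∧ ∀ i, |i| ≤ r → ψ (j + i) ≤ ψ j := by
  have hρR : (0 : ℝ) ≤ (ρ : ℝ) := by exact_mod_cast hρ
  have hc0 : 0 < c0 := by
    by_contra hcon
    have : c0 * ρ ≤ 0 := mul_nonpos_of_nonpos_of_nonneg (not_lt.1 hcon) hρR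
    linarith
  rcases lt_or_ge (j2 - j1) ρ with hlt | hge
  · exfalso
    -- the two windows overlap in `[j2 - ρ, j1 + ρ]`
    have a1 := abs_le.1 (h1 ρ (by rw [abs_of_nonneg hρ]))
    have a2 := abs_le.1 (h1 (j2 - ρ - j1) (by rw [abs_le]; constructor <;> omega))
    have b1 := abs_le.1 (h2 (-ρ) (by rw [abs_neg, abs_of_nonneg hρ]))
    have b2 := abs_le.1 (h2 (j1 + ρ - j2) (by rw [abs_le]; constructor <;> omega))
    have e1' : j1 + (j2 - ρ - j1) = j2 + -ρ := by ring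
    have e2' : j2 + (j1 + ρ - j2) = j1 + ρ := by ring
    rw [e1'] at a2
    rw [e2'] at b2
    push_cast at a1 a2 b1 b2
    have hq : (ρ : ℝ) < 2 * ρ - (j2 - j1) := by
      have : (j2 - j1 : ℝ) < ρ := by exact_mod_cast hlt
      linarith
    nlinarith [a1.1, a1.2, a2.1, a2.2, b1.1, b1.2, b2.1, b2.2,
      mul_le_mul_of_nonneg_right hl1 (by linarith : (0 : ℝ) ≤ 2 * ρ - (j2 - j1)),
      mul_le_mul_of_nonneg_right hl2 (by linarith : (0 : ℝ) ≤ 2 * ρ - (j2 - j1))]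
  · obtain ⟨j, hj, hmax⟩ := Finset.exists_max_image (Finset.Icc j1 j2) ψ
      ⟨j1, Finset.mem_Icc.2 ⟨le_refl _, h12⟩⟩
    rw [Finset.mem_Icc] at hj
    refine ⟨j, hj.1, hj.2, ?_⟩
    have m1 := hmax (j1 + ρ) (Finset.mem_Icc.2 ⟨by omega, by omega⟩)
    have m2 := hmax (j2 + -ρ) (Finset.mem_Icc.2 ⟨by omega, by omega⟩)
    have a1 := abs_le.1 (h1 ρ (by rw [abs_of_nonneg hρ]))
    have b1 := abs_le.1 (h2 (-ρ) (by rw [abs_neg, abs_of_nonneg hρ]))
    push_cast at a1 b1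
    have c1 := abs_le.1 (lip_int' hL hj.1)
    have c2 := abs_le.1 (lip_int' hL hj.2)
    push_cast at c1 c2
    have d1 : c0 * ρ ≤ ρ * lam1 := by nlinarith
    have d2 : c0 * ρ ≤ -ρ * lam2 := by nlinarith
    have f1 : L * r ≤ L * (j - j1) := by linarith [c1.2, a1.1]
    have f2 : L * r ≤ L * (j2 - j) := by linarith [c2.1, b1.1]
    have g1 : (r : ℝ) ≤ j - j1 := le_of_mul_le_mul_left f1 hL0
    have g2 : (r : ℝ) ≤ j2 - j := le_of_mul_le_mul_left f2 hL0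
    have g1' : r ≤ j - j1 := by exact_mod_cast g1
    have g2' : r ≤ j2 - j := by exact_mod_cast g2
    intro i hi
    rw [abs_le] at hi
    exact hmax (j + i) (Finset.mem_Icc.2 ⟨by omega, by omega⟩)

/-- a sequence of functions `φ b`, linear around the good points `I` -/
structure LineData (Φ Lab : Type*) where
  φ : Φ → ℤ → ℝ
  s : ℤ → Lab
  I : Set ℤ
  P : Lab → Set Φ
  lam : Φ → ℤ → ℝ
  L : ℝ
  c0 : ℝ
  e1 : ℝ
  ρ : ℤ
  r : ℤ
  lip : ∀ b j, |φ b (j + 1) - φ b j| ≤ L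
  Lpos : 0 < L
  ρ0 : 0 ≤ ρ
  lin : ∀ b, ∀ j ∈ I, ∀ i, |i| ≤ ρ → |φ b (j + i) - φ b j - i * lam b j| ≤ e1
  up : ∀ j ∈ I, ∀ b ∈ P (s j), c0 ≤ lam b j
  down : ∀ j ∈ I, ∀ b ∉ P (s j), lam b j ≤ -c0
  hr : L * r ≤ c0 * ρ - e1
  he : 2 * e1 < c0 * ρ
  he1 : 0 ≤ e1

namespace LineData

variable {Φ Lab : Type*} (Λ : LineData Φ Lab)

theorem mono {j1 j2 : ℤ} (h1 : j1 ∈ Λ.I) (h2 : j2 ∈ Λ.I) (h12 : j1 ≤ j2)
    (hpk : ∀ b, ∀ j, j1 ≤ j → j ≤ j2 → ¬ ∀ i, |i| ≤ Λ.r → Λ.φ b (j + i) ≤ Λ.φ b j) :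
    Λ.P (Λ.s j1) ⊆ Λ.P (Λ.s j2) := by
  intro b hb
  by_contra hb'
  obtain ⟨j, a1, a2, a3⟩ := exists_peak (Λ.lip b) Λ.Lpos Λ.ρ0 h12 (Λ.lin b j1 h1)
    (Λ.up j1 h1 b hb) (Λ.lin b j2 h2) (Λ.down j2 h2 b hb') Λ.hr Λ.he Λ.he1
  exact hpk b j a1 a2 a3

theorem const [Finite Φ] (hcard : ∀ s s', (Λ.P s).ncard = (Λ.P s').ncard) {j1 j2 : ℤ}
    (h1 : j1 ∈ Λ.I) (h2 : j2 ∈ Λ.I) (h12 : j1 ≤ j2)
    (hpk : ∀ b, ∀ j, j1 ≤ j → j ≤ j2 → ¬ ∀ i, |i| ≤ Λ.r → Λ.φ b (j + i) ≤ Λ.φ b j) :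
    Λ.P (Λ.s j1) = Λ.P (Λ.s j2) :=
  Set.eq_of_subset_of_ncard_le (Λ.mono h1 h2 h12 hpk) (hcard _ _).ge (Set.toFinite _)

open Classical in
/-- growth along the line: `n` blocks of length `ρ`, of which at most `bad` do not start in `I`. -/
theorem growth [Finite Φ] (hcard : ∀ s s', (Λ.P s).ncard = (Λ.P s').ncard) (h0 : (0 : ℤ) ∈ Λ.I)
    (n : ℕ) (hpk : ∀ b, ∀ j, 0 ≤ j → j ≤ n * Λ.ρ → ¬ ∀ i, |i| ≤ Λ.r → Λ.φ b (j + i) ≤ Λ.φ b j)
    (b : Φ) :
    (b ∈ Λ.P (Λ.s 0) → n * (Λ.c0 * Λ.ρ - Λ.e1) - (Λ.L + Λ.c0) * Λ.ρ *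
      (((Finset.range n).filter fun i : ℕ => ((i : ℤ) * Λ.ρ) ∉ Λ.I).card : ℕ)
        ≤ Λ.φ b (n * Λ.ρ) - Λ.φ b 0) ∧
    (b ∉ Λ.P (Λ.s 0) → Λ.φ b (n * Λ.ρ) - Λ.φ b 0 ≤ -(n * (Λ.c0 * Λ.ρ - Λ.e1) -
      (Λ.L + Λ.c0) * Λ.ρ *
      (((Finset.range n).filter fun i : ℕ => ((i : ℤ) * Λ.ρ) ∉ Λ.I).card : ℕ))) := by
  have hρR : (0 : ℝ) ≤ (Λ.ρ : ℝ) := by exact_mod_cast Λ.ρ0
  have hρabs : |Λ.ρ| ≤ Λ.ρ := by rw [abs_of_nonneg Λ.ρ0]
  have he1 := Λ.he1
  induction n with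
  | zero => simp
  | succ n ih =>
    have ih' := ih (fun b j hj0 hj => hpk b j hj0 (hj.trans (by
      push_cast; nlinarith [Λ.ρ0])))
    set x : ℤ := (n : ℤ) * Λ.ρ with hx
    have hx0 : 0 ≤ x := mul_nonneg (by positivity) Λ.ρ0
    have ex : ((n + 1 : ℕ) : ℤ) * Λ.ρ = x + Λ.ρ := by rw [hx]; push_cast; ring
    rw [ex]
    rw [Finset.range_add_one, Finset.filter_insert]
    have hlip : |Λ.φ b (x + Λ.ρ) - Λ.φ b x| ≤ Λ.L * Λ.ρ := by
      have := lip_int' (Λ.lip b) (show x ≤ x + Λ.ρ by linarith [Λ.ρ0])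
      simpa using this
    have hl := abs_le.1 hlip
    by_cases hb : x ∈ Λ.I
    · rw [if_neg (by rw [← hx]; exact not_not.2 hb)]
      have hP := Λ.const hcard h0 hb hx0 (fun b j hj0 hj => hpk b j hj0 (hj.trans (by
        rw [ex]; linarith [Λ.ρ0])))
      have hlin := abs_le.1 (Λ.lin b x hb Λ.ρ hρabs)
      constructor
      · intro hb0
        have h2 := Λ.up x hb b (hP ▸ hb0)
        have h3 := ih'.1 hb0
        have h4 : Λ.c0 * Λ.ρ ≤ Λ.ρ * Λ.lam b x := by nlinarith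
        push_cast
        linarith [hlin.1]
      · intro hb0
        have h2 := Λ.down x hb b (hP ▸ hb0)
        have h3 := ih'.2 hb0
        have h4 : Λ.ρ * Λ.lam b x ≤ -(Λ.c0 * Λ.ρ) := by nlinarith
        push_cast
        linarith [hlin.2]
    · rw [if_pos (by rw [← hx]; exact hb), Finset.card_insert_of_notMem (by simp)]
      constructor
      · intro hb0
        have h3 := ih'.1 hb0
        push_cast
        linarith [hl.1]
      · intro hb0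
        have h3 := ih'.2 hb0
        push_cast
        linarith [hl.2]

end LineData

/-- An exact peak produces many approximate peaks. -/
theorem peak_nearby {ψ : ℤ → ℝ} {L : ℝ} (hL : ∀ j, |ψ (j + 1) - ψ j| ≤ L) (hL0 : 0 ≤ L)
    {r r' s0 : ℤ} {τ : ℝ} (_hs0 : 0 ≤ s0) (hτ : L * s0 ≤ τ) (hr : r' + s0 ≤ r) {j : ℤ}
    (hj : ∀ i, |i| ≤ r → ψ (j + i) ≤ ψ j) {s : ℤ} (hs : 0 ≤ s) (hss : s ≤ s0) :
    ∀ i, |i| ≤ r' → ψ (j + s + i) ≤ ψ (j + s) + τ := by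
  intro i hi
  rw [abs_le] at hi
  have h1 := hj (s + i) (by rw [abs_le]; constructor <;> omega)
  have h2 := abs_le.1 (lip_int' hL (show j ≤ j + s by omega))
  have e : ((j + s - j : ℤ) : ℝ) = s := by push_cast; ring
  rw [e] at h2
  have h3 : L * s ≤ L * s0 := by
    apply mul_le_mul_of_nonneg_left _ hL0
    exact_mod_cast hss
  rw [show j + s + i = j + (s + i) by ring]
  linarith [h2.1]

/-! ### LINE, measure form -/

variable {S V Φ Lab Dir : Type*} [Group S] [NormedAddCommGroup V]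

/-- linearity of all `β b ∘ f` around the points of `D0`, in the direction `v`, with slopes of the
sign given by the label -/
structure LinAt (Δ : LData S V Φ Lab Dir) (σ : S → Lab) (v : Dir) (D0 : Set S) (c0 e1 : ℝ)
    (ρ : ℕ) : Prop where
  lin : ∀ x ∈ D0, ∀ b, ∃ lam : ℝ, (b ∈ Δ.P v (σ x) → c0 ≤ lam) ∧ (b ∉ Δ.P v (σ x) → lam ≤ -c0) ∧
    ∀ i : ℤ, |i| ≤ ρ → |Δ.β b (Δ.f (x * Δ.t v ^ i)) - Δ.β b (Δ.f x) - i * lam| ≤ e1

/-- approximate peaks of `β b ∘ f` in direction `v`, radius `r'`, tolerance `τ` -/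
def TolPk (Δ : LData S V Φ Lab Dir) (b : Φ) (v : Dir) (r' : ℕ) (τ : ℝ) : Set S :=
  {z | ∀ i : ℤ, |i| ≤ r' → Δ.β b (Δ.f (z * Δ.t v ^ i)) ≤ Δ.β b (Δ.f z) + τ}

open Classical in
/-- Deterministic form: no peak on the line and few bad blocks give the margin. -/
theorem mg_of_line [Finite Φ] (Δ : LData S V Φ Lab Dir) (σ : S → Lab) (v : Dir)
    (hcard : ∀ s s', (Δ.P v s).ncard = (Δ.P v s').ncard)
    (D0 : Set S) (c0 e1 L1 : ℝ) (ρ r n M : ℕ) (hL1 : 0 < L1)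
    (hlip : Δ.B * (Δ.L * Δ.l (Δ.t v)) ≤ L1) (hlin : LinAt Δ σ v D0 c0 e1 ρ)
    (hr : L1 * r ≤ c0 * ρ - e1) (he : 2 * e1 < c0 * ρ) (he1 : 0 ≤ e1) (hc0 : 0 ≤ c0)
    {m : ℝ} (hm : m ≤ n * (c0 * ρ - e1) - (L1 + c0) * ρ * M) (z : S) (hz : z ∈ D0)
    (hbad : ((Finset.range n).filter fun i => z * Δ.t v ^ (i * ρ) ∉ D0).card ≤ M)
    (hpk : ∀ b, ∀ j : ℕ, j ≤ n * ρ → ¬ ∀ i : ℤ, |i| ≤ r →
      Δ.β b (Δ.f (z * Δ.t v ^ j * Δ.t v ^ i)) ≤ Δ.β b (Δ.f (z * Δ.t v ^ j))) :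
    Δ.Mg σ (n * ρ) m z v := by
  have key : ∀ x : S, ∀ b, ∃ lam : ℝ, x ∈ D0 → (b ∈ Δ.P v (σ x) → c0 ≤ lam) ∧
      (b ∉ Δ.P v (σ x) → lam ≤ -c0) ∧
      ∀ i : ℤ, |i| ≤ ρ → |Δ.β b (Δ.f (x * Δ.t v ^ i)) - Δ.β b (Δ.f x) - i * lam| ≤ e1 := by
    intro x b
    by_cases hx : x ∈ D0
    · obtain ⟨lam, h⟩ := hlin.lin x hx b
      exact ⟨lam, fun _ => h⟩
    · exact ⟨0, fun h => absurd h hx⟩
  choose lam hlam using key
  let Λ : LineData Φ Lab :=
    { φ := fun b j => Δ.β b (Δ.f (z * Δ.t v ^ j))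
      s := fun j => σ (z * Δ.t v ^ j)
      I := {j | z * Δ.t v ^ j ∈ D0}
      P := Δ.P v
      lam := fun b j => lam (z * Δ.t v ^ j) b
      L := L1
      c0 := c0
      e1 := e1
      ρ := ρ
      r := r
      lip := by
        intro b j
        refine le_trans ?_ hlip
        refine (Δ.lipβ b _ _).trans (mul_le_mul_of_nonneg_left ?_ Δ.B_nonneg)
        have := Δ.lipf (z * Δ.t v ^ j) (Δ.t v)
        rwa [mul_assoc, ← zpow_add_one] at this
      Lpos := hL1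
      ρ0 := by positivity
      lin := by
        intro b j hj i hi
        have := (hlam _ b hj).2.2 i hi
        rwa [mul_assoc, ← zpow_add] at this
      up := fun j hj b hb => (hlam _ b hj).1 hb
      down := fun j hj b hb => (hlam _ b hj).2.1 hb
      hr := by exact_mod_cast hr
      he := by exact_mod_cast he
      he1 := he1 }
  have hcount : (((Finset.range n).filter fun i : ℕ => ((i : ℤ) * Λ.ρ) ∉ Λ.I).card : ℝ) ≤ M := by
    have : ((Finset.range n).filter fun i : ℕ => ((i : ℤ) * Λ.ρ) ∉ Λ.I)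
        = (Finset.range n).filter fun i => z * Δ.t v ^ (i * ρ) ∉ D0 := by
      apply Finset.filter_congr
      intro i _
      show ¬ (z * Δ.t v ^ ((i : ℤ) * (ρ : ℤ)) ∈ D0) ↔ _
      rw [← Nat.cast_mul, zpow_natCast]
    rw [this]
    exact_mod_cast hbad
  have hmul : (L1 + c0) * ρ *
      (((Finset.range n).filter fun i : ℕ => ((i : ℤ) * Λ.ρ) ∉ Λ.I).card : ℕ)
      ≤ (L1 + c0) * ρ * M :=
    mul_le_mul_of_nonneg_left hcount (by positivity)
  have hg := Λ.growth hcard (by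
    show z * Δ.t v ^ (0 : ℤ) ∈ D0
    rw [zpow_zero, mul_one]; exact hz) n (by
    intro b j hj0 hj hcon
    obtain ⟨k, rfl⟩ := Int.eq_ofNat_of_zero_le hj0
    have hk : k ≤ n * ρ := by
      have : (k : ℤ) ≤ n * ρ := hj
      exact_mod_cast this
    refine hpk b k hk fun i hi => ?_
    have := hcon i hi
    simp only [Λ] at this
    rw [mul_assoc, ← zpow_natCast, ← zpow_add]
    exact this)
  intro b
  have e0 : Λ.φ b 0 = Δ.β b (Δ.f z) := by
    show Δ.β b (Δ.f (z * Δ.t v ^ (0 : ℤ))) = _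
    rw [zpow_zero, mul_one]
  have e1' : Λ.φ b (n * Λ.ρ) = Δ.β b (Δ.f (z * Δ.t v ^ (n * ρ))) := by
    show Δ.β b (Δ.f (z * Δ.t v ^ ((n : ℤ) * (ρ : ℤ)))) = _
    rw [← Nat.cast_mul, zpow_natCast]
  have es : Λ.P (Λ.s 0) = Δ.P v (σ z) := by
    show Δ.P v (σ (z * Δ.t v ^ (0 : ℤ))) = _
    rw [zpow_zero, mul_one]
  have hgb := hg b
  rw [e0, e1', es] at hgb
  have hcast : ((Λ.ρ : ℤ) : ℝ) = (ρ : ℝ) := by simp [Λ]
  have hL : Λ.L = L1 := rfl
  have hc : Λ.c0 = c0 := rfl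
  have he' : Λ.e1 = e1 := rfl
  rw [hcast, hL, hc, he'] at hgb
  constructor
  · intro hb
    have := hgb.1 hb
    linarith
  · intro hb
    have := hgb.2 hb
    linarith

variable [MeasurableSpace S]

open Classical in
/-- points whose line contains an exact peak, are few as soon as approximate peaks are few. -/
theorem mu_exact_peak_le (Δ : LData S V Φ Lab Dir) (b : Φ) (v : Dir) {μ : Measure S} (hμ : RI μ)
    {D Dp : Set S} (L1 τ : ℝ) (r r' s0 N : ℕ) (hL1 : 0 ≤ L1)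
    (hlip : Δ.B * (Δ.L * Δ.l (Δ.t v)) ≤ L1) (hτ : L1 * s0 ≤ τ) (hr : r' + s0 ≤ r)
    (hD : ∀ j ≤ N + s0, ∀ z ∈ D, z * Δ.t v ^ j ∈ Dp) {θ : ℝ≥0∞}
    (hθ : μ (Dp ∩ TolPk Δ b v r' τ) ≤ θ) :
    ((s0 + 1 : ℕ) : ℝ≥0∞) * μ {z ∈ D | ∃ j : ℕ, j ≤ N ∧ ∀ i : ℤ, |i| ≤ r →
      Δ.β b (Δ.f (z * Δ.t v ^ j * Δ.t v ^ i)) ≤ Δ.β b (Δ.f (z * Δ.t v ^ j))}
      ≤ (N + s0 + 1 : ℕ) * θ := by
  have hm := markov_count μ (Finset.range (N + s0 + 1))
    (fun j => (fun z => z * Δ.t v ^ j) ⁻¹' (Dp ∩ TolPk Δ b v r' τ)) (s0 + 1)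
  have hsum : ∑ j ∈ Finset.range (N + s0 + 1),
      μ ((fun z => z * Δ.t v ^ j) ⁻¹' (Dp ∩ TolPk Δ b v r' τ))
      ≤ (N + s0 + 1 : ℕ) * θ := by
    refine (Finset.sum_le_sum fun j _ => (hμ _ _).trans hθ).trans ?_
    rw [Finset.sum_const, Finset.card_range, nsmul_eq_mul]
  refine le_trans (mul_le_mul_right (measure_mono ?_) _) (hm.trans hsum)
  rintro z ⟨hz, j, hj, hpk⟩
  show s0 + 1 ≤ _
  have hψ : ∀ k : ℤ, |Δ.β b (Δ.f (z * Δ.t v ^ (k + 1))) - Δ.β b (Δ.f (z * Δ.t v ^ k))| ≤ L1 := by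
    intro k
    refine le_trans ?_ hlip
    refine (Δ.lipβ b _ _).trans (mul_le_mul_of_nonneg_left ?_ Δ.B_nonneg)
    have := Δ.lipf (z * Δ.t v ^ k) (Δ.t v)
    rwa [mul_assoc, ← zpow_add_one] at this
  have hnear := fun (s : ℤ) (hs : 0 ≤ s) (hss : s ≤ s0) =>
    peak_nearby (ψ := fun k => Δ.β b (Δ.f (z * Δ.t v ^ k))) hψ hL1
      (r := r) (r' := r') (s0 := s0) (τ := τ) (by positivity) (by exact_mod_cast hτ)
      (by exact_mod_cast hr) (j := j) (by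
        intro i hi
        have := hpk i hi
        rw [mul_assoc, ← zpow_natCast, ← zpow_add] at this
        exact this) hs hss
  have hsub : (Finset.range (s0 + 1)).image (fun s => j + s) ⊆
      (Finset.range (N + s0 + 1)).filter fun j => z ∈
        (fun z => z * Δ.t v ^ j) ⁻¹' (Dp ∩ TolPk Δ b v r' τ) := by
    intro k hk
    rw [Finset.mem_image] at hk
    obtain ⟨s, hs, rfl⟩ := hk
    rw [Finset.mem_range] at hs
    rw [Finset.mem_filter, Finset.mem_range]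
    refine ⟨by omega, hD _ (by omega) z hz, ?_⟩
    intro i hi
    have := hnear s (by positivity) (by exact_mod_cast Nat.lt_succ_iff.1 hs) i (by exact_mod_cast hi)
    rw [mul_assoc, ← zpow_natCast, ← zpow_add]
    push_cast
    exact this
  calc s0 + 1 = ((Finset.range (s0 + 1)).image (fun s => j + s)).card := by
        rw [Finset.card_image_of_injective _ (add_right_injective j), Finset.card_range]
    _ ≤ _ := by
        refine Finset.card_le_card (hsub.trans (le_of_eq ?_))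
        congr!

open Classical in
/-- **LINE**: off a set of measure at most
`e + card Φ * ((n ρ + s0 + 1) θ / (s0 + 1)) + n e / M` every point of `D` has margin `m` in
direction `v`. -/
theorem line [Fintype Φ] (Δ : LData S V Φ Lab Dir) (σ : S → Lab) (v : Dir)
    (hcard : ∀ s s', (Δ.P v s).ncard = (Δ.P v s').ncard)
    {μ : Measure S} (hμ : RI μ) {D Dp D0 : Set S} (c0 e1 L1 τ : ℝ) (ρ r r' s0 n M : ℕ)
    (hL1 : 0 < L1) (hlip : Δ.B * (Δ.L * Δ.l (Δ.t v)) ≤ L1) (hlin : LinAt Δ σ v D0 c0 e1 ρ)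
    (hr : L1 * r ≤ c0 * ρ - e1) (he : 2 * e1 < c0 * ρ) (he1 : 0 ≤ e1) (hc0 : 0 ≤ c0)
    (hτ : L1 * s0 ≤ τ) (hrr : r' + s0 ≤ r)
    (hD : ∀ j ≤ n * ρ + s0, ∀ z ∈ D, z * Δ.t v ^ j ∈ Dp)
    {e θ : ℝ≥0∞} (hD0 : μ (Dp \ D0) ≤ e) (hθ : ∀ b, μ (Dp ∩ TolPk Δ b v r' τ) ≤ θ)
    {m : ℝ} (hm : m ≤ n * (c0 * ρ - e1) - (L1 + c0) * ρ * M) (hM : 0 < M) :
    μ {z ∈ D | ¬ Δ.Mg σ (n * ρ) m z v} ≤
      e + Fintype.card Φ * ((n * ρ + s0 + 1 : ℕ) * θ / (s0 + 1 : ℕ)) + n * e / M := by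
  set Z2 : Φ → Set S := fun b => {z ∈ D | ∃ j : ℕ, j ≤ n * ρ ∧ ∀ i : ℤ, |i| ≤ r →
      Δ.β b (Δ.f (z * Δ.t v ^ j * Δ.t v ^ i)) ≤ Δ.β b (Δ.f (z * Δ.t v ^ j))} with hZ2
  set Z3 : Set S := {z | M ≤ ((Finset.range n).filter fun i =>
    z ∈ (fun z => z * Δ.t v ^ (i * ρ)) ⁻¹' (Dp \ D0)).card} with hZ3
  have h1 : μ {z ∈ D | z ∉ D0} ≤ e := by
    refine le_trans (measure_mono ?_) hD0
    rintro z ⟨hz, hz0⟩
    have := hD 0 (Nat.zero_le _) z hz
    rw [pow_zero, mul_one] at this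
    exact ⟨this, hz0⟩
  have h2 : ∀ b, μ (Z2 b) ≤ (n * ρ + s0 + 1 : ℕ) * θ / (s0 + 1 : ℕ) := by
    intro b
    have := mu_exact_peak_le Δ b v hμ (D := D) (Dp := Dp) L1 τ r r' s0 (n * ρ) hL1.le hlip hτ hrr
      hD (hθ b)
    rw [ENNReal.le_div_iff_mul_le (Or.inl (by simp)) (Or.inl (ENNReal.natCast_ne_top _)), mul_comm]
    exact this
  have h3 : μ Z3 ≤ n * e / M := by
    have hm3 := markov_count μ (Finset.range n)
      (fun i => (fun z => z * Δ.t v ^ (i * ρ)) ⁻¹' (Dp \ D0)) M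
    have hs : ∑ i ∈ Finset.range n, μ ((fun z => z * Δ.t v ^ (i * ρ)) ⁻¹' (Dp \ D0))
        ≤ n * e := by
      refine (Finset.sum_le_sum fun i _ => (hμ _ _).trans hD0).trans ?_
      rw [Finset.sum_const, Finset.card_range, nsmul_eq_mul]
    rw [ENNReal.le_div_iff_mul_le (Or.inl (by exact_mod_cast hM.ne'))
      (Or.inl (ENNReal.natCast_ne_top _)), mul_comm]
    exact hm3.trans hs
  have hsub : {z ∈ D | ¬ Δ.Mg σ (n * ρ) m z v} ⊆
      ({z ∈ D | z ∉ D0} ∪ ⋃ b ∈ (Finset.univ : Finset Φ), Z2 b) ∪ Z3 := by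
    rintro z ⟨hz, hng⟩
    by_contra hcon
    rw [Set.mem_union, Set.mem_union, not_or, not_or] at hcon
    obtain ⟨⟨hn1, hn2⟩, hn3⟩ := hcon
    apply hng
    have hz0 : z ∈ D0 := by
      by_contra h
      exact hn1 ⟨hz, h⟩
    refine mg_of_line Δ σ v hcard D0 c0 e1 L1 ρ r n M hL1 hlip hlin hr he he1 hc0 hm z hz0 ?_ ?_
    · have h4 : ¬ M ≤ ((Finset.range n).filter fun i =>
        z ∈ (fun z => z * Δ.t v ^ (i * ρ)) ⁻¹' (Dp \ D0)).card := hn3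
      refine le_trans (Finset.card_le_card ?_) (not_le.1 h4).le
      intro i hi
      rw [Finset.mem_filter, Finset.mem_range] at hi ⊢
      refine ⟨hi.1, hD _ ?_ z hz, hi.2⟩
      calc i * ρ ≤ n * ρ := Nat.mul_le_mul_right _ hi.1.le
        _ ≤ n * ρ + s0 := Nat.le_add_right _ _
    · intro b j hj hpk
      apply hn2
      simp only [Set.mem_iUnion]
      exact ⟨b, Finset.mem_univ _, hz, j, hj, hpk⟩
  calc μ {z ∈ D | ¬ Δ.Mg σ (n * ρ) m z v}
      ≤ μ (({z ∈ D | z ∉ D0} ∪ ⋃ b ∈ (Finset.univ : Finset Φ), Z2 b) ∪ Z3) := measure_mono hsub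
    _ ≤ (μ {z ∈ D | z ∉ D0} + μ (⋃ b ∈ (Finset.univ : Finset Φ), Z2 b)) + μ Z3 :=
        (measure_union_le _ _).trans (add_le_add (measure_union_le _ _) le_rfl)
    _ ≤ (e + ∑ _b : Φ, ((n * ρ + s0 + 1 : ℕ) * θ / (s0 + 1 : ℕ))) + n * e / M := by
        refine add_le_add (add_le_add h1 ?_) h3
        exact (measure_biUnion_finset_le _ _).trans (Finset.sum_le_sum fun b _ => h2 b)
    _ = _ := by rw [Finset.sum_const, Finset.card_univ, nsmul_eq_mul]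

end Vale.P188.H654

end

end

section

/-!
# P188, D-block: LC with closeness of the two lines only for most points
-/

noncomputable section

namespace Vale.P188.H654

open MeasureTheory Finset
open scoped ENNReal

namespace LData

variable {S V Φ Lab Dir : Type*} [Group S] [NormedAddCommGroup V] (Δ : LData S V Φ Lab Dir)
variable (σ : S → Lab) (J : ℕ) (m d : ℝ)

/-- the lines through `z` and `z * g` in direction `v` have `d`-close images at both ends -/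
def NearAt (g : S) (v : Dir) (z : S) : Prop :=
  ∀ b, |Δ.β b (Δ.f (z * g)) - Δ.β b (Δ.f z)| ≤ d ∧
    |Δ.β b (Δ.f (z * g * Δ.t v ^ J)) - Δ.β b (Δ.f (z * Δ.t v ^ J))| ≤ d

/-- for every direction or its opposite -/
def Near (g : S) (z : S) : Prop := ∀ v, Δ.NearAt J d g v z ∨ Δ.NearAt J d g (Δ.neg v) z

variable {Δ σ J m d}

theorem P_eq_near {z g : S} {v : Dir} (hz : Δ.Mg σ J m z v) (hzg : Δ.Mg σ J m (z * g) v)
    (hg : Δ.NearAt J d g v z) (hd : d < m) : Δ.P v (σ z) = Δ.P v (σ (z * g)) := by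
  ext b
  have a0 := abs_le.1 (hg b).1
  have a1 := abs_le.1 (hg b).2
  constructor
  · intro hb
    by_contra hb'
    have e1 := (hz b).1 hb
    have e2 := (hzg b).2 hb'
    linarith [a0.1, a0.2, a1.1, a1.2]
  · intro hb
    by_contra hb'
    have e1 := (hz b).2 hb'
    have e2 := (hzg b).1 hb
    linarith [a0.1, a0.2, a1.1, a1.2]

/-- **LC**, deterministic form with `Near` -/
theorem sigma_eq_near {z g : S} (hz : Δ.Good σ J m z) (hzg : Δ.Good σ J m (z * g))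
    (hg : Δ.Near J d g z) (hd : d < m) : σ z = σ (z * g) := by
  apply Δ.P_inj
  intro v
  rcases hg v with h | h
  · exact P_eq_near (hz v) (hzg v) h hd
  · have := P_eq_near (hz (Δ.neg v)) (hzg (Δ.neg v)) h hd
    rw [Δ.P_neg, Δ.P_neg] at this
    exact compl_injective this

/-- **LC** along a list of moves -/
theorem sigma_eq_list_near {z : S} (gs : List S)
    (hgs : ∀ i < gs.length, Δ.Near J d (gs.getD i 1) (z * (gs.take i).prod))
    (hgood : ∀ i ≤ gs.length, Δ.Good σ J m (z * (gs.take i).prod)) (hd : d < m) :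
    σ z = σ (z * gs.prod) := by
  induction gs generalizing z with
  | nil => simp
  | cons g gs ih =>
    have h0 : Δ.Good σ J m z := by simpa using hgood 0 (Nat.zero_le _)
    have h1 : Δ.Good σ J m (z * g) := by
      have := hgood 1 (by simp)
      simpa using this
    have hg0 : Δ.Near J d g z := by
      have := hgs 0 (by simp)
      simpa using this
    have e1 := sigma_eq_near h0 h1 hg0 hd
    have e2 := ih (z := z * g) (by
      intro i hi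
      have := hgs (i + 1) (by simpa using hi)
      rw [List.take_succ_cons, List.prod_cons, ← mul_assoc] at this
      simpa using this) (by
      intro i hi
      have := hgood (i + 1) (by simpa using hi)
      rw [List.take_succ_cons, List.prod_cons, ← mul_assoc] at this
      exact this)
    rw [e1, e2, List.prod_cons, mul_assoc]

variable [MeasurableSpace S]

/-- **LC**, measure form: the label is preserved by any product of boundedly many moves `g`, each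
of which is near (`NearAt v` or `NearAt (-v)`, for every `v`) at most points. -/
theorem mu_sigma_ne_le' {μ : Measure S} (hμ : RI μ) (hd : d < m) {D Dp G : Set S}
    (hG : ∀ z ∈ G, Δ.Good σ J m z) (gs : List S) {e e' : ℝ≥0∞}
    (hgs : ∀ g ∈ gs, μ {z ∈ Dp | ¬ Δ.Near J d g z} ≤ e')
    (hD : ∀ i ≤ gs.length, ∀ z ∈ D, z * (gs.take i).prod ∈ Dp)
    (he : μ (Dp \ G) ≤ e) :
    μ {z ∈ D | σ (z * gs.prod) ≠ σ z} ≤ (gs.length + 1) * e + gs.length * e' := by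
  classical
  have h1 := mu_prefix_le hμ (n := gs.length) (fun i => (gs.take i).prod) hD he
  have h2 : μ {z ∈ D | ∃ i < gs.length, ¬ Δ.Near J d (gs.getD i 1) (z * (gs.take i).prod)}
      ≤ gs.length * e' := by
    have hsub : {z ∈ D | ∃ i < gs.length, ¬ Δ.Near J d (gs.getD i 1) (z * (gs.take i).prod)}
        ⊆ ⋃ i ∈ Finset.range gs.length, (fun z => z * (gs.take i).prod) ⁻¹'
          {z ∈ Dp | ¬ Δ.Near J d (gs.getD i 1) z} := by
      rintro z ⟨hz, i, hi, hn⟩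
      simp only [Set.mem_iUnion, Finset.mem_range]
      exact ⟨i, hi, hD i hi.le z hz, hn⟩
    calc μ _ ≤ μ _ := measure_mono hsub
      _ ≤ ∑ i ∈ Finset.range gs.length, μ ((fun z => z * (gs.take i).prod) ⁻¹'
          {z ∈ Dp | ¬ Δ.Near J d (gs.getD i 1) z}) := measure_biUnion_finset_le _ _
      _ ≤ ∑ _i ∈ Finset.range gs.length, e' := by
          refine Finset.sum_le_sum fun i hi => (hμ _ _).trans (hgs _ ?_)
          rw [Finset.mem_range] at hi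
          rw [List.getD_eq_getElem _ _ hi]
          exact List.getElem_mem hi
      _ = gs.length * e' := by simp
  have hsub : {z ∈ D | σ (z * gs.prod) ≠ σ z} ⊆
      {z ∈ D | ∃ i ≤ gs.length, z * (gs.take i).prod ∉ G} ∪
      {z ∈ D | ∃ i < gs.length, ¬ Δ.Near J d (gs.getD i 1) (z * (gs.take i).prod)} := by
    rintro z ⟨hz, hne⟩
    by_contra hcon
    rw [Set.mem_union, not_or] at hcon
    have c1 : ∀ i ≤ gs.length, z * (gs.take i).prod ∈ G := by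
      intro i hi
      by_contra h
      exact hcon.1 ⟨hz, i, hi, h⟩
    have c2 : ∀ i < gs.length, Δ.Near J d (gs.getD i 1) (z * (gs.take i).prod) := by
      intro i hi
      by_contra h
      exact hcon.2 ⟨hz, i, hi, h⟩
    exact hne (sigma_eq_list_near gs c2 (fun i hi => hG _ (c1 i hi)) hd).symm
  calc μ {z ∈ D | σ (z * gs.prod) ≠ σ z} ≤ μ _ := measure_mono hsub
    _ ≤ _ := (measure_union_le _ _).trans (add_le_add h1 h2)

end LData

end Vale.P188.H654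

end

end
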