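import Vale.Agent.P188.R.G002

section

/-! P188, block COH: ray maps of linear parts. -/

open Set Module

namespace Vale.Agent.P188.H530

variable {E : Type*} [NormedAddCommGroup E] [NormedSpace ℝ E]

/-- Inverse of an endomorphism which is bounded below. -/
theorem exists_inverse [FiniteDimensional ℝ E] {T : E →L[ℝ] E} {c₁ : ℝ} (hc₁ : 0 < c₁)
    (h : ∀ w, c₁ * ‖w‖ ≤ ‖T w‖) :
    ∃ T' : E →L[ℝ] E, (∀ x, T' (T x) = x) ∧ (∀ y, T (T' y) = y) ∧ ‖T'‖ ≤ c₁⁻¹ := by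
  have hinj : Function.Injective T.toLinearMap := by
    intro x y hxy
    have h1 := h (x - y)
    have h2 : T (x - y) = 0 := by
      rw [map_sub, sub_eq_zero]; exact hxy
    rw [h2, norm_zero] at h1
    have h3 : ‖x - y‖ ≤ 0 := by
      by_contra hcon
      push Not at hcon
      have := mul_pos hc₁ hcon
      linarith
    exact sub_eq_zero.mp (norm_le_zero_iff.mp h3)
  let e := LinearEquiv.ofInjectiveEndo T.toLinearMap hinj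
  let e' := e.symm.toContinuousLinearEquiv
  have h1 : ∀ x, e' (T x) = x := fun x => e.symm_apply_apply x
  have h2 : ∀ y, T (e' y) = y := fun y => e.apply_symm_apply y
  refine ⟨(e' : E →L[ℝ] E), h1, h2, ?_⟩
  refine ContinuousLinearMap.opNorm_le_bound _ (by positivity) fun y => ?_
  have h3 := h (e' y)
  rw [h2 y] at h3
  rw [inv_mul_eq_div, le_div_iff₀ hc₁, mul_comm]
  exact h3

/-- Different rays of a finite set are separated. -/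
theorem exists_ray_sep (Φ₁ : Finset (E →L[ℝ] ℝ)) (h0 : ∀ b ∈ Φ₁, b ≠ 0)
    (h : ∀ b ∈ Φ₁, ∀ b' ∈ Φ₁, ∀ t : ℝ, 0 < t → b = t • b' → b = b') :
    ∃ δ : ℝ, 0 < δ ∧ ∀ b ∈ Φ₁, ∀ b' ∈ Φ₁, b ≠ b' → ∀ t : ℝ, 0 ≤ t → δ ≤ ‖b - t • b'‖ := by
  classical
  -- one pair
  have h1 : ∀ b ∈ Φ₁, ∀ b' ∈ Φ₁, b ≠ b' → ∃ δ : ℝ, 0 < δ ∧ ∀ t : ℝ, 0 ≤ t → δ ≤ ‖b - t • b'‖ := by
    intro b hb b' hb' hne
    have hb0 := h0 b hb
    have hb0' := h0 b' hb'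
    have hnb : 0 < ‖b‖ := norm_pos_iff.mpr hb0
    have hnb' : 0 < ‖b'‖ := norm_pos_iff.mpr hb0'
    set T := 2 * ‖b‖ / ‖b'‖ with hT
    have hT0 : 0 ≤ T := by positivity
    obtain ⟨t₀, ht₀, hmin⟩ := isCompact_Icc.exists_isMinOn (s := Icc (0:ℝ) T) (nonempty_Icc.mpr hT0)
      (f := fun t : ℝ => ‖b - t • b'‖) (by fun_prop)
    have hpos : 0 < ‖b - t₀ • b'‖ := by
      rw [norm_pos_iff, sub_ne_zero]
      intro heq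
      rcases ht₀.1.eq_or_lt with h2 | h2
      · rw [← h2, zero_smul] at heq
        exact hb0 heq
      · exact hne (h b hb b' hb' t₀ h2 heq)
    refine ⟨min ‖b - t₀ • b'‖ ‖b‖, lt_min hpos hnb, fun t ht => ?_⟩
    by_cases htT : t ≤ T
    · exact (min_le_left _ _).trans (hmin ⟨ht, htT⟩)
    · push Not at htT
      refine (min_le_right _ _).trans ?_
      have h3 : ‖t • b'‖ - ‖b‖ ≤ ‖b - t • b'‖ := by
        rw [norm_sub_rev]; exact norm_sub_norm_le _ _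
      have h4 : 2 * ‖b‖ ≤ ‖t • b'‖ := by
        rw [norm_smul, Real.norm_of_nonneg ht]
        rw [hT, div_lt_iff₀ hnb'] at htT
        exact htT.le
      linarith
  have h2 : ∀ p : {p : (E →L[ℝ] ℝ) × (E →L[ℝ] ℝ) // p ∈ (Φ₁ ×ˢ Φ₁)}, ∃ δ : ℝ, 0 < δ ∧
      (p.1.1 ≠ p.1.2 → ∀ t : ℝ, 0 ≤ t → δ ≤ ‖p.1.1 - t • p.1.2‖) := by
    rintro ⟨⟨b, b'⟩, hp⟩
    rw [Finset.mem_product] at hp
    by_cases hne : b = b'
    · exact ⟨1, one_pos, fun h => absurd hne h⟩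
    · obtain ⟨δ, hδ, hδ'⟩ := h1 b hp.1 b' hp.2 hne
      exact ⟨δ, hδ, fun _ => hδ'⟩
  choose δ hδ hδ' using h2
  obtain ⟨δ₀, hδ₀, hδ₀'⟩ : ∃ δ₀ : ℝ, 0 < δ₀ ∧ ∀ p, δ₀ ≤ δ p := by
    rcases isEmpty_or_nonempty {p : (E →L[ℝ] ℝ) × (E →L[ℝ] ℝ) // p ∈ (Φ₁ ×ˢ Φ₁)} with hι | hι
    · exact ⟨1, one_pos, fun i => isEmptyElim i⟩
    · refine ⟨Finset.univ.inf' Finset.univ_nonempty δ, ?_, fun i => Finset.inf'_le _ (by simp)⟩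
      rw [Finset.lt_inf'_iff]
      exact fun i _ => hδ i
  refine ⟨δ₀, hδ₀, fun b hb b' hb' hne t ht => ?_⟩
  have hp : (b, b') ∈ Φ₁ ×ˢ Φ₁ := Finset.mem_product.mpr ⟨hb, hb'⟩
  exact (hδ₀' ⟨(b, b'), hp⟩).trans (hδ' ⟨(b, b'), hp⟩ hne t ht)

/-- `T` maps the rays of `Φ₁` to rays, up to `δ`: `b ∘ T ≈ t b • β b`. -/
structure RayLin (Φ₁ : Finset (E →L[ℝ] ℝ)) (T : E →L[ℝ] E) (β : (E →L[ℝ] ℝ) → (E →L[ℝ] ℝ))
    (t : (E →L[ℝ] ℝ) → ℝ) (t₀ t₁ δ : ℝ) : Prop where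
  maps : ∀ b ∈ Φ₁, β b ∈ Φ₁
  inj : ∀ b ∈ Φ₁, ∀ b' ∈ Φ₁, β b = β b' → b = b'
  lo : ∀ b ∈ Φ₁, t₀ ≤ t b
  hi : ∀ b ∈ Φ₁, t b ≤ t₁
  close : ∀ b ∈ Φ₁, ‖b.comp T - t b • β b‖ ≤ δ

theorem comp_norm_ge {T T' : E →L[ℝ] E} (h : ∀ y, T (T' y) = y) {c₁ : ℝ} (hc₁ : 0 < c₁)
    (hT' : ‖T'‖ ≤ c₁⁻¹) (b : E →L[ℝ] ℝ) : c₁ * ‖b‖ ≤ ‖b.comp T‖ := by
  have e : b = (b.comp T).comp T' := by
    ext y; simp [h y]
  have h1 : ‖b‖ ≤ ‖b.comp T‖ * c₁⁻¹ := by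
    conv_lhs => rw [e]
    refine (ContinuousLinearMap.opNorm_comp_le _ _).trans ?_
    gcongr
  rw [← div_eq_mul_inv, le_div_iff₀ hc₁] at h1
  linarith

theorem rayLin_lo {T T' : E →L[ℝ] E} (h : ∀ y, T (T' y) = y) {c₁ : ℝ} (hc₁ : 0 < c₁)
    (hT' : ‖T'‖ ≤ c₁⁻¹) {b b' : E →L[ℝ] ℝ} {t δ m B : ℝ} (ht : 0 ≤ t) (hm : m ≤ ‖b‖) (hB0 : 0 < B)
    (hB : ‖b'‖ ≤ B) (hδ : δ ≤ c₁ * m / 2) (hcl : ‖b.comp T - t • b'‖ ≤ δ) :
    c₁ * m / (2 * B) ≤ t := by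
  have h1 := comp_norm_ge h hc₁ hT' b
  have h3 : ‖b.comp T‖ ≤ t * ‖b'‖ + δ := by
    have := norm_sub_norm_le (b.comp T) (t • b')
    rw [norm_smul, Real.norm_of_nonneg ht] at this
    linarith
  have h4 : t * ‖b'‖ ≤ t * B := mul_le_mul_of_nonneg_left hB ht
  have h5 : c₁ * m ≤ c₁ * ‖b‖ := mul_le_mul_of_nonneg_left hm hc₁.le
  rw [div_le_iff₀ (by positivity)]
  linarith

theorem rayLin_hi {T : E →L[ℝ] E} {b b' : E →L[ℝ] ℝ} {t δ m B L : ℝ} (ht : 0 ≤ t) (hm0 : 0 < m)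
    (hm : m ≤ ‖b'‖) (hB0 : 0 < B) (hT : ‖T‖ ≤ L)
    (hB : ‖b‖ ≤ B) (hδ : δ ≤ 1) (hcl : ‖b.comp T - t • b'‖ ≤ δ) :
    t ≤ (L * B + 1) / m := by
  have h1 : ‖b.comp T‖ ≤ B * L :=
    (ContinuousLinearMap.opNorm_comp_le _ _).trans (mul_le_mul hB hT (norm_nonneg _) hB0.le)
  have h3 : t * ‖b'‖ ≤ ‖b.comp T‖ + δ := by
    have := norm_sub_norm_le (t • b') (b.comp T)
    rw [norm_sub_rev, norm_smul, Real.norm_of_nonneg ht] at this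
    linarith
  have h4 : t * m ≤ t * ‖b'‖ := mul_le_mul_of_nonneg_left hm ht
  rw [le_div_iff₀ hm0]
  linarith

theorem rayLin_inj {T T' : E →L[ℝ] E} (h : ∀ y, T (T' y) = y) {c₁ : ℝ} (hc₁ : 0 < c₁)
    (hT' : ‖T'‖ ≤ c₁⁻¹) {b b' c : E →L[ℝ] ℝ} {t t' δ δs t₀ t₁ : ℝ} (ht₀0 : 0 < t₀)
    (ht : t₀ ≤ t) (ht1 : t ≤ t₁) (ht' : t₀ ≤ t') (hδs : 0 < δs)
    (hsep : ∀ s : ℝ, 0 ≤ s → δs ≤ ‖b - s • b'‖)
    (hδ3 : δ ≤ δs * c₁ / (2 * (1 + t₁ / t₀)))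
    (h1 : ‖b.comp T - t • c‖ ≤ δ) (h2 : ‖b'.comp T - t' • c‖ ≤ δ) : False := by
  have htb' : 0 < t' := lt_of_lt_of_le ht₀0 ht'
  have htb : 0 < t := lt_of_lt_of_le ht₀0 ht
  have ht₁0 : 0 < t₁ := lt_of_lt_of_le htb ht1
  obtain ⟨s, hs⟩ : ∃ s, s = t / t' := ⟨_, rfl⟩
  have hs0 : 0 ≤ s := by rw [hs]; positivity
  have hs1 : s ≤ t₁ / t₀ := by
    rw [hs]
    exact div_le_div₀ ht₁0.le ht1 ht₀0 ht'
  have h3 : ‖(b - s • b').comp T‖ ≤ δ * (1 + t₁ / t₀) := by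
    have e : (b - s • b').comp T = (b.comp T - t • c) - s • (b'.comp T - t' • c) := by
      have e1 : s • t' • c = t • c := by
        rw [smul_smul, hs, div_mul_cancel₀ _ htb'.ne']
      rw [smul_sub, e1, ContinuousLinearMap.sub_comp, ContinuousLinearMap.smul_comp]
      abel
    rw [e]
    refine (norm_sub_le _ _).trans ?_
    rw [norm_smul, Real.norm_of_nonneg hs0]
    have hδ0 : 0 ≤ δ := (norm_nonneg _).trans h1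
    have : s * ‖b'.comp T - t' • c‖ ≤ (t₁ / t₀) * δ := by gcongr
    linarith
  have h4 := comp_norm_ge h hc₁ hT' (b - s • b')
  have h5 := hsep s hs0
  have h6 : c₁ * δs ≤ δ * (1 + t₁ / t₀) := by
    calc c₁ * δs ≤ c₁ * ‖b - s • b'‖ := by gcongr
      _ ≤ _ := h4.trans h3
  have h7 : δ * (1 + t₁ / t₀) ≤ δs * c₁ / 2 := by
    rw [le_div_iff₀ (by positivity)] at hδ3
    linarith
  have : 0 < c₁ * δs := by positivity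
  linarith

theorem exists_min_norm (Φ₁ : Finset (E →L[ℝ] ℝ)) (h0 : ∀ b ∈ Φ₁, b ≠ 0) :
    ∃ m : ℝ, 0 < m ∧ ∀ b ∈ Φ₁, m ≤ ‖b‖ := by
  rcases Φ₁.eq_empty_or_nonempty with he | hne
  · exact ⟨1, one_pos, fun b hb => by simp [he] at hb⟩
  · refine ⟨Φ₁.inf' hne fun b => ‖b‖, ?_, fun b hb => Finset.inf'_le _ hb⟩
    rw [Finset.lt_inf'_iff]
    exact fun b hb => norm_pos_iff.mpr (h0 b hb)

theorem exists_max_norm (Φ₁ : Finset (E →L[ℝ] ℝ)) :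
    ∃ B : ℝ, 0 < B ∧ ∀ b ∈ Φ₁, ‖b‖ ≤ B := by
  rcases Φ₁.eq_empty_or_nonempty with he | hne
  · exact ⟨1, one_pos, fun b hb => by simp [he] at hb⟩
  · refine ⟨max 1 (Φ₁.sup' hne fun b => ‖b‖), lt_of_lt_of_le one_pos (le_max_left _ _),
      fun b hb => (Finset.le_sup' (fun b : E →L[ℝ] ℝ => ‖b‖) hb).trans (le_max_right _ _)⟩

open Classical in
/-- If each `b ∘ T` is close to a nonnegative multiple of an element of `Φ`, then the choice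
functions. -/
theorem exists_choice {Φ Φ₁ : Finset (E →L[ℝ] ℝ)}
    (hrep : ∀ b ∈ Φ, ∃ b₁ ∈ Φ₁, ∃ t : ℝ, 0 < t ∧ b = t • b₁) {δ : ℝ} {T : E →L[ℝ] E}
    (hray : ∀ b ∈ Φ₁, ∃ b' ∈ Φ, ∃ t : ℝ, 0 ≤ t ∧ ‖b.comp T - t • b'‖ ≤ δ) :
    ∃ (β : (E →L[ℝ] ℝ) → (E →L[ℝ] ℝ)) (t : (E →L[ℝ] ℝ) → ℝ), (∀ b ∈ Φ₁, β b ∈ Φ₁) ∧
      (∀ b ∈ Φ₁, 0 ≤ t b) ∧ ∀ b ∈ Φ₁, ‖b.comp T - t b • β b‖ ≤ δ := by
  have hray' : ∀ b : E →L[ℝ] ℝ, ∃ (b' : E →L[ℝ] ℝ) (t : ℝ),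
      b ∈ Φ₁ → (b' ∈ Φ₁ ∧ 0 ≤ t ∧ ‖b.comp T - t • b'‖ ≤ δ) := by
    intro b
    by_cases hb : b ∈ Φ₁
    · obtain ⟨b', hb', t, ht, h⟩ := hray b hb
      obtain ⟨b₁, hb₁, s, hs, rfl⟩ := hrep b' hb'
      exact ⟨b₁, t * s, fun _ => ⟨hb₁, by positivity, by rwa [mul_smul]⟩⟩
    · exact ⟨b, 0, fun h => absurd h hb⟩
  choose β t h using hray'
  exact ⟨β, t, fun b hb => (h b hb).1, fun b hb => (h b hb).2.1, fun b hb => (h b hb).2.2⟩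

/-- If each `b ∘ T` is close to a nonnegative multiple of an element of `Φ`, then `T` is
`RayLin`. -/
theorem exists_rayLin [FiniteDimensional ℝ E] (Φ Φ₁ : Finset (E →L[ℝ] ℝ)) (h0 : ∀ b ∈ Φ, b ≠ 0)
    (hsub : Φ₁ ⊆ Φ) (hrep : ∀ b ∈ Φ, ∃ b₁ ∈ Φ₁, ∃ t : ℝ, 0 < t ∧ b = t • b₁)
    (huniq : ∀ b ∈ Φ₁, ∀ b' ∈ Φ₁, ∀ t : ℝ, 0 < t → b = t • b' → b = b') {L c₁ : ℝ}
    (hL : 0 ≤ L) (hc₁ : 0 < c₁) :
    ∃ t₀ t₁ δ₀ : ℝ, 0 < t₀ ∧ 0 < t₁ ∧ 0 < δ₀ ∧ ∀ δ : ℝ, δ ≤ δ₀ → ∀ T : E →L[ℝ] E, ‖T‖ ≤ L →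
      (∀ w, c₁ * ‖w‖ ≤ ‖T w‖) →
      (∀ b ∈ Φ₁, ∃ b' ∈ Φ, ∃ t : ℝ, 0 ≤ t ∧ ‖b.comp T - t • b'‖ ≤ δ) →
      ∃ β t, RayLin Φ₁ T β t t₀ t₁ δ := by
  obtain ⟨δs, hδs, hsep⟩ := exists_ray_sep Φ₁ (fun b hb => h0 b (hsub hb)) huniq
  obtain ⟨m, hm, hm'⟩ := exists_min_norm Φ₁ fun b hb => h0 b (hsub hb)
  obtain ⟨B, hB, hB'⟩ := exists_max_norm Φ₁
  obtain ⟨t₀, ht₀⟩ : ∃ t₀, t₀ = c₁ * m / (2 * B) := ⟨_, rfl⟩
  have ht₀0 : 0 < t₀ := by rw [ht₀]; positivity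
  obtain ⟨t₁, ht₁⟩ : ∃ t₁, t₁ = (L * B + 1) / m := ⟨_, rfl⟩
  have ht₁0 : 0 < t₁ := by rw [ht₁]; positivity
  refine ⟨t₀, t₁, min (min 1 (c₁ * m / 2)) (δs * c₁ / (2 * (1 + t₁ / t₀))), ht₀0, ht₁0,
    lt_min (lt_min one_pos (by positivity)) (by positivity), fun δ hδ T hT hTlow hray => ?_⟩
  obtain ⟨T', -, hT'2, hT'n⟩ := exists_inverse hc₁ hTlow
  obtain ⟨β, t, hβ, ht0, hcl⟩ := exists_choice hrep hray
  have hδ1 : δ ≤ 1 := hδ.trans ((min_le_left _ _).trans (min_le_left _ _))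
  have hδ2 : δ ≤ c₁ * m / 2 := hδ.trans ((min_le_left _ _).trans (min_le_right _ _))
  have hδ3 : δ ≤ δs * c₁ / (2 * (1 + t₁ / t₀)) := hδ.trans (min_le_right _ _)
  have hlo : ∀ b ∈ Φ₁, t₀ ≤ t b := by
    intro b hb
    rw [ht₀]
    exact rayLin_lo hT'2 hc₁ hT'n (ht0 b hb) (hm' b hb) hB (hB' _ (hβ b hb)) hδ2 (hcl b hb)
  have hhi : ∀ b ∈ Φ₁, t b ≤ t₁ := by
    intro b hb
    rw [ht₁]
    exact rayLin_hi (ht0 b hb) hm (hm' _ (hβ b hb)) hB hT (hB' b hb) hδ1 (hcl b hb)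
  refine ⟨β, t, hβ, ?_, hlo, hhi, hcl⟩
  intro b hb b' hb' heq
  by_contra hne
  have h2 := hcl b' hb'
  rw [← heq] at h2
  exact rayLin_inj hT'2 hc₁ hT'n ht₀0 (hlo b hb) (hhi b hb) (hlo b' hb') hδs
    (hsep b hb b' hb' hne) hδ3 (hcl b hb) h2

end Vale.Agent.P188.H530

end

section

/-! P188, block COH: ray maps, sign patterns, dual bases. -/

open Set Module

namespace Vale.Agent.P188.H530

variable {E : Type*} [NormedAddCommGroup E] [NormedSpace ℝ E]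

theorem RayLin.surj {Φ₁ : Finset (E →L[ℝ] ℝ)} {T : E →L[ℝ] E}
    {β : (E →L[ℝ] ℝ) → (E →L[ℝ] ℝ)} {t : (E →L[ℝ] ℝ) → ℝ} {t₀ t₁ δ : ℝ}
    (h : RayLin Φ₁ T β t t₀ t₁ δ) : ∀ c ∈ Φ₁, ∃ b ∈ Φ₁, β b = c := by
  intro c hc
  have h1 := Finset.surj_on_of_inj_on_of_card_le (s := Φ₁) (t := Φ₁) (fun b _ => β b)
    (fun b hb => h.maps b hb) (fun b b' hb hb' heq => h.inj b hb b' hb' heq) le_rfl c hc
  obtain ⟨b, hb, h2⟩ := h1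
  exact ⟨b, hb, h2.symm⟩

/-- Two linear parts with the same ray map: `T₁⁻¹ T₂` preserves the rays. -/
theorem rayLin_same {Φ₁ : Finset (E →L[ℝ] ℝ)} {T₁ T₂ T₁' : E →L[ℝ] E}
    {β β₂ : (E →L[ℝ] ℝ) → (E →L[ℝ] ℝ)} {t s : (E →L[ℝ] ℝ) → ℝ} {t₀ t₁ δ L L' B : ℝ}
    (ht₀ : 0 < t₀) (hT₂ : ‖T₂‖ ≤ L) (hB : ∀ b ∈ Φ₁, ‖b‖ ≤ B)
    (hinv : ∀ y, ‖T₁ (T₁' y) - y‖ ≤ δ * ‖y‖) (hT₁' : ‖T₁'‖ ≤ L')
    (h1 : RayLin Φ₁ T₁ β t t₀ t₁ δ) (h2 : RayLin Φ₁ T₂ β₂ s t₀ t₁ δ)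
    (hβ : ∀ b ∈ Φ₁, β b = β₂ b) :
    ∀ c ∈ Φ₁, ∃ d : ℝ, 0 ≤ d ∧
      ‖c.comp (T₁'.comp T₂) - d • c‖ ≤ (1 + L' * L + B * L) / t₀ * δ := by
  intro c hc
  obtain ⟨b, hb, rfl⟩ := h1.surj c hc
  have htb : 0 < t b := lt_of_lt_of_le ht₀ (h1.lo b hb)
  have hsb : 0 < s b := lt_of_lt_of_le ht₀ (h2.lo b hb)
  have k1 := h1.close b hb
  have k2 := h2.close b hb
  rw [← hβ b hb] at k2
  have hδ : 0 ≤ δ := (norm_nonneg _).trans k1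
  have hL : 0 ≤ L := (norm_nonneg _).trans hT₂
  have hL' : 0 ≤ L' := (norm_nonneg _).trans hT₁'
  have hB0 : 0 ≤ B := (norm_nonneg _).trans (hB b hb)
  refine ⟨s b / t b, by positivity, ?_⟩
  have e : (β b).comp (T₁'.comp T₂) - (s b / t b) • β b =
      (t b)⁻¹ • ((b.comp T₂ - s b • β b) - ((b.comp T₁ - t b • β b).comp T₁').comp T₂ +
        (b.comp (T₁.comp T₁' - ContinuousLinearMap.id ℝ E)).comp T₂) := by
    ext x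
    simp only [ContinuousLinearMap.sub_apply, ContinuousLinearMap.comp_apply,
      ContinuousLinearMap.smul_apply, smul_eq_mul, ContinuousLinearMap.add_apply, map_sub,
      ContinuousLinearMap.id_apply]
    field_simp
    ring
  rw [e, norm_smul, norm_inv, Real.norm_of_nonneg htb.le]
  have n1 : ‖((b.comp T₁ - t b • β b).comp T₁').comp T₂‖ ≤ δ * L' * L := by
    refine (ContinuousLinearMap.opNorm_comp_le _ _).trans ?_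
    have : ‖(b.comp T₁ - t b • β b).comp T₁'‖ ≤ δ * L' :=
      (ContinuousLinearMap.opNorm_comp_le _ _).trans (by gcongr)
    gcongr
  have n3 : ‖(b.comp (T₁.comp T₁' - ContinuousLinearMap.id ℝ E)).comp T₂‖ ≤ B * δ * L := by
    refine (ContinuousLinearMap.opNorm_comp_le _ _).trans ?_
    have h3 : ‖T₁.comp T₁' - ContinuousLinearMap.id ℝ E‖ ≤ δ :=
      ContinuousLinearMap.opNorm_le_bound _ hδ fun y => by simpa using hinv y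
    have : ‖b.comp (T₁.comp T₁' - ContinuousLinearMap.id ℝ E)‖ ≤ B * δ := by
      refine (ContinuousLinearMap.opNorm_comp_le _ _).trans ?_
      have := hB b hb
      gcongr
    gcongr
  have n2 : ‖(b.comp T₂ - s b • β b) - ((b.comp T₁ - t b • β b).comp T₁').comp T₂ +
        (b.comp (T₁.comp T₁' - ContinuousLinearMap.id ℝ E)).comp T₂‖ ≤
      (δ + δ * L' * L) + B * δ * L :=
    (norm_add_le _ _).trans (add_le_add ((norm_sub_le _ _).trans (add_le_add k2 n1)) n3)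
  calc (t b)⁻¹ * _ ≤ t₀⁻¹ * ((δ + δ * L' * L) + B * δ * L) := by
        gcongr
        exact h1.lo b hb
    _ = _ := by ring

/-- A dual basis with functionals in a spanning finite set. -/
theorem exists_dual_basis [FiniteDimensional ℝ E] (Φ₁ : Finset (E →L[ℝ] ℝ))
    (hsp : ∀ w, (∀ b ∈ Φ₁, b w = 0) → w = 0) :
    ∃ (v : Basis (Fin (finrank ℝ (Dual ℝ E))) ℝ E)
      (b : Fin (finrank ℝ (Dual ℝ E)) → E →L[ℝ] ℝ),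
      (∀ i, b i ∈ Φ₁) ∧ ∀ i j, b j (v i) = if i = j then 1 else 0 := by
  classical
  set s : Set (Dual ℝ E) := (fun b : E →L[ℝ] ℝ => (b : E →ₗ[ℝ] ℝ)) '' (Φ₁ : Set (E →L[ℝ] ℝ))
    with hs
  have hco : (Submodule.span ℝ s).dualCoannihilator = ⊥ := by
    rw [eq_bot_iff]
    intro w hw
    rw [Submodule.mem_dualCoannihilator] at hw
    rw [Submodule.mem_bot]
    exact hsp w fun b hb => hw _ (Submodule.subset_span ⟨b, hb, rfl⟩)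
  have hspan : ⊤ ≤ Submodule.span ℝ s := by
    have h1 := Subspace.dualCoannihilator_dualAnnihilator_eq (W := Submodule.span ℝ s)
    rw [hco, Submodule.dualAnnihilator_bot] at h1
    exact h1.le
  let B₀ := Basis.ofSpan hspan
  have hfin : Finite ((linearIndepOn_empty ℝ id).extend (empty_subset s)) :=
    Module.Finite.finite_basis B₀
  let _ : Fintype ((linearIndepOn_empty ℝ id).extend (empty_subset s)) := Fintype.ofFinite _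
  let B : Basis (Fin (finrank ℝ (Dual ℝ E))) ℝ (Dual ℝ E) :=
    B₀.reindex (Fintype.equivFinOfCardEq (Module.finrank_eq_card_basis B₀).symm)
  have hB : ∀ i, ∃ b ∈ Φ₁, (b : E →ₗ[ℝ] ℝ) = B i := by
    intro i
    have h2 : B i ∈ s := by
      have h3 : B i ∈ range B₀ := by
        rw [Basis.reindex_apply]
        exact mem_range_self _
      exact Basis.ofSpan_subset hspan h3
    obtain ⟨b, hb, h⟩ := h2
    exact ⟨b, hb, h⟩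
  choose b hb hbB using hB
  refine ⟨B.dualBasis.map (Module.evalEquiv ℝ E).symm, b, hb, fun i j => ?_⟩
  have h4 : b j ((B.dualBasis.map (Module.evalEquiv ℝ E).symm) i) =
      (B j) ((Module.evalEquiv ℝ E).symm (B.dualBasis i)) := by
    rw [Basis.map_apply, ← hbB j]
    rfl
  rw [h4]
  have h5 : (B j) ((Module.evalEquiv ℝ E).symm (B.dualBasis i)) = B.dualBasis i (B j) := by
    have := Module.evalEquiv_apply (R := ℝ) (M := E)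
      ((Module.evalEquiv ℝ E).symm (B.dualBasis i)) 
    conv_rhs => rw [← LinearEquiv.apply_symm_apply (Module.evalEquiv ℝ E) (B.dualBasis i)]
    rfl
  rw [h5, Basis.dualBasis_apply_self]
  simp [eq_comm]

/-- Almost eigenfunctionals give almost eigenvectors. -/
theorem eigen_of_dual {ι : Type*} [Fintype ι] [DecidableEq ι] (v : Basis ι ℝ E)
    (b : ι → E →L[ℝ] ℝ) (hb : ∀ i j, b j (v i) = if i = j then 1 else 0) {V : ℝ}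
    (hV : ∀ i, ‖v i‖ ≤ V) {A : E →L[ℝ] E} {η : ℝ} (hη : 0 ≤ η)
    (h : ∀ i, ∃ d : ℝ, 0 ≤ d ∧ ‖(b i).comp A - d • b i‖ ≤ η) (i : ι) :
    ∃ d : ℝ, 0 ≤ d ∧ ‖A (v i) - d • v i‖ ≤ Fintype.card ι * (V * V) * η := by
  have hV0 : 0 ≤ V := (norm_nonneg _).trans (hV i)
  have hrep : ∀ x : E, x = ∑ j, b j x • v j := by
    intro x
    have h1 : ∀ j, v.repr x j = b j x := by
      intro j
      conv_rhs => rw [← v.sum_repr x]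
      rw [map_sum]
      simp [hb]
    conv_lhs => rw [← v.sum_repr x]
    simp [h1]
  choose d hd0 hd using h
  refine ⟨d i, hd0 i, ?_⟩
  rw [hrep (A (v i) - d i • v i)]
  refine (norm_sum_le _ _).trans ?_
  have h2 : ∀ j, ‖b j (A (v i) - d i • v i) • v j‖ ≤ (V * V) * η := by
    intro j
    rw [norm_smul]
    have h3 : ‖b j (A (v i) - d i • v i)‖ ≤ η * V := by
      have e : b j (A (v i) - d i • v i) = ((b j).comp A - d j • b j) (v i) := by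
        simp only [map_sub, map_smul, ContinuousLinearMap.sub_apply,
          ContinuousLinearMap.comp_apply, ContinuousLinearMap.smul_apply, smul_eq_mul, hb]
        by_cases hij : i = j
        · rw [hij]
        · simp [hij]
      rw [e]
      refine (ContinuousLinearMap.le_opNorm _ _).trans ?_
      have := hd j
      have := hV i
      gcongr
    calc ‖b j (A (v i) - d i • v i)‖ * ‖v j‖ ≤ (η * V) * V := by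
          have := hV j
          gcongr
      _ = _ := by ring
  refine (Finset.sum_le_sum fun j _ => h2 j).trans ?_
  rw [Finset.sum_const, Finset.card_univ, nsmul_eq_mul]
  exact le_of_eq (by ring)

/-- The sign of `b (T v)` is the sign of `β b v`. -/
theorem RayLin.sign {Φ₁ : Finset (E →L[ℝ] ℝ)} {T : E →L[ℝ] E}
    {β : (E →L[ℝ] ℝ) → (E →L[ℝ] ℝ)} {t : (E →L[ℝ] ℝ) → ℝ} {t₀ t₁ δ : ℝ}
    (h : RayLin Φ₁ T β t t₀ t₁ δ) {v : E} {δ₁ c₀ : ℝ} (hδ₁ : 0 ≤ δ₁) (ht₀ : 0 ≤ t₀)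
    (hv : ∀ b ∈ Φ₁, δ₁ ≤ |b v|) (hne : ∀ b ∈ Φ₁, b v ≠ 0) (hc : c₀ + δ * ‖v‖ ≤ t₀ * δ₁) :
    ∀ b ∈ Φ₁, (0 < β b v ∧ c₀ ≤ b (T v)) ∨ (β b v < 0 ∧ b (T v) ≤ -c₀) := by
  intro b hb
  have h1 : ‖(b.comp T - t b • β b) v‖ ≤ δ * ‖v‖ :=
    (ContinuousLinearMap.le_opNorm _ _).trans (by have := h.close b hb; gcongr)
  have h2 : |b (T v) - t b * β b v| ≤ δ * ‖v‖ := by
    have e : (b.comp T - t b • β b) v = b (T v) - t b * β b v := by simp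
    rw [e, Real.norm_eq_abs] at h1
    exact h1
  rw [abs_le] at h2
  have h3 := hv _ (h.maps b hb)
  have h4 := h.lo b hb
  have htb : 0 ≤ t b := ht₀.trans h4
  rcases lt_or_gt_of_ne (hne _ (h.maps b hb)) with h5 | h5
  · right
    refine ⟨h5, ?_⟩
    rw [abs_of_neg h5] at h3
    have : t₀ * δ₁ ≤ t b * (-(β b v)) := by gcongr
    linarith [h2.2]
  · left
    refine ⟨h5, ?_⟩
    rw [abs_of_pos h5] at h3
    have : t₀ * δ₁ ≤ t b * (β b v) := by gcongr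
    linarith [h2.1]

/-- The number of rays growing in direction `v` is preserved. -/
theorem RayLin.ncard {Φ₁ : Finset (E →L[ℝ] ℝ)} {T : E →L[ℝ] E}
    {β : (E →L[ℝ] ℝ) → (E →L[ℝ] ℝ)} {t : (E →L[ℝ] ℝ) → ℝ} {t₀ t₁ δ : ℝ}
    (h : RayLin Φ₁ T β t t₀ t₁ δ) {v : E} {c₀ : ℝ} (hc₀ : 0 < c₀)
    (hs : ∀ b ∈ Φ₁, (0 < β b v ∧ c₀ ≤ b (T v)) ∨ (β b v < 0 ∧ b (T v) ≤ -c₀)) :
    {b | b ∈ Φ₁ ∧ 0 < b (T v)}.ncard = {b | b ∈ Φ₁ ∧ 0 < b v}.ncard := by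
  have e : {b | b ∈ Φ₁ ∧ 0 < b v} = β '' {b | b ∈ Φ₁ ∧ 0 < b (T v)} := by
    ext c
    constructor
    · rintro ⟨hc, hcv⟩
      obtain ⟨b, hb, rfl⟩ := h.surj c hc
      refine ⟨b, ⟨hb, ?_⟩, rfl⟩
      rcases hs b hb with h1 | h1
      · linarith [h1.2]
      · linarith [h1.1]
    · rintro ⟨b, ⟨hb, hbv⟩, rfl⟩
      refine ⟨h.maps b hb, ?_⟩
      rcases hs b hb with h1 | h1
      · exact h1.1
      · linarith [h1.2]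
  rw [e, Set.InjOn.ncard_image]
  intro b hb b' hb' heq
  exact h.inj b hb.1 b' hb'.1 heq

/-- The pattern determines the ray map. -/
theorem rayMap_eq_of_pat {Φ₁ : Finset (E →L[ℝ] ℝ)} {T₁ T₂ : E →L[ℝ] E}
    {β β₂ : (E →L[ℝ] ℝ) → (E →L[ℝ] ℝ)} {t s : (E →L[ℝ] ℝ) → ℝ} {t₀ t₁ δ : ℝ}
    (h1 : RayLin Φ₁ T₁ β t t₀ t₁ δ) (h2 : RayLin Φ₁ T₂ β₂ s t₀ t₁ δ) {c₀ : ℝ} (hc₀ : 0 < c₀)
    {V₁ : Set E}
    (hsep : ∀ b ∈ Φ₁, ∀ b' ∈ Φ₁, (∀ v ∈ V₁, 0 < b v → 0 < b' v) → b = b')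
    (hs1 : ∀ v ∈ V₁, ∀ b ∈ Φ₁, (0 < β b v ∧ c₀ ≤ b (T₁ v)) ∨ (β b v < 0 ∧ b (T₁ v) ≤ -c₀))
    (hs2 : ∀ v ∈ V₁, ∀ b ∈ Φ₁, (0 < β₂ b v ∧ c₀ ≤ b (T₂ v)) ∨ (β₂ b v < 0 ∧ b (T₂ v) ≤ -c₀))
    (hpat : ∀ v ∈ V₁, ∀ b ∈ Φ₁, 0 < b (T₁ v) → 0 < b (T₂ v)) :
    ∀ b ∈ Φ₁, β b = β₂ b := by
  intro b hb
  refine hsep _ (h1.maps b hb) _ (h2.maps b hb) fun v hv hbv => ?_
  have k1 : 0 < b (T₁ v) := by
    rcases hs1 v hv b hb with h | h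
    · linarith [h.2]
    · linarith [h.1]
  have k2 := hpat v hv b hb k1
  rcases hs2 v hv b hb with h | h
  · exact h.1
  · linarith [h.2]

end Vale.Agent.P188.H530

end
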