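import Vale.Agent.P188.R.G011

section

/-!
Polynomial functions on a group.
-/

open Finset

namespace Vale.Agent.P188.H796

open scoped commutatorElement

variable {N : Type*} [Group N]

/-- right difference -/
def dlt (x : N) (f : N → ℝ) : N → ℝ := fun y => f (y * x) - f y

/-- right translation -/
def trn (x : N) (f : N → ℝ) : N → ℝ := fun y => f (y * x)

theorem trn_eq (x : N) (f : N → ℝ) : trn x f = f + dlt x f := by
  ext y; simp [trn, dlt]

variable (N) in
/-- polynomial functions of degree `< n` -/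
def PF : ℕ → Submodule ℝ (N → ℝ)
  | 0 => ⊥
  | n + 1 =>
    { carrier := {f | ∀ x, dlt x f ∈ PF n}
      zero_mem' := fun x => by
        have : dlt x (0 : N → ℝ) = 0 := by ext y; simp [dlt]
        rw [this]; exact Submodule.zero_mem _
      add_mem' := fun {f g} hf hg x => by
        have : dlt x (f + g) = dlt x f + dlt x g := by ext y; simp [dlt]; ring
        rw [this]; exact Submodule.add_mem _ (hf x) (hg x)
      smul_mem' := fun c f hf x => by
        have : dlt x (c • f) = c • dlt x f := by ext y; simp [dlt]; ring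
        rw [this]; exact Submodule.smul_mem _ c (hf x) }

theorem PF_le_succ (n : ℕ) : PF N n ≤ PF N (n + 1) := by
  induction n with
  | zero => intro f hf; rw [(Submodule.mem_bot ℝ).1 hf]; exact Submodule.zero_mem _
  | succ n ih => intro f hf x; exact ih (hf x)

theorem PF_mono : Monotone (PF N) := monotone_nat_of_le_succ PF_le_succ

theorem trn_mem {n : ℕ} {f : N → ℝ} (hf : f ∈ PF N n) (x : N) : trn x f ∈ PF N n := by
  cases n with
  | zero =>
    have : f = 0 := (Submodule.mem_bot ℝ).1 hf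
    subst this
    exact (Submodule.mem_bot ℝ).2 (by ext y; simp [trn])
  | succ n =>
    rw [trn_eq]
    exact Submodule.add_mem _ hf (PF_le_succ n (hf x))

theorem comp_mem {N' : Type*} [Group N'] (φ : N' →* N) : ∀ {n : ℕ} {f : N → ℝ}, f ∈ PF N n →
    f ∘ φ ∈ PF N' n
  | 0, f, hf => by
    have : f = 0 := (Submodule.mem_bot ℝ).1 hf
    subst this
    exact (Submodule.mem_bot ℝ).2 (by ext y; simp)
  | n + 1, f, hf => by
    intro x
    have : dlt x (f ∘ φ) = dlt (φ x) f ∘ φ := by ext y; simp [dlt]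
    rw [this]
    exact comp_mem φ (hf (φ x))

theorem const_mem (c : ℝ) : (fun _ => c) ∈ PF N 1 := by
  intro x
  exact (Submodule.mem_bot ℝ).2 (by ext y; simp [dlt])

theorem hom_mem (χ : N → ℝ) (hχ : ∀ x y, χ (x * y) = χ x + χ y) : χ ∈ PF N 2 := by
  intro x
  have : dlt x χ = fun _ => χ x := by ext y; simp [dlt, hχ]
  rw [this]
  exact const_mem _

/-- finite-dimensionality -/
theorem PF_finite (S : Finset N) (hS : Subgroup.closure (S : Set N) = ⊤) (n : ℕ) :
    FiniteDimensional ℝ (PF N n) := by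
  induction n with
  | zero => exact (inferInstance : FiniteDimensional ℝ (⊥ : Submodule ℝ (N → ℝ)))
  | succ n ih =>
    let L : PF N (n + 1) →ₗ[ℝ] ℝ × (S → PF N n) :=
      { toFun := fun f => (f.1 1, fun s => ⟨dlt s f.1, f.2 s⟩)
        map_add' := by
          intro f g
          refine Prod.ext rfl ?_
          funext s
          apply Subtype.ext
          funext y
          simp [dlt]; ring
        map_smul' := by
          intro c f
          refine Prod.ext rfl ?_
          funext s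
          apply Subtype.ext
          funext y
          simp [dlt]; ring }
    refine FiniteDimensional.of_injective L ?_
    rw [← LinearMap.ker_eq_bot, LinearMap.ker_eq_bot']
    rintro ⟨f, hf⟩ hL
    apply Subtype.ext
    have h1 : f 1 = 0 := congrArg Prod.fst hL
    have h2 : ∀ s ∈ S, ∀ y, f (y * s) = f y := by
      intro s hs y
      have := congrArg Prod.snd hL
      have h3 := congrArg Subtype.val (congrFun this ⟨s, hs⟩)
      have h4 := congrFun h3 y
      simpa [dlt, L, sub_eq_zero] using h4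
    -- `f` is right invariant
    have h5 : ∀ x y, f (y * x) = f y := by
      let H : Subgroup N :=
        { carrier := {x | ∀ y, f (y * x) = f y}
          one_mem' := fun y => by rw [mul_one]
          mul_mem' := fun {a b} ha hb y => by rw [← mul_assoc, hb, ha]
          inv_mem' := fun {a} ha y => by
            have := ha (y * a⁻¹)
            rw [inv_mul_cancel_right] at this
            exact this.symm }
      have hH : Subgroup.closure (S : Set N) ≤ H := by
        rw [Subgroup.closure_le]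
        exact fun s hs => h2 s hs
      rw [hS] at hH
      exact fun x => hH (Subgroup.mem_top x)
    funext y
    have := h5 y 1
    rw [one_mul, h1] at this
    exact this

/-! ### weighted polynomial functions on a normal subgroup of a nilpotent group -/

section weighted

/-- lower central series -/
abbrev lc (N : Type*) [Group N] (i : ℕ) : Subgroup N := (⊤ : Subgroup N).lowerCentralSeries i

theorem lc_comm {i : ℕ} {y : N} (hy : y ∈ lc N i) (h : N) : y⁻¹ * h⁻¹ * y * h ∈ lc N (i + 1) := by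
  have h1 : ⁅y⁻¹, h⁻¹⁆ ∈ lc N (i + 1) :=
    Subgroup.commutator_mem_commutator (inv_mem hy) (Subgroup.mem_top _)
  have h2 : y⁻¹ * h⁻¹ * y * h = ⁅y⁻¹, h⁻¹⁆ := by simp [commutatorElement_def, mul_assoc]
  rw [h2]; exact h1

variable (M : Subgroup N)

/-- weighted polynomial functions on `M` -/
def WQ (d : ℕ) : Set (M → ℝ) :=
  match d with
  | 0 => {0}
  | d + 1 => {f | ∀ i, ∀ x : M, (x : N) ∈ lc N i → dlt x f ∈ WQ (d - i)}
termination_by d
decreasing_by omega

variable {M}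

theorem mem_WQ_zero {f : M → ℝ} : f ∈ WQ M 0 ↔ f = 0 := by
  rw [WQ]; rfl

theorem mem_WQ_succ {d : ℕ} {f : M → ℝ} :
    f ∈ WQ M (d + 1) ↔ ∀ i, ∀ x : M, (x : N) ∈ lc N i → dlt x f ∈ WQ M (d - i) := by
  rw [WQ]; rfl

theorem WQ_zero_mem : ∀ d : ℕ, (0 : M → ℝ) ∈ WQ M d := by
  intro d
  induction d using Nat.strong_induction_on with
  | _ d ih =>
    cases d with
    | zero => rw [mem_WQ_zero]
    | succ d =>
      rw [mem_WQ_succ]
      intro i x _
      have : dlt x (0 : M → ℝ) = 0 := by ext y; simp [dlt]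
      rw [this]
      exact ih _ (by omega)

theorem WQ_add : ∀ (d : ℕ) {f g : M → ℝ}, f ∈ WQ M d → g ∈ WQ M d → f + g ∈ WQ M d := by
  intro d
  induction d using Nat.strong_induction_on with
  | _ d ih =>
    intro f g hf hg
    cases d with
    | zero => rw [mem_WQ_zero] at *; rw [hf, hg, add_zero]
    | succ d =>
      rw [mem_WQ_succ] at *
      intro i x hx
      have : dlt x (f + g) = dlt x f + dlt x g := by ext y; simp [dlt]; ring
      rw [this]
      exact ih _ (by omega) (hf i x hx) (hg i x hx)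

theorem WQ_mono : ∀ (d : ℕ) {f : M → ℝ}, f ∈ WQ M d → ∀ d', d ≤ d' → f ∈ WQ M d' := by
  intro d
  induction d using Nat.strong_induction_on with
  | _ d ih =>
    intro f hf d' hd
    cases d with
    | zero => rw [mem_WQ_zero] at hf; subst hf; exact WQ_zero_mem _
    | succ d =>
      obtain ⟨e, rfl⟩ : ∃ e, d' = e + 1 := ⟨d' - 1, by omega⟩
      rw [mem_WQ_succ] at *
      intro i x hx
      exact ih _ (by omega) (hf i x hx) _ (by omega)

theorem WQ_trn {d : ℕ} {f : M → ℝ} (hf : f ∈ WQ M d) (x : M) : trn x f ∈ WQ M d := by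
  cases d with
  | zero =>
    rw [mem_WQ_zero] at *; subst hf; ext y; simp [trn]
  | succ d =>
    rw [trn_eq]
    refine WQ_add _ hf (WQ_mono _ (mem_WQ_succ.1 hf 0 x (by simp [lc])) _ (by omega))

/-- conjugation operator on functions on a normal subgroup -/
def cj [M.Normal] (h : N) (f : M → ℝ) : M → ℝ :=
  fun u => f ⟨h⁻¹ * u * h, by simpa using (‹M.Normal›.conj_mem u.1 u.2 h⁻¹)⟩

theorem cj_sub_mem [M.Normal] (h : N) : ∀ (d : ℕ) {f : M → ℝ}, f ∈ WQ M (d + 1) →
    cj h f - f ∈ WQ M d := by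
  intro d
  induction d using Nat.strong_induction_on with
  | _ d ih =>
    intro f hf
    cases d with
    | zero =>
      -- `f` is constant
      rw [mem_WQ_zero]
      have h1 : ∀ x : M, dlt x f = 0 := by
        intro x
        have := mem_WQ_succ.1 hf 0 x (by simp [lc])
        rwa [Nat.sub_zero, mem_WQ_zero] at this
      have h2 : ∀ x : M, f x = f 1 := by
        intro x
        have := congrFun (h1 x) 1
        simpa [dlt, sub_eq_zero] using this
      ext u
      simp only [cj, Pi.sub_apply, Pi.zero_apply]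
      rw [h2, h2 u, sub_self]
    | succ d =>
      rw [mem_WQ_succ]
      intro i y hy
      -- `y' = h⁻¹ y h = y v`
      have hv1 := lc_comm hy h
      let y' : M := ⟨h⁻¹ * y * h, by simpa using (‹M.Normal›.conj_mem y.1 y.2 h⁻¹)⟩
      let v : M := y⁻¹ * y'
      have hv : (v : N) ∈ lc N (i + 1) := by
        have : (v : N) = (y : N)⁻¹ * h⁻¹ * y * h := by simp [v, y', mul_assoc]
        rw [this]; exact hv1
      have hy' : y' = y * v := by simp [v]
      have h1 : dlt y (cj h f - f) = cj h (trn y (dlt v f)) + (cj h (dlt y f) - dlt y f) := by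
        ext u
        let u' : M := ⟨h⁻¹ * u * h, by simpa using (‹M.Normal›.conj_mem u.1 u.2 h⁻¹)⟩
        have e1 : cj h f (u * y) = f (u' * y') := by
          simp only [cj]
          congr 1
          apply Subtype.ext
          simp [u', y', mul_assoc]
        have e2 : cj h f u = f u' := rfl
        have e3 : cj h (trn y (dlt v f)) u = f (u' * y * v) - f (u' * y) := rfl
        have e4 : cj h (dlt y f) u = f (u' * y) - f u' := rfl
        have e5 : dlt y (cj h f - f) u = (cj h f (u * y) - f (u * y)) - (cj h f u - f u) := rfl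
        have e6 : dlt y f u = f (u * y) - f u := rfl
        rw [e5, Pi.add_apply, Pi.sub_apply, e1, e2, e3, e4, e6, hy', mul_assoc]
        ring
      rw [h1]
      by_cases hid : i ≤ d
      · have e : d + 1 - i = (d - i) + 1 := by omega
        rw [mem_WQ_succ] at hf
        have h2 : dlt v f ∈ WQ M (d - i) := by
          have := hf (i + 1) v hv
          rwa [show d + 1 - (i + 1) = d - i by omega] at this
        have h3 : dlt y f ∈ WQ M (d - i + 1) := by
          have := hf i y hy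
          rwa [e] at this
        -- conjugation preserves
        have h4 : cj h (trn y (dlt v f)) ∈ WQ M (d - i) := by
          have h5 := WQ_trn h2 y
          generalize trn y (dlt v f) = g at h5
          have h6 : cj h g = g + (cj h g - g) := by simp
          rw [h6]
          refine WQ_add _ h5 (ih (d - i) (by omega) (WQ_mono _ h5 _ (by omega)))
        refine WQ_add _ (by simpa using h4) (ih (d - i) (by omega) h3)
      · -- `i > d`
        have e1 : d - i = 0 := by omega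
        rw [e1, mem_WQ_zero]
        rw [mem_WQ_succ] at hf
        have h2 : dlt v f = 0 := by
          have := hf (i + 1) v hv
          rwa [show d + 1 - (i + 1) = 0 by omega, mem_WQ_zero] at this
        have h3 : dlt y f ∈ WQ M (d + 1 - i) := hf i y hy
        have h3' : dlt y f ∈ WQ M 1 := WQ_mono _ h3 _ (by omega)
        have h4 : cj h (dlt y f) - dlt y f = 0 := by
          have := ih 0 (by omega) h3'
          rwa [mem_WQ_zero] at this
        rw [h4, h2]
        ext u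
        simp [cj, trn]

/-- ordinary polynomial functions are weighted polynomial functions -/
theorem PF_le_WQ {c : ℕ} (hcpos : 0 < c) (hc : lc N c = ⊥) : ∀ (n : ℕ) {f : M → ℝ}, f ∈ PF M n →
    f ∈ WQ M (n * c)
  | 0, f, hf => by
    rw [Nat.zero_mul, mem_WQ_zero]
    exact (Submodule.mem_bot ℝ).1 hf
  | n + 1, f, hf => by
    have hanti := (⊤ : Subgroup N).lowerCentralSeries_antitone
    obtain ⟨e, he⟩ : ∃ e, (n + 1) * c = e + 1 := ⟨(n + 1) * c - 1, by
      have : 0 < (n + 1) * c := Nat.mul_pos (by omega) hcpos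
      omega⟩
    rw [he, mem_WQ_succ]
    intro i x hx
    by_cases hi : i < c
    · refine WQ_mono _ (PF_le_WQ hcpos hc n (hf x)) _ ?_
      have : (n + 1) * c = n * c + c := by ring
      omega
    · have h1 : (x : N) ∈ lc N c := hanti (by omega) hx
      rw [hc, Subgroup.mem_bot] at h1
      have h2 : x = 1 := Subtype.ext h1
      have h3 : dlt x f = 0 := by ext y; simp [dlt, h2]
      rw [h3]; exact WQ_zero_mem _

/-- extension of polynomial functions from a normal subgroup with a (set-theoretic) retraction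
`y ↦ τ(y)⁻¹ y`, `τ : N →* N` -/
theorem ext_mem [M.Normal] (τ : N →* N) (hτ : ∀ y, (τ y)⁻¹ * y ∈ M) :
    ∀ (d : ℕ) {f : M → ℝ}, f ∈ WQ M d → (fun y => f ⟨(τ y)⁻¹ * y, hτ y⟩) ∈ PF N d
  | 0, f, hf => by
    rw [mem_WQ_zero] at hf
    exact (Submodule.mem_bot ℝ).2 (by ext y; simp [hf])
  | d + 1, f, hf => by
    intro z
    let w : M := ⟨(τ z)⁻¹ * z, hτ z⟩
    have h1 : dlt z (fun y => f ⟨(τ y)⁻¹ * y, hτ y⟩) =
        fun y => (cj (τ z) (trn w f) - f) ⟨(τ y)⁻¹ * y, hτ y⟩ := by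
      ext y
      have e1 : (⟨(τ (y * z))⁻¹ * (y * z), hτ (y * z)⟩ : M) =
          ⟨(τ z)⁻¹ * ((τ y)⁻¹ * y) * τ z, by
            simpa using (‹M.Normal›.conj_mem _ (hτ y) (τ z)⁻¹)⟩ * w := by
        apply Subtype.ext
        simp [w, mul_assoc]
      simp only [dlt, Pi.sub_apply]
      rw [e1]
      rfl
    rw [h1]
    refine ext_mem τ hτ d ?_
    have h2 : cj (τ z) (trn w f) - f = (cj (τ z) (trn w f) - trn w f) + dlt w f := by
      rw [trn_eq]; abel
    rw [h2]
    refine WQ_add _ (cj_sub_mem _ _ (WQ_trn hf w)) ?_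
    have := mem_WQ_succ.1 hf 0 w (by simp [lc])
    simpa using this

end weighted

end Vale.Agent.P188.H796

end

section

/-!
P188, Gromov-lite: a sequence of shrinking elements in a small representation gives too many
distinct products for polynomial growth.
-/

open Pointwise

namespace Vale.Agent.P188.H796

universe u v

variable {G : Type u} [Group G] {V : Type v} [NormedAddCommGroup V] [InnerProductSpace ℂ V]
variable {ρ : G →* (V →L[ℂ] V)}

open Classical in
/-- the products `h j ^ a_j * ⋯ * h (j + l - 1) ^ a_(j + l - 1)` with exponents less than `M` -/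
noncomputable def words (h : ℕ → G) (M : ℕ) : ℕ → ℕ → Finset G
  | 0, _ => {1}
  | l + 1, j => ((Finset.range M) ×ˢ words h M l (j + 1)).image (fun p => h j ^ p.1 * p.2)

theorem words_dev (hρ : IsoRep ρ) {h : ℕ → G} {M : ℕ} (hM : 0 < M)
    (hratio : ∀ k, 8 * M * dev ρ (h (k + 1)) ≤ dev ρ (h k)) (l : ℕ) :
    ∀ j, ∀ x ∈ words h M l j, dev ρ x ≤ 2 * M * dev ρ (h j) := by
  classical
  have hM' : (1 : ℝ) ≤ M := by exact_mod_cast hM
  induction l with
  | zero =>
    intro j x hx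
    rw [words, Finset.mem_singleton] at hx
    rw [hx, dev_one]
    have := dev_nonneg (ρ := ρ) (h j)
    positivity
  | succ l ih =>
    intro j x hx
    rw [words, Finset.mem_image] at hx
    obtain ⟨⟨a, y⟩, hay, rfl⟩ := hx
    rw [Finset.mem_product, Finset.mem_range] at hay
    obtain ⟨ha, hy⟩ := hay
    have h1 := ih (j + 1) y hy
    have h2 := dev_mul_le hρ (h j ^ a) y
    have h3 := dev_pow_le hρ (h j) a
    have h4 := hratio j
    have h5 := dev_nonneg (ρ := ρ) (h j)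
    have h6 : (a : ℝ) ≤ M := by exact_mod_cast ha.le
    have h7 : (a : ℝ) * dev ρ (h j) ≤ M * dev ρ (h j) := mul_le_mul_of_nonneg_right h6 h5
    have h8 : dev ρ (h j) ≤ M * dev ρ (h j) := by nlinarith
    linarith

theorem words_key (hρ : IsoRep ρ) {h : ℕ → G} {M : ℕ} (hM : 0 < M)
    (hpos : ∀ k, 0 < dev ρ (h k)) (hsmall : ∀ k, 16 * M * dev ρ (h k) ≤ 1)
    (hratio : ∀ k, 8 * M * dev ρ (h (k + 1)) ≤ dev ρ (h k)) (l j a a' : ℕ) {x x' : G}
    (hx : x ∈ words h M l (j + 1)) (hx' : x' ∈ words h M l (j + 1)) (haa : a < a')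
    (ha' : a' < M) : h j ^ a * x ≠ h j ^ a' * x' := by
  intro he
  have hM' : (1 : ℝ) ≤ M := by exact_mod_cast hM
  obtain ⟨b, hb⟩ : ∃ b, b = a' - a := ⟨_, rfl⟩
  have hb1 : 1 ≤ b := by omega
  have hbM : b < M := by omega
  have e1 : h j ^ b = x * x'⁻¹ := by
    have : h j ^ a' = h j ^ a * h j ^ b := by rw [← pow_add]; congr 1; omega
    rw [this, mul_assoc, mul_right_inj] at he
    rw [he, mul_inv_cancel_right]
  have h1 := words_dev hρ hM hratio l (j + 1) x hx
  have h2 := words_dev hρ hM hratio l (j + 1) x' hx'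
  have h3 : dev ρ (h j ^ b) ≤ 4 * M * dev ρ (h (j + 1)) := by
    rw [e1]
    refine (dev_mul_le hρ _ _).trans ?_
    have := dev_inv_le hρ x'
    linarith
  have h4 := dev_pow_ge hρ (h j) b
  have h5 := hratio j
  have h6 := hsmall j
  have h7 := hpos j
  obtain ⟨δ, hδ⟩ : ∃ δ, δ = dev ρ (h j) := ⟨_, rfl⟩
  rw [← hδ] at h4 h5 h6 h7
  have hb' : (1 : ℝ) ≤ b := by exact_mod_cast hb1
  have hbM' : (b : ℝ) ≤ M := by exact_mod_cast hbM.le
  have h8 : (b : ℝ) * δ ≤ 1 / 16 := by
    have : (b : ℝ) * δ ≤ M * δ := mul_le_mul_of_nonneg_right hbM' h7.le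
    linarith
  have h9 : (b : ℝ) ^ 2 * δ ^ 2 ≤ 1 / 16 * (b * δ) := by
    have : (b : ℝ) ^ 2 * δ ^ 2 = (b * δ) * (b * δ) := by ring
    rw [this]
    exact mul_le_mul_of_nonneg_right h8 (by positivity)
  have h10 : δ ≤ b * δ := by nlinarith
  linarith

theorem words_card (hρ : IsoRep ρ) {h : ℕ → G} {M : ℕ} (hM : 0 < M)
    (hpos : ∀ k, 0 < dev ρ (h k)) (hsmall : ∀ k, 16 * M * dev ρ (h k) ≤ 1)
    (hratio : ∀ k, 8 * M * dev ρ (h (k + 1)) ≤ dev ρ (h k)) (l : ℕ) :
    ∀ j, (words h M l j).card = M ^ l := by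
  classical
  induction l with
  | zero => intro j; simp [words]
  | succ l ih =>
    intro j
    rw [words, Finset.card_image_of_injOn, Finset.card_product, Finset.card_range, ih, pow_succ']
    rintro ⟨a, x⟩ hax ⟨a', x'⟩ hax' he
    simp only [Finset.coe_product, Set.mem_prod, Finset.mem_coe, Finset.mem_range] at hax hax'
    simp only at he
    rcases lt_trichotomy a a' with h1 | h1 | h1
    · exact absurd he (words_key hρ hM hpos hsmall hratio l j a a' hax.2 hax'.2 h1 hax'.1)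
    · subst h1
      rw [mul_right_inj] at he
      rw [he]
    · exact absurd he.symm (words_key hρ hM hpos hsmall hratio l j a' a hax'.2 hax.2 h1 hax.1)

theorem words_mem {U : Set G} {h : ℕ → G} {M : ℕ} (hL : ∀ k, h k ∈ U ^ 4 ^ k)
    (h1 : (1 : G) ∈ U) (l : ℕ) :
    ∀ j, ∀ x ∈ words h M l j, ∃ n, n + M * 4 ^ j ≤ M * 4 ^ (j + l) ∧ x ∈ U ^ n := by
  classical
  induction l with
  | zero =>
    intro j x hx
    rw [words, Finset.mem_singleton] at hx
    exact ⟨0, by simp, by rw [hx]; simp⟩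
  | succ l ih =>
    intro j x hx
    rw [words, Finset.mem_image] at hx
    obtain ⟨⟨a, y⟩, hay, rfl⟩ := hx
    rw [Finset.mem_product, Finset.mem_range] at hay
    obtain ⟨ha, hy⟩ := hay
    obtain ⟨n, hn, hyn⟩ := ih (j + 1) y hy
    refine ⟨4 ^ j * a + n, ?_, ?_⟩
    · have h2 : 4 ^ j * a ≤ 4 ^ j * M := Nat.mul_le_mul_left _ (by simpa using ha.le)
      have h3 : M * 4 ^ (j + 1) = 4 * (M * 4 ^ j) := by ring
      have h4 : M * 4 ^ (j + 1 + l) = M * 4 ^ (j + (l + 1)) := by congr 2; omega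
      have h5 : 4 ^ j * M = M * 4 ^ j := by ring
      simp only at *
      omega
    · rw [pow_add, pow_mul]
      exact Set.mul_mem_mul (Set.pow_mem_pow (hL j)) hyn

theorem no_seq {D : ℕ} (hG : GrowthLE G D) (hρ : IsoRep ρ) {U : Set G} (hU : U.Finite)
    (h1 : (1 : G) ∈ U) {h : ℕ → G} (hL : ∀ k, h k ∈ U ^ 4 ^ k)
    (hpos : ∀ k, 0 < dev ρ (h k)) (hsmall : ∀ k, 16 * (2 * 4 ^ D : ℕ) * dev ρ (h k) ≤ 1)
    (hratio : ∀ k, 8 * (2 * 4 ^ D : ℕ) * dev ρ (h (k + 1)) ≤ dev ρ (h k)) : False := by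
  obtain ⟨M, hM⟩ : ∃ M, M = 2 * 4 ^ D := ⟨_, rfl⟩
  rw [← hM] at hsmall hratio
  have hM0 : 0 < M := by rw [hM]; positivity
  obtain ⟨C, hC⟩ := hG U hU
  have key : ∀ l, 2 ^ l ≤ C * (2 * M) ^ D := by
    intro l
    have h2 : M ^ l ≤ (U ^ (M * 4 ^ l)).ncard := by
      rw [← words_card hρ hM0 hpos hsmall hratio l 0, ← Set.ncard_coe_finset]
      refine Set.ncard_le_ncard (fun x hx => ?_) (finite_pow hU _)
      obtain ⟨n, hn, hx⟩ := words_mem hL h1 l 0 x hx
      refine Set.pow_subset_pow_right h1 ?_ hx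
      rw [zero_add] at hn
      omega
    have h3 := h2.trans (hC (M * 4 ^ l))
    have h4 : (M * 4 ^ l + 1) ^ D ≤ ((2 * M) * 4 ^ l) ^ D := by
      refine Nat.pow_le_pow_left ?_ D
      have : 0 < M * 4 ^ l := by positivity
      nlinarith
    have h5 : M ^ l = 2 ^ l * (4 ^ D) ^ l := by rw [hM, mul_pow]
    have h6 : ((2 * M) * 4 ^ l) ^ D = (2 * M) ^ D * (4 ^ D) ^ l := by
      rw [mul_pow, ← pow_mul, ← pow_mul, mul_comm l D]
    have h7 : 2 ^ l * (4 ^ D) ^ l ≤ C * (2 * M) ^ D * (4 ^ D) ^ l := by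
      rw [← h5]
      refine h3.trans ?_
      rw [mul_assoc, ← h6]
      exact Nat.mul_le_mul_left _ h4
    exact Nat.le_of_mul_le_mul_right h7 (by positivity)
  exact absurd (key (C * (2 * M) ^ D)) (not_le.2 Nat.lt_two_pow_self)

end Vale.Agent.P188.H796

end

section

/-!
P188, Gromov-lite: subgroups generated by the elements near the identity, subrepresentations.
-/

open Pointwise

namespace Vale.Agent.P188.H796

universe u v

/-- every element of the closure of a set is in the closure of a finite subset -/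
theorem exists_finite_of_mem_closure {G : Type u} [Group G] {T : Set G} {x : G}
    (hx : x ∈ Subgroup.closure T) : ∃ S : Set G, S.Finite ∧ S ⊆ T ∧ x ∈ Subgroup.closure S := by
  induction hx using Subgroup.closure_induction with
  | mem x hx =>
    exact ⟨{x}, Set.finite_singleton x, by simpa using hx, Subgroup.subset_closure rfl⟩
  | one => exact ⟨∅, Set.finite_empty, Set.empty_subset _, Subgroup.one_mem _⟩
  | mul x y _ _ h1 h2 =>
    obtain ⟨S, a1, a2, a3⟩ := h1
    obtain ⟨S', b1, b2, b3⟩ := h2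
    exact ⟨S ∪ S', a1.union b1, Set.union_subset a2 b2,
      Subgroup.mul_mem _ (Subgroup.closure_mono Set.subset_union_left a3)
        (Subgroup.closure_mono Set.subset_union_right b3)⟩
  | inv x _ h1 =>
    obtain ⟨S, a1, a2, a3⟩ := h1
    exact ⟨S, a1, a2, Subgroup.inv_mem _ a3⟩

theorem exists_finite_closure {G : Type u} [Group G] {T : Set G}
    (h : (Subgroup.closure T).FG) :
    ∃ S : Set G, S.Finite ∧ S ⊆ T ∧ Subgroup.closure S = Subgroup.closure T := by
  obtain ⟨F, hF⟩ := h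
  have h1 : ∀ x ∈ F, ∃ S : Set G, S.Finite ∧ S ⊆ T ∧ x ∈ Subgroup.closure S := fun x hx =>
    exists_finite_of_mem_closure (by rw [← hF]; exact Subgroup.subset_closure hx)
  choose! S hS using h1
  refine ⟨⋃ x ∈ F, S x, F.finite_toSet.biUnion fun x hx => (hS x hx).1,
    Set.iUnion₂_subset fun x hx => (hS x hx).2.1, le_antisymm ?_ ?_⟩
  · exact Subgroup.closure_mono (Set.iUnion₂_subset fun x hx => (hS x hx).2.1)
  · rw [← hF, Subgroup.closure_le]
    intro x hx
    exact Subgroup.closure_mono (Set.subset_biUnion_of_mem (u := fun x => S x) hx) (hS x hx).2.2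

section Rep

variable {G : Type u} [Group G] {V : Type v} [NormedAddCommGroup V] [InnerProductSpace ℂ V]
variable {ρ : G →* (V →L[ℂ] V)}

theorem dev_div_le (hρ : IsoRep ρ) (g h : G) : dev ρ (g⁻¹ * h) ≤ ‖ρ h - ρ g‖ := by
  have e : ρ (g⁻¹ * h) - 1 = ρ g⁻¹ * (ρ h - ρ g) := by
    rw [mul_sub, ← map_mul, ← map_mul, inv_mul_cancel, map_one]
  unfold dev
  rw [e]
  refine (norm_mul_le _ _).trans ?_
  exact mul_le_of_le_one_left (norm_nonneg _) (hρ.norm_le _)

theorem finiteIndex_near [FiniteDimensional ℂ V] (hρ : IsoRep ρ) {ε : ℝ} (hε : 0 < ε) :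
    (Subgroup.closure {g | dev ρ g < ε}).FiniteIndex := by
  classical
  have : ProperSpace (V →L[ℂ] V) := FiniteDimensional.proper ℂ _
  have hb : TotallyBounded (Set.range ρ) := by
    refine (isCompact_closedBall (0 : V →L[ℂ] V) 1).totallyBounded.subset ?_
    rintro _ ⟨g, rfl⟩
    rw [mem_closedBall_zero_iff]
    exact hρ.norm_le g
  obtain ⟨t, ht, hts⟩ := Metric.totallyBounded_iff.1 hb (ε / 2) (by positivity)
  have h1 : ∀ g, ∃ y ∈ t, dist (ρ g) y < ε / 2 := fun g => by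
    have := hts ⟨g, rfl⟩
    simp only [Set.mem_iUnion, Metric.mem_ball, exists_prop] at this
    exact this
  choose y hy hyd using h1
  have hfin : Finite (G ⧸ Subgroup.closure {g | dev ρ g < ε}) := by
    have : Finite t := ht.to_subtype
    refine Finite.of_injective
      (fun q : G ⧸ Subgroup.closure {g | dev ρ g < ε} => (⟨y q.out, hy _⟩ : t)) ?_
    intro q q' hqq
    have e : y q.out = y q'.out := congrArg Subtype.val hqq
    rw [← Quotient.out_eq' q, ← Quotient.out_eq' q', QuotientGroup.eq]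
    refine Subgroup.subset_closure ?_
    show dev ρ _ < ε
    refine (dev_div_le hρ _ _).trans_lt ?_
    rw [← dist_eq_norm]
    have a1 := hyd q.out
    have a2 := hyd q'.out
    rw [e] at a1
    have := dist_triangle_right (ρ q'.out) (ρ q.out) (y q'.out)
    linarith
  exact Subgroup.finiteIndex_of_finite_quotient

/-- the restriction of a representation of `G` to a subgroup and an invariant subspace -/
noncomputable def subRep (ρ : G →* (V →L[ℂ] V)) (K : Subgroup G) (W : Submodule ℂ V)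
    (hW : ∀ y ∈ K, ∀ w ∈ W, ρ y w ∈ W) : K →* (W →L[ℂ] W) where
  toFun y := ((ρ y).comp W.subtypeL).codRestrict W fun w => hW y y.2 w w.2
  map_one' := by
    ext w
    simp
  map_mul' y z := by
    ext w
    show ρ (y * z : G) (w : V) = ρ y (ρ z (w : V))
    rw [map_mul]
    rfl

theorem subRep_apply (K : Subgroup G) (W : Submodule ℂ V)
    (hW : ∀ y ∈ K, ∀ w ∈ W, ρ y w ∈ W) (y : K) (w : W) :
    ((subRep ρ K W hW y w : W) : V) = ρ y w := rfl

theorem subRep_isoRep (hρ : IsoRep ρ) (K : Subgroup G) (W : Submodule ℂ V)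
    (hW : ∀ y ∈ K, ∀ w ∈ W, ρ y w ∈ W) : IsoRep (subRep ρ K W hW) := fun y w => by
  show ‖((subRep ρ K W hW y w : W) : V)‖ = ‖(w : V)‖
  rw [subRep_apply, hρ]

theorem IsoRep.inner (hρ : IsoRep ρ) (g : G) (v w : V) :
    inner ℂ (ρ g v) (ρ g w) = inner ℂ v w :=
  LinearIsometry.inner_map_map (⟨(ρ g).toLinearMap, hρ g⟩ : V →ₗᵢ[ℂ] V) v w

theorem IsoRep.orth (hρ : IsoRep ρ) (K : Subgroup G) (W : Submodule ℂ V)
    (hW : ∀ y ∈ K, ∀ w ∈ W, ρ y w ∈ W) : ∀ y ∈ K, ∀ w ∈ Wᗮ, ρ y w ∈ Wᗮ := by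
  intro y hy w hw
  rw [Submodule.mem_orthogonal] at hw ⊢
  intro u hu
  have h1 := hw _ (hW y⁻¹ (K.inv_mem hy) u hu)
  rw [← hρ.inner y] at h1
  have h2 : ρ y (ρ y⁻¹ u) = u := by
    have : (ρ y * ρ y⁻¹) u = u := by rw [← map_mul, mul_inv_cancel, map_one]; rfl
    exact this
  rwa [h2] at h1

end Rep

end Vale.Agent.P188.H796

end

section

/-!
P188, Gromov-lite: a finitely generated group of polynomial growth has virtually abelian image in
every finite-dimensional isometric (unitary) representation.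
-/

open Pointwise

namespace Vale.Agent.P188.H796

universe u v

section Rep

variable {G : Type u} [Group G] {V : Type v} [NormedAddCommGroup V] [InnerProductSpace ℂ V]
variable {ρ : G →* (V →L[ℂ] V)}

/-- the trace of an operator of distance less than one from the identity does not vanish -/
theorem trace_ne_zero [FiniteDimensional ℂ V] [Nontrivial V] {A : V →L[ℂ] V}
    (hA : ‖A - 1‖ < 1) : LinearMap.trace ℂ V A ≠ 0 := by
  intro h0
  have hb := stdOrthonormalBasis ℂ V
  have e := LinearMap.trace_eq_sum_inner ((A - 1 : V →L[ℂ] V) : V →ₗ[ℂ] V) (stdOrthonormalBasis ℂ V)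
  have e1 : LinearMap.trace ℂ V ((A - 1 : V →L[ℂ] V) : V →ₗ[ℂ] V) =
      -(Module.finrank ℂ V : ℂ) := by
    have : ((A - 1 : V →L[ℂ] V) : V →ₗ[ℂ] V) = (A : V →ₗ[ℂ] V) - 1 := rfl
    rw [this, map_sub, h0, LinearMap.trace_one, zero_sub]
  rw [e1] at e
  have hn : 0 < Module.finrank ℂ V := Module.finrank_pos
  have h1 : (Module.finrank ℂ V : ℝ) = ‖∑ i, inner ℂ ((stdOrthonormalBasis ℂ V) i)
      (((A - 1 : V →L[ℂ] V) : V →ₗ[ℂ] V) ((stdOrthonormalBasis ℂ V) i))‖ := by
    rw [← e, norm_neg, Complex.norm_natCast]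
  have h2 : ∀ i, ‖inner ℂ ((stdOrthonormalBasis ℂ V) i)
      (((A - 1 : V →L[ℂ] V) : V →ₗ[ℂ] V) ((stdOrthonormalBasis ℂ V) i))‖ ≤ ‖A - 1‖ := by
    intro i
    refine (norm_inner_le_norm _ _).trans ?_
    rw [(stdOrthonormalBasis ℂ V).norm_eq_one, one_mul]
    refine ((A - 1).le_opNorm _).trans ?_
    rw [(stdOrthonormalBasis ℂ V).norm_eq_one, mul_one]
  have h3 : (Module.finrank ℂ V : ℝ) ≤ Module.finrank ℂ V * ‖A - 1‖ := by
    rw [h1]
    refine (norm_sum_le _ _).trans ?_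
    refine (Finset.sum_le_sum fun i _ => h2 i).trans ?_
    rw [Finset.sum_const, nsmul_eq_mul, ← h1, Finset.card_univ, Fintype.card_fin]
  have h4 : (0 : ℝ) < Module.finrank ℂ V := by exact_mod_cast hn
  nlinarith

theorem noncentral_gen {S : Set G} {h : G} {y : G} (hy : y ∈ Subgroup.closure S)
    (hne : ρ h * ρ y ≠ ρ y * ρ h) : ∃ s ∈ S, ρ h * ρ s ≠ ρ s * ρ h := by
  by_contra hcon
  push Not at hcon
  refine hne ?_
  induction hy using Subgroup.closure_induction with
  | mem s hs => exact hcon s hs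
  | one => simp
  | mul a b _ _ ha hb =>
    by_cases h1 : ρ h * ρ a = ρ a * ρ h
    · by_cases h2 : ρ h * ρ b = ρ b * ρ h
      · rw [map_mul, ← mul_assoc, h1, mul_assoc, h2, mul_assoc]
      · exact absurd (hb h2) h2
    · exact absurd (ha h1) h1
  | inv a _ ha =>
    by_cases h1 : ρ h * ρ a = ρ a * ρ h
    · have e1 : ρ a * ρ a⁻¹ = 1 := by rw [← map_mul, mul_inv_cancel, map_one]
      have e2 : ρ a⁻¹ * ρ a = 1 := by rw [← map_mul, inv_mul_cancel, map_one]
      calc ρ h * ρ a⁻¹ = ρ a⁻¹ * ρ a * ρ h * ρ a⁻¹ := by rw [e2, one_mul]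
        _ = ρ a⁻¹ * (ρ h * ρ a) * ρ a⁻¹ := by rw [h1]; noncomm_ring
        _ = ρ a⁻¹ * ρ h * (ρ a * ρ a⁻¹) := by noncomm_ring
        _ = ρ a⁻¹ * ρ h := by rw [e1, mul_one]
    · exact absurd (ha h1) h1

/-- the commutator step -/
theorem comm_step [FiniteDimensional ℂ V] (hρ : IsoRep ρ) {K : Subgroup G}
    (hC : ∀ z ∈ K, (∀ y ∈ K, ρ z * ρ y = ρ y * ρ z) → ∃ c : ℂ, ρ z = c • 1) {h s : G}
    (hs : s ∈ K) (hh : h ∈ K) (hds : dev ρ s < 1) (hne : ρ h * ρ s ≠ ρ s * ρ h) :
    ∃ y ∈ K, ρ (h * s * h⁻¹ * s⁻¹) * ρ y ≠ ρ y * ρ (h * s * h⁻¹ * s⁻¹) := by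
  by_contra hcon
  push Not at hcon
  have hK : h * s * h⁻¹ * s⁻¹ ∈ K :=
    K.mul_mem (K.mul_mem (K.mul_mem hh hs) (K.inv_mem hh)) (K.inv_mem hs)
  obtain ⟨c, hc⟩ := hC _ hK hcon
  have hV : Nontrivial V := by
    by_contra hV
    rw [not_nontrivial_iff_subsingleton] at hV
    exact hne (by ext v; exact Subsingleton.elim _ _)
  have e1 : ρ h * ρ s * ρ h⁻¹ = c • ρ s := by
    have : h * s * h⁻¹ = h * s * h⁻¹ * s⁻¹ * s := by group
    rw [← map_mul, ← map_mul, this, map_mul, hc, smul_mul_assoc, one_mul]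
  have e2 : LinearMap.trace ℂ V (ρ h * ρ s * ρ h⁻¹ : V →L[ℂ] V) = LinearMap.trace ℂ V (ρ s) := by
    have a1 : ((ρ h * ρ s * ρ h⁻¹ : V →L[ℂ] V) : V →ₗ[ℂ] V) =
        ((ρ h : V →L[ℂ] V) : V →ₗ[ℂ] V) * ((ρ s * ρ h⁻¹ : V →L[ℂ] V) : V →ₗ[ℂ] V) := by
      rw [mul_assoc]; rfl
    have a2 : ((ρ s * ρ h⁻¹ : V →L[ℂ] V) : V →ₗ[ℂ] V) * ((ρ h : V →L[ℂ] V) : V →ₗ[ℂ] V) =
        ((ρ s * (ρ h⁻¹ * ρ h) : V →L[ℂ] V) : V →ₗ[ℂ] V) := rfl
    rw [a1, LinearMap.trace_mul_comm, a2, ← map_mul ρ h⁻¹ h, inv_mul_cancel, map_one, mul_one]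
  have e3 : LinearMap.trace ℂ V ((c • ρ s : V →L[ℂ] V) : V →ₗ[ℂ] V) =
      c * LinearMap.trace ℂ V (ρ s) := by
    have : ((c • ρ s : V →L[ℂ] V) : V →ₗ[ℂ] V) = c • ((ρ s : V →L[ℂ] V) : V →ₗ[ℂ] V) := rfl
    rw [this, map_smul, smul_eq_mul]
  rw [e1, e3] at e2
  have h0 := trace_ne_zero hds
  have hc1 : c = 1 := by
    have : c * LinearMap.trace ℂ V (ρ s) = 1 * LinearMap.trace ℂ V (ρ s) := by rw [e2, one_mul]
    exact mul_right_cancel₀ h0 this
  refine hne ?_
  have e4 : ρ h⁻¹ * ρ h = 1 := by rw [← map_mul, inv_mul_cancel, map_one]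
  calc ρ h * ρ s = ρ h * ρ s * (ρ h⁻¹ * ρ h) := by rw [e4, mul_one]
    _ = (ρ h * ρ s * ρ h⁻¹) * ρ h := by noncomm_ring
    _ = ρ s * ρ h := by rw [e1, hc1, one_smul]

end Rep

/-- the case where the central elements of the group generated near the identity are scalars -/
theorem comm_of_scalar {G : Type u} [Group G] {D : ℕ} (hG : GrowthLE G D)
    {V : Type v} [NormedAddCommGroup V] [InnerProductSpace ℂ V] [FiniteDimensional ℂ V]
    {ρ : G →* (V →L[ℂ] V)} (hρ : IsoRep ρ) {S : Set G} (hS : S.Finite) {K : Subgroup G}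
    (hSK : Subgroup.closure S = K) (hSd : ∀ s ∈ S, 16 * (2 * 4 ^ D : ℕ) * dev ρ s < 1)
    (hC : ∀ z ∈ K, (∀ y ∈ K, ρ z * ρ y = ρ y * ρ z) → ∃ c : ℂ, ρ z = c • 1) :
    ∀ x ∈ K, ∀ y ∈ K, ρ x * ρ y = ρ y * ρ x := by
  classical
  by_contra hcon
  push Not at hcon
  obtain ⟨x, hx, y, hy, hxy⟩ := hcon
  obtain ⟨M, hM⟩ : ∃ M : ℝ, M = (2 * 4 ^ D : ℕ) := ⟨_, rfl⟩
  have hM1 : 1 ≤ M := by
    rw [hM]
    have : 1 ≤ 2 * 4 ^ D := by
      have : 0 < 4 ^ D := by positivity
      omega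
    exact_mod_cast this
  rw [← hM] at hSd
  have hSK' : ∀ s ∈ S, s ∈ K := fun s hs => hSK ▸ Subgroup.subset_closure hs
  have hd1 : ∀ s ∈ S, dev ρ s < 1 := fun s hs => by
    have h1 := hSd s hs
    have h2 := dev_nonneg (ρ := ρ) s
    nlinarith
  -- a noncentral generator
  obtain ⟨s₀, hs₀, hne₀⟩ : ∃ s ∈ S, ρ x * ρ s ≠ ρ s * ρ x :=
    noncentral_gen (hSK ▸ hy) hxy
  let X := {h : G // h ∈ K ∧ (∃ y ∈ K, ρ h * ρ y ≠ ρ y * ρ h) ∧ 16 * M * dev ρ h ≤ 1}
  have hnext : ∀ h : X, ∃ h' : X, ∃ s ∈ S, (h' : G) = h * s * (h : G)⁻¹ * s⁻¹ := by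
    rintro ⟨h, hh, ⟨y, hy, hne⟩, hd⟩
    obtain ⟨s, hs, hns⟩ := noncentral_gen (hSK ▸ hy) hne
    have h1 := dev_comm_le hρ h s
    have h2 := hSd s hs
    have h3 := dev_nonneg (ρ := ρ) h
    have h4 := dev_nonneg (ρ := ρ) s
    refine ⟨⟨h * s * h⁻¹ * s⁻¹, K.mul_mem (K.mul_mem (K.mul_mem hh (hSK' s hs)) (K.inv_mem hh))
      (K.inv_mem (hSK' s hs)), comm_step hρ hC (hSK' s hs) hh (hd1 s hs) hns, ?_⟩, s, hs, rfl⟩
    have h5 : 2 * dev ρ h * dev ρ s ≤ dev ρ h := by
      have : 2 * dev ρ s ≤ 1 := by nlinarith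
      nlinarith
    have h6 : dev ρ (h * s * h⁻¹ * s⁻¹) ≤ dev ρ h := h1.trans h5
    refine le_trans ?_ hd
    exact mul_le_mul_of_nonneg_left h6 (by linarith)
  choose nx hnx using hnext
  have hx₀ : 16 * M * dev ρ s₀ ≤ 1 := (hSd s₀ hs₀).le
  let x₀ : X := ⟨s₀, hSK' s₀ hs₀, ⟨x, hx, fun h => hne₀ h.symm⟩, hx₀⟩
  let h : ℕ → G := fun k => (nx^[k] x₀ : X)
  have hsucc : ∀ k, ∃ s ∈ S, h (k + 1) = h k * s * (h k)⁻¹ * s⁻¹ := by
    intro k
    have := hnx (nx^[k] x₀)
    show ∃ s ∈ S, ((nx^[k + 1] x₀ : X) : G) = _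
    rw [Function.iterate_succ_apply']
    exact this
  let U : Set G := insert 1 (S ∪ S⁻¹)
  have hU : U.Finite := (hS.union hS.inv).insert 1
  have h1U : (1 : G) ∈ U := Set.mem_insert _ _
  have hUinv : U⁻¹ = U := by
    ext g
    simp only [U, Set.mem_inv, Set.mem_insert_iff, Set.mem_union, inv_eq_one, inv_inv]
    tauto
  have hL : ∀ k, h k ∈ U ^ 4 ^ k := by
    intro k
    induction k with
    | zero =>
      rw [pow_zero, pow_one]
      exact Set.mem_insert_of_mem _ (Or.inl hs₀)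
    | succ k ih =>
      obtain ⟨s, hs, e⟩ := hsucc k
      rw [e]
      have a1 : (h k)⁻¹ ∈ U ^ 4 ^ k := by
        have : (h k)⁻¹ ∈ (U ^ 4 ^ k)⁻¹ := Set.inv_mem_inv.2 ih
        rwa [← inv_pow, hUinv] at this
      have a2 : s ∈ U ^ 1 := by rw [pow_one]; exact Set.mem_insert_of_mem _ (Or.inl hs)
      have a3 : s⁻¹ ∈ U ^ 1 := by
        rw [pow_one]; exact Set.mem_insert_of_mem _ (Or.inr (Set.inv_mem_inv.2 hs))
      have a4 : h k * s * (h k)⁻¹ * s⁻¹ ∈ U ^ (4 ^ k + 1 + 4 ^ k + 1) := by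
        rw [pow_add, pow_add, pow_add]
        exact Set.mul_mem_mul (Set.mul_mem_mul (Set.mul_mem_mul ih a2) a1) a3
      refine Set.pow_subset_pow_right h1U ?_ a4
      have : 0 < 4 ^ k := by positivity
      rw [pow_succ]
      omega
  refine no_seq hG hρ hU h1U hL (fun k => ?_) (fun k => ?_) (fun k => ?_)
  · by_contra hle
    have h1 := eq_one_of_dev (not_lt.1 hle)
    obtain ⟨y, _, hne⟩ := (nx^[k] x₀).2.2.1
    refine hne ?_
    have h2 : ρ ((nx^[k] x₀ : X) : G) = 1 := h1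
    rw [h2, one_mul, mul_one]
  · rw [← hM]
    exact (nx^[k] x₀).2.2.2
  · rw [← hM]
    obtain ⟨s, hs, e⟩ := hsucc k
    rw [e]
    have h1 := dev_comm_le hρ (h k) s
    have h2 := hSd s hs
    have h3 := dev_nonneg (ρ := ρ) (h k)
    calc 8 * M * dev ρ (h k * s * (h k)⁻¹ * s⁻¹) ≤ 8 * M * (2 * dev ρ (h k) * dev ρ s) :=
          mul_le_mul_of_nonneg_left h1 (by linarith)
      _ = (16 * M * dev ρ s) * dev ρ (h k) := by ring
      _ ≤ 1 * dev ρ (h k) := mul_le_mul_of_nonneg_right h2.le h3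
      _ = dev ρ (h k) := one_mul _

/-- A finitely generated group of polynomial growth has virtually abelian image in every
finite-dimensional isometric representation. -/
theorem virtAbelian (D : ℕ) : ∀ (n : ℕ) (G : Type u) [Group G] [Group.FG G], GrowthLE G D →
    ∀ (V : Type v) [NormedAddCommGroup V] [InnerProductSpace ℂ V] [FiniteDimensional ℂ V],
      Module.finrank ℂ V = n → ∀ ρ : G →* (V →L[ℂ] V), IsoRep ρ →
      ∃ N : Subgroup G, N.FiniteIndex ∧ ∀ x ∈ N, ∀ y ∈ N, ρ x * ρ y = ρ y * ρ x := by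
  intro n
  induction n using Nat.strong_induction_on with
  | _ n ih =>
  intro G _ _ hG V _ _ _ hn ρ hρ
  obtain ⟨ε, hε⟩ : ∃ ε : ℝ, ε = 1 / (16 * (2 * 4 ^ D : ℕ)) := ⟨_, rfl⟩
  have hM1 : (0 : ℝ) < (2 * 4 ^ D : ℕ) := by
    have : 0 < 2 * 4 ^ D := by positivity
    exact_mod_cast this
  have hε0 : 0 < ε := by rw [hε]; positivity
  obtain ⟨K, hK⟩ : ∃ K, K = Subgroup.closure {g | dev ρ g < ε} := ⟨_, rfl⟩
  have hKi : K.FiniteIndex := hK ▸ finiteIndex_near hρ hε0
  have hKfg : Group.FG K := Subgroup.fg_of_index_ne_zero K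
  have hKfg' : (Subgroup.closure {g | dev ρ g < ε}).FG := by
    rw [← hK]
    exact (Group.fg_iff_subgroup_fg K).1 hKfg
  obtain ⟨S, hSf, hST, hSK⟩ := exists_finite_closure hKfg'
  rw [← hK] at hSK
  have hSd : ∀ s ∈ S, 16 * (2 * 4 ^ D : ℕ) * dev ρ s < 1 := fun s hs => by
    have h1 : dev ρ s < ε := hST hs
    rw [hε, lt_div_iff₀ (by positivity)] at h1
    linarith
  by_cases hC : ∀ z ∈ K, (∀ y ∈ K, ρ z * ρ y = ρ y * ρ z) → ∃ c : ℂ, ρ z = c • 1
  · exact ⟨K, hKi, comm_of_scalar hG hρ hSf hSK hSd hC⟩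
  · push Not at hC
    obtain ⟨z, hz, hzc, hzs⟩ := hC
    have hV : Nontrivial V := by
      by_contra hV
      rw [not_nontrivial_iff_subsingleton] at hV
      exact hzs 0 (by ext v; exact Subsingleton.elim _ _)
    obtain ⟨μ, hμ⟩ := Module.End.exists_eigenvalue ((ρ z : V →L[ℂ] V) : Module.End ℂ V)
    obtain ⟨E, hE⟩ : ∃ E, E = Module.End.eigenspace ((ρ z : V →L[ℂ] V) : Module.End ℂ V) μ :=
      ⟨_, rfl⟩
    have hmem : ∀ v, v ∈ E ↔ ρ z v = μ • v := fun v => by
      rw [hE, Module.End.mem_eigenspace_iff]; rfl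
    have hEbot : E ≠ ⊥ := hE ▸ hμ
    have hEtop : E ≠ ⊤ := by
      intro htop
      refine hzs μ ?_
      ext v
      have : v ∈ E := by rw [htop]; trivial
      exact (hmem v).1 this
    have hEi : ∀ y ∈ K, ∀ w ∈ E, ρ y w ∈ E := by
      intro y hy w hw
      rw [hmem] at hw ⊢
      have h1 : (ρ z * ρ y) w = (ρ y * ρ z) w := by rw [hzc y hy]
      have h2 : ρ z (ρ y w) = ρ y (ρ z w) := h1
      rw [h2, hw, map_smul]
    have hEo := hρ.orth K E hEi
    have hr1 : Module.finrank ℂ E < n := by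
      rw [← hn]
      exact Submodule.finrank_lt hEtop
    have hr2 : Module.finrank ℂ Eᗮ < n := by
      rw [← hn]
      refine Submodule.finrank_lt fun htop => hEbot ?_
      rwa [Submodule.orthogonal_eq_top_iff] at htop
    obtain ⟨N₁, hN₁, hc₁⟩ := ih _ hr1 K (hG.subgroup K) E rfl (subRep ρ K E hEi)
      (subRep_isoRep hρ K E hEi)
    obtain ⟨N₂, hN₂, hc₂⟩ := ih _ hr2 K (hG.subgroup K) Eᗮ rfl (subRep ρ K Eᗮ hEo)
      (subRep_isoRep hρ K Eᗮ hEo)
    refine ⟨(N₁ ⊓ N₂).map K.subtype, ⟨?_⟩, ?_⟩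
    · rw [Subgroup.index_map_subtype]
      exact mul_ne_zero (Subgroup.FiniteIndex.index_ne_zero (H := N₁ ⊓ N₂)) hKi.index_ne_zero
    · rintro _ ⟨x, hx, rfl⟩ _ ⟨y, hy, rfl⟩
      ext v
      obtain ⟨a, ha, b, hb, rfl⟩ := E.exists_add_mem_mem_orthogonal v
      have h1 := congrArg (fun A : E →L[ℂ] E => ((A ⟨a, ha⟩ : E) : V)) (hc₁ x hx.1 y hy.1)
      have h2 := congrArg (fun A : Eᗮ →L[ℂ] Eᗮ => ((A ⟨b, hb⟩ : Eᗮ) : V)) (hc₂ x hx.2 y hy.2)
      have h3 : ρ x (ρ y a) = ρ y (ρ x a) := h1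
      have h4 : ρ x (ρ y b) = ρ y (ρ x b) := h2
      show ρ x (ρ y (a + b)) = ρ y (ρ x (a + b))
      rw [map_add, map_add, map_add, map_add, h3, h4]

end Vale.Agent.P188.H796

end
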