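import Vale.Agent.P188.R.G012
import Vale.Agent.P188.R.G002

/-!
The measure on the pushout group `P.S`: right and left invariant, countable sum of copies of the
Haar measure of `K`.
-/

open MeasureTheory MeasureTheory.Measure Set Vale.Agent.P188.H796
open scoped ENNReal

set_option linter.unusedSectionVars false

universe u v

namespace Vale.Agent.P188.H131

variable {Γ : Type u} [Group Γ] {N : Subgroup Γ} {K : Type v} [Group K] (P : PushData Γ N K)
  [MeasurableSpace K]

/-- the chart `k ↦ g k` of `S` -/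
def gk (g : Γ) (k : K) : P.S := P.inG g * P.inK k

instance : MeasurableSpace P.S := ⨅ g : Γ, MeasurableSpace.map (gk P g) inferInstance

theorem measurableSet_S {A : Set P.S} :
    MeasurableSet A ↔ ∀ g : Γ, MeasurableSet (gk P g ⁻¹' A) := by
  show MeasurableSet[⨅ g : Γ, MeasurableSpace.map (gk P g) inferInstance] A ↔ _
  rw [MeasurableSpace.measurableSet_iInf]
  rfl

theorem measurable_gk (g : Γ) : Measurable (gk P g) := fun _ hA => (measurableSet_S P).mp hA g

theorem measurable_S {X : Type*} [MeasurableSpace X] {f : P.S → X} :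
    Measurable f ↔ ∀ g : Γ, Measurable fun k => f (gk P g k) := by
  constructor
  · intro h g
    exact h.comp (measurable_gk P g)
  · intro h A hA
    rw [measurableSet_S]
    intro g
    exact h g hA

theorem gk_mul (g : Γ) (n : N) (k : K) : gk P (g * n) k = gk P g (P.ι n * k) := by
  unfold gk
  rw [map_mul, map_mul, PushData.inG_coe, mul_assoc]

theorem inG_mul_gk (g g' : Γ) (k : K) : P.inG g * gk P g' k = gk P (g * g') k := by
  unfold gk
  rw [map_mul, mul_assoc]

theorem gk_mul_inK (g : Γ) (k k' : K) : gk P g k * P.inK k' = gk P g (k * k') := by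
  unfold gk
  rw [map_mul, mul_assoc]

theorem gk_mul_inG (g g' : Γ) (k : K) : gk P g k * P.inG g' = gk P (g * g') (P.α g'⁻¹ k) := by
  unfold gk
  rw [mul_assoc, PushData.inK_mul_inG, map_mul, mul_assoc]

theorem inK_mul_gk (g : Γ) (k k' : K) : P.inK k * gk P g k' = gk P g (P.α g⁻¹ k * k') := by
  unfold gk
  rw [← mul_assoc, PushData.inK_mul_inG, map_mul, mul_assoc]

theorem exists_gk (s : P.S) : ∃ g k, s = gk P g k := P.exists_eq' s

theorem gk_injective (g : Γ) : Function.Injective (gk P g) := by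
  intro k k' h
  exact P.inK_injective (mul_left_cancel h)

theorem gk_eq_iff {g g' : Γ} {k k' : K} :
    gk P g k = gk P g' k' ↔ ∃ n : N, g' = g * n ∧ k = P.ι n * k' := P.inG_mul_inK_eq_iff

section meas

variable [MeasurableMul K]

theorem measurable_mul_right_S (hα : ∀ g, Measurable (P.α g)) (s : P.S) :
    Measurable fun x : P.S => x * s := by
  obtain ⟨g', k', rfl⟩ := exists_gk P s
  rw [measurable_S]
  intro g
  have : (fun k => gk P g k * gk P g' k') = fun k => gk P (g * g') (P.α g'⁻¹ k * k') := by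
    funext k
    rw [← gk_mul_inK, ← gk_mul_inG, mul_assoc]; rfl
  rw [this]
  exact (measurable_gk P _).comp ((hα _).mul_const _)

theorem measurable_mul_left_S (s : P.S) : Measurable fun x : P.S => s * x := by
  obtain ⟨g', k', rfl⟩ := exists_gk P s
  rw [measurable_S]
  intro g
  have : (fun k => gk P g' k' * gk P g k) = fun k => gk P (g' * g) (P.α g⁻¹ k' * k) := by
    funext k
    show P.inG g' * P.inK k' * gk P g k = _
    rw [mul_assoc, inK_mul_gk, inG_mul_gk]
  rw [this]
  exact (measurable_gk P _).comp (measurable_const_mul _)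

end meas

/-- the mass of the slice over `g` -/
noncomputable def slice (μ : Measure K) (A : Set P.S) (g : Γ) : ℝ≥0∞ := μ (gk P g ⁻¹' A)

/-- the measure on `S` -/
noncomputable def muS (μ : Measure K) : Measure P.S :=
  Measure.sum fun c : Γ ⧸ N => μ.map (gk P c.out)

instance [Countable Γ] (μ : Measure K) [SFinite μ] : SFinite (muS P μ) := by
  have : Countable (Γ ⧸ N) := Quotient.countable
  have (c : Γ ⧸ N) : SFinite (μ.map (gk P c.out)) := inferInstance
  unfold muS
  infer_instance

theorem muS_apply (μ : Measure K) {A : Set P.S} (hA : MeasurableSet A) :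
    muS P μ A = ∑' c : Γ ⧸ N, slice P μ A c.out := by
  unfold muS
  rw [sum_apply _ hA]
  refine tsum_congr fun c => ?_
  rw [map_apply (measurable_gk P _) hA]
  rfl

variable [MeasurableMul K]

theorem slice_mul (μ : Measure K) [μ.IsMulLeftInvariant] {A : Set P.S} (hA : MeasurableSet A)
    (g : Γ) (n : N) : slice P μ A (g * n) = slice P μ A g := by
  unfold slice
  have h : gk P (g * n) ⁻¹' A = (fun k => P.ι n * k) ⁻¹' (gk P g ⁻¹' A) := by
    ext k
    simp only [mem_preimage, gk_mul]
  rw [h, ← map_apply (measurable_const_mul _) (measurable_gk P g hA), map_mul_left_eq_self]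

theorem slice_congr (μ : Measure K) [μ.IsMulLeftInvariant] {A : Set P.S} (hA : MeasurableSet A)
    {g g' : Γ} (h : (g : Γ ⧸ N) = g') : slice P μ A g = slice P μ A g' := by
  rw [QuotientGroup.eq] at h
  have : g' = g * ((⟨g⁻¹ * g', h⟩ : N) : Γ) := by simp
  rw [this, slice_mul P μ hA]

theorem slice_out (μ : Measure K) [μ.IsMulLeftInvariant] {A : Set P.S} (hA : MeasurableSet A)
    (g : Γ) : slice P μ A (g : Γ ⧸ N).out = slice P μ A g :=
  slice_congr P μ hA (Quotient.out_eq' _)

/-- the measure of `g B` -/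
theorem muS_image (μ : Measure K) [μ.IsMulLeftInvariant] {B : Set K} (hB : MeasurableSet B)
    (g : Γ) : muS P μ (gk P g '' B) = μ B := by
  have h1 : ∀ g' : Γ, (∀ n : N, g' = g * n → gk P g' ⁻¹' (gk P g '' B) = (fun k => P.ι n * k) ⁻¹' B) := by
    rintro g' n rfl
    ext k
    simp only [mem_preimage, gk_mul]
    exact (gk_injective P g).mem_set_image
  have h2 : ∀ g' : Γ, (g' : Γ ⧸ N) ≠ g → gk P g' ⁻¹' (gk P g '' B) = ∅ := by
    intro g' hg'
    rw [eq_empty_iff_forall_notMem]
    rintro k ⟨b, hb, hbk⟩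
    rw [gk_eq_iff] at hbk
    obtain ⟨n, rfl, -⟩ := hbk
    exact hg' (by simp)
  have hA : MeasurableSet (gk P g '' B) := by
    rw [measurableSet_S]
    intro g'
    by_cases h : (g' : Γ ⧸ N) = g
    · have h3 := QuotientGroup.eq.mp h.symm
      rw [h1 g' ⟨g⁻¹ * g', h3⟩ (by simp)]
      exact measurable_const_mul _ hB
    · rw [h2 g' h]; exact MeasurableSet.empty
  rw [muS_apply P μ hA, tsum_eq_single (g : Γ ⧸ N)]
  · rw [slice_out P μ hA]
    unfold slice
    rw [preimage_image_eq _ (gk_injective P g)]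
  · intro c hc
    unfold slice
    rw [h2 _ (by rw [show ((c.out : Γ) : Γ ⧸ N) = c from Quotient.out_eq' c]; exact hc)]
    exact measure_empty

theorem slice_pre_inG (μ : Measure K) {A : Set P.S} (g₀ g : Γ) :
    slice P μ ((fun x => P.inG g₀ * x) ⁻¹' A) g = slice P μ A (g₀ * g) := by
  unfold slice
  congr 1
  ext k
  simp only [mem_preimage, inG_mul_gk]

theorem slice_pre_inK (μ : Measure K) [μ.IsMulLeftInvariant] {A : Set P.S} (hA : MeasurableSet A)
    (k₀ : K) (g : Γ) : slice P μ ((fun x => P.inK k₀ * x) ⁻¹' A) g = slice P μ A g := by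
  unfold slice
  have h : gk P g ⁻¹' ((fun x => P.inK k₀ * x) ⁻¹' A) =
      (fun k => P.α g⁻¹ k₀ * k) ⁻¹' (gk P g ⁻¹' A) := by
    ext k
    simp only [mem_preimage, inK_mul_gk]
  rw [h, ← map_apply (measurable_const_mul _) (measurable_gk P g hA), map_mul_left_eq_self]

/-- left invariance -/
theorem muS_left (μ : Measure K) [μ.IsMulLeftInvariant] (s : P.S) {A : Set P.S}
    (hA : MeasurableSet A) : muS P μ ((fun x => s * x) ⁻¹' A) = muS P μ A := by
  have hN := P.normal
  have hG : ∀ (g : Γ) {A : Set P.S}, MeasurableSet A →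
      muS P μ ((fun x => P.inG g * x) ⁻¹' A) = muS P μ A := by
    intro g A hA
    rw [muS_apply P μ (measurable_mul_left_S P _ hA), muS_apply P μ hA]
    rw [← (Equiv.mulLeft (g : Γ ⧸ N)).tsum_eq fun c : Γ ⧸ N => slice P μ A c.out]
    refine tsum_congr fun c => ?_
    rw [slice_pre_inG]
    refine slice_congr P μ hA ?_
    rw [Equiv.coe_mulLeft, QuotientGroup.mk_mul]
    rw [show ((c.out : Γ) : Γ ⧸ N) = c from Quotient.out_eq' c]
    exact (Quotient.out_eq' _).symm
  have hK : ∀ (k : K) {A : Set P.S}, MeasurableSet A →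
      muS P μ ((fun x => P.inK k * x) ⁻¹' A) = muS P μ A := by
    intro k A hA
    rw [muS_apply P μ (measurable_mul_left_S P _ hA), muS_apply P μ hA]
    exact tsum_congr fun c => slice_pre_inK P μ hA k _
  obtain ⟨g, k, rfl⟩ := exists_gk P s
  have h : (fun x => gk P g k * x) ⁻¹' A =
      (fun x => P.inK k * x) ⁻¹' ((fun x => P.inG g * x) ⁻¹' A) := by
    ext x
    simp only [mem_preimage, gk, mul_assoc]
  rw [h, hK k (measurable_mul_left_S P _ hA), hG g hA]

theorem slice_pre_mul_inK (μ : Measure K) [μ.IsMulRightInvariant] {A : Set P.S}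
    (hA : MeasurableSet A) (k₀ : K) (g : Γ) :
    slice P μ ((fun x => x * P.inK k₀) ⁻¹' A) g = slice P μ A g := by
  unfold slice
  have h : gk P g ⁻¹' ((fun x => x * P.inK k₀) ⁻¹' A) =
      (fun k => k * k₀) ⁻¹' (gk P g ⁻¹' A) := by
    ext k
    simp only [mem_preimage, gk_mul_inK]
  rw [h, ← map_apply (measurable_mul_const _) (measurable_gk P g hA), map_mul_right_eq_self]

theorem slice_pre_mul_inG (μ : Measure K) (hα : ∀ g, MeasurePreserving (P.α g) μ μ) {A : Set P.S}
    (hA : MeasurableSet A) (g₀ g : Γ) :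
    slice P μ ((fun x => x * P.inG g₀) ⁻¹' A) g = slice P μ A (g * g₀) := by
  unfold slice
  have h : gk P g ⁻¹' ((fun x => x * P.inG g₀) ⁻¹' A) =
      (P.α g₀⁻¹) ⁻¹' (gk P (g * g₀) ⁻¹' A) := by
    ext k
    simp only [mem_preimage, gk_mul_inG]
  rw [h]
  exact (hα _).measure_preimage (measurable_gk P _ hA).nullMeasurableSet

/-- right invariance -/
theorem muS_right (μ : Measure K) [μ.IsMulLeftInvariant] [μ.IsMulRightInvariant]
    (hα : ∀ g, MeasurePreserving (P.α g) μ μ) (s : P.S) {A : Set P.S}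
    (hA : MeasurableSet A) : muS P μ ((fun x => x * s) ⁻¹' A) = muS P μ A := by
  have hN := P.normal
  have hm := measurable_mul_right_S P fun g => (hα g).measurable
  have hG : ∀ (g : Γ) {A : Set P.S}, MeasurableSet A →
      muS P μ ((fun x => x * P.inG g) ⁻¹' A) = muS P μ A := by
    intro g A hA
    rw [muS_apply P μ (hm _ hA), muS_apply P μ hA]
    rw [← (Equiv.mulRight (g : Γ ⧸ N)).tsum_eq fun c : Γ ⧸ N => slice P μ A c.out]
    refine tsum_congr fun c => ?_
    rw [slice_pre_mul_inG P μ hα hA]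
    refine slice_congr P μ hA ?_
    rw [Equiv.coe_mulRight, QuotientGroup.mk_mul]
    rw [show ((c.out : Γ) : Γ ⧸ N) = c from Quotient.out_eq' c]
    exact (Quotient.out_eq' _).symm
  have hK : ∀ (k : K) {A : Set P.S}, MeasurableSet A →
      muS P μ ((fun x => x * P.inK k) ⁻¹' A) = muS P μ A := by
    intro k A hA
    rw [muS_apply P μ (hm _ hA), muS_apply P μ hA]
    exact tsum_congr fun c => slice_pre_mul_inK P μ hA k _
  obtain ⟨g, k, rfl⟩ := exists_gk P s
  have h : (fun x => x * gk P g k) ⁻¹' A =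
      (fun x => x * P.inG g) ⁻¹' ((fun x => x * P.inK k) ⁻¹' A) := by
    ext x
    simp only [mem_preimage, gk, mul_assoc]
  rw [h, hG g (hm _ hA), hK k hA]

section fund

/-- a measurable set of representatives of `ι(N) \ K` -/
structure FundK (F : Set K) : Prop where
  meas : MeasurableSet F
  ex : ∀ k : K, ∃! n : N, P.ι n * k ∈ F

variable {P} {F : Set K} (hF : FundK P F)

include hF

theorem FundK.exists_eq (s : P.S) : ∃ p : Γ × K, p.2 ∈ F ∧ s = gk P p.1 p.2 := by
  obtain ⟨g, k, rfl⟩ := exists_gk P s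
  obtain ⟨n, hn, -⟩ := hF.ex k
  refine ⟨(g * (n⁻¹ : N), P.ι n * k), hn, ?_⟩
  rw [gk_eq_iff]
  exact ⟨n⁻¹, rfl, by simp⟩

theorem FundK.unique {g g' : Γ} {k k' : K} (hk : k ∈ F) (hk' : k' ∈ F)
    (h : gk P g k = gk P g' k') : g = g' ∧ k = k' := by
  rw [gk_eq_iff] at h
  obtain ⟨n, rfl, rfl⟩ := h
  obtain ⟨m, hm, hu⟩ := hF.ex k'
  have h1 := hu n hk
  have h2 := hu 1 (by simpa using hk')
  have : n = 1 := h1.trans h2.symm
  subst this
  simp

/-- the integer part -/
noncomputable def FundK.fl (s : P.S) : Γ := (hF.exists_eq s).choose.1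

/-- the fractional part -/
noncomputable def FundK.fr (s : P.S) : K := (hF.exists_eq s).choose.2

theorem FundK.fr_mem (s : P.S) : hF.fr s ∈ F := (hF.exists_eq s).choose_spec.1

theorem FundK.eq (s : P.S) : gk P (hF.fl s) (hF.fr s) = s := (hF.exists_eq s).choose_spec.2.symm

theorem FundK.fl_gk (g : Γ) {k : K} (hk : k ∈ F) : hF.fl (gk P g k) = g :=
  (hF.unique (hF.fr_mem _) hk (hF.eq (gk P g k))).1

theorem FundK.fr_gk (g : Γ) {k : K} (hk : k ∈ F) : hF.fr (gk P g k) = k :=
  (hF.unique (hF.fr_mem _) hk (hF.eq (gk P g k))).2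

theorem FundK.fl_inG_mul (g : Γ) (s : P.S) : hF.fl (P.inG g * s) = g * hF.fl s := by
  conv_lhs => rw [← hF.eq s, inG_mul_gk]
  exact hF.fl_gk _ (hF.fr_mem s)

theorem FundK.fl_eq_iff (s : P.S) (g : Γ) : hF.fl s = g ↔ ∃ k ∈ F, s = gk P g k := by
  constructor
  · rintro rfl
    exact ⟨_, hF.fr_mem s, (hF.eq s).symm⟩
  · rintro ⟨k, hk, rfl⟩
    exact hF.fl_gk g hk

theorem measurableSet_gk_image (g : Γ) {B : Set K} (hB : MeasurableSet B) :
    MeasurableSet (gk P g '' B) := by
  rw [measurableSet_S]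
  intro g'
  by_cases h : (g' : Γ ⧸ N) = g
  · have h1 : g' = g * ((⟨g⁻¹ * g', QuotientGroup.eq.mp h.symm⟩ : N) : Γ) := by simp
    have h2 : gk P g' ⁻¹' (gk P g '' B) =
      (fun k => P.ι ⟨g⁻¹ * g', QuotientGroup.eq.mp h.symm⟩ * k) ⁻¹' B := by
      ext k
      have h2 : gk P g' k = gk P g (P.ι ⟨g⁻¹ * g', QuotientGroup.eq.mp h.symm⟩ * k) := by
        conv_lhs => rw [h1, gk_mul]
      simp only [mem_preimage]
      rw [h2]
      exact (gk_injective P g).mem_set_image
    rw [h2]
    exact measurable_const_mul _ hB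
  · have h2 : gk P g' ⁻¹' (gk P g '' B) = ∅ := by
      rw [eq_empty_iff_forall_notMem]
      rintro k ⟨b, hb, hbk⟩
      rw [gk_eq_iff] at hbk
      obtain ⟨n, rfl, -⟩ := hbk
      exact h (by simp)
    rw [h2]; exact MeasurableSet.empty

theorem FundK.measurableSet_fl (g : Γ) : MeasurableSet {s : P.S | hF.fl s = g} := by
  have : {s : P.S | hF.fl s = g} = gk P g '' F := by
    ext s
    rw [mem_ofPred_eq, hF.fl_eq_iff]
    constructor
    · rintro ⟨k, hk, rfl⟩; exact ⟨k, hk, rfl⟩
    · rintro ⟨k, hk, rfl⟩; exact ⟨k, hk, rfl⟩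
  rw [this]
  exact measurableSet_gk_image hF g hF.meas

theorem FundK.measurable_fr [Countable Γ] : Measurable hF.fr := by
  intro B hB
  have : hF.fr ⁻¹' B = ⋃ g : Γ, gk P g '' (B ∩ F) := by
    ext s
    rw [mem_preimage, mem_iUnion]
    constructor
    · intro h
      exact ⟨hF.fl s, hF.fr s, ⟨h, hF.fr_mem s⟩, hF.eq s⟩
    · rintro ⟨g, k, ⟨hk, hkF⟩, rfl⟩
      rw [hF.fr_gk g hkF]
      exact hk
  rw [this]
  exact MeasurableSet.iUnion fun g => measurableSet_gk_image hF g (hB.inter hF.meas)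

/-- the measure of `S` through the fundamental domain -/
theorem FundK.muS_apply [Countable Γ] (μ : Measure K) [μ.IsMulLeftInvariant] {A : Set P.S}
    (hA : MeasurableSet A) :
    muS P μ A = ∑' g : Γ, μ (gk P g ⁻¹' A ∩ F) := by
  rw [H131.muS_apply P μ hA]
  let e : (Γ ⧸ N) × N ≃ Γ := Equiv.ofBijective (fun p => p.1.out * p.2) (by
    constructor
    · rintro ⟨c, n⟩ ⟨c', n'⟩ h
      simp only at h
      have h1 : c = c' := by
        have h2 := congrArg (fun g : Γ => (g : Γ ⧸ N)) h
        simp only [QuotientGroup.mk_mul_of_mem _ n.2, QuotientGroup.mk_mul_of_mem _ n'.2] at h2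
        rwa [show ((c.out : Γ) : Γ ⧸ N) = c from Quotient.out_eq' c,
          show ((c'.out : Γ) : Γ ⧸ N) = c' from Quotient.out_eq' c'] at h2
      subst h1
      have h3 : (n : Γ) = n' := mul_left_cancel h
      rw [Subtype.ext h3]
    · intro g
      have h1 : ((g : Γ ⧸ N).out : Γ ⧸ N) = g := Quotient.out_eq' _
      refine ⟨(g, ⟨(g : Γ ⧸ N).out⁻¹ * g, QuotientGroup.eq.mp h1⟩), by simp⟩)
  rw [← e.tsum_eq, ENNReal.tsum_prod (f := fun c n => μ (gk P (e (c, n)) ⁻¹' A ∩ F))]
  refine tsum_congr fun c => ?_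
  have h1 : ∀ n : N, μ (gk P (e (c, n)) ⁻¹' A ∩ F) =
      μ (gk P c.out ⁻¹' A ∩ (fun k => P.ι n⁻¹ * k) ⁻¹' F) := by
    intro n
    have h2 : gk P (e (c, n)) ⁻¹' A ∩ F = (fun k => P.ι n * k) ⁻¹'
        (gk P c.out ⁻¹' A ∩ (fun k => P.ι n⁻¹ * k) ⁻¹' F) := by
      ext k
      have h3 : gk P (e (c, n)) k = gk P c.out (P.ι n * k) := gk_mul P _ n k
      simp only [mem_inter_iff, mem_preimage, h3, map_inv, inv_mul_cancel_left]
    rw [h2, ← map_apply (measurable_const_mul _)
      ((measurable_gk P _ hA).inter (measurable_const_mul _ hF.meas)), map_mul_left_eq_self]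
  simp only [h1]
  have hc : Countable N := inferInstance
  rw [← (Equiv.inv N).tsum_eq]
  simp only [Equiv.inv_apply, inv_inv]
  rw [← measure_iUnion]
  · unfold slice
    congr 1
    ext k
    simp only [mem_iUnion, mem_inter_iff, mem_preimage]
    constructor
    · intro h
      obtain ⟨n, hn, -⟩ := hF.ex k
      exact ⟨n, h, hn⟩
    · rintro ⟨n, h, -⟩; exact h
  · intro n n' hnn'
    refine disjoint_left.mpr ?_
    rintro k ⟨-, h⟩ ⟨-, h'⟩
    exact hnn' ((hF.ex k).unique h h')
  · intro n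
    exact (measurable_gk P _ hA).inter (measurable_const_mul _ hF.meas)

end fund

section inst

theorem measurePreserving_right (μ : Measure K) [μ.IsMulLeftInvariant] [μ.IsMulRightInvariant]
    (hα : ∀ g, MeasurePreserving (P.α g) μ μ) (s : P.S) :
    MeasurePreserving (fun x : P.S => x * s) (muS P μ) (muS P μ) := by
  refine ⟨measurable_mul_right_S P (fun g => (hα g).measurable) s, ?_⟩
  ext A hA
  rw [map_apply (measurable_mul_right_S P (fun g => (hα g).measurable) s) hA,
    muS_right P μ hα s hA]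

theorem measurePreserving_left (μ : Measure K) [μ.IsMulLeftInvariant] (s : P.S) :
    MeasurePreserving (fun x : P.S => s * x) (muS P μ) (muS P μ) := by
  refine ⟨measurable_mul_left_S P s, ?_⟩
  ext A hA
  rw [map_apply (measurable_mul_left_S P s) hA, muS_left P μ s hA]

/-- the measurable structure on `S × X` : a map out of `S × X` is measurable if it is on charts -/
theorem measurable_S_prod [Countable Γ] [Countable N] {X Y : Type*} [MeasurableSpace X]
    [MeasurableSpace Y] {F : Set K} (hF : FundK P F) {f : P.S × X → Y}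
    (h : ∀ g : Γ, Measurable fun p : K × X => f (gk P g p.1, p.2)) : Measurable f := by
  intro A hA
  have : f ⁻¹' A = ⋃ g : Γ, ({s : P.S | hF.fl s = g} ×ˢ univ) ∩
      ((fun p : P.S × X => (hF.fr p.1, p.2)) ⁻¹' ((fun p : K × X => f (gk P g p.1, p.2)) ⁻¹' A)) := by
    ext ⟨s, x⟩
    simp only [mem_preimage, mem_iUnion, mem_inter_iff, mem_prod, mem_univ, and_true]
    constructor
    · intro hs
      exact ⟨hF.fl s, rfl, by rw [hF.eq]; exact hs⟩
    · rintro ⟨g, hg, hs⟩
      have hg' : hF.fl s = g := hg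
      subst hg'
      rwa [hF.eq] at hs
  rw [this]
  exact MeasurableSet.iUnion fun g => ((hF.measurableSet_fl g).prod MeasurableSet.univ).inter
    (((hF.measurable_fr.comp measurable_fst).prodMk measurable_snd) (h g hA))

end inst

/-- existence of a bounded measurable set of representatives -/
theorem exists_fundK {Γ : Type u} [Group Γ] {N : Subgroup Γ} {K : Type v} [Group K]
    (P : PushData Γ N K) [TopologicalSpace K] [IsTopologicalGroup K] [SecondCountableTopology K]
    [MeasurableSpace K] [BorelSpace K] [LocallyCompactSpace K] [Countable N]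
    (h : Lat P.ι.range) : ∃ F : Set K, FundK P F ∧ ∃ C, IsCompact C ∧ F ⊆ C := by
  have : Countable P.ι.range := (MonoidHom.rangeRestrict_surjective P.ι).countable
  obtain ⟨F, hF, hC, hF2⟩ := exists_fund_bdd h
  refine ⟨F, ⟨hF, fun k => ?_⟩, hC⟩
  obtain ⟨⟨_, n, rfl⟩, hn, hu⟩ := hF2 k
  refine ⟨n, hn, fun m hm => ?_⟩
  have := hu ⟨P.ι m, m, rfl⟩ hm
  exact P.inj (congrArg Subtype.val this)

section haar

variable {Γ : Type u} [Group Γ] {N : Subgroup Γ} {K : Type v} [Group K]
    (P : PushData Γ N K) [TopologicalSpace K] [IsTopologicalGroup K] [SecondCountableTopology K]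
    [MeasurableSpace K] [BorelSpace K] [LocallyCompactSpace K] [Countable N]

theorem haar_right (h : Lat P.ι.range) (μ : Measure K) [IsHaarMeasure μ] :
    μ.IsMulRightInvariant := by
  have : Countable P.ι.range := (MonoidHom.rangeRestrict_surjective P.ι).countable
  exact right_inv h μ

theorem haar_alpha (h : Lat P.ι.range) (hα : ∀ g, Continuous (P.α g)) (μ : Measure K)
    [IsHaarMeasure μ] (g : Γ) : MeasurePreserving (P.α g) μ μ := by
  have : Countable P.ι.range := (MonoidHom.rangeRestrict_surjective P.ι).countable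
  have hsymm : ∀ g : Γ, (P.α g).symm = P.α g⁻¹ := fun g => by rw [map_inv]; rfl
  have hmem : ∀ (g : Γ) (x : K), x ∈ P.ι.range → P.α g x ∈ P.ι.range := by
    rintro g _ ⟨n, rfl⟩
    rw [P.α_ι]
    exact ⟨_, rfl⟩
  refine measurePreserving_aut h μ (P.α g) (hα g) ?_ fun x => ⟨fun hx => ?_, hmem g x⟩
  · rw [hsymm]; exact hα _
  · have := hmem g⁻¹ _ hx
    rw [← hsymm, MulEquiv.symm_apply_apply] at this
    exact this

theorem haar_mp_right [Countable Γ] (h : Lat P.ι.range) (hα : ∀ g, Continuous (P.α g))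
    (μ : Measure K) [IsHaarMeasure μ] (s : P.S) :
    MeasurePreserving (fun x : P.S => x * s) (muS P μ) (muS P μ) :=
  have := haar_right P h μ
  measurePreserving_right P μ (haar_alpha P h hα μ) s

end haar

end Vale.Agent.P188.H131
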