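import Vale.Agent.P188.R.G002
import Vale.Agent.P188.R.G011

section

/-!
The spaces `Wt T T' r` span.
-/

namespace Vale.Agent.P188.H269

open Module

section cplx

/-- growth of generalised eigenvectors -/
theorem grow_gen {X : Type*} [NormedAddCommGroup X] [NormedSpace ℂ X] (A : Module.End ℂ X)
    {μ : ℂ} (hμ : μ ≠ 0) (m : ℕ) (y : X) (hy : ((A - μ • (1 : Module.End ℂ X)) ^ m) y = 0) :
    ∀ ε > 0, ∃ C : ℝ, 0 ≤ C ∧ ∀ n : ℕ,
      ‖(A ^ n) y‖ ≤ C * Real.exp ((Real.log ‖μ‖ + ε) * n) := by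
  have hμ' : 0 < ‖μ‖ := norm_pos_iff.2 hμ
  induction m generalizing y with
  | zero =>
    intro ε _
    refine ⟨0, le_rfl, fun n => ?_⟩
    simp only [pow_zero, Module.End.one_apply] at hy
    rw [hy, map_zero, norm_zero, zero_mul]
  | succ m ih =>
    intro ε hε
    set l := Real.log ‖μ‖ with hl
    set z := (A - μ • (1 : Module.End ℂ X)) y with hz
    have hz0 : ((A - μ • (1 : Module.End ℂ X)) ^ m) z = 0 := by
      rw [hz, ← Module.End.mul_apply, ← pow_succ]; exact hy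
    obtain ⟨C, hC0, hC⟩ := ih z hz0 (ε / 2) (by linarith)
    have hAy : A y = μ • y + z := by
      rw [hz, LinearMap.sub_apply, LinearMap.smul_apply, Module.End.one_apply]; abel
    have hexp : Real.exp l = ‖μ‖ := Real.exp_log hμ'
    -- linear growth
    have key : ∀ n : ℕ, ‖(A ^ n) y‖ ≤ (‖y‖ + C / ‖μ‖ * n) * Real.exp ((l + ε / 2) * n) := by
      intro n
      induction n with
      | zero => simp
      | succ n ihn =>
        have h1 : (A ^ (n + 1)) y = μ • (A ^ n) y + (A ^ n) z := by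
          rw [pow_succ, Module.End.mul_apply, hAy, map_add, map_smul]
        rw [h1]
        have h2 : Real.exp ((l + ε / 2) * ((n + 1 : ℕ) : ℝ)) =
            ‖μ‖ * Real.exp (ε / 2) * Real.exp ((l + ε / 2) * n) := by
          rw [← hexp, ← Real.exp_add, ← Real.exp_add]; congr 1; push_cast; ring
        have h3 : (1 : ℝ) ≤ Real.exp (ε / 2) := Real.one_le_exp (by linarith)
        have hEpos : 0 < Real.exp ((l + ε / 2) * n) := Real.exp_pos _
        have hfac : 0 ≤ (‖y‖ + C / ‖μ‖ * ((n + 1 : ℕ) : ℝ)) := by positivity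
        calc ‖μ • (A ^ n) y + (A ^ n) z‖
            ≤ ‖μ‖ * ‖(A ^ n) y‖ + ‖(A ^ n) z‖ := by
              refine (norm_add_le _ _).trans ?_
              rw [norm_smul]
          _ ≤ ‖μ‖ * ((‖y‖ + C / ‖μ‖ * n) * Real.exp ((l + ε / 2) * n)) +
              C * Real.exp ((l + ε / 2) * n) :=
              add_le_add (mul_le_mul_of_nonneg_left ihn hμ'.le) (hC n)
          _ = (‖y‖ + C / ‖μ‖ * ((n + 1 : ℕ) : ℝ)) *
              (‖μ‖ * 1 * Real.exp ((l + ε / 2) * n)) := by
              push_cast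
              field_simp
              ring
          _ ≤ (‖y‖ + C / ‖μ‖ * ((n + 1 : ℕ) : ℝ)) *
              (‖μ‖ * Real.exp (ε / 2) * Real.exp ((l + ε / 2) * n)) := by
              apply mul_le_mul_of_nonneg_left _ hfac
              apply mul_le_mul_of_nonneg_right _ hEpos.le
              exact mul_le_mul_of_nonneg_left h3 hμ'.le
          _ = _ := by rw [h2]
    refine ⟨‖y‖ + C / ‖μ‖ * (2 / ε), by positivity, fun n => (key n).trans ?_⟩
    have h4 : Real.exp ((l + ε) * n) = Real.exp (ε / 2 * n) * Real.exp ((l + ε / 2) * n) := by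
      rw [← Real.exp_add]; congr 1; ring
    rw [h4, ← mul_assoc]
    apply mul_le_mul_of_nonneg_right _ (Real.exp_pos _).le
    have h5 : ε / 2 * n + 1 ≤ Real.exp (ε / 2 * n) := Real.add_one_le_exp _
    have h6 : (1 : ℝ) ≤ Real.exp (ε / 2 * n) := Real.one_le_exp (by positivity)
    have h7 : (n : ℝ) ≤ 2 / ε * Real.exp (ε / 2 * n) := by
      have : (n : ℝ) = 2 / ε * (ε / 2 * n) := by field_simp
      rw [this]
      apply mul_le_mul_of_nonneg_left _ (by positivity)
      have h8 : ε / 2 * (2 / ε * (ε / 2 * (n : ℝ))) = ε / 2 * n := by field_simp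
      rw [h8]; linarith
    rw [add_mul]
    apply add_le_add
    · exact le_mul_of_one_le_right (norm_nonneg _) h6
    · rw [mul_assoc]
      exact mul_le_mul_of_nonneg_left h7 (by positivity)

variable {V : Type*} [AddCommGroup V] [Module ℝ V] [FiniteDimensional ℝ V]

/-- complexification of an operator, in the coordinates of a basis -/
noncomputable def cplx {ι : Type*} [Fintype ι] [DecidableEq ι] (b : Basis ι ℝ V)
    (T : Module.End ℝ V) : Module.End ℂ (ι → ℂ) :=
  Matrix.toLin' ((LinearMap.toMatrix b b T).map (algebraMap ℝ ℂ))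

theorem cplx_mul {ι : Type*} [Fintype ι] [DecidableEq ι] (b : Basis ι ℝ V)
    (S T : Module.End ℝ V) : cplx b (S * T) = cplx b S * cplx b T := by
  unfold cplx
  rw [LinearMap.toMatrix_mul, Matrix.map_mul, Matrix.toLin'_mul]
  rfl

theorem cplx_one {ι : Type*} [Fintype ι] [DecidableEq ι] (b : Basis ι ℝ V) :
    cplx b (1 : Module.End ℝ V) = 1 := by
  unfold cplx
  rw [LinearMap.toMatrix_one, Matrix.map_one _ (map_zero _) (map_one _), Matrix.toLin'_one]
  rfl

/-- real part -/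
noncomputable def reMap {ι : Type*} [Fintype ι] (b : Basis ι ℝ V) : (ι → ℂ) →ₗ[ℝ] V where
  toFun y := ∑ i, (y i).re • b i
  map_add' x y := by
    simp only [Pi.add_apply, Complex.add_re, add_smul, Finset.sum_add_distrib]
  map_smul' c x := by
    simp only [Pi.smul_apply, Complex.smul_re, smul_eq_mul, mul_smul, Finset.smul_sum,
      RingHom.id_apply]

theorem reMap_apply {ι : Type*} [Fintype ι] (b : Basis ι ℝ V) (y : ι → ℂ) :
    reMap b y = ∑ i, (y i).re • b i := rfl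

theorem reMap_surj {ι : Type*} [Fintype ι] (b : Basis ι ℝ V) :
    Function.Surjective (reMap b) := by
  intro x
  refine ⟨fun i => ((b.repr x i : ℝ) : ℂ), ?_⟩
  rw [reMap_apply]
  simp only [Complex.ofReal_re]
  exact b.sum_repr x

theorem reMap_cplx {ι : Type*} [Fintype ι] [DecidableEq ι] (b : Basis ι ℝ V)
    (T : Module.End ℝ V) (y : ι → ℂ) : reMap b (cplx b T y) = T (reMap b y) := by
  rw [reMap_apply, reMap_apply, map_sum]
  have h1 : ∀ i, (cplx b T y i).re = ∑ j, LinearMap.toMatrix b b T i j * (y j).re := by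
    intro i
    unfold cplx
    rw [Matrix.toLin'_apply, Matrix.mulVec, dotProduct, Complex.re_sum]
    refine Finset.sum_congr rfl fun j _ => ?_
    rw [Matrix.map_apply]
    simp
  have h2 : ∀ j, T (b j) = ∑ i, LinearMap.toMatrix b b T i j • b i := by
    intro j
    conv_lhs => rw [← b.sum_repr (T (b j))]
    refine Finset.sum_congr rfl fun i _ => ?_
    rw [LinearMap.toMatrix_apply]
  simp only [h1, map_smul, h2, Finset.sum_smul, Finset.smul_sum, smul_smul]
  rw [Finset.sum_comm]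
  refine Finset.sum_congr rfl fun j _ => Finset.sum_congr rfl fun i _ => ?_
  rw [mul_comm]

theorem reMap_cplx_pow {ι : Type*} [Fintype ι] [DecidableEq ι] (b : Basis ι ℝ V)
    (T : Module.End ℝ V) (n : ℕ) (y : ι → ℂ) :
    reMap b ((cplx b T ^ n) y) = (T ^ n) (reMap b y) := by
  induction n generalizing y with
  | zero => simp
  | succ n ih => rw [pow_succ, pow_succ, Module.End.mul_apply, Module.End.mul_apply, ih, reMap_cplx]

theorem reMap_mem_Gr {ι : Type*} [Fintype ι] [DecidableEq ι] (b : Basis ι ℝ V)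
    (T : Module.End ℝ V) {μ : ℂ} (hμ : μ ≠ 0) (m : ℕ) (y : ι → ℂ)
    (hy : ((cplx b T - μ • (1 : Module.End ℂ (ι → ℂ))) ^ m) y = 0) :
    reMap b y ∈ Gr T (Real.log ‖μ‖) := by
  intro φ ε hε
  obtain ⟨C, hC0, hC⟩ := grow_gen (cplx b T) hμ m y hy ε hε
  let L : (ι → ℂ) →L[ℝ] ℝ := LinearMap.toContinuousLinearMap (φ ∘ₗ reMap b)
  refine ⟨‖L‖ * C, fun n => ?_⟩
  rw [← reMap_cplx_pow, mul_assoc]
  have h1 : |φ (reMap b ((cplx b T ^ n) y))| = ‖L ((cplx b T ^ n) y)‖ := rfl
  rw [h1]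
  exact (L.le_opNorm _).trans (mul_le_mul_of_nonneg_left (hC n) (norm_nonneg _))

theorem gen_inv {X : Type*} [AddCommGroup X] [Module ℂ X] {A A' : Module.End ℂ X}
    (h : A' * A = 1) (h' : A * A' = 1) {μ : ℂ} (hμ : μ ≠ 0) (m : ℕ) {y : X}
    (hy : ((A - μ • (1 : Module.End ℂ X)) ^ m) y = 0) :
    ((A' - μ⁻¹ • (1 : Module.End ℂ X)) ^ m) y = 0 := by
  have h1 : A' - μ⁻¹ • (1 : Module.End ℂ X) =
      (-μ⁻¹) • (A' * (A - μ • (1 : Module.End ℂ X))) := by
    rw [mul_sub, h, mul_smul_comm, mul_one, smul_sub, smul_smul, neg_smul]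
    have : -μ⁻¹ * μ = -1 := by field_simp
    rw [this, neg_smul, one_smul]; abel
  have hc : Commute A' (A - μ • (1 : Module.End ℂ X)) := by
    unfold Commute SemiconjBy
    rw [mul_sub, sub_mul, h, h', mul_smul_comm, smul_mul_assoc, mul_one, one_mul]
  rw [h1, smul_pow, hc.mul_pow, LinearMap.smul_apply, Module.End.mul_apply, hy, map_zero,
    smul_zero]

theorem iSup_Wt_eq_top {T T' : Module.End ℝ V} (h : T' * T = 1) (h' : T * T' = 1) :
    ⨆ r, Wt T T' r = ⊤ := by
  classical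
  rw [eq_top_iff]
  intro x _
  let b := Module.finBasis ℝ V
  obtain ⟨y, rfl⟩ := reMap_surj b x
  have hy : y ∈ ⨆ μ, (cplx b T).maxGenEigenspace μ := by
    rw [Module.End.iSup_maxGenEigenspace_eq_top]; trivial
  have hc : cplx b T' * cplx b T = 1 := by rw [← cplx_mul, h, cplx_one]
  have hc' : cplx b T * cplx b T' = 1 := by rw [← cplx_mul, h', cplx_one]
  refine Submodule.iSup_induction (fun μ => (cplx b T).maxGenEigenspace μ)
    (motive := fun y => reMap b y ∈ ⨆ r, Wt T T' r) hy ?_ ?_ ?_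
  · intro μ z hz
    rw [Module.End.mem_maxGenEigenspace] at hz
    obtain ⟨m, hm⟩ := hz
    by_cases hμ : μ = 0
    · subst hμ
      rw [zero_smul, sub_zero] at hm
      have h1 : z = 0 := by
        have h2 : cplx b T' ^ m * cplx b T ^ m = 1 := by
          clear hm
          induction m with
          | zero => simp
          | succ n ih =>
            rw [pow_succ (cplx b T'), pow_succ' (cplx b T), mul_assoc,
              ← mul_assoc (cplx b T') (cplx b T), hc, one_mul, ih]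
        have h3 := congrArg (fun B : Module.End ℂ _ => B z) h2
        simp only [Module.End.mul_apply, Module.End.one_apply, hm, map_zero] at h3
        exact h3.symm
      rw [h1, map_zero]; exact Submodule.zero_mem _
    · refine Submodule.mem_iSup_of_mem (Real.log ‖μ‖) ⟨reMap_mem_Gr b T hμ m z hm, ?_⟩
      have h4 := reMap_mem_Gr b T' (inv_ne_zero hμ) m z (gen_inv hc hc' hμ m hm)
      rwa [norm_inv, Real.log_inv] at h4
  · rw [map_zero]; exact Submodule.zero_mem _
  · intro u v hu hv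
    rw [map_add]; exact Submodule.add_mem _ hu hv

end cplx

end Vale.Agent.P188.H269

end

section

/-!
Real representations of a group with a normal subgroup acting unipotently and abelian quotient:
eigenfunctionals.
-/

namespace Vale.Agent.P188.H269

open Module
open scoped commutatorElement

universe u v

section rep

variable {G : Type u} [Group G] {V : Type v} [AddCommGroup V] [Module ℝ V]

/-- unipotent action of `N` -/
def UnipOn (N : Subgroup G) (ρ : G →* Module.End ℝ V) : Prop :=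
  ∃ (E : ℕ → Submodule ℝ V) (d : ℕ), E 0 = ⊤ ∧ E d = ⊥ ∧
    ∀ n ∈ N, ∀ j, ∀ x ∈ E j, ρ n x - x ∈ E (j + 1)

/-- restriction to an invariant subspace -/
def resR (ρ : G →* Module.End ℝ V) (A : Submodule ℝ V) (hA : ∀ g, ∀ x ∈ A, ρ g x ∈ A) :
    G →* Module.End ℝ A where
  toFun g := (ρ g).restrict (hA g)
  map_one' := by ext x; simp
  map_mul' a b := by ext x; simp

theorem UnipOn.res {N : Subgroup G} {ρ : G →* Module.End ℝ V} (h : UnipOn N ρ)
    (A : Submodule ℝ V) (hA : ∀ g, ∀ x ∈ A, ρ g x ∈ A) : UnipOn N (resR ρ A hA) := by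
  obtain ⟨E, d, h0, hd, hE⟩ := h
  refine ⟨fun j => (E j).comap A.subtype, d, ?_, ?_, ?_⟩
  · simp only [h0, Submodule.comap_top]
  · simp only [hd]
    rw [eq_bot_iff]
    intro x hx
    simpa using hx
  · intro n hn j x hx
    exact hE n hn j x hx

theorem rho_inv_mul (ρ : G →* Module.End ℝ V) (g : G) : ρ g⁻¹ * ρ g = 1 := by
  rw [← map_mul, inv_mul_cancel, map_one]

theorem rho_mul_inv (ρ : G →* Module.End ℝ V) (g : G) : ρ g * ρ g⁻¹ = 1 := by
  rw [← map_mul, mul_inv_cancel, map_one]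

/-- existence of an eigenfunctional vanishing on a proper invariant subspace -/
theorem exists_eigenfunctional [FiniteDimensional ℝ V] {N : Subgroup G} [hNn : N.Normal]
    (hcomm : ∀ a b : G, ⁅a, b⁆ ∈ N) (ρ : G →* Module.End ℝ V) (hU : UnipOn N ρ)
    (B : Submodule ℝ V) (hB : ∀ g, ∀ x ∈ B, ρ g x ∈ B) (hBt : B ≠ ⊤) :
    ∃ (l : V →ₗ[ℝ] ℂ) (χ : G → ℂ), l ≠ 0 ∧ (∀ x ∈ B, l x = 0) ∧
      ∀ g x, l (ρ g x) = χ g * l x := by
  classical
  obtain ⟨E, d, h0, hd, hE⟩ := hU
  let K : ℕ → Submodule ℂ (V →ₗ[ℝ] ℂ) := fun j =>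
    { carrier := {l | (∀ x ∈ B, l x = 0) ∧ ∀ x ∈ E j, l x = 0}
      zero_mem' := ⟨fun x _ => rfl, fun x _ => rfl⟩
      add_mem' := by
        intro a b ha hb
        exact ⟨fun x hx => by rw [LinearMap.add_apply, ha.1 x hx, hb.1 x hx, add_zero],
          fun x hx => by rw [LinearMap.add_apply, ha.2 x hx, hb.2 x hx, add_zero]⟩
      smul_mem' := by
        intro c a ha
        exact ⟨fun x hx => by rw [LinearMap.smul_apply, ha.1 x hx, smul_zero],
          fun x hx => by rw [LinearMap.smul_apply, ha.2 x hx, smul_zero]⟩ }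
  have hK0 : K 0 = ⊥ := by
    rw [eq_bot_iff]
    intro l hl
    rw [Submodule.mem_bot]
    ext x
    exact hl.2 x (by rw [h0]; trivial)
  have hKd : K d ≠ ⊥ := by
    obtain ⟨f, hf0, hf⟩ := Submodule.exists_le_ker_of_lt_top B (lt_top_iff_ne_top.2 hBt)
    let l : V →ₗ[ℝ] ℂ := Complex.ofRealLI.toLinearMap ∘ₗ f
    have hl : l ∈ K d := by
      refine ⟨fun x hx => ?_, fun x hx => ?_⟩
      · have : f x = 0 := hf hx
        change ((f x : ℝ) : ℂ) = 0
        rw [this]; rfl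
      · rw [hd, Submodule.mem_bot] at hx
        rw [hx, map_zero]
    intro hbot
    rw [hbot, Submodule.mem_bot] at hl
    apply hf0
    ext x
    have h1 := congrArg (fun m : V →ₗ[ℝ] ℂ => m x) hl
    have h2 : ((f x : ℝ) : ℂ) = 0 := h1
    simpa using h2
  have hex : ∃ j, K j ≠ ⊥ := ⟨d, hKd⟩
  obtain ⟨i, hi⟩ : ∃ i, Nat.find hex = i + 1 := by
    refine Nat.exists_eq_succ_of_ne_zero ?_
    intro h
    have := Nat.find_spec hex
    rw [h] at this
    exact this hK0
  have hKi : K i = ⊥ := by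
    by_contra hne
    exact Nat.find_min hex (by omega : i < Nat.find hex) hne
  have hKi1 : K (i + 1) ≠ ⊥ := hi ▸ Nat.find_spec hex
  obtain ⟨l0, hl0, hl0ne⟩ := Submodule.exists_mem_ne_zero_of_ne_bot hKi1
  -- the invariant functionals
  let W0 : Submodule ℂ (V →ₗ[ℝ] ℂ) :=
    { carrier := {l | (∀ x ∈ B, l x = 0) ∧ ∀ n ∈ N, ∀ x, l (ρ n x) = l x}
      zero_mem' := ⟨fun x _ => rfl, fun _ _ x => rfl⟩
      add_mem' := by
        intro a b ha hb
        exact ⟨fun x hx => by rw [LinearMap.add_apply, ha.1 x hx, hb.1 x hx, add_zero],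
          fun n hn x => by
            rw [LinearMap.add_apply, ha.2 n hn x, hb.2 n hn x, LinearMap.add_apply]⟩
      smul_mem' := by
        intro c a ha
        exact ⟨fun x hx => by rw [LinearMap.smul_apply, ha.1 x hx, smul_zero],
          fun n hn x => by rw [LinearMap.smul_apply, ha.2 n hn x, LinearMap.smul_apply]⟩ }
  have hl0W : l0 ∈ W0 := by
    refine ⟨hl0.1, fun n hn x => ?_⟩
    have h1 : l0 ∘ₗ ρ n - l0 ∈ K i := by
      refine ⟨fun x hx => ?_, fun x hx => ?_⟩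
      · rw [LinearMap.sub_apply, LinearMap.comp_apply, hl0.1 x hx, hl0.1 _ (hB n x hx), sub_self]
      · rw [LinearMap.sub_apply, LinearMap.comp_apply, ← map_sub]
        exact hl0.2 _ (hE n hn i x hx)
    rw [hKi, Submodule.mem_bot] at h1
    have h2 := congrArg (fun m : V →ₗ[ℝ] ℂ => m x) h1
    simp only [LinearMap.sub_apply, LinearMap.comp_apply, LinearMap.zero_apply] at h2
    exact sub_eq_zero.1 h2
  have hnt : Nontrivial W0 :=
    Submodule.nontrivial_iff_ne_bot.2 fun h => hl0ne (by rw [h] at hl0W; exact hl0W)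
  have hmem : ∀ g : G, ∀ l ∈ W0, (l ∘ₗ ρ g) ∈ W0 := by
    intro g l hl
    refine ⟨fun x hx => hl.1 _ (hB g x hx), fun n hn x => ?_⟩
    have h1 : ρ g (ρ n x) = ρ (g * n * g⁻¹) (ρ g x) := by
      rw [← Module.End.mul_apply, ← Module.End.mul_apply, ← map_mul, ← map_mul]
      congr 2
      group
    rw [LinearMap.comp_apply, LinearMap.comp_apply, h1]
    exact hl.2 _ (hNn.conj_mem n hn g) _
  let f : G → Module.End ℂ W0 := fun g =>
    { toFun := fun l => ⟨(l : V →ₗ[ℝ] ℂ) ∘ₗ ρ g, hmem g l l.2⟩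
      map_add' := fun a b => rfl
      map_smul' := fun c a => rfl }
  have hfc : ∀ a b, Commute (f a) (f b) := by
    intro a b
    refine LinearMap.ext fun l => Subtype.ext (LinearMap.ext fun x => ?_)
    change (l : V →ₗ[ℝ] ℂ) (ρ b (ρ a x)) = (l : V →ₗ[ℝ] ℂ) (ρ a (ρ b x))
    have h1 : ρ b (ρ a x) = ρ ⁅b, a⁆ (ρ a (ρ b x)) := by
      rw [← Module.End.mul_apply, ← Module.End.mul_apply, ← Module.End.mul_apply, ← map_mul,
        ← map_mul, ← map_mul]
      congr 2
      rw [commutatorElement_def]; group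
    rw [h1]
    exact l.2.2 _ (hcomm b a) _
  obtain ⟨χ, l, hl, hχ⟩ := H754.exists_common_eigenvector f hfc
  refine ⟨l, χ, fun h => hl (Subtype.ext h), l.2.1, fun g x => ?_⟩
  have h1 := congrArg (fun m : W0 => (m : V →ₗ[ℝ] ℂ) x) (hχ g)
  exact h1

/-- descending step -/
theorem exists_step [FiniteDimensional ℝ V] {N : Subgroup G} [hNn : N.Normal]
    (hcomm : ∀ a b : G, ⁅a, b⁆ ∈ N) (ρ : G →* Module.End ℝ V) (hU : UnipOn N ρ)
    (A B : Submodule ℝ V) (hA : ∀ g, ∀ x ∈ A, ρ g x ∈ A) (hB : ∀ g, ∀ x ∈ B, ρ g x ∈ B)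
    (hBA : B < A) :
    ∃ (l : V →ₗ[ℝ] ℂ) (χ : G → ℂ), (∃ x ∈ A, l x ≠ 0) ∧ (∀ x ∈ B, l x = 0) ∧
      ∀ g, ∀ x ∈ A, l (ρ g x) = χ g * l x := by
  obtain ⟨l, χ, hl, hlB, hχ⟩ := exists_eigenfunctional hcomm (resR ρ A hA) (hU.res A hA)
    (B.comap A.subtype) (fun g x hx => hB g x hx) (by
      intro h
      apply not_le_of_gt hBA
      intro x hx
      have : (⟨x, hx⟩ : A) ∈ B.comap A.subtype := by rw [h]; trivial
      exact this)
  obtain ⟨l', hl'⟩ := LinearMap.exists_extend l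
  have hval : ∀ x (hx : x ∈ A), l' x = l ⟨x, hx⟩ := by
    intro x hx
    have := congrArg (fun m : A →ₗ[ℝ] ℂ => m ⟨x, hx⟩) hl'
    exact this
  refine ⟨l', χ, ?_, ?_, ?_⟩
  · by_contra hcon
    push Not at hcon
    apply hl
    ext x
    have := hcon x x.2
    rw [hval x x.2] at this
    exact this
  · intro x hx
    rw [hval x (hBA.le hx)]
    exact hlB _ hx
  · intro g x hx
    rw [hval x hx, hval _ (hA g x hx)]
    exact hχ g ⟨x, hx⟩

/-- decomposition inside a subspace invariant under one automorphism -/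
theorem exists_decomp1 [FiniteDimensional ℝ V] {T T' : Module.End ℝ V} (h : T' * T = 1)
    (h' : T * T' = 1) (A : Submodule ℝ V) (hA : ∀ x ∈ A, T x ∈ A) (hA' : ∀ x ∈ A, T' x ∈ A)
    {x : V} (hx : x ∈ A) :
    ∃ f : ℝ →₀ V, (∀ r, f r ∈ Wt T T' r) ∧ (∀ r, f r ∈ A) ∧ (f.sum fun _ y => y) = x := by
  classical
  have htop := iSup_Wt_eq_top (T := T.restrict hA) (T' := T'.restrict hA') (by
    ext y
    have := congrArg (fun B : Module.End ℝ V => B (y : V)) h
    simpa using this) (by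
    ext y
    have := congrArg (fun B : Module.End ℝ V => B (y : V)) h'
    simpa using this)
  have hx' : (⟨x, hx⟩ : A) ∈ ⨆ r, Wt (T.restrict hA) (T'.restrict hA') r := by
    rw [htop]; trivial
  rw [Submodule.mem_iSup_iff_exists_finsupp] at hx'
  obtain ⟨f, hf, hsum⟩ := hx'
  refine ⟨f.mapRange A.subtype (map_zero _), ?_, ?_, ?_⟩
  · intro r
    rw [Finsupp.mapRange_apply]
    exact Wt_map A.subtype (fun y => rfl) (fun y => rfl) (hf r)
  · intro r
    rw [Finsupp.mapRange_apply]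
    exact (f r).2
  · rw [Finsupp.sum_mapRange_index (by intros; rfl)]
    have h1 := congrArg A.subtype hsum
    rw [Finsupp.sum, map_sum] at h1
    exact h1

/-- decomposition inside an invariant subspace -/
theorem exists_decomp [FiniteDimensional ℝ V] (ρ : G →* Module.End ℝ V)
    (A : Submodule ℝ V) (hA : ∀ g, ∀ x ∈ A, ρ g x ∈ A) (g : G) {x : V} (hx : x ∈ A) :
    ∃ f : ℝ →₀ V, (∀ r, f r ∈ Wt (ρ g) (ρ g⁻¹) r) ∧ (∀ r, f r ∈ A) ∧
      (f.sum fun _ y => y) = x :=
  exists_decomp1 (rho_inv_mul ρ g) (rho_mul_inv ρ g) A (hA g) (hA g⁻¹) hx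

/-- growth in an invariant subspace -/
theorem Gr_restrict {T : Module.End ℝ V} (A : Submodule ℝ V) (hA : ∀ x ∈ A, T x ∈ A) {r : ℝ}
    {x : V} (hx : x ∈ A) (hr : x ∈ Gr T r) : (⟨x, hx⟩ : A) ∈ Gr (T.restrict hA) r := by
  intro φ ε hε
  obtain ⟨ψ, hψ⟩ := LinearMap.exists_extend φ
  obtain ⟨C, hC⟩ := hr ψ ε hε
  refine ⟨C, fun n => ?_⟩
  have h1 : (((T.restrict hA ^ n) ⟨x, hx⟩ : A) : V) = (T ^ n) x :=
    pow_comm_map A.subtype (fun y => rfl) n ⟨x, hx⟩
  have h2 : φ ((T.restrict hA ^ n) ⟨x, hx⟩) = ψ ((T ^ n) x) := by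
    rw [← h1, ← hψ]; rfl
  rw [h2]
  exact hC n

/-- eigenvalues and growth -/
theorem log_le_of_mem_Gr {T : Module.End ℝ V} (l : V →ₗ[ℝ] ℂ) {c : ℂ} (hc : c ≠ 0) {x : V}
    (hx0 : l x ≠ 0) (hx : ∀ n : ℕ, l ((T ^ n) x) = c ^ n * l x) {r : ℝ} (hr : x ∈ Gr T r) :
    Real.log ‖c‖ ≤ r := by
  refine le_of_exp_bound (norm_pos_iff.2 hx0) fun ε hε => ?_
  obtain ⟨C, hC⟩ := hr (Complex.reLm ∘ₗ l) ε hε
  obtain ⟨D, hD⟩ := hr (Complex.imLm ∘ₗ l) ε hε
  refine ⟨C + D, fun n => ?_⟩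
  have h1 : ‖l x‖ * Real.exp (Real.log ‖c‖ * n) = ‖l ((T ^ n) x)‖ := by
    rw [hx, norm_mul, norm_pow, mul_comm (Real.log ‖c‖), Real.exp_nat_mul,
      Real.exp_log (norm_pos_iff.2 hc), mul_comm]
  rw [h1, add_mul]
  refine (Complex.norm_le_abs_re_add_abs_im _).trans (add_le_add (hC n) (hD n))

end rep

end Vale.Agent.P188.H269

end

section

/-!
Weights (logarithms of moduli of eigencharacters) and a separating element.
-/

namespace Vale.Agent.P188.H269

open Module
open scoped commutatorElement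

universe u v

section wei

variable {G : Type u} [Group G] {V : Type v} [AddCommGroup V] [Module ℝ V]

/-- `(l, χ)` is an eigenfunctional on the invariant subspace `A` -/
structure EigOn (ρ : G →* Module.End ℝ V) (A : Submodule ℝ V) (l : V →ₗ[ℝ] ℂ) (χ : G → ℂ) :
    Prop where
  inv : ∀ g, ∀ x ∈ A, ρ g x ∈ A
  ne : ∃ x ∈ A, l x ≠ 0
  eig : ∀ g, ∀ x ∈ A, l (ρ g x) = χ g * l x

variable {ρ : G →* Module.End ℝ V} {A : Submodule ℝ V} {l : V →ₗ[ℝ] ℂ} {χ : G → ℂ}

theorem EigOn.mul (h : EigOn ρ A l χ) (g k : G) : χ (g * k) = χ g * χ k := by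
  obtain ⟨x, hx, hx0⟩ := h.ne
  have h1 := h.eig (g * k) x hx
  rw [map_mul, Module.End.mul_apply, h.eig g _ (h.inv k x hx), h.eig k x hx, ← mul_assoc] at h1
  exact (mul_right_cancel₀ hx0 h1).symm

theorem EigOn.one (h : EigOn ρ A l χ) : χ 1 = 1 := by
  obtain ⟨x, hx, hx0⟩ := h.ne
  have h1 := h.eig 1 x hx
  rw [map_one, Module.End.one_apply] at h1
  have h2 : (1 : ℂ) * l x = χ 1 * l x := by rw [one_mul]; exact h1
  exact (mul_right_cancel₀ hx0 h2).symm

theorem EigOn.ne_zero (h : EigOn ρ A l χ) (g : G) : χ g ≠ 0 := by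
  intro h0
  have h1 := h.mul g g⁻¹
  rw [mul_inv_cancel, h.one, h0, zero_mul] at h1
  exact one_ne_zero h1

theorem EigOn.inv' (h : EigOn ρ A l χ) (g : G) : χ g⁻¹ = (χ g)⁻¹ := by
  have h1 := h.mul g⁻¹ g
  rw [inv_mul_cancel, h.one] at h1
  exact eq_inv_of_mul_eq_one_left h1.symm

theorem EigOn.pow (h : EigOn ρ A l χ) (g : G) (n : ℕ) {x : V} (hx : x ∈ A) :
    (ρ g ^ n) x ∈ A ∧ l ((ρ g ^ n) x) = χ g ^ n * l x := by
  induction n with
  | zero => simpa using hx
  | succ n ih =>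
    rw [pow_succ', Module.End.mul_apply]
    refine ⟨h.inv g _ ih.1, ?_⟩
    rw [h.eig g _ ih.1, ih.2, pow_succ']; ring

theorem EigOn.log_le (h : EigOn ρ A l χ) {g : G} {r : ℝ} {x : V} (hx : x ∈ A)
    (hr : x ∈ Gr (ρ g) r) (hx0 : l x ≠ 0) : Real.log ‖χ g‖ ≤ r :=
  log_le_of_mem_Gr l (h.ne_zero g) hx0 (fun n => (h.pow g n hx).2) hr

theorem EigOn.log_eq (h : EigOn ρ A l χ) {g : G} {r : ℝ} {x : V} (hx : x ∈ A)
    (hr : x ∈ Wt (ρ g) (ρ g⁻¹) r) (hx0 : l x ≠ 0) : Real.log ‖χ g‖ = r := by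
  refine le_antisymm (h.log_le hx hr.1 hx0) ?_
  have h1 := h.log_le hx hr.2 hx0
  rw [h.inv', norm_inv, Real.log_inv] at h1
  linarith

/-- the weight of an eigenfunctional is additive -/
theorem EigOn.log_mul (h : EigOn ρ A l χ) (g k : G) :
    Real.log ‖χ (g * k)‖ = Real.log ‖χ g‖ + Real.log ‖χ k‖ := by
  rw [h.mul, norm_mul, Real.log_mul (norm_ne_zero_iff.2 (h.ne_zero g))
    (norm_ne_zero_iff.2 (h.ne_zero k))]

/-- some component of a vector detects the eigenfunctional -/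
theorem EigOn.exists_comp [FiniteDimensional ℝ V] (h : EigOn ρ A l χ) (g : G) {x : V} (hx : x ∈ A)
    (_hx0 : l x ≠ 0) : ∃ y ∈ A, y ∈ Wt (ρ g) (ρ g⁻¹) (Real.log ‖χ g‖) ∧ l y = l x := by
  classical
  obtain ⟨f, hf, hfA, hsum⟩ := exists_decomp ρ A h.inv g hx
  refine ⟨f (Real.log ‖χ g‖), hfA _, hf _, ?_⟩
  rw [← hsum, Finsupp.sum, map_sum]
  rw [Finset.sum_eq_single (Real.log ‖χ g‖)]
  · intro r _ hr
    by_contra hne
    exact hr (h.log_eq (hfA r) (hf r) hne).symm
  · intro hr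
    rw [Finsupp.notMem_support_iff] at hr
    rw [hr, map_zero]

/-- the weights of a representation (on invariant subspaces of `D`) -/
def Wts (ρ : G →* Module.End ℝ V) (D : Submodule ℝ V) : Set (G → ℝ) :=
  {b | ∃ A ≤ D, ∃ l χ, EigOn ρ A l χ ∧ ∀ g, b g = Real.log ‖χ g‖}

/-- kernel of an eigenfunctional -/
theorem EigOn.ker_inv (h : EigOn ρ A l χ) : ∀ g, ∀ x ∈ A ⊓ LinearMap.ker l,
    ρ g x ∈ A ⊓ LinearMap.ker l := by
  intro g x hx
  refine ⟨h.inv g x hx.1, ?_⟩
  change l (ρ g x) = 0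
  rw [h.eig g x hx.1]
  have : l x = 0 := hx.2
  rw [this, mul_zero]

theorem EigOn.ker_lt (h : EigOn ρ A l χ) : A ⊓ LinearMap.ker l < A := by
  refine lt_of_le_of_ne inf_le_left fun he => ?_
  obtain ⟨x, hx, hx0⟩ := h.ne
  rw [← he] at hx
  exact hx0 hx.2

theorem exists_eigOn [FiniteDimensional ℝ V] {N : Subgroup G} [hNn : N.Normal]
    (hcomm : ∀ a b : G, ⁅a, b⁆ ∈ N) (ρ : G →* Module.End ℝ V) (hU : UnipOn N ρ)
    (A B : Submodule ℝ V) (hA : ∀ g, ∀ x ∈ A, ρ g x ∈ A) (hB : ∀ g, ∀ x ∈ B, ρ g x ∈ B)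
    (hBA : B < A) : ∃ (l : V →ₗ[ℝ] ℂ) (χ : G → ℂ), EigOn ρ A l χ ∧ ∀ x ∈ B, l x = 0 := by
  obtain ⟨l, χ, h1, h2, h3⟩ := exists_step hcomm ρ hU A B hA hB hBA
  exact ⟨l, χ, ⟨hA, h1, h3⟩, h2⟩

theorem finite_Wts [FiniteDimensional ℝ V] {N : Subgroup G} [hNn : N.Normal]
    (hcomm : ∀ a b : G, ⁅a, b⁆ ∈ N) (ρ : G →* Module.End ℝ V) (hU : UnipOn N ρ)
    (D : Submodule ℝ V) (hD : ∀ g, ∀ x ∈ D, ρ g x ∈ D) : (Wts ρ D).Finite := by
  classical
  generalize hn : finrank ℝ D = n
  induction n using Nat.strong_induction_on generalizing D with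
  | _ n ih =>
  by_cases hD0 : D = ⊥
  · have : Wts ρ D = ∅ := by
      rw [Set.eq_empty_iff_forall_notMem]
      rintro b ⟨A, hA, l, χ, h, _⟩
      obtain ⟨x, hx, hx0⟩ := h.ne
      have h1 : x ∈ D := hA hx
      rw [hD0, Submodule.mem_bot] at h1
      rw [h1, map_zero] at hx0
      exact hx0 rfl
    rw [this]; exact Set.finite_empty
  · obtain ⟨l0, χ0, h0, _⟩ := exists_eigOn hcomm ρ hU D ⊥ hD (by
      intro g x hx
      rw [Submodule.mem_bot] at hx ⊢
      rw [hx, map_zero]) (bot_lt_iff_ne_bot.2 hD0)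
    have hlt : finrank ℝ (D ⊓ LinearMap.ker l0 : Submodule ℝ V) < n :=
      hn ▸ Submodule.finrank_lt_finrank_of_lt h0.ker_lt
    have hfin := ih _ hlt (D ⊓ LinearMap.ker l0) h0.ker_inv rfl
    refine (hfin.union (Set.finite_singleton (fun g => Real.log ‖χ0 g‖))).subset ?_
    rintro b ⟨A, hA, l, χ, h, hb⟩
    by_cases hcase : ∃ x ∈ A ⊓ (D ⊓ LinearMap.ker l0), l x ≠ 0
    · left
      refine ⟨A ⊓ (D ⊓ LinearMap.ker l0), inf_le_right, l, χ, ⟨?_, hcase, ?_⟩, hb⟩
      · intro g x hx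
        exact ⟨h.inv g x hx.1, h0.ker_inv g x hx.2⟩
      · intro g x hx
        exact h.eig g x hx.1
    · right
      push Not at hcase
      rw [Set.mem_singleton_iff]
      funext g
      rw [hb g]
      obtain ⟨x, hx, hx0⟩ := h.ne
      obtain ⟨y, hyA, hy, hly⟩ := h.exists_comp g hx hx0
      have hl0y : l0 y ≠ 0 := by
        intro hcon
        apply hx0
        rw [← hly]
        exact hcase y ⟨hyA, hA hyA, hcon⟩
      exact (h0.log_eq (hA hyA) hy hl0y).symm

/-- an element separating finitely many additive functions from zero -/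
theorem exists_sep (S : Finset (G → ℝ)) (hadd : ∀ b ∈ S, ∀ g k, b (g * k) = b g + b k)
    (hne : ∀ b ∈ S, ∃ g, b g ≠ 0) : ∃ t : G, ∀ b ∈ S, b t ≠ 0 := by
  classical
  induction S using Finset.induction_on with
  | empty => exact ⟨1, by simp⟩
  | insert b0 S hb0 ih =>
    obtain ⟨t, ht⟩ := ih (fun b hb => hadd b (Finset.mem_insert_of_mem hb))
      (fun b hb => hne b (Finset.mem_insert_of_mem hb))
    by_cases h0 : b0 t = 0
    · obtain ⟨w, hw⟩ := hne b0 (Finset.mem_insert_self _ _)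
      have hpow : ∀ b : G → ℝ, (∀ g k, b (g * k) = b g + b k) → ∀ n : ℕ, b (t ^ n) = n * b t := by
        intro b hb n
        have h1 : b 1 = 0 := by
          have := hb 1 1
          rw [mul_one] at this
          linarith
        induction n with
        | zero => simp [h1]
        | succ n ihn => rw [pow_succ, hb, ihn]; push_cast; ring
      -- choose a large power
      obtain ⟨M, hM⟩ : ∃ M : ℕ, ∀ b ∈ S, |b w| < M * |b t| := by
        have h1 : ∀ b ∈ S, ∃ M : ℕ, |b w| < M * |b t| := by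
          intro b hb
          obtain ⟨M, hM⟩ := exists_nat_gt (|b w| / |b t|)
          refine ⟨M, ?_⟩
          rwa [div_lt_iff₀ (abs_pos.2 (ht b hb))] at hM
        choose! m hm using h1
        refine ⟨∑ b ∈ S, m b, fun b hb => (hm b hb).trans_le ?_⟩
        apply mul_le_mul_of_nonneg_right _ (abs_nonneg _)
        exact_mod_cast Finset.single_le_sum (f := m) (fun _ _ => Nat.zero_le _) hb
      refine ⟨t ^ M * w, ?_⟩
      intro b hb
      rw [Finset.mem_insert] at hb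
      rcases hb with rfl | hb
      · rw [hadd b (Finset.mem_insert_self _ _), hpow b (hadd b (Finset.mem_insert_self _ _)), h0,
          mul_zero, zero_add]
        exact hw
      · have hb' : b ∈ insert b0 S := Finset.mem_insert_of_mem hb
        rw [hadd b hb', hpow b (hadd b hb')]
        intro hcon
        have h2 := hM b hb
        have h3 : b w = - (M * b t) := by linarith
        rw [h3, abs_neg, abs_mul, Nat.abs_cast] at h2
        exact lt_irrefl _ h2
    · refine ⟨t, ?_⟩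
      intro b hb
      rw [Finset.mem_insert] at hb
      rcases hb with rfl | hb
      · exact h0
      · exact ht b hb

/-- a separating element for all the weights -/
theorem exists_sep_Wts [FiniteDimensional ℝ V] {N : Subgroup G} [hNn : N.Normal]
    (hcomm : ∀ a b : G, ⁅a, b⁆ ∈ N) (ρ : G →* Module.End ℝ V) (hU : UnipOn N ρ) :
    ∃ t : G, (∀ b ∈ Wts ρ ⊤, b t = 0 → b = 0) ∧
      ∀ b ∈ Wts ρ ⊤, ∀ b' ∈ Wts ρ ⊤, b t = b' t → b = b' := by
  classical
  have hfin := finite_Wts hcomm ρ hU ⊤ (fun _ _ _ => trivial)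
  have hadd : ∀ b ∈ Wts ρ ⊤, ∀ g k, b (g * k) = b g + b k := by
    rintro b ⟨A, _, l, χ, h, hb⟩ g k
    rw [hb, hb, hb]
    exact h.log_mul g k
  let S1 : Finset (G → ℝ) := hfin.toFinset
  let S2 : Finset (G → ℝ) := (S1 ×ˢ S1).image fun p => p.1 - p.2
  obtain ⟨t, ht⟩ := exists_sep ((S1 ∪ S2).filter fun b => ∃ g, b g ≠ 0) (by
    intro b hb g k
    rw [Finset.mem_filter, Finset.mem_union] at hb
    rcases hb.1 with hb | hb
    · exact hadd b (hfin.mem_toFinset.1 hb) g k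
    · obtain ⟨p, hp, rfl⟩ := Finset.mem_image.1 hb
      rw [Finset.mem_product] at hp
      simp only [Pi.sub_apply]
      rw [hadd p.1 (hfin.mem_toFinset.1 hp.1), hadd p.2 (hfin.mem_toFinset.1 hp.2)]
      ring) (by
    intro b hb
    exact (Finset.mem_filter.1 hb).2)
  refine ⟨t, ?_, ?_⟩
  · intro b hb hbt
    by_contra hne
    have hex : ∃ g, b g ≠ 0 := by
      by_contra hcon
      push Not at hcon
      exact hne (funext hcon)
    exact ht b (Finset.mem_filter.2 ⟨Finset.mem_union_left _ (hfin.mem_toFinset.2 hb), hex⟩) hbt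
  · intro b hb b' hb' hbt
    by_contra hne
    have hex : ∃ g, (b - b') g ≠ 0 := by
      by_contra hcon
      push Not at hcon
      apply hne
      funext g
      have := hcon g
      rw [Pi.sub_apply] at this
      linarith
    have hmem : b - b' ∈ S1 ∪ S2 := by
      apply Finset.mem_union_right
      exact Finset.mem_image.2 ⟨(b, b'), Finset.mem_product.2
        ⟨hfin.mem_toFinset.2 hb, hfin.mem_toFinset.2 hb'⟩, rfl⟩
    apply ht _ (Finset.mem_filter.2 ⟨hmem, hex⟩)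
    rw [Pi.sub_apply, hbt, sub_self]

end wei

end Vale.Agent.P188.H269

end

section

/-!
The ideal generated by the expanding and contracting directions.
-/

namespace Vale.Agent.P188.H269

open Module
open scoped commutatorElement

universe u v

section lie

variable {V : Type v} [LieRing V] [LieAlgebra ℝ V] [FiniteDimensional ℝ V]

theorem pow_lie {T : Module.End ℝ V} (hT : ∀ x y : V, T ⁅x, y⁆ = ⁅T x, T y⁆) (n : ℕ) (x y : V) :
    (T ^ n) ⁅x, y⁆ = ⁅(T ^ n) x, (T ^ n) y⁆ := by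
  induction n generalizing x y with
  | zero => simp
  | succ n ih =>
    rw [pow_succ, Module.End.mul_apply, Module.End.mul_apply, Module.End.mul_apply, hT, ih]

/-- brackets of growth vectors -/
theorem lie_mem_Gr {T : Module.End ℝ V} (hT : ∀ x y : V, T ⁅x, y⁆ = ⁅T x, T y⁆) {r s : ℝ}
    {x y : V} (hx : x ∈ Gr T r) (hy : y ∈ Gr T s) : ⁅x, y⁆ ∈ Gr T (r + s) := by
  intro φ ε hε
  let b := Module.finBasis ℝ V
  obtain ⟨C, hC0, hC⟩ := Gr.bound_fin hx b.coord (half_pos hε)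
  obtain ⟨D, hD0, hD⟩ := Gr.bound_fin hy b.coord (half_pos hε)
  refine ⟨∑ i, ∑ j, C * D * |φ ⁅b i, b j⁆|, fun n => ?_⟩
  have hexp : ∀ u v : V, ⁅u, v⁆ = ∑ i, ∑ j, (b.coord i u * b.coord j v) • ⁅b i, b j⁆ := by
    intro u v
    conv_lhs => rw [← b.sum_repr u, ← b.sum_repr v]
    rw [sum_lie_sum]
    refine Finset.sum_congr rfl fun i _ => Finset.sum_congr rfl fun j _ => ?_
    rw [smul_lie, lie_smul, smul_smul]; rfl
  rw [pow_lie hT, hexp, map_sum, Finset.sum_mul]
  refine (Finset.abs_sum_le_sum_abs _ _).trans (Finset.sum_le_sum fun i _ => ?_)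
  rw [map_sum, Finset.sum_mul]
  refine (Finset.abs_sum_le_sum_abs _ _).trans (Finset.sum_le_sum fun j _ => ?_)
  rw [map_smul, smul_eq_mul, abs_mul, abs_mul]
  have h1 : Real.exp ((r + s + ε) * n) =
      Real.exp ((r + ε / 2) * n) * Real.exp ((s + ε / 2) * n) := by
    rw [← Real.exp_add]; congr 1; ring
  rw [h1]
  calc |b.coord i ((T ^ n) x)| * |b.coord j ((T ^ n) y)| * |φ ⁅b i, b j⁆|
      ≤ (C * Real.exp ((r + ε / 2) * n)) * (D * Real.exp ((s + ε / 2) * n)) *
        |φ ⁅b i, b j⁆| := by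
        apply mul_le_mul_of_nonneg_right _ (abs_nonneg _)
        exact mul_le_mul (hC i n) (hD j n) (abs_nonneg _) (mul_nonneg hC0 (Real.exp_pos _).le)
    _ = _ := by ring

theorem lie_mem_Wt {T T' : Module.End ℝ V} (hT : ∀ x y : V, T ⁅x, y⁆ = ⁅T x, T y⁆)
    (hT' : ∀ x y : V, T' ⁅x, y⁆ = ⁅T' x, T' y⁆) {r s : ℝ}
    {x y : V} (hx : x ∈ Wt T T' r) (hy : y ∈ Wt T T' s) : ⁅x, y⁆ ∈ Wt T T' (r + s) :=
  ⟨lie_mem_Gr hT hx.1 hy.1, by
    rw [neg_add]; exact lie_mem_Gr hT' hx.2 hy.2⟩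

/-- the span of the non-neutral directions of one automorphism -/
def XW (T T' : Module.End ℝ V) : Submodule ℝ V := ⨆ r : {r : ℝ // r ≠ 0}, Wt T T' r

theorem Wt_le_XW {T T' : Module.End ℝ V} {r : ℝ} (hr : r ≠ 0) : Wt T T' r ≤ XW T T' :=
  le_iSup (fun r : {r : ℝ // r ≠ 0} => Wt T T' r) ⟨r, hr⟩

/-- the ideal generated by the non-neutral directions of one automorphism -/
def eI (T T' : Module.End ℝ V) : LieIdeal ℝ V := LieSubmodule.lieSpan ℝ V (XW T T' : Set V)

theorem XW_le_eI {T T' : Module.End ℝ V} : XW T T' ≤ (eI T T').toSubmodule :=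
  fun _ hx => LieSubmodule.subset_lieSpan hx

theorem Wt_le_eI {T T' : Module.End ℝ V} {r : ℝ} (hr : r ≠ 0) {x : V} (hx : x ∈ Wt T T' r) :
    x ∈ eI T T' := XW_le_eI (Wt_le_XW hr hx)

variable {T T' : Module.End ℝ V}

/-- `e = X + [e, e]` -/
theorem eI_le (h : T' * T = 1) (h' : T * T' = 1) (hT : ∀ x y : V, T ⁅x, y⁆ = ⁅T x, T y⁆)
    (hT' : ∀ x y : V, T' ⁅x, y⁆ = ⁅T' x, T' y⁆) :
    (eI T T').toSubmodule ≤ XW T T' ⊔ (⁅eI T T', eI T T'⁆ : LieIdeal ℝ V).toSubmodule := by
  set e := eI T T' with he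
  set Y : Submodule ℝ V := XW T T' ⊔ (⁅e, e⁆ : LieIdeal ℝ V).toSubmodule with hY
  -- `[v, x] ∈ Y` for `x` non-neutral
  have h1 : ∀ (v : V), ∀ x ∈ XW T T', ⁅v, x⁆ ∈ Y := by
    intro v x hx
    have hv : v ∈ ⨆ s, Wt T T' s := by rw [iSup_Wt_eq_top h h']; trivial
    refine Submodule.iSup_induction (fun s => Wt T T' s) (motive := fun v => ⁅v, x⁆ ∈ Y) hv
      ?_ ?_ ?_
    · intro s w hw
      refine Submodule.iSup_induction (fun r : {r : ℝ // r ≠ 0} => Wt T T' r)
        (motive := fun x => ⁅w, x⁆ ∈ Y) hx ?_ ?_ ?_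
      · intro r z hz
        by_cases hs : s = 0
        · subst hs
          have h2 := lie_mem_Wt hT hT' hw hz
          rw [zero_add] at h2
          exact Submodule.mem_sup_left (Wt_le_XW r.2 h2)
        · exact Submodule.mem_sup_right
            (LieSubmodule.lie_mem_lie (Wt_le_eI hs hw) (Wt_le_eI r.2 hz))
      · rw [lie_zero]; exact Submodule.zero_mem _
      · intro a b ha hb
        rw [lie_add]; exact Submodule.add_mem _ ha hb
    · rw [zero_lie]; exact Submodule.zero_mem _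
    · intro a b ha hb
      rw [add_lie]; exact Submodule.add_mem _ ha hb
  have h2 : ∀ (v : V), ∀ y ∈ Y, ⁅v, y⁆ ∈ Y := by
    intro v y hy
    obtain ⟨a, ha, b, hb, rfl⟩ := Submodule.mem_sup.1 hy
    rw [lie_add]
    refine Submodule.add_mem _ (h1 v a ha) (Submodule.mem_sup_right ?_)
    exact (⁅e, e⁆ : LieIdeal ℝ V).lie_mem hb
  let YI : LieIdeal ℝ V := { Y with lie_mem := fun {v y} hy => h2 v y hy }
  have h3 : e ≤ YI := by
    rw [he]
    unfold eI
    rw [LieSubmodule.lieSpan_le]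
    intro x hx
    exact Submodule.mem_sup_left (show x ∈ XW T T' from hx)
  exact h3

/-- the ideal is invariant -/
theorem eI_inv (h : T' * T = 1) (_h' : T * T' = 1) (hT : ∀ x y : V, T ⁅x, y⁆ = ⁅T x, T y⁆) :
    ∀ x ∈ eI T T', T x ∈ eI T T' := by
  -- `{y | T y ∈ e}` is an ideal
  let Y : LieIdeal ℝ V :=
    { (eI T T').toSubmodule.comap T with
      lie_mem := by
        intro v y hy
        change T ⁅v, y⁆ ∈ eI T T'
        rw [hT]
        exact (eI T T').lie_mem hy }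
  have h1 : eI T T' ≤ Y := by
    conv_lhs => unfold eI
    rw [LieSubmodule.lieSpan_le]
    intro x hx
    change T x ∈ eI T T'
    refine Submodule.iSup_induction (fun r : {r : ℝ // r ≠ 0} => Wt T T' r)
      (motive := fun x => T x ∈ eI T T') hx ?_ ?_ ?_
    · intro r z hz
      exact Wt_le_eI r.2 (Wt_self h hz)
    · rw [map_zero]; exact zero_mem _
    · intro a b ha hb
      rw [map_add]; exact add_mem ha hb
  exact fun x hx => h1 hx

theorem XW_symm : XW T T' = XW T' T := by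
  apply le_antisymm
  · refine iSup_le fun r x hx => ?_
    exact Wt_le_XW (neg_ne_zero.2 r.2) (Wt_symm hx)
  · refine iSup_le fun r x hx => ?_
    exact Wt_le_XW (neg_ne_zero.2 r.2) (Wt_symm hx)

theorem eI_symm : eI T T' = eI T' T := by unfold eI; rw [XW_symm]

theorem lie_inv (hT : ∀ x y : V, T ⁅x, y⁆ = ⁅T x, T y⁆) {I J : LieIdeal ℝ V}
    (hI : ∀ x ∈ I, T x ∈ I) (hJ : ∀ x ∈ J, T x ∈ J) :
    ∀ y ∈ (⁅I, J⁆ : LieIdeal ℝ V), T y ∈ (⁅I, J⁆ : LieIdeal ℝ V) := by
  intro y hy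
  have hy' : y ∈ (⁅I, J⁆ : LieIdeal ℝ V).toSubmodule := hy
  rw [LieSubmodule.lieIdeal_oper_eq_linear_span'] at hy'
  refine Submodule.span_induction (p := fun y _ => T y ∈ (⁅I, J⁆ : LieIdeal ℝ V)) ?_ ?_ ?_ ?_ hy'
  · rintro _ ⟨a, ha, b, hb, rfl⟩
    rw [hT]
    exact LieSubmodule.lie_mem_lie (hI a ha) (hJ b hb)
  · rw [map_zero]; exact zero_mem _
  · intro x y _ _ hx hy
    rw [map_add]; exact add_mem hx hy
  · intro c x _ hx
    rw [map_smul]; exact (⁅I, J⁆ : LieIdeal ℝ V).smul_mem c hx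

/-- neutral vectors of the ideal are in its derived ideal -/
theorem neutral_mem (h : T' * T = 1) (h' : T * T' = 1) (hT : ∀ x y : V, T ⁅x, y⁆ = ⁅T x, T y⁆)
    (hT' : ∀ x y : V, T' ⁅x, y⁆ = ⁅T' x, T' y⁆) {x : V} (hx : x ∈ eI T T')
    (hx0 : x ∈ Wt T T' 0) : x ∈ (⁅eI T T', eI T T'⁆ : LieIdeal ℝ V) := by
  classical
  set D : LieIdeal ℝ V := ⁅eI T T', eI T T'⁆ with hD
  have hinv' : ∀ a ∈ eI T T', T' a ∈ eI T T' := by
    rw [eI_symm]; exact eI_inv h' h hT'
  have hDT : ∀ y ∈ D.toSubmodule, T y ∈ D.toSubmodule :=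
    fun y hy => lie_inv hT (eI_inv h h' hT) (eI_inv h h' hT) y hy
  have hDT' : ∀ y ∈ D.toSubmodule, T' y ∈ D.toSubmodule :=
    fun y hy => lie_inv hT' hinv' hinv' y hy
  -- the sum of the spaces `p s`
  let p : ℝ → Submodule ℝ V := fun s => if s = 0 then D.toSubmodule ⊓ Wt T T' 0 else Wt T T' s
  have hp : ∀ s, p s ≤ Wt T T' s := by
    intro s
    by_cases hs : s = 0
    · subst hs; simp only [p, if_true]; exact inf_le_right
    · simp only [p, if_neg hs]; exact le_rfl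
  have hxp : x ∈ ⨆ s, p s := by
    obtain ⟨a, ha, b, hb, rfl⟩ := Submodule.mem_sup.1 (eI_le h h' hT hT' hx)
    refine Submodule.add_mem _ ?_ ?_
    · have : XW T T' ≤ ⨆ s, p s := by
        refine iSup_le fun r => ?_
        have h1 : Wt T T' r = p r := by simp only [p, if_neg r.2]
        rw [h1]; exact le_iSup p r
      exact this ha
    · obtain ⟨f, hf, hfD, rfl⟩ := exists_decomp1 h h' D.toSubmodule hDT hDT' hb
      refine Submodule.sum_mem _ fun s _ => ?_
      refine Submodule.mem_iSup_of_mem s ?_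
      by_cases hs : s = 0
      · subst hs; simp only [p, if_true]; exact ⟨hfD 0, hf 0⟩
      · simp only [p, if_neg hs]; exact hf s
  have h3 := Wt_inf_iSup h p hp hx0 hxp
  simp only [p, if_true] at h3
  exact h3.1

/-- if a non-neutral modulus space is contained in `[V, V]` then it is contained in `[e, e]` -/
theorem Wt_le_derived (h : T' * T = 1) (h' : T * T' = 1) (hT : ∀ x y : V, T ⁅x, y⁆ = ⁅T x, T y⁆)
    (hT' : ∀ x y : V, T' ⁅x, y⁆ = ⁅T' x, T' y⁆) (hnil : LieModule.IsNilpotent V V) {r : ℝ}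
    (hr : r ≠ 0) (hle : Wt T T' r ≤ (⁅(⊤ : LieIdeal ℝ V), (⊤ : LieIdeal ℝ V)⁆ :
      LieIdeal ℝ V).toSubmodule) :
    Wt T T' r ≤ (⁅eI T T', eI T T'⁆ : LieIdeal ℝ V).toSubmodule := by
  classical
  set D : LieIdeal ℝ V := ⁅eI T T', eI T T'⁆ with hD
  -- homogeneous brackets
  let Z : ℝ → Submodule ℝ V := fun q =>
    Submodule.span ℝ {z | ∃ s u : ℝ, s + u = q ∧ ∃ a ∈ Wt T T' s, ∃ b ∈ Wt T T' u, ⁅a, b⁆ = z}
  have hZ : ∀ q, Z q ≤ Wt T T' q := by
    intro q
    rw [Submodule.span_le]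
    rintro _ ⟨s, w, hsw, a, ha, b, hb, rfl⟩
    rw [← hsw]
    exact lie_mem_Wt hT hT' ha hb
  have hbr : ∀ a b : V, ⁅a, b⁆ ∈ ⨆ q, Z q := by
    intro a b
    have ha : a ∈ ⨆ s, Wt T T' s := by rw [iSup_Wt_eq_top h h']; trivial
    have hb : b ∈ ⨆ s, Wt T T' s := by rw [iSup_Wt_eq_top h h']; trivial
    refine Submodule.iSup_induction (fun s => Wt T T' s) (motive := fun a => ⁅a, b⁆ ∈ ⨆ q, Z q) ha
      ?_ ?_ ?_
    · intro s a ha
      refine Submodule.iSup_induction (fun s => Wt T T' s)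
        (motive := fun b => ⁅a, b⁆ ∈ ⨆ q, Z q) hb ?_ ?_ ?_
      · intro w b hb
        exact Submodule.mem_iSup_of_mem (s + w)
          (Submodule.subset_span ⟨s, w, rfl, a, ha, b, hb, rfl⟩)
      · rw [lie_zero]; exact Submodule.zero_mem _
      · intro x y hx hy
        rw [lie_add]; exact Submodule.add_mem _ hx hy
    · rw [zero_lie]; exact Submodule.zero_mem _
    · intro x y hx hy
      rw [add_lie]; exact Submodule.add_mem _ hx hy
  have hWZ : Wt T T' r ≤ Z r := by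
    intro x hx
    refine Wt_inf_iSup h Z hZ hx ?_
    have h1 := hle hx
    have h2 : (⁅(⊤ : LieIdeal ℝ V), (⊤ : LieIdeal ℝ V)⁆ : LieIdeal ℝ V).toSubmodule ≤
        ⨆ q, Z q := by
      rw [LieSubmodule.lieIdeal_oper_eq_linear_span', Submodule.span_le]
      rintro _ ⟨a, _, b, _, rfl⟩
      exact hbr a b
    exact h2 h1
  -- iteration
  have key : ∀ k, Wt T T' r ≤ (LieModule.lowerCentralSeries ℝ V V k ⊔ D).toSubmodule := by
    intro k
    induction k with
    | zero => rw [LieModule.lowerCentralSeries_zero, top_sup_eq]; exact le_top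
    | succ k ih =>
      set J : LieIdeal ℝ V := LieModule.lowerCentralSeries ℝ V V k ⊔ D with hJ
      have h3 : ⁅(⊤ : LieIdeal ℝ V), J⁆ ≤ LieModule.lowerCentralSeries ℝ V V (k + 1) ⊔ D := by
        rw [hJ, LieSubmodule.lie_sup, LieModule.lowerCentralSeries_succ]
        exact sup_le_sup_left (LieSubmodule.lie_le_right _ _) _
      refine hWZ.trans ?_
      rw [Submodule.span_le]
      rintro _ ⟨s, w, hsw, a, ha, b, hb, rfl⟩
      by_cases hs : s = 0
      · subst hs
        rw [zero_add] at hsw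
        subst hsw
        exact h3 (LieSubmodule.lie_mem_lie (LieSubmodule.mem_top a) (ih hb))
      · by_cases hw : w = 0
        · subst hw
          rw [add_zero] at hsw
          subst hsw
          have h4 : ⁅b, a⁆ ∈ LieModule.lowerCentralSeries ℝ V V (k + 1) ⊔ D :=
            h3 (LieSubmodule.lie_mem_lie (LieSubmodule.mem_top b) (ih ha))
          rw [← lie_skew]
          exact neg_mem h4
        · have h5 : ⁅a, b⁆ ∈ D := LieSubmodule.lie_mem_lie (Wt_le_eI hs ha) (Wt_le_eI hw hb)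
          exact (le_sup_right : D ≤ _) h5
  obtain ⟨k, hk⟩ := hnil.nilpotent ℝ
  have h6 := key k
  rw [hk, bot_sup_eq] at h6
  exact h6

end lie

end Vale.Agent.P188.H269

end

section

/-!
The ideal generated by the non-neutral directions, for a group acting on a nilpotent Lie algebra.
-/

namespace Vale.Agent.P188.H269

open Module
open scoped commutatorElement

universe u v

section ideal

/-- comparison of two automorphisms which agree modulo an ideal -/
theorem mem_of_agree {V : Type v} [AddCommGroup V] [Module ℝ V] [FiniteDimensional ℝ V]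
    {T T' S S' : Module.End ℝ V} (h : T' * T = 1) (h' : T * T' = 1)
    (A I : Submodule ℝ V) (hIT : ∀ x ∈ I, T x ∈ I) (hIT' : ∀ x ∈ I, T' x ∈ I)
    (hAS : ∀ x ∈ A, S x ∈ A) (hAS' : ∀ x ∈ A, S' x ∈ A)
    (hS : ∀ x ∈ A, S x - T x ∈ I) (hS' : ∀ x ∈ A, S' x - T' x ∈ I)
    (hI : ∀ s : ℝ, s ≠ 0 → Wt T T' s ≤ I) {r : ℝ} (hr : r ≠ 0) {x : V} (hx : x ∈ A)
    (hxr : x ∈ Wt S S' r) : x ∈ I := by
  classical
  let q : Module.End ℝ (V ⧸ I) := I.mapQ I T hIT
  let q' : Module.End ℝ (V ⧸ I) := I.mapQ I T' hIT'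
  have hq : q' * q = 1 := by
    apply Submodule.linearMap_qext
    ext y
    have := congrArg (fun B : Module.End ℝ V => B y) h
    simp only [Module.End.mul_apply, Module.End.one_apply] at this
    simp [q, q', this]
  have hq' : q * q' = 1 := by
    apply Submodule.linearMap_qext
    ext y
    have := congrArg (fun B : Module.End ℝ V => B y) h'
    simp only [Module.End.mul_apply, Module.End.one_apply] at this
    simp [q, q', this]
  -- the class of `x` has modulus `r`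
  have h1 : I.mkQ x ∈ Wt q q' r := by
    let f : A →ₗ[ℝ] V ⧸ I := I.mkQ ∘ₗ A.subtype
    have hf1 : f ⟨x, hx⟩ ∈ Gr q r := by
      refine Gr_map (T := S.restrict hAS) f ?_ (Gr_restrict A hAS hx hxr.1)
      intro y
      change I.mkQ (S y) = q (I.mkQ y)
      have h2 : I.mkQ (S y) = I.mkQ (T y) := by
        rw [← sub_eq_zero, ← map_sub]
        exact (Submodule.Quotient.mk_eq_zero I).2 (hS y y.2)
      rw [h2]; rfl
    have hf2 : f ⟨x, hx⟩ ∈ Gr q' (-r) := by
      refine Gr_map (T := S'.restrict hAS') f ?_ (Gr_restrict A hAS' hx hxr.2)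
      intro y
      change I.mkQ (S' y) = q' (I.mkQ y)
      have h2 : I.mkQ (S' y) = I.mkQ (T' y) := by
        rw [← sub_eq_zero, ← map_sub]
        exact (Submodule.Quotient.mk_eq_zero I).2 (hS' y y.2)
      rw [h2]; rfl
    exact ⟨hf1, hf2⟩
  -- the class of `x` is neutral
  have h3 : I.mkQ x ∈ Wt q q' 0 := by
    obtain ⟨f, hf, _, hsum⟩ := exists_decomp1 h h' ⊤ (fun _ _ => trivial) (fun _ _ => trivial)
      (Submodule.mem_top : x ∈ (⊤ : Submodule ℝ V))
    have h4 : I.mkQ x = I.mkQ (f 0) := by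
      rw [← hsum, Finsupp.sum, map_sum, Finset.sum_eq_single (0 : ℝ)]
      · intro s _ hs
        exact (Submodule.Quotient.mk_eq_zero I).2 (hI s hs (hf s))
      · intro hs
        rw [Finsupp.notMem_support_iff] at hs
        rw [hs, map_zero]
    rw [h4]
    exact Wt_map I.mkQ (fun y => rfl) (fun y => rfl) (hf 0)
  have h5 : I.mkQ x = 0 := by
    rcases lt_or_gt_of_ne hr with hlt | hgt
    · exact indep_lt hq hlt h1.1 (by rw [neg_zero]; simpa using h3.2)
    · exact indep_lt hq hgt h3.1 h1.2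
  exact (Submodule.Quotient.mk_eq_zero I).1 h5

variable {G : Type u} [Group G]
variable {V : Type v} [LieRing V] [LieAlgebra ℝ V] [FiniteDimensional ℝ V]

/-- A group `G` acting by automorphisms on a nilpotent real Lie algebra, with a normal subgroup `N`
acting by inner unipotent automorphisms and abelian quotient `G / N`. -/
structure LRep (N : Subgroup G) (ρ : G →* Module.End ℝ V) : Prop where
  comm : ∀ a b : G, ⁅a, b⁆ ∈ N
  lie : ∀ g, ∀ x y : V, ρ g ⁅x, y⁆ = ⁅ρ g x, ρ g y⁆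
  unip : ∀ n ∈ N, ∀ I : LieIdeal ℝ V, ∀ x ∈ I, ρ n x - x ∈ (⁅(⊤ : LieIdeal ℝ V), I⁆ : LieIdeal ℝ V)
  nil : LieModule.IsNilpotent V V

variable {N : Subgroup G} [hNn : N.Normal] {ρ : G →* Module.End ℝ V}

omit hNn in
theorem LRep.unipOn (H : LRep N ρ) : UnipOn N ρ := by
  obtain ⟨k, hk⟩ := H.nil.nilpotent ℝ
  refine ⟨fun j => (LieModule.lowerCentralSeries ℝ V V j).toSubmodule, k, ?_, ?_, ?_⟩
  · simp
  · simp only [hk]; rfl
  · intro n hn j x hx
    have := H.unip n hn (LieModule.lowerCentralSeries ℝ V V j) x hx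
    rw [← LieModule.lowerCentralSeries_succ] at this
    exact this

/-- the ideal attached to one element of the group -/
def eId (ρ : G →* Module.End ℝ V) (t : G) : LieIdeal ℝ V := eI (ρ t) (ρ t⁻¹)

omit hNn in
/-- non-neutral vectors of `t n` are in the ideal of `t` -/
theorem LRep.Wt_mul_le (H : LRep N ρ) (t : G) {n : G} (hn : n ∈ N) {r : ℝ} (hr : r ≠ 0) {x : V}
    (hx : x ∈ Wt (ρ (t * n)) (ρ (t * n)⁻¹) r) : x ∈ eId ρ t := by
  set e := eId ρ t with he
  have h := rho_inv_mul ρ t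
  have h' := rho_mul_inv ρ t
  have heT : ∀ x ∈ e, ρ t x ∈ e := eI_inv h h' (H.lie t)
  have heT' : ∀ x ∈ e, ρ t⁻¹ x ∈ e := by
    rw [he]; unfold eId; rw [eI_symm]; exact eI_inv h' h (H.lie t⁻¹)
  -- every characteristic-type ideal is invariant
  have hlcs : ∀ (g : G) (k : ℕ), ∀ x ∈ LieModule.lowerCentralSeries ℝ V V k,
      ρ g x ∈ LieModule.lowerCentralSeries ℝ V V k := by
    intro g k
    induction k with
    | zero => intro x _; rw [LieModule.lowerCentralSeries_zero]; exact LieSubmodule.mem_top _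
    | succ k ih =>
      rw [LieModule.lowerCentralSeries_succ]
      exact lie_inv (I := ⊤) (J := LieModule.lowerCentralSeries ℝ V V k) (H.lie g)
        (fun x _ => LieSubmodule.mem_top _) ih
  have hNinv : ∀ n ∈ N, ∀ I : LieIdeal ℝ V, ∀ x ∈ I, ρ n x ∈ I := by
    intro n hn I x hx
    have h1 := H.unip n hn I x hx
    have h2 : ρ n x - x ∈ I := LieSubmodule.lie_le_right _ _ h1
    have h3 := add_mem h2 hx
    rwa [sub_add_cancel] at h3
  have hsup : ∀ (I J : LieIdeal ℝ V) (T : Module.End ℝ V), (∀ x ∈ I, T x ∈ I) →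
      (∀ x ∈ J, T x ∈ J) → ∀ x ∈ I ⊔ J, T x ∈ I ⊔ J := by
    intro I J T hI hJ x hx
    obtain ⟨a, ha, b, hb, rfl⟩ := (LieSubmodule.mem_sup I J x).1 hx
    rw [map_add]
    exact add_mem ((le_sup_left : I ≤ I ⊔ J) (hI a ha)) ((le_sup_right : J ≤ I ⊔ J) (hJ b hb))
  have key : ∀ k, x ∈ LieModule.lowerCentralSeries ℝ V V k ⊔ e := by
    intro k
    induction k with
    | zero => rw [LieModule.lowerCentralSeries_zero, top_sup_eq]; exact LieSubmodule.mem_top _
    | succ k ih =>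
      set A : LieIdeal ℝ V := LieModule.lowerCentralSeries ℝ V V k ⊔ e with hA
      set I : LieIdeal ℝ V := LieModule.lowerCentralSeries ℝ V V (k + 1) ⊔ e with hI
      have hAI : (⁅(⊤ : LieIdeal ℝ V), A⁆ : LieIdeal ℝ V) ≤ I := by
        rw [hA, hI, LieSubmodule.lie_sup, LieModule.lowerCentralSeries_succ]
        exact sup_le_sup_left (LieSubmodule.lie_le_right _ _) _
      have hAt : ∀ x ∈ A, ρ t x ∈ A := hsup _ _ _ (hlcs t k) heT
      have hAt' : ∀ x ∈ A, ρ t⁻¹ x ∈ A := hsup _ _ _ (hlcs t⁻¹ k) heT'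
      have hIt : ∀ x ∈ I, ρ t x ∈ I := hsup _ _ _ (hlcs t (k + 1)) heT
      have hIt' : ∀ x ∈ I, ρ t⁻¹ x ∈ I := hsup _ _ _ (hlcs t⁻¹ (k + 1)) heT'
      refine mem_of_agree h h' A.toSubmodule I.toSubmodule hIt hIt' ?_ ?_ ?_ ?_ ?_ hr ih hx
      · intro y hy
        rw [map_mul, Module.End.mul_apply]
        exact hAt _ (hNinv n hn A y hy)
      · intro y hy
        rw [mul_inv_rev, map_mul, Module.End.mul_apply]
        exact hNinv _ (N.inv_mem hn) A _ (hAt' y hy)
      · intro y hy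
        rw [map_mul, Module.End.mul_apply, ← map_sub]
        exact hIt _ (hAI (H.unip n hn A y hy))
      · intro y hy
        rw [mul_inv_rev, map_mul, Module.End.mul_apply]
        exact hAI (H.unip _ (N.inv_mem hn) A _ (hAt' y hy))
      · intro s hs y hy
        exact (le_sup_right : e ≤ I) (Wt_le_eI hs hy)
  obtain ⟨k, hk⟩ := H.nil.nilpotent ℝ
  have h6 := key k
  rwa [hk, bot_sup_eq] at h6

omit hNn in
/-- the ideal is invariant under the whole group -/
theorem LRep.eId_inv (H : LRep N ρ) (t g : G) : ∀ x ∈ eId ρ t, ρ g x ∈ eId ρ t := by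
  let Y : LieIdeal ℝ V :=
    { (eId ρ t).toSubmodule.comap (ρ g) with
      lie_mem := by
        intro v y hy
        change ρ g ⁅v, y⁆ ∈ eId ρ t
        rw [H.lie]
        exact (eId ρ t).lie_mem hy }
  have h1 : eId ρ t ≤ Y := by
    conv_lhs => unfold eId eI
    rw [LieSubmodule.lieSpan_le]
    intro x hx
    change ρ g x ∈ eId ρ t
    refine Submodule.iSup_induction (fun r : {r : ℝ // r ≠ 0} => Wt (ρ t) (ρ t⁻¹) r)
      (motive := fun x => ρ g x ∈ eId ρ t) hx ?_ ?_ ?_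
    · intro r z hz
      have hn : ⁅t⁻¹, g⁆ ∈ N := H.comm _ _
      refine H.Wt_mul_le t hn r.2 ?_
      have e1 : t * ⁅t⁻¹, g⁆ = g * t * g⁻¹ := by rw [commutatorElement_def]; group
      rw [e1]
      refine Wt_map (ρ g) ?_ ?_ hz
      · intro y
        rw [← Module.End.mul_apply, ← Module.End.mul_apply, ← map_mul, ← map_mul]
        congr 2; group
      · intro y
        rw [← Module.End.mul_apply, ← Module.End.mul_apply, ← map_mul, ← map_mul]
        congr 2; group
    · rw [map_zero]; exact zero_mem _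
    · intro a b ha hb
      rw [map_add]; exact add_mem ha hb
  exact fun x hx => h1 hx

end ideal

end Vale.Agent.P188.H269

end
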