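import Vale.Agent.P188.R.G016
import Mathlib.MeasureTheory.Function.Jacobian
import Mathlib.Analysis.Calculus.Deriv.MeanValue
import Mathlib.LinearAlgebra.Determinant
import Mathlib.LinearAlgebra.Matrix.ToLinearEquiv

/-!
# P188, FILL block, part 14: quantitative absolute continuity for polynomial maps with a section
-/

set_option linter.all false

namespace Vale.Agent.P188.H329

open MeasureTheory Set

section

variable {X : Type} [NormedAddCommGroup X] [NormedSpace ℝ X] {β : Type} [Fintype β] [DecidableEq β]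
variable (Ψ : X → β → ℝ) (L : (β → ℝ) →L[ℝ] X)

/-- matrix of derivatives, the row `i` taken at the point `ξ i` -/
noncomputable def mat (ξ : β → X) : Matrix β β ℝ :=
  Matrix.of fun i j => fderiv ℝ (fun x => Ψ x i) (ξ i) (L (Pi.single j 1))

variable {Ψ}

theorem det_mat_mem (hΨ : ∀ w, (fun x => Ψ x w) ∈ Po X) :
    (fun ξ => (mat Ψ L ξ).det) ∈ Po (β → X) := by
  have : (fun ξ => (mat Ψ L ξ).det) = fun ξ => ∑ σ : Equiv.Perm β, ((Equiv.Perm.sign σ : ℤ) : ℝ) *
      ∏ i, fderiv ℝ (fun x => Ψ x (σ i)) (ξ (σ i)) (L (Pi.single i 1)) := by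
    funext ξ
    rw [Matrix.det_apply']
    rfl
  rw [this]
  refine Po.sum fun σ _ => Po.mul (Po.const _) (Po.prod fun i _ => ?_)
  refine Po.comp (f := fun x => fderiv ℝ (fun x => Ψ x (σ i)) x (L (Pi.single i 1)))
    (g := fun ξ : β → X => ξ (σ i)) (Po.fderiv_mem (hΨ _) _) fun φ => ?_
  exact Po.lin (φ.comp (ContinuousLinearMap.proj (R := ℝ) (φ := fun _ : β => X) (σ i)))

theorem gg_mem (hΨ : ∀ w, (fun x => Ψ x w) ∈ Po X) :
    (fun x => (mat Ψ L fun _ => x).det) ∈ Po X := by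
  refine Po.comp (f := fun ξ => (mat Ψ L ξ).det) (g := fun x : X => fun _ : β => x)
    (det_mat_mem L hΨ) fun φ => ?_
  exact Po.lin (φ.comp (ContinuousLinearMap.pi fun _ => ContinuousLinearMap.id ℝ X))

theorem hasFDerivAt_h (hΨ : ∀ w, (fun x => Ψ x w) ∈ Po X) (y : X) (v : β → ℝ) :
    HasFDerivAt (fun v => Ψ (y + L v)) (ContinuousLinearMap.pi fun i =>
      (fderiv ℝ (fun x => Ψ x i) (y + L v)).comp L) v := by
  rw [hasFDerivAt_pi]
  intro i
  have h1 : HasFDerivAt (fun v => y + L v) L v := (L.hasFDerivAt (x := v)).const_add y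
  have h2 : HasFDerivAt (fun x => Ψ x i) (fderiv ℝ (fun x => Ψ x i) (y + L v)) (y + L v) :=
    (Po.differentiable (hΨ i) _).hasFDerivAt
  exact h2.comp v h1

theorem det_h (y : X) (v : β → ℝ) :
    (ContinuousLinearMap.pi fun i => (fderiv ℝ (fun x => Ψ x i) (y + L v)).comp L :
      (β → ℝ) →L[ℝ] (β → ℝ)).det = (mat Ψ L fun _ => y + L v).det := by
  show LinearMap.det _ = _
  rw [← LinearMap.det_toMatrix']
  congr 1

theorem gg_x0 (hΨ : ∀ w, (fun x => Ψ x w) ∈ Po X) {x0 : X} (hs : ∀ s, Ψ (x0 + L s) = s) :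
    (mat Ψ L fun _ => x0).det = 1 := by
  have h1 : mat Ψ L (fun _ => x0) = 1 := by
    ext i j
    have h2 := hasFDerivAt_h L hΨ x0 0
    have h3 : (fun v => Ψ (x0 + L v)) = id := funext hs
    rw [h3, map_zero, add_zero] at h2
    have h4 := h2.unique (hasFDerivAt_id (0 : β → ℝ))
    have h5 := congrFun (congrArg (fun T : (β → ℝ) →L[ℝ] (β → ℝ) => T (Pi.single j 1)) h4) i
    show fderiv ℝ (fun x => Ψ x i) x0 (L (Pi.single j 1)) = _
    have h6 : fderiv ℝ (fun x => Ψ x i) x0 (L (Pi.single j 1)) = (Pi.single j 1 : β → ℝ) i := h5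
    rw [h6, Matrix.one_apply, Pi.single_apply]
  rw [h1, Matrix.det_one]

theorem inj_ball (hΨ : ∀ w, (fun x => Ψ x w) ∈ Po X) (y : X) {v1 : β → ℝ} {ρ ρ' : ℝ}
    (hG : ∀ ξ : β → X, (∀ i, ‖ξ i - (y + L v1)‖ ≤ 2 * ρ) → (mat Ψ L ξ).det ≠ 0)
    (hL : ∀ v : β → ℝ, ‖v‖ ≤ ρ' → ‖L v‖ ≤ ρ) (hv1 : ‖v1‖ ≤ ρ') :
    InjOn (fun v => Ψ (y + L v)) (Metric.closedBall 0 ρ') := by
  intro v hv v' hv' heq
  rw [mem_closedBall_zero_iff] at hv hv'
  by_contra hne
  have hmem : ∀ u : β → ℝ, ‖u‖ ≤ ρ' → y + L u ∈ Metric.closedBall (y + L v1) (2 * ρ) := by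
    intro u hu
    rw [mem_closedBall_iff_norm]
    have e1 : y + L u - (y + L v1) = L u - L v1 := by abel
    rw [e1]
    calc ‖L u - L v1‖ ≤ ‖L u‖ + ‖L v1‖ := norm_sub_le _ _
      _ ≤ ρ + ρ := add_le_add (hL u hu) (hL v1 hv1)
      _ = 2 * ρ := by ring
  have hex : ∀ i, ∃ z : X, ‖z - (y + L v1)‖ ≤ 2 * ρ ∧
      fderiv ℝ (fun x => Ψ x i) z (L (v' - v)) = 0 := by
    intro i
    obtain ⟨z, hz, hz2⟩ := domain_mvt (f := fun x => Ψ x i) (s := univ)
      (f' := fun x => fderiv ℝ (fun x => Ψ x i) x) (x := y + L v) (y := y + L v')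
      (fun x _ => (Po.differentiable (hΨ i) x).hasFDerivAt.hasFDerivWithinAt) convex_univ
      (mem_univ _) (mem_univ _)
    refine ⟨z, ?_, ?_⟩
    · have := (convex_closedBall (y + L v1) (2 * ρ)).segment_subset (hmem v hv) (hmem v' hv') hz
      rwa [mem_closedBall_iff_norm] at this
    · have e1 : y + L v' - (y + L v) = L (v' - v) := by rw [map_sub]; abel
      rw [e1] at hz2
      rw [← hz2]
      have : Ψ (y + L v') i = Ψ (y + L v) i := (congrFun heq i).symm
      rw [this, sub_self]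
  choose ξ hξ1 hξ2 using hex
  apply hG ξ hξ1
  rw [← Matrix.exists_mulVec_eq_zero_iff]
  refine ⟨v' - v, sub_ne_zero.2 fun h => hne h.symm, ?_⟩
  funext i
  have h1 : (mat Ψ L ξ).mulVec (v' - v) i =
      ∑ j, fderiv ℝ (fun x => Ψ x i) (ξ i) (L (Pi.single j 1)) * (v' - v) j := rfl
  rw [h1]
  have h2 : (v' - v) = ∑ j, (v' - v) j • (Pi.single j 1 : β → ℝ) := by
    funext k
    rw [Finset.sum_apply, Finset.sum_eq_single k]
    · simp
    · intro b _ hb
      simp [Pi.single_apply, hb.symm]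
    · simp
  have h3 := hξ2 i
  rw [h2, map_sum, map_sum] at h3
  rw [Pi.zero_apply, ← h3]
  refine Finset.sum_congr rfl fun j _ => ?_
  rw [map_smul, map_smul, smul_eq_mul, mul_comm]

end

theorem pow_aux {c : ℝ} (hc : 0 < c) (N : ℕ) : ∃ K : ℕ, 1 ≤ K ∧ ∀ ε : ℝ, 0 < ε → ε ≤ 1 →
    (ε / K) ^ K ≤ c * ε ^ N := by
  obtain ⟨m, hm⟩ := exists_nat_ge (1 / c)
  refine ⟨max N (max m 1), le_trans (le_max_right _ _) (le_max_right _ _), fun ε h0 h1 => ?_⟩
  set K := max N (max m 1) with hK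
  have hK1 : 1 ≤ K := le_trans (le_max_right _ _) (le_max_right _ _)
  have hKm : m ≤ K := le_trans (le_max_left _ _) (le_max_right _ _)
  have hKN : N ≤ K := le_max_left _ _
  have hKr : (1 : ℝ) ≤ K := by exact_mod_cast hK1
  have hKc : 1 / c ≤ (K : ℝ) := hm.trans (by exact_mod_cast hKm)
  have h2 : (K : ℝ) ≤ (K : ℝ) ^ K := le_self_pow₀ hKr (by omega)
  have h3 : ((K : ℝ) ^ K)⁻¹ ≤ c := by
    rw [inv_le_comm₀ (by positivity) hc]
    rw [one_div] at hKc
    exact hKc.trans h2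
  have h4 : ε ^ K ≤ ε ^ N := pow_le_pow_of_le_one h0.le h1 hKN
  rw [div_pow, div_eq_inv_mul]
  exact mul_le_mul h3 h4 (by positivity) hc.le

/-- Quantitative absolute continuity. -/
theorem qac {X : Type} [NormedAddCommGroup X] [NormedSpace ℝ X] [MeasurableSpace X]
    [BorelSpace X] [FiniteDimensional ℝ X] (μ : Measure X) [μ.IsAddHaarMeasure]
    {β : Type} [Fintype β] {Ψ : X → (β → ℝ)} (hΨ : ∀ w, (fun x => Ψ x w) ∈ Po X)
    (L : (β → ℝ) →L[ℝ] X) (x0 : X) (hs : ∀ s, Ψ (x0 + L s) = s) {Q : Set X}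
    (hQ : Bornology.IsBounded Q) : ∃ K : ℕ, 1 ≤ K ∧ ∀ ε : ℝ, 0 < ε → ε ≤ 1 → ∀ X0 ⊆ Q,
      MeasurableSet X0 → ENNReal.ofReal ε ≤ μ X0 →
        ENNReal.ofReal ((ε / K) ^ K) ≤ volume (Ψ '' X0) := by
  classical
  obtain ⟨ρ0, hρ0, hQρ⟩ : ∃ ρ0 : ℝ, 0 < ρ0 ∧ Q ⊆ Metric.closedBall x0 ρ0 := by
    obtain ⟨R, hR⟩ := hQ.subset_closedBall x0
    exact ⟨max R 1, by positivity, hR.trans (Metric.closedBall_subset_closedBall (le_max_left _ _))⟩
  set g : X → ℝ := fun x => (mat Ψ L fun _ => x).det with hg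
  have hgPo : g ∈ Po X := gg_mem L hΨ
  have hgc : Continuous g := Po.continuous hgPo
  have hg0 : g x0 = 1 := gg_x0 L hΨ hs
  obtain ⟨D, K1, hK1, hsub⟩ := Po.sublevel μ hgPo hg0 hρ0
  obtain ⟨KG, hKG⟩ := Po.lip (det_mat_mem L hΨ)
  set R1 : ℝ := ‖x0‖ + ρ0 + 2 with hR1
  have hR1p : 0 ≤ R1 := by positivity
  set KL : ℝ := KG * (1 + R1) ^ KG + 1 with hKL
  have hKLp : 1 ≤ KL := by
    have : 0 ≤ KG * (1 + R1) ^ KG := by positivity
    linarith
  set B' : Set X := Metric.closedBall x0 (ρ0 + 1) with hB'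
  have hB't : μ B' ≠ ⊤ := measure_closedBall_lt_top.ne
  have hB'0 : μ B' ≠ 0 := (Metric.measure_closedBall_pos μ x0 (by linarith)).ne'
  set b : ℝ := (μ B').toReal with hb
  have hbp : 0 < b := ENNReal.toReal_pos hB'0 hB't
  set d := Fintype.card β with hd
  -- the constants
  set c1 : ℝ := K1⁻¹ * (1 / (2 * K1)) ^ D with hc1
  have hK1p : 0 < K1 := by linarith
  have hc1p : 0 < c1 := by positivity
  set c2 : ℝ := c1 / (4 * KL) / (‖L‖ + 1) with hc2
  have hLp : 0 < ‖L‖ + 1 := by linarith [norm_nonneg L]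
  have hKLp0 : 0 < KL := by linarith
  have hc2p : 0 < c2 := by positivity
  obtain ⟨K, hK, hKε⟩ := pow_aux (c := c1 * (2 * c2) ^ d * (1 / 2) / b) (by positivity) (D + D * d + 1)
  refine ⟨K, hK, fun ε hε hε1 X0 hX0Q hX0m hX0ε => ?_⟩
  refine (ENNReal.ofReal_le_ofReal (hKε ε hε hε1)).trans ?_
  set η : ℝ := c1 * ε ^ D with hη
  have hηp : 0 < η := by positivity
  set lam : ℝ := ε / (2 * K1) with hlam
  have hlamp : 0 < lam := by positivity
  have hηlam : η = K1⁻¹ * lam ^ D := by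
    rw [hη, hc1, hlam, div_pow, div_pow]
    ring
  have hη1 : η ≤ 1 := by
    rw [hηlam]
    have h1 : K1⁻¹ ≤ 1 := inv_le_one_of_one_le₀ hK1
    have h2 : lam ≤ 1 := by
      rw [hlam, div_le_one (by positivity)]
      linarith
    have h3 : lam ^ D ≤ 1 := pow_le_one₀ hlamp.le h2
    have h4 : 0 ≤ lam ^ D := by positivity
    calc K1⁻¹ * lam ^ D ≤ 1 * 1 := mul_le_mul h1 h3 h4 (by norm_num)
      _ = 1 := by norm_num
  set ρ : ℝ := η / (4 * KL) with hρ
  have hρp : 0 < ρ := by positivity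
  have hρ1 : ρ ≤ 1 := by
    rw [hρ, div_le_one (by positivity)]
    linarith
  set ρ' : ℝ := ρ / (‖L‖ + 1) with hρ'
  have hρ'p : 0 < ρ' := by positivity
  have hLρ : ∀ v : β → ℝ, ‖v‖ ≤ ρ' → ‖L v‖ ≤ ρ := by
    intro v hv
    calc ‖L v‖ ≤ ‖L‖ * ‖v‖ := L.le_opNorm v
      _ ≤ (‖L‖ + 1) * ρ' := by
          refine mul_le_mul (by linarith) hv (norm_nonneg _) (by linarith)
      _ = ρ := by rw [hρ']; field_simp
  -- the good part of `X0`
  set X' : Set X := X0 ∩ {x | η < |g x|} with hX'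
  have hX'm : MeasurableSet X' := hX0m.inter (isOpen_lt continuous_const hgc.abs).measurableSet
  have hX'ε : ENNReal.ofReal (ε / 2) ≤ μ X' := by
    have h1 : X0 ⊆ X' ∪ (Metric.closedBall x0 ρ0 ∩ {y | |g y| ≤ K1⁻¹ * lam ^ D}) := by
      intro x hx
      by_cases h2 : η < |g x|
      · exact Or.inl ⟨hx, h2⟩
      · refine Or.inr ⟨hQρ (hX0Q hx), ?_⟩
        rw [← hηlam]
        exact not_lt.1 h2
    have h2 := hX0ε.trans ((measure_mono h1).trans ((measure_union_le _ _).trans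
      (add_le_add le_rfl (hsub lam hlamp))))
    have h3 : K1 * lam = ε / 2 := by
      rw [hlam]
      field_simp
    have h4 : ENNReal.ofReal ε = ENNReal.ofReal (ε / 2) + ENNReal.ofReal (ε / 2) := by
      rw [← ENNReal.ofReal_add (by positivity) (by positivity)]
      congr 1
      ring
    rw [h3, h4] at h2
    exact (ENNReal.add_le_add_iff_right ENNReal.ofReal_ne_top).1 h2
  -- Fubini
  set W : Set (X × (β → ℝ)) := {q | q.2 ∈ Metric.closedBall 0 ρ' ∧ q.1 + L q.2 ∈ X'} with hW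
  have hWm : MeasurableSet W := by
    refine (measurable_snd Metric.isClosed_closedBall.measurableSet).inter ?_
    have hc : Continuous fun q : X × (β → ℝ) => q.1 + L q.2 := by fun_prop
    exact hc.measurable hX'm
  have hW1 : (μ.prod volume) W = volume (Metric.closedBall (0 : β → ℝ) ρ') * μ X' := by
    rw [Measure.prod_apply_symm hWm]
    have h1 : ∀ v : β → ℝ, μ ((fun y => (y, v)) ⁻¹' W) =
        (Metric.closedBall (0 : β → ℝ) ρ').indicator (fun _ => μ X') v := by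
      intro v
      by_cases hv : v ∈ Metric.closedBall (0 : β → ℝ) ρ'
      · rw [indicator_of_mem hv]
        have h2 : (fun y => (y, v)) ⁻¹' W = (fun y => y + L v) ⁻¹' X' := by
          ext y
          exact ⟨fun h => h.2, fun h => ⟨hv, h⟩⟩
        rw [h2, measure_preimage_add_right]
      · rw [indicator_of_notMem hv]
        have : (fun y => (y, v)) ⁻¹' W = ∅ := by
          rw [eq_empty_iff_forall_notMem]
          intro y hy
          exact hv hy.1
        rw [this, measure_empty]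
    simp_rw [h1]
    rw [lintegral_indicator_const Metric.isClosed_closedBall.measurableSet, mul_comm]
  have hsupp : ∀ y, y ∉ B' → Prod.mk y ⁻¹' W = ∅ := by
    intro y hy
    rw [eq_empty_iff_forall_notMem]
    rintro v ⟨hv, hv2⟩
    apply hy
    have h1 := hQρ (hX0Q hv2.1)
    rw [mem_closedBall_zero_iff] at hv
    rw [hB', mem_closedBall_iff_norm]
    rw [mem_closedBall_iff_norm] at h1
    calc ‖y - x0‖ = ‖(y + L v - x0) - L v‖ := by congr 1; abel
      _ ≤ ‖y + L v - x0‖ + ‖L v‖ := norm_sub_le _ _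
      _ ≤ ρ0 + 1 := add_le_add h1 ((hLρ v hv).trans hρ1)
  have hfin : volume (Metric.closedBall (0 : β → ℝ) ρ') ≠ ⊤ := measure_closedBall_lt_top.ne
  have hX't : μ X' ≠ ⊤ := (lt_of_le_of_lt (measure_mono (inter_subset_left.trans (hX0Q.trans hQρ)))
    measure_closedBall_lt_top).ne
  obtain ⟨y, hy⟩ : ∃ y, volume (Metric.closedBall (0 : β → ℝ) ρ') * μ X' / μ B' ≤
      volume (Prod.mk y ⁻¹' W) := by
    have h1 : ∫⁻ y in B', volume (Prod.mk y ⁻¹' W) ∂μ =
        volume (Metric.closedBall (0 : β → ℝ) ρ') * μ X' := by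
      rw [← hW1, Measure.prod_apply hWm]
      rw [← lintegral_indicator Metric.isClosed_closedBall.measurableSet]
      refine lintegral_congr fun y => ?_
      by_cases hy : y ∈ B'
      · rw [indicator_of_mem hy]
      · rw [indicator_of_notMem hy, hsupp y hy, measure_empty]
    have hmeasB : MeasurableSet B' := Metric.isClosed_closedBall.measurableSet
    obtain ⟨y, _, hy⟩ := exists_setLAverage_le (μ := μ) (s := B')
      (f := fun y => volume (Prod.mk y ⁻¹' W)) hB'0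
      hmeasB.nullMeasurableSet
      (by rw [h1]; exact ENNReal.mul_ne_top hfin hX't)
    refine ⟨y, ?_⟩
    rw [setLAverage_eq, h1] at hy
    exact hy
  set V : Set (β → ℝ) := Prod.mk y ⁻¹' W with hV
  have hVm : MeasurableSet V := measurable_prodMk_left hWm
  have hVsub : V ⊆ Metric.closedBall 0 ρ' := fun v hv => hv.1
  have hVlow : ENNReal.ofReal ((2 * ρ') ^ d * (ε / 2) / b) ≤ volume V := by
    refine le_trans ?_ hy
    rw [Real.volume_pi_closedBall _ hρ'p.le]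
    rw [ENNReal.ofReal_div_of_pos hbp, ENNReal.ofReal_mul (by positivity)]
    have h1 : ENNReal.ofReal b = μ B' := ENNReal.ofReal_toReal hB't
    rw [h1]
    gcongr
  have hVne : V.Nonempty := by
    rw [nonempty_iff_ne_empty]
    intro h1
    rw [h1, measure_empty] at hVlow
    have h2 : 0 < (2 * ρ') ^ d * (ε / 2) / b := by positivity
    exact absurd hVlow (not_le.2 (ENNReal.ofReal_pos.2 h2))
  obtain ⟨v1, hv1, hv1X⟩ := hVne
  have hinj : InjOn (fun v => Ψ (y + L v)) (Metric.closedBall 0 ρ') := by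
    refine inj_ball L hΨ y (v1 := v1) (ρ := ρ) ?_ hLρ (by rwa [mem_closedBall_zero_iff] at hv1)
    intro ξ hξ hdet
    have hx1 : ‖y + L v1 - x0‖ ≤ ρ0 := by
      have := hQρ (hX0Q hv1X.1)
      rwa [mem_closedBall_iff_norm] at this
    have hx2 : ‖y + L v1‖ ≤ R1 := by
      calc ‖y + L v1‖ = ‖(y + L v1 - x0) + x0‖ := by congr 1; abel
        _ ≤ ‖y + L v1 - x0‖ + ‖x0‖ := norm_add_le _ _
        _ ≤ R1 := by rw [hR1]; linarith
    have h1 : ‖fun _ : β => y + L v1‖ ≤ R1 := (pi_norm_le_iff_of_nonneg hR1p).2 fun _ => hx2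
    have h2 : ‖ξ‖ ≤ R1 := by
      rw [pi_norm_le_iff_of_nonneg hR1p]
      intro i
      calc ‖ξ i‖ = ‖(ξ i - (y + L v1)) + ((y + L v1 - x0) + x0)‖ := by congr 1; abel
        _ ≤ ‖ξ i - (y + L v1)‖ + ‖(y + L v1 - x0) + x0‖ := norm_add_le _ _
        _ ≤ 2 * ρ + (ρ0 + ‖x0‖) := add_le_add (hξ i) ((norm_add_le _ _).trans (by linarith))
        _ ≤ R1 := by rw [hR1]; linarith
    have h3 := hKG R1 hR1p ξ (fun _ => y + L v1) h2 h1
    have h4 : ‖ξ - fun _ => y + L v1‖ ≤ 2 * ρ := by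
      rw [pi_norm_le_iff_of_nonneg (by positivity)]
      exact hξ
    simp only [hdet, zero_sub, abs_neg] at h3
    have h5 : |g (y + L v1)| ≤ η / 2 := by
      calc |g (y + L v1)| ≤ KG * (1 + R1) ^ KG * ‖ξ - fun _ => y + L v1‖ := h3
        _ ≤ KL * (2 * ρ) := by
            refine mul_le_mul (by rw [hKL]; linarith) h4 (norm_nonneg _) hKLp0.le
        _ = η / 2 := by
            rw [hρ]
            field_simp
            norm_num
    have h6 : η < |g (y + L v1)| := hv1X.2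
    linarith
  have harea := lintegral_abs_det_fderiv_eq_addHaar_image (μ := (volume : Measure (β → ℝ)))
    (s := V) (f := fun v => Ψ (y + L v)) (f' := fun v => ContinuousLinearMap.pi fun i =>
      (fderiv ℝ (fun x => Ψ x i) (y + L v)).comp L) hVm
    (fun v _ => (hasFDerivAt_h L hΨ y v).hasFDerivWithinAt) (hinj.mono hVsub)
  have hlow : ENNReal.ofReal η * volume V ≤ volume ((fun v => Ψ (y + L v)) '' V) := by
    rw [← harea, ← setLIntegral_const]
    refine setLIntegral_mono' hVm fun v hv => ENNReal.ofReal_le_ofReal ?_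
    rw [det_h L y v]
    exact le_of_lt hv.2.2
  have hsubset : (fun v => Ψ (y + L v)) '' V ⊆ Ψ '' X0 := by
    rintro _ ⟨v, hv, rfl⟩
    exact ⟨y + L v, hv.2.1, rfl⟩
  refine le_trans ?_ (hlow.trans (measure_mono hsubset))
  refine le_trans ?_ (mul_le_mul' le_rfl hVlow)
  rw [← ENNReal.ofReal_mul hηp.le]
  apply ENNReal.ofReal_le_ofReal
  have e1 : ρ' = c2 * ε ^ D := by
    rw [hρ', hρ, hη, hc2]
    ring
  rw [e1, hη]
  have e2 : c1 * (2 * c2) ^ d * (1 / 2) / b * ε ^ (D + D * d + 1) =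
      c1 * ε ^ D * ((2 * (c2 * ε ^ D)) ^ d * (ε / 2) / b) := by
    rw [← mul_assoc 2 c2, mul_pow (2 * c2) (ε ^ D), ← pow_mul, pow_add, pow_add]
    ring
  rw [e2]

end Vale.Agent.P188.H329
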