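import Vale.Agent.P188.R.G012

section

/-!
# Constancy of the slopes, flatness relation and the pointwise form of LIN

All statements are finitary: one scale `ρ`.
-/

open MeasureTheory Set Finset
open scoped ENNReal BigOperators

namespace P188.H882

section Slopes

variable {S : Type*} [Group S]

/-- At the two times `m = ρ` and `m = ⌈ρ/2⌉` (in one of the two directions), the conjugate
`t^{-σm} u t^{σm}` is a short element times a neutral element. -/
def Mrg (l : S → ℝ) (Nt : Set S) (t : S) (ρ : ℕ) (τ : ℝ) (u : S) : Prop :=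
  ∃ σ : ℤ, (σ = 1 ∨ σ = -1) ∧ ∀ m : ℕ, (m = ρ ∨ m = (ρ + 1) / 2) →
    ∃ a z : S, t ^ (-(σ * m)) * u * t ^ (σ * m) = a * z ∧ l a ≤ τ ∧ z ∈ Nt

/-- `f` is affine up to `e` along the `t`-line through `x`, on `[-ρ, ρ]`. -/
def Aff (f : S → ℝ) (t : S) (ρ : ℕ) (e : ℝ) (x : S) : Prop :=
  ∀ m : ℤ, |m| ≤ (ρ : ℤ) → |f (x * t ^ m) - f x - m * dq f t ρ x| ≤ e

/-- neutral flatness at `x`, for all translates `g` of length at most `r` -/
def NFlat (f : S → ℝ) (τ3 : ℝ) (x g z : S) : Prop := |f (x * g * z) - f (x * g)| ≤ τ3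

lemma slope_merge {l : S → ℝ} {f : S → ℝ} {L : ℝ} (hL : 0 ≤ L)
    (hf : ∀ x s, |f (x * s) - f x| ≤ L * (l s + 1)) {t : S} {ρ : ℕ} (hρ : 2 ≤ ρ) {e τ τ3 : ℝ}
    {x u : S} (hx : Aff f t ρ e x) (hxu : Aff f t ρ e (x * u)) {σ : ℤ} (hσ : σ = 1 ∨ σ = -1)
    {a z : ℕ → S} (haz : ∀ m : ℕ, (m = ρ ∨ m = (ρ + 1) / 2) →
      t ^ (-(σ * m)) * u * t ^ (σ * m) = a m * z m ∧ l (a m) ≤ τ)
    (hN : ∀ m : ℕ, (m = ρ ∨ m = (ρ + 1) / 2) → NFlat f τ3 x (t ^ (σ * m) * a m) (z m)) :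
    |dq f t ρ (x * u) - dq f t ρ x| ≤ 3 * (4 * e + 2 * L * (τ + 1) + 2 * τ3) / ρ := by
  have hσ1 : |σ| = 1 := by rcases hσ with rfl | rfl <;> simp
  have hσR : |(σ:ℝ)| = 1 := by rcases hσ with rfl | rfl <;> simp
  set A := dq f t ρ x
  set B := dq f t ρ (x * u)
  have key : ∀ m : ℕ, (m = ρ ∨ m = (ρ + 1) / 2) →
      |(f (x * u) - f x) + (σ * m) * (B - A)| ≤ 2 * e + L * (τ + 1) + τ3 := by
    intro m h1
    have h2 : m ≤ ρ := by omega
    have hle : |σ * (m:ℤ)| ≤ (ρ:ℤ) := by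
      rw [abs_mul, hσ1, one_mul, Nat.abs_cast]; exact_mod_cast h2
    have h3 := hx (σ * m) hle
    have h4 := hxu (σ * m) hle
    have h5 := hf (x * t ^ (σ * (m:ℤ))) (a m)
    have h7 := hN m h1
    unfold NFlat at h7
    have e1 : x * (t ^ (σ * (m:ℤ)) * a m) * z m = x * u * t ^ (σ * (m:ℤ)) := by
      have := (haz m h1).1
      calc x * (t ^ (σ * (m:ℤ)) * a m) * z m = x * t ^ (σ * (m:ℤ)) * (a m * z m) := by group
        _ = _ := by rw [← this]; group
    rw [e1] at h7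
    rw [mul_assoc x] at h5
    have h6 := h5.trans (mul_le_mul_of_nonneg_left (add_le_add_left (haz m h1).2 1) hL)
    have e2 : (f (x * u) - f x) + (σ * m) * (B - A) =
        (f (x * u * t ^ (σ * (m:ℤ))) - f (x * (t ^ (σ * (m:ℤ)) * a m)))
        + (f (x * (t ^ (σ * (m:ℤ)) * a m)) - f (x * t ^ (σ * (m:ℤ))))
        - (f (x * u * t ^ (σ * (m:ℤ))) - f (x * u) - ((σ * (m:ℤ) : ℤ) : ℝ) * B)
        + (f (x * t ^ (σ * (m:ℤ))) - f x - ((σ * (m:ℤ) : ℤ) : ℝ) * A) := by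
      push_cast; ring
    rw [e2]
    calc _ ≤ |f (x * u * t ^ (σ * (m:ℤ))) - f (x * (t ^ (σ * (m:ℤ)) * a m))|
        + |f (x * (t ^ (σ * (m:ℤ)) * a m)) - f (x * t ^ (σ * (m:ℤ)))|
        + |f (x * u * t ^ (σ * (m:ℤ))) - f (x * u) - ((σ * (m:ℤ) : ℤ) : ℝ) * B|
        + |f (x * t ^ (σ * (m:ℤ))) - f x - ((σ * (m:ℤ) : ℤ) : ℝ) * A| :=
          (abs_add_le _ _).trans (add_le_add ((abs_sub _ _).trans
            (add_le_add (abs_add_le _ _) le_rfl)) le_rfl)
      _ ≤ τ3 + L * (τ + 1) + e + e := add_le_add (add_le_add (add_le_add h7 h6) h4) h3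
      _ = _ := by ring
  have k1 := key ρ (Or.inl rfl)
  have k2 := key ((ρ + 1) / 2) (Or.inr rfl)
  set m2 := (ρ + 1) / 2 with hm2
  have hgap : (ρ:ℝ) / 3 ≤ ρ - m2 := by
    have h1 : 3 * m2 ≤ 2 * ρ := by omega
    have h2 : (3:ℝ) * m2 ≤ 2 * ρ := by exact_mod_cast h1
    linarith
  have h7 : |(σ * ((ρ:ℝ) - m2)) * (B - A)| ≤ 2 * (2 * e + L * (τ + 1) + τ3) := by
    have e3 : (σ * ((ρ:ℝ) - m2)) * (B - A) = ((f (x * u) - f x) + (σ * ρ) * (B - A))
        - ((f (x * u) - f x) + (σ * m2) * (B - A)) := by ring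
    rw [e3]
    calc _ ≤ _ := abs_sub _ _
      _ ≤ _ := add_le_add k1 k2
      _ = _ := by ring
  rw [abs_mul, abs_mul, hσR, one_mul, abs_of_nonneg (by
    have : (0:ℝ) ≤ (ρ:ℝ) / 3 := by positivity
    linarith)] at h7
  have hρ0 : (0:ℝ) < ρ := by positivity
  rw [le_div_iff₀ hρ0]
  have h8 : (ρ:ℝ) / 3 * |B - A| ≤ (ρ - m2) * |B - A| := mul_le_mul_of_nonneg_right hgap (abs_nonneg _)
  nlinarith

end Slopes

section Meas

variable {S : Type*} [Group S] [MeasurableSpace S] {μ : Measure S}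

/-- slopes are preserved along a chain of merging steps, measure form -/
lemma slope_chain_meas {l : S → ℝ} {f : S → ℝ} {L : ℝ} (hL : 0 ≤ L)
    (hf : ∀ x s, |f (x * s) - f x| ≤ L * (l s + 1)) {t : S} {ρ : ℕ} (hρ : 2 ≤ ρ) {e τ τ3 : ℝ}
    {Nt D Gd : Set S} (hDf : μ D ≠ ∞) (hGd : ∀ x ∈ Gd, Aff f t ρ e x) {W : Set S} {η ηN : ℝ}
    (hW : ∀ w ∈ W, μ.real {x ∈ D | x * w ∉ Gd} ≤ η)
    (hWN : ∀ g ∈ W, ∀ z ∈ Nt, μ.real {x ∈ D | ¬ NFlat f τ3 x g z} ≤ ηN)
    (us : List S) (hus : ∀ v ∈ us, Mrg l Nt t ρ τ v) (w : S)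
    (hpre : ∀ ws, ws <+: us → w * ws.prod ∈ W ∧ ∀ m : ℤ, |m| ≤ (ρ : ℤ) → ∀ a, l a ≤ τ →
      w * ws.prod * t ^ m * a ∈ W) :
    μ.real {x ∈ D | ¬ |dq f t ρ (x * w * us.prod) - dq f t ρ (x * w)|
        ≤ us.length * (3 * (4 * e + 2 * L * (τ + 1) + 2 * τ3) / ρ)} ≤
      us.length * (2 * η + 2 * ηN) := by
  set K := 3 * (4 * e + 2 * L * (τ + 1) + 2 * τ3) / ρ with hK
  induction us generalizing w with
  | nil => simp
  | cons v us ih =>
    have ih' := ih (fun v hv => hus v (List.mem_cons_of_mem _ hv)) (w * v) (by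
      intro ws hws
      have := hpre (v :: ws) (List.cons_prefix_cons.mpr ⟨rfl, hws⟩)
      simpa [mul_assoc] using this)
    have hw := hpre [] (List.nil_prefix)
    simp only [List.prod_nil, mul_one] at hw
    have hwv := hpre [v] (List.cons_prefix_cons.mpr ⟨rfl, List.nil_prefix⟩)
    simp only [List.prod_cons, List.prod_nil, mul_one] at hwv
    obtain ⟨σ, hσ, haz⟩ := hus v (List.mem_cons_self ..)
    have hσ1 : |σ| = 1 := by rcases hσ with rfl | rfl <;> simp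
    have hex : ∀ m : ℕ, ∃ a z : S, (m = ρ ∨ m = (ρ + 1) / 2) →
        t ^ (-(σ * m)) * v * t ^ (σ * m) = a * z ∧ l a ≤ τ ∧ z ∈ Nt := by
      intro m
      by_cases hm : m = ρ ∨ m = (ρ + 1) / 2
      · obtain ⟨a, z, h⟩ := haz m hm
        exact ⟨a, z, fun _ => h⟩
      · exact ⟨1, 1, fun h => absurd h hm⟩
    choose a z haz' using hex
    have hgW : ∀ m : ℕ, (m = ρ ∨ m = (ρ + 1) / 2) → w * (t ^ (σ * (m:ℤ)) * a m) ∈ W := by
      intro m hm
      rw [← mul_assoc]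
      refine hw.2 _ ?_ _ (haz' m hm).2.1
      rw [abs_mul, hσ1, one_mul, Nat.abs_cast]
      have : m ≤ ρ := by omega
      exact_mod_cast this
    have hsub : {x ∈ D | ¬ |dq f t ρ (x * w * (v :: us).prod) - dq f t ρ (x * w)|
        ≤ (v :: us).length * K} ⊆
        ((({x ∈ D | x * w ∉ Gd} ∪ {x ∈ D | x * (w * v) ∉ Gd}) ∪
          {x ∈ D | ¬ NFlat f τ3 x (w * (t ^ (σ * (ρ:ℤ)) * a ρ)) (z ρ)}) ∪
          {x ∈ D | ¬ NFlat f τ3 x (w * (t ^ (σ * (((ρ + 1) / 2 : ℕ):ℤ)) * a ((ρ + 1) / 2)))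
            (z ((ρ + 1) / 2))}) ∪
          {x ∈ D | ¬ |dq f t ρ (x * (w * v) * us.prod) - dq f t ρ (x * (w * v))|
            ≤ us.length * K} := by
      rintro x ⟨hx, hxb⟩
      by_contra hcon
      simp only [Set.mem_union, Set.mem_ofPred_eq, not_or, not_and, not_not] at hcon
      obtain ⟨⟨⟨⟨c1, c2⟩, c3⟩, c4⟩, c5⟩ := hcon
      apply hxb
      have c5' := c5 hx
      have h2 := slope_merge (τ3 := τ3) (z := z) hL hf hρ (hGd _ (c1 hx))
        (u := v) (by rw [mul_assoc]; exact hGd _ (c2 hx)) hσ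
        (fun m hm => ⟨(haz' m hm).1, (haz' m hm).2.1⟩) (by
          rintro m (rfl | rfl)
          · have := c3 hx
            unfold NFlat at this ⊢
            rwa [← mul_assoc x w] at this
          · have := c4 hx
            unfold NFlat at this ⊢
            rwa [← mul_assoc x w] at this)
      rw [List.prod_cons, List.length_cons, ← mul_assoc]
      rw [← mul_assoc x w v] at c5'
      push_cast
      calc _ ≤ |dq f t ρ (x * w * v * us.prod) - dq f t ρ (x * w * v)|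
            + |dq f t ρ (x * w * v) - dq f t ρ (x * w)| := by
            refine le_trans (le_of_eq ?_) (abs_add_le _ _)
            congr 1; ring
        _ ≤ _ := add_le_add c5' h2
        _ = _ := by rw [hK]; ring
    refine (measureReal_mono hsub (ne_top_of_le_ne_top hDf (measure_mono ?_))).trans ?_
    · rintro x ((((h | h) | h) | h) | h) <;> exact h.1
    · refine (measureReal_union_le _ _).trans ((add_le_add (measureReal_union_le _ _) ih').trans ?_)
      refine (add_le_add (add_le_add (measureReal_union_le _ _) (hWN _ (hgW _ (Or.inr rfl)) _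
        (haz' _ (Or.inr rfl)).2.2)) le_rfl).trans ?_
      refine (add_le_add (add_le_add (add_le_add (measureReal_union_le _ _) (hWN _ (hgW _ (Or.inl rfl)) _
        (haz' _ (Or.inl rfl)).2.2)) le_rfl) le_rfl).trans ?_
      have := hW w hw.1
      have := hW _ hwv.1
      rw [List.length_cons]
      push_cast
      linarith

/-- measure of the set of points moved into a small set -/
lemma shift_meas {D A : Set S} (hDf : μ D ≠ ∞) (hA : A ⊆ D) {w : S}
    (hw : MeasurePreserving (fun x : S => x * w) μ μ) :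
    μ.real {x ∈ D | x * w ∈ A} ≤ μ.real A := by
  have hAf : μ A ≠ ∞ := ne_top_of_le_ne_top hDf (measure_mono hA)
  unfold Measure.real
  refine ENNReal.toReal_mono hAf ?_
  have h1 : {x ∈ D | x * w ∈ A} ⊆ (fun x : S => x * w) ⁻¹' A := fun x hx => hx.2
  refine (measure_mono h1).trans ?_
  calc μ ((fun x : S => x * w) ⁻¹' A) ≤ μ ((fun x : S => x * w) ⁻¹' (toMeasurable μ A)) :=
        measure_mono (Set.preimage_mono (subset_toMeasurable _ _))
    _ = μ (toMeasurable μ A) := hw.measure_preimage (measurableSet_toMeasurable _ _).nullMeasurableSet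
    _ = μ A := measure_toMeasurable _

lemma shift_meas' {D A : Set S} (hDf : μ D ≠ ∞) (hA : A ⊆ D) {w : S}
    (hw : MeasurePreserving (fun x : S => x * w) μ μ) {a δ : ℝ} (hAa : μ.real (D \ A) ≤ a)
    (hδ : μ.real {x ∈ D | x * w ∉ D} ≤ δ) :
    μ.real {x ∈ D | x * w ∉ A} ≤ δ + a := by
  have hsub : {x ∈ D | x * w ∉ A} ⊆ {x ∈ D | x * w ∉ D} ∪ {x ∈ D | x * w ∈ D \ A} := by
    rintro x ⟨hx, h⟩
    by_cases hD : x * w ∈ D
    · exact Or.inr ⟨hx, hD, h⟩
    · exact Or.inl ⟨hx, hD⟩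
  refine (measureReal_mono hsub (ne_top_of_le_ne_top hDf (measure_mono ?_))).trans ?_
  · rintro x (h | h) <;> exact h.1
  · refine (measureReal_union_le _ _).trans (add_le_add hδ ?_)
    exact (shift_meas hDf Set.sdiff_subset hw).trans hAa

end Meas

section RelSec

variable {S : Type*} [Group S] {ι : Type*} [Fintype ι]

/-- the basic relation: `x'` is on the affine sheet of `x` -/
def Rel (f : S → ℝ) (t : ι → S) (h : ι → S → ℝ) (ρ : ℕ) (e ω : ℝ) (x x' : S) : Prop :=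
  |f x' - f x - ∑ i, h i (x⁻¹ * x') * dq f (t i) ρ x| ≤ e ∧
    ∀ i, |dq f (t i) ρ x' - dq f (t i) ρ x| ≤ ω

/-- the four kinds of elementary steps: flat, merging, neutral, short -/
def Typed (l : S → ℝ) (t : ι → S) (h : ι → S → ℝ) (ρ ρ2 : ℕ) (τ2 : ℝ) (Nt : Set S) (v : S) : Prop :=
  (∃ i, ∃ n : ℤ, |n| ≤ (ρ : ℤ) ∧ |n| ≤ (ρ2 : ℤ) ∧ v = t i ^ n) ∨
  ((∀ j, h j v = 0) ∧ ∃ i, ∃ m : ℤ, |m| ≤ (ρ : ℤ) ∧ |m| ≤ (ρ2 : ℤ) ∧
    l (t i ^ (-m) * v * t i ^ m) ≤ τ2) ∨
  ((∀ j, h j v = 0) ∧ v ∈ Nt) ∨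
  (l v ≤ τ2 ∧ ∀ j, |h j v| ≤ τ2)

lemma add_zpow_hom {h : S → ℝ} (hh : ∀ x y, h (x * y) = h x + h y) (s : S) (n : ℤ) :
    h (s ^ n) = n * h s := by
  have h1 : h 1 = 0 := by have := hh 1 1; simp at this; linarith
  let φ : S →* Multiplicative ℝ :=
    { toFun := fun x => Multiplicative.ofAdd (h x)
      map_one' := by rw [h1]; rfl
      map_mul' := fun x y => by rw [hh]; rfl }
  have := map_zpow φ s n
  have h2 := congrArg Multiplicative.toAdd this
  simpa [φ, toAdd_zpow] using h2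

/-- one step of the chain, pointwise -/
lemma step_pt [DecidableEq ι] {l : S → ℝ} {f : S → ℝ} {L L1 : ℝ} (hL : 0 ≤ L) (hL1 : 0 ≤ L1)
    (hf : ∀ x s, |f (x * s) - f x| ≤ L * (l s + 1)) {t : ι → S} {h : ι → S → ℝ}
    (hh : ∀ i x y, h i (x * y) = h i x + h i y) (ht : ∀ i j, h j (t i) = if i = j then 1 else 0)
    {ρ ρ2 : ℕ} {e0 ω1 τ2 τ3 : ℝ} (he0 : 0 ≤ e0) (hω1 : 0 ≤ ω1) (hτ2 : 0 ≤ τ2) (hτ3 : 0 ≤ τ3)
    {Nt : Set S} {v : S} (hv : Typed l t h ρ ρ2 τ2 Nt v) {x y : S}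
    (hdq : ∀ i, |dq f (t i) ρ x| ≤ L1)
    (hy : ∀ i, Aff f (t i) ρ e0 y) (hyv : ∀ i, Aff f (t i) ρ e0 (y * v))
    (hs : ∀ i, |dq f (t i) ρ y - dq f (t i) ρ x| ≤ ω1)
    (hsv : ∀ i, |dq f (t i) ρ (y * v) - dq f (t i) ρ x| ≤ ω1)
    (hN : v ∈ Nt → |f (y * v) - f y| ≤ τ3) :
    |f (y * v) - f y - ∑ i, h i v * dq f (t i) ρ x| ≤
      2 * e0 + 2 * ρ2 * ω1 + L * (τ2 + 1) + τ3 + Fintype.card ι * (τ2 * L1) := by
  have hρ2 : (0:ℝ) ≤ ρ2 := by positivity
  have hkk : (0:ℝ) ≤ Fintype.card ι * (τ2 * L1) := by positivity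
  rcases hv with ⟨i, n, hn1, hn2, rfl⟩ | ⟨h0, i, m, hm1, hm2, hm3⟩ | ⟨h0, hvN⟩ | ⟨hv1, hv2⟩
  · have h1 : ∑ j, h j (t i ^ n) * dq f (t j) ρ x = n * dq f (t i) ρ x := by
      have : ∀ j, h j (t i ^ n) * dq f (t j) ρ x
          = if i = j then n * dq f (t j) ρ x else 0 := by
        intro j
        rw [add_zpow_hom (hh j), ht i j]
        split_ifs <;> simp
      simp_rw [this]
      simp
    rw [h1]
    have h2 := hy i n hn1
    have h3 := hs i
    have hn3 : |(n:ℝ)| ≤ ρ2 := by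
      have : |(n:ℝ)| = ((|n| : ℤ) : ℝ) := by push_cast; rfl
      rw [this]; exact_mod_cast hn2
    have h4 : |(n:ℝ) * (dq f (t i) ρ y - dq f (t i) ρ x)| ≤ ρ2 * ω1 := by
      rw [abs_mul]; exact mul_le_mul hn3 h3 (abs_nonneg _) hρ2
    have h5 : f (y * t i ^ n) - f y - n * dq f (t i) ρ x =
      (f (y * t i ^ n) - f y - n * dq f (t i) ρ y) + n * (dq f (t i) ρ y - dq f (t i) ρ x) := by ring
    rw [h5]
    refine (abs_add_le _ _).trans ((add_le_add h2 h4).trans ?_)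
    nlinarith [mul_nonneg hρ2 hω1, mul_nonneg hL (by linarith : (0:ℝ) ≤ τ2 + 1)]
  · have h1 : ∑ j, h j v * dq f (t j) ρ x = 0 := by simp [h0]
    rw [h1, sub_zero]
    have h2 := hy i m hm1
    have h3 := hyv i m hm1
    have h4 := hf (y * t i ^ m) (t i ^ (-m) * v * t i ^ m)
    have e1 : y * t i ^ m * (t i ^ (-m) * v * t i ^ m) = y * v * t i ^ m := by group
    rw [e1] at h4
    have h5 := h4.trans (mul_le_mul_of_nonneg_left (add_le_add_left hm3 1) hL)
    have hm4 : |(m:ℝ)| ≤ ρ2 := by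
      have : |(m:ℝ)| = ((|m| : ℤ) : ℝ) := by push_cast; rfl
      rw [this]; exact_mod_cast hm2
    have h6 : |(m:ℝ) * (dq f (t i) ρ (y * v) - dq f (t i) ρ y)| ≤ ρ2 * (2 * ω1) := by
      rw [abs_mul]
      refine mul_le_mul hm4 ?_ (abs_nonneg _) hρ2
      have := hs i
      have := hsv i
      calc _ = |(dq f (t i) ρ (y * v) - dq f (t i) ρ x) - (dq f (t i) ρ y - dq f (t i) ρ x)| := by
            congr 1; ring
        _ ≤ _ := abs_sub _ _
        _ ≤ _ := by linarith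
    have e2 : f (y * v) - f y = (f (y * v * t i ^ m) - f (y * t i ^ m))
        - (f (y * v * t i ^ m) - f (y * v) - m * dq f (t i) ρ (y * v))
        + (f (y * t i ^ m) - f y - m * dq f (t i) ρ y)
        - m * (dq f (t i) ρ (y * v) - dq f (t i) ρ y) := by ring
    rw [e2]
    calc _ ≤ |f (y * v * t i ^ m) - f (y * t i ^ m)|
          + |f (y * v * t i ^ m) - f (y * v) - m * dq f (t i) ρ (y * v)|
          + |f (y * t i ^ m) - f y - m * dq f (t i) ρ y|
          + |m * (dq f (t i) ρ (y * v) - dq f (t i) ρ y)| := by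
            refine (abs_sub _ _).trans (add_le_add ((abs_add_le _ _).trans (add_le_add (abs_sub _ _) le_rfl)) le_rfl)
      _ ≤ L * (τ2 + 1) + e0 + e0 + ρ2 * (2 * ω1) := by gcongr
      _ ≤ _ := by linarith
  · have h1 : ∑ j, h j v * dq f (t j) ρ x = 0 := by simp [h0]
    rw [h1, sub_zero]
    refine (hN hvN).trans ?_
    nlinarith [mul_nonneg hρ2 hω1, mul_nonneg hL (by linarith : (0:ℝ) ≤ τ2 + 1)]
  · have h4 := (hf y v).trans (mul_le_mul_of_nonneg_left (add_le_add_left hv1 1) hL)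
    have h5 : |∑ i, h i v * dq f (t i) ρ x| ≤ Fintype.card ι * (τ2 * L1) := by
      refine (Finset.abs_sum_le_sum_abs _ _).trans ?_
      rw [← nsmul_eq_mul, ← Finset.card_univ, ← Finset.sum_const]
      refine Finset.sum_le_sum fun i _ => ?_
      rw [abs_mul]
      exact mul_le_mul (hv2 i) (hdq i) (abs_nonneg _) hτ2
    refine (abs_sub _ _).trans ((add_le_add h4 h5).trans ?_)
    nlinarith [mul_nonneg hρ2 hω1]

end RelSec

section RelMeas

variable {S : Type*} [Group S] [MeasurableSpace S] {μ : Measure S} {ι : Type*} [Fintype ι]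

/-- measure estimate for a chain of typed steps -/
lemma step_chain_meas [DecidableEq ι] {l : S → ℝ} {f : S → ℝ} {L L1 : ℝ} (hL : 0 ≤ L)
    (hL1 : 0 ≤ L1) (hf : ∀ x s, |f (x * s) - f x| ≤ L * (l s + 1)) {t : ι → S} {h : ι → S → ℝ}
    (hh : ∀ i x y, h i (x * y) = h i x + h i y) (ht : ∀ i j, h j (t i) = if i = j then 1 else 0)
    {ρ ρ2 : ℕ} {e0 ω1 τ2 τ3 : ℝ} (he0 : 0 ≤ e0) (hω1 : 0 ≤ ω1) (hτ2 : 0 ≤ τ2) (hτ3 : 0 ≤ τ3)
    {Nt : Set S} {D Gd : Set S} (hDf : μ D ≠ ∞)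
    (hGd : ∀ x ∈ Gd, ∀ i, Aff f (t i) ρ e0 x) (hdq : ∀ x i, |dq f (t i) ρ x| ≤ L1)
    {W : Set S} {η η1 ηN : ℝ} (hηN : 0 ≤ ηN)
    (hW : ∀ w ∈ W, μ.real {x ∈ D | x * w ∉ Gd} ≤ η)
    (hW1 : ∀ w ∈ W, μ.real {x ∈ D | ¬ ∀ i, |dq f (t i) ρ (x * w) - dq f (t i) ρ x| ≤ ω1} ≤ η1)
    (hWN : ∀ w ∈ W, ∀ v ∈ Nt, μ.real {x ∈ D | ¬ NFlat f τ3 x w v} ≤ ηN)
    (us : List S) (w : S) (hus : ∀ ws, ws <+: us → w * ws.prod ∈ W)
    (hty : ∀ v ∈ us, Typed l t h ρ ρ2 τ2 Nt v) :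
    μ.real {x ∈ D | ¬ |f (x * w * us.prod) - f (x * w) - ∑ i, h i us.prod * dq f (t i) ρ x|
        ≤ us.length * (2 * e0 + 2 * ρ2 * ω1 + L * (τ2 + 1) + τ3 + Fintype.card ι * (τ2 * L1))}
      ≤ us.length * (2 * η + 2 * η1 + ηN) := by
  have h1z : ∀ i, h i 1 = 0 := fun i => by have := hh i 1 1; simp at this; linarith
  set es := 2 * e0 + 2 * ρ2 * ω1 + L * (τ2 + 1) + τ3 + Fintype.card ι * (τ2 * L1) with hes
  induction us generalizing w with
  | nil => simp [h1z]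
  | cons v us ih =>
    have hw : w ∈ W := by simpa using hus [] (List.nil_prefix)
    have hwv : w * v ∈ W := by
      simpa using hus [v] (List.cons_prefix_cons.mpr ⟨rfl, List.nil_prefix⟩)
    have ih' := ih (w * v) (by
      intro ws hws
      have := hus (v :: ws) (List.cons_prefix_cons.mpr ⟨rfl, hws⟩)
      simpa [mul_assoc] using this) (fun v hv => hty v (List.mem_cons_of_mem _ hv))
    have hvt := hty v (List.mem_cons_self ..)
    -- bad step
    have hbad : μ.real {x ∈ D | ¬ |f (x * w * v) - f (x * w) - ∑ i, h i v * dq f (t i) ρ x| ≤ es}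
        ≤ 2 * η + 2 * η1 + ηN := by
      by_cases hvN : v ∈ Nt
      · have hsub : {x ∈ D | ¬ |f (x * w * v) - f (x * w) - ∑ i, h i v * dq f (t i) ρ x| ≤ es} ⊆
          ((({x ∈ D | x * w ∉ Gd} ∪ {x ∈ D | x * (w * v) ∉ Gd}) ∪
          {x ∈ D | ¬ ∀ i, |dq f (t i) ρ (x * w) - dq f (t i) ρ x| ≤ ω1}) ∪
          {x ∈ D | ¬ ∀ i, |dq f (t i) ρ (x * (w * v)) - dq f (t i) ρ x| ≤ ω1}) ∪
          {x ∈ D | ¬ NFlat f τ3 x w v} := by
          rintro x ⟨hx, hxb⟩
          by_contra hcon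
          simp only [Set.mem_union, Set.mem_ofPred_eq, not_or, not_and, not_not] at hcon
          obtain ⟨⟨⟨⟨c1, c2⟩, c3⟩, c4⟩, c5⟩ := hcon
          apply hxb
          refine step_pt hL hL1 hf hh ht he0 hω1 hτ2 hτ3 hvt (hdq x) (hGd _ (c1 hx)) ?_ (c3 hx) ?_
            (fun _ => c5 hx)
          · rw [mul_assoc]; exact hGd _ (c2 hx)
          · rw [mul_assoc]; exact c4 hx
        refine (measureReal_mono hsub (ne_top_of_le_ne_top hDf (measure_mono ?_))).trans ?_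
        · rintro x ((((h | h) | h) | h) | h) <;> exact h.1
        · refine (measureReal_union_le _ _).trans ?_
          refine (add_le_add (measureReal_union_le _ _) (hWN w hw v hvN)).trans ?_
          refine (add_le_add (add_le_add (measureReal_union_le _ _) (hW1 _ hwv)) le_rfl).trans ?_
          refine (add_le_add (add_le_add (add_le_add (measureReal_union_le _ _) (hW1 _ hw)) le_rfl)
            le_rfl).trans ?_
          have := hW w hw
          have := hW _ hwv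
          linarith
      · have hsub : {x ∈ D | ¬ |f (x * w * v) - f (x * w) - ∑ i, h i v * dq f (t i) ρ x| ≤ es} ⊆
          ((({x ∈ D | x * w ∉ Gd} ∪ {x ∈ D | x * (w * v) ∉ Gd}) ∪
          {x ∈ D | ¬ ∀ i, |dq f (t i) ρ (x * w) - dq f (t i) ρ x| ≤ ω1}) ∪
          {x ∈ D | ¬ ∀ i, |dq f (t i) ρ (x * (w * v)) - dq f (t i) ρ x| ≤ ω1}) := by
          rintro x ⟨hx, hxb⟩
          by_contra hcon
          simp only [Set.mem_union, Set.mem_ofPred_eq, not_or, not_and, not_not] at hcon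
          obtain ⟨⟨⟨c1, c2⟩, c3⟩, c4⟩ := hcon
          apply hxb
          refine step_pt hL hL1 hf hh ht he0 hω1 hτ2 hτ3 hvt (hdq x) (hGd _ (c1 hx)) ?_ (c3 hx) ?_
            (fun h => absurd h hvN)
          · rw [mul_assoc]; exact hGd _ (c2 hx)
          · rw [mul_assoc]; exact c4 hx
        refine (measureReal_mono hsub (ne_top_of_le_ne_top hDf (measure_mono ?_))).trans ?_
        · rintro x (((h | h) | h) | h) <;> exact h.1
        · refine (measureReal_union_le _ _).trans ?_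
          refine (add_le_add (measureReal_union_le _ _) (hW1 _ hwv)).trans ?_
          refine (add_le_add (add_le_add (measureReal_union_le _ _) (hW1 _ hw)) le_rfl).trans ?_
          have := hW w hw
          have := hW _ hwv
          linarith
    have hsub : {x ∈ D | ¬ |f (x * w * (v :: us).prod) - f (x * w)
          - ∑ i, h i (v :: us).prod * dq f (t i) ρ x| ≤ (v :: us).length * es} ⊆
        {x ∈ D | ¬ |f (x * w * v) - f (x * w) - ∑ i, h i v * dq f (t i) ρ x| ≤ es} ∪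
        {x ∈ D | ¬ |f (x * (w * v) * us.prod) - f (x * (w * v))
          - ∑ i, h i us.prod * dq f (t i) ρ x| ≤ us.length * es} := by
      rintro x ⟨hx, hxb⟩
      by_contra hcon
      simp only [Set.mem_union, Set.mem_ofPred_eq, not_or, not_and, not_not] at hcon
      obtain ⟨c1, c2⟩ := hcon
      apply hxb
      have c1' := c1 hx
      have c2' := c2 hx
      rw [List.prod_cons, List.length_cons]
      push_cast
      have e1 : x * w * (v * us.prod) = x * (w * v) * us.prod := by group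
      have e2 : ∑ i, h i (v * us.prod) * dq f (t i) ρ x
          = ∑ i, h i v * dq f (t i) ρ x + ∑ i, h i us.prod * dq f (t i) ρ x := by
        rw [← Finset.sum_add_distrib]
        exact Finset.sum_congr rfl fun i _ => by rw [hh]; ring
      rw [e1, e2]
      rw [mul_assoc x w v] at c1'
      calc _ = |(f (x * (w * v)) - f (x * w) - ∑ i, h i v * dq f (t i) ρ x)
            + (f (x * (w * v) * us.prod) - f (x * (w * v)) - ∑ i, h i us.prod * dq f (t i) ρ x)| := by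
            congr 1; ring
        _ ≤ _ := abs_add_le _ _
        _ ≤ _ := add_le_add c1' c2'
        _ = _ := by ring
    refine (measureReal_mono hsub (ne_top_of_le_ne_top hDf (measure_mono ?_))).trans ?_
    · rintro x (h | h) <;> exact h.1
    · refine (measureReal_union_le _ _).trans ((add_le_add hbad ih').trans ?_)
      rw [List.length_cons]
      push_cast
      linarith

end RelMeas

end P188.H882

end

section

/-!
# LIN in pointwise form
-/

open MeasureTheory Set Finset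
open scoped ENNReal BigOperators

namespace P188.H882

section A

variable {S : Type*} [Group S] [MeasurableSpace S] {μ : Measure S} {ι : Type*} [Fintype ι]

omit [MeasurableSpace S] in
lemma len_list {l : S → ℝ} (l1 : l 1 ≤ 0) (hl0 : ∀ x, 0 ≤ l x) (hl : ∀ x y, l (x * y) ≤ l x + l y)
    {r : ℝ} {us ws : List S} (hus : ∀ v ∈ us, l v ≤ r) (hws : ws <+: us) :
    l ws.prod ≤ us.length * r := by
  obtain ⟨zs, rfl⟩ := hws
  have h1 : ∀ ws : List S, (∀ v ∈ ws, l v ≤ r) → l ws.prod ≤ ws.length * r := by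
    intro ws
    induction ws with
    | nil => intro _; simpa using l1
    | cons v ws ih =>
      intro h
      rw [List.prod_cons, List.length_cons]
      push_cast
      have := ih fun w hw => h w (List.mem_cons_of_mem _ hw)
      have := h v (List.mem_cons_self ..)
      have := hl v ws.prod
      linarith
  have h2 := h1 ws fun v hv => hus v (List.mem_append_left _ hv)
  refine h2.trans ?_
  rw [List.length_append]
  push_cast
  rcases zs with _ | ⟨z, zs⟩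
  · simp
  · have hr : 0 ≤ r := (hl0 z).trans (hus z (by simp))
    have : (0:ℝ) ≤ (z :: zs).length := by positivity
    nlinarith

/-- **Measure form of LIN**: for every short `u`, most `x` satisfy `Rel x (x u)`. -/
theorem rel_meas [DecidableEq ι] {l : S → ℝ} (l1 : l 1 ≤ 0) (hl0 : ∀ x, 0 ≤ l x)
    (hl : ∀ x y, l (x * y) ≤ l x + l y) {f : S → ℝ} {L L1 : ℝ} (hL : 0 ≤ L) (hL1 : 0 ≤ L1)
    (hf : ∀ x s, |f (x * s) - f x| ≤ L * (l s + 1)) {t : ι → S} {h : ι → S → ℝ}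
    (hh : ∀ i x y, h i (x * y) = h i x + h i y) (ht : ∀ i j, h j (t i) = if i = j then 1 else 0)
    (hmp : ∀ w : S, MeasurePreserving (fun x : S => x * w) μ μ)
    {ρ ρ2 c : ℕ} (hρ : 2 ≤ ρ) {e0 τ τ2 τ3 lt : ℝ} (he0 : 0 ≤ e0) (hτ : 0 ≤ τ) (hτ2 : 0 ≤ τ2)
    (hτ3 : 0 ≤ τ3) (hlt0 : 0 ≤ lt) (hlt : ∀ i (m : ℤ), l (t i ^ m) ≤ |m| * lt)
    {Nt D Gd : Set S} (hDf : μ D ≠ ∞) (hGD : Gd ⊆ D)
    (hGd : ∀ x ∈ Gd, ∀ i, Aff f (t i) ρ e0 x) (hdq : ∀ x i, |dq f (t i) ρ x| ≤ L1)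
    {ε0 δ θ : ℝ} (hε0 : 0 ≤ ε0) (hδ : 0 ≤ δ) (hθ : 0 ≤ θ)
    (hGm : μ.real (D \ Gd) ≤ ε0) {r0 r1 r1' r2 r3 : ℝ} (h13 : c * r1' + ρ * lt + τ ≤ r3)
    (h12 : c * r1 ≤ r2) (h23 : r2 ≤ r3) (h02 : r0 ≤ r2)
    (hFol : ∀ w, l w ≤ r3 → μ.real {x ∈ D | x * w ∉ D} ≤ δ)
    (dec1 : ∀ i u, l u ≤ r2 → ∃ us : List S, us.length ≤ c ∧ us.prod = u ∧
      ∀ v ∈ us, l v ≤ r1' ∧ Mrg l Nt (t i) ρ τ v)
    (dec2 : ∀ u, l u ≤ r0 → ∃ us : List S, us.length ≤ c ∧ us.prod = u ∧
      ∀ v ∈ us, l v ≤ r1 ∧ Typed l t h ρ ρ2 τ2 Nt v)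
    (hr1 : 0 ≤ r1) (hr1' : 0 ≤ r1')
    (hNt : ∀ v ∈ Nt, μ.real {x ∈ D | ¬ |f (x * v) - f x| ≤ τ3} ≤ θ)
    {ω : ℝ} (hω : ω = c * (3 * (4 * e0 + 2 * L * (τ + 1) + 2 * τ3) / ρ))
    (u : S) (hu : l u ≤ r0) :
    μ.real {x ∈ D | ¬ Rel f t h ρ (c * (2 * e0 + 2 * ρ2 * ω + L * (τ2 + 1) + τ3
        + Fintype.card ι * (τ2 * L1))) ω x (x * u)} ≤
      8 * (c + 1) ^ 2 * (Fintype.card ι + 1) * (ε0 + δ + θ) := by
  have hρ0 : (0:ℝ) < ρ := by positivity
  have hω0 : 0 ≤ ω := by rw [hω]; positivity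
  set η : ℝ := δ + ε0 with hη
  have hη0 : 0 ≤ η := by positivity
  set ηN : ℝ := δ + θ with hηN
  have hηN0 : 0 ≤ ηN := by positivity
  set k : ℝ := (Fintype.card ι : ℝ) with hk
  have hk0 : 0 ≤ k := by positivity
  set η1 : ℝ := k * (c * (2 * η + 2 * ηN)) with hη1
  have hη10 : 0 ≤ η1 := by positivity
  -- translates of the good set
  have hW : ∀ w, l w ≤ r3 → μ.real {x ∈ D | x * w ∉ Gd} ≤ η := fun w hw =>
    shift_meas' hDf hGD (hmp w) hGm (hFol w hw)
  -- neutral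
  have hWN : ∀ w, l w ≤ r3 → ∀ v ∈ Nt, μ.real {x ∈ D | ¬ NFlat f τ3 x w v} ≤ ηN := by
    intro w hw v hv
    have h1 := shift_meas' (A := {x ∈ D | |f (x * v) - f x| ≤ τ3}) hDf (Set.sep_subset _ _) (hmp w)
      (a := θ) (δ := δ) (by
        refine le_trans (le_of_eq ?_) (hNt v hv)
        congr 1
        ext x
        simp only [Set.mem_sdiff, Set.mem_ofPred_eq, not_and]
        exact ⟨fun h => ⟨h.1, h.2 h.1⟩, fun h => ⟨h.1, fun _ => h.2⟩⟩) (hFol w hw)
    refine (measureReal_mono ?_ (ne_top_of_le_ne_top hDf (measure_mono (Set.sep_subset _ _)))).trans h1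
    rintro x ⟨hx, hxb⟩
    exact ⟨hx, fun hc => hxb hc.2⟩
  -- slopes
  have hW1 : ∀ w, l w ≤ r2 →
      μ.real {x ∈ D | ¬ ∀ i, |dq f (t i) ρ (x * w) - dq f (t i) ρ x| ≤ ω} ≤ η1 := by
    intro w hw
    have h1 : ∀ i, μ.real {x ∈ D | ¬ |dq f (t i) ρ (x * w) - dq f (t i) ρ x| ≤ ω}
        ≤ c * (2 * η + 2 * ηN) := by
      intro i
      obtain ⟨us, hlen, hprod, hus⟩ := dec1 i w hw
      have hlenR : (us.length : ℝ) ≤ c := by exact_mod_cast hlen
      have h2 := slope_chain_meas (W := {w | l w ≤ r3}) hL hf hρ hDf (fun x hx => hGd x hx i)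
        (fun w hw => hW w hw) (fun w hw => hWN w hw) us (fun v hv => (hus v hv).2) 1 (by
        intro ws hws
        rw [one_mul]
        have h3 := (len_list l1 hl0 hl (fun v hv => (hus v hv).1) hws)
        have h3' : (us.length : ℝ) * r1' ≤ c * r1' := mul_le_mul_of_nonneg_right hlenR hr1'
        have hρlt : 0 ≤ (ρ:ℝ) * lt := by positivity
        refine ⟨?_, ?_⟩
        · show l ws.prod ≤ r3
          linarith
        · intro m hm a ha
          show l (ws.prod * t i ^ m * a) ≤ r3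
          have h4 := hl (ws.prod * t i ^ m) a
          have h5 := hl ws.prod (t i ^ m)
          have h6 := hlt i m
          have h7 : ((|m| : ℤ) : ℝ) * lt ≤ ρ * lt := by
            refine mul_le_mul_of_nonneg_right ?_ hlt0
            exact_mod_cast hm
          linarith)
      have hsub : {x ∈ D | ¬ |dq f (t i) ρ (x * w) - dq f (t i) ρ x| ≤ ω} ⊆
          {x ∈ D | ¬ |dq f (t i) ρ (x * 1 * us.prod) - dq f (t i) ρ (x * 1)|
            ≤ us.length * (3 * (4 * e0 + 2 * L * (τ + 1) + 2 * τ3) / ρ)} := by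
        rintro x ⟨hx, hxb⟩
        refine ⟨hx, fun hch => hxb ?_⟩
        rw [mul_one, hprod] at hch
        refine hch.trans ?_
        rw [hω]
        exact mul_le_mul_of_nonneg_right hlenR (by positivity)
      refine (measureReal_mono hsub (ne_top_of_le_ne_top hDf (measure_mono (Set.sep_subset _ _)))).trans
        (h2.trans ?_)
      exact mul_le_mul_of_nonneg_right hlenR (by positivity)
    have hsub : {x ∈ D | ¬ ∀ i, |dq f (t i) ρ (x * w) - dq f (t i) ρ x| ≤ ω} ⊆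
        ⋃ i ∈ (Finset.univ : Finset ι), {x ∈ D | ¬ |dq f (t i) ρ (x * w) - dq f (t i) ρ x| ≤ ω} := by
      rintro x ⟨hx, hxb⟩
      push Not at hxb
      obtain ⟨i, hi⟩ := hxb
      simp only [Finset.mem_univ, Set.iUnion_true, Set.mem_iUnion]
      exact ⟨i, hx, not_le.mpr hi⟩
    refine (measureReal_mono hsub (ne_top_of_le_ne_top hDf (measure_mono ?_))).trans ?_
    · intro x hx
      simp only [Finset.mem_univ, Set.iUnion_true, Set.mem_iUnion] at hx
      obtain ⟨i, hi⟩ := hx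
      exact hi.1
    · refine (measureReal_biUnion_finset_le _ _).trans ?_
      refine (Finset.sum_le_sum fun i _ => h1 i).trans ?_
      rw [Finset.sum_const, nsmul_eq_mul, Finset.card_univ, hη1, hk]
  obtain ⟨us, hlen, hprod, hus⟩ := dec2 u hu
  have hlenR : (us.length : ℝ) ≤ c := by exact_mod_cast hlen
  have h2 := step_chain_meas (μ := μ) (W := {w | l w ≤ r2}) (ρ := ρ) (ρ2 := ρ2) (η := η) (η1 := η1)
    (ηN := ηN) hL hL1 hf hh ht he0 hω0 hτ2 hτ3 hDf hGd hdq (by positivity)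
    (fun w hw => hW w (le_trans (show l w ≤ r2 from hw) h23)) (fun w hw => hW1 w hw)
    (fun w hw => hWN w (le_trans (show l w ≤ r2 from hw) h23)) us 1 (by
        intro ws hws
        rw [one_mul]
        refine (len_list l1 hl0 hl (fun v hv => (hus v hv).1) hws).trans (le_trans ?_ h12)
        exact mul_le_mul_of_nonneg_right hlenR hr1) (fun v hv => (hus v hv).2)
  have h3 := hW1 u (hu.trans h02)
  set es := 2 * e0 + 2 * ρ2 * ω + L * (τ2 + 1) + τ3 + Fintype.card ι * (τ2 * L1) with hes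
  have hes0 : 0 ≤ es := by positivity
  have hsub : {x ∈ D | ¬ Rel f t h ρ (c * es) ω x (x * u)} ⊆
      {x ∈ D | ¬ |f (x * 1 * us.prod) - f (x * 1) - ∑ i, h i us.prod * dq f (t i) ρ x|
        ≤ us.length * es} ∪
      {x ∈ D | ¬ ∀ i, |dq f (t i) ρ (x * u) - dq f (t i) ρ x| ≤ ω} := by
    rintro x ⟨hx, hxb⟩
    by_contra hcon
    simp only [Set.mem_union, Set.mem_ofPred_eq, not_or, not_and, not_not] at hcon
    obtain ⟨c1, c2⟩ := hcon
    apply hxb
    refine ⟨?_, c2 hx⟩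
    have c1' := c1 hx
    rw [mul_one, hprod] at c1'
    have e1 : x⁻¹ * (x * u) = u := by group
    rw [e1]
    exact c1'.trans (mul_le_mul_of_nonneg_right hlenR hes0)
  refine (measureReal_mono hsub (ne_top_of_le_ne_top hDf (measure_mono ?_))).trans ?_
  · rintro x (h | h) <;> exact h.1
  · refine (measureReal_union_le _ _).trans ((add_le_add h2 h3).trans ?_)
    have h4 : (us.length : ℝ) * (2 * η + 2 * η1 + ηN) ≤ c * (2 * η + 2 * η1 + ηN) :=
      mul_le_mul_of_nonneg_right hlenR (by positivity)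
    have hc0 : (0:ℝ) ≤ c := by positivity
    set X := ε0 + δ + θ with hX
    have hX0 : 0 ≤ X := by positivity
    have hηX : η ≤ X := by rw [hη, hX]; linarith
    have hNX : ηN ≤ X := by rw [hηN, hX]; linarith
    have h1X : η1 ≤ k * (c * (4 * X)) := by
      rw [hη1]
      have : 2 * η + 2 * ηN ≤ 4 * X := by linarith
      gcongr
    calc _ ≤ c * (2 * η + 2 * η1 + ηN) + η1 := by linarith
      _ ≤ c * (2 * X + 2 * (k * (c * (4 * X))) + X) + k * (c * (4 * X)) := by gcongr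
      _ = (3 * c + (8 * c * c + 4 * c) * k) * X := by ring
      _ ≤ (8 * (c + 1) ^ 2 * (k + 1)) * X := by
          refine mul_le_mul_of_nonneg_right ?_ hX0
          nlinarith [mul_nonneg hc0 hk0, mul_nonneg (mul_nonneg hc0 hc0) hk0]
      _ = _ := by ring

end A

section B

variable {S : Type*} [Group S] [MeasurableSpace S] [MeasurableMul₂ S] [MeasurableInv S]
  {μ : Measure S} {ι : Type*} [Fintype ι]

lemma measurableSet_rel {f : S → ℝ} (hf : Measurable f) {t : ι → S} {h : ι → S → ℝ}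
    (hh : ∀ i, Measurable (h i)) {ρ : ℕ} {e ω : ℝ} :
    MeasurableSet {p : S × S | Rel f t h ρ e ω p.1 p.2} := by
  have hd : ∀ i, Measurable (dq f (t i) ρ) := fun i => measurable_dq hf (measurable_mul_const _)
  have h1 : MeasurableSet {p : S × S |
      |f p.2 - f p.1 - ∑ i, h i (p.1⁻¹ * p.2) * dq f (t i) ρ p.1| ≤ e} := by
    refine measurableSet_le ?_ measurable_const
    refine Measurable.abs ?_
    refine ((hf.comp measurable_snd).sub (hf.comp measurable_fst)).sub ?_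
    refine Finset.measurable_sum _ fun i _ => ?_
    exact ((hh i).comp (measurable_fst.inv.mul measurable_snd)).mul ((hd i).comp measurable_fst)
  have h2 : MeasurableSet (⋂ i, {p : S × S | |dq f (t i) ρ p.2 - dq f (t i) ρ p.1| ≤ ω}) := by
    refine MeasurableSet.iInter fun i => measurableSet_le ?_ measurable_const
    exact (((hd i).comp measurable_snd).sub ((hd i).comp measurable_fst)).abs
  convert h1.inter h2 using 1
  ext p
  simp [Rel]

/-- **Pointwise form**: two nice points that are close share a common partner. -/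
theorem nice_pts [SFinite μ] (hmp : ∀ w : S, MeasurePreserving (fun x : S => x * w) μ μ)
    {R : S → S → Prop} (hR : MeasurableSet {p : S × S | R p.1 p.2})
    {D Q : Set S} (hD : MeasurableSet D) (hQ : MeasurableSet Q) (hDf : μ D ≠ ∞) (hQf : μ Q ≠ ∞)
    (hQ0 : μ Q ≠ 0) {ε : ℝ} (hε : 0 ≤ ε)
    (hrel : ∀ q ∈ Q, μ.real {x ∈ D | ¬ R x (x * q⁻¹)} ≤ ε) :
    ∃ D0 ⊆ D, MeasurableSet D0 ∧ μ.real (D \ D0) ≤ 4 * ε ∧
      ∀ x ∈ D0, ∀ x' ∈ D0, μ.real {q ∈ Q | q * (x⁻¹ * x') ∉ Q} ≤ μ.real Q / 4 →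
        ∃ q ∈ Q, q * (x⁻¹ * x') ∈ Q ∧ R x (x * q⁻¹) ∧ R x' (x * q⁻¹) := by
  have hmapm : Measurable (fun p : S × S => (p.1, p.1 * p.2⁻¹)) :=
    measurable_fst.prodMk (measurable_fst.mul measurable_snd.inv)
  set T : Set (S × S) := {p | (p.1 ∈ D ∧ p.2 ∈ Q) ∧ ¬ R p.1 (p.1 * p.2⁻¹)} with hT
  have hTm : MeasurableSet T := by
    refine MeasurableSet.inter ?_ ?_
    · exact (measurable_fst hD).inter (measurable_snd hQ)
    · exact (hmapm hR).compl
  have hQr : 0 < μ.real Q := ENNReal.toReal_pos hQ0 hQf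
  set N : S → ℝ≥0∞ := fun x => μ (Prod.mk x ⁻¹' T) with hN
  have hNm : Measurable N := measurable_measure_prodMk_left hTm
  have hint : ∫⁻ x, N x ∂μ ≤ ENNReal.ofReal ε * μ Q := by
    rw [hN, ← Measure.prod_apply hTm, Measure.prod_apply_symm hTm]
    have h1 : ∀ q, μ ((fun x => (x, q)) ⁻¹' T) ≤ Q.indicator (fun _ => ENNReal.ofReal ε) q := by
      intro q
      by_cases hq : q ∈ Q
      · rw [Set.indicator_of_mem hq]
        have h2 := hrel q hq
        have h3 : (fun x => (x, q)) ⁻¹' T = {x ∈ D | ¬ R x (x * q⁻¹)} := by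
          ext x; simp [hT, hq]
        rw [h3]
        have h4 : μ {x ∈ D | ¬ R x (x * q⁻¹)} ≠ ∞ :=
          ne_top_of_le_ne_top hDf (measure_mono (Set.sep_subset _ _))
        rw [← ENNReal.ofReal_toReal h4]
        exact ENNReal.ofReal_le_ofReal h2
      · rw [Set.indicator_of_notMem hq]
        have h3 : (fun x => (x, q)) ⁻¹' T = ∅ := by
          ext x; simp [hT, hq]
        rw [h3]; simp
    calc _ ≤ ∫⁻ q, Q.indicator (fun _ => ENNReal.ofReal ε) q ∂μ := lintegral_mono h1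
      _ = _ := by rw [lintegral_indicator hQ, lintegral_const, Measure.restrict_apply_univ]
  set c0 : ℝ≥0∞ := ENNReal.ofReal (μ.real Q / 4) with hc0
  have hc00 : c0 ≠ 0 := by
    rw [hc0]; simp only [ne_eq, ENNReal.ofReal_eq_zero, not_le]; positivity
  refine ⟨{x ∈ D | N x ≤ c0}, Set.sep_subset _ _, hD.inter (measurableSet_le hNm measurable_const),
    ?_, ?_⟩
  · have h1 : μ (D \ {x ∈ D | N x ≤ c0}) * c0 ≤ ENNReal.ofReal ε * μ Q := by
      refine le_trans ?_ hint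
      rw [mul_comm]
      refine le_trans ?_ (mul_meas_ge_le_lintegral hNm c0)
      refine mul_le_mul_right (measure_mono ?_) c0
      intro x hx
      have : ¬ (N x ≤ c0) := fun h => hx.2 ⟨hx.1, h⟩
      exact (not_le.mp this).le
    have h2 : (μ (D \ {x ∈ D | N x ≤ c0}) * c0).toReal ≤ (ENNReal.ofReal ε * μ Q).toReal :=
      ENNReal.toReal_mono (ENNReal.mul_ne_top ENNReal.ofReal_ne_top hQf) h1
    rw [ENNReal.toReal_mul, ENNReal.toReal_mul, ENNReal.toReal_ofReal hε, hc0,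
      ENNReal.toReal_ofReal (by positivity)] at h2
    change μ.real (D \ {x ∈ D | N x ≤ c0}) * (μ.real Q / 4) ≤ ε * μ.real Q at h2
    have h3 : μ.real (D \ {x ∈ D | N x ≤ c0}) * μ.real Q ≤ (4 * ε) * μ.real Q := by linarith
    exact le_of_mul_le_mul_right h3 hQr
  · rintro x ⟨hx, hNx⟩ x' ⟨hx', hNx'⟩ hv
    set v := x⁻¹ * x' with hv'
    have hbd : ∀ y ∈ D, N y ≤ c0 → μ.real {q ∈ Q | ¬ R y (y * q⁻¹)} ≤ μ.real Q / 4 := by
      intro y hy hNy
      have h3 : Prod.mk y ⁻¹' T = {q ∈ Q | ¬ R y (y * q⁻¹)} := by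
        ext q; simp [hT, hy]
      have h4 : N y = μ {q ∈ Q | ¬ R y (y * q⁻¹)} := by rw [hN]; simp only [h3]
      have h5 := ENNReal.toReal_mono ENNReal.ofReal_ne_top hNy
      rw [ENNReal.toReal_ofReal (by positivity), h4] at h5
      exact h5
    have hb1 := hbd x hx hNx
    have hb2 := hbd x' hx' hNx'
    have hb3 : μ.real {q ∈ Q | q * v ∈ {q ∈ Q | ¬ R x' (x' * q⁻¹)}} ≤ μ.real Q / 4 :=
      (shift_meas hQf (Set.sep_subset _ _) (hmp v)).trans hb2
    by_contra hcon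
    push Not at hcon
    have hsub : Q ⊆ ({q ∈ Q | ¬ R x (x * q⁻¹)} ∪ {q ∈ Q | q * v ∉ Q}) ∪
        {q ∈ Q | q * v ∈ {q ∈ Q | ¬ R x' (x' * q⁻¹)}} := by
      intro q hq
      by_cases h1 : R x (x * q⁻¹)
      · by_cases h2 : q * v ∈ Q
        · right
          refine ⟨hq, h2, ?_⟩
          have h3 := hcon q hq h2 h1
          have e1 : x' * (q * v)⁻¹ = x * q⁻¹ := by rw [hv']; group
          rw [e1]; exact h3
        · left; right; exact ⟨hq, h2⟩
      · left; left; exact ⟨hq, h1⟩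
    have hfin : μ (({q ∈ Q | ¬ R x (x * q⁻¹)} ∪ {q ∈ Q | q * v ∉ Q}) ∪
        {q ∈ Q | q * v ∈ {q ∈ Q | ¬ R x' (x' * q⁻¹)}}) ≠ ∞ := by
      refine ne_top_of_le_ne_top hQf (measure_mono ?_)
      rintro q ((h | h) | h) <;> exact h.1
    have h5 := measureReal_mono hsub hfin
    have h6 := measureReal_union_le (μ := μ) ({q ∈ Q | ¬ R x (x * q⁻¹)} ∪ {q ∈ Q | q * v ∉ Q})
      {q ∈ Q | q * v ∈ {q ∈ Q | ¬ R x' (x' * q⁻¹)}}
    have h7 := measureReal_union_le (μ := μ) {q ∈ Q | ¬ R x (x * q⁻¹)} {q ∈ Q | q * v ∉ Q}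
    linarith

omit [MeasurableSpace S] [MeasurableMul₂ S] [MeasurableInv S] in
/-- from a common partner to the relation between two nice points -/
lemma rel_of_common {f : S → ℝ} {t : ι → S} {h : ι → S → ℝ}
    (hh : ∀ i x y, h i (x * y) = h i x + h i y) {ρ : ℕ} {e ω H : ℝ} {x x' q : S}
    (h1 : Rel f t h ρ e ω x (x * q⁻¹)) (h2 : Rel f t h ρ e ω x' (x * q⁻¹))
    (hH : ∀ i, |h i (q * (x⁻¹ * x'))| ≤ H) :
    Rel f t h ρ (2 * e + Fintype.card ι * (2 * ω * H)) (2 * ω) x x' := by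
  have h1z : ∀ i, h i 1 = 0 := fun i => by have := hh i 1 1; simp at this; linarith
  have hinv : ∀ i s, h i s⁻¹ = - h i s := fun i s => by
    have := hh i s s⁻¹; rw [mul_inv_cancel, h1z] at this; linarith
  have hsl : ∀ i, |dq f (t i) ρ x' - dq f (t i) ρ x| ≤ 2 * ω := by
    intro i
    have a1 := h1.2 i
    have a2 := h2.2 i
    calc _ = |(dq f (t i) ρ (x * q⁻¹) - dq f (t i) ρ x) - (dq f (t i) ρ (x * q⁻¹) - dq f (t i) ρ x')| := by
          congr 1; ring
      _ ≤ _ := abs_sub _ _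
      _ ≤ _ := by linarith
  refine ⟨?_, hsl⟩
  have a1 := h1.1
  have a2 := h2.1
  have e1 : x⁻¹ * (x * q⁻¹) = q⁻¹ := by group
  have e2 : x'⁻¹ * (x * q⁻¹) = (q * (x⁻¹ * x'))⁻¹ := by group
  rw [e1] at a1
  rw [e2] at a2
  have key : f x' - f x - ∑ i, h i (x⁻¹ * x') * dq f (t i) ρ x =
      (f (x * q⁻¹) - f x - ∑ i, h i q⁻¹ * dq f (t i) ρ x)
      - (f (x * q⁻¹) - f x' - ∑ i, h i (q * (x⁻¹ * x'))⁻¹ * dq f (t i) ρ x')
      + ∑ i, h i (q * (x⁻¹ * x')) * (dq f (t i) ρ x' - dq f (t i) ρ x) := by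
    have e3 : ∑ i, h i (x⁻¹ * x') * dq f (t i) ρ x = ∑ i, h i q⁻¹ * dq f (t i) ρ x
        - ∑ i, h i (q * (x⁻¹ * x'))⁻¹ * dq f (t i) ρ x'
        - ∑ i, h i (q * (x⁻¹ * x')) * (dq f (t i) ρ x' - dq f (t i) ρ x) := by
      rw [← Finset.sum_sub_distrib, ← Finset.sum_sub_distrib]
      refine Finset.sum_congr rfl fun i _ => ?_
      rw [hinv, hinv, hh i q]
      ring
    rw [e3]; ring
  rw [key]
  have a3 : |∑ i, h i (q * (x⁻¹ * x')) * (dq f (t i) ρ x' - dq f (t i) ρ x)|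
      ≤ Fintype.card ι * (2 * ω * H) := by
    refine (Finset.abs_sum_le_sum_abs _ _).trans ?_
    rw [← nsmul_eq_mul, ← Finset.card_univ, ← Finset.sum_const]
    refine Finset.sum_le_sum fun i _ => ?_
    rw [abs_mul, mul_comm]
    have : 0 ≤ 2 * ω := (abs_nonneg _).trans (hsl i)
    exact mul_le_mul (hsl i) (hH i) (abs_nonneg _) this
  calc _ ≤ _ := (abs_add_le _ _).trans (add_le_add (abs_sub _ _) a3)
    _ ≤ _ := by linarith

end B

end P188.H882

end
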