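import Vale.Agent.P188.R.G001
import Vale.Agent.P188.R.G011

section

/-!
Uniform acyclicity passes from the kernel of a surjection onto `ℤ` to the group
(Mayer-Vietoris argument in slabs), hence holds for poly-`ℤ` groups.
-/

universe u v w

namespace Vale.Agent.P188

open Finsupp Pointwise

variable {G : Type u} [Group G] (φ : G →* Multiplicative ℤ)

/-- The height of an element. -/
def ht (x : G) : ℤ := Multiplicative.toAdd (φ x)

lemma ht_mul (x y : G) : ht φ (x * y) = ht φ x + ht φ y := by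
  simp [ht]

lemma ht_inv (x : G) : ht φ x⁻¹ = - ht φ x := by
  simp [ht]

lemma ht_zpow {t : G} (h : ht φ t = 1) (n : ℤ) : ht φ (t ^ n) = n := by
  have : ht φ t = Multiplicative.toAdd (φ t) := rfl
  rw [h] at this
  simp [ht, ← this]

lemma mem_ker_iff_ht (x : G) : x ∈ φ.ker ↔ ht φ x = 0 := by
  rw [MonoidHom.mem_ker, ht]
  constructor
  · intro h; simp [h]
  · intro h; exact Multiplicative.toAdd.injective (by simpa using h)

/-- Lists whose entries have height at distance at most `r` of `i`. -/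
def Ht (i r : ℤ) : Set (List G) := {l | ∀ x ∈ l, |ht φ x - i| ≤ r}

lemma slab_UA_zero {t : G} (ht1 : ht φ t = 1) (hN : UA φ.ker) (q : ℕ) (A : Set G)
    (hA : A.Finite) (r : ℕ) : ∃ B : Set G, B.Finite ∧
      ∀ u ∈ Sp ((Ctl A ∩ Gr q) ∩ Ht φ 0 r), bd u = 0 →
        ∃ w ∈ Sp ((Ctl B ∩ Gr (q + 1)) ∩ Ht φ 0 r), bd w = u := by
  have hmem : ∀ x : G, x * t ^ (- ht φ x) ∈ φ.ker := by
    intro x
    rw [mem_ker_iff_ht, ht_mul, ht_zpow φ ht1]
    ring
  let f : G → G := fun x => x * t ^ (- ht φ x)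
  let fN : G → φ.ker := fun x => ⟨x * t ^ (- ht φ x), hmem x⟩
  let T : Set G := (fun a : ℤ => t ^ a) '' (Set.Icc (-(r : ℤ)) r)
  have hT : T.Finite := (Set.finite_Icc _ _).image _
  let A' : Set φ.ker := Subtype.val ⁻¹' (T * A * T)
  have hA' : A'.Finite :=
    Set.Finite.preimage (Subtype.val_injective.injOn) ((hT.mul hA).mul hT)
  obtain ⟨B', hB', h'⟩ := hN q A' hA'
  refine ⟨(Subtype.val '' B') ∪ prCtl A T, (hB'.image _).union (prCtl_finite hA hT), ?_⟩
  intro u hu hbd
  obtain ⟨w, hw, hbw⟩ := h' (pf fN u) (by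
    apply pf_mem _ hu
    rintro l ⟨⟨hl, hl'⟩, hl''⟩
    refine ⟨?_, by simpa [Gr] using hl'⟩
    intro x hx y hy
    rw [List.mem_map] at hx hy
    obtain ⟨x', hx', rfl⟩ := hx
    obtain ⟨y', hy', rfl⟩ := hy
    have h1 := hl'' x' hx'
    have h2 := hl'' y' hy'
    rw [sub_zero, abs_le] at h1 h2
    refine ⟨_, ⟨t ^ (ht φ x'), ⟨ht φ x', ⟨h1.1, h1.2⟩, rfl⟩, _, hl x' hx' y' hy', rfl⟩,
      t ^ (- ht φ y'), ⟨- ht φ y', ⟨by omega, by omega⟩, rfl⟩, ?_⟩
    simp only [fN, Subgroup.coe_mul, Subgroup.coe_inv, zpow_neg]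
    group) (by rw [bd_pf, hbd]; simp)
  have hfc : (fun x : φ.ker => (x : G)) ∘ fN = f := rfl
  refine ⟨pf (fun x : φ.ker => (x : G)) w - pr f u, ?_, ?_⟩
  · apply Submodule.sub_mem
    · apply pf_mem _ hw
      rintro l ⟨hl, hl'⟩
      refine ⟨⟨?_, by simpa [Gr] using hl'⟩, ?_⟩
      · intro x hx y hy
        rw [List.mem_map] at hx hy
        obtain ⟨x', hx', rfl⟩ := hx
        obtain ⟨y', hy', rfl⟩ := hy
        exact Or.inl ⟨_, hl x' hx' y' hy', by simp⟩
      · intro x hx
        rw [List.mem_map] at hx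
        obtain ⟨x', hx', rfl⟩ := hx
        have := (mem_ker_iff_ht φ (x' : G)).mp x'.2
        rw [this]
        simp
    · apply pr_mem _ hu
      rintro l ⟨⟨hl, hl'⟩, hl''⟩ l' h1 h2
      refine ⟨⟨Ctl_mono Set.subset_union_right (prCtl_spec hl ?_ h1), ?_⟩, ?_⟩
      · intro x hx
        have h1 := hl'' x hx
        rw [sub_zero, abs_le] at h1
        exact ⟨- ht φ x, ⟨by omega, by omega⟩, by simp [f]⟩
      · simp only [mem_Gr] at *
        omega
      · intro x hx
        have := h1 hx
        rw [List.mem_append, List.mem_map] at this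
        rcases this with h | ⟨x₀, h, rfl⟩
        · exact hl'' x h
        · have := (mem_ker_iff_ht φ _).mp (hmem x₀)
          simp only [f, this]
          simp
  · have h := bd_pr f u
    rw [hbd, map_zero, add_zero] at h
    rw [map_sub, h, bd_pf, hbw, pf_comp, hfc]
    abel

lemma pf_mul_cancel (g : G) (u : Ch G) :
    pf (fun x => g * x) (pf (fun x => g⁻¹ * x) u) = u := by
  rw [pf_comp]
  have : ((fun x => g * x) ∘ fun x => g⁻¹ * x) = fun x : G => x := by
    funext x; simp
  rw [this, pf_id]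

lemma slab_UA {t : G} (ht1 : ht φ t = 1) (hN : UA φ.ker) (q : ℕ) (A : Set G)
    (hA : A.Finite) (r : ℕ) : ∃ B : Set G, B.Finite ∧ ∀ i : ℤ,
      ∀ u ∈ Sp ((Ctl A ∩ Gr q) ∩ Ht φ i r), bd u = 0 →
        ∃ w ∈ Sp ((Ctl B ∩ Gr (q + 1)) ∩ Ht φ i r), bd w = u := by
  obtain ⟨B, hB, h⟩ := slab_UA_zero φ ht1 hN q A hA r
  refine ⟨B, hB, ?_⟩
  intro i u hu hbd
  obtain ⟨w, hw, hbw⟩ := h (pf (fun x => (t ^ i)⁻¹ * x) u) (by
    apply pf_mem _ hu
    rintro l ⟨⟨hl, hl'⟩, hl''⟩
    refine ⟨⟨Ctl_map_mul _ hl, by simpa [Gr] using hl'⟩, ?_⟩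
    intro x hx
    rw [List.mem_map] at hx
    obtain ⟨x', hx', rfl⟩ := hx
    have := hl'' x' hx'
    rw [ht_mul, ht_inv, ht_zpow φ ht1]
    have e : -i + ht φ x' - 0 = ht φ x' - i := by ring
    rwa [e]) (by rw [bd_pf, hbd]; simp)
  refine ⟨pf (fun x => t ^ i * x) w, ?_, ?_⟩
  · apply pf_mem _ hw
    rintro l ⟨⟨hl, hl'⟩, hl''⟩
    refine ⟨⟨Ctl_map_mul _ hl, by simpa [Gr] using hl'⟩, ?_⟩
    intro x hx
    rw [List.mem_map] at hx
    obtain ⟨x', hx', rfl⟩ := hx
    have := hl'' x' hx'
    rw [ht_mul, ht_zpow φ ht1]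
    have e : i + ht φ x' - i = ht φ x' - 0 := by ring
    rwa [e]
  · rw [bd_pf, hbw, pf_mul_cancel]

/-- The height of the first entry of a list. -/
def hh : List G → ℤ
  | [] => 0
  | x :: _ => ht φ x

omit [Group G] in
lemma filter_mem {p : Set (List G)} {u : Ch G} (hu : u ∈ Sp p) (P : List G → Prop)
    [DecidablePred P] : u.filter P ∈ Sp (p ∩ {l | P l}) := by
  rw [mem_Sp] at *
  intro l hl
  rw [Finsupp.filter_apply] at hl
  split_ifs at hl with h
  · exact ⟨hu l hl, h⟩
  · exact absurd rfl hl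

lemma UA_ext (hφ : Function.Surjective φ) (hN : UA φ.ker) : UA G := by
  classical
  obtain ⟨t, htt⟩ := hφ (Multiplicative.ofAdd 1)
  have ht1 : ht φ t = 1 := by simp [ht, htt]
  intro q A hA
  -- a bound on heights of `A`
  obtain ⟨r, hr⟩ : ∃ r : ℕ, ∀ a ∈ A, |ht φ a| ≤ (r : ℤ) := by
    obtain ⟨m, hm⟩ := (hA.image (fun a => |ht φ a|)).bddAbove
    refine ⟨m.toNat, fun a ha => ?_⟩
    have := hm ⟨a, ha, rfl⟩
    have h2 := abs_nonneg (ht φ a)
    simp only at this
    omega
  rcases q with _ | q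
  · refine ⟨{1}, Set.finite_singleton _, ?_⟩
    intro u hu _
    refine ⟨cns 1 u, ?_, ?_⟩
    · apply cns_mem _ hu
      rintro l ⟨_, hl⟩
      have : l = [] := List.length_eq_zero_iff.mp hl
      subst this
      refine ⟨?_, by simp [Gr]⟩
      intro x hx y hy
      simp at hx hy
      simp [hx, hy]
    · rw [bd_cns, bd_of_Gr_zero (Sp_mono Set.inter_subset_right hu)]
      simp
  obtain ⟨B₁, hB₁, h₁⟩ := slab_UA φ ht1 hN q A hA r
  obtain ⟨B₂, hB₂, h₂⟩ := slab_UA φ ht1 hN (q + 1) (A ∪ B₁) (hA.union hB₁) (r + 1)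
  refine ⟨B₂, hB₂, ?_⟩
  intro z hz hbd
  -- truncations
  let zle : ℤ → Ch G := fun i => z.filter (fun l => hh φ l ≤ i)
  have hzle : ∀ i, zle i ∈ Sp ((Ctl A ∩ Gr (q + 1)) ∩ {l | hh φ l ≤ i}) :=
    fun i => filter_mem hz _
  have near : ∀ l ∈ Ctl A ∩ Gr (q + 1), ∀ y ∈ l, |ht φ y - hh φ l| ≤ r := by
    rintro l ⟨hl, hl'⟩ y hy
    rcases l with _ | ⟨x, l⟩
    · simp at hy
    · have := hr _ (hl x (by simp) y hy)
      rw [ht_mul, ht_inv] at this
      simp only [hh]
      have e : ht φ y - ht φ x = - ht φ x + ht φ y := by ring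
      rw [e]; exact this
  have hw : ∀ i, bd (zle i) ∈ Sp ((Ctl A ∩ Gr q) ∩ Ht φ i r) := by
    intro i
    have h1 : bd (zle i) ∈ Sp (Ctl A ∩ Gr q) :=
      bd_mem (SubC_Ctl A) (Sp_mono Set.inter_subset_left (hzle i))
    have h2 : bd (zle i) ∈ Sp (On {y | ht φ y ≤ i + r}) := by
      apply map_mem_of_Sp _ (hzle i)
      rintro l ⟨hl, hl'⟩
      rw [bd_single, one_smul]
      apply Sp_mono _ (dl_mem l)
      rintro l' ⟨h1, h2⟩ y hy
      have := near l hl y (h1 hy)
      rw [abs_le] at this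
      have h3 : hh φ l ≤ i := hl'
      show ht φ y ≤ i + r
      omega
    have h3 : bd (zle i) = - bd (z.filter (fun l => ¬ hh φ l ≤ i)) := by
      rw [eq_neg_iff_add_eq_zero, ← map_add, Finsupp.filter_add_filter_not, hbd]
    have h4 : bd (zle i) ∈ Sp (On {y | i - r ≤ ht φ y}) := by
      rw [h3]
      apply Submodule.neg_mem
      apply map_mem_of_Sp _ (filter_mem hz _)
      rintro l ⟨hl, hl'⟩
      rw [bd_single, one_smul]
      apply Sp_mono _ (dl_mem l)
      rintro l' ⟨h1, h2⟩ y hy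
      have := near l hl y (h1 hy)
      rw [abs_le] at this
      have h3 : ¬ hh φ l ≤ i := hl'
      show i - r ≤ ht φ y
      omega
    apply Sp_mono _ (Sp_inter h1 (Sp_inter h2 h4))
    rintro l ⟨hl, hl1, hl2⟩
    refine ⟨hl, fun y hy => ?_⟩
    have a1 := hl1 y hy
    have a2 := hl2 y hy
    rw [abs_le]
    have a1' : ht φ y ≤ i + r := a1
    have a2' : i - r ≤ ht φ y := a2
    constructor <;> omega
  -- fillings of the slab boundaries
  have hv : ∀ i, ∃ v ∈ Sp ((Ctl B₁ ∩ Gr (q + 1)) ∩ Ht φ i r), bd v = bd (zle i) ∧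
      (bd (zle i) = 0 → v = 0) := by
    intro i
    by_cases h : bd (zle i) = 0
    · exact ⟨0, Submodule.zero_mem _, by simp [h], fun _ => rfl⟩
    · obtain ⟨v, hv, hbv⟩ := h₁ i (bd (zle i)) (hw i) (bd_bd _)
      exact ⟨v, hv, hbv, fun h' => absurd h' h⟩
  choose v hv hbv hv0 using hv
  -- step
  have step : ∀ i, ∃ w ∈ Sp ((Ctl B₂ ∩ Gr (q + 1 + 1)) ∩ Ht φ i ((r + 1 : ℕ) : ℤ)),
      bd w = (zle i - zle (i - 1)) - v i + v (i - 1) := by
    intro i
    apply h₂ i
    · have e1 : zle i - zle (i - 1) ∈ Sp (((Ctl (A ∪ B₁) ∩ Gr (q + 1))) ∩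
          Ht φ i ((r + 1 : ℕ) : ℤ)) := by
        have : zle i - zle (i - 1) = z.filter (fun l => hh φ l = i) := by
          ext l
          simp only [zle, Finsupp.sub_apply, Finsupp.filter_apply]
          by_cases h1 : hh φ l = i
          · have a : hh φ l ≤ i := by omega
            have b : ¬ hh φ l ≤ i - 1 := by omega
            rw [if_pos a, if_neg b, if_pos h1]; ring
          · rw [if_neg h1]
            by_cases a : hh φ l ≤ i
            · have b : hh φ l ≤ i - 1 := by omega
              rw [if_pos a, if_pos b]; ring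
            · have b : ¬ hh φ l ≤ i - 1 := by omega
              rw [if_neg a, if_neg b]; ring
        rw [this]
        apply Sp_mono _ (filter_mem hz _)
        rintro l ⟨hl, hl'⟩
        have hl'' : hh φ l = i := hl'
        refine ⟨⟨Ctl_mono Set.subset_union_left hl.1, hl.2⟩, fun y hy => ?_⟩
        have := near l hl y hy
        rw [hl''] at this
        push_cast
        linarith
      have e2 : v i ∈ Sp (((Ctl (A ∪ B₁) ∩ Gr (q + 1))) ∩ Ht φ i ((r + 1 : ℕ) : ℤ)) := by
        apply Sp_mono _ (hv i)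
        rintro l ⟨hl, hl'⟩
        refine ⟨⟨Ctl_mono Set.subset_union_right hl.1, hl.2⟩, fun y hy => ?_⟩
        have := hl' y hy
        push_cast
        linarith
      have e3 : v (i - 1) ∈ Sp (((Ctl (A ∪ B₁) ∩ Gr (q + 1))) ∩
          Ht φ i ((r + 1 : ℕ) : ℤ)) := by
        apply Sp_mono _ (hv (i - 1))
        rintro l ⟨hl, hl'⟩
        refine ⟨⟨Ctl_mono Set.subset_union_right hl.1, hl.2⟩, fun y hy => ?_⟩
        have := hl' y hy
        rw [abs_le] at this ⊢
        push_cast
        constructor <;> linarith [this.1, this.2]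
      exact Submodule.add_mem _ (Submodule.sub_mem _ e1 e2) e3
    · rw [map_add, map_sub, map_sub, hbv, hbv]
      abel
  -- bounds for heights in the support of `z`
  obtain ⟨m, hm⟩ : ∃ m : ℕ, ∀ l ∈ z.support, |hh φ l| ≤ (m : ℤ) := by
    obtain ⟨m, hm⟩ := ((z.support.finite_toSet).image (fun l => |hh φ l|)).bddAbove
    refine ⟨m.toNat, fun a ha => ?_⟩
    have := hm ⟨a, ha, rfl⟩
    have h2 := abs_nonneg (hh φ a)
    simp only at this
    omega
  have hlow : zle (-(m : ℤ) - 1) = 0 := by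
    ext l
    simp only [zle, Finsupp.filter_apply, Finsupp.coe_zero, Pi.zero_apply]
    split_ifs with h
    · by_contra hne
      have := hm l (by simpa using hne)
      rw [abs_le] at this
      omega
    · rfl
  have hhigh : zle m = z := by
    ext l
    simp only [zle, Finsupp.filter_apply]
    split_ifs with h
    · rfl
    · by_contra hne
      have := hm l (by simpa using fun h => hne h.symm)
      rw [abs_le] at this
      omega
  have claim : ∀ n : ℕ, ∃ w ∈ Sp (Ctl B₂ ∩ Gr (q + 1 + 1)),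
      bd w = zle (-(m : ℤ) - 1 + n) - v (-(m : ℤ) - 1 + n) := by
    intro n
    induction n with
    | zero =>
      refine ⟨0, Submodule.zero_mem _, ?_⟩
      have : v (-(m : ℤ) - 1) = 0 := hv0 _ (by rw [hlow]; simp)
      simp [hlow, this]
    | succ n ih =>
      obtain ⟨w, hw, hbw⟩ := ih
      obtain ⟨w', hw', hbw'⟩ := step (-(m : ℤ) - 1 + (n + 1 : ℕ))
      refine ⟨w + w', Submodule.add_mem _ hw (Sp_mono Set.inter_subset_left hw'), ?_⟩
      have e : -(m : ℤ) - 1 + ((n + 1 : ℕ) : ℤ) - 1 = -(m : ℤ) - 1 + n := by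
        push_cast; ring
      rw [map_add, hbw, hbw', e]
      abel
  obtain ⟨w, hw, hbw⟩ := claim (2 * m + 1)
  refine ⟨w, hw, ?_⟩
  have e : -(m : ℤ) - 1 + ((2 * m + 1 : ℕ) : ℤ) = m := by push_cast; ring
  rw [e, hhigh] at hbw
  have : v m = 0 := hv0 _ (by rw [hhigh, hbd])
  rw [hbw, this, sub_zero]

lemma UA_of_PolyZ : ∀ (n : ℕ) (G : Type u) [Group G], PolyZ n G → UA G
  | 0, G, _, h => by
    have : Subsingleton G := h
    exact UA_of_subsingleton
  | n + 1, G, _, h => by
    obtain ⟨φ, hφ, h'⟩ := h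
    exact UA_ext φ hφ (UA_of_PolyZ n φ.ker h')

end Vale.Agent.P188

end

section

/-!
Polycyclic groups are virtually poly-`ℤ`.
-/

universe u v w

namespace Vale.Agent.P188

variable {G : Type u} [Group G]

theorem adjoinCyc_step (U : Subgroup G) (t : G) (h1 : ∀ n ∈ U, t * n * t⁻¹ ∈ U)
    (h2 : ∀ n ∈ U, t⁻¹ * n * t ∈ U) : CycStep U (adjoinCyc U t h1 h2) t :=
  ⟨fun x hx => ⟨0, by simpa using hx⟩, ⟨1, by simp⟩, h1, h2, fun _ hg => hg⟩

theorem PCS.exists_pzs {M : Subgroup G} (h : PCS M) :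
    ∃ Q : Subgroup G, Q ≤ M ∧ PZS Q ∧ Q.relIndex M ≠ 0 := by
  induction h with
  | bot => exact ⟨⊥, le_rfl, .bot, by simp⟩
  | @step N M t hN hs ih =>
    obtain ⟨Q, hQN, hQ, hind⟩ := ih
    obtain ⟨E, hE, hEN, hcov⟩ := exists_cover_of_relIndex_ne_zero hind
    by_cases hk : ∃ k : ℤ, k ≠ 0 ∧ t ^ k ∈ N
    · obtain ⟨k, hk0, hk⟩ := hk
      refine ⟨Q, hQN.trans hs.le, hQ, ?_⟩
      refine relIndex_ne_zero_of_cover
        (E := Set.image2 (fun (r : ℤ) (e : G) => t ^ r * e) (Set.Ico 0 |k|) E)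
        (Set.Finite.image2 _ (Set.finite_Ico _ _) hE) ?_
      intro g hg
      obtain ⟨b, hb⟩ := hs.dec g hg
      have hn : (t ^ (b % k))⁻¹ * g ∈ N := by
        have e : (t ^ (b % k))⁻¹ * g = (t ^ k) ^ (b / k) * ((t ^ b)⁻¹ * g) := by
          have : t ^ b = t ^ (b % k) * (t ^ k) ^ (b / k) := by
            rw [← zpow_mul, ← zpow_add, Int.emod_add_mul_ediv]
          rw [this]; group
        rw [e]
        exact N.mul_mem (N.zpow_mem hk _) hb
      obtain ⟨e, he, heq⟩ := hcov _ hn
      refine ⟨t ^ (b % k) * e, Set.mem_image2_of_mem ⟨Int.emod_nonneg _ hk0,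
        Int.emod_lt_abs _ hk0⟩ he, ?_⟩
      have : (t ^ (b % k) * e)⁻¹ * g = e⁻¹ * ((t ^ (b % k))⁻¹ * g) := by group
      rw [this]; exact heq
    · push Not at hk
      have hk' : ∀ k : ℤ, t ^ k ∈ N → k = 0 := fun k hkN => by
        by_contra h0
        exact hk k h0 hkN
      let α : N ≃* N :=
        { toFun := fun n => ⟨t⁻¹ * n * t, hs.conj' n n.2⟩
          invFun := fun n => ⟨t * n * t⁻¹, hs.conj n n.2⟩
          left_inv := fun n => Subtype.ext (by simp [mul_assoc])
          right_inv := fun n => Subtype.ext (by simp [mul_assoc])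
          map_mul' := fun n n' => Subtype.ext (by simp [mul_assoc]) }
      have hNfg : Group.FG N := (Group.fg_iff_subgroup_fg N).2 hN.fg
      have hQfi : (Q.subgroupOf N).FiniteIndex := ⟨hind⟩
      obtain ⟨k, hk0, hkp⟩ := exists_pow_preserves hNfg (Q.subgroupOf N) hQfi α
      have hα : ∀ (k : ℕ) (x : N), (((α ^ k) x : N) : G) = (t ^ k)⁻¹ * x * t ^ k := by
        intro k
        induction k with
        | zero => intro x; simp
        | succ k ihk =>
          intro x
          rw [pow_succ, MulAut.mul_apply, ihk]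
          show (t ^ k)⁻¹ * (t⁻¹ * x * t) * t ^ k = _
          have : t ^ (k + 1) = t * t ^ k := pow_succ' t k
          rw [this]; group
      have c2 : ∀ n ∈ Q, (t ^ k)⁻¹ * n * t ^ k ∈ Q := by
        intro n hn
        have := (hkp ⟨n, hQN hn⟩).2 hn
        rw [Subgroup.mem_subgroupOf, hα] at this
        exact this
      have c1 : ∀ n ∈ Q, t ^ k * n * (t ^ k)⁻¹ ∈ Q := by
        intro n hn
        have hmem : t ^ k * n * (t ^ k)⁻¹ ∈ N := by
          have := conj_zpow hs.conj hs.conj' (k : ℤ) n (hQN hn)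
          simpa using this
        have := (hkp ⟨_, hmem⟩).1 (by
          rw [Subgroup.mem_subgroupOf, hα]
          simpa [mul_assoc] using hn)
        exact this
      have hst := adjoinCyc_step Q (t ^ k) c1 c2
      refine ⟨adjoinCyc Q (t ^ k) c1 c2, ?_, .step hQ hst ?_, ?_⟩
      · rintro x ⟨b, hb⟩
        have : x = (t ^ k) ^ b * (((t ^ k) ^ b)⁻¹ * x) := by group
        rw [this]
        exact M.mul_mem (M.zpow_mem (M.pow_mem hs.mem _) _) (hs.le (hQN hb))
      · intro j hj
        have h1 : t ^ ((k : ℤ) * j) ∈ N := by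
          rw [zpow_mul, zpow_natCast]; exact hQN hj
        have := hk' _ h1
        rcases mul_eq_zero.1 this with h | h
        · omega
        · exact h
      · refine relIndex_ne_zero_of_cover
          (E := Set.image2 (fun (r : ℤ) (e : G) => t ^ r * e) (Set.Ico 0 |(k : ℤ)|) E)
          (Set.Finite.image2 _ (Set.finite_Ico _ _) hE) ?_
        intro g hg
        obtain ⟨b, hb⟩ := hs.dec g hg
        have hk0' : (k : ℤ) ≠ 0 := by omega
        have e1 : t ^ b = t ^ (b % (k : ℤ)) * (t ^ k) ^ (b / (k : ℤ)) := by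
          rw [← zpow_natCast t k, ← zpow_mul, ← zpow_add, Int.emod_add_mul_ediv]
        have hn : (t ^ k) ^ (b / (k : ℤ)) * ((t ^ b)⁻¹ * g) * ((t ^ k) ^ (b / (k : ℤ)))⁻¹ ∈ N := by
          have := conj_zpow hs.conj hs.conj' ((k : ℤ) * (b / (k : ℤ))) _ hb
          rwa [zpow_mul, zpow_natCast] at this
        obtain ⟨e, he, heq⟩ := hcov _ hn
        refine ⟨t ^ (b % (k : ℤ)) * e, Set.mem_image2_of_mem ⟨Int.emod_nonneg _ hk0',
          Int.emod_lt_abs _ hk0'⟩ he, ?_⟩
        have e2 : (t ^ (b % (k : ℤ)) * e)⁻¹ * g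
            = (e⁻¹ * ((t ^ k) ^ (b / (k : ℤ)) * ((t ^ b)⁻¹ * g) *
              ((t ^ k) ^ (b / (k : ℤ)))⁻¹)) * (t ^ k) ^ (b / (k : ℤ)) := by
          rw [e1]; group
        rw [e2]
        exact Subgroup.mul_mem _ (hst.le heq) (Subgroup.zpow_mem _ hst.mem _)

theorem PolyZ.of_equiv : ∀ (n : ℕ) {G : Type u} [Group G] {G' : Type u} [Group G'],
    (G ≃* G') → PolyZ n G → PolyZ n G'
  | 0, _, _, _, _, e, h => by
    have h' : Subsingleton _ := h
    exact (e.symm.injective.subsingleton : Subsingleton _)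
  | n + 1, G, _, G', _, e, h => by
    obtain ⟨φ, hφ, hk⟩ := h
    refine ⟨φ.comp e.symm.toMonoidHom, hφ.comp e.symm.surjective, ?_⟩
    refine PolyZ.of_equiv n ?_ hk
    refine e.subgroupMap φ.ker |>.trans (MulEquiv.subgroupCongr ?_)
    ext x
    simp only [Subgroup.mem_map, MonoidHom.mem_ker, MonoidHom.comp_apply]
    constructor
    · rintro ⟨y, hy, rfl⟩
      simpa using hy
    · intro hx
      exact ⟨e.symm x, hx, by simp⟩

theorem PZS.polyZ {M : Subgroup G} (h : PZS M) : ∃ n, PolyZ n M := by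
  induction h with
  | bot => exact ⟨0, (inferInstance : Subsingleton (⊥ : Subgroup G))⟩
  | @step N M t _ hs hinj ih =>
    obtain ⟨n, hn⟩ := ih
    refine ⟨n + 1, ?_⟩
    have huniq : ∀ (g : G) (a b : ℤ), (t ^ a)⁻¹ * g ∈ N → (t ^ b)⁻¹ * g ∈ N → a = b := by
      intro g a b ha hb
      have : t ^ (b - a) ∈ N := by
        have e : t ^ (b - a) = ((t ^ a)⁻¹ * g * ((t ^ b)⁻¹ * g)⁻¹) := by
          rw [sub_eq_neg_add, zpow_add, zpow_neg]; group
        rw [e]
        exact N.mul_mem ha (N.inv_mem hb)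
      have := hinj _ this
      omega
    choose f hf using hs.dec
    let φ : M →* Multiplicative ℤ :=
      { toFun := fun g => Multiplicative.ofAdd (f g g.2)
        map_one' := by
          show Multiplicative.ofAdd _ = Multiplicative.ofAdd (0 : ℤ)
          congr 1
          exact huniq _ _ _ (hf _ _) (by simp)
        map_mul' := by
          intro g g'
          rw [← ofAdd_add]
          congr 1
          refine huniq _ _ _ (hf _ _) ?_
          have h1 := hf g g.2
          have h2 := hf g' g'.2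
          have e : (t ^ (f g g.2 + f g' g'.2))⁻¹ * ((g * g' : M) : G)
              = (t ^ (-(f g' g'.2)) * ((t ^ (f g g.2))⁻¹ * g) * (t ^ (-(f g' g'.2)))⁻¹) *
                ((t ^ (f g' g'.2))⁻¹ * g') := by
            rw [zpow_add, zpow_neg, Subgroup.coe_mul]; group
          rw [e]
          exact N.mul_mem (conj_zpow hs.conj hs.conj' _ _ h1) h2 }
    refine ⟨φ, ?_, ?_⟩
    · intro k
      refine ⟨⟨t ^ (Multiplicative.toAdd k), M.zpow_mem hs.mem _⟩, ?_⟩
      show Multiplicative.ofAdd _ = k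
      rw [← ofAdd_toAdd k]
      congr 1
      exact huniq _ _ _ (hf _ _) (by simp)
    · refine PolyZ.of_equiv n ?_ hn
      have hker : φ.ker = N.subgroupOf M := by
        ext g
        rw [MonoidHom.mem_ker, Subgroup.mem_subgroupOf]
        constructor
        · intro hg
          have h0 : f g g.2 = 0 := hg
          have := hf g g.2
          rw [h0] at this
          simpa using this
        · intro hg
          show Multiplicative.ofAdd _ = Multiplicative.ofAdd (0 : ℤ)
          congr 1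
          exact huniq _ _ _ (hf _ _) (by simpa using hg)
      exact ((MulEquiv.subgroupCongr hker).trans (Subgroup.subgroupOfEquivOfLe hs.le)).symm

end Vale.Agent.P188

end

section

/-!
Right-invariant means: existence for poly-`ℤ` groups and transport along coarse
equivalences.
-/

universe u v w

namespace Vale.Agent.P188

open Filter Topology

/-- Bounded real functions. -/
def Bdd {X : Type u} (f : X → ℝ) : Prop := ∃ M : ℝ, ∀ x, |f x| ≤ M

lemma Bdd.add {X : Type u} {f g : X → ℝ} (hf : Bdd f) (hg : Bdd g) : Bdd (f + g) := by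
  obtain ⟨M, hM⟩ := hf
  obtain ⟨N, hN⟩ := hg
  exact ⟨M + N, fun x => (abs_add_le _ _).trans (add_le_add (hM x) (hN x))⟩

lemma Bdd.const_mul {X : Type u} {f : X → ℝ} (hf : Bdd f) (a : ℝ) :
    Bdd (fun x => a * f x) := by
  obtain ⟨M, hM⟩ := hf
  refine ⟨|a| * M, fun x => ?_⟩
  rw [abs_mul]
  exact mul_le_mul_of_nonneg_left (hM x) (abs_nonneg a)

lemma Bdd.comp {X : Type u} {Y : Type v} {f : X → ℝ} (hf : Bdd f) (g : Y → X) :
    Bdd (fun y => f (g y)) := by
  obtain ⟨M, hM⟩ := hf
  exact ⟨M, fun y => hM (g y)⟩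

lemma Bdd.const {X : Type u} (a : ℝ) : Bdd (fun _ : X => a) := ⟨|a|, fun _ => le_rfl⟩

/-- A functional on real functions which behaves like a mean on bounded functions. -/
structure IsMean {X : Type u} (μ : (X → ℝ) → ℝ) : Prop where
  add : ∀ f g, Bdd f → Bdd g → μ (f + g) = μ f + μ g
  smul : ∀ (a : ℝ) f, Bdd f → μ (fun x => a * f x) = a * μ f
  nonneg : ∀ f, Bdd f → (∀ x, 0 ≤ f x) → 0 ≤ μ f
  one : μ (fun _ => 1) = 1

lemma IsMean.le {X : Type u} {μ : (X → ℝ) → ℝ} (h : IsMean μ) {f g : X → ℝ} (hf : Bdd f)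
    (hg : Bdd g) (hfg : ∀ x, f x ≤ g x) : μ f ≤ μ g := by
  have h1 : Bdd (g + fun x => (-1) * f x) := hg.add (hf.const_mul (-1))
  have h2 := h.nonneg _ h1 (fun x => by
    have := hfg x
    simp only [Pi.add_apply]
    linarith)
  rw [h.add _ _ hg (hf.const_mul (-1)), h.smul _ _ hf] at h2
  linarith

lemma IsMean.const {X : Type u} {μ : (X → ℝ) → ℝ} (h : IsMean μ) (a : ℝ) :
    μ (fun _ => a) = a := by
  have := h.smul a (fun _ => 1) (Bdd.const 1)
  rw [h.one] at this
  simpa using this

lemma IsMean.abs_le {X : Type u} {μ : (X → ℝ) → ℝ} (h : IsMean μ) {f : X → ℝ} {M : ℝ}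
    (hf : ∀ x, |f x| ≤ M) : |μ f| ≤ M := by
  have hb : Bdd f := ⟨M, hf⟩
  rw [_root_.abs_le]
  constructor
  · have := h.le (Bdd.const (-M)) hb (fun x => (_root_.abs_le.mp (hf x)).1)
    rwa [h.const] at this
  · have := h.le hb (Bdd.const M) (fun x => (_root_.abs_le.mp (hf x)).2)
    rwa [h.const] at this

/-- A group has a right-invariant mean. -/
def HasMean (G : Type u) [Group G] : Prop :=
  ∃ μ : (G → ℝ) → ℝ, IsMean μ ∧ ∀ (g : G) f, Bdd f → μ (fun x => f (x * g)) = μ f

lemma hasMean_of_subsingleton (G : Type u) [Group G] [Subsingleton G] : HasMean G := by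
  refine ⟨fun f => f 1, ⟨fun _ _ _ _ => rfl, fun _ _ _ => rfl, fun f _ h => h 1, rfl⟩, ?_⟩
  intro g f _
  have : g = 1 := Subsingleton.elim _ _
  simp [this]

/-- Ultrafilter limit of a sequence. -/
noncomputable def ulim (a : ℕ → ℝ) : ℝ := limUnder (hyperfilter ℕ : Filter ℕ) a

lemma tendsto_ulim {a : ℕ → ℝ} (ha : Bdd a) :
    Tendsto a (hyperfilter ℕ : Filter ℕ) (𝓝 (ulim a)) := by
  obtain ⟨M, hM⟩ := ha
  have hc : IsCompact (Set.Icc (-M) M) := isCompact_Icc
  have hle : ((hyperfilter ℕ).map a : Filter ℝ) ≤ 𝓟 (Set.Icc (-M) M) := by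
    rw [Filter.le_principal_iff]
    exact Filter.mem_map.mpr (Filter.univ_mem' (fun n => _root_.abs_le.mp (hM n)))
  obtain ⟨x, _, hx⟩ := hc.ultrafilter_le_nhds ((hyperfilter ℕ).map a) hle
  exact tendsto_nhds_limUnder ⟨x, hx⟩

lemma ulim_eq {a : ℕ → ℝ} {x : ℝ} (h : Tendsto a (hyperfilter ℕ : Filter ℕ) (𝓝 x)) :
    ulim a = x := h.limUnder_eq

/-- Cesàro averages. -/
noncomputable def ces (f : ℤ → ℝ) (n : ℕ) : ℝ :=
  (∑ i ∈ Finset.range (n + 1), f i) / (n + 1)

lemma ces_abs_le {f : ℤ → ℝ} {M : ℝ} (hM : ∀ x, |f x| ≤ M) (n : ℕ) : |ces f n| ≤ M := by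
  have hn : (0 : ℝ) < (n : ℝ) + 1 := by positivity
  unfold ces
  rw [abs_div, abs_of_pos hn, div_le_iff₀ hn]
  calc |∑ i ∈ Finset.range (n + 1), f i| ≤ ∑ i ∈ Finset.range (n + 1), |f i| :=
        Finset.abs_sum_le_sum_abs _ _
    _ ≤ ∑ _i ∈ Finset.range (n + 1), M := Finset.sum_le_sum (fun i _ => hM i)
    _ = M * (n + 1) := by simp; ring

lemma Bdd.ces {f : ℤ → ℝ} (hf : Bdd f) : Bdd (ces f) := by
  obtain ⟨M, hM⟩ := hf
  exact ⟨M, ces_abs_le hM⟩

/-- A shift-invariant mean on `ℤ`. -/
noncomputable def zmean (f : ℤ → ℝ) : ℝ := ulim (ces f)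

lemma isMean_zmean : IsMean zmean where
  add := by
    intro f g hf hg
    apply ulim_eq
    have h : ces (f + g) = fun n => ces f n + ces g n := by
      funext n
      simp only [ces, Pi.add_apply, Finset.sum_add_distrib, add_div]
    rw [h]
    exact (tendsto_ulim hf.ces).add (tendsto_ulim hg.ces)
  smul := by
    intro a f hf
    apply ulim_eq
    have h : ces (fun x => a * f x) = fun n => a * ces f n := by
      funext n
      simp only [ces, ← Finset.mul_sum, mul_div_assoc]
    rw [h]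
    exact (tendsto_ulim hf.ces).const_mul a
  nonneg := by
    intro f hf h
    apply ge_of_tendsto' (tendsto_ulim hf.ces)
    intro n
    unfold ces
    apply div_nonneg
    · exact Finset.sum_nonneg (fun i _ => h i)
    · positivity
  one := by
    apply ulim_eq
    have h : ces (fun _ => (1 : ℝ)) = fun _ => 1 := by
      funext n
      unfold ces
      have hn : ((n : ℝ) + 1) ≠ 0 := by positivity
      have hs : ∑ _i ∈ Finset.range (n + 1), (1 : ℝ) = n + 1 := by simp
      rw [hs, div_self hn]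
    rw [h]
    exact tendsto_const_nhds

lemma zmean_shift {f : ℤ → ℝ} (hf : Bdd f) : zmean (fun i => f (i + 1)) = zmean f := by
  apply ulim_eq
  have h : ces (fun i => f (i + 1)) = fun n : ℕ => ces f n + (f (n + 1) - f 0) / (n + 1) := by
    funext n
    unfold ces
    rw [← add_div]
    congr 1
    have e1 := Finset.sum_range_succ (fun i : ℕ => f i) (n + 1)
    have e2 := Finset.sum_range_succ' (fun i : ℕ => f i) (n + 1)
    rw [e1] at e2
    push_cast at e2 ⊢
    linarith
  rw [h]
  have h2 : Tendsto (fun n : ℕ => (f (n + 1) - f 0) / ((n : ℝ) + 1)) atTop (𝓝 0) := by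
    obtain ⟨M, hM⟩ := hf
    have h3 : Tendsto (fun n : ℕ => (2 * M) / ((n : ℝ) + 1)) atTop (𝓝 0) := by
      have := (tendsto_one_div_add_atTop_nhds_zero_nat (𝕜 := ℝ)).const_mul (2 * M)
      simpa [div_eq_mul_inv] using this
    apply squeeze_zero_norm _ h3
    intro n
    have hn : (0 : ℝ) < (n : ℝ) + 1 := by positivity
    rw [Real.norm_eq_abs, abs_div, abs_of_pos hn]
    apply div_le_div_of_nonneg_right _ hn.le
    calc |f (n + 1) - f 0| ≤ |f (n + 1)| + |f 0| := abs_sub _ _
      _ ≤ 2 * M := by linarith [hM (n + 1), hM 0]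
  have h3 : (hyperfilter ℕ : Filter ℕ) ≤ atTop := by
    rw [← Nat.cofinite_eq_atTop]
    exact Filter.hyperfilter_le_cofinite
  have := (tendsto_ulim hf.ces).add (h2.mono_left h3)
  rw [add_zero] at this
  exact this

lemma zmean_shift_zpow {f : ℤ → ℝ} (hf : Bdd f) (j : ℤ) :
    zmean (fun i => f (i + j)) = zmean f := by
  induction j using Int.induction_on with
  | zero => simp
  | succ n ih =>
    have := zmean_shift (f := fun i => f (i + n)) (hf.comp _)
    rw [← ih, ← this]
    congr 1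
    funext i
    congr 1
    ring
  | pred n ih =>
    have := zmean_shift (f := fun i => f (i + (-n - 1))) (hf.comp _)
    rw [← this, ← ih]
    congr 1
    funext i
    congr 1
    ring

lemma hasMean_ext {G : Type u} [Group G] (φ : G →* Multiplicative ℤ)
    (hφ : Function.Surjective φ) (hN : HasMean φ.ker) : HasMean G := by
  obtain ⟨t, htt⟩ := hφ (Multiplicative.ofAdd 1)
  have ht1 : ht φ t = 1 := by simp [ht, htt]
  obtain ⟨μ, hμ, hinv⟩ := hN
  let ν : (G → ℝ) → ℤ → ℝ := fun f i => μ (fun x : φ.ker => f (x * t ^ i))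
  have hν : ∀ f, Bdd f → Bdd (ν f) := by
    rintro f ⟨M, hM⟩
    exact ⟨M, fun i => hμ.abs_le (fun x => hM _)⟩
  refine ⟨fun f => zmean (ν f), ⟨?_, ?_, ?_, ?_⟩, ?_⟩
  · intro f g hf hg
    have : ν (f + g) = ν f + ν g := by
      funext i
      exact hμ.add _ _ (hf.comp _) (hg.comp _)
    simp only [this]
    exact isMean_zmean.add _ _ (hν f hf) (hν g hg)
  · intro a f hf
    have : ν (fun x => a * f x) = fun i => a * ν f i := by
      funext i
      exact hμ.smul a _ (hf.comp _)
    simp only [this]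
    exact isMean_zmean.smul a _ (hν f hf)
  · intro f hf h
    apply isMean_zmean.nonneg _ (hν f hf)
    intro i
    exact hμ.nonneg _ (hf.comp _) (fun x => h _)
  · have : ν (fun _ => 1) = fun _ => 1 := by
      funext i
      exact hμ.one
    simp only [this]
    exact isMean_zmean.one
  · intro g f hf
    have key : ν (fun x => f (x * g)) = fun i => ν f (i + ht φ g) := by
      funext i
      have hmem : t ^ i * g * (t ^ (i + ht φ g))⁻¹ ∈ φ.ker := by
        rw [mem_ker_iff_ht, ht_mul, ht_mul, ht_inv, ht_zpow φ ht1, ht_zpow φ ht1]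
        ring
      have := hinv ⟨_, hmem⟩ (fun x : φ.ker => f (x * t ^ (i + ht φ g))) (hf.comp _)
      show μ (fun x : φ.ker => f (x * t ^ i * g)) = μ (fun x : φ.ker => f (x * t ^ (i + ht φ g)))
      rw [← this]
      congr 1
      funext x
      congr 1
      simp only [Subgroup.coe_mul]
      group
    simp only [key]
    exact zmean_shift_zpow (hν f hf) _

lemma hasMean_of_PolyZ : ∀ (n : ℕ) (G : Type u) [Group G], PolyZ n G → HasMean G
  | 0, G, _, h => by
    have : Subsingleton G := h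
    exact hasMean_of_subsingleton G
  | n + 1, G, _, h => by
    obtain ⟨φ, hφ, h'⟩ := h
    exact hasMean_ext φ hφ (hasMean_of_PolyZ n φ.ker h')

lemma IsMean.sum {X : Type u} {μ : (X → ℝ) → ℝ} (h : IsMean μ) {ι : Type v} (s : Finset ι)
    (f : ι → X → ℝ) (hf : ∀ i ∈ s, Bdd (f i)) :
    Bdd (fun x => ∑ i ∈ s, f i x) ∧ μ (fun x => ∑ i ∈ s, f i x) = ∑ i ∈ s, μ (f i) := by
  classical
  induction s using Finset.induction_on with
  | empty =>
    simp only [Finset.sum_empty]
    exact ⟨Bdd.const 0, h.const 0⟩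
  | insert a s ha ih =>
    obtain ⟨h1, h2⟩ := ih (fun i hi => hf i (Finset.mem_insert_of_mem hi))
    have h3 := hf a (Finset.mem_insert_self a s)
    have e : (fun x => ∑ i ∈ insert a s, f i x) = f a + fun x => ∑ i ∈ s, f i x := by
      funext x
      rw [Finset.sum_insert ha]
      rfl
    rw [e]
    refine ⟨h3.add h1, ?_⟩
    rw [h.add _ _ h3 h1, h2, Finset.sum_insert ha]

/-- Transport of invariant means along coarse equivalences. -/
lemma hasMean_of_coarseEquiv {H : Type u} {G : Type v} [Group H] [Group G]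
    (hc : CoarseEquiv H G) (hG : HasMean G) : HasMean H := by
  classical
  obtain ⟨F, F', hF, hF', ⟨E, hE, hE'⟩, ⟨E₂, hE₂, hE₂'⟩⟩ := hc
  obtain ⟨μ, hμ, hinv⟩ := hG
  -- finite fibres
  have hsub : ∀ y : G, {x : H | F x = y} ⊆ (fun e => F' y * e⁻¹) '' E := by
    intro y x hx
    refine ⟨x⁻¹ * F' (F x), hE' x, ?_⟩
    have : F x = y := hx
    simp only [this]
    group
  have hfin : ∀ y : G, {x : H | F x = y}.Finite := fun y => (hE.image _).subset (hsub y)
  let fib : G → Finset H := fun y => (hfin y).toFinset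
  have hfib : ∀ y x, x ∈ fib y ↔ F x = y := by
    intro y x
    simp [fib]
  have hcard : ∀ y, (fib y).card ≤ hE.toFinset.card := by
    intro y
    have : fib y ⊆ hE.toFinset.image (fun e => F' y * e⁻¹) := by
      intro x hx
      rw [hfib] at hx
      obtain ⟨e, he, rfl⟩ := hsub y hx
      exact Finset.mem_image.mpr ⟨e, by simpa using he, rfl⟩
    exact (Finset.card_le_card this).trans Finset.card_image_le
  let ps : (H → ℝ) → G → ℝ := fun f y => ∑ x ∈ fib y, f x
  have hps : ∀ f, Bdd f → Bdd (ps f) := by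
    rintro f ⟨M, hM⟩
    refine ⟨hE.toFinset.card * M, fun y => ?_⟩
    have hM0 : 0 ≤ M := (abs_nonneg _).trans (hM 1)
    calc |ps f y| ≤ ∑ x ∈ fib y, |f x| := Finset.abs_sum_le_sum_abs _ _
      _ ≤ ∑ _x ∈ fib y, M := Finset.sum_le_sum (fun x _ => hM x)
      _ = (fib y).card * M := by simp
      _ ≤ hE.toFinset.card * M := by
          apply mul_le_mul_of_nonneg_right _ hM0
          exact_mod_cast hcard y
  have hps_add : ∀ f g, ps (f + g) = ps f + ps g := by
    intro f g
    funext y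
    simp [ps, Finset.sum_add_distrib]
  have hps_smul : ∀ (a : ℝ) f, ps (fun x => a * f x) = fun y => a * ps f y := by
    intro a f
    funext y
    simp [ps, Finset.mul_sum]
  -- positivity of the total mass
  have hpos : 0 < μ (ps (fun _ => 1)) := by
    have h1 : ∀ y : G, 1 ≤ ∑ e ∈ hE₂.toFinset, ps (fun _ => 1) (y * e) := by
      intro y
      have he : y⁻¹ * F (F' y) ∈ hE₂.toFinset := by simpa using hE₂' y
      have h2 : (1 : ℝ) ≤ ps (fun _ => 1) (y * (y⁻¹ * F (F' y))) := by
        have : F' y ∈ fib (y * (y⁻¹ * F (F' y))) := by rw [hfib]; group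
        have hc : 1 ≤ (fib (y * (y⁻¹ * F (F' y)))).card := Finset.card_pos.mpr ⟨_, this⟩
        simp only [ps, Finset.sum_const, nsmul_eq_mul, mul_one]
        exact_mod_cast hc
      refine h2.trans ?_
      apply Finset.single_le_sum (f := fun e => ps (fun _ => 1) (y * e)) _ he
      intro e _
      exact Finset.sum_nonneg (fun _ _ => zero_le_one)
    have hb1 : Bdd (ps (fun _ => 1)) := hps _ (Bdd.const 1)
    obtain ⟨hb2, hs⟩ := hμ.sum hE₂.toFinset (fun e y => ps (fun _ => 1) (y * e))
      (fun e _ => hb1.comp _)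
    have h3 := hμ.le (Bdd.const 1) hb2 h1
    rw [hμ.one, hs] at h3
    have h4 : ∑ e ∈ hE₂.toFinset, μ (fun y => ps (fun _ => 1) (y * e)) =
        hE₂.toFinset.card * μ (ps (fun _ => 1)) := by
      rw [Finset.sum_congr rfl (fun e _ => hinv e _ hb1)]
      simp
    rw [h4] at h3
    by_contra hneg
    have : (hE₂.toFinset.card : ℝ) * μ (ps (fun _ => 1)) ≤ 0 :=
      mul_nonpos_of_nonneg_of_nonpos (Nat.cast_nonneg _) (not_lt.mp hneg)
    linarith
  set c := μ (ps (fun _ => 1)) with hcdef
  refine ⟨fun f => μ (ps f) / c, ⟨?_, ?_, ?_, ?_⟩, ?_⟩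
  · intro f g hf hg
    simp only [hps_add]
    rw [hμ.add _ _ (hps f hf) (hps g hg), add_div]
  · intro a f hf
    simp only [hps_smul]
    rw [hμ.smul _ _ (hps f hf), mul_div_assoc]
  · intro f hf h
    apply div_nonneg _ hpos.le
    exact hμ.nonneg _ (hps f hf) (fun y => Finset.sum_nonneg (fun x _ => h x))
  · exact div_self hpos.ne'
  · intro g f hf
    simp only
    congr 1
    obtain ⟨U, hU, hU'⟩ := hF {g⁻¹} (Set.finite_singleton _)
    have hu : ∀ x : H, (F (x * g))⁻¹ * F x ∈ hU.toFinset := by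
      intro x
      have := hU' (x * g) x (by simp)
      simpa using this
    let fu : G → H → ℝ := fun u x => if (F x)⁻¹ * F (x * g⁻¹) = u then f x else 0
    have hfu : ∀ u, Bdd (fu u) := by
      obtain ⟨M, hM⟩ := hf
      have hM0 : 0 ≤ M := (abs_nonneg _).trans (hM 1)
      intro u
      refine ⟨M, fun x => ?_⟩
      simp only [fu]
      split_ifs
      · exact hM x
      · simpa using hM0
    have e1 : ps (fun x => f (x * g)) = fun y => ∑ u ∈ hU.toFinset, ps (fu u) (y * u⁻¹) := by
      funext y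
      have s1 : ps (fun x => f (x * g)) y = ∑ u ∈ hU.toFinset,
          ∑ x ∈ fib y with (F (x * g))⁻¹ * F x = u, f (x * g) := by
        rw [Finset.sum_fiberwise_of_maps_to (fun x _ => hu x)]
      rw [s1]
      apply Finset.sum_congr rfl
      intro u _
      simp only [ps, fu]
      rw [← Finset.sum_filter]
      apply Finset.sum_nbij' (fun x => x * g) (fun x => x * g⁻¹)
      · intro x hx
        rw [Finset.mem_filter, hfib] at hx ⊢
        obtain ⟨h1, h2⟩ := hx
        constructor
        · rw [← h1, ← h2]; group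
        · rw [mul_inv_cancel_right]; exact h2
      · intro x hx
        rw [Finset.mem_filter, hfib] at hx ⊢
        obtain ⟨h1, h2⟩ := hx
        constructor
        · calc F (x * g⁻¹) = F x * ((F x)⁻¹ * F (x * g⁻¹)) := by group
            _ = y := by rw [h2, h1]; group
        · rw [inv_mul_cancel_right]; exact h2
      · intro x _; simp
      · intro x _; simp
      · intro x _; rfl
    have e2 : ps f = fun y => ∑ u ∈ hU.toFinset, ps (fu u) y := by
      funext y
      simp only [ps]
      rw [Finset.sum_comm]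
      apply Finset.sum_congr rfl
      intro x _
      simp only [fu]
      rw [Finset.sum_ite_eq, if_pos]
      have := hu (x * g⁻¹)
      rwa [inv_mul_cancel_right] at this
    obtain ⟨_, s1⟩ := hμ.sum hU.toFinset (fun u y => ps (fu u) (y * u⁻¹))
      (fun u _ => (hps _ (hfu u)).comp _)
    obtain ⟨_, s2⟩ := hμ.sum hU.toFinset (fun u y => ps (fu u) y)
      (fun u _ => hps _ (hfu u))
    rw [e1, s1]
    conv_rhs => rw [e2]
    rw [s2]
    apply Finset.sum_congr rfl
    intro u _
    exact hinv u⁻¹ _ (hps _ (hfu u))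

end Vale.Agent.P188

end

section

/-!
Vanishing of cohomology above the length, for poly-`ℤ` groups, and the resulting
equivariant top contraction.
-/

universe u v w

namespace Vale.Agent.P188

open Finsupp

section Act

variable {G : Type u} [Group G] {X : Type v} [MulAction G X]

/-- The action on chains. -/
noncomputable def act (g : G) : Ch X →ₗ[ℤ] Ch X := pf (fun x => g • x)

lemma act_mul (g h : G) (u : Ch X) : act (g * h) u = act g (act h u) := by
  rw [act, act, act, pf_comp]
  congr 2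
  funext x
  exact mul_smul g h x

lemma act_one (u : Ch X) : act (1 : G) u = u := by
  rw [act]
  have : (fun x : X => (1 : G) • x) = fun x => x := by funext x; exact one_smul G x
  rw [this, pf_id]

lemma bd_act (g : G) (u : Ch X) : bd (act g u) = act g (bd u) := bd_pf _ _

lemma act_cns (g : G) (x : X) (u : Ch X) : act g (cns x u) = cns (g • x) (act g u) :=
  pf_cns _ _ _

lemma act_single (g : G) (l : List X) (a : ℤ) :
    act g (single l a) = single (l.map (fun x => g • x)) a := pf_single _ _ _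

lemma act_mem_Gr (g : G) {q : ℕ} {u : Ch X} (hu : u ∈ Sp (Gr q)) : act g u ∈ Sp (Gr q) :=
  pf_mem (fun l hl => by simpa [Gr] using hl) hu

end Act

/-- Vanishing of the cohomology of `G` on lists of length `m`, with all coefficients. -/
def Van (G : Type u) [Group G] (m : ℕ) : Prop :=
  ∀ (X : Type u) [MulAction G X] [Nonempty X], (∀ (g : G) (x : X), g • x = x → g = 1) →
    ∀ (M : Type u) [AddCommGroup M] [DistribMulAction G M] (c : Ch X →ₗ[ℤ] M),
      (∀ (g : G) (u : Ch X), c (act g u) = g • c u) →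
      (∀ u ∈ Sp (Gr (m + 1) : Set (List X)), c (bd u) = 0) →
      ∃ b : Ch X →ₗ[ℤ] M, (∀ (g : G) (u : Ch X), b (act g u) = g • b u) ∧
        ∀ u ∈ Sp (Gr m : Set (List X)), b (bd u) = c u

lemma Van_of_subsingleton (G : Type u) [Group G] [Subsingleton G] (m : ℕ) : Van G m := by
  intro X _ hX _ M _ _ c _ hc
  obtain ⟨x₀⟩ := hX
  refine ⟨c ∘ₗ cns x₀, ?_, ?_⟩
  · intro g u
    have : g = 1 := Subsingleton.elim _ _
    subst this
    rw [act_one, one_smul]
  · intro u hu
    have h1 : bd (cns x₀ u) = u - cns x₀ (bd u) := bd_cns x₀ u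
    have h2 : cns x₀ (bd u) = u - bd (cns x₀ u) := by rw [h1]; abel
    have h3 : c (bd (cns x₀ u)) = 0 := hc _ (cns_mem (fun l hl => by
      simp only [mem_Gr] at *; simp [hl]) hu)
    rw [LinearMap.comp_apply, h2, map_sub, h3, sub_zero]

section Height

variable {G : Type u} [Group G] (φ : G →* Multiplicative ℤ)

/-- Existence of a height function on a free `G`-set. -/
lemma exists_height {X : Type v} [MulAction G X]
    (hfree : ∀ (g : G) (x : X), g • x = x → g = 1) :
    ∃ η : X → ℤ, ∀ (g : G) (x : X), η (g • x) = ht φ g + η x := by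
  classical
  let rep : X → X := fun x => (Quotient.mk'' x : MulAction.orbitRel.Quotient G X).out
  have hrep : ∀ x, ∃ g : G, g • rep x = x := by
    intro x
    have : MulAction.orbitRel G X (rep x) x := Quotient.exact' (Quotient.out_eq'
        (Quotient.mk'' x : MulAction.orbitRel.Quotient G X))
    rw [MulAction.orbitRel_apply] at this
    obtain ⟨g, hg⟩ := this
    have hg' : g • x = rep x := hg
    exact ⟨g⁻¹, by rw [← hg', inv_smul_smul]⟩
  choose γ hγ using hrep
  refine ⟨fun x => ht φ (γ x), ?_⟩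
  intro g x
  have h1 : rep (g • x) = rep x := by
    have : (Quotient.mk'' (g • x) : MulAction.orbitRel.Quotient G X) = Quotient.mk'' x := by
      apply Quotient.sound'
      rw [MulAction.orbitRel_apply]
      exact ⟨g, rfl⟩
    simp only [rep, this]
  have h2 : γ (g • x) • rep x = g • x := by rw [← h1]; exact hγ _
  have h3 : (g * γ x)⁻¹ * γ (g • x) = 1 := by
    apply hfree _ (rep x)
    rw [mul_smul, h2, mul_inv_rev, mul_smul, inv_smul_smul]
    exact inv_smul_eq_iff.mpr (hγ x).symm
  have h4 : γ (g • x) = g * γ x := (inv_mul_eq_one.mp h3).symm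
  show ht φ (γ (g • x)) = _
  rw [h4, ht_mul]

end Height

section Step

variable {G : Type u} [Group G]

/-- The telescoping sums used to solve `f - t f = - e`. -/
noncomputable def tele {X : Type v} [MulAction G X] {M : Type w} [AddCommGroup M]
    [DistribMulAction G M] (t : G) (e : Ch X →ₗ[ℤ] M) (i : ℤ) (u : Ch X) : M :=
  - ∑ j ∈ Finset.range i.toNat, (t ^ j) • e (act ((t ^ j)⁻¹) u)
  + ∑ j ∈ Finset.range (-i).toNat, ((t ^ (j + 1))⁻¹) • e (act (t ^ (j + 1)) u)

lemma tele_step {X : Type v} [MulAction G X] {M : Type w} [AddCommGroup M]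
    [DistribMulAction G M] (t : G) (e : Ch X →ₗ[ℤ] M) (i : ℤ) (u : Ch X) :
    tele t e i u - t • tele t e (i - 1) (act t⁻¹ u) = - e u := by
  have r1 : ∀ j : ℕ, t • (t ^ j) • e (act ((t ^ j)⁻¹) (act t⁻¹ u)) =
      (t ^ (j + 1)) • e (act ((t ^ (j + 1))⁻¹) u) := by
    intro j
    rw [← act_mul, ← mul_smul, ← pow_succ', pow_succ' t j, mul_inv_rev]
  have r2 : ∀ j : ℕ, t • ((t ^ (j + 1))⁻¹) • e (act (t ^ (j + 1)) (act t⁻¹ u)) =
      ((t ^ j)⁻¹) • e (act (t ^ j) u) := by
    intro j
    rw [← act_mul, ← mul_smul]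
    congr 2
    · rw [pow_succ, mul_inv_rev, mul_inv_cancel_left]
    · congr 1
      rw [pow_succ, mul_inv_cancel_right]
  unfold tele
  rw [smul_add, smul_neg, Finset.smul_sum, Finset.smul_sum]
  simp only [r1, r2]
  rcases le_or_gt i 0 with hi | hi
  · have h1 : i.toNat = 0 := by omega
    have h2 : (i - 1).toNat = 0 := by omega
    obtain ⟨k, hk⟩ : ∃ k : ℕ, -i = k := ⟨(-i).toNat, by omega⟩
    have h3 : (-i).toNat = k := by omega
    have h4 : (-(i - 1)).toNat = k + 1 := by omega
    rw [h1, h2, h3, h4, Finset.sum_range_succ' (fun j => (t ^ j)⁻¹ • e (act (t ^ j) u)) k]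
    simp only [Finset.range_zero, Finset.sum_empty, pow_zero, inv_one, one_smul, act_one]
    abel
  · have h3 : (-i).toNat = 0 := by omega
    have h4 : (-(i - 1)).toNat = 0 := by omega
    obtain ⟨k, hk⟩ : ∃ k : ℕ, i = k + 1 := ⟨(i - 1).toNat, by omega⟩
    have h1 : i.toNat = k + 1 := by omega
    have h2 : (i - 1).toNat = k := by omega
    rw [h1, h2, h3, h4, Finset.sum_range_succ' (fun j => t ^ j • e (act (t ^ j)⁻¹ u)) k]
    simp only [Finset.range_zero, Finset.sum_empty, pow_zero, inv_one, one_smul, act_one]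
    abel

lemma Van_ext (φ : G →* Multiplicative ℤ) (hφ : Function.Surjective φ) (m : ℕ)
    (h1 : Van φ.ker (m + 3)) (h2 : Van φ.ker (m + 2)) : Van G (m + 3) := by
  classical
  obtain ⟨t, htt⟩ := hφ (Multiplicative.ofAdd 1)
  have ht1 : ht φ t = 1 := by simp [ht, htt]
  intro X _ _ hfree M _ _ c hc hcc
  have hfreeN : ∀ (g : φ.ker) (x : X), g • x = x → g = 1 := by
    intro g x h
    have := hfree (g : G) x h
    exact Subtype.ext this
  have actN : ∀ (n : φ.ker) (u : Ch X), act n u = act (n : G) u := fun n u => rfl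
  obtain ⟨b₀, hb₀, hb₀'⟩ := h1 X hfreeN M c (fun g u => hc g u) hcc
  -- conjugation
  have conj : ∀ (n : φ.ker) (g : G), ∃ n' : φ.ker, (n' : G) = g⁻¹ * n * g := by
    intro n g
    refine ⟨⟨g⁻¹ * n * g, ?_⟩, rfl⟩
    have := (inferInstance : φ.ker.Normal).conj_mem n n.2 g⁻¹
    simpa using this
  have twist : ∀ (g : G) (b : Ch X →ₗ[ℤ] M), (∀ (n : φ.ker) (u : Ch X), b (act n u) = n • b u) →
      ∀ (n : φ.ker) (u : Ch X), g • b (act g⁻¹ (act n u)) = n • g • b (act g⁻¹ u) := by
    intro g b hb n u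
    obtain ⟨n', hn'⟩ := conj n g
    have e1 : act g⁻¹ (act n u) = act n' (act g⁻¹ u) := by
      rw [actN, actN, ← act_mul, ← act_mul, hn']
      congr 2
      group
    have e2 : g * (g⁻¹ * (n : G) * g) = n * g := by group
    rw [e1, hb, Subgroup.smul_def, Subgroup.smul_def, ← mul_smul, ← mul_smul, hn', e2]
  let c₁ : Ch X →ₗ[ℤ] M :=
    { toFun := fun u => b₀ u - t • b₀ (act t⁻¹ u)
      map_add' := by intro u v; simp only [map_add, smul_add]; abel
      map_smul' := by
        intro a u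
        simp only [map_smul, RingHom.id_apply, smul_sub]
        rw [smul_comm t a] }
  have hc₁ : ∀ u, c₁ u = b₀ u - t • b₀ (act t⁻¹ u) := fun u => rfl
  obtain ⟨e, he, he'⟩ := h2 X hfreeN M c₁ (by
    intro n u
    rw [hc₁, hc₁, hb₀, twist t b₀ hb₀, smul_sub]) (by
    intro u hu
    rw [hc₁, ← bd_act, hb₀' u hu, hb₀' _ (act_mem_Gr _ hu), hc, smul_inv_smul, sub_self])
  obtain ⟨η, hη⟩ := exists_height φ (X := X) hfree
  let ηl : List X → ℤ := fun l => match l with
    | [] => 0
    | x :: _ => η x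
  let f : Ch X →ₗ[ℤ] M := Finsupp.linearCombination ℤ (fun l => tele t e (ηl l) (single l 1))
  have hf : ∀ l, f (single l 1) = tele t e (ηl l) (single l 1) := by
    intro l; simp [f, Finsupp.linearCombination_single]
  have hηl : ∀ (g : G) (l : List X), l ≠ [] → ηl (l.map (fun x => g • x)) = ht φ g + ηl l := by
    intro g l hl
    rcases l with _ | ⟨x, l⟩
    · exact absurd rfl hl
    · exact hη g x
  have htele : ∀ (i : ℤ) (n : φ.ker) (u : Ch X), tele t e i (act n u) = n • tele t e i u := by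
    intro i n u
    unfold tele
    rw [smul_add, smul_neg, Finset.smul_sum, Finset.smul_sum]
    congr 1
    · congr 1
      apply Finset.sum_congr rfl
      intro j _
      exact twist (t ^ j) e he n u
    · apply Finset.sum_congr rfl
      intro j _
      have := twist ((t ^ (j + 1))⁻¹) e he n u
      rw [inv_inv] at this
      exact this
  have hfN : ∀ (n : φ.ker) (u : Ch X), f (act n u) = n • f u := by
    intro n u
    have : (f ∘ₗ act n : Ch X →ₗ[ℤ] M) =
        (DistribSMul.toLinearMap ℤ M n) ∘ₗ f := by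
      apply lin_ext
      intro l
      rw [LinearMap.comp_apply, LinearMap.comp_apply, DistribSMul.toLinearMap_apply]
      by_cases hl : l = []
      · subst hl
        have h0 : act n (single ([] : List X) 1) = single [] 1 := by
          rw [act_single]; rfl
        have h1 := htele (ηl []) n (single [] 1)
        rw [h0] at h1
        rw [h0, hf]
        exact h1
      · have h0 : ηl (l.map (fun x => n • x)) = ηl l := by
          have := hηl (n : G) l hl
          rw [(mem_ker_iff_ht φ (n : G)).mp n.2, zero_add] at this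
          exact this
        rw [hf l]
        have h1 := htele (ηl l) n (single l 1)
        rw [act_single] at h1 ⊢
        rw [hf, h0]
        exact h1
    exact LinearMap.congr_fun this u
  have hft : ∀ u ∈ Sp (Gr (m + 1) : Set (List X)), f u - t • f (act t⁻¹ u) = - e u := by
    intro u hu
    have := eq_of_Sp (L := f - (DistribSMul.toLinearMap ℤ M t) ∘ₗ f ∘ₗ act t⁻¹)
      (L' := - e) (p := Gr (m + 1)) (u := u) (by
      intro l hl
      have hl' : l ≠ [] := by
        rintro rfl
        simp [Gr] at hl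
      have h0 := hηl t⁻¹ l hl'
      rw [ht_inv, ht1] at h0
      have h1 := tele_step t e (ηl l) (single l 1)
      have e1 : (-1 : ℤ) + ηl l = ηl l - 1 := by ring
      rw [e1] at h0
      simp only [LinearMap.sub_apply, LinearMap.comp_apply, LinearMap.neg_apply,
        DistribSMul.toLinearMap_apply]
      rw [hf l]
      rw [act_single] at h1 ⊢
      rw [hf, h0]
      exact h1) hu
    exact this
  let b₁ : Ch X →ₗ[ℤ] M := b₀ + f ∘ₗ bd
  have hb₁ : ∀ u, b₁ u = b₀ u + f (bd u) := fun u => rfl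
  have hb₁N : ∀ (n : φ.ker) (u : Ch X), b₁ (act n u) = n • b₁ u := by
    intro n u
    rw [hb₁, hb₁, hb₀, bd_act, hfN, smul_add]
  have hb₁t : ∀ u ∈ Sp (Gr (m + 2) : Set (List X)), b₁ (act t u) = t • b₁ u := by
    intro u hu
    have hu' : act t u ∈ Sp (Gr (m + 2) : Set (List X)) := act_mem_Gr _ hu
    have q1 : b₀ (act t u) - t • b₀ u = e (bd (act t u)) := by
      rw [he' _ hu', hc₁, ← act_mul, inv_mul_cancel, act_one]
    have q2 : f (bd (act t u)) - t • f (bd u) = - e (bd (act t u)) := by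
      have := hft (bd (act t u)) (bd_mem_Gr hu')
      rw [← bd_act, ← act_mul, inv_mul_cancel, act_one] at this
      exact this
    have q3 : b₁ (act t u) - t • b₁ u = 0 := by
      rw [hb₁, hb₁, smul_add]
      have : b₀ (act t u) + f (bd (act t u)) - (t • b₀ u + t • f (bd u)) =
          (b₀ (act t u) - t • b₀ u) + (f (bd (act t u)) - t • f (bd u)) := by abel
      rw [this, q1, q2]; abel
    exact sub_eq_zero.mp q3
  have hb₁G : ∀ (g : G), ∀ u ∈ Sp (Gr (m + 2) : Set (List X)), b₁ (act g u) = g • b₁ u := by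
    let K : Subgroup G :=
      { carrier := {g | ∀ u ∈ Sp (Gr (m + 2) : Set (List X)), b₁ (act g u) = g • b₁ u}
        mul_mem' := by
          intro a b ha hb u hu
          rw [act_mul, ha _ (act_mem_Gr _ hu), hb u hu, mul_smul]
        one_mem' := by
          intro u _
          rw [act_one, one_smul]
        inv_mem' := by
          intro a ha u hu
          have := ha (act a⁻¹ u) (act_mem_Gr _ hu)
          rw [← act_mul, mul_inv_cancel, act_one] at this
          rw [this, inv_smul_smul] }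
    have hK : ∀ g : G, g ∈ K := by
      intro g
      have htK : t ∈ K := hb₁t
      have hmem : g * (t ^ (ht φ g))⁻¹ ∈ φ.ker := by
        rw [mem_ker_iff_ht, ht_mul, ht_inv, ht_zpow φ ht1]
        ring
      have hnK : g * (t ^ (ht φ g))⁻¹ ∈ K := by
        intro u _
        exact hb₁N ⟨_, hmem⟩ u
      have := K.mul_mem hnK (K.zpow_mem htK (ht φ g))
      simpa using this
    exact hK
  refine ⟨Finsupp.linearCombination ℤ
    (fun l => if l.length = m + 2 then b₁ (single l 1) else 0), ?_, ?_⟩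
  · intro g u
    have : (Finsupp.linearCombination ℤ
        (fun l : List X => if l.length = m + 2 then b₁ (single l 1) else 0)) ∘ₗ act g =
        (DistribSMul.toLinearMap ℤ M g) ∘ₗ (Finsupp.linearCombination ℤ
        (fun l : List X => if l.length = m + 2 then b₁ (single l 1) else 0)) := by
      apply lin_ext
      intro l
      rw [LinearMap.comp_apply, LinearMap.comp_apply, DistribSMul.toLinearMap_apply,
        act_single, Finsupp.linearCombination_single, Finsupp.linearCombination_single,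
        one_smul, one_smul, List.length_map]
      split_ifs with h
      · rw [← hb₁G g _ (single_mem_Sp (p := Gr (m + 2)) h 1), act_single]
      · rw [smul_zero]
    exact LinearMap.congr_fun this u
  · intro u hu
    have : (Finsupp.linearCombination ℤ
        (fun l : List X => if l.length = m + 2 then b₁ (single l 1) else 0)) (bd u) =
        b₁ (bd u) := by
      apply eq_of_Sp (p := Gr (m + 2)) _ (bd_mem_Gr hu)
      intro l hl
      rw [Finsupp.linearCombination_single, one_smul, if_pos (mem_Gr.mp hl)]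
    rw [this, hb₁, bd_bd, map_zero, add_zero, hb₀' u hu]

lemma Van_of_PolyZ : ∀ (n : ℕ) (G : Type u) [Group G], PolyZ n G → ∀ m, n + 2 ≤ m → Van G m
  | 0, G, _, h => by
    have : Subsingleton G := h
    exact fun m _ => Van_of_subsingleton G m
  | n + 1, G, _, h => by
    obtain ⟨φ, hφ, h'⟩ := h
    intro m hm
    obtain ⟨m', rfl⟩ : ∃ m', m = m' + 3 := ⟨m - 3, by omega⟩
    exact Van_ext φ hφ m' (Van_of_PolyZ n φ.ker h' _ (by omega))
      (Van_of_PolyZ n φ.ker h' _ (by omega))

end Step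

end Vale.Agent.P188

end

section

/-!
The isolated derived series of a subgroup of a poly-`ℤ` group, the conjugation representation on
its pieces, and a nilpotency criterion.
-/

universe u v

namespace Vale.Agent.P188.H754

open Module
open scoped commutatorElement

/-! ### poly-`ℤ` groups -/

theorem PolyZ.of_injective : ∀ (n : ℕ) {G : Type u} [Group G] {H : Type u} [Group H]
    (f : H →* G), Function.Injective f → PolyZ n G → ∃ m ≤ n, PolyZ m H
  | 0, _, _, _, _, f, hf, h => by
    have h' : Subsingleton _ := h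
    exact ⟨0, le_rfl, (hf.subsingleton : Subsingleton _)⟩
  | n + 1, G, _, H, _, f, hf, h => by
    obtain ⟨φ, hφ, hk⟩ := h
    let ψ : H →* Multiplicative ℤ := φ.comp f
    have hker : ∃ m ≤ n, PolyZ m ψ.ker := by
      let f' : ψ.ker →* φ.ker :=
        { toFun := fun x => ⟨f x, x.2⟩
          map_one' := by ext; simp
          map_mul' := by intro a b; ext; simp }
      refine PolyZ.of_injective n f' ?_ hk
      intro a b hab
      have h1 : f a = f b := congrArg Subtype.val hab
      exact Subtype.ext (hf h1)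
    obtain ⟨m, hm, hmk⟩ := hker
    by_cases htriv : ∀ x, ψ x = 1
    · refine ⟨m, hm.trans (Nat.le_succ n), PolyZ.of_equiv m ?_ hmk⟩
      have : ψ.ker = ⊤ := by
        rw [eq_top_iff]; intro x _; exact htriv x
      exact (MulEquiv.subgroupCongr this).trans Subgroup.topEquiv
    · push Not at htriv
      obtain ⟨x₀, hx₀⟩ := htriv
      -- the image is `d ℤ`
      let D : AddSubgroup ℤ :=
        { carrier := {k | ∃ x, ψ x = Multiplicative.ofAdd k}
          zero_mem' := ⟨1, by simp⟩
          add_mem' := by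
            rintro a b ⟨x, hx⟩ ⟨y, hy⟩
            exact ⟨x * y, by rw [map_mul, hx, hy, ofAdd_add]⟩
          neg_mem' := by
            rintro a ⟨x, hx⟩
            exact ⟨x⁻¹, by rw [map_inv, hx, ofAdd_neg]⟩ }
      obtain ⟨d, hd⟩ := Int.subgroup_cyclic D
      have hmem : ∀ x, ∃ c : ℤ, Multiplicative.toAdd (ψ x) = c * d := by
        intro x
        have : Multiplicative.toAdd (ψ x) ∈ D := ⟨x, rfl⟩
        rw [hd, AddSubgroup.mem_closure_singleton] at this
        obtain ⟨c, hc⟩ := this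
        exact ⟨c, by rw [← hc]; simp⟩
      have hd0 : d ≠ 0 := by
        rintro rfl
        obtain ⟨c, hc⟩ := hmem x₀
        apply hx₀
        rw [mul_zero] at hc
        rw [← ofAdd_toAdd (ψ x₀), hc, ofAdd_zero]
      choose q hq using hmem
      let θ : H →* Multiplicative ℤ :=
        { toFun := fun x => Multiplicative.ofAdd (q x)
          map_one' := by
            have h1 := hq 1
            rw [map_one, toAdd_one] at h1
            have h2 : q 1 = 0 := by
              rcases mul_eq_zero.1 h1.symm with h | h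
              · exact h
              · exact absurd h hd0
            rw [h2, ofAdd_zero]
          map_mul' := by
            intro x y
            have h1 := hq (x * y)
            rw [map_mul, toAdd_mul, hq x, hq y, ← add_mul] at h1
            have h2 := mul_right_cancel₀ hd0 h1
            rw [← h2, ofAdd_add] }
      refine ⟨m + 1, Nat.succ_le_succ hm, θ, ?_, ?_⟩
      · intro k
        have h1 : d ∈ D := by rw [hd]; exact AddSubgroup.subset_closure rfl
        obtain ⟨x, hx⟩ := h1
        have h2 := hq x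
        rw [hx, toAdd_ofAdd] at h2
        have h3 : q x = 1 := by
          have : (q x - 1) * d = 0 := by linarith
          rcases mul_eq_zero.1 this with h | h
          · omega
          · exact absurd h hd0
        refine ⟨x ^ (Multiplicative.toAdd k), ?_⟩
        rw [map_zpow]
        change (Multiplicative.ofAdd (q x)) ^ _ = k
        rw [h3, ← ofAdd_zsmul]
        simp
      · refine PolyZ.of_equiv m (MulEquiv.subgroupCongr ?_) hmk
        ext x
        rw [MonoidHom.mem_ker, MonoidHom.mem_ker]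
        change _ ↔ Multiplicative.ofAdd (q x) = 1
        constructor
        · intro h
          have h1 := hq x
          rw [h, toAdd_one] at h1
          rcases mul_eq_zero.1 h1.symm with h | h
          · rw [h, ofAdd_zero]
          · exact absurd h hd0
        · intro h
          have h1 : q x = 0 := by simpa using h
          have h2 := hq x
          rw [h1, zero_mul] at h2
          rw [← ofAdd_toAdd (ψ x), h2, ofAdd_zero]

theorem PolyZ.torsionFree : ∀ (n : ℕ) {G : Type u} [Group G], PolyZ n G →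
    ∀ (x : G) (e : ℕ), e ≠ 0 → x ^ e = 1 → x = 1
  | 0, _, _, h, x, _, _, _ => by
    have h' : Subsingleton _ := h
    exact Subsingleton.elim _ _
  | n + 1, G, _, h, x, e, he, hx => by
    obtain ⟨φ, hφ, hk⟩ := h
    have h1 : φ x = 1 := by
      have h2 : φ x ^ e = 1 := by rw [← map_pow, hx, map_one]
      have h3 : (e : ℤ) * Multiplicative.toAdd (φ x) = 0 := by
        have := congrArg Multiplicative.toAdd h2
        simpa using this
      rcases mul_eq_zero.1 h3 with h | h
      · exact absurd (by exact_mod_cast h) he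
      · rw [← ofAdd_toAdd (φ x), h, ofAdd_zero]
    have h4 := PolyZ.torsionFree n hk ⟨x, h1⟩ e he (by ext; simpa using hx)
    exact congrArg Subtype.val h4

theorem PolyZ.fg : ∀ (n : ℕ) {G : Type u} [Group G], PolyZ n G → Group.FG G
  | 0, G, _, h => by
    have h' : Subsingleton G := h
    have : Finite G := inferInstance
    exact inferInstance
  | n + 1, G, _, h => by
    obtain ⟨φ, hφ, hk⟩ := h
    have h1 : Group.FG φ.ker := PolyZ.fg n hk
    obtain ⟨t, ht⟩ := hφ (Multiplicative.ofAdd 1)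
    obtain ⟨S, hS⟩ := (Group.fg_iff_subgroup_fg _).1 h1
    classical
    refine Group.fg_iff.2 ⟨(S : Set G) ∪ {t}, ?_, S.finite_toSet.union (Set.finite_singleton t)⟩
    rw [eq_top_iff]
    intro x _
    have h2 : φ (x * (t ^ (Multiplicative.toAdd (φ x)))⁻¹) = 1 := by
      rw [map_mul, map_inv, map_zpow, ht, ← ofAdd_zsmul]
      simp
    have h3 : x * (t ^ (Multiplicative.toAdd (φ x)))⁻¹ ∈ φ.ker := h2
    rw [← hS] at h3
    have h4 := Subgroup.closure_mono (Set.subset_union_left (s := (S : Set G)) (t := {t})) h3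
    have h5 : t ∈ Subgroup.closure ((S : Set G) ∪ {t}) :=
      Subgroup.subset_closure (Or.inr rfl)
    have h6 := Subgroup.mul_mem _ h4 (Subgroup.zpow_mem _ h5 (Multiplicative.toAdd (φ x)))
    simpa using h6

theorem PolyZ.subgroup_fg {n : ℕ} {G : Type u} [Group G] (h : PolyZ n G) (H : Subgroup G) :
    H.FG := by
  obtain ⟨m, _, hm⟩ := PolyZ.of_injective n H.subtype H.subtype_injective h
  exact (Group.fg_iff_subgroup_fg _).1 (PolyZ.fg m hm)

theorem PolyZ.solvable : ∀ (n : ℕ) {G : Type u} [Group G], PolyZ n G → Group.IsSolvable G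
  | 0, G, _, h => by
    have h' : Subsingleton G := h
    exact inferInstance
  | n + 1, G, _, h => by
    obtain ⟨φ, hφ, hk⟩ := h
    have h1 : Group.IsSolvable φ.ker := PolyZ.solvable n hk
    exact Group.isSolvable_of_ker_le_range φ.ker.subtype φ (by rw [Subgroup.range_subtype])

/-! ### complex characters of a subgroup -/

section iso

variable {G : Type u} [Group G]

/-- additive homomorphisms to `ℂ` -/
abbrev Ch (H : Subgroup G) : Type u := Additive H →+ ℂ

/-- evaluation -/
def ev {H : Subgroup G} (φ : Ch H) (x : G) (hx : x ∈ H) : ℂ := φ (Additive.ofMul ⟨x, hx⟩)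

theorem ev_one {H : Subgroup G} (φ : Ch H) : ev φ 1 H.one_mem = 0 := by
  unfold ev
  exact map_zero φ

theorem ev_mul {H : Subgroup G} (φ : Ch H) {x y : G} (hx : x ∈ H) (hy : y ∈ H) :
    ev φ (x * y) (H.mul_mem hx hy) = ev φ x hx + ev φ y hy := by
  unfold ev
  rw [← map_add]; rfl

theorem ev_inv {H : Subgroup G} (φ : Ch H) {x : G} (hx : x ∈ H) :
    ev φ x⁻¹ (H.inv_mem hx) = - ev φ x hx := by
  unfold ev
  rw [← map_neg]; rfl

theorem ev_add {H : Subgroup G} (φ ψ : Ch H) {x : G} (hx : x ∈ H) :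
    ev (φ + ψ) x hx = ev φ x hx + ev ψ x hx := rfl

theorem ev_sub {H : Subgroup G} (φ ψ : Ch H) {x : G} (hx : x ∈ H) :
    ev (φ - ψ) x hx = ev φ x hx - ev ψ x hx := rfl

theorem ev_smul {H : Subgroup G} (c : ℂ) (φ : Ch H) {x : G} (hx : x ∈ H) :
    ev (c • φ) x hx = c * ev φ x hx := rfl

theorem ev_congr {H : Subgroup G} (φ : Ch H) {x y : G} (hx : x ∈ H) (h : x = y) :
    ev φ x hx = ev φ y (h ▸ hx) := by subst h; rfl

theorem ch_ext {H : Subgroup G} {φ ψ : Ch H} (h : ∀ x (hx : x ∈ H), ev φ x hx = ev ψ x hx) :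
    φ = ψ := by
  refine AddMonoidHom.ext fun x => ?_
  exact h x.toMul x.toMul.2

theorem ev_pow {H : Subgroup G} (φ : Ch H) {x : G} (hx : x ∈ H) (n : ℕ) :
    ev φ (x ^ n) (H.pow_mem hx n) = n * ev φ x hx := by
  induction n with
  | zero => simp only [pow_zero, Nat.cast_zero, zero_mul]; exact ev_one φ
  | succ n ih =>
    have := ev_mul φ (H.pow_mem hx n) hx
    rw [ih] at this
    rw [ev_congr φ (H.pow_mem hx (n + 1)) (pow_succ x n), this]
    push_cast; ring

theorem finiteDimensional_ch {H : Subgroup G} (hH : H.FG) : FiniteDimensional ℂ (Ch H) := by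
  have hH' : Group.FG H := (Group.fg_iff_subgroup_fg H).2 hH
  obtain ⟨S, hS⟩ := hH'.out
  let L : Ch H →ₗ[ℂ] (S → ℂ) :=
    { toFun := fun φ s => φ (Additive.ofMul (s : H))
      map_add' := by intro a b; rfl
      map_smul' := by intro c a; rfl }
  refine FiniteDimensional.of_injective L ?_
  rw [← LinearMap.ker_eq_bot, LinearMap.ker_eq_bot']
  intro φ hφ
  have h1 : ∀ x : H, φ (Additive.ofMul x) = 0 := by
    intro x
    have hx : x ∈ Subgroup.closure (S : Set H) := by rw [hS]; trivial
    induction hx using Subgroup.closure_induction with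
    | mem x hx => exact congrFun hφ ⟨x, hx⟩
    | one => exact map_zero φ
    | mul x y _ _ hx hy =>
      have : φ (Additive.ofMul (x * y)) = φ (Additive.ofMul x) + φ (Additive.ofMul y) := by
        rw [← map_add]; rfl
      rw [this, hx, hy, add_zero]
    | inv x _ hx =>
      have : φ (Additive.ofMul x⁻¹) = - φ (Additive.ofMul x) := by
        rw [← map_neg]; rfl
      rw [this, hx, neg_zero]
  refine AddMonoidHom.ext fun x => ?_
  exact h1 x.toMul

/-- conjugation representation on characters -/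
def conjRep (H : Subgroup G) [H.Normal] : G →* Module.End ℂ (Ch H) where
  toFun g :=
    { toFun := fun φ => φ.comp (MulAut.conjNormal g⁻¹ : H ≃* H).toMonoidHom.toAdditive
      map_add' := by intro a b; rfl
      map_smul' := by intro c a; rfl }
  map_one' := by
    ext φ x
    simp
  map_mul' := by
    intro a b
    ext φ x
    simp [mul_inv_rev]

theorem conj_mem_of_normal {H : Subgroup G} [H.Normal] {x : G} (hx : x ∈ H) (g : G) :
    g⁻¹ * x * g ∈ H := by
  have := Subgroup.Normal.conj_mem (inferInstance : H.Normal) x hx g⁻¹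
  simpa using this

theorem ev_conjRep {H : Subgroup G} [H.Normal] (g : G) (φ : Ch H) {x : G} (hx : x ∈ H) :
    ev (conjRep H g φ) x hx = ev φ (g⁻¹ * x * g) (conj_mem_of_normal hx g) := by
  unfold ev conjRep
  simp only [MonoidHom.coe_mk, OneHom.coe_mk, LinearMap.coe_mk, AddHom.coe_mk,
    AddMonoidHom.comp_apply]
  congr 1
  change Additive.ofMul _ = Additive.ofMul _
  congr 1
  ext
  simp [MulAut.conjNormal_apply]

/-- the common kernel of a set of characters -/
def ann (H : Subgroup G) (F : Set (Ch H)) : Subgroup G where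
  carrier := {x | ∃ hx : x ∈ H, ∀ φ ∈ F, ev φ x hx = 0}
  one_mem' := ⟨H.one_mem, fun φ _ => ev_one φ⟩
  mul_mem' := by
    rintro x y ⟨hx, hx'⟩ ⟨hy, hy'⟩
    exact ⟨H.mul_mem hx hy, fun φ hφ => by rw [ev_mul φ hx hy, hx' φ hφ, hy' φ hφ, add_zero]⟩
  inv_mem' := by
    rintro x ⟨hx, hx'⟩
    exact ⟨H.inv_mem hx, fun φ hφ => by rw [ev_inv φ hx, hx' φ hφ, neg_zero]⟩

theorem ann_le (H : Subgroup G) (F : Set (Ch H)) : ann H F ≤ H := fun _ hx => hx.1

theorem ann_zero (H : Subgroup G) : ann H {0} = H := by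
  refine le_antisymm (ann_le _ _) fun x hx => ⟨hx, ?_⟩
  rintro φ rfl
  rfl

/-- the isolated derived subgroup -/
def iso (H : Subgroup G) : Subgroup G := ann H Set.univ

theorem iso_le (H : Subgroup G) : iso H ≤ H := ann_le _ _

instance iso_normal (H : Subgroup G) [hH : H.Normal] : (iso H).Normal := by
  constructor
  rintro x ⟨hx, hx'⟩ g
  refine ⟨hH.conj_mem x hx g, fun φ _ => ?_⟩
  have := hx' (conjRep H g⁻¹ φ) trivial
  rw [ev_conjRep] at this
  rw [← this]
  exact ev_congr _ _ (by rw [inv_inv])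

/-- the isolated derived series -/
def ser (H : Subgroup G) : ℕ → Subgroup G
  | 0 => H
  | n + 1 => iso (ser H n)

@[simp] theorem ser_zero (H : Subgroup G) : ser H 0 = H := rfl

instance ser_normal (H : Subgroup G) [hH : H.Normal] : ∀ n, (ser H n).Normal
  | 0 => hH
  | n + 1 => by
    have := ser_normal H n
    exact iso_normal (ser H n)

theorem iso_polyZ {H : Subgroup G} {n : ℕ} (h : PolyZ (n + 1) H) :
    ∃ m ≤ n, PolyZ m (iso H) := by
  obtain ⟨φ, hφ, hk⟩ := h
  let φ' : Ch H :=
    { toFun := fun x => ((Multiplicative.toAdd (φ x.toMul) : ℤ) : ℂ)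
      map_zero' := by simp
      map_add' := by intro a b; simp }
  have h1 : ∀ x (hx : x ∈ iso H), φ ⟨x, iso_le H hx⟩ = 1 := by
    rintro x ⟨hx, hx'⟩
    have h2 : ((Multiplicative.toAdd (φ ⟨x, hx⟩) : ℤ) : ℂ) = 0 := hx' φ' trivial
    have h3 : Multiplicative.toAdd (φ ⟨x, hx⟩) = 0 := by exact_mod_cast h2
    rw [← ofAdd_toAdd (φ ⟨x, iso_le H ⟨hx, hx'⟩⟩)]
    change Multiplicative.ofAdd (Multiplicative.toAdd (φ ⟨x, hx⟩)) = 1
    rw [h3, ofAdd_zero]
  let f : iso H →* φ.ker :=
    { toFun := fun x => ⟨⟨x, iso_le H x.2⟩, h1 x x.2⟩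
      map_one' := by ext; simp
      map_mul' := by intro a b; ext; simp }
  refine PolyZ.of_injective n f ?_ hk
  intro a b hab
  have h3 := congrArg (fun z : φ.ker => ((z : H) : G)) hab
  exact Subtype.ext h3

theorem ser_polyZ {H : Subgroup G} {n : ℕ} (h : PolyZ n H) (i : ℕ) :
    ∃ m ≤ n - i, PolyZ m (ser H i) := by
  induction i with
  | zero => exact ⟨n, by simp, h⟩
  | succ i ih =>
    obtain ⟨m, hm, hp⟩ := ih
    cases m with
    | zero =>
      have h0 : Subsingleton (ser H i) := hp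
      have h1 : Subsingleton (iso (ser H i)) := by
        constructor
        intro a b
        have h2 : (⟨a, iso_le _ a.2⟩ : ser H i) = ⟨b, iso_le _ b.2⟩ := Subsingleton.elim _ _
        exact Subtype.ext (congrArg (fun z : ser H i => (z : G)) h2)
      exact ⟨0, Nat.zero_le _, h1⟩
    | succ m =>
      obtain ⟨m', hm', hp'⟩ := iso_polyZ hp
      exact ⟨m', by omega, hp'⟩

theorem ser_eq_bot {H : Subgroup G} {n : ℕ} (h : PolyZ n H) : ser H n = ⊥ := by
  obtain ⟨m, hm, hp⟩ := ser_polyZ h n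
  have : m = 0 := by omega
  subst this
  have h0 : Subsingleton (ser H n) := hp
  exact Subgroup.eq_bot_of_subsingleton _

/-- `U` acts unipotently on the characters of `H`. -/
def Unip (U H : Subgroup G) [H.Normal] : Prop :=
  ∃ (F : ℕ → Submodule ℂ (Ch H)) (m : ℕ), F 0 = ⊥ ∧ F m = ⊤ ∧
    ∀ u ∈ U, ∀ j, ∀ φ ∈ F (j + 1), conjRep H u φ - φ ∈ F j

theorem commutator_mem_ann {U H : Subgroup G} [H.Normal] {F F' : Submodule ℂ (Ch H)}
    (h : ∀ u ∈ U, ∀ φ ∈ F', conjRep H u φ - φ ∈ F) {x u : G} (hx : x ∈ ann H (F : Set (Ch H)))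
    (hu : u ∈ U) : ⁅x, u⁆ ∈ ann H (F' : Set (Ch H)) := by
  obtain ⟨hxH, hxF⟩ := hx
  have h0 : u * x⁻¹ * u⁻¹ ∈ H := Subgroup.Normal.conj_mem inferInstance _ (H.inv_mem hxH) u
  have h1 : ⁅x, u⁆ = x * (u * x⁻¹ * u⁻¹) := by rw [commutatorElement_def]; group
  have h2 : ⁅x, u⁆ ∈ H := by rw [h1]; exact H.mul_mem hxH h0
  refine ⟨h2, fun φ hφ => ?_⟩
  have h3 := hxF _ (h u⁻¹ (U.inv_mem hu) φ hφ)
  rw [ev_sub, ev_conjRep] at h3
  rw [ev_congr φ h2 h1, ev_mul φ hxH h0]
  have h4 : u * x⁻¹ * u⁻¹ = (u⁻¹⁻¹ * x * u⁻¹)⁻¹ := by group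
  rw [ev_congr φ h0 h4, ev_inv φ (conj_mem_of_normal hxH u⁻¹)]
  linear_combination -h3

theorem lcs_step {U A B : Subgroup G} (h : ∀ x ∈ A, ∀ u ∈ U, ⁅x, u⁆ ∈ B)
    (hA : ∃ k, U.lowerCentralSeries k ≤ A) : ∃ k, U.lowerCentralSeries k ≤ B := by
  obtain ⟨k, hk⟩ := hA
  refine ⟨k + 1, ?_⟩
  rw [Subgroup.lowerCentralSeries_succ, Subgroup.commutator_le]
  intro x hx u hu
  exact h x (hk hx) u hu

/-- nilpotency criterion -/
theorem isNilpotent_of_unip {U N : Subgroup G} [N.Normal] {n : ℕ} (hn : ser N n = ⊥)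
    (hUN : ∃ k, U.lowerCentralSeries k ≤ N)
    (h : ∀ i < n, Unip U (ser N i)) : Group.IsNilpotent U := by
  have key : ∀ i ≤ n, ∃ k, U.lowerCentralSeries k ≤ ser N i := by
    intro i
    induction i with
    | zero => intro _; exact hUN
    | succ i ih =>
      intro hi
      obtain ⟨F, m, hF0, hFm, hF⟩ := h i (by omega)
      have h1 : ∀ j, ∃ k, U.lowerCentralSeries k ≤
          ann (ser N i) (F j : Set (Ch (ser N i))) := by
        intro j
        induction j with
        | zero =>
          have h2 := ih (by omega)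
          have h3 : ann (ser N i) (F 0 : Set (Ch (ser N i))) = ser N i := by
            rw [hF0, Submodule.bot_coe, ann_zero]
          rw [h3]; exact h2
        | succ j ihj =>
          exact lcs_step (fun x hx u hu =>
            commutator_mem_ann (fun u hu φ hφ => hF u hu j φ hφ) hx hu) ihj
      have h2 := h1 m
      rw [hFm] at h2
      exact h2
  obtain ⟨k, hk⟩ := key n le_rfl
  rw [hn, le_bot_iff] at hk
  exact (Subgroup.isNilpotent_iff_lowerCentralSeries U).2 ⟨k, hk⟩

end iso

end Vale.Agent.P188.H754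

end

section

/-!
Coarse equivalence with finite index subgroups.
-/

universe u v w

namespace Vale.Agent.P188

theorem coarseEquiv_of_finiteIndex {G : Type u} [Group G] (P : Subgroup G) (hP : P.FiniteIndex) :
    CoarseEquiv G P := by
  classical
  have hr : ∀ g : G, g * (Quotient.out (QuotientGroup.mk g⁻¹ : G ⧸ P)) ∈ P := by
    intro g
    have h1 : (QuotientGroup.mk (Quotient.out (QuotientGroup.mk g⁻¹ : G ⧸ P)) : G ⧸ P)
      = QuotientGroup.mk g⁻¹ := Quotient.out_eq' _
    rw [QuotientGroup.eq] at h1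
    have := P.inv_mem h1
    simpa using this
  let R : Set G := Set.range (fun q : G ⧸ P => q.out)
  have hR : R.Finite := Set.finite_range _
  let r : G → G := fun g => Quotient.out (QuotientGroup.mk g⁻¹ : G ⧸ P)
  have hrR : ∀ g, r g ∈ R := fun g => ⟨_, rfl⟩
  refine ⟨fun g => ⟨g * r g, hr g⟩, fun p => (p : G), ?_, ?_, ?_, ?_⟩
  · intro A hA
    have hfin : (Set.image2 (fun (a : G) (b : G × G) => b.1⁻¹ * a * b.2) A (R ×ˢ R)).Finite :=
      Set.Finite.image2 _ hA (hR.prod hR)
    refine ⟨(fun p : P => (p : G)) ⁻¹' (Set.image2 (fun (a : G) (b : G × G) => b.1⁻¹ * a * b.2) A (R ×ˢ R)),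
      hfin.preimage Subtype.val_injective.injOn, ?_⟩
    intro x y hxy
    refine ⟨x⁻¹ * y, hxy, (r x, r y), ⟨hrR x, hrR y⟩, ?_⟩
    simp [mul_assoc]
  · intro A hA
    refine ⟨(fun p : P => (p : G)) '' A, hA.image _, ?_⟩
    intro x y hxy
    exact ⟨_, hxy, by simp⟩
  · refine ⟨R, hR, ?_⟩
    intro x
    have : x⁻¹ * (x * r x) = r x := by group
    show x⁻¹ * (x * r x) ∈ R
    rw [this]; exact hrR x
  · refine ⟨(fun p : P => (p : G)) ⁻¹' R, hR.preimage Subtype.val_injective.injOn, ?_⟩
    intro x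
    show ((x⁻¹ * ⟨(x : G) * r x, hr x⟩ : P) : G) ∈ R
    have : ((x⁻¹ * ⟨(x : G) * r x, hr x⟩ : P) : G) = r x := by
      simp
    rw [this]; exact hrR _

end Vale.Agent.P188

end
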