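import Vale.Agent.P188.R.G019
import Vale.Agent.P188.R.G001
import Vale.Agent.P188.R.G027
import Vale.Agent.P188.R.G011

section

/-!
Malcev coordinates of a poly-`ℤ` nilpotent group, by polynomial functions.
-/

open Finset

universe u

namespace Vale.Agent.P188.H796

/-- Malcev coordinates of the second kind -/
structure MB (N : Type u) [Group N] (d n : ℕ) where
  b : Fin d → N
  c : Fin d → N → ℤ
  c_poly : ∀ i, (fun y => (c i y : ℝ)) ∈ PF N n
  c_prod : ∀ (s : Fin d → ℤ) (i : Fin d), c i ((List.ofFn fun i => b i ^ s i).prod) = s i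
  prod_c : ∀ y, (List.ofFn fun i => b i ^ c i y).prod = y
  norm : ∀ (i : Fin d) (k : ℤ) (y : N), (∀ j, j ≤ i → c j y = 0) →
    ∀ j, j ≤ i → c j (b i ^ k * y * b i ^ (-k)) = 0

theorem exists_MB : ∀ (d : ℕ) (N : Type u) [Group N], PolyZ d N → Group.IsNilpotent N →
    ∃ n, Nonempty (MB N d n)
  | 0, N, _, h, _ => by
    have h' : Subsingleton N := h
    exact ⟨0, ⟨{
      b := Fin.elim0
      c := fun i => i.elim0
      c_poly := fun i => i.elim0
      c_prod := fun _ i => i.elim0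
      prod_c := fun y => Subsingleton.elim _ _
      norm := fun i => i.elim0 }⟩⟩
  | d + 1, N, _, h, hN => by
    obtain ⟨φ, hφ, hk⟩ := h
    obtain ⟨n, ⟨D⟩⟩ := exists_MB d φ.ker hk inferInstance
    obtain ⟨c₀, hc₀⟩ := (Subgroup.nilpotent_iff_lowerCentralSeries (G := N)).1 hN
    have hc₁ : lc N (c₀ + 1) = ⊥ := by
      rw [eq_bot_iff, ← hc₀]
      exact (⊤ : Subgroup N).lowerCentralSeries_antitone (Nat.le_succ _)
    obtain ⟨x, hx⟩ := hφ (Multiplicative.ofAdd 1)
    let τ : N →* N := (zpowersHom N x).comp φ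
    have hτ' : ∀ y, τ y = x ^ (Multiplicative.toAdd (φ y)) := fun y => rfl
    have hφx : ∀ k : ℤ, φ (x ^ k) = Multiplicative.ofAdd k := by
      intro k; rw [map_zpow, hx, ← ofAdd_zsmul]; simp
    have hτ : ∀ y, (τ y)⁻¹ * y ∈ φ.ker := by
      intro y
      rw [MonoidHom.mem_ker, map_mul, map_inv, hτ', hφx]
      simp
    have hcoe : ∀ s : Fin d → ℤ, ((List.ofFn fun i => (D.b i : N) ^ s i).prod) =
        (((List.ofFn fun i => D.b i ^ s i).prod : φ.ker) : N) := by
      intro s
      have h1 := map_list_prod φ.ker.subtype (List.ofFn fun i => D.b i ^ s i)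
      rw [List.map_ofFn] at h1
      rw [Subgroup.coe_subtype] at h1
      rw [h1]
      congr 2
    refine ⟨max 2 (n * (c₀ + 1)), ⟨{
      b := Fin.cons x (fun i => (D.b i : N))
      c := Fin.cons (fun y => Multiplicative.toAdd (φ y)) (fun i y => D.c i ⟨(τ y)⁻¹ * y, hτ y⟩)
      c_poly := ?_
      c_prod := ?_
      prod_c := ?_
      norm := ?_ }⟩⟩
    · intro i
      refine Fin.cases ?_ (fun i => ?_) i
      · simp only [Fin.cons_zero]
        refine PF_mono (le_max_left 2 _) (hom_mem _ ?_)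
        intro a b
        rw [map_mul, toAdd_mul]; push_cast; ring
      · simp only [Fin.cons_succ]
        refine PF_mono (le_max_right 2 _) ?_
        exact ext_mem τ hτ _ (PF_le_WQ (Nat.succ_pos _) hc₁ n (D.c_poly i))
    · intro s i
      have hprod : (List.ofFn fun i => (Fin.cons x (fun i => (D.b i : N)) : Fin (d + 1) → N) i ^ s i).prod
          = x ^ s 0 * (((List.ofFn fun i => D.b i ^ s (Fin.succ i)).prod : φ.ker) : N) := by
        rw [List.ofFn_succ, List.prod_cons, ← hcoe]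
        simp only [Fin.cons_zero, Fin.cons_succ]
      rw [hprod]
      have hφp : φ (x ^ s 0 * (((List.ofFn fun i => D.b i ^ s (Fin.succ i)).prod : φ.ker) : N)) =
          Multiplicative.ofAdd (s 0) := by
        rw [map_mul, hφx, (MonoidHom.mem_ker).1 (((List.ofFn fun i => D.b i ^ s (Fin.succ i)).prod : φ.ker)).2,
          mul_one]
      refine Fin.cases ?_ (fun i => ?_) i
      · simp only [Fin.cons_zero]
        rw [hφp]; rfl
      · simp only [Fin.cons_succ]
        rw [← D.c_prod (fun i => s (Fin.succ i)) i]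
        congr 1
        apply Subtype.ext
        simp only
        rw [hτ', hφp, toAdd_ofAdd, inv_mul_cancel_left]
    · intro y
      rw [List.ofFn_succ, List.prod_cons]
      simp only [Fin.cons_zero, Fin.cons_succ]
      have := hcoe (fun i => D.c i ⟨(τ y)⁻¹ * y, hτ y⟩)
      rw [this, D.prod_c]
      simp only [← hτ', mul_inv_cancel_left]
    · intro i k y
      refine Fin.cases ?_ (fun i => ?_) i
      · intro hy j hj
        have hj0 : j = 0 := Fin.le_zero_iff.1 hj
        subst hj0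
        have h0 := hy 0 le_rfl
        simp only [Fin.cons_zero] at h0 ⊢
        rw [map_mul φ, map_mul φ, toAdd_mul, toAdd_mul, h0, hφx, hφx]
        simp
      · intro hy
        have h0 := hy 0 (Fin.zero_le _)
        simp only [Fin.cons_zero] at h0
        have hyk : y ∈ φ.ker := by
          rw [MonoidHom.mem_ker, ← ofAdd_toAdd (φ y), h0, ofAdd_zero]
        have key : ∀ z (hz : z ∈ φ.ker) (j : Fin d), D.c j ⟨(τ z)⁻¹ * z, hτ z⟩ = D.c j ⟨z, hz⟩ := by
          intro z hz j
          congr 1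
          apply Subtype.ext
          simp only
          rw [hτ', (MonoidHom.mem_ker).1 hz]
          simp
        have hz : (D.b i : N) ^ k * y * (D.b i : N) ^ (-k) ∈ φ.ker :=
          φ.ker.mul_mem (φ.ker.mul_mem (φ.ker.zpow_mem (D.b i).2 k) hyk)
            (φ.ker.zpow_mem (D.b i).2 (-k))
        intro j
        refine Fin.cases ?_ (fun j => ?_) j
        · intro _
          simp only [Fin.cons_zero, Fin.cons_succ]
          rw [(MonoidHom.mem_ker).1 hz]; rfl
        · intro hj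
          simp only [Fin.cons_succ]
          rw [key _ hz]
          have h2 := D.norm i k ⟨y, hyk⟩ (fun j hj => by
            have := hy (Fin.succ j) (Fin.succ_le_succ_iff.2 hj)
            simp only [Fin.cons_succ] at this
            rwa [key y hyk] at this) j (Fin.succ_le_succ_iff.1 hj)
          rw [← h2]
          congr 1

end Vale.Agent.P188.H796

end

section

/-!
The real Malcev completion of a poly-`ℤ` nilpotent group, in Malcev coordinates of the second kind,
inside a finite-dimensional algebra.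
-/

open Finset

universe u v

namespace Vale.Agent.P188.H796

/-! ### units -/

section units

variable {A : Type*} [Ring A] [Algebra ℝ A]

/-- polynomial curves of units -/
def UPC (w : ℝ → Aˣ) : Prop := PC (fun t => (w t : A)) ∧ PC (fun t => ((w t)⁻¹ : Aˣ).val)

theorem UPC.one : UPC (fun _ => (1 : Aˣ)) := ⟨by simpa using PC.const (1 : A), by simpa using PC.const (1 : A)⟩

theorem UPC.mul {w w' : ℝ → Aˣ} (h : UPC w) (h' : UPC w') : UPC (fun t => w t * w' t) := by
  refine ⟨(h.1.mul h'.1).congr fun t => by simp, (h'.2.mul h.2).congr fun t => by simp⟩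

theorem UPC.inv {w : ℝ → Aˣ} (h : UPC w) : UPC (fun t => (w t)⁻¹) :=
  ⟨h.2, by simpa using h.1⟩

theorem UPC.list_prod {ι : Type*} (L : List ι) {w : ι → ℝ → Aˣ} (h : ∀ i ∈ L, UPC (w i)) :
    UPC (fun t => (L.map fun i => w i t).prod) := by
  induction L with
  | nil => simpa using UPC.one
  | cons i L ih =>
    have := (h i (by simp)).mul (ih fun j hj => h j (by simp [hj]))
    simpa using this

theorem UPC.ofFn {d : ℕ} {w : Fin d → ℝ → Aˣ} (h : ∀ i, UPC (w i)) :
    UPC (fun t => (List.ofFn fun i => w i t).prod) := by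
  have := UPC.list_prod (List.finRange d) (w := w) (fun i _ => h i)
  simpa [List.ofFn_eq_map] using this

/-- real power as a unit -/
noncomputable def rpU (m : ℕ) (u : A) (hu : (u - 1) ^ m = 0) (t : ℝ) : Aˣ where
  val := rp m u t
  inv := rp m u (-t)
  val_inv := rp_mul_neg hu t
  inv_val := rp_neg_mul hu t

@[simp] theorem rpU_val (m : ℕ) (u : A) (hu : (u - 1) ^ m = 0) (t : ℝ) :
    (rpU m u hu t : A) = rp m u t := rfl

@[simp] theorem rpU_inv (m : ℕ) (u : A) (hu : (u - 1) ^ m = 0) (t : ℝ) :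
    (((rpU m u hu t)⁻¹ : Aˣ) : A) = rp m u (-t) := rfl

theorem UPC.rpU {p : ℝ → ℝ} (hp : PC p) (m : ℕ) (u : A) (hu : (u - 1) ^ m = 0) :
    UPC (fun t => rpU m u hu (p t)) := ⟨hp.rp m u, hp.neg.rp m u⟩

end units

/-! ### representation data -/

/-- a unipotent representation of `N` in an algebra, such that the Malcev coordinates are
restrictions of linear functionals -/
structure RD {N : Type u} [Group N] {d n : ℕ} (D : MB N d n) (A : Type v) [Ring A]
    [Algebra ℝ A] where
  ρ : N →* A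
  m : ℕ
  one_lt : 1 < m
  nil : ∀ x : Fin m → N, (List.ofFn fun i => (ρ (x i) - 1)).prod = 0
  ℓ : Fin d → A →ₗ[ℝ] ℝ
  hℓ : ∀ i y, ℓ i (ρ y) = D.c i y

namespace RD

variable {N : Type u} [Group N] {d n : ℕ} {D : MB N d n} {A : Type v} [Ring A] [Algebra ℝ A]
  (R : RD D A)

theorem unip (x : N) : (R.ρ x - 1) ^ R.m = 0 := by
  have := R.nil (fun _ => x)
  simpa using this

/-- the product `∏ ρ(b_i) ^ (s_i)` as a unit -/
noncomputable def EU (s : Fin d → ℝ) : Aˣ :=
  (List.ofFn fun i => rpU R.m (R.ρ (D.b i)) (R.unip _) (s i)).prod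

/-- the product `∏ ρ(b_i) ^ (s_i)` -/
noncomputable def E (s : Fin d → ℝ) : A := (R.EU s : A)

theorem UPC_EU {γ : ℝ → Fin d → ℝ} (h : ∀ i, PC fun t => γ t i) : UPC fun t => R.EU (γ t) :=
  UPC.ofFn fun i => UPC.rpU (h i) _ _ _

theorem PC_E {γ : ℝ → Fin d → ℝ} (h : ∀ i, PC fun t => γ t i) : PC fun t => R.E (γ t) :=
  (R.UPC_EU h).1

theorem EU_int (s : Fin d → ℤ) :
    (R.EU (fun i => (s i : ℝ)) : A) = R.ρ ((List.ofFn fun i => D.b i ^ s i).prod) := by
  rw [map_list_prod, List.map_ofFn, EU]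
  have h1 : ((List.ofFn fun i => rpU R.m (R.ρ (D.b i)) (R.unip _) ((s i : ℝ))).prod : A) =
      (List.ofFn fun i => (rpU R.m (R.ρ (D.b i)) (R.unip _) ((s i : ℝ)) : A)).prod := by
    have := map_list_prod (Units.coeHom A)
      (List.ofFn fun i => rpU R.m (R.ρ (D.b i)) (R.unip _) ((s i : ℝ)))
    rw [List.map_ofFn] at this
    exact this
  rw [h1]
  congr 2
  funext i
  rw [rpU_val]
  exact rp_int R.ρ (D.b i) (R.unip _) (s i)

theorem E_int (s : Fin d → ℤ) :
    R.E (fun i => (s i : ℝ)) = R.ρ ((List.ofFn fun i => D.b i ^ s i).prod) := R.EU_int s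

theorem E_coord (y : N) : R.E (fun i => (D.c i y : ℝ)) = R.ρ y := by
  rw [E_int, D.prod_c]

theorem ℓ_E (s : Fin d → ℝ) (i : Fin d) : R.ℓ i (R.E s) = s i := by
  refine PM.eq_of_int (F := fun s => R.ℓ i (R.E s)) (F' := fun s => s i)
    (fun γ hγ => (R.PC_E hγ).map (R.ℓ i)) (fun γ hγ => hγ i) ?_ s
  intro s
  simp only
  rw [E_int, R.hℓ, D.c_prod]

theorem E_injective : Function.Injective R.E := by
  intro s s' h
  funext i
  rw [← R.ℓ_E s i, ← R.ℓ_E s' i, h]

/-- multiplication -/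
noncomputable def mu (s s' : Fin d → ℝ) : Fin d → ℝ := fun i => R.ℓ i (R.E s * R.E s')

theorem E_mu (s s' : Fin d → ℝ) : R.E (R.mu s s') = R.E s * R.E s' := by
  have key : ∀ r : Fin d ⊕ Fin d → ℝ, R.E (R.mu (fun i => r (Sum.inl i)) (fun i => r (Sum.inr i))) =
      R.E (fun i => r (Sum.inl i)) * R.E (fun i => r (Sum.inr i)) := by
    refine PM.eq_of_int
      (F := fun r => R.E (R.mu (fun i => r (Sum.inl i)) (fun i => r (Sum.inr i))))
      (F' := fun r => R.E (fun i => r (Sum.inl i)) * R.E (fun i => r (Sum.inr i))) ?_ ?_ ?_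
    · intro γ hγ
      refine R.PC_E fun i => ?_
      exact ((R.PC_E fun j => hγ (Sum.inl j)).mul (R.PC_E fun j => hγ (Sum.inr j))).map (R.ℓ i)
    · intro γ hγ
      exact (R.PC_E fun j => hγ (Sum.inl j)).mul (R.PC_E fun j => hγ (Sum.inr j))
    · intro r
      simp only
      rw [E_int, E_int, ← map_mul]
      rw [← R.E_coord]
      congr 1
      funext i
      rw [mu, E_int, E_int, ← map_mul, R.hℓ]
  exact key (Sum.elim s s')

/-- inversion -/
noncomputable def nu (s : Fin d → ℝ) : Fin d → ℝ := fun i => R.ℓ i (((R.EU s)⁻¹ : Aˣ) : A)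

theorem rho_inv_val (u : Aˣ) (y : N) (h : (u : A) = R.ρ y) : ((u⁻¹ : Aˣ) : A) = R.ρ y⁻¹ := by
  have h1 : R.ρ y⁻¹ * (u : A) = 1 := by rw [h, ← map_mul, inv_mul_cancel, map_one]
  calc ((u⁻¹ : Aˣ) : A) = (R.ρ y⁻¹ * (u : A)) * ((u⁻¹ : Aˣ) : A) := by rw [h1, one_mul]
    _ = R.ρ y⁻¹ := by rw [mul_assoc, Units.mul_inv, mul_one]

theorem E_nu (s : Fin d → ℝ) : R.E (R.nu s) = (((R.EU s)⁻¹ : Aˣ) : A) := by
  refine PM.eq_of_int (F := fun s => R.E (R.nu s)) (F' := fun s => (((R.EU s)⁻¹ : Aˣ) : A))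
    ?_ ?_ ?_ s
  · intro γ hγ
    refine R.PC_E fun i => ?_
    exact (R.UPC_EU hγ).2.map (R.ℓ i)
  · intro γ hγ
    exact (R.UPC_EU hγ).2
  · intro s
    rw [R.rho_inv_val _ _ (R.EU_int s), ← R.E_coord]
    congr 1
    funext i
    rw [nu, R.rho_inv_val _ _ (R.EU_int s), R.hℓ]

theorem E_zero : R.E 0 = 1 := by
  have h := R.E_int 0
  simp only [Pi.zero_apply, Int.cast_zero, zpow_zero] at h
  have h2 : (fun _ : Fin d => (0 : ℝ)) = 0 := rfl
  rw [h2] at h
  rw [h]
  simp

/-- the real group, as a type -/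
def NR (_R : RD D A) : Type := Fin d → ℝ

noncomputable instance : Mul R.NR := ⟨R.mu⟩
instance : One R.NR := ⟨(0 : Fin d → ℝ)⟩
noncomputable instance : Inv R.NR := ⟨R.nu⟩

theorem toA_mul (s s' : R.NR) : R.E (s * s' : R.NR) = R.E s * R.E s' := R.E_mu s s'
theorem toA_one : R.E (1 : R.NR) = 1 := R.E_zero
theorem toA_inv (s : R.NR) : R.E (s⁻¹ : R.NR) = (((R.EU s)⁻¹ : Aˣ) : A) := R.E_nu s

theorem toA_injective {s s' : R.NR} (h : R.E s = R.E s') : s = s' := R.E_injective h

noncomputable instance : Group R.NR :=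
  Group.ofLeftAxioms
    (fun a b c => R.toA_injective (by rw [toA_mul, toA_mul, toA_mul, toA_mul, mul_assoc]))
    (fun a => R.toA_injective (by rw [toA_mul, toA_one, one_mul]))
    (fun a => R.toA_injective (by
      rw [toA_mul, toA_one, toA_inv]
      exact Units.inv_mul (R.EU a)))

/-- the embedding in the algebra -/
noncomputable def toA : R.NR →* A where
  toFun := R.E
  map_one' := R.toA_one
  map_mul' := R.toA_mul

theorem toA_inj : Function.Injective R.toA := R.E_injective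

/-- the lattice -/
def ι : N →* R.NR where
  toFun y := fun i => (D.c i y : ℝ)
  map_one' := R.toA_injective (by
    rw [toA_one]
    have := R.E_coord 1
    rw [map_one] at this
    exact this)
  map_mul' x y := R.toA_injective (by
    have h1 : R.E (fun i => (D.c i (x * y) : ℝ)) = R.ρ (x * y) := R.E_coord _
    have h2 := R.toA_mul (fun i => (D.c i x : ℝ)) (fun i => (D.c i y : ℝ))
    refine h1.trans ?_
    rw [map_mul, ← R.E_coord x, ← R.E_coord y]
    exact h2.symm)

theorem ι_apply (y : N) (i : Fin d) : R.ι y i = (D.c i y : ℝ) := rfl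

theorem toA_ι (y : N) : R.toA (R.ι y) = R.ρ y := R.E_coord y

theorem ι_injective : Function.Injective R.ι := by
  intro x y h
  have h1 : ∀ i, D.c i x = D.c i y := fun i => by
    have := congrFun h i
    rw [ι_apply, ι_apply] at this
    exact_mod_cast this
  rw [← D.prod_c x, ← D.prod_c y]
  simp only [h1]

/-- density of the lattice for polynomial maps -/
theorem dens {F : Type*} [AddCommGroup F] [Module ℝ F] {f g : R.NR → F}
    (hf : ∀ γ : ℝ → Fin d → ℝ, (∀ i, PC fun t => γ t i) → PC fun t => f (γ t))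
    (hg : ∀ γ : ℝ → Fin d → ℝ, (∀ i, PC fun t => γ t i) → PC fun t => g (γ t))
    (h : ∀ y : N, f (R.ι y) = g (R.ι y)) : ∀ s, f s = g s := by
  refine PM.eq_of_int (F := f) (F' := g) hf hg ?_
  intro s
  have := h ((List.ofFn fun i => D.b i ^ s i).prod)
  have e : (R.ι ((List.ofFn fun i => D.b i ^ s i).prod) : Fin d → ℝ) = fun i => (s i : ℝ) := by
    funext i
    rw [ι_apply, D.c_prod]
  rw [e] at this
  exact this

/-- functoriality -/
noncomputable def act (θ : N →* N) (Θ : A →ₐ[ℝ] A) (h : ∀ x, Θ (R.ρ x) = R.ρ (θ x)) :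
    R.NR →* R.NR :=
  have key : ∀ s : R.NR, R.E (fun i => R.ℓ i (Θ (R.E s))) = Θ (R.E s) := by
    refine R.dens ?_ ?_ ?_
    · intro γ hγ
      refine R.PC_E fun i => ?_
      exact ((R.PC_E hγ).map Θ.toLinearMap).map (R.ℓ i)
    · intro γ hγ
      exact (R.PC_E hγ).map Θ.toLinearMap
    · intro y
      have h1 : R.E (R.ι y) = R.ρ y := R.E_coord y
      rw [h1, h, ← R.E_coord]
      congr 1
      funext i
      rw [R.E_coord, R.hℓ]
  { toFun := fun s => fun i => R.ℓ i (Θ (R.E s))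
    map_one' := R.toA_injective (by
      have := key 1
      rw [toA_one, map_one] at this
      rw [toA_one, map_one]
      exact this)
    map_mul' := fun s s' => R.toA_injective (by
      have h1 := key (s * s')
      have h2 := key s
      have h3 := key s'
      rw [R.toA_mul (fun i => R.ℓ i (Θ (R.E s))) (fun i => R.ℓ i (Θ (R.E s')))]
      refine h1.trans ?_
      rw [h2, h3, toA_mul, map_mul]) }

theorem toA_act (θ : N →* N) (Θ : A →ₐ[ℝ] A) (h : ∀ x, Θ (R.ρ x) = R.ρ (θ x)) (s : R.NR) :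
    R.toA (R.act θ Θ h s) = Θ (R.toA s) := by
  have key : ∀ s : R.NR, R.E (fun i => R.ℓ i (Θ (R.E s))) = Θ (R.E s) := by
    refine R.dens ?_ ?_ ?_
    · intro γ hγ
      refine R.PC_E fun i => ?_
      exact ((R.PC_E hγ).map Θ.toLinearMap).map (R.ℓ i)
    · intro γ hγ
      exact (R.PC_E hγ).map Θ.toLinearMap
    · intro y
      have h1 : R.E (R.ι y) = R.ρ y := R.E_coord y
      rw [h1, h, ← R.E_coord]
      congr 1
      funext i
      rw [R.E_coord, R.hℓ]
  exact key s

theorem act_ι (θ : N →* N) (Θ : A →ₐ[ℝ] A) (h : ∀ x, Θ (R.ρ x) = R.ρ (θ x)) (y : N) :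
    R.act θ Θ h (R.ι y) = R.ι (θ y) :=
  R.toA_inj (by rw [toA_act, toA_ι, toA_ι, h])

end RD

end Vale.Agent.P188.H796

end

section

/-!
P188, Gromov-lite: virtually polycyclic by cyclic is virtually polycyclic; Milnor's lemma.
-/

universe u v

open Pointwise

namespace Vale.Agent.P188.H796

variable {G : Type u} [Group G]

/-- `M` contains a polycyclic subgroup of finite index -/
def VPS (M : Subgroup G) : Prop := ∃ Q : Subgroup G, Q ≤ M ∧ PCS Q ∧ Q.relIndex M ≠ 0

theorem VPS.step {N M : Subgroup G} {t : G} (h : VPS N) (hs : CycStep N M t)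
    (hN : Group.FG N) : VPS M := by
  obtain ⟨Q, hQN, hQ, hind⟩ := h
  obtain ⟨E, hE, hEN, hcov⟩ := exists_cover_of_relIndex_ne_zero hind
  let α : N ≃* N :=
    { toFun := fun n => ⟨t⁻¹ * n * t, hs.conj' n n.2⟩
      invFun := fun n => ⟨t * n * t⁻¹, hs.conj n n.2⟩
      left_inv := fun n => Subtype.ext (by simp [mul_assoc])
      right_inv := fun n => Subtype.ext (by simp [mul_assoc])
      map_mul' := fun n n' => Subtype.ext (by simp [mul_assoc]) }
  have hQfi : (Q.subgroupOf N).FiniteIndex := ⟨hind⟩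
  obtain ⟨k, hk0, hkp⟩ := exists_pow_preserves hN (Q.subgroupOf N) hQfi α
  have hα : ∀ (k : ℕ) (x : N), (((α ^ k) x : N) : G) = (t ^ k)⁻¹ * x * t ^ k := by
    intro k
    induction k with
    | zero => intro x; simp
    | succ k ihk =>
      intro x
      rw [pow_succ, MulAut.mul_apply, ihk]
      show (t ^ k)⁻¹ * (t⁻¹ * x * t) * t ^ k = _
      have : t ^ (k + 1) = t * t ^ k := pow_succ' t k
      rw [this]; group
  have c2 : ∀ n ∈ Q, (t ^ k)⁻¹ * n * t ^ k ∈ Q := by
    intro n hn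
    have := (hkp ⟨n, hQN hn⟩).2 hn
    rw [Subgroup.mem_subgroupOf, hα] at this
    exact this
  have c1 : ∀ n ∈ Q, t ^ k * n * (t ^ k)⁻¹ ∈ Q := by
    intro n hn
    have hmem : t ^ k * n * (t ^ k)⁻¹ ∈ N := by
      have := conj_zpow hs.conj hs.conj' (k : ℤ) n (hQN hn)
      simpa using this
    have := (hkp ⟨_, hmem⟩).1 (by
      rw [Subgroup.mem_subgroupOf, hα]
      simpa [mul_assoc] using hn)
    exact this
  have hst := adjoinCyc_step Q (t ^ k) c1 c2
  refine ⟨adjoinCyc Q (t ^ k) c1 c2, ?_, .step hQ hst, ?_⟩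
  · rintro x ⟨b, hb⟩
    have : x = (t ^ k) ^ b * (((t ^ k) ^ b)⁻¹ * x) := by group
    rw [this]
    exact M.mul_mem (M.zpow_mem (M.pow_mem hs.mem _) _) (hs.le (hQN hb))
  · refine relIndex_ne_zero_of_cover
      (E := Set.image2 (fun (r : ℤ) (e : G) => t ^ r * e) (Set.Ico 0 |(k : ℤ)|) E)
      (Set.Finite.image2 _ (Set.finite_Ico _ _) hE) ?_
    intro g hg
    obtain ⟨b, hb⟩ := hs.dec g hg
    have hk0' : (k : ℤ) ≠ 0 := by omega
    have e1 : t ^ b = t ^ (b % (k : ℤ)) * (t ^ k) ^ (b / (k : ℤ)) := by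
      rw [← zpow_natCast t k, ← zpow_mul, ← zpow_add, Int.emod_add_mul_ediv]
    have hn : (t ^ k) ^ (b / (k : ℤ)) * ((t ^ b)⁻¹ * g) * ((t ^ k) ^ (b / (k : ℤ)))⁻¹ ∈ N := by
      have := conj_zpow hs.conj hs.conj' ((k : ℤ) * (b / (k : ℤ))) _ hb
      rwa [zpow_mul, zpow_natCast] at this
    obtain ⟨e, he, heq⟩ := hcov _ hn
    refine ⟨t ^ (b % (k : ℤ)) * e, Set.mem_image2_of_mem ⟨Int.emod_nonneg _ hk0',
      Int.emod_lt_abs _ hk0'⟩ he, ?_⟩
    have e2 : (t ^ (b % (k : ℤ)) * e)⁻¹ * g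
        = (e⁻¹ * ((t ^ k) ^ (b / (k : ℤ)) * ((t ^ b)⁻¹ * g) *
          ((t ^ k) ^ (b / (k : ℤ)))⁻¹)) * (t ^ k) ^ (b / (k : ℤ)) := by
      rw [e1]; group
    rw [e2]
    exact Subgroup.mul_mem _ (hst.le heq) (Subgroup.zpow_mem _ hst.mem _)

/-- conjugates of `e` by the powers of `t` -/
def cjE (t e : G) (i : ℕ) : G := t ^ i * e * (t ^ i)⁻¹

theorem cjE_succ (t e : G) (i : ℕ) : cjE t e (i + 1) = t * cjE t e i * t⁻¹ := by
  unfold cjE
  rw [pow_succ']
  group

/-- `e_0 ^ ε_0 ⋯ e_(m-1) ^ ε_(m-1)` -/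
def cw (t e : G) (ε : ℕ → Bool) : ℕ → G
  | 0 => 1
  | m + 1 => cw t e ε m * (if ε m then cjE t e m else 1)

theorem cw_mem (t e : G) (ε : ℕ → Bool) (m : ℕ) :
    cw t e ε m ∈ Subgroup.closure (cjE t e '' Set.Iio m) := by
  induction m with
  | zero => exact Subgroup.one_mem _
  | succ m ih =>
    rw [cw]
    refine Subgroup.mul_mem _ (Subgroup.closure_mono (Set.image_mono
      (Set.Iio_subset_Iio (Nat.le_succ m))) ih) ?_
    split_ifs
    · exact Subgroup.subset_closure ⟨m, Set.mem_Iio.2 (Nat.lt_succ_self m), rfl⟩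
    · exact Subgroup.one_mem _

theorem cw_word (t e : G) (ε : ℕ → Bool) (m : ℕ) :
    cw t e ε m * t ^ m ∈ ({1, t, e * t, t⁻¹} : Set G) ^ m := by
  induction m with
  | zero => simp [cw]
  | succ m ih =>
    have e1 : cw t e ε (m + 1) * t ^ (m + 1) =
        (cw t e ε m * t ^ m) * (if ε m then e * t else t) := by
      rw [cw]
      split_ifs
      · unfold cjE
        rw [pow_succ]
        group
      · rw [pow_succ]
        group
    rw [e1, pow_succ]
    refine Set.mul_mem_mul ih ?_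
    split_ifs <;> simp

theorem cw_extract (t e : G) {ε ε' : ℕ → Bool} {m : ℕ} (hne : ∃ i < m, ε i ≠ ε' i)
    (heq : cw t e ε m = cw t e ε' m) :
    ∃ j < m, cjE t e j ∈ Subgroup.closure (cjE t e '' Set.Iio j) := by
  induction m with
  | zero =>
    obtain ⟨i, hi, -⟩ := hne
    omega
  | succ m ih =>
    rw [cw, cw] at heq
    by_cases hm : ε m = ε' m
    · rw [hm, mul_left_inj] at heq
      obtain ⟨i, hi, hi'⟩ := hne
      have him : i ≠ m := by
        rintro rfl
        exact hi' hm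
      obtain ⟨j, hj, hj'⟩ := ih ⟨i, by omega, hi'⟩ heq
      exact ⟨j, by omega, hj'⟩
    · refine ⟨m, by omega, ?_⟩
      have h1 := cw_mem t e ε m
      have h2 := cw_mem t e ε' m
      cases h3 : ε m <;> cases h4 : ε' m
      · exact absurd (h3.trans h4.symm) hm
      · rw [h3, h4] at heq
        simp only [Bool.false_eq_true, if_false, mul_one, if_true] at heq
        have : cjE t e m = (cw t e ε' m)⁻¹ * cw t e ε m := by rw [heq]; group
        rw [this]
        exact Subgroup.mul_mem _ (Subgroup.inv_mem _ h2) h1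
      · rw [h3, h4] at heq
        simp only [Bool.false_eq_true, if_false, mul_one, if_true] at heq
        have : cjE t e m = (cw t e ε m)⁻¹ * cw t e ε' m := by rw [← heq]; group
        rw [this]
        exact Subgroup.mul_mem _ (Subgroup.inv_mem _ h1) h2
      · exact absurd (h3.trans h4.symm) hm

theorem milnor_one {D : ℕ} (hG : GrowthLE G D) (t e : G) :
    ∃ j, ∀ k, cjE t e k ∈ Subgroup.closure (cjE t e '' Set.Iio j) := by
  obtain ⟨C, hC⟩ := hG {1, t, e * t, t⁻¹} (by simp)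
  have hex : ∃ m : ℕ, C * (m + 1) ^ D < 2 ^ m := by
    by_contra hcon
    push Not at hcon
    have h1 : Filter.Tendsto (fun m : ℕ => ((m : ℝ) ^ D * (1 / 2 : ℝ) ^ m)) Filter.atTop
        (nhds 0) := tendsto_pow_const_mul_const_pow_of_lt_one D (by norm_num) (by norm_num)
    have h2 := h1.const_mul (C * 2 ^ D : ℝ)
    rw [mul_zero] at h2
    have h3 : ∀ᶠ m : ℕ in Filter.atTop, (1 : ℝ) ≤ C * 2 ^ D * ((m : ℝ) ^ D * (1 / 2) ^ m) := by
      filter_upwards [Filter.eventually_ge_atTop 1] with m hm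
      have h4 : (2 : ℝ) ^ m ≤ C * ((m : ℝ) + 1) ^ D := by exact_mod_cast hcon m
      have hm' : (1 : ℝ) ≤ m := by exact_mod_cast hm
      have h5 : ((m : ℝ) + 1) ^ D ≤ 2 ^ D * (m : ℝ) ^ D := by
        rw [← mul_pow]
        exact pow_le_pow_left₀ (by positivity) (by linarith) _
      have h6 : (2 : ℝ) ^ m ≤ C * (2 ^ D * (m : ℝ) ^ D) :=
        h4.trans (mul_le_mul_of_nonneg_left h5 (by positivity))
      have h7 : (2 : ℝ) ^ m * (1 / 2) ^ m = 1 := by rw [← mul_pow]; norm_num
      calc (1 : ℝ) = (2 : ℝ) ^ m * (1 / 2) ^ m := h7.symm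
        _ ≤ C * (2 ^ D * (m : ℝ) ^ D) * (1 / 2) ^ m :=
          mul_le_mul_of_nonneg_right h6 (by positivity)
        _ = _ := by ring
    have h4 := ge_of_tendsto h2 h3
    linarith
  obtain ⟨m, hm⟩ := hex
  -- two different words with the same value
  obtain ⟨F, hF⟩ : ∃ F : (Fin m → Bool) → G,
      F = fun v => cw t e (fun i => if h : i < m then v ⟨i, h⟩ else false) m * t ^ m := ⟨_, rfl⟩
  have hnot : ¬ Function.Injective F := by
    intro hinj
    have h1 : (Set.range F).ncard = 2 ^ m := by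
      rw [← Set.image_univ, Set.ncard_image_of_injective _ hinj, Set.ncard_univ,
        Nat.card_eq_fintype_card]
      simp
    have h2 : (Set.range F).ncard ≤ (({1, t, e * t, t⁻¹} : Set G) ^ m).ncard := by
      refine Set.ncard_le_ncard ?_ (finite_pow (by simp) m)
      rintro _ ⟨v, rfl⟩
      rw [hF]
      exact cw_word t e _ m
    have h3 := h2.trans (hC m)
    omega
  unfold Function.Injective at hnot
  push Not at hnot
  obtain ⟨v, v', hvv, hne⟩ := hnot
  rw [hF] at hvv
  simp only [mul_left_inj] at hvv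
  obtain ⟨j, hj, hmem⟩ := cw_extract t e (by
    by_contra hcon
    push Not at hcon
    refine hne (funext fun i => ?_)
    have := hcon i i.2
    simpa using this) hvv
  refine ⟨j, fun k => ?_⟩
  rcases lt_or_ge k j with hk | hk
  · exact Subgroup.subset_closure ⟨k, hk, rfl⟩
  · induction k, hk using Nat.le_induction with
    | base => exact hmem
    | succ k hk ih =>
      rw [cjE_succ]
      have h1 : ∀ x ∈ Subgroup.closure (cjE t e '' Set.Iio j),
          t * x * t⁻¹ ∈ Subgroup.closure (cjE t e '' Set.Iio j) := by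
        intro x hx
        induction hx using Subgroup.closure_induction with
        | mem x hx =>
          obtain ⟨i, hi, rfl⟩ := hx
          rw [← cjE_succ]
          rcases (Nat.succ_le_of_lt (Set.mem_Iio.1 hi)).eq_or_lt with h | h
          · have : i + 1 = j := h
            rw [this]
            exact hmem
          · exact Subgroup.subset_closure ⟨i + 1, h, rfl⟩
        | one => simp
        | mul x y _ _ hx hy =>
          have : t * (x * y) * t⁻¹ = (t * x * t⁻¹) * (t * y * t⁻¹) := by group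
          rw [this]
          exact Subgroup.mul_mem _ hx hy
        | inv x _ hx =>
          have : t * x⁻¹ * t⁻¹ = (t * x * t⁻¹)⁻¹ := by group
          rw [this]
          exact Subgroup.inv_mem _ hx
      exact h1 _ ih

/-- all conjugates by powers of `t` lie in a finitely generated subgroup -/
theorem milnor_two {D : ℕ} (hG : GrowthLE G D) (t e : G) :
    ∃ T : Finset G, (∀ x ∈ T, ∃ k : ℤ, x = t ^ k * e * (t ^ k)⁻¹) ∧
      ∀ k : ℤ, t ^ k * e * (t ^ k)⁻¹ ∈ Subgroup.closure (T : Set G) := by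
  classical
  obtain ⟨j, hj⟩ := milnor_one hG t e
  obtain ⟨j', hj'⟩ := milnor_one hG t⁻¹ e
  refine ⟨(Finset.range j).image (cjE t e) ∪ (Finset.range j').image (cjE t⁻¹ e), ?_, ?_⟩
  · intro x hx
    rw [Finset.mem_union, Finset.mem_image, Finset.mem_image] at hx
    rcases hx with ⟨i, -, rfl⟩ | ⟨i, -, rfl⟩
    · exact ⟨i, by rw [zpow_natCast]; rfl⟩
    · refine ⟨-i, ?_⟩
      unfold cjE
      rw [zpow_neg, zpow_natCast, inv_pow]
  · intro k
    rcases Int.eq_nat_or_neg k with ⟨n, rfl | rfl⟩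
    · have h1 := hj n
      rw [zpow_natCast]
      refine Subgroup.closure_mono ?_ h1
      rintro _ ⟨i, hi, rfl⟩
      refine Finset.mem_coe.2 (Finset.mem_union_left _ (Finset.mem_image_of_mem _ ?_))
      exact Finset.mem_range.2 hi
    · have h1 := hj' n
      have e1 : t ^ (-(n : ℤ)) * e * (t ^ (-(n : ℤ)))⁻¹ = cjE t⁻¹ e n := by
        unfold cjE
        rw [zpow_neg, zpow_natCast, inv_pow]
      rw [e1]
      refine Subgroup.closure_mono ?_ h1
      rintro _ ⟨i, hi, rfl⟩
      refine Finset.mem_coe.2 (Finset.mem_union_right _ (Finset.mem_image_of_mem _ ?_))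
      exact Finset.mem_range.2 hi

end Vale.Agent.P188.H796

end

section

/-!
Exponential and logarithm of nilpotent elements; relation with real powers.
-/

open Finset Filter Topology

universe u v

namespace Vale.Agent.P188.H796

section expo

variable {A : Type*} [NormedRing A] [NormedAlgebra ℝ A]

/-- truncated exponential -/
noncomputable def ex (m : ℕ) (v : A) : A := ∑ k ∈ range m, ((k.factorial : ℝ)⁻¹) • v ^ k

/-- derivatives of binomial coefficients at `0` -/
noncomputable def be (k : ℕ) : ℝ := deriv (bc k) 0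

/-- truncated logarithm -/
noncomputable def lg (m : ℕ) (u : A) : A := ∑ k ∈ range m, be k • (u - 1) ^ k

theorem bc_differentiable (k : ℕ) : Differentiable ℝ (bc k) := by
  induction k with
  | zero =>
    have : bc 0 = fun _ => 1 := funext bc_zero
    rw [this]; exact differentiable_const _
  | succ k ih =>
    have : bc (k + 1) = fun t => bc k t * ((t - k) / (k + 1)) := funext (bc_succ k)
    rw [this]
    fun_prop

theorem be_zero : be 0 = 0 := by
  have : bc 0 = fun _ => 1 := funext bc_zero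
  rw [be, this]; simp

theorem be_one : be 1 = 1 := by
  have : bc 1 = fun t => t := by
    funext t
    rw [bc_succ, bc_zero]; simp
  rw [be, this]; simp

theorem hasDerivAt_rp_zero (m : ℕ) (u : A) : HasDerivAt (fun t => rp m u t) (lg m u) 0 := by
  have h : ∀ k ∈ range m, HasDerivAt (fun t => bc k t • (u - 1) ^ k) (be k • (u - 1) ^ k) 0 := by
    intro k _
    exact ((bc_differentiable k 0).hasDerivAt).smul_const _
  have := HasDerivAt.fun_sum h
  exact this

variable {m : ℕ}

theorem hasDerivAt_rp {u : A} (hu : (u - 1) ^ m = 0) (t : ℝ) :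
    HasDerivAt (fun t => rp m u t) (rp m u t * lg m u) t := by
  have h1 : (fun s => rp m u s) = fun s => rp m u t * rp m u (s - t) := by
    funext s
    rw [← rp_add hu]; congr 1; ring
  rw [h1]
  have h2 : HasDerivAt (fun s => rp m u (s - t)) (lg m u) t := by
    have h3 := hasDerivAt_rp_zero m u
    have h5 : HasDerivAt (fun t => rp m u t) (lg m u) (t - t) := by rwa [sub_self]
    exact h5.comp_sub_const t t
  exact h2.const_mul _

theorem hasDerivAt_ex {v : A} (hv : v ^ m = 0) (t : ℝ) :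
    HasDerivAt (fun t : ℝ => ex m (t • v)) (ex m (t • v) * v) t := by
  have h0 : ∀ s : ℝ, ex m (s • v) = ∑ k ∈ range m, s ^ k • ((k.factorial : ℝ)⁻¹ • v ^ k) := by
    intro s
    unfold ex
    refine sum_congr rfl fun k _ => ?_
    rw [smul_pow, smul_comm]
  have h1 : (fun s : ℝ => ex m (s • v)) =
      fun s => ∑ k ∈ range m, s ^ k • ((k.factorial : ℝ)⁻¹ • v ^ k) := funext h0
  rw [h1]
  have h2 : ∀ k ∈ range m, HasDerivAt (fun s : ℝ => s ^ k • ((k.factorial : ℝ)⁻¹ • v ^ k))
      (((k : ℝ) * t ^ (k - 1)) • ((k.factorial : ℝ)⁻¹ • v ^ k)) t := by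
    intro k _
    exact (hasDerivAt_pow k t).smul_const _
  have h3 := HasDerivAt.fun_sum h2
  suffices hs : ex m (t • v) * v =
      ∑ i ∈ range m, ((i : ℝ) * t ^ (i - 1)) • ((i.factorial : ℝ)⁻¹ • v ^ i) by
    rw [hs]; exact h3
  rw [h0 t, sum_mul]
  cases m with
  | zero => simp
  | succ m =>
    rw [sum_range_succ, sum_range_succ' (fun k => ((k : ℝ) * t ^ (k - 1)) •
      ((k.factorial : ℝ)⁻¹ • v ^ k))]
    have e1 : t ^ m • ((m.factorial : ℝ)⁻¹ • v ^ m) * v = 0 := by
      rw [smul_mul_assoc, smul_mul_assoc, ← pow_succ, hv, smul_zero, smul_zero]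
    rw [e1, add_zero]
    simp only [Nat.cast_zero, zero_mul, zero_smul, add_zero]
    refine sum_congr rfl fun k _ => ?_
    rw [smul_mul_assoc, smul_mul_assoc, ← pow_succ, smul_smul, smul_smul, Nat.add_sub_cancel,
      Nat.factorial_succ]
    congr 1
    push_cast
    have : ((k : ℝ) + 1) ≠ 0 := by positivity
    have : (k.factorial : ℝ) ≠ 0 := by positivity
    field_simp

theorem ex_zero_smul (hm : 0 < m) (v : A) : ex m ((0 : ℝ) • v) = 1 := by
  obtain ⟨m, rfl⟩ : ∃ k, m = k + 1 := ⟨m - 1, by omega⟩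
  unfold ex
  rw [sum_range_succ']
  simp

theorem ex_comm (v : A) (s : ℝ) : Commute v (ex m (s • v)) := by
  unfold ex
  refine Commute.sum_right _ _ _ fun k _ => Commute.smul_right ?_ _
  exact ((Commute.refl v).smul_right s).pow_right k

theorem hasDerivAt_ex_neg {v : A} (hv : v ^ m = 0) (t : ℝ) :
    HasDerivAt (fun t : ℝ => ex m ((-t) • v)) (-(v * ex m ((-t) • v))) t := by
  have h1 := hasDerivAt_ex hv (-t)
  have h2 : HasDerivAt (fun s : ℝ => -s) (-1) t := (hasDerivAt_id t).neg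
  have h3 := h1.scomp t h2
  have h4 : (-1 : ℝ) • (ex m ((-t) • v) * v) = -(v * ex m ((-t) • v)) := by
    rw [(ex_comm (m := m) v (-t)).eq, neg_smul, one_smul]
  rw [h4] at h3
  exact h3

/-- uniqueness for `f' = f L` -/
theorem ode_unique (hm : 0 < m) {L : A} (hL : L ^ m = 0) {f : ℝ → A}
    (hf : ∀ t, HasDerivAt f (f t * L) t) (t : ℝ) : f t = f 0 * ex m (t • L) := by
  have h1 : ∀ (g : ℝ → A), (∀ t, HasDerivAt g (g t * L) t) → ∀ t,
      g t * ex m ((-t) • L) = g 0 := by
    intro g hg t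
    have h2 : ∀ t, HasDerivAt (fun t => g t * ex m ((-t) • L)) 0 t := by
      intro t
      have := (hg t).fun_mul (hasDerivAt_ex_neg hL t)
      rw [mul_neg, mul_assoc, add_neg_cancel] at this
      exact this
    have h3 : ∀ x y, g x * ex m ((-x) • L) = g y * ex m ((-y) • L) :=
      is_const_of_deriv_eq_zero (fun t => (h2 t).differentiableAt) fun t => (h2 t).deriv
    have h4 := h3 t 0
    rw [h4, neg_zero, ex_zero_smul hm, mul_one]
  have h5 := h1 f hf t
  have h6 := h1 (fun t => ex m (t • L)) (fun t => hasDerivAt_ex hL t) (-t)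
  simp only [neg_neg, ex_zero_smul hm] at h6
  calc f t = f t * (ex m ((-t) • L) * ex m (t • L)) := by rw [h6, mul_one]
    _ = f 0 * ex m (t • L) := by rw [← mul_assoc, h5]

theorem ex_add (hm : 0 < m) {v : A} (hv : v ^ m = 0) (s t : ℝ) :
    ex m ((s + t) • v) = ex m (s • v) * ex m (t • v) := by
  have := ode_unique hm hv (f := fun t => ex m ((s + t) • v)) (fun t => by
    exact (hasDerivAt_ex hv (s + t)).comp_const_add s t) t
  simpa using this

theorem ex_neg_mul (hm : 0 < m) {v : A} (hv : v ^ m = 0) : ex m (-v) * ex m v = 1 := by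
  have := ex_add hm hv (-1) 1
  rw [neg_add_cancel, ex_zero_smul hm, neg_smul, one_smul] at this
  exact this.symm

theorem ex_mul_neg (hm : 0 < m) {v : A} (hv : v ^ m = 0) : ex m v * ex m (-v) = 1 := by
  have := ex_add hm hv 1 (-1)
  rw [add_neg_cancel, ex_zero_smul hm, neg_smul, one_smul] at this
  exact this.symm

theorem ex_sub_one_pow (hm : 0 < m) {v : A} (hv : v ^ m = 0) : (ex m v - 1) ^ m = 0 := by
  obtain ⟨m, rfl⟩ : ∃ k, m = k + 1 := ⟨m - 1, by omega⟩
  have h1 : ex (m + 1) v - 1 =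
      v * ∑ k ∈ range m, (((k + 1).factorial : ℝ)⁻¹) • v ^ k := by
    unfold ex
    rw [sum_range_succ', mul_sum]
    simp only [Nat.factorial_zero, Nat.cast_one, inv_one, pow_zero, one_smul,
      add_sub_cancel_right]
    refine sum_congr rfl fun k _ => ?_
    rw [pow_succ', mul_smul_comm]
  have h2 : Commute v (∑ k ∈ range m, (((k + 1).factorial : ℝ)⁻¹) • v ^ k) := by
    refine Commute.sum_right _ _ _ fun k _ => ?_
    exact ((Commute.refl v).pow_right k).smul_right _
  rw [h1, h2.mul_pow, hv, zero_mul]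

theorem lg_pow {u : A} (hu : (u - 1) ^ m = 0) : (lg m u) ^ m = 0 := by
  cases m with
  | zero =>
    have h1 : (1 : A) = 0 := by simpa using hu
    rw [pow_zero, h1]
  | succ m =>
    have h1 : lg (m + 1) u = (u - 1) * ∑ k ∈ range m, be (k + 1) • (u - 1) ^ k := by
      unfold lg
      rw [sum_range_succ', be_zero, zero_smul, add_zero, mul_sum]
      refine sum_congr rfl fun k _ => ?_
      rw [pow_succ', mul_smul_comm]
    have h2 : Commute (u - 1) (∑ k ∈ range m, be (k + 1) • (u - 1) ^ k) := by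
      refine Commute.sum_right _ _ _ fun k _ => ?_
      exact ((Commute.refl (u - 1)).pow_right k).smul_right _
    rw [h1, h2.mul_pow, hu, zero_mul]

/-- real powers are exponentials -/
theorem rp_eq_ex (hm : 0 < m) {u : A} (hu : (u - 1) ^ m = 0) (t : ℝ) :
    rp m u t = ex m (t • lg m u) := by
  have := ode_unique hm (lg_pow hu) (f := fun t => rp m u t) (hasDerivAt_rp hu) t
  rwa [rp_zero hu, one_mul] at this

theorem ex_lg (hm : 0 < m) {u : A} (hu : (u - 1) ^ m = 0) : ex m (lg m u) = u := by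
  have := rp_eq_ex hm hu 1
  rw [one_smul, rp_one hu] at this
  exact this.symm

theorem PC.ex {v : A} : PC (fun t => ex m (t • v)) := by
  unfold H796.ex
  refine PC.sum _ fun k _ => ?_
  have h := ((PC.id.smul (PC.const v)).pow k).map (((k.factorial : ℝ)⁻¹) • LinearMap.id)
  exact h

theorem ex_nsmul (hm : 0 < m) {v : A} (hv : v ^ m = 0) (n : ℕ) :
    ex m ((n : ℝ) • v) = (ex m v) ^ n := by
  induction n with
  | zero => rw [Nat.cast_zero, ex_zero_smul hm, pow_zero]
  | succ n ih =>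
    rw [Nat.cast_succ, ex_add hm hv, ih, one_smul, pow_succ]

theorem rp_ex (hm : 0 < m) {v : A} (hv : v ^ m = 0) (t : ℝ) :
    rp m (ex m v) t = ex m (t • v) := by
  refine PC.eq_of_nat (f := fun t => rp m (ex m v) t) (g := fun t => ex m (t • v))
    (PC.id.rp m _) PC.ex ?_ t
  intro n
  rw [rp_nat (ex_sub_one_pow hm hv), ex_nsmul hm hv]

theorem lg_ex (hm : 0 < m) {v : A} (hv : v ^ m = 0) : lg m (ex m v) = v := by
  have h1 := hasDerivAt_rp_zero m (ex m v)
  have h2 : (fun t => rp m (ex m v) t) = fun t => ex m (t • v) := funext (rp_ex hm hv)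
  rw [h2] at h1
  have h3 := hasDerivAt_ex hv 0
  rw [ex_zero_smul hm, one_mul] at h3
  exact h1.unique h3

/-- derivative of the logarithm at `1` along a curve -/
theorem hasDerivAt_lg_one (hm : 1 < m) {g : ℝ → A} {g' : A} (hg : HasDerivAt g g' 0)
    (h0 : g 0 = 1) : HasDerivAt (fun t => lg m (g t)) g' 0 := by
  have h1 : HasDerivAt (fun t => g t - 1) g' 0 := hg.sub_const 1
  have h2 : ∀ k : ℕ, HasDerivAt (fun t => (g t - 1) ^ (k + 2)) 0 0 := by
    have key : ∀ k : ℕ, ∃ c, HasDerivAt (fun t => (g t - 1) ^ (k + 1)) c 0 := by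
      intro k
      induction k with
      | zero => exact ⟨g', by simpa using h1⟩
      | succ k ih =>
        obtain ⟨c, hc⟩ := ih
        refine ⟨_, (hc.mul h1).congr_of_eventuallyEq ?_⟩
        exact Eventually.of_forall fun t => by simp [pow_succ]
    intro k
    obtain ⟨c, hc⟩ := key k
    have := hc.mul h1
    simp only [h0, sub_self, mul_zero, zero_add] at this
    rw [zero_pow (by omega), zero_mul] at this
    refine this.congr_of_eventuallyEq ?_
    exact Eventually.of_forall fun t => by simp [pow_succ]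
  obtain ⟨m, rfl⟩ : ∃ k, m = k + 2 := ⟨m - 2, by omega⟩
  have h3 : (fun t => lg (m + 2) (g t)) = fun t =>
      (g t - 1) + ∑ k ∈ range m, be (k + 2) • (g t - 1) ^ (k + 2) := by
    funext t
    unfold lg
    rw [sum_range_succ', sum_range_succ']
    simp only [be_zero, zero_add, be_one, zero_smul, pow_one, one_smul, add_zero]
    rw [add_comm]
  rw [h3]
  have h4 : HasDerivAt (fun t => ∑ k ∈ range m, be (k + 2) • (g t - 1) ^ (k + 2))
      (∑ k ∈ range m, be (k + 2) • (0 : A)) 0 :=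
    HasDerivAt.fun_sum fun k _ => (h2 k).const_smul (be (k + 2))
  simp only [smul_zero, sum_const_zero] at h4
  simpa using h1.fun_add h4

theorem continuous_ex : Continuous (fun v : A => ex m v) := by
  unfold ex; fun_prop

theorem continuous_lg : Continuous (fun v : A => lg m v) := by
  unfold lg; fun_prop

theorem ex_conj (u : Aˣ) (v : A) : ex m (u * v * (u⁻¹ : Aˣ)) = u * ex m v * (u⁻¹ : Aˣ) := by
  have key : ∀ k : ℕ, ((u : A) * v * (u⁻¹ : Aˣ)) ^ k = u * v ^ k * (u⁻¹ : Aˣ) := by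
    intro k
    induction k with
    | zero => simp
    | succ k ih => rw [pow_succ, ih, pow_succ]; simp only [mul_assoc, Units.inv_mul_cancel_left]
  unfold ex
  rw [mul_sum, sum_mul]
  refine sum_congr rfl fun k _ => ?_
  rw [mul_smul_comm, smul_mul_assoc, key]

end expo

end Vale.Agent.P188.H796

end

section

/-!
Derivative of the logarithm along `h ↦ exp Z * exp (h Y)` in a nilpotent algebra: it is a
universal polynomial in `ad Z` applied to `Y`.
-/

open Finset Filter Topology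

namespace Vale.Agent.P188.H615

open Vale.Agent.P188.H796

section ad

variable {A : Type*} [NormedRing A] [NormedAlgebra ℝ A]

/-- `ad Z W = Z W - W Z` -/
noncomputable def adL (Z : A) : A →ₗ[ℝ] A := LinearMap.mulLeft ℝ Z - LinearMap.mulRight ℝ Z

@[simp] theorem adL_apply (Z W : A) : adL Z W = Z * W - W * Z := rfl

theorem adL_pow_zero {m : ℕ} {Z : A} (hZ : Z ^ m = 0) : (adL Z) ^ (2 * m) = 0 := by
  have hc : Commute (LinearMap.mulLeft ℝ Z) (LinearMap.mulRight ℝ Z) := by
    refine LinearMap.ext fun W => ?_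
    simp [Module.End.mul_apply, mul_assoc]
  have h1 : IsNilpotent (LinearMap.mulLeft ℝ Z) := ⟨m, by
    rw [LinearMap.pow_mulLeft, hZ]; simp⟩
  have h2 : (LinearMap.mulLeft ℝ Z) ^ m = 0 := by
    rw [LinearMap.pow_mulLeft, hZ]; simp
  have h3 : (-(LinearMap.mulRight ℝ Z)) ^ m = 0 := by
    rw [neg_pow, LinearMap.pow_mulRight, hZ]; simp
  have h4 : adL Z = LinearMap.mulLeft ℝ Z + (-(LinearMap.mulRight ℝ Z)) := by
    rw [adL, sub_eq_add_neg]
  rw [h4, hc.neg_right.add_pow]
  refine sum_eq_zero fun i hi => ?_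
  by_cases h : m ≤ i
  · obtain ⟨j, rfl⟩ := Nat.exists_eq_add_of_le h
    rw [pow_add, h2]; simp
  · have : m ≤ 2 * m - i := by omega
    obtain ⟨j, hj⟩ := Nat.exists_eq_add_of_le this
    rw [hj, pow_add _ m j, h3]; simp

variable {m : ℕ}

/-- coefficients of the derivative of `t ↦ t`-curve powers -/
noncomputable def Ek (Z W : A) : ℕ → A
  | 0 => 0
  | k + 1 => Ek Z W k * Z + Z ^ k * W

theorem hasDerivAt_pow_curve {c : ℝ → A} {W : A} (hc : HasDerivAt c W 0) (k : ℕ) :
    HasDerivAt (fun h => c h ^ k) (Ek (c 0) W k) 0 := by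
  induction k with
  | zero => simpa [Ek] using hasDerivAt_const (0 : ℝ) (1 : A)
  | succ k ih =>
    have := ih.fun_mul hc
    simp only [Ek, pow_succ]
    exact this

/-- `D t = ∂_h ex (t Z(h))` at `h = 0` -/
noncomputable def Dt (m : ℕ) (Z W : A) (t : ℝ) : A :=
  ∑ k ∈ range m, t ^ k • ((k.factorial : ℝ)⁻¹ • Ek Z W k)

theorem hasDerivAt_ex_curve {c : ℝ → A} {W : A} (hc : HasDerivAt c W 0) (t : ℝ) :
    HasDerivAt (fun h => ex m (t • c h)) (Dt m (c 0) W t) 0 := by
  have h0 : (fun h => ex m (t • c h)) =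
      fun h => ∑ k ∈ range m, t ^ k • ((k.factorial : ℝ)⁻¹ • (c h) ^ k) := by
    funext h
    unfold ex
    refine sum_congr rfl fun k _ => ?_
    rw [smul_pow, smul_comm]
  rw [h0]
  unfold Dt
  refine HasDerivAt.fun_sum fun k _ => ?_
  exact HasDerivAt.const_smul (t ^ k)
    (HasDerivAt.const_smul ((k.factorial : ℝ)⁻¹) (hasDerivAt_pow_curve hc k))

/-- the differential equation of `D` in `t` -/
theorem hasDerivAt_Dt {Z W : A} (hE : Ek Z W m = 0) (t : ℝ) :
    HasDerivAt (Dt m Z W) (Dt m Z W t * Z + ex m (t • Z) * W) t := by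
  have h2 : ∀ k ∈ range m, HasDerivAt (fun s : ℝ => s ^ k • ((k.factorial : ℝ)⁻¹ • Ek Z W k))
      (((k : ℝ) * t ^ (k - 1)) • ((k.factorial : ℝ)⁻¹ • Ek Z W k)) t := by
    intro k _
    exact (hasDerivAt_pow k t).smul_const _
  have h3 := HasDerivAt.fun_sum h2
  suffices hs : Dt m Z W t * Z + ex m (t • Z) * W =
      ∑ i ∈ range m, ((i : ℝ) * t ^ (i - 1)) • ((i.factorial : ℝ)⁻¹ • Ek Z W i) by
    rw [hs]; exact h3
  have h4 : Dt m Z W t * Z + ex m (t • Z) * W =
      ∑ k ∈ range m, t ^ k • ((k.factorial : ℝ)⁻¹ • Ek Z W (k + 1)) := by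
    unfold Dt ex
    rw [sum_mul, sum_mul, ← sum_add_distrib]
    refine sum_congr rfl fun k _ => ?_
    simp only [Ek, smul_add, smul_mul_assoc, smul_pow]
    congr 1
    rw [smul_comm]
  rw [h4]
  cases m with
  | zero => simp
  | succ m =>
    rw [sum_range_succ, sum_range_succ' (fun k => ((k : ℝ) * t ^ (k - 1)) •
      ((k.factorial : ℝ)⁻¹ • Ek Z W k)), hE]
    simp only [smul_zero, add_zero, Nat.cast_zero, zero_mul, zero_smul]
    refine sum_congr rfl fun k _ => ?_
    rw [smul_smul, smul_smul, Nat.add_sub_cancel, Nat.factorial_succ]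
    congr 1
    push_cast
    have : ((k : ℝ) + 1) ≠ 0 := by positivity
    have : (k.factorial : ℝ) ≠ 0 := by positivity
    field_simp

/-- partial sums of `∑ (-1)^k t^{k+1}/(k+1)! ad^k W` -/
noncomputable def St (M : ℕ) (Z W : A) (t : ℝ) : A :=
  ∑ k ∈ range M, t ^ (k + 1) • (((-1) ^ k * ((k + 1).factorial : ℝ)⁻¹) • ((adL Z) ^ k) W)

theorem hasDerivAt_St {M : ℕ} {Z W : A} (hM : ((adL Z) ^ M) W = 0) (t : ℝ) :
    HasDerivAt (St M Z W) (W - adL Z (St M Z W t)) t := by
  have h2 : ∀ k ∈ range M, HasDerivAt (fun s : ℝ => s ^ (k + 1) •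
      (((-1) ^ k * ((k + 1).factorial : ℝ)⁻¹) • ((adL Z) ^ k) W))
      ((((k + 1 : ℕ) : ℝ) * t ^ k) • (((-1) ^ k * ((k + 1).factorial : ℝ)⁻¹) •
        ((adL Z) ^ k) W)) t := by
    intro k _
    exact (hasDerivAt_pow (k + 1) t).smul_const _
  have h3 := HasDerivAt.fun_sum h2
  suffices hs : W - adL Z (St M Z W t) = ∑ k ∈ range M, (((k + 1 : ℕ) : ℝ) * t ^ k) •
      (((-1) ^ k * ((k + 1).factorial : ℝ)⁻¹) • ((adL Z) ^ k) W) by
    rw [hs]; exact h3
  have h5 : ∀ k : ℕ, (((k + 1 : ℕ) : ℝ) * t ^ k) •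
      (((-1) ^ k * ((k + 1).factorial : ℝ)⁻¹) • ((adL Z) ^ k) W) =
      (t ^ k * ((-1) ^ k * ((k.factorial : ℝ))⁻¹)) • ((adL Z) ^ k) W := by
    intro k
    rw [smul_smul, Nat.factorial_succ]
    congr 1
    push_cast
    have : ((k : ℝ) + 1) ≠ 0 := by positivity
    have : (k.factorial : ℝ) ≠ 0 := by positivity
    field_simp
  rw [sum_congr rfl fun k _ => h5 k]
  have h6 : adL Z (St M Z W t) = ∑ k ∈ range M,
      (t ^ (k + 1) * ((-1) ^ k * ((k + 1).factorial : ℝ)⁻¹)) • ((adL Z) ^ (k + 1)) W := by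
    unfold St
    rw [map_sum]
    refine sum_congr rfl fun k _ => ?_
    rw [map_smul, map_smul, smul_smul, pow_succ' (adL Z), Module.End.mul_apply]
  rw [h6]
  cases M with
  | zero =>
    have : W = 0 := by simpa using hM
    simp [this]
  | succ M =>
    rw [sum_range_succ, hM, smul_zero, add_zero, sum_range_succ' (fun k =>
      (t ^ k * ((-1) ^ k * ((k.factorial : ℝ))⁻¹)) • ((adL Z) ^ k) W)]
    simp only [pow_zero, Nat.factorial_zero, Nat.cast_one, inv_one, mul_one, one_smul,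
      Module.End.one_apply]
    rw [sub_eq_add_neg, add_comm, ← sum_neg_distrib]
    congr 1
    refine sum_congr rfl fun k _ => ?_
    rw [← neg_smul]
    congr 1
    rw [pow_succ (-1 : ℝ)]
    ring

/-- uniqueness for `R' = - ad Z R` -/
theorem ad_unique (hm : 0 < m) {Z : A} (hZ : Z ^ m = 0) {R : ℝ → A}
    (hR : ∀ t, HasDerivAt R (-(adL Z (R t))) t) (h0 : R 0 = 0) (t : ℝ) : R t = 0 := by
  have h2 : ∀ t, HasDerivAt (fun t => ex m (t • Z) * R t * ex m ((-t) • Z)) 0 t := by
    intro t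
    have h3 := ((hasDerivAt_ex hZ t).fun_mul (hR t)).fun_mul (hasDerivAt_ex_neg hZ t)
    refine h3.congr_deriv ?_
    rw [adL_apply]
    noncomm_ring
  have h3 : ∀ x y, ex m (x • Z) * R x * ex m ((-x) • Z) = ex m (y • Z) * R y * ex m ((-y) • Z) :=
    is_const_of_deriv_eq_zero (fun t => (h2 t).differentiableAt) fun t => (h2 t).deriv
  have h4 := h3 t 0
  rw [h0, mul_zero, zero_mul] at h4
  have h5 : ex m ((-t) • Z) * ex m (t • Z) = 1 := by
    rw [← ex_add hm hZ, neg_add_cancel, ex_zero_smul hm]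
  calc R t = (ex m ((-t) • Z) * ex m (t • Z)) * R t * (ex m ((-t) • Z) * ex m (t • Z)) := by
        rw [h5, one_mul, mul_one]
    _ = ex m ((-t) • Z) * (ex m (t • Z) * R t * ex m ((-t) • Z)) * ex m (t • Z) := by
        simp only [mul_assoc]
    _ = 0 := by rw [h4, mul_zero, zero_mul]

/-- `ex (-Z) * ∂ ex = ψ(ad Z) W`. -/
theorem dexp_formula (hm : 0 < m) {Z W : A} (hZ : Z ^ m = 0) (hE : Ek Z W m = 0) (t : ℝ) :
    ex m ((-t) • Z) * Dt m Z W t = St (2 * m) Z W t := by
  have hM : ((adL Z) ^ (2 * m)) W = 0 := by rw [adL_pow_zero hZ]; rfl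
  have key : ∀ t, HasDerivAt (fun t => ex m ((-t) • Z) * Dt m Z W t - St (2 * m) Z W t)
      (-(adL Z (ex m ((-t) • Z) * Dt m Z W t - St (2 * m) Z W t))) t := by
    intro t
    have h3 := ((hasDerivAt_ex_neg hZ t).fun_mul (hasDerivAt_Dt hE t)).fun_sub
      (hasDerivAt_St hM t)
    refine h3.congr_deriv ?_
    rw [map_sub, adL_apply Z (ex m ((-t) • Z) * Dt m Z W t)]
    have h5 : ex m ((-t) • Z) * ex m (t • Z) = 1 := by
      rw [← ex_add hm hZ, neg_add_cancel, ex_zero_smul hm]
    have h6 : ex m ((-t) • Z) * (Dt m Z W t * Z + ex m (t • Z) * W) =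
        ex m ((-t) • Z) * Dt m Z W t * Z + W := by
      rw [mul_add, ← mul_assoc, ← mul_assoc, h5, one_mul]
    rw [h6]
    noncomm_ring
  have h0 : ex m ((-(0 : ℝ)) • Z) * Dt m Z W 0 - St (2 * m) Z W 0 = 0 := by
    have h1 : Dt m Z W 0 = 0 := by
      unfold Dt
      refine sum_eq_zero fun k _ => ?_
      cases k with
      | zero => simp [Ek]
      | succ k => simp
    have h2 : St (2 * m) Z W 0 = 0 := by
      unfold St
      exact sum_eq_zero fun k _ => by simp
    rw [h1, h2]; simp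
  have := ad_unique hm hZ key h0 t
  exact sub_eq_zero.mp this

/-- the polynomial `ψ = ∑_{k<2m} (-1)^k X^k / (k+1)!`. -/
noncomputable def psi (m : ℕ) : Polynomial ℝ :=
  ∑ k ∈ range (2 * m), Polynomial.C ((-1) ^ k * ((k + 1).factorial : ℝ)⁻¹) * Polynomial.X ^ k

theorem exists_inv (m : ℕ) (hm : 0 < m) :
    ∃ a b : Polynomial ℝ, a * psi m + b * Polynomial.X ^ (2 * m) = 1 := by
  have h1 : IsCoprime (psi m) (Polynomial.X ^ (2 * m)) := by
    apply IsCoprime.pow_right
    obtain ⟨n, hn⟩ : ∃ n, 2 * m = n + 1 := ⟨2 * m - 1, by omega⟩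
    refine ⟨1, -(∑ k ∈ range n, Polynomial.C ((-1) ^ (k + 1) * ((k + 1 + 1).factorial : ℝ)⁻¹) *
      Polynomial.X ^ k), ?_⟩
    rw [psi, hn, sum_range_succ', one_mul, neg_mul, sum_mul]
    have : ∀ k ∈ range n, Polynomial.C ((-1) ^ (k + 1) * ((k + 1 + 1).factorial : ℝ)⁻¹) *
      Polynomial.X ^ (k + 1) = Polynomial.C ((-1) ^ (k + 1) * ((k + 1 + 1).factorial : ℝ)⁻¹) *
      Polynomial.X ^ k * Polynomial.X := fun k _ => by rw [pow_succ]; ring
    rw [sum_congr rfl this]
    simp
  exact h1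

/-- universal inverse polynomial -/
noncomputable def aa (m : ℕ) (hm : 0 < m) : Polynomial ℝ := (exists_inv m hm).choose

theorem St_eq_aeval (Z W : A) :
    St (2 * m) Z W 1 = (Polynomial.aeval (adL Z) (psi m)) W := by
  unfold St psi
  rw [map_sum, LinearMap.sum_apply]
  refine sum_congr rfl fun k _ => ?_
  rw [one_pow, one_smul, map_mul, Polynomial.aeval_C, map_pow, Polynomial.aeval_X,
    Module.End.mul_apply, Module.algebraMap_end_apply]

theorem aa_coeff_zero (hm : 0 < m) : (aa m hm).coeff 0 = 1 := by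
  obtain ⟨b, hb⟩ := (exists_inv m hm).choose_spec
  change aa m hm * psi m + b * Polynomial.X ^ (2 * m) = 1 at hb
  have h1 := congrArg (fun p => Polynomial.coeff p 0) hb
  simp only [Polynomial.coeff_add, Polynomial.mul_coeff_zero, Polynomial.coeff_one_zero] at h1
  have h2 : (Polynomial.X ^ (2 * m) : Polynomial ℝ).coeff 0 = 0 := by
    rw [Polynomial.coeff_X_pow, if_neg (by omega)]
  have h3 : (psi m).coeff 0 = 1 := by
    unfold psi
    rw [Polynomial.finsetSum_coeff]
    rw [Finset.sum_eq_single_of_mem 0 (by rw [mem_range]; omega)]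
    · simp
    · intro k _ hk
      rw [Polynomial.coeff_C_mul, Polynomial.coeff_X_pow, if_neg (Ne.symm hk), mul_zero]
  rw [h2, h3, mul_zero, add_zero, mul_one] at h1
  exact h1

theorem psi_coeff_zero (hm : 0 < m) : (psi m).coeff 0 = 1 := by
  unfold psi
  rw [Polynomial.finsetSum_coeff]
  rw [Finset.sum_eq_single_of_mem 0 (by rw [mem_range]; omega)]
  · simp
  · intro k _ hk
    rw [Polynomial.coeff_C_mul, Polynomial.coeff_X_pow, if_neg (Ne.symm hk), mul_zero]

theorem aeval_aa (hm : 0 < m) {Z : A} (hZ : Z ^ m = 0) (W : A) :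
    (Polynomial.aeval (adL Z) (aa m hm)) (St (2 * m) Z W 1) = W := by
  obtain ⟨b, hb⟩ := (exists_inv m hm).choose_spec
  have h1 : St (2 * m) Z W 1 = (Polynomial.aeval (adL Z) (psi m)) W := St_eq_aeval Z W
  have h2 := congrArg (Polynomial.aeval (adL Z)) hb
  rw [map_add, map_mul, map_mul, map_pow, Polynomial.aeval_X, adL_pow_zero hZ, mul_zero,
    add_zero, map_one] at h2
  rw [h1, ← Module.End.mul_apply]
  change ((Polynomial.aeval (adL Z)) (exists_inv m hm).choose * _) W = W
  rw [h2]; rfl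

end ad

end Vale.Agent.P188.H615

end

section

/-!
The Lie algebra of the real Malcev completion.
-/

open Finset Filter Topology

universe u v

namespace Vale.Agent.P188.H796

namespace RD

section alg

variable {N : Type u} [Group N] {d n : ℕ} {D : MB N d n} {A : Type v} [Ring A] [Algebra ℝ A]
  (R : RD D A)

/-- the nilpotent subalgebra spanned by the `ρ(x) - 1` -/
def J : Submodule ℝ A := Submodule.span ℝ (Set.range fun x => R.ρ x - 1)

theorem J_pow : R.J ^ R.m = ⊥ := by
  rw [J, Submodule.span_pow, Submodule.span_eq_bot]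
  intro a ha
  rw [Set.mem_pow] at ha
  obtain ⟨f, rfl⟩ := ha
  choose x hx using fun i => (f i).2
  have h1 := R.nil x
  have h2 : (fun i => (R.ρ (x i) - 1)) = fun i => ((f i : A)) := funext hx
  rw [h2] at h1
  exact h1

theorem J_nil {v : A} (hv : v ∈ R.J) : v ^ R.m = 0 := by
  have h1 := Submodule.pow_mem_pow R.J hv R.m
  rw [R.J_pow] at h1
  exact (Submodule.mem_bot ℝ).1 h1

theorem J_mul {v w : A} (hv : v ∈ R.J) (hw : w ∈ R.J) : v * w ∈ R.J := by
  have h1 : R.J * R.J ≤ R.J := by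
    conv_lhs => rw [J, Submodule.span_mul_span]
    rw [Submodule.span_le]
    rintro _ ⟨_, ⟨x, rfl⟩, _, ⟨y, rfl⟩, rfl⟩
    have : (R.ρ x - 1) * (R.ρ y - 1) = (R.ρ (x * y) - 1) - (R.ρ x - 1) - (R.ρ y - 1) := by
      rw [map_mul]; noncomm_ring
    simp only [SetLike.mem_coe]
    rw [this]
    exact Submodule.sub_mem _ (Submodule.sub_mem _ (Submodule.subset_span ⟨_, rfl⟩)
      (Submodule.subset_span ⟨_, rfl⟩)) (Submodule.subset_span ⟨_, rfl⟩)
  exact h1 (Submodule.mul_mem_mul hv hw)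

theorem J_pow_mem {v : A} (hv : v ∈ R.J) {k : ℕ} (hk : 1 ≤ k) : v ^ k ∈ R.J := by
  induction k, hk using Nat.le_induction with
  | base => simpa using hv
  | succ k _ ih => rw [pow_succ]; exact R.J_mul ih hv

theorem E_sub_one_mem (s : R.NR) : R.E s - 1 ∈ R.J := by
  have h1 := R.dens (F := A ⧸ R.J) (f := fun s => R.J.mkQ (R.E s - 1)) (g := fun _ => 0)
    (fun γ hγ => ((R.PC_E hγ).sub (PC.const 1)).map R.J.mkQ) (fun γ hγ => PC.const 0)
    (fun y => by
      have h2 : R.E (R.ι y) = R.ρ y := R.E_coord y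
      rw [h2]
      simp only [Submodule.mkQ_apply, Submodule.Quotient.mk_eq_zero]
      exact Submodule.subset_span ⟨y, rfl⟩) s
  rw [Submodule.mkQ_apply, Submodule.Quotient.mk_eq_zero] at h1
  exact h1

theorem E_unip (s : R.NR) : (R.E s - 1) ^ R.m = 0 := R.J_nil (R.E_sub_one_mem s)

theorem ℓ_toA (s : R.NR) (i : Fin d) : R.ℓ i (R.E s) = s i := R.ℓ_E s i

theorem E_of_range {a : A} (h : ∃ s : R.NR, R.E s = a) : R.E (fun i => R.ℓ i a) = a := by
  obtain ⟨s, rfl⟩ := h
  congr 1
  funext i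
  exact R.ℓ_E s i

/-- real powers stay in the group -/
theorem exists_rp (s : R.NR) (t : ℝ) : ∃ s' : R.NR, R.E s' = rp R.m (R.E s) t := by
  refine ⟨fun i => R.ℓ i (rp R.m (R.E s) t), ?_⟩
  refine PC.eq_of_nat (f := fun t => R.E (fun i => R.ℓ i (rp R.m (R.E s) t)))
    (g := fun t => rp R.m (R.E s) t)
    (R.PC_E fun i => (PC.id.rp _ _).map (R.ℓ i)) (PC.id.rp _ _) ?_ t
  intro k
  rw [rp_nat (R.E_unip s)]
  refine R.E_of_range ⟨s ^ k, ?_⟩
  exact map_pow R.toA s k

end alg

section lie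

variable {N : Type u} [Group N] {d n : ℕ} {D : MB N d n} {A : Type v} [NormedRing A]
  [NormedAlgebra ℝ A] [FiniteDimensional ℝ A] (R : RD D A)

omit [FiniteDimensional ℝ A] in
theorem hm0 : 0 < R.m := lt_trans Nat.zero_lt_one R.one_lt

omit [FiniteDimensional ℝ A] in
theorem lg_mem_J {u : A} (hu : u - 1 ∈ R.J) : lg R.m u ∈ R.J := by
  unfold lg
  refine Submodule.sum_mem _ fun k _ => ?_
  rcases Nat.eq_zero_or_pos k with rfl | hk
  · rw [be_zero, zero_smul]; exact Submodule.zero_mem _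
  · exact Submodule.smul_mem _ _ (R.J_pow_mem hu hk)

/-- logarithms of the elements of the real group -/
def VS : Set A := {v | v ∈ R.J ∧ ∃ s : R.NR, R.E s = ex R.m v}

/-- logarithm of an element of the real group -/
noncomputable def Lg (s : R.NR) : A := lg R.m (R.E s)

omit [FiniteDimensional ℝ A] in
theorem Lg_mem (s : R.NR) : R.Lg s ∈ R.VS :=
  ⟨R.lg_mem_J (R.E_sub_one_mem s), s, (ex_lg R.hm0 (R.E_unip s)).symm⟩

omit [FiniteDimensional ℝ A] in
theorem ex_Lg (s : R.NR) : ex R.m (R.Lg s) = R.E s := ex_lg R.hm0 (R.E_unip s)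

omit [FiniteDimensional ℝ A] in
theorem continuous_E : Continuous R.E := by
  have h1 : ∀ i, Continuous fun s : Fin d → ℝ => rp R.m (R.ρ (D.b i)) (s i) := by
    intro i
    unfold rp
    refine continuous_finsetSum _ fun k _ => ?_
    exact (((bc_differentiable k).continuous).comp (continuous_apply i)).smul continuous_const
  have h2 : ∀ L : List (Fin d), Continuous fun s : Fin d → ℝ =>
      (L.map fun i => rp R.m (R.ρ (D.b i)) (s i)).prod := by
    intro L
    induction L with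
    | nil => simpa using continuous_const
    | cons i L ih =>
      simp only [List.map_cons, List.prod_cons]
      exact (h1 i).mul ih
  have h3 : R.E = fun s : Fin d → ℝ => ((List.finRange d).map fun i =>
      rp R.m (R.ρ (D.b i)) (s i)).prod := by
    funext s
    have h4 := map_list_prod (Units.coeHom A)
      (List.ofFn fun i => rpU R.m (R.ρ (D.b i)) (R.unip _) (s i))
    rw [List.map_ofFn] at h4
    have h5 : R.E s = (List.ofFn ((Units.coeHom A) ∘ fun i =>
      rpU R.m (R.ρ (D.b i)) (R.unip _) (s i))).prod := h4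
    rw [h5, List.ofFn_eq_map]
    rfl
  rw [h3]
  exact h2 _

theorem isClosed_range : IsClosed {a : A | ∃ s : R.NR, R.E s = a} := by
  have h1 : {a : A | ∃ s : R.NR, R.E s = a} = {a : A | R.E (fun i => R.ℓ i a) = a} := by
    ext a
    exact ⟨fun h => R.E_of_range h, fun h => ⟨_, h⟩⟩
  rw [h1]
  refine isClosed_eq ?_ continuous_id
  refine R.continuous_E.comp (continuous_pi fun i => ?_)
  exact (R.ℓ i).continuous_of_finiteDimensional

theorem isClosed_VS : IsClosed R.VS := by
  have h1 : IsClosed (R.J : Set A) := Submodule.closed_of_finiteDimensional _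
  have h2 : IsClosed ((fun v : A => ex R.m v) ⁻¹' {a : A | ∃ s : R.NR, R.E s = a}) :=
    R.isClosed_range.preimage continuous_ex
  exact h1.inter h2

omit [FiniteDimensional ℝ A] in
theorem smul_mem_VS {v : A} (hv : v ∈ R.VS) (t : ℝ) : t • v ∈ R.VS := by
  obtain ⟨hJ, s, hs⟩ := hv
  refine ⟨R.J.smul_mem t hJ, ?_⟩
  obtain ⟨s', hs'⟩ := R.exists_rp s t
  exact ⟨s', by rw [hs', hs, rp_ex R.hm0 (R.J_nil hJ)]⟩

/-- limits of difference quotients of curves in `VS` -/
theorem deriv_mem_VS {Z : ℝ → A} {Z' : A} (hZ : HasDerivAt Z Z' 0)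
    (h : ∀ t : ℝ, t ≠ 0 → t⁻¹ • (Z t - Z 0) ∈ R.VS) : Z' ∈ R.VS := by
  rw [hasDerivAt_iff_tendsto_slope_zero] at hZ
  refine R.isClosed_VS.mem_of_tendsto hZ ?_
  filter_upwards [self_mem_nhdsWithin] with t ht
  rw [zero_add]
  exact h t ht

theorem add_mem_VS {v w : A} (hv : v ∈ R.VS) (hw : w ∈ R.VS) : v + w ∈ R.VS := by
  have h1 : ∀ t : ℝ, lg R.m (ex R.m (t • v) * ex R.m (t • w)) ∈ R.VS := by
    intro t
    obtain ⟨_, s, hs⟩ := R.smul_mem_VS hv t
    obtain ⟨_, s', hs'⟩ := R.smul_mem_VS hw t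
    have := R.Lg_mem (s * s')
    rwa [Lg, toA_mul, hs, hs'] at this
  have hd : HasDerivAt (fun t : ℝ => ex R.m (t • v) * ex R.m (t • w)) (v + w) 0 := by
    have e1 := hasDerivAt_ex (R.J_nil hv.1) 0
    have e2 := hasDerivAt_ex (R.J_nil hw.1) 0
    have := e1.fun_mul e2
    simp only [ex_zero_smul R.hm0, one_mul, mul_one] at this
    exact this
  have h0 : ex R.m ((0 : ℝ) • v) * ex R.m ((0 : ℝ) • w) = 1 := by
    rw [ex_zero_smul R.hm0, ex_zero_smul R.hm0, one_mul]
  have hd2 := hasDerivAt_lg_one R.one_lt hd h0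
  refine R.deriv_mem_VS hd2 ?_
  intro t _
  have h2 : lg R.m (ex R.m ((0 : ℝ) • v) * ex R.m ((0 : ℝ) • w)) = 0 := by
    rw [h0]
    unfold lg
    refine sum_eq_zero fun k _ => ?_
    rcases Nat.eq_zero_or_pos k with rfl | hk
    · rw [be_zero, zero_smul]
    · rw [sub_self, zero_pow (by omega), smul_zero]
  simp only [h2, sub_zero]
  exact R.smul_mem_VS (h1 t) _

theorem zero_mem_VS : (0 : A) ∈ R.VS := by
  have := R.smul_mem_VS (R.Lg_mem 1) 0
  rwa [zero_smul] at this

/-- the Lie algebra as a submodule -/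
def V : Submodule ℝ A where
  carrier := R.VS
  zero_mem' := R.zero_mem_VS
  add_mem' := R.add_mem_VS
  smul_mem' := fun t _ hv => R.smul_mem_VS hv t

theorem V_le_J : R.V ≤ R.J := fun _ hv => hv.1

/-- conjugation preserves `V` -/
theorem conj_mem_V {v : A} (hv : v ∈ R.V) (s : R.NR) :
    R.E s * v * (((R.EU s)⁻¹ : Aˣ) : A) ∈ R.V := by
  obtain ⟨hJ, s', hs'⟩ := hv
  have hEi : (((R.EU s)⁻¹ : Aˣ) : A) - 1 ∈ R.J := by
    have := R.E_sub_one_mem (s⁻¹ : R.NR)
    rwa [toA_inv] at this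
  refine ⟨?_, s * s' * s⁻¹, ?_⟩
  · have h1 : R.E s * v * (((R.EU s)⁻¹ : Aˣ) : A) =
        (R.E s - 1) * v * ((((R.EU s)⁻¹ : Aˣ) : A) - 1) + (R.E s - 1) * v +
          v * ((((R.EU s)⁻¹ : Aˣ) : A) - 1) + v := by noncomm_ring
    rw [h1]
    have h2 := R.J_mul (R.E_sub_one_mem s) hJ
    exact R.J.add_mem (R.J.add_mem (R.J.add_mem (R.J_mul h2 hEi) h2) (R.J_mul hJ hEi)) hJ
  · rw [toA_mul, toA_mul, toA_inv, hs']
    exact (ex_conj (R.EU s) v).symm

theorem bracket_mem_V {v w : A} (hv : v ∈ R.V) (hw : w ∈ R.V) : v * w - w * v ∈ R.V := by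
  have hd : HasDerivAt (fun t : ℝ => ex R.m (t • v) * w * ex R.m ((-t) • v)) (v * w - w * v) 0 := by
    have e1 := (hasDerivAt_ex (R.J_nil hv.1) 0).mul_const w
    have e2 := hasDerivAt_ex_neg (R.J_nil hv.1) 0
    have := e1.fun_mul e2
    simp only [neg_zero, ex_zero_smul R.hm0, one_mul, mul_one, mul_neg] at this
    rw [sub_eq_add_neg]
    exact this
  refine R.deriv_mem_VS hd ?_
  intro t _
  have h1 : ex R.m (t • v) * w * ex R.m ((-t) • v) ∈ R.V := by
    obtain ⟨s, hs⟩ := (R.smul_mem_VS hv t).2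
    have h2 := R.conj_mem_V hw s
    have h3 : (((R.EU s)⁻¹ : Aˣ) : A) = ex R.m ((-t) • v) := by
      have h4 : R.E s * ex R.m ((-t) • v) = 1 := by
        rw [hs, neg_smul]
        exact ex_mul_neg R.hm0 (R.J_nil (R.J.smul_mem t hv.1))
      calc (((R.EU s)⁻¹ : Aˣ) : A) = (((R.EU s)⁻¹ : Aˣ) : A) * (R.E s * ex R.m ((-t) • v)) := by
            rw [h4, mul_one]
        _ = ex R.m ((-t) • v) := Units.inv_mul_cancel_left _ _
    rwa [h3, hs] at h2
  have h0 : ex R.m ((0 : ℝ) • v) * w * ex R.m ((-(0 : ℝ)) • v) = w := by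
    rw [neg_zero, ex_zero_smul R.hm0, one_mul, mul_one]
  simp only [h0]
  exact R.V.smul_mem _ (R.V.sub_mem h1 hw)

instance : Bracket R.V R.V := ⟨fun v w => ⟨v * w - w * v, R.bracket_mem_V v.2 w.2⟩⟩

theorem coe_bracket (v w : R.V) : ((⁅v, w⁆ : R.V) : A) = v * w - w * v := rfl

noncomputable instance : LieRing R.V where
  add_lie x y z := Subtype.ext (by simp only [coe_bracket, Submodule.coe_add]; noncomm_ring)
  lie_add x y z := Subtype.ext (by simp only [coe_bracket, Submodule.coe_add]; noncomm_ring)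
  lie_self x := Subtype.ext (by simp [coe_bracket])
  leibniz_lie x y z := Subtype.ext (by simp only [coe_bracket, Submodule.coe_add]; noncomm_ring)

noncomputable instance : LieAlgebra ℝ R.V where
  lie_smul t x y := Subtype.ext (by
    simp only [coe_bracket, Submodule.coe_smul, mul_smul_comm, smul_mul_assoc, smul_sub])

/-- exponential map -/
noncomputable def Ex (v : R.V) : R.NR := fun i => R.ℓ i (ex R.m (v : A))

theorem toA_Ex (v : R.V) : R.toA (R.Ex v) = ex R.m (v : A) := by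
  obtain ⟨s, hs⟩ := v.2.2
  exact R.E_of_range ⟨s, hs⟩

/-- logarithm map -/
noncomputable def Lo (s : R.NR) : R.V := ⟨R.Lg s, R.Lg_mem s⟩

theorem Ex_Lo (s : R.NR) : R.Ex (R.Lo s) = s :=
  R.toA_inj (by rw [toA_Ex]; exact R.ex_Lg s)

theorem Lo_Ex (v : R.V) : R.Lo (R.Ex v) = v := by
  apply Subtype.ext
  change lg R.m (R.toA (R.Ex v)) = v
  rw [toA_Ex, lg_ex R.hm0 (R.J_nil v.2.1)]

theorem Ex_add (v : R.V) (s t : ℝ) : R.Ex ((s + t) • v) = R.Ex (s • v) * R.Ex (t • v) :=
  R.toA_inj (by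
    rw [map_mul, toA_Ex, toA_Ex, toA_Ex]
    exact ex_add R.hm0 (R.J_nil v.2.1) s t)

theorem Ex_zero : R.Ex 0 = 1 := R.toA_inj (by
  rw [toA_Ex, map_one]
  have := ex_zero_smul R.hm0 (0 : A)
  rwa [smul_zero] at this)

theorem Ex_neg (v : R.V) : R.Ex (-v) = (R.Ex v)⁻¹ := by
  rw [eq_inv_iff_mul_eq_one]
  have := R.Ex_add v (-1) 1
  rw [neg_add_cancel, zero_smul, Ex_zero, neg_smul, one_smul] at this
  exact this.symm

end lie

end RD

end Vale.Agent.P188.H796

end
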