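import Vale.Agent.P188.R.G023
import Mathlib.MeasureTheory.Function.Jacobian
import Mathlib.MeasureTheory.Measure.Lebesgue.EqHaar
import Mathlib.Analysis.Analytic.Order
import Mathlib.Analysis.Calculus.FDeriv.Analytic
import Mathlib.Analysis.Calculus.InverseFunctionTheorem.ContDiff
import Mathlib.LinearAlgebra.Determinant
import Mathlib.MeasureTheory.Topology
import Mathlib.MeasureTheory.Measure.Decomposition.RadonNikodym
import Mathlib.Tactic
import Vale.Agent.P188.R.G007
import Mathlib.MeasureTheory.Measure.Regular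

section

/-!
# P188, FILL block, part 7: analytic families in the curve group
-/

set_option linter.all false

namespace Vale.Agent.P188.H329

open Polynomial Set

variable {A : Type} [NormedRing A] [NormedAlgebra ℝ A] [FiniteDimensional ℝ A] {ι : Type}
variable {e : ι → A} {r : ℕ} {P : Type} [NormedAddCommGroup P] [NormedSpace ℝ P]

/-- analytic family of elements of the curve group -/
def Fam (h : Nil e r) (g : P → A[X]ˣ) : Prop :=
  (∀ p, g p ∈ F h) ∧ ∀ k, AnalyticOnNhd ℝ (fun p => (g p : A[X]).coeff k) univ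

theorem Fam.mul {h : Nil e r} {g g' : P → A[X]ˣ} (hg : Fam h g) (hg' : Fam h g') :
    Fam h (fun p => g p * g' p) := by
  refine ⟨fun p => mul_mem (hg.1 p) (hg'.1 p), fun k => ?_⟩
  have : (fun p => ((g p * g' p : A[X]ˣ) : A[X]).coeff k) =
      fun p => ∑ x ∈ Finset.antidiagonal k, (g p : A[X]).coeff x.1 * (g' p : A[X]).coeff x.2 := by
    funext p
    rw [Units.val_mul, Polynomial.coeff_mul]
  rw [this]
  intro p hp
  refine Finset.analyticAt_fun_sum _ fun x _ => ?_
  exact (hg.2 _ p hp).mul (hg'.2 _ p hp)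

theorem Fam.inv {h : Nil e r} {g : P → A[X]ˣ} (hg : Fam h g) : Fam h (fun p => (g p)⁻¹) := by
  refine ⟨fun p => inv_mem (hg.1 p), fun k => ?_⟩
  induction k using Nat.strong_induction_on with
  | _ k ih =>
    have e1 : ∀ p, (((g p)⁻¹ : A[X]ˣ) : A[X]).coeff k = (if k = 0 then 1 else 0) -
        ∑ x ∈ (Finset.antidiagonal k).erase (0, k),
          (g p : A[X]).coeff x.1 * (((g p)⁻¹ : A[X]ˣ) : A[X]).coeff x.2 := by
      intro p
      have h1 : ((g p : A[X]) * (((g p)⁻¹ : A[X]ˣ) : A[X])).coeff k = if k = 0 then 1 else 0 := by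
        rw [← Units.val_mul, mul_inv_cancel, Units.val_one, coeff_one]
      rw [Polynomial.coeff_mul, ← Finset.add_sum_erase _ _ (show (0, k) ∈ Finset.antidiagonal k by simp)]
        at h1
      have h2 : (g p : A[X]).coeff 0 = 1 := (F_Uo (hg.1 p)).coeff_zero one_pos
      simp only [h2, one_mul] at h1
      rw [← h1]
      abel
    have e2 : (fun p => (((g p)⁻¹ : A[X]ˣ) : A[X]).coeff k) = fun p => (if k = 0 then 1 else 0) -
        ∑ x ∈ (Finset.antidiagonal k).erase (0, k),
          (g p : A[X]).coeff x.1 * (((g p)⁻¹ : A[X]ˣ) : A[X]).coeff x.2 := funext e1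
    rw [e2]
    intro p hp
    refine analyticAt_const.sub (Finset.analyticAt_fun_sum _ fun x hx => ?_)
    rw [Finset.mem_erase, Finset.mem_antidiagonal] at hx
    have hx2 : x.2 < k := by
      by_contra h3
      apply hx.1
      ext
      · show x.1 = 0; omega
      · show x.2 = k; omega
    exact (hg.2 _ p hp).mul (ih x.2 hx2 p hp)

theorem Fam.const {h : Nil e r} {g : A[X]ˣ} (hg : g ∈ F h) : Fam h (fun _ : P => g) :=
  ⟨fun _ => hg, fun _ _ _ => analyticAt_const⟩

theorem Fam.lu (h : Nil e r) (i : ι) {x : P → ℝ} (hx : AnalyticOnNhd ℝ x univ) :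
    Fam h (fun p => H329.lu h i (x p)) := by
  refine ⟨fun p => lu_mem h i _, fun k => ?_⟩
  have : (fun p => ((H329.lu h i (x p) : A[X]ˣ) : A[X]).coeff k) =
      fun p => (if k < r + 1 then (k.factorial : ℝ)⁻¹ else 0) • (x p ^ k • e i ^ k) := by
    funext p
    rw [lu_val, lt_coeff]
    split_ifs
    · rw [smul_smul]
    · simp
  rw [this]
  intro p hp
  have h1 : AnalyticAt ℝ (fun p => x p ^ k) p := (hx p hp).pow k
  have h2 : AnalyticAt ℝ (fun _ : P => e i ^ k) p := analyticAt_const
  have h3 : AnalyticAt ℝ (fun p => x p ^ k • e i ^ k) p := h1.smul h2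
  have h4 : AnalyticAt ℝ (fun _ : P => if k < r + 1 then (k.factorial : ℝ)⁻¹ else 0) p :=
    analyticAt_const
  exact h4.smul h3

theorem Fam.ev (h : Nil e r) (l : List (Sym ι)) {s : P → List ι → ℝ}
    (hs : ∀ w, AnalyticOnNhd ℝ (fun p => s p w) univ) : Fam h (fun p => H329.ev h l (s p)) := by
  induction l with
  | nil =>
    simp only [ev_nil]
    exact Fam.const (P := P) (one_mem (F h))
  | cons q l ih =>
    simp only [ev_cons]
    refine Fam.mul (Fam.lu h _ ?_) ih
    intro p hp
    unfold Sym.val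
    exact (analyticAt_const.mul (hs _ p hp)).add analyticAt_const

theorem Fam.cf {h : Nil e r} (f : Frame e) {g : P → A[X]ˣ} (hg : Fam h g) (j : ℕ) (w : List ι) :
    AnalyticOnNhd ℝ (fun p => f.κ w ((g p : A[X]).coeff j)) univ := by
  intro p hp
  have h1 : (fun p => f.κ w ((g p : A[X]).coeff j)) =
      fun p => (LinearMap.toContinuousLinearMap (f.κ w)) ((g p : A[X]).coeff j) := rfl
  rw [h1]
  exact ((LinearMap.toContinuousLinearMap (f.κ w)).analyticAt _).comp' (hg.2 j p hp)

theorem Fam.peel {h : Nil e r} (f : Frame e) {g : P → A[X]ˣ} (hg : Fam h g) (j : ℕ) :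
    Fam h (fun p => f.peel h j (g p)) := by
  induction j with
  | zero => exact hg
  | succ j ih =>
    simp only [f.peel_succ]
    exact (Fam.ev h _ fun w => Fam.cf f ih _ w).inv.mul ih

theorem Fam.co {h : Nil e r} (f : Frame e) {g : P → A[X]ˣ} (hg : Fam h g) (w : List ι) :
    AnalyticOnNhd ℝ (fun p => f.co h (g p) w) univ := Fam.cf f (Fam.peel f hg _) _ w

/-! ### coordinates indexed by a finite type -/

open Classical in
/-- the basis words -/
noncomputable def Frame.bb (f : Frame e) (r : ℕ) : Finset (List ι) := (Finset.Icc 1 r).biUnion f.B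

theorem Frame.mem_bb (f : Frame e) {w : List ι} : w ∈ f.bb r ↔ ∃ j, 0 < j ∧ j ≤ r ∧ w ∈ f.B j := by
  classical
  unfold Frame.bb
  rw [@Finset.mem_biUnion]
  constructor
  · rintro ⟨j, hj, hw⟩
    rw [Finset.mem_Icc] at hj
    exact ⟨j, hj.1, hj.2, hw⟩
  · rintro ⟨j, h1, h2, hw⟩
    exact ⟨j, Finset.mem_Icc.2 ⟨h1, h2⟩, hw⟩

/-- coordinate space -/
abbrev Frame.β (f : Frame e) (r : ℕ) : Type := {w // w ∈ f.bb r}

open Classical in
/-- extension by zero -/
noncomputable def Frame.ext (f : Frame e) (s : f.β r → ℝ) : List ι → ℝ :=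
  fun w => if hw : w ∈ f.bb r then s ⟨w, hw⟩ else 0

theorem Frame.ext_mem (f : Frame e) (s : f.β r → ℝ) (w : f.β r) : f.ext s w.1 = s w := by
  unfold Frame.ext
  rw [dif_pos w.2]

/-- the chart -/
noncomputable def Frame.ch (f : Frame e) (h : Nil e r) (s : f.β r → ℝ) : A[X]ˣ :=
  H329.ev h (f.T r) (f.ext s)

/-- the coordinates -/
noncomputable def Frame.cc (f : Frame e) (h : Nil e r) (g : A[X]ˣ) : f.β r → ℝ :=
  fun w => f.co h g w.1

theorem Frame.tl_index (f : Frame e) (n j : ℕ) (hn : j + n ≤ r) :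
    ∀ q ∈ f.tl j n, q.2.1 ∈ f.bb r := by
  induction n generalizing j with
  | zero => intro q hq; simp [Frame.tl] at hq
  | succ n ih =>
    intro q hq
    rw [Frame.tl, List.mem_append] at hq
    rcases hq with hq | hq
    · exact f.mem_bb.2 ⟨j + 1, Nat.succ_pos j, by omega, f.tw_index _ q hq⟩
    · exact ih (j + 1) (by omega) q hq

theorem Frame.cc_ch (f : Frame e) (h : Nil e r) (s : f.β r → ℝ) : f.cc h (f.ch h s) = s := by
  funext w
  obtain ⟨j, h1, h2, h3⟩ := f.mem_bb.1 w.2
  show f.co h (H329.ev h (f.T r) (f.ext s)) w.1 = s w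
  rw [f.co_ev h _ h1 h2 h3, f.ext_mem]

theorem Frame.ch_cc (f : Frame e) (h : Nil e r) {g : A[X]ˣ} (hg : g ∈ F h) :
    f.ch h (f.cc h g) = g := by
  conv_rhs => rw [← f.ev_co h hg]
  refine ev_congr h fun q hq => ?_
  have := f.tl_index (r := r) r 0 (by omega) q hq
  exact f.ext_mem _ ⟨q.2.1, this⟩

theorem Frame.ch_mem (f : Frame e) (h : Nil e r) (s : f.β r → ℝ) : f.ch h s ∈ F h :=
  ev_mem h _ _

theorem Fam.ch (f : Frame e) (h : Nil e r) {s : P → f.β r → ℝ}
    (hs : ∀ w, AnalyticOnNhd ℝ (fun p => s p w) univ) : Fam h (fun p => f.ch h (s p)) := by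
  refine Fam.ev h _ fun w => ?_
  unfold Frame.ext
  by_cases hw : w ∈ f.bb r
  · simp only [dif_pos hw]
    exact hs ⟨w, hw⟩
  · simp only [dif_neg hw]
    exact fun _ _ => analyticAt_const

theorem Fam.cc {h : Nil e r} (f : Frame e) {g : P → A[X]ˣ} (hg : Fam h g) :
    AnalyticOnNhd ℝ (fun p => f.cc h (g p)) univ := by
  intro p hp
  rw [analyticAt_pi_iff]
  exact fun w => Fam.co f hg w.1 p hp

theorem Fam.cc_continuous {h : Nil e r} (f : Frame e) {g : P → A[X]ˣ} (hg : Fam h g) :
    Continuous (fun p => f.cc h (g p)) := by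
  rw [continuous_iff_continuousAt]
  exact fun p => (Fam.cc f hg p (mem_univ p)).continuousAt

/-- left translation in coordinates -/
noncomputable def Frame.tr (f : Frame e) (h : Nil e r) (g : A[X]ˣ) (s : f.β r → ℝ) : f.β r → ℝ :=
  f.cc h (g * f.ch h s)

theorem Frame.ch_tr (f : Frame e) (h : Nil e r) {g : A[X]ˣ} (hg : g ∈ F h) (s : f.β r → ℝ) :
    f.ch h (f.tr h g s) = g * f.ch h s := f.ch_cc h (mul_mem hg (f.ch_mem h s))

theorem Frame.fam_id (f : Frame e) (h : Nil e r) : Fam h (fun s : f.β r → ℝ => f.ch h s) := by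
  refine Fam.ch f h fun w s _ => ?_
  exact (ContinuousLinearMap.proj (R := ℝ) (φ := fun _ : f.β r => ℝ) w).analyticAt s

theorem Frame.tr_continuous (f : Frame e) (h : Nil e r) {g : A[X]ˣ} (hg : g ∈ F h) :
    Continuous (f.tr h g) := Fam.cc_continuous f ((Fam.const hg).mul (f.fam_id h))

open MeasureTheory in
theorem Frame.tr_mp (f : Frame e) (h : Nil e r) {g : A[X]ˣ} (hg : g ∈ F h) :
    MeasurePreserving (f.tr h g) volume volume := by
  refine mp_triangular (fun w : f.β r => w.1.length) (f.tr h g) (f.tr_continuous h hg).measurable ?_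
  intro s s' w hs
  obtain ⟨j, h1, h2, h3⟩ := f.mem_bb.1 w.2
  have hl := f.len j w.1 h3
  have := f.co_triangular h hg (f.ext s) (f.ext s') h1 h2 (fun v hv => by
    unfold Frame.ext
    by_cases hvb : v ∈ f.bb r
    · rw [dif_pos hvb, dif_pos hvb]
      exact hs ⟨v, hvb⟩ (by show v.length < w.1.length; omega)
    · rw [dif_neg hvb, dif_neg hvb]) h3
  rw [f.ext_mem s w, f.ext_mem s' w] at this
  exact this

end Vale.Agent.P188.H329

end

section

/-!
# P188, FILL block, part 8: the packing bound for the curve group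
-/

set_option linter.all false

namespace Vale.Agent.P188.H329

open Polynomial Set MeasureTheory

/-- product of `m` letters, curve version -/
noncomputable def pr {A : Type} [Ring A] [Algebra ℝ A] {ι : Type} {e : ι → A} {r : ℕ}
    (h : Nil e r) {m : ℕ} (J : Fin m → ι) (x : Fin m → ℝ) : A[X]ˣ :=
  (List.ofFn fun t => lu h (J t) (x t)).prod

theorem pr_mem {A : Type} [Ring A] [Algebra ℝ A] {ι : Type} {e : ι → A} {r : ℕ}
    (h : Nil e r) {m : ℕ} (J : Fin m → ι) (x : Fin m → ℝ) : pr h J x ∈ F h := by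
  refine list_prod_mem fun g hg => ?_
  rw [List.mem_ofFn] at hg
  obtain ⟨t, rfl⟩ := hg
  exact lu_mem h _ _

theorem ev_eq_pr {A : Type} [Ring A] [Algebra ℝ A] {ι : Type} {e : ι → A} {r : ℕ}
    (h : Nil e r) (l : List (Sym ι)) (s : List ι → ℝ) :
    ev h l s = pr h (fun t => (l.get t).1) (fun t => Sym.val (l.get t) s) := by
  unfold ev pr
  congr 1
  conv_lhs => rw [← List.ofFn_get l]
  rw [List.map_ofFn]
  rfl

variable {A : Type} [NormedRing A] [NormedAlgebra ℝ A] [FiniteDimensional ℝ A] {ι : Type}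
variable {e : ι → A} {r : ℕ} {P : Type} [NormedAddCommGroup P] [NormedSpace ℝ P]

theorem Fam.pr (h : Nil e r) {m : ℕ} (J : Fin m → ι) {x : P → Fin m → ℝ}
    (hx : ∀ t, AnalyticOnNhd ℝ (fun p => x p t) univ) : Fam h (fun p => H329.pr h J (x p)) := by
  induction m with
  | zero =>
    have : (fun p => H329.pr h J (x p)) = fun _ : P => (1 : A[X]ˣ) := by
      funext p
      simp [H329.pr]
    rw [this]
    exact Fam.const (one_mem (F h))
  | succ m ih =>
    have : (fun p => H329.pr h J (x p)) = fun p => H329.lu h (J 0) (x p 0) *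
        H329.pr h (fun t => J t.succ) (fun t => x p t.succ) := by
      funext p
      simp [H329.pr, List.ofFn_succ]
    rw [this]
    exact (Fam.lu h _ (hx 0)).mul (ih _ fun t => hx t.succ)

end Vale.Agent.P188.H329

end

section

/-!
# P188, FILL block, part 9: the universal nilpotent group and transfer of relations
-/

set_option linter.all false

namespace Vale.Agent.P188.H329

open Polynomial Set MeasureTheory

/-- words of length at most `r` -/
@[ext]
structure UW (ι : Type) (r : ℕ) : Type where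
  val : List ι
  prop : val.length ≤ r

instance (ι : Type) [Finite ι] (r : ℕ) : Finite (UW ι r) := by
  haveI : Finite {w : List ι // w.length ≤ r} := List.finite_length_le ι r
  refine Finite.of_injective (fun w : UW ι r => (⟨w.val, w.prop⟩ : {w : List ι // w.length ≤ r})) ?_
  intro w w' h
  exact UW.ext (congrArg Subtype.val h)

noncomputable instance (ι : Type) [Finite ι] (r : ℕ) : Fintype (UW ι r) := Fintype.ofFinite _

/-- value of the shifted function -/
noncomputable def ush {ι : Type} {r : ℕ} (i : ι) (f : UW ι r → ℝ) : UW ι r → ℝ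
  | ⟨[], _⟩ => 0
  | ⟨j :: v, hv⟩ => by
    classical
    exact if j = i then f ⟨v, by simp at hv; omega⟩ else 0

theorem ush_nil {ι : Type} {r : ℕ} (i : ι) (f : UW ι r → ℝ) (h : ([] : List ι).length ≤ r) :
    ush i f ⟨[], h⟩ = 0 := rfl

theorem ush_cons {ι : Type} {r : ℕ} (i : ι) (f : UW ι r → ℝ) (v : List ι)
    (h : (i :: v).length ≤ r) (h' : v.length ≤ r) :
    ush i f ⟨i :: v, h⟩ = f ⟨v, h'⟩ := by
  simp [ush]

theorem ush_cons_ne {ι : Type} {r : ℕ} {i j : ι} (hij : j ≠ i) (f : UW ι r → ℝ) (v : List ι)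
    (h : (j :: v).length ≤ r) : ush i f ⟨j :: v, h⟩ = 0 := by
  simp [ush, hij]

/-- The universal algebra. -/
abbrev UA (ι : Type) [Finite ι] (r : ℕ) : Type := (UW ι r → ℝ) →L[ℝ] (UW ι r → ℝ)

/-- The universal letters. -/
noncomputable def uE (ι : Type) [Finite ι] (r : ℕ) (i : ι) : UA ι r :=
  LinearMap.toContinuousLinearMap
    { toFun := ush i
      map_add' := by
        intro f g
        funext w
        obtain ⟨w, hw⟩ := w
        cases w with
        | nil => simp [ush_nil]
        | cons j v =>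
          by_cases hj : j = i
          · subst hj
            rw [Pi.add_apply, ush_cons _ _ _ _ (by simp at hw; omega),
              ush_cons _ _ _ _ (by simp at hw; omega), ush_cons _ _ _ _ (by simp at hw; omega)]
            rfl
          · rw [Pi.add_apply, ush_cons_ne hj, ush_cons_ne hj, ush_cons_ne hj, add_zero]
      map_smul' := by
        intro c f
        funext w
        obtain ⟨w, hw⟩ := w
        cases w with
        | nil => simp [ush_nil]
        | cons j v =>
          by_cases hj : j = i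
          · subst hj
            rw [Pi.smul_apply, ush_cons _ _ _ _ (by simp at hw; omega),
              ush_cons _ _ _ _ (by simp at hw; omega)]
            rfl
          · rw [Pi.smul_apply, ush_cons_ne hj, ush_cons_ne hj]
            simp }

theorem uE_apply (ι : Type) [Finite ι] (r : ℕ) (i : ι) (f : UW ι r → ℝ) :
    uE ι r i f = ush i f := rfl

theorem uNil_aux (ι : Type) [Finite ι] (r : ℕ) (w : List ι) (f : UW ι r → ℝ) (u : UW ι r)
    (h : u.1.length < w.length) : ((w.map (uE ι r)).prod : UA ι r) f u = 0 := by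
  induction w generalizing u with
  | nil => simp at h
  | cons i w ih =>
    rw [List.map_cons, List.prod_cons]
    show (uE ι r i) (((w.map (uE ι r)).prod : UA ι r) f) u = 0
    rw [uE_apply]
    obtain ⟨u, hu⟩ := u
    cases u with
    | nil => rfl
    | cons j v =>
      by_cases hj : j = i
      · subst hj
        rw [ush_cons _ _ _ _ (by simp at hu; omega)]
        exact ih _ (by simpa using h)
      · rw [ush_cons_ne hj]

theorem uNil (ι : Type) [Finite ι] (r : ℕ) : Nil (uE ι r) r := by
  intro w hw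
  ext f u
  exact uNil_aux ι r w f u (lt_of_le_of_lt u.2 hw)

/-! ### transfer -/

section transfer

variable {ι : Type} [Finite ι] {r : ℕ} {A : Type} [Ring A] [Algebra ℝ A]

/-- the vacuum vector -/
noncomputable def vac (ι : Type) [Finite ι] (r : ℕ) : UW ι r → ℝ := by
  classical
  exact fun w => if w.1 = [] then 1 else 0

/-- the transfer map -/
noncomputable def La (e : ι → A) (r : ℕ) : UA ι r →ₗ[ℝ] A where
  toFun M := ∑ w : UW ι r, (M (vac ι r) w) • (w.1.map e).prod
  map_add' M M' := by
    rw [← Finset.sum_add_distrib]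
    refine Finset.sum_congr rfl fun w _ => ?_
    rw [← add_smul]
    rfl
  map_smul' c M := by
    rw [RingHom.id_apply, Finset.smul_sum]
    refine Finset.sum_congr rfl fun w _ => ?_
    rw [smul_smul]
    rfl

theorem La_apply (e : ι → A) (r : ℕ) (M : UA ι r) :
    La e r M = ∑ w : UW ι r, (M (vac ι r) w) • (w.1.map e).prod := rfl

theorem La_one (e : ι → A) (r : ℕ) : La e r 1 = 1 := by
  classical
  rw [La_apply, Finset.sum_eq_single (⟨[], by simp⟩ : UW ι r)]
  · have : ((1 : UA ι r) (vac ι r)) ⟨[], by simp⟩ = 1 := by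
      show vac ι r (⟨[], by simp⟩ : UW ι r) = 1
      simp [vac]
    rw [this]
    simp
  · intro w _ hw
    have : ((1 : UA ι r) (vac ι r)) w = 0 := by
      show vac ι r w = 0
      unfold vac
      rw [if_neg]
      intro h
      exact hw (UW.ext h)
    rw [this, zero_smul]
  · simp

theorem La_mul {e : ι → A} (h : Nil e r) (i : ι) (M : UA ι r) :
    La e r (uE ι r i * M) = e i * La e r M := by
  classical
  rw [La_apply, La_apply, Finset.mul_sum]
  -- `w ↦ i :: w` on words of length < r
  have hL : ∑ w : UW ι r, ((uE ι r i * M) (vac ι r) w) • (w.1.map e).prod =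
      ∑ w ∈ Finset.univ.filter (fun w : UW ι r => ∃ v, w.1 = i :: v),
        ((uE ι r i * M) (vac ι r) w) • (w.1.map e).prod := by
    refine (Finset.sum_subset (Finset.subset_univ _) fun w _ hw => ?_).symm
    have : (uE ι r i * M) (vac ι r) w = 0 := by
      show ush i (M (vac ι r)) w = 0
      obtain ⟨w, hw'⟩ := w
      cases w with
      | nil => rfl
      | cons j v =>
        refine ush_cons_ne ?_ _ _ _
        rintro rfl
        apply hw
        simp
    rw [this, zero_smul]
  have hR : ∑ w : UW ι r, e i * ((M (vac ι r) w) • (w.1.map e).prod) =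
      ∑ w ∈ Finset.univ.filter (fun w : UW ι r => w.1.length < r),
        e i * ((M (vac ι r) w) • (w.1.map e).prod) := by
    refine (Finset.sum_subset (Finset.subset_univ _) fun w _ hw => ?_).symm
    have h1 : e i * (w.1.map e).prod = 0 := by
      have h2 := h (i :: w.1) (by
        simp only [Finset.mem_filter, Finset.mem_univ, true_and, not_lt] at hw
        simp
        omega)
      rwa [List.map_cons, List.prod_cons] at h2
    rw [mul_smul_comm, h1, smul_zero]
  rw [hL, hR]
  refine (Finset.sum_bij (fun (w : UW ι r) (hw : w ∈ Finset.univ.filter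
    (fun w : UW ι r => w.1.length < r)) => (⟨i :: w.1, by
      simp only [Finset.mem_filter, Finset.mem_univ, true_and] at hw
      simp
      omega⟩ : UW ι r)) ?_ ?_ ?_ ?_).symm
  · intro w hw
    simp
  · intro w hw w' hw' heq
    have h1 := congrArg UW.val heq
    simp only [List.cons.injEq, true_and] at h1
    exact UW.ext h1
  · intro w hw
    simp only [Finset.mem_filter, Finset.mem_univ, true_and] at hw
    obtain ⟨v, hv⟩ := hw
    have hw2 := w.2
    rw [hv] at hw2
    simp at hw2
    refine ⟨⟨v, by omega⟩, ?_, ?_⟩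
    · simp only [Finset.mem_filter, Finset.mem_univ, true_and]
      omega
    · exact UW.ext hv.symm
  · intro w hw
    simp only [Finset.mem_filter, Finset.mem_univ, true_and] at hw
    have h1 : (uE ι r i * M) (vac ι r) (⟨i :: w.1, by simp; omega⟩ : UW ι r) =
        M (vac ι r) w := by
      show ush i (M (vac ι r)) (⟨i :: w.1, by simp; omega⟩ : UW ι r) = _
      rw [ush_cons _ _ _ _ w.2]
    rw [h1, mul_smul_comm, List.map_cons, List.prod_cons]

theorem La_pow_mul {e : ι → A} (h : Nil e r) (i : ι) (k : ℕ) (M : UA ι r) :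
    La e r (uE ι r i ^ k * M) = e i ^ k * La e r M := by
  induction k with
  | zero => simp
  | succ k ih =>
    rw [pow_succ', mul_assoc, La_mul h, ih, pow_succ', mul_assoc]

/-- evaluation of words of letters in a monoid -/
def wd {S : Type} [Monoid S] (s : ι → ℝ → S) (l : List (ι × ℝ)) : S :=
  (l.map fun q => s q.1 q.2).prod

theorem La_coeff {e : ι → A} (h : Nil e r) (l : List (ι × ℝ)) (k : ℕ) :
    La e r (((wd (lu (uNil ι r)) l : (UA ι r)[X]ˣ) : (UA ι r)[X]).coeff k) =
      ((wd (lu h) l : A[X]ˣ) : A[X]).coeff k := by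
  induction l generalizing k with
  | nil =>
    simp only [wd, List.map_nil, List.prod_nil, Units.val_one, coeff_one]
    split_ifs
    · exact La_one e r
    · exact map_zero _
  | cons q l ih =>
    have e1 : ∀ {B : Type} [Ring B] [Algebra ℝ B] {u : ι → B} (hu : Nil u r),
        ((wd (lu hu) (q :: l) : B[X]ˣ) : B[X]).coeff k = ∑ x ∈ Finset.antidiagonal k,
          (if x.1 < r + 1 then ((x.1.factorial : ℝ)⁻¹ * q.2 ^ x.1) • (u q.1 ^ x.1 *
            ((wd (lu hu) l : B[X]ˣ) : B[X]).coeff x.2) else 0) := by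
      intro B _ _ u hu
      have : wd (lu hu) (q :: l) = lu hu q.1 q.2 * wd (lu hu) l := by
        simp [wd]
      rw [this, Units.val_mul, Polynomial.coeff_mul]
      refine Finset.sum_congr rfl fun x _ => ?_
      rw [lu_val, lt_coeff]
      split_ifs
      · rw [smul_mul_assoc]
      · rw [zero_mul]
    rw [e1, e1, map_sum]
    refine Finset.sum_congr rfl fun x _ => ?_
    split_ifs
    · rw [map_smul, La_pow_mul h, ih]
    · exact map_zero _

end transfer

/-- All relations of the universal nilpotent group of class `≤ r` on the letters `(i, x)` hold for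
the family `s`. -/
def Rel (ι : Type) [Finite ι] (r : ℕ) {S : Type} [Monoid S] (s : ι → ℝ → S) : Prop :=
  ∀ l l' : List (ι × ℝ), wd (lu (uNil ι r)) l = wd (lu (uNil ι r)) l' → wd s l = wd s l'

theorem Rel.curve {ι : Type} [Finite ι] {r : ℕ} {A : Type} [Ring A] [Algebra ℝ A] {e : ι → A}
    (h : Nil e r) : Rel ι r (lu h) := by
  intro l l' hl
  apply Units.ext
  ext k
  rw [← La_coeff h, ← La_coeff h, hl]

theorem wd_map {ι : Type} {S S' : Type} [Monoid S] [Monoid S'] (φ : S →* S') (s : ι → ℝ → S)
    (l : List (ι × ℝ)) : wd (fun i x => φ (s i x)) l = φ (wd s l) := by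
  unfold wd
  rw [map_list_prod, List.map_map]
  rfl

theorem Rel.map {ι : Type} [Finite ι] {r : ℕ} {S S' : Type} [Monoid S] [Monoid S']
    {s : ι → ℝ → S} (hs : Rel ι r s) (φ : S →* S') : Rel ι r (fun i x => φ (s i x)) := by
  intro l l' hl
  rw [wd_map, wd_map, hs l l' hl]

theorem Rel.of_map {ι : Type} [Finite ι] {r : ℕ} {S S' : Type} [Monoid S] [Monoid S']
    {s : ι → ℝ → S} (φ : S →* S') (hφ : Function.Injective φ)
    (hs : Rel ι r (fun i x => φ (s i x))) : Rel ι r s := by
  intro l l' hl
  apply hφ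
  rw [← wd_map, ← wd_map, hs l l' hl]

/-- evaluation at `1` -/
noncomputable def ev1 (B : Type) [Ring B] : B[X] →+* B :=
  Polynomial.eval₂RingHom' (RingHom.id B) 1 fun _ => Commute.one_right _

/-- the unit `exp (x e_i)` -/
noncomputable def xu {A : Type} [Ring A] [Algebra ℝ A] {ι : Type} {e : ι → A} {r : ℕ}
    (h : Nil e r) (i : ι) (x : ℝ) : Aˣ := Units.map (ev1 A : A[X] →* A) (lu h i x)

theorem xu_val {A : Type} [Ring A] [Algebra ℝ A] {ι : Type} {e : ι → A} {r : ℕ}
    (h : Nil e r) (i : ι) (x : ℝ) :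
    ((xu h i x : Aˣ) : A) = ∑ k ∈ Finset.range (r + 1), (k.factorial : ℝ)⁻¹ • (x • e i) ^ k := by
  show ev1 A (lt e r i x) = _
  unfold lt rexp
  rw [map_sum]
  refine Finset.sum_congr rfl fun k _ => ?_
  rw [mon_pow]
  unfold ev1
  rw [smul_monomial]
  show eval₂ (RingHom.id A) 1 (monomial k _) = _
  rw [eval₂_monomial, one_pow, mul_one, RingHom.id_apply, smul_pow]

theorem Rel.units {ι : Type} [Finite ι] {r : ℕ} {A : Type} [Ring A] [Algebra ℝ A] {e : ι → A}
    (h : Nil e r) : Rel ι r (xu h) := (Rel.curve h).map (Units.map (ev1 A : A[X] →* A))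

theorem lt_scale {A : Type} [Ring A] [Algebra ℝ A] {ι ι' : Type} (e : ι → A) (r : ℕ) (σ : ι' → ι)
    (R : ι' → ℝ) (i : ι') (x : ℝ) : lt (fun i => R i • e (σ i)) r i x = lt e r (σ i) (R i * x) := by
  unfold lt mon
  rw [smul_smul, mul_comm x]

theorem Nil.scale {A : Type} [Ring A] [Algebra ℝ A] {ι ι' : Type} {e : ι → A} {r : ℕ}
    (h : Nil e r) (σ : ι' → ι) (R : ι' → ℝ) : Nil (fun i => R i • e (σ i)) r := by
  intro w hw
  have key : ∀ w : List ι', (w.map fun i => R i • e (σ i)).prod =
      (w.map R).prod • ((w.map σ).map e).prod := by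
    intro w
    induction w with
    | nil => simp
    | cons i w ih =>
      simp only [List.map_cons, List.prod_cons, ih, smul_mul_assoc, mul_smul_comm, smul_smul]
      rw [mul_comm]
  rw [key, h _ (by simpa using hw), smul_zero]

/-- Rescaling and reindexing of letters. -/
theorem Rel.scale {ι ι' : Type} [Finite ι] [Finite ι'] {r : ℕ} {S : Type} [Monoid S]
    {s : ι → ℝ → S} (hs : Rel ι r s) (σ : ι' → ι) (R : ι' → ℝ) :
    Rel ι' r (fun i x => s (σ i) (R i * x)) := by
  intro l l' hl
  have h1 := Rel.curve ((uNil ι r).scale σ R) l l' hl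
  have h2 : ∀ {T : Type} [Monoid T] (t : ι → ℝ → T) (l : List (ι' × ℝ)),
      wd (fun i x => t (σ i) (R i * x)) l = wd t (l.map fun q => (σ q.1, R q.1 * q.2)) := by
    intro T _ t l
    unfold wd
    rw [List.map_map]
    rfl
  have h3 : (lu ((uNil ι r).scale σ R)) = fun i x => lu (uNil ι r) (σ i) (R i * x) := by
    funext i x
    apply Units.ext
    exact lt_scale _ _ _ _ _ _
  rw [h3, h2, h2] at h1
  rw [h2, h2]
  exact hs _ _ h1

theorem wd_append {ι : Type} {S : Type} [Monoid S] (s : ι → ℝ → S) (l l' : List (ι × ℝ)) :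
    wd s (l ++ l') = wd s l * wd s l' := by
  simp [wd]

theorem Rel.add {ι : Type} [Finite ι] {r : ℕ} {S : Type} [Monoid S]
    {s : ι → ℝ → S} (hs : Rel ι r s) (i : ι) (x y : ℝ) : s i (x + y) = s i x * s i y := by
  have := hs [(i, x + y)] [(i, x), (i, y)] (by simp [wd, lu_add])
  simpa [wd] using this

theorem Rel.zero {ι : Type} [Finite ι] {r : ℕ} {S : Type} [Monoid S]
    {s : ι → ℝ → S} (hs : Rel ι r s) (i : ι) : s i 0 = 1 := by
  have := hs [(i, 0)] [] (by simp [wd, lu_zero])
  simpa [wd] using this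

/-- product of `m` letters in a monoid -/
def prS {ι : Type} {S : Type} [Monoid S] (s : ι → ℝ → S) {m : ℕ} (J : Fin m → ι)
    (x : Fin m → ℝ) : S := (List.ofFn fun t => s (J t) (x t)).prod

theorem prS_eq_wd {ι : Type} {S : Type} [Monoid S] (s : ι → ℝ → S) {m : ℕ} (J : Fin m → ι)
    (x : Fin m → ℝ) : prS s J x = wd s (List.ofFn fun t => (J t, x t)) := by
  unfold prS wd
  rw [List.map_ofFn]
  rfl

theorem pr_eq_wd {A : Type} [Ring A] [Algebra ℝ A] {ι : Type} {e : ι → A} {r : ℕ}
    (h : Nil e r) {m : ℕ} (J : Fin m → ι) (x : Fin m → ℝ) :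
    pr h J x = wd (lu h) (List.ofFn fun t => (J t, x t)) := prS_eq_wd (lu h) J x

end Vale.Agent.P188.H329

end

section

/-!
# P188, FILL block, part 10: cleaning
-/

set_option linter.all false

namespace Vale.Agent.P188.H329

open Set MeasureTheory

variable {ι : Type} {S : Type} [Group S] [MeasurableSpace S]

/-- size of the window of `G` seen from `z` in direction `i` -/
noncomputable def win (s : ι → ℝ → S) (i : ι) (G : Set S) (z : S) : ENNReal :=
  volume (Icc (-1 : ℝ) 1 ∩ {x | z * s i x ∈ G})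

theorem measurable_win {s : ι → ℝ → S} {i : ι} (hm : Measurable fun q : S × ℝ => q.1 * s i q.2)
    {G : Set S} (hG : MeasurableSet G) : Measurable (win s i G) := by
  have h1 : MeasurableSet {q : S × ℝ | q.2 ∈ Icc (-1 : ℝ) 1 ∧ q.1 * s i q.2 ∈ G} :=
    (measurable_snd measurableSet_Icc).inter (hm hG)
  exact measurable_measure_prodMk_left h1

/-- the cleaning iteration -/
noncomputable def cl (s : ι → ℝ → S) (θ : ENNReal) (Γ : Set S) : ℕ → Set S
  | 0 => Γ
  | t + 1 => {z | z ∈ cl s θ Γ t ∧ ∀ i, θ ≤ win s i (cl s θ Γ t) z}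

theorem cl_succ_subset (s : ι → ℝ → S) (θ : ENNReal) (Γ : Set S) (t : ℕ) :
    cl s θ Γ (t + 1) ⊆ cl s θ Γ t := fun _ hz => hz.1

theorem cl_anti (s : ι → ℝ → S) (θ : ENNReal) (Γ : Set S) : Antitone (cl s θ Γ) :=
  antitone_nat_of_succ_le (cl_succ_subset s θ Γ)

theorem cl_measurable [Finite ι] {s : ι → ℝ → S} (hm : ∀ i, Measurable fun q : S × ℝ => q.1 * s i q.2)
    (θ : ENNReal) {Γ : Set S} (hΓ : MeasurableSet Γ) (t : ℕ) : MeasurableSet (cl s θ Γ t) := by
  induction t with
  | zero => exact hΓ
  | succ t ih =>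
    have : cl s θ Γ (t + 1) = cl s θ Γ t ∩ ⋂ i, {z | θ ≤ win s i (cl s θ Γ t) z} := by
      ext z
      rw [mem_inter_iff, mem_iInter]
      rfl
    rw [this]
    refine ih.inter (MeasurableSet.iInter fun i => ?_)
    exact measurableSet_le measurable_const (measurable_win (hm i) ih)

/-- points removed because of direction `i` at time `t` -/
def rem (s : ι → ℝ → S) (θ : ENNReal) (Γ : Set S) (i : ι) (t : ℕ) : Set S :=
  {z | z ∈ cl s θ Γ t ∧ win s i (cl s θ Γ t) z < θ}

theorem clean [Finite ι] (μ : Measure S) [SFinite μ] {s : ι → ℝ → S}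
    (hadd : ∀ i x y, s i (x + y) = s i x * s i y) (h0 : ∀ i, s i 0 = 1)
    (hm : ∀ i, Measurable fun q : S × ℝ => q.1 * s i q.2)
    (hinv : ∀ i x, MeasurePreserving (fun z => z * s i x) μ μ) {Γ D : Set S}
    (hΓ : MeasurableSet Γ) (hD : MeasurableSet D)
    (hΓD : ∀ z ∈ Γ, ∀ i x, |x| ≤ 1 → z * s i x ∈ D) (θ : ENNReal) :
    ∃ Γ' ⊆ Γ, MeasurableSet Γ' ∧ μ (Γ \ Γ') ≤ Nat.card ι * (θ * μ D) ∧
      ∀ z ∈ Γ', ∀ i, θ ≤ win s i Γ' z := by
  classical
  haveI : Fintype ι := Fintype.ofFinite ι
  set G := cl s θ Γ with hG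
  have hGm : ∀ t, MeasurableSet (G t) := cl_measurable hm θ hΓ
  refine ⟨⋂ t, G t, iInter_subset G 0, MeasurableSet.iInter hGm, ?_, ?_⟩
  · -- measure of the removed part
    have hremm : ∀ i t, MeasurableSet (rem s θ Γ i t) := fun i t =>
      (hGm t).inter (measurableSet_lt (measurable_win (hm i) (hGm t)) measurable_const)
    set Rm : ι → Set S := fun i => ⋃ t, rem s θ Γ i t with hRm
    have hRmm : ∀ i, MeasurableSet (Rm i) := fun i => MeasurableSet.iUnion (hremm i)
    have hcov : Γ \ ⋂ t, G t ⊆ ⋃ i, Rm i := by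
      rintro z ⟨hz, hz2⟩
      rw [mem_iInter, not_forall] at hz2
      have hex : ∃ t, z ∉ G t := hz2
      have hfind := Nat.find_spec hex
      have hmin := fun t (ht : t < Nat.find hex) => not_not.1 (Nat.find_min hex ht)
      obtain ⟨t, ht⟩ : ∃ t, Nat.find hex = t + 1 := by
        refine ⟨Nat.find hex - 1, ?_⟩
        have : Nat.find hex ≠ 0 := by
          intro h
          rw [h] at hfind
          exact hfind hz
        omega
      have h1 : z ∈ G t := hmin t (by omega)
      rw [ht] at hfind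
      have h2 : ¬ ∀ i, θ ≤ win s i (G t) z := fun h => hfind ⟨h1, h⟩
      rw [not_forall] at h2
      obtain ⟨i, hi⟩ := h2
      rw [mem_iUnion]
      refine ⟨i, ?_⟩
      rw [hRm, mem_iUnion]
      exact ⟨t, h1, not_le.1 hi⟩
    have hline : ∀ i z, volume (Icc (0 : ℝ) 1 ∩ {x | z * s i x ∈ Rm i}) ≤ θ := by
      intro i z
      by_cases hex : ∃ t, ∃ x ∈ Icc (0 : ℝ) 1, z * s i x ∈ rem s θ Γ i t
      · obtain ⟨x0, hx0, h1⟩ := Nat.find_spec hex
        set t := Nat.find hex with ht
        have hmin : ∀ t' < t, ¬ ∃ x ∈ Icc (0 : ℝ) 1, z * s i x ∈ rem s θ Γ i t' := fun t' ht' =>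
          Nat.find_min hex ht'
        have h2 : Icc (0 : ℝ) 1 ∩ {x | z * s i x ∈ Rm i} ⊆
            (fun x => x + (-x0)) ⁻¹' (Icc (-1 : ℝ) 1 ∩ {y | (z * s i x0) * s i y ∈ G t}) := by
          rintro x ⟨hx, hx2⟩
          simp only [hRm, mem_setOf_eq, mem_iUnion] at hx2
          obtain ⟨t', ht'⟩ := hx2
          have h3 : t ≤ t' := by
            by_contra h4
            exact hmin t' (by omega) ⟨x, hx, ht'⟩
          refine ⟨⟨by linarith [hx.1, hx0.2], by linarith [hx.2, hx0.1]⟩, ?_⟩
          show z * s i x0 * s i (x + (-x0)) ∈ G t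
          have h5 : z * s i x0 * s i (x + (-x0)) = z * s i x := by
            rw [mul_assoc, ← hadd]
            congr 2
            ring
          rw [h5]
          exact cl_anti s θ Γ h3 ht'.1
        refine (measure_mono h2).trans ?_
        rw [measure_preimage_add_right]
        exact h1.2.le
      · have : Icc (0 : ℝ) 1 ∩ {x | z * s i x ∈ Rm i} = ∅ := by
          rw [eq_empty_iff_forall_notMem]
          rintro x ⟨hx, hx2⟩
          simp only [hRm, mem_setOf_eq, mem_iUnion] at hx2
          obtain ⟨t', ht'⟩ := hx2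
          exact hex ⟨t', x, hx, ht'⟩
        rw [this, measure_empty]
        exact zero_le'
    have hbd : ∀ i, μ (Rm i) ≤ θ * μ D := by
      intro i
      set V : Set (S × ℝ) := {q | q.1 ∈ D ∧ q.2 ∈ Icc (0 : ℝ) 1 ∧ q.1 * s i q.2 ∈ Rm i} with hV
      have hVm : MeasurableSet V :=
        (measurable_fst hD).inter ((measurable_snd measurableSet_Icc).inter (hm i (hRmm i)))
      have h1 : (μ.prod volume) V ≤ θ * μ D := by
        rw [Measure.prod_apply hVm]
        calc ∫⁻ z, volume (Prod.mk z ⁻¹' V) ∂μ ≤ ∫⁻ z, D.indicator (fun _ => θ) z ∂μ := by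
              refine lintegral_mono fun z => ?_
              by_cases hz : z ∈ D
              · rw [indicator_of_mem hz]
                refine (measure_mono ?_).trans (hline i z)
                intro x hx
                exact hx.2
              · rw [indicator_of_notMem hz]
                have : Prod.mk z ⁻¹' V = ∅ := by
                  rw [eq_empty_iff_forall_notMem]
                  intro x hx
                  exact hz hx.1
                rw [this, measure_empty]
          _ = θ * μ D := by rw [lintegral_indicator_const hD]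
      have h2 : (μ.prod volume) V = μ (Rm i) := by
        rw [Measure.prod_apply_symm hVm]
        have h3 : ∀ x : ℝ, μ ((fun z => (z, x)) ⁻¹' V) =
            (Icc (0 : ℝ) 1).indicator (fun _ => μ (Rm i)) x := by
          intro x
          by_cases hx : x ∈ Icc (0 : ℝ) 1
          · rw [indicator_of_mem hx]
            have h4 : (fun z => (z, x)) ⁻¹' V = (fun z => z * s i x) ⁻¹' (Rm i) := by
              ext z
              constructor
              · intro hz
                exact hz.2.2
              · intro hz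
                refine ⟨?_, hx, hz⟩
                have hz2 : z * s i x ∈ Rm i := hz
                simp only [hRm, mem_iUnion] at hz2
                obtain ⟨t, ht⟩ := hz2
                have h5 : z * s i x ∈ Γ := cl_anti s θ Γ (Nat.zero_le t) ht.1
                have h6 := hΓD _ h5 i (-x) (by
                  rw [abs_neg, abs_of_nonneg hx.1]
                  exact hx.2)
                have h7 : z * s i x * s i (-x) = z := by
                  rw [mul_assoc, ← hadd, add_neg_cancel, h0, mul_one]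
                rwa [h7] at h6
            rw [h4]
            exact (hinv i x).measure_preimage (hRmm i).nullMeasurableSet
          · rw [indicator_of_notMem hx]
            have : (fun z => (z, x)) ⁻¹' V = ∅ := by
              rw [eq_empty_iff_forall_notMem]
              intro z hz
              exact hx hz.2.1
            rw [this, measure_empty]
        simp_rw [h3]
        rw [lintegral_indicator_const measurableSet_Icc]
        simp
      rwa [h2] at h1
    calc μ (Γ \ ⋂ t, G t) ≤ μ (⋃ i, Rm i) := measure_mono hcov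
      _ ≤ ∑ i, μ (Rm i) := measure_iUnion_fintype_le _ _
      _ ≤ ∑ _i : ι, θ * μ D := Finset.sum_le_sum fun i _ => hbd i
      _ = Nat.card ι * (θ * μ D) := by
          rw [Finset.sum_const, Finset.card_univ, nsmul_eq_mul, Nat.card_eq_fintype_card]
  · intro z hz i
    have h1 : ∀ t, θ ≤ win s i (G t) z := by
      intro t
      have := mem_iInter.1 hz (t + 1)
      exact this.2 i
    have h2 : Icc (-1 : ℝ) 1 ∩ {x | z * s i x ∈ ⋂ t, G t} =
        ⋂ t, (Icc (-1 : ℝ) 1 ∩ {x | z * s i x ∈ G t}) := by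
      ext x
      simp only [mem_inter_iff, mem_setOf_eq, mem_iInter]
      constructor
      · rintro ⟨h3, h4⟩ t
        exact ⟨h3, h4 t⟩
      · intro h3
        exact ⟨(h3 0).1, fun t => (h3 t).2⟩
    have hmx : Measurable fun x : ℝ => z * s i x := (hm i).comp measurable_prodMk_left
    unfold win
    rw [h2]
    have h3 := tendsto_measure_iInter_atTop (μ := (volume : Measure ℝ))
      (s := fun t => Icc (-1 : ℝ) 1 ∩ {x | z * s i x ∈ G t})
      (fun t => (measurableSet_Icc.inter (hmx (hGm t))).nullMeasurableSet)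
      (fun t t' htt' => inter_subset_inter_right _ fun x hx => cl_anti s θ Γ htt' hx)
      ⟨0, ((measure_mono inter_subset_left).trans_lt (by simp)).ne⟩
    exact ge_of_tendsto' h3 h1

end Vale.Agent.P188.H329

end

section

/-!
# P188, FILL block, part 11: chains of independent letters, and the FILL theorem
-/

set_option linter.all false

namespace Vale.Agent.P188.H329

open Set MeasureTheory

section chains

variable {ι : Type} {S : Type} [Group S]

/-- `b` is reached from `a` by exactly `n` moves `z ↦ z s_i(x)`, `|x| ≤ 1`, inside `G`. -/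
def Reach (s : ι → ℝ → S) (G : Set S) : ℕ → S → S → Prop
  | 0, a, b => a ∈ G ∧ a = b
  | n + 1, a, b => a ∈ G ∧ ∃ i x, |x| ≤ 1 ∧ Reach s G n (a * s i x) b

theorem Reach.left {s : ι → ℝ → S} {G : Set S} {n : ℕ} {a b : S} (h : Reach s G n a b) : a ∈ G := by
  cases n with
  | zero => exact h.1
  | succ n => exact h.1

theorem Reach.trans {s : ι → ℝ → S} {G : Set S} {n m : ℕ} {a b c : S} (h : Reach s G n a b)
    (h' : Reach s G m b c) : Reach s G (n + m) a c := by
  induction n generalizing a with
  | zero =>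
    obtain ⟨_, rfl⟩ := h
    rw [zero_add]
    exact h'
  | succ n ih =>
    obtain ⟨h1, i, x, hx, h2⟩ := h
    rw [Nat.succ_add]
    exact ⟨h1, i, x, hx, ih h2⟩

theorem Reach.right {s : ι → ℝ → S} {G : Set S} {n : ℕ} {a b : S} (h : Reach s G n a b) : b ∈ G := by
  induction n generalizing a with
  | zero =>
    obtain ⟨h1, rfl⟩ := h
    exact h1
  | succ n ih =>
    obtain ⟨h1, i, x, hx, h2⟩ := h
    exact ih h2

theorem Reach.symm {s : ι → ℝ → S} (hinv : ∀ i x, s i x * s i (-x) = 1) {G : Set S} {n : ℕ} {a b : S}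
    (h : Reach s G n a b) : Reach s G n b a := by
  induction n generalizing a with
  | zero =>
    obtain ⟨h1, rfl⟩ := h
    exact ⟨h1, rfl⟩
  | succ n ih =>
    obtain ⟨h1, i, x, hx, h2⟩ := h
    have h3 := ih h2
    have h4 : Reach s G 1 (a * s i x) a := by
      refine ⟨h2.left, i, -x, by rwa [abs_neg], ?_⟩
      have h5 : a * s i x * s i (-x) = a := by rw [mul_assoc, hinv, mul_one]
      rw [h5]
      exact ⟨h1, rfl⟩
    exact h3.trans h4

theorem Reach.mono {s : ι → ℝ → S} {G G' : Set S} (hG : G ⊆ G') {n : ℕ} {a b : S}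
    (h : Reach s G n a b) : Reach s G' n a b := by
  induction n generalizing a with
  | zero => exact ⟨hG h.1, h.2⟩
  | succ n ih =>
    obtain ⟨h1, i, x, hx, h2⟩ := h
    exact ⟨hG h1, i, x, hx, ih h2⟩

/-- parameters of the chains along the word `J` which start at `z` and stay in `G` -/
def ch (s : ι → ℝ → S) (G : Set S) : (n : ℕ) → (Fin n → ι) → S → Set (Fin n → ℝ)
  | 0, _, z => {_x | z ∈ G}
  | n + 1, J, z => {x | x 0 ∈ Icc (-1 : ℝ) 1 ∧ z ∈ G ∧
      (fun t : Fin n => x t.succ) ∈ ch s G n (fun t => J t.succ) (z * s (J 0) (x 0))}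

theorem ch_subset (s : ι → ℝ → S) (G : Set S) (n : ℕ) (J : Fin n → ι) (z : S) :
    ch s G n J z ⊆ Icc (fun _ => -1) (fun _ => 1) := by
  induction n generalizing z with
  | zero =>
    intro x _
    exact ⟨fun t => t.elim0, fun t => t.elim0⟩
  | succ n ih =>
    rintro x ⟨h1, h2, h3⟩
    have h4 := ih _ _ h3
    constructor
    · intro t
      refine Fin.cases ?_ (fun t => ?_) t
      · exact h1.1
      · exact h4.1 t
    · intro t
      refine Fin.cases ?_ (fun t => ?_) t
      · exact h1.2
      · exact h4.2 t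

theorem ch_reach (s : ι → ℝ → S) (G : Set S) (n : ℕ) (J : Fin n → ι) (z : S) {x : Fin n → ℝ}
    (hx : x ∈ ch s G n J z) : Reach s G n z (z * prS s J x) := by
  induction n generalizing z with
  | zero =>
    refine ⟨hx, ?_⟩
    simp [prS]
  | succ n ih =>
    obtain ⟨h1, h2, h3⟩ := hx
    refine ⟨h2, J 0, x 0, abs_le.2 h1, ?_⟩
    have h4 := ih _ _ h3
    have h5 : z * prS s J x = z * s (J 0) (x 0) * prS s (fun t => J t.succ) (fun t => x t.succ) := by
      simp [prS, List.ofFn_succ, mul_assoc]
    rw [h5]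
    exact h4

variable [MeasurableSpace S]

theorem ch_measurable {s : ι → ℝ → S} (hm : ∀ i, Measurable fun q : S × ℝ => q.1 * s i q.2)
    {G : Set S} (hG : MeasurableSet G) (n : ℕ) (J : Fin n → ι) :
    MeasurableSet {q : S × (Fin n → ℝ) | q.2 ∈ ch s G n J q.1} := by
  induction n with
  | zero => exact measurable_fst hG
  | succ n ih =>
    have h1 : Measurable fun q : S × (Fin (n + 1) → ℝ) =>
        ((q.1 * s (J 0) (q.2 0), fun t : Fin n => q.2 t.succ) : S × (Fin n → ℝ)) := by
      refine Measurable.prodMk ?_ ?_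
      · exact (hm (J 0)).comp (measurable_fst.prodMk ((measurable_pi_apply 0).comp measurable_snd))
      · exact measurable_pi_lambda _ fun t => (measurable_pi_apply t.succ).comp measurable_snd
    have h2 : Measurable fun q : S × (Fin (n + 1) → ℝ) => q.2 0 :=
      (measurable_pi_apply 0).comp measurable_snd
    exact (h2 measurableSet_Icc).inter ((measurable_fst hG).inter (h1 (ih fun t => J t.succ)))

theorem ch_volume {s : ι → ℝ → S} (hm : ∀ i, Measurable fun q : S × ℝ => q.1 * s i q.2)
    {G : Set S} (hG : MeasurableSet G) {θ : ENNReal} (hθ : ∀ z ∈ G, ∀ i, θ ≤ win s i G z)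
    (n : ℕ) (J : Fin n → ι) {z : S} (hz : z ∈ G) : θ ^ n ≤ volume (ch s G n J z) := by
  induction n generalizing z with
  | zero =>
    have : ch s G 0 J z = univ := by
      ext x
      simp [ch, hz]
    rw [this, pow_zero]
    simp [volume_pi]
  | succ n ih =>
    set E := MeasurableEquiv.piFinSuccAbove (fun _ : Fin (n + 1) => ℝ) 0 with hE
    have hEm := volume_preserving_piFinSuccAbove (fun _ : Fin (n + 1) => ℝ) 0
    set V : Set (ℝ × (Fin n → ℝ)) := {q | q.1 ∈ Icc (-1 : ℝ) 1 ∧
      q.2 ∈ ch s G n (fun t => J t.succ) (z * s (J 0) q.1)} with hV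
    have hVm : MeasurableSet V := by
      have h1 : Measurable fun q : ℝ × (Fin n → ℝ) =>
          ((z * s (J 0) q.1, q.2) : S × (Fin n → ℝ)) :=
        ((hm (J 0)).comp (measurable_const.prodMk measurable_fst)).prodMk measurable_snd
      exact (measurable_fst measurableSet_Icc).inter (h1 (ch_measurable hm hG n _))
    have h1 : ch s G (n + 1) J z = E ⁻¹' V := by
      ext x
      constructor
      · rintro ⟨h2, _, h3⟩
        exact ⟨h2, h3⟩
      · rintro ⟨h2, h3⟩
        exact ⟨h2, hz, h3⟩
    rw [h1, hEm.measure_preimage hVm.nullMeasurableSet]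
    have h2 : (volume : Measure (ℝ × (Fin n → ℝ))) = (volume : Measure ℝ).prod volume := rfl
    rw [h2, Measure.prod_apply hVm]
    have hmx : Measurable fun x : ℝ => z * s (J 0) x := (hm (J 0)).comp measurable_prodMk_left
    have hWm : MeasurableSet (Icc (-1 : ℝ) 1 ∩ {x | z * s (J 0) x ∈ G}) :=
      measurableSet_Icc.inter (hmx hG)
    calc θ ^ (n + 1) = θ ^ n * θ := pow_succ _ _
      _ ≤ θ ^ n * volume (Icc (-1 : ℝ) 1 ∩ {x | z * s (J 0) x ∈ G}) := by
          gcongr
          exact hθ z hz (J 0)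
      _ = ∫⁻ x, (Icc (-1 : ℝ) 1 ∩ {x | z * s (J 0) x ∈ G}).indicator (fun _ => θ ^ n) x := by
          rw [lintegral_indicator_const hWm]
      _ ≤ ∫⁻ x, volume (Prod.mk x ⁻¹' V) := by
          refine lintegral_mono fun x => ?_
          by_cases hx : x ∈ Icc (-1 : ℝ) 1 ∩ {x | z * s (J 0) x ∈ G}
          · rw [indicator_of_mem hx]
            refine (ih (fun t => J t.succ) hx.2).trans (measure_mono ?_)
            intro y hy
            exact ⟨hx.1, hy⟩
          · rw [indicator_of_notMem hx]
            exact zero_le'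

end chains

/-- `z` is `z0` times a product of `c` letters of size at most `C` -/
def InP {ι S : Type} [Group S] (s : ι → ℝ → S) (c : ℕ) (C : ℝ) (z0 z : S) : Prop :=
  ∃ (K : Fin c → ι) (y : Fin c → ℝ), (∀ t, |y t| ≤ C) ∧ z = z0 * prS s K y

end Vale.Agent.P188.H329

end
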