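import Mathlib
import Vale.Agent.P188.Defs
import Vale.Agent.P188.R.G027
import Vale.Agent.P188.R.G001

section

/-!
P188, Theorem S (growth of the kernel of the finite-dimensional part): definitions.
-/

universe u v w

open Filter Topology

namespace Vale.Agent.P188.SG

variable {H : Type u} [Group H]

/-- Word length for the finite set `S` (and the inverses of its elements). -/
noncomputable def len (S : Finset H) (g : H) : ℕ := wordDist (S : Set H) 1 g

/-- One step of the random walk: average over the right translates by elements of `S`. -/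
noncomputable def avg (S : Finset H) (φ : H → ℝ) (g : H) : ℝ :=
  (S.card : ℝ)⁻¹ * ∑ s ∈ S, φ (g * s)

/-- Expectation of `φ (X_n)` for the random walk `X_n` with steps uniform in `S`. -/
noncomputable def Ex (S : Finset H) (n : ℕ) (φ : H → ℝ) : ℝ := ((avg S)^[n] φ) 1

/-- A finite nonempty symmetric generating set. -/
structure SymGen (S : Finset H) : Prop where
  ne : S.Nonempty
  inv : ∀ s ∈ S, s⁻¹ ∈ S
  gen : Subgroup.closure (S : Set H) = ⊤

section Rep

variable {V : Type v} [NormedAddCommGroup V] [InnerProductSpace ℝ V]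

/-- `b` is a cocycle for the orthogonal representation `π`. -/
def IsCocycle (π : H →* (V ≃ₗᵢ[ℝ] V)) (b : H → V) : Prop :=
  ∀ g h : H, b (g * h) = b g + π g (b h)

/-- Invariant subspaces. -/
def Inv (π : H →* (V ≃ₗᵢ[ℝ] V)) (W : Submodule ℝ V) : Prop :=
  ∀ g : H, ∀ w ∈ W, π g w ∈ W

/-- `u` is orthogonal to all finite-dimensional invariant subspaces. -/
def FDOrth (π : H →* (V ≃ₗᵢ[ℝ] V)) (u : V) : Prop :=
  ∀ W : Submodule ℝ V, FiniteDimensional ℝ W → Inv π W → ∀ w ∈ W, inner ℝ w u = 0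

end Rep

/-- Cautious random walks: along infinitely many times `n` the walk is within `c √n` of the origin
with probability bounded below. -/
def Cautious (S : Finset H) : Prop :=
  ∀ c : ℝ, 0 < c → ∃ δ : ℝ, 0 < δ ∧ ∃ᶠ n : ℕ in atTop,
    δ ≤ Ex S n (fun g => if (len S g : ℝ) ≤ c * Real.sqrt n then 1 else 0)

/-- The data of an exponentially distorted extension: `θ : G → ℤ^k` onto, the kernel is generated
by the finite set `A`, has polynomial growth, and the word length of `G` (for the finite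
generating set `T`) restricted to the kernel is at most logarithmic in the word length of `A`. -/
structure ExpExt {G : Type v} [Group G] {k : ℕ} (θ : G →* Multiplicative (Fin k → ℤ))
    (A T : Finset G) : Prop where
  surj : Function.Surjective θ
  genA : Subgroup.closure (A : Set G) = θ.ker
  genT : Subgroup.closure (T : Set G) = ⊤
  growth : ∃ C D : ℕ, ∀ n : ℕ, {x : G | x ∈ θ.ker ∧ len A x ≤ n}.ncard ≤ C * (n + 1) ^ D
  dist : ∃ C : ℝ, ∀ x ∈ θ.ker, (len T x : ℝ) ≤ C * (1 + Real.log (1 + len A x))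

/-- The `i`-th coordinate of `θ`. -/
def co {G : Type v} [Group G] {k : ℕ} (θ : G →* Multiplicative (Fin k → ℤ)) (g : G) (i : Fin k) :
    ℝ := ((Multiplicative.toAdd (θ g) i : ℤ) : ℝ)

end Vale.Agent.P188.SG

end

section

/-! P188, Theorem S: word length lemmas. -/

universe u v w

open Filter Topology Pointwise

namespace Vale.Agent.P188.SG

section Len

variable {H : Type u} [Group H] {S : Finset H}

theorem len_le_of_list {g : H} (l : List H) (hl : ∀ a ∈ l, a ∈ S ∨ a⁻¹ ∈ S) (hp : l.prod = g) :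
    len S g ≤ l.length := by
  refine Nat.sInf_le ⟨l, rfl, fun a ha => ?_, ?_⟩
  · simpa using hl a ha
  · rw [hp, inv_one, one_mul]

theorem len_list (hS : Subgroup.closure (S : Set H) = ⊤) (g : H) :
    ∃ l : List H, l.length = len S g ∧ (∀ a ∈ l, a ∈ S ∨ a⁻¹ ∈ S) ∧ l.prod = g := by
  obtain ⟨l, h1, h2, h3⟩ := wordDist_list hS 1 g
  refine ⟨l, h1, fun a ha => ?_, ?_⟩
  · simpa using h2 a ha
  · rw [h3, inv_one, one_mul]

theorem len_one : len S (1 : H) = 0 :=
  Nat.le_zero.mp (len_le_of_list [] (by simp) (by simp))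

theorem len_mul_le (hS : Subgroup.closure (S : Set H) = ⊤) (g h : H) :
    len S (g * h) ≤ len S g + len S h := by
  obtain ⟨l, h1, h2, h3⟩ := len_list hS g
  obtain ⟨m, k1, k2, k3⟩ := len_list hS h
  rw [← h1, ← k1, ← List.length_append]
  refine len_le_of_list _ (fun a ha => ?_) ?_
  · rcases List.mem_append.mp ha with ha | ha
    · exact h2 a ha
    · exact k2 a ha
  · rw [List.prod_append, h3, k3]

theorem len_inv_le (hS : Subgroup.closure (S : Set H) = ⊤) (g : H) :
    len S g⁻¹ ≤ len S g := by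
  obtain ⟨l, h1, h2, h3⟩ := len_list hS g
  have h4 : ((l.map fun x => x⁻¹).reverse).length = len S g := by
    rw [List.length_reverse, List.length_map, h1]
  rw [← h4]
  refine len_le_of_list _ (fun a ha => ?_) ?_
  · rw [List.mem_reverse, List.mem_map] at ha
    obtain ⟨b, hb, rfl⟩ := ha
    rw [inv_inv]
    exact (h2 b hb).symm
  · rw [← List.prod_inv_reverse, h3]

theorem len_inv (hS : Subgroup.closure (S : Set H) = ⊤) (g : H) : len S g⁻¹ = len S g := by
  refine le_antisymm (len_inv_le hS g) ?_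
  have := len_inv_le hS g⁻¹
  rwa [inv_inv] at this

theorem len_le_one {g : H} (hg : g ∈ S) : len S g ≤ 1 :=
  len_le_of_list [g] (by simp [hg]) (by simp)

/-- induction along a geodesic word -/
theorem exists_path (hS : Subgroup.closure (S : Set H) = ⊤) (g : H) :
    ∃ p : ℕ → H, p 0 = 1 ∧ p (len S g) = g ∧ (∀ i, len S ((p i)⁻¹ * p (i + 1)) ≤ 1) ∧
      (∀ i, len S (p i) ≤ len S g) ∧
      ∀ i, p (i + 1) = p i ∨ ∃ s, (s ∈ S ∨ s⁻¹ ∈ S) ∧ p (i + 1) = p i * s := by
  obtain ⟨l, h1, h2, h3⟩ := len_list hS g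
  have hstep : ∀ i, (l.take (i + 1)).prod = (l.take i).prod ∨
      ∃ s, (s ∈ S ∨ s⁻¹ ∈ S) ∧ (l.take (i + 1)).prod = (l.take i).prod * s := by
    intro i
    by_cases hi : i < l.length
    · right
      exact ⟨l[i], h2 _ (List.getElem_mem hi), List.prod_take_succ l i hi⟩
    · left
      rw [List.take_of_length_le (by omega), List.take_of_length_le (by omega)]
  refine ⟨fun i => (l.take i).prod, by simp, ?_, fun i => ?_, fun i => ?_, hstep⟩
  · show (l.take (len S g)).prod = g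
    rw [← h1, List.take_length, h3]
  · show len S (((l.take i).prod)⁻¹ * (l.take (i + 1)).prod) ≤ 1
    rcases hstep i with h | ⟨s, hs, h⟩
    · rw [h, inv_mul_cancel, len_one]
      exact Nat.zero_le _
    · rw [h, inv_mul_cancel_left]
      exact len_le_of_list [s] (by simpa using hs) (by simp)
  · show len S ((l.take i).prod) ≤ len S g
    rw [← h1]
    refine (len_le_of_list (l.take i) (fun a ha => h2 a (List.mem_of_mem_take ha)) rfl).trans ?_
    rw [List.length_take]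
    exact min_le_right _ _

theorem ncard_ball_le (hS : Subgroup.closure (S : Set H) = ⊤) (n : ℕ) :
    {x : H | len S x ≤ n}.Finite ∧ {x : H | len S x ≤ n}.ncard ≤ (2 * S.card + 1) ^ n := by
  classical
  let U : Finset H := insert 1 (S ∪ S.image fun x => x⁻¹)
  have hU1 : (1 : H) ∈ U := Finset.mem_insert_self _ _
  have hUcard : U.card ≤ 2 * S.card + 1 := by
    refine (Finset.card_insert_le _ _).trans ?_
    have h1 : (S ∪ S.image fun x => x⁻¹).card ≤ S.card + (S.image fun x => x⁻¹).card :=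
      Finset.card_union_le _ _
    have h2 : (S.image fun x => x⁻¹).card ≤ S.card := Finset.card_image_le
    omega
  have hmem : ∀ l : List H, (∀ a ∈ l, a ∈ S ∨ a⁻¹ ∈ S) → l.prod ∈ U ^ l.length := by
    intro l
    induction l with
    | nil => intro _; simp
    | cons a l ih =>
      intro hl
      rw [List.prod_cons, List.length_cons, pow_succ']
      refine Finset.mul_mem_mul ?_ (ih fun b hb => hl b (List.mem_cons_of_mem _ hb))
      rcases hl a List.mem_cons_self with h | h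
      · exact Finset.mem_insert_of_mem (Finset.mem_union_left _ h)
      · refine Finset.mem_insert_of_mem (Finset.mem_union_right _ ?_)
        exact Finset.mem_image.mpr ⟨a⁻¹, h, inv_inv a⟩
  have hsub : {x : H | len S x ≤ n} ⊆ ((U ^ n : Finset H) : Set H) := by
    intro x hx
    obtain ⟨l, h1, h2, h3⟩ := len_list hS x
    have h4 := hmem l h2
    rw [h3, h1] at h4
    exact Finset.mem_coe.mpr (Finset.pow_subset_pow_right hU1 hx h4)
  refine ⟨(Finset.finite_toSet _).subset hsub, ?_⟩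
  calc {x : H | len S x ≤ n}.ncard ≤ ((U ^ n : Finset H) : Set H).ncard :=
        Set.ncard_le_ncard hsub (Finset.finite_toSet _)
    _ = (U ^ n).card := Set.ncard_coe_finset _
    _ ≤ U.card ^ n := Finset.card_pow_le
    _ ≤ (2 * S.card + 1) ^ n := Nat.pow_le_pow_left hUcard n

end Len

end Vale.Agent.P188.SG

end

section

/-!
P188, Theorem S: the top eigenspace of a positive operator of bounded trace.
-/

universe u v w

open Filter Topology

namespace Vale.Agent.P188.SG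

section Rep

variable {V : Type v} [NormedAddCommGroup V] [InnerProductSpace ℝ V]

private theorem trace_cs (B : V →L[ℝ] V)
    (hsa : ∀ v w : V, inner ℝ (B v) w = inner ℝ v (B w)) (hpos : ∀ v : V, 0 ≤ inner ℝ (B v) v)
    (v w : V) : (inner ℝ (B v) w) ^ 2 ≤ inner ℝ (B v) v * inner ℝ (B w) w := by
  have h1 : ∀ x : ℝ, 0 ≤ inner ℝ (B v) v * (x * x) + (2 * inner ℝ (B v) w) * x +
      inner ℝ (B w) w := by
    intro x
    have h2 := hpos (x • v + w)
    have h3 : inner ℝ (B w) v = inner ℝ (B v) w := by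
      rw [hsa w v, real_inner_comm]
    simp only [map_add, map_smul, inner_add_left, inner_add_right, inner_smul_left,
      inner_smul_right, h3, conj_trivial] at h2
    linarith
  have h2 := discrim_le_zero h1
  rw [discrim] at h2
  nlinarith

private theorem trace_fin (B : V →L[ℝ] V) (c lam : ℝ) (hlam : 0 < lam)
    (htr : ∀ (m : ℕ) (e : Fin m → V), Orthonormal ℝ e → ∑ i, inner ℝ (B (e i)) (e i) ≤ c)
    (W : Submodule ℝ V) (hW : ∀ v ∈ W, inner ℝ (B v) v = lam * ‖v‖ ^ 2) :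
    FiniteDimensional ℝ W := by
  by_contra hfin
  have h1 : Cardinal.aleph0 ≤ Module.rank ℝ W := by
    by_contra h2
    exact hfin (Module.rank_lt_aleph0_iff.1 (not_le.1 h2))
  obtain ⟨m, hm⟩ := exists_nat_gt (c / lam)
  obtain ⟨f, hf⟩ := exists_linearIndependent_of_le_rank
    ((Cardinal.natCast_lt_aleph0 (n := m)).le.trans h1)
  have h2 : Orthonormal ℝ (InnerProductSpace.gramSchmidtNormed ℝ f) :=
    InnerProductSpace.gramSchmidtNormed_orthonormal hf
  have h3 : Orthonormal ℝ (fun i => ((InnerProductSpace.gramSchmidtNormed ℝ f i : W) : V)) :=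
    h2.comp_linearIsometry W.subtypeₗᵢ
  have h4 := htr m _ h3
  have h5 : ∀ i : Fin m, inner ℝ (B ((InnerProductSpace.gramSchmidtNormed ℝ f i : W) : V))
      ((InnerProductSpace.gramSchmidtNormed ℝ f i : W) : V) = lam := by
    intro i
    rw [hW _ (InnerProductSpace.gramSchmidtNormed ℝ f i).2, h3.1 i]
    ring
  simp only [h5, Finset.sum_const, Finset.card_univ, Fintype.card_fin, nsmul_eq_mul] at h4
  rw [div_lt_iff₀ hlam] at hm
  linarith

private theorem trace_cons {m : ℕ} {e : Fin m → V} (he : Orthonormal ℝ e) {r : V} (hr : ‖r‖ = 1)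
    (h : ∀ i, inner ℝ (e i) r = 0) :
    Orthonormal ℝ (Fin.cons r e : Fin (m + 1) → V) := by
  constructor
  · intro i
    refine Fin.cases ?_ (fun i => ?_) i
    · simpa using hr
    · simpa using he.1 i
  · intro i j hij
    revert hij
    refine Fin.cases ?_ (fun i => ?_) i <;> refine Fin.cases ?_ (fun j => ?_) j
    · intro h0
      exact absurd rfl h0
    · intro _
      rw [Fin.cons_zero, Fin.cons_succ, real_inner_comm]
      exact h j
    · intro _
      rw [Fin.cons_zero, Fin.cons_succ]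
      exact h i
    · intro hij
      rw [Fin.cons_succ, Fin.cons_succ]
      exact he.2 fun h0 => hij (congrArg Fin.succ h0)

variable [CompleteSpace V]

theorem top_eigenspace (B : V →L[ℝ] V) (hsa : ∀ v w : V, inner ℝ (B v) w = inner ℝ v (B w))
    (hpos : ∀ v : V, 0 ≤ inner ℝ (B v) v) (c : ℝ)
    (htr : ∀ (m : ℕ) (e : Fin m → V), Orthonormal ℝ e → ∑ i, inner ℝ (B (e i)) (e i) ≤ c)
    (hB : B ≠ 0) :
    ∃ (lam : ℝ) (W : Submodule ℝ V), 0 < lam ∧ FiniteDimensional ℝ W ∧ W ≠ ⊥ ∧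
      (∀ v, inner ℝ (B v) v ≤ lam * ‖v‖ ^ 2) ∧
      (∀ v, inner ℝ (B v) v = lam * ‖v‖ ^ 2 ↔ v ∈ W) := by
  obtain ⟨v₀, hv₀⟩ : ∃ v, B v ≠ 0 := by
    by_contra h
    rw [not_exists] at h
    exact hB (ContinuousLinearMap.ext fun v => not_not.1 (h v))
  have hv₀' : v₀ ≠ 0 := by
    rintro rfl
    exact hv₀ (map_zero B)
  have hqB : ∀ v, inner ℝ (B v) v ≤ ‖B‖ * ‖v‖ ^ 2 := fun v => by
    calc inner ℝ (B v) v ≤ ‖B v‖ * ‖v‖ := real_inner_le_norm _ _
      _ ≤ (‖B‖ * ‖v‖) * ‖v‖ := by gcongr; exact B.le_opNorm v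
      _ = ‖B‖ * ‖v‖ ^ 2 := by ring
  set S : Set ℝ := {x | ∃ v : V, ‖v‖ = 1 ∧ inner ℝ (B v) v = x} with hS
  have hSb : BddAbove S := by
    refine ⟨‖B‖, ?_⟩
    rintro x ⟨v, hv, rfl⟩
    have := hqB v
    rw [hv] at this
    linarith
  have hSn : S.Nonempty := ⟨_, ‖v₀‖⁻¹ • v₀, norm_smul_inv_norm hv₀', rfl⟩
  set lam := sSup S with hlam
  have hle : ∀ v, inner ℝ (B v) v ≤ lam * ‖v‖ ^ 2 := by
    intro v
    by_cases hv : v = 0
    · simp [hv]
    · have h1 : inner ℝ (B (‖v‖⁻¹ • v)) (‖v‖⁻¹ • v) ≤ lam :=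
        le_csSup hSb ⟨_, norm_smul_inv_norm hv, rfl⟩
      rw [map_smul, inner_smul_left, inner_smul_right, conj_trivial] at h1
      have h2 : 0 < ‖v‖ := norm_pos_iff.2 hv
      calc inner ℝ (B v) v = (‖v‖⁻¹ * (‖v‖⁻¹ * inner ℝ (B v) v)) * ‖v‖ ^ 2 := by
            field_simp
        _ ≤ lam * ‖v‖ ^ 2 := by gcongr
  have hlam0 : 0 ≤ lam := by
    obtain ⟨x, hx⟩ := hSn
    obtain ⟨v, hv, rfl⟩ := hx
    exact (hpos v).trans (le_csSup hSb ⟨v, hv, rfl⟩)
  have hBv : ∀ v, ‖B v‖ ^ 2 ≤ lam * inner ℝ (B v) v := by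
    intro v
    by_cases hv : B v = 0
    · rw [hv]
      simp
    · have h1 := trace_cs B hsa hpos v (B v)
      rw [real_inner_self_eq_norm_sq] at h1
      have h2 := hle (B v)
      have h3 : 0 < ‖B v‖ ^ 2 := by
        have : 0 < ‖B v‖ := norm_pos_iff.2 hv
        positivity
      have h4 : (‖B v‖ ^ 2) ^ 2 ≤ inner ℝ (B v) v * (lam * ‖B v‖ ^ 2) :=
        h1.trans (mul_le_mul_of_nonneg_left h2 (hpos v))
      have h5 : ‖B v‖ ^ 2 * ‖B v‖ ^ 2 ≤ (lam * inner ℝ (B v) v) * ‖B v‖ ^ 2 := by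
        calc ‖B v‖ ^ 2 * ‖B v‖ ^ 2 = (‖B v‖ ^ 2) ^ 2 := by ring
          _ ≤ inner ℝ (B v) v * (lam * ‖B v‖ ^ 2) := h4
          _ = (lam * inner ℝ (B v) v) * ‖B v‖ ^ 2 := by ring
      exact le_of_mul_le_mul_right h5 h3
  have hlampos : 0 < lam := by
    rcases hlam0.eq_or_lt with h | h
    · exfalso
      have h1 := hBv v₀
      rw [← h, zero_mul] at h1
      have h2 : 0 < ‖B v₀‖ := norm_pos_iff.2 hv₀
      have h3 : 0 < ‖B v₀‖ ^ 2 := by positivity
      linarith
    · exact h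
  have hdef : ∀ v, ‖lam • v - B v‖ ^ 2 ≤ lam * (lam * ‖v‖ ^ 2 - inner ℝ (B v) v) := by
    intro v
    have h1 : ‖lam • v - B v‖ ^ 2 =
        lam ^ 2 * ‖v‖ ^ 2 - 2 * lam * inner ℝ (B v) v + ‖B v‖ ^ 2 := by
      rw [norm_sub_sq_real, norm_smul, inner_smul_left, conj_trivial, mul_pow, Real.norm_eq_abs,
        sq_abs, real_inner_comm]
      ring
    rw [h1]
    have := hBv v
    nlinarith
  -- a maximizing sequence
  have hseq : ∀ n : ℕ, ∃ v : V, ‖v‖ = 1 ∧ lam - 1 / ((n : ℝ) + 1) < inner ℝ (B v) v := by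
    intro n
    have h1 : lam - 1 / ((n : ℝ) + 1) < sSup S := by
      have : (0 : ℝ) < 1 / ((n : ℝ) + 1) := by positivity
      linarith
    obtain ⟨x, ⟨v, hv, rfl⟩, hx⟩ := exists_lt_of_lt_csSup hSn h1
    exact ⟨v, hv, hx⟩
  choose v hv1 hvq using hseq
  have hd0 : Tendsto (fun n => ‖lam • v n - B (v n)‖) atTop (𝓝 0) := by
    have h1 : Tendsto (fun n : ℕ => Real.sqrt (lam * (1 / ((n : ℝ) + 1)))) atTop (𝓝 0) := by
      have h2 : Tendsto (fun n : ℕ => lam * (1 / ((n : ℝ) + 1))) atTop (𝓝 (lam * 0)) :=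
        tendsto_one_div_add_atTop_nhds_zero_nat.const_mul lam
      rw [mul_zero] at h2
      have h3 := (Real.continuous_sqrt.tendsto 0).comp h2
      rwa [Real.sqrt_zero] at h3
    refine squeeze_zero (fun n => norm_nonneg _) (fun n => ?_) h1
    refine Real.le_sqrt_of_sq_le ((hdef (v n)).trans ?_)
    rw [hv1 n]
    have := hvq n
    gcongr
    linarith
  -- a finite family carrying almost all of the trace
  set T : Set ℝ := {x | ∃ (m : ℕ) (e : Fin m → V), Orthonormal ℝ e ∧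
    ∑ i, inner ℝ (B (e i)) (e i) = x} with hT
  have hTb : BddAbove T := by
    refine ⟨c, ?_⟩
    rintro x ⟨m, e, he, rfl⟩
    exact htr m e he
  have hTn : T.Nonempty := ⟨_, 0, Fin.elim0, ⟨fun i => i.elim0, fun i => i.elim0⟩, rfl⟩
  obtain ⟨x, ⟨m, e, he, rfl⟩, hx⟩ := exists_lt_of_lt_csSup hTn
    (show sSup T - lam / 2 < sSup T by linarith)
  have hr : ∀ r, (∀ i, inner ℝ (e i) r = 0) → inner ℝ (B r) r ≤ lam / 2 * ‖r‖ ^ 2 := by
    intro r hr
    by_cases h0 : r = 0
    · simp [h0]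
    · have h1 := trace_cons he (r := ‖r‖⁻¹ • r) (norm_smul_inv_norm h0) fun i => by
        rw [inner_smul_right, hr i, mul_zero]
      have h2 : ∑ i, inner ℝ (B ((Fin.cons (‖r‖⁻¹ • r) e : Fin (m + 1) → V) i))
          ((Fin.cons (‖r‖⁻¹ • r) e : Fin (m + 1) → V) i) ≤ sSup T :=
        le_csSup hTb ⟨m + 1, _, h1, rfl⟩
      rw [Fin.sum_univ_succ] at h2
      simp only [Fin.cons_zero, Fin.cons_succ] at h2
      rw [map_smul, inner_smul_left, inner_smul_right, conj_trivial] at h2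
      have h3 : 0 < ‖r‖ := norm_pos_iff.2 h0
      have h4 : ‖r‖⁻¹ * (‖r‖⁻¹ * inner ℝ (B r) r) ≤ lam / 2 := by linarith
      calc inner ℝ (B r) r = (‖r‖⁻¹ * (‖r‖⁻¹ * inner ℝ (B r) r)) * ‖r‖ ^ 2 := by
            field_simp
        _ ≤ lam / 2 * ‖r‖ ^ 2 := by gcongr
  -- key inequality
  have hkey : ∀ w : V, ‖w‖ ≤ 2 → lam / 2 * ‖w‖ ^ 2 ≤ 2 * ‖lam • w - B w‖ +
      6 * ‖B‖ * ∑ i, |inner ℝ (e i) w| := by
    intro w hw
    set p : V := ∑ i, inner ℝ (e i) w • e i with hp
    set r : V := w - p with hr'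
    have h1 : ∀ i, inner ℝ (e i) r = 0 := by
      intro i
      rw [hr', hp, inner_sub_right, he.inner_right_fintype, sub_self]
    have h2 : inner ℝ p r = 0 := by
      rw [hp, sum_inner]
      refine Finset.sum_eq_zero fun i _ => ?_
      rw [inner_smul_left, h1 i, mul_zero]
    have h3 : w = r + p := by rw [hr']; abel
    have h4 : ‖w‖ ^ 2 = ‖r‖ ^ 2 + ‖p‖ ^ 2 := by
      rw [h3, norm_add_sq_real, real_inner_comm, h2]
      ring
    have hrw : ‖r‖ ≤ ‖w‖ := by
      refine abs_le_of_sq_le_sq' ?_ (norm_nonneg _) |>.2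
      nlinarith [sq_nonneg ‖p‖]
    have hpw : ‖p‖ ≤ ‖w‖ := by
      refine abs_le_of_sq_le_sq' ?_ (norm_nonneg _) |>.2
      nlinarith [sq_nonneg ‖r‖]
    have hps : ‖p‖ ≤ ∑ i, |inner ℝ (e i) w| := by
      refine (norm_sum_le _ _).trans (Finset.sum_le_sum fun i _ => ?_)
      rw [norm_smul, he.1 i, mul_one, Real.norm_eq_abs]
    have h5 : inner ℝ (B w) w = inner ℝ (B r) r + 2 * inner ℝ (B p) r + inner ℝ (B p) p := by
      have h6 : inner ℝ (B r) p = inner ℝ (B p) r := by rw [hsa r p, real_inner_comm]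
      conv_lhs => rw [h3]
      rw [map_add, inner_add_left, inner_add_right, inner_add_right, h6]
      ring
    have h6 : inner ℝ (B p) r ≤ ‖B‖ * ‖p‖ * 2 := by
      calc inner ℝ (B p) r ≤ ‖B p‖ * ‖r‖ := real_inner_le_norm _ _
        _ ≤ (‖B‖ * ‖p‖) * 2 := by
          gcongr
          · exact B.le_opNorm p
          · exact hrw.trans hw
    have h7 : inner ℝ (B p) p ≤ ‖B‖ * ‖p‖ * 2 := by
      calc inner ℝ (B p) p ≤ ‖B p‖ * ‖p‖ := real_inner_le_norm _ _
        _ ≤ (‖B‖ * ‖p‖) * 2 := by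
          gcongr
          · exact B.le_opNorm p
          · exact hpw.trans hw
    have h8 := hr r h1
    have h9 : lam * ‖w‖ ^ 2 - inner ℝ (B w) w ≤ 2 * ‖lam • w - B w‖ := by
      have h10 : lam * ‖w‖ ^ 2 - inner ℝ (B w) w = inner ℝ (lam • w - B w) w := by
        rw [inner_sub_left, inner_smul_left, conj_trivial, real_inner_self_eq_norm_sq]
      rw [h10]
      calc inner ℝ (lam • w - B w) w ≤ ‖lam • w - B w‖ * ‖w‖ := real_inner_le_norm _ _
        _ ≤ ‖lam • w - B w‖ * 2 := by gcongr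
        _ = 2 * ‖lam • w - B w‖ := by ring
    have h10 : lam / 2 * ‖r‖ ^ 2 ≤ lam / 2 * ‖w‖ ^ 2 := by gcongr
    have h11 : 6 * ‖B‖ * ‖p‖ ≤ 6 * ‖B‖ * ∑ i, |inner ℝ (e i) w| := by gcongr
    nlinarith
  -- a convergent subsequence
  have hcomp : ∃ (φ : ℕ → ℕ), StrictMono φ ∧ ∃ α : Fin m → ℝ,
      Tendsto (fun n => fun i => inner ℝ (e i) (v (φ n))) atTop (𝓝 α) := by
    have h1 : ∀ n, (fun i => inner ℝ (e i) (v n) : Fin m → ℝ) ∈ Metric.closedBall 0 1 := by
      intro n
      rw [mem_closedBall_zero_iff, pi_norm_le_iff_of_nonneg zero_le_one]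
      intro i
      have h2 := norm_inner_le_norm (𝕜 := ℝ) (e i) (v n)
      rwa [he.1 i, hv1 n, mul_one] at h2
    obtain ⟨α, -, φ, hφ, hα⟩ := (isCompact_closedBall (0 : Fin m → ℝ) 1).tendsto_subseq h1
    exact ⟨φ, hφ, α, hα⟩
  obtain ⟨φ, hφ, α, hα⟩ := hcomp
  have hcauchy : CauchySeq (fun n => v (φ n)) := by
    have hα' : ∀ i, Tendsto (fun n => inner ℝ (e i) (v (φ n))) atTop (𝓝 (α i)) := by
      intro i
      exact (tendsto_pi_nhds.1 hα) i
    have h1 : Tendsto (fun n => ∑ i, |inner ℝ (e i) (v (φ n)) - α i|) atTop (𝓝 0) := by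
      have h2 : Tendsto (fun n => ∑ i, |inner ℝ (e i) (v (φ n)) - α i|) atTop
          (𝓝 (∑ i, |α i - α i|)) :=
        tendsto_finsetSum _ fun i _ => ((hα' i).sub_const (α i)).abs
      simpa using h2
    have h2 : Tendsto (fun n => ‖lam • v (φ n) - B (v (φ n))‖) atTop (𝓝 0) :=
      hd0.comp hφ.tendsto_atTop
    have h3 : Tendsto (fun n => 2 * ‖lam • v (φ n) - B (v (φ n))‖ +
        6 * ‖B‖ * ∑ i, |inner ℝ (e i) (v (φ n)) - α i|) atTop (𝓝 0) := by
      have := (h2.const_mul 2).add (h1.const_mul (6 * ‖B‖))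
      simpa using this
    rw [Metric.cauchySeq_iff]
    intro ε hε
    have h4 : ∀ᶠ n in atTop, 2 * ‖lam • v (φ n) - B (v (φ n))‖ +
        6 * ‖B‖ * ∑ i, |inner ℝ (e i) (v (φ n)) - α i| < lam / 4 * ε ^ 2 :=
      h3.eventually_lt_const (by positivity)
    obtain ⟨N, hN⟩ := eventually_atTop.1 h4
    refine ⟨N, fun j hj l hl => ?_⟩
    have h5 := hN j hj
    have h6 := hN l hl
    have h7 := hkey (v (φ j) - v (φ l)) (by
      refine (norm_sub_le _ _).trans ?_
      rw [hv1, hv1]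
      norm_num)
    have h8 : ‖lam • (v (φ j) - v (φ l)) - B (v (φ j) - v (φ l))‖ ≤
        ‖lam • v (φ j) - B (v (φ j))‖ + ‖lam • v (φ l) - B (v (φ l))‖ := by
      have h9 : lam • (v (φ j) - v (φ l)) - B (v (φ j) - v (φ l)) =
          (lam • v (φ j) - B (v (φ j))) - (lam • v (φ l) - B (v (φ l))) := by
        rw [map_sub, smul_sub]
        abel
      rw [h9]
      exact norm_sub_le _ _
    have h9 : ∑ i, |inner ℝ (e i) (v (φ j) - v (φ l))| ≤
        ∑ i, |inner ℝ (e i) (v (φ j)) - α i| + ∑ i, |inner ℝ (e i) (v (φ l)) - α i| := by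
      rw [← Finset.sum_add_distrib]
      refine Finset.sum_le_sum fun i _ => ?_
      rw [inner_sub_right]
      have h10 : (inner ℝ (e i) (v (φ j)) - inner ℝ (e i) (v (φ l)) : ℝ) =
          (inner ℝ (e i) (v (φ j)) - α i) - (inner ℝ (e i) (v (φ l)) - α i) := by ring
      rw [h10]
      exact abs_sub _ _
    have h10 : lam / 2 * ‖v (φ j) - v (φ l)‖ ^ 2 < lam / 2 * ε ^ 2 := by
      have h11 := mul_le_mul_of_nonneg_left h9 (show 0 ≤ 6 * ‖B‖ by positivity)
      nlinarith
    have h11 : ‖v (φ j) - v (φ l)‖ ^ 2 < ε ^ 2 := lt_of_mul_lt_mul_left h10 (by positivity)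
    rw [dist_eq_norm]
    exact lt_of_pow_lt_pow_left₀ 2 hε.le h11
  obtain ⟨z, hz⟩ := cauchySeq_tendsto_of_complete hcauchy
  have hz1 : ‖z‖ = 1 := by
    have h1 : Tendsto (fun n => ‖v (φ n)‖) atTop (𝓝 ‖z‖) := hz.norm
    simp only [hv1] at h1
    exact tendsto_nhds_unique h1 tendsto_const_nhds |>.trans rfl |>.symm ▸ rfl
  have hzB : lam • z - B z = 0 := by
    have h1 : Tendsto (fun n => ‖lam • v (φ n) - B (v (φ n))‖) atTop (𝓝 ‖lam • z - B z‖) :=
      ((hz.const_smul lam).sub ((B.continuous.tendsto z).comp hz)).norm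
    have h2 := tendsto_nhds_unique h1 (hd0.comp hφ.tendsto_atTop)
    exact norm_eq_zero.1 h2
  have hmem : ∀ v, inner ℝ (B v) v = lam * ‖v‖ ^ 2 ↔
      v ∈ LinearMap.ker (lam • ContinuousLinearMap.id ℝ V - B : V →L[ℝ] V).toLinearMap := by
    intro v
    rw [LinearMap.mem_ker]
    change _ ↔ lam • v - B v = 0
    constructor
    · intro h
      have h1 := hdef v
      rw [h, sub_self, mul_zero] at h1
      have h2 : ‖lam • v - B v‖ = 0 := by
        have := norm_nonneg (lam • v - B v)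
        nlinarith
      exact norm_eq_zero.1 h2
    · intro h
      have h1 : B v = lam • v := (sub_eq_zero.1 h).symm
      rw [h1, inner_smul_left, conj_trivial, real_inner_self_eq_norm_sq]
  refine ⟨lam, LinearMap.ker (lam • ContinuousLinearMap.id ℝ V - B : V →L[ℝ] V).toLinearMap,
    hlampos, ?_, ?_, hle, hmem⟩
  · exact trace_fin B c lam hlampos htr _ fun v hv => (hmem v).2 hv
  · intro h0
    have h1 : z ∈ LinearMap.ker (lam • ContinuousLinearMap.id ℝ V - B : V →L[ℝ] V).toLinearMap :=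
      hzB
    rw [h0, Submodule.mem_bot] at h1
    rw [h1, norm_zero] at hz1
    exact zero_ne_one hz1

end Rep

end Vale.Agent.P188.SG

end

section

/-!
P188, Theorem S: expectations of functions of the random walk.
-/

universe u v w

open Filter Topology

namespace Vale.Agent.P188.SG

variable {H : Type u} [Group H] {S : Finset H}

theorem Ex_zero (φ : H → ℝ) : Ex S 0 φ = φ 1 := rfl

theorem Ex_succ (n : ℕ) (φ : H → ℝ) : Ex S (n + 1) φ = Ex S n (avg S φ) := rfl

theorem Walk_left (n : ℕ) (φ : H → ℝ) (h g : H) :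
    ((avg S)^[n] (fun x => φ (h * x))) g = ((avg S)^[n] φ) (h * g) := by
  induction n generalizing φ with
  | zero => rfl
  | succ n ih =>
    rw [Function.iterate_succ_apply, Function.iterate_succ_apply, ← ih (avg S φ)]
    have e : avg S (fun x => φ (h * x)) = fun x => avg S φ (h * x) := by
      funext x
      unfold avg
      simp only [mul_assoc]
    rw [e]

theorem Ex_succ' (n : ℕ) (φ : H → ℝ) :
    Ex S (n + 1) φ = (S.card : ℝ)⁻¹ * ∑ s ∈ S, Ex S n (fun g => φ (s * g)) := by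
  unfold Ex
  rw [Function.iterate_succ_apply']
  have e : ∀ s : H, ((avg S)^[n] (fun g => φ (s * g))) 1 = ((avg S)^[n] φ) (1 * s) := by
    intro s
    rw [Walk_left, mul_one, one_mul]
  simp only [e]
  rfl

theorem Walk_avg_add (φ ψ : H → ℝ) :
    avg S (fun g => φ g + ψ g) = fun g => avg S φ g + avg S ψ g := by
  funext x
  unfold avg
  rw [Finset.sum_add_distrib, mul_add]

theorem Walk_avg_smul (a : ℝ) (φ : H → ℝ) :
    avg S (fun g => a * φ g) = fun g => a * avg S φ g := by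
  funext x
  unfold avg
  rw [← Finset.mul_sum]
  ring

theorem Ex_add (n : ℕ) (φ ψ : H → ℝ) :
    Ex S n (fun g => φ g + ψ g) = Ex S n φ + Ex S n ψ := by
  induction n generalizing φ ψ with
  | zero => rfl
  | succ n ih => rw [Ex_succ, Ex_succ, Ex_succ, Walk_avg_add, ih]

theorem Ex_smul (n : ℕ) (a : ℝ) (φ : H → ℝ) :
    Ex S n (fun g => a * φ g) = a * Ex S n φ := by
  induction n generalizing φ with
  | zero => rfl
  | succ n ih => rw [Ex_succ, Ex_succ, Walk_avg_smul, ih]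

theorem Walk_zero (n : ℕ) : Ex S n (fun _ => (0 : ℝ)) = 0 := by
  have h := Ex_smul (S := S) n 0 (fun _ => (0 : ℝ))
  simpa using h

theorem Ex_sum {ι : Type*} (t : Finset ι) (n : ℕ) (φ : ι → H → ℝ) :
    Ex S n (fun g => ∑ i ∈ t, φ i g) = ∑ i ∈ t, Ex S n (φ i) := by
  classical
  induction t using Finset.induction_on with
  | empty =>
    simp only [Finset.sum_empty]
    exact Walk_zero n
  | insert i t hi ih =>
    simp only [Finset.sum_insert hi]
    rw [Ex_add, ih]

theorem Ex_const (hS : S.Nonempty) (n : ℕ) (a : ℝ) : Ex S n (fun _ => a) = a := by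
  have hc : (S.card : ℝ) ≠ 0 := by
    have := Finset.card_pos.mpr hS
    positivity
  have e : avg S (fun _ => a) = fun _ => a := by
    funext x
    unfold avg
    rw [Finset.sum_const, nsmul_eq_mul, ← mul_assoc, inv_mul_cancel₀ hc, one_mul]
  induction n with
  | zero => rfl
  | succ n ih => rw [Ex_succ, e, ih]

theorem Ex_mono (n : ℕ) {φ ψ : H → ℝ} (h : ∀ g, φ g ≤ ψ g) : Ex S n φ ≤ Ex S n ψ := by
  induction n generalizing φ ψ with
  | zero => exact h 1
  | succ n ih =>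
    rw [Ex_succ, Ex_succ]
    refine ih fun g => ?_
    unfold avg
    exact mul_le_mul_of_nonneg_left (Finset.sum_le_sum fun s _ => h _) (by positivity)

theorem Ex_nonneg (n : ℕ) {φ : H → ℝ} (h : ∀ g, 0 ≤ φ g) : 0 ≤ Ex S n φ := by
  have h1 := Ex_mono (S := S) n (φ := fun _ => (0 : ℝ)) (ψ := φ) h
  rwa [Walk_zero] at h1

theorem Ex_abs_le (hS : S.Nonempty) (n : ℕ) {φ : H → ℝ} {M : ℝ} (h : ∀ g, |φ g| ≤ M) :
    |Ex S n φ| ≤ M := by
  rw [abs_le]
  have h1 := Ex_mono (S := S) n (φ := φ) (ψ := fun _ => M) fun g => (abs_le.mp (h g)).2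
  have h2 := Ex_mono (S := S) n (φ := fun _ => -M) (ψ := φ) fun g => (abs_le.mp (h g)).1
  rw [Ex_const hS] at h1 h2
  exact ⟨h2, h1⟩

theorem Ex_inv (hS : ∀ s ∈ S, s⁻¹ ∈ S) (n : ℕ) (φ : H → ℝ) :
    Ex S n (fun g => φ g⁻¹) = Ex S n φ := by
  induction n generalizing φ with
  | zero =>
    rw [Ex_zero, Ex_zero, inv_one]
  | succ n ih =>
    rw [Ex_succ']
    have e1 : ∀ s : H, Ex S n (fun g => φ (s * g)⁻¹) = Ex S n (fun g => φ (g * s⁻¹)) := by
      intro s
      have h := ih (fun g => φ (g * s⁻¹))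
      simp only [mul_inv_rev]
      exact h
    have e2 : ∑ s ∈ S, Ex S n (fun g => φ (g * s⁻¹)) = ∑ s ∈ S, Ex S n (fun g => φ (g * s)) :=
      Finset.sum_nbij' (fun s => s⁻¹) (fun s => s⁻¹) (fun s hs => hS s hs) (fun s hs => hS s hs)
        (fun s _ => inv_inv s) (fun s _ => inv_inv s) (fun s _ => rfl)
    have e3 : avg S φ = fun g => (S.card : ℝ)⁻¹ * (∑ s ∈ S, φ (g * s)) := rfl
    simp only [e1]
    rw [e2, Ex_succ, e3, Ex_smul, Ex_sum]

theorem Ex_markov (n : ℕ) {φ : H → ℝ} (h : ∀ g, 0 ≤ φ g) {a : ℝ} (ha : 0 < a) :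
    Ex S n (fun g => if a ≤ φ g then 1 else 0) ≤ a⁻¹ * Ex S n φ := by
  rw [← Ex_smul]
  refine Ex_mono n fun g => ?_
  by_cases hg : a ≤ φ g
  · rw [if_pos hg, inv_mul_eq_div, one_le_div ha]
    exact hg
  · rw [if_neg hg]
    exact mul_nonneg (inv_nonneg.mpr ha.le) (h g)

end Vale.Agent.P188.SG

end
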