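import Vale.Agent.P188.R.G001
import Vale.Agent.P188.R.G032
import Vale.Agent.P188.R.G027
import Mathlib.GroupTheory.Nilpotent
import Mathlib

section

/-! P188, end game: finite generation of the kernel from the Milnor property. -/

universe u v w

open Pointwise

namespace Vale.Agent.P188.H789

variable {H : Type u} [Group H]

/-- The conjugates of the elements of `Y` by the powers of `t`. -/
def Zorb (t : H) (Y : Set H) : Set H := {x | ∃ z : ℤ, ∃ y ∈ Y, x = t ^ z * y * (t ^ z)⁻¹}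

/-- The Milnor property for `t` and `K`. -/
def Mil (K : Subgroup H) (t : H) : Prop :=
  ∀ y ∈ K, ∃ n : ℕ, t ^ n * y * (t ^ n)⁻¹ ∈
    Subgroup.closure {x | ∃ i < n, x = t ^ i * y * (t ^ i)⁻¹}

theorem mil_single {t y : H} {n : ℕ} (h : t ^ n * y * (t ^ n)⁻¹ ∈
    Subgroup.closure {x | ∃ i < n, x = t ^ i * y * (t ^ i)⁻¹}) (j : ℕ) :
    t ^ j * y * (t ^ j)⁻¹ ∈ Subgroup.closure {x | ∃ i < n, x = t ^ i * y * (t ^ i)⁻¹} := by
  set M := Subgroup.closure {x | ∃ i < n, x = t ^ i * y * (t ^ i)⁻¹} with hM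
  have hconj : ∀ x ∈ M, t * x * t⁻¹ ∈ M := by
    intro x hx
    induction hx using Subgroup.closure_induction with
    | mem x hx =>
      obtain ⟨i, hi, rfl⟩ := hx
      have e : t * (t ^ i * y * (t ^ i)⁻¹) * t⁻¹ = t ^ (i + 1) * y * (t ^ (i + 1))⁻¹ := by
        rw [pow_succ']; group
      rw [e]
      by_cases hin : i + 1 < n
      · exact Subgroup.subset_closure ⟨i + 1, hin, rfl⟩
      · have : i + 1 = n := by omega
        rw [this]
        exact h
    | one => simp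
    | mul a b _ _ ha hb =>
      have e : t * (a * b) * t⁻¹ = (t * a * t⁻¹) * (t * b * t⁻¹) := by group
      rw [e]
      exact M.mul_mem ha hb
    | inv a _ ha =>
      have e : t * a⁻¹ * t⁻¹ = (t * a * t⁻¹)⁻¹ := by group
      rw [e]
      exact M.inv_mem ha
  by_cases hn : n = 0
  · subst hn
    have h0 : y ∈ M := by simpa using h
    induction j with
    | zero => simpa using h0
    | succ j ih =>
      have e : t ^ (j + 1) * y * (t ^ (j + 1))⁻¹ = t * (t ^ j * y * (t ^ j)⁻¹) * t⁻¹ := by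
        rw [pow_succ']; group
      rw [e]
      exact hconj _ ih
  · induction j with
    | zero => exact Subgroup.subset_closure ⟨0, by omega, rfl⟩
    | succ j ih =>
      have e : t ^ (j + 1) * y * (t ^ (j + 1))⁻¹ = t * (t ^ j * y * (t ^ j)⁻¹) * t⁻¹ := by
        rw [pow_succ']; group
      rw [e]
      exact hconj _ ih

theorem mil_finite {K : Subgroup H} (hK : K.Normal) {t : H} (h : Mil K t) {Y : Set H}
    (hY : Y.Finite) (hYK : Y ⊆ K) :
    ∃ Y₁ : Set H, Y₁.Finite ∧ Y₁ ⊆ K ∧ Y ⊆ Y₁ ∧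
      (∀ x ∈ Y₁, ∃ i : ℕ, ∃ y ∈ Y, x = t ^ i * y * (t ^ i)⁻¹) ∧
      ∀ (i : ℕ), ∀ y ∈ Y, t ^ i * y * (t ^ i)⁻¹ ∈ Subgroup.closure Y₁ := by
  classical
  have h' : ∀ y : H, ∃ n : ℕ, y ∈ Y → t ^ n * y * (t ^ n)⁻¹ ∈
      Subgroup.closure {x | ∃ i < n, x = t ^ i * y * (t ^ i)⁻¹} := by
    intro y
    by_cases hy : y ∈ Y
    · obtain ⟨n, hn⟩ := h y (hYK hy)
      exact ⟨n, fun _ => hn⟩
    · exact ⟨0, fun h => absurd h hy⟩
  choose n hn using h'
  let Y₁ : Set H := ⋃ y ∈ Y, (fun i : ℕ => t ^ i * y * (t ^ i)⁻¹) '' Set.Iic (n y)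
  have hsub : ∀ y ∈ Y, {x | ∃ i < n y, x = t ^ i * y * (t ^ i)⁻¹} ⊆ Y₁ := by
    rintro y hy _ ⟨i, hi, rfl⟩
    exact Set.mem_biUnion hy ⟨i, hi.le, rfl⟩
  refine ⟨Y₁, hY.biUnion fun y _ => (Set.finite_Iic _).image _, ?_, ?_, ?_, ?_⟩
  · intro x hx
    simp only [Y₁, Set.mem_iUnion] at hx
    obtain ⟨y, hy, i, _, rfl⟩ := hx
    exact hK.conj_mem y (hYK hy) _
  · intro y hy
    exact Set.mem_biUnion hy ⟨0, Nat.zero_le _, by simp⟩
  · intro x hx
    simp only [Y₁, Set.mem_iUnion] at hx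
    obtain ⟨y, hy, i, _, rfl⟩ := hx
    exact ⟨i, y, hy, rfl⟩
  · intro i y hy
    exact Subgroup.closure_mono (hsub y hy) (mil_single (hn y hy) i)

theorem zorb_finite {K : Subgroup H} (hK : K.Normal) {t : H} (h : Mil K t) (h' : Mil K t⁻¹)
    {Y : Set H} (hY : Y.Finite) (hYK : Y ⊆ K) :
    ∃ Y₂ : Set H, Y₂.Finite ∧ Y₂ ⊆ K ∧ Subgroup.closure Y₂ = Subgroup.closure (Zorb t Y) := by
  obtain ⟨Y₁, hf1, hK1, hs1, hd1, hc1⟩ := mil_finite hK h hY hYK
  obtain ⟨Y₂, hf2, hK2, hs2, hd2, hc2⟩ := mil_finite hK h' hf1 hK1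
  refine ⟨Y₂, hf2, hK2, le_antisymm ?_ ?_⟩
  · rw [Subgroup.closure_le]
    intro x hx
    obtain ⟨i, y₁, hy₁, rfl⟩ := hd2 x hx
    obtain ⟨j, y, hy, rfl⟩ := hd1 y₁ hy₁
    refine Subgroup.subset_closure ⟨(j : ℤ) - i, y, hy, ?_⟩
    rw [zpow_sub, inv_pow, zpow_natCast, zpow_natCast, ← zpow_natCast, ← zpow_natCast]
    have e : t ^ (j : ℤ) * (t ^ (i : ℤ))⁻¹ = (t ^ (i : ℤ))⁻¹ * t ^ (j : ℤ) := by
      rw [← zpow_neg, ← zpow_add, ← zpow_add, add_comm]
    rw [e]
    group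
  · rw [Subgroup.closure_le]
    rintro x ⟨z, y, hy, rfl⟩
    obtain ⟨j, rfl | rfl⟩ := z.eq_nat_or_neg
    · have h1 := hc1 j y hy
      have h2 : Subgroup.closure Y₁ ≤ Subgroup.closure Y₂ := Subgroup.closure_mono hs2
      simpa using h2 h1
    · have h1 := hc2 j y (hs1 hy)
      simpa using h1

theorem zorb_conj {t : H} {Y : Set H} {g : H} (hg : g ∈ Subgroup.closure (Zorb t Y)) (z : ℤ) :
    t ^ z * g * (t ^ z)⁻¹ ∈ Subgroup.closure (Zorb t Y) := by
  induction hg using Subgroup.closure_induction with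
  | mem x hx =>
    obtain ⟨w, y, hy, rfl⟩ := hx
    refine Subgroup.subset_closure ⟨z + w, y, hy, ?_⟩
    rw [zpow_add]; group
  | one => simp
  | mul a b _ _ ha hb =>
    have e : t ^ z * (a * b) * (t ^ z)⁻¹ = (t ^ z * a * (t ^ z)⁻¹) * (t ^ z * b * (t ^ z)⁻¹) := by
      group
    rw [e]
    exact Subgroup.mul_mem _ ha hb
  | inv a _ ha =>
    have e : t ^ z * a⁻¹ * (t ^ z)⁻¹ = (t ^ z * a * (t ^ z)⁻¹)⁻¹ := by group
    rw [e]
    exact Subgroup.inv_mem _ ha

theorem subset_zorb (t : H) (Y : Set H) : Y ⊆ Zorb t Y := fun y hy => ⟨0, y, hy, by simp⟩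

theorem zorb_closure_conj {t : H} {Y : Set H} {g : H} (hg : g ∈ Subgroup.closure Y) (z : ℤ) :
    t ^ z * g * (t ^ z)⁻¹ ∈ Subgroup.closure (Zorb t Y) :=
  zorb_conj (Subgroup.closure_mono (subset_zorb t Y) hg) z

/-- If `s` normalizes `⟨Y⟩` and commutes with `t` modulo `⟨Y⟩`, it normalizes the new group. -/
theorem zorb_stable {t s : H} {Y : Set H}
    (hs : ∀ g ∈ Subgroup.closure Y, s * g * s⁻¹ ∈ Subgroup.closure Y)
    (h1 : s * t * s⁻¹ * t⁻¹ ∈ Subgroup.closure Y) (h2 : s * t⁻¹ * s⁻¹ * t ∈ Subgroup.closure Y) :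
    ∀ g ∈ Subgroup.closure (Zorb t Y), s * g * s⁻¹ ∈ Subgroup.closure (Zorb t Y) := by
  set M := Subgroup.closure (Zorb t Y) with hM
  have hc : ∀ z : ℤ, s * t ^ z * s⁻¹ * (t ^ z)⁻¹ ∈ M := by
    intro z
    induction z using Int.induction_on with
    | zero => simp
    | succ i ih =>
      have h3 := M.mul_mem ih (zorb_closure_conj (t := t) h1 i)
      have e : s * t ^ ((i : ℤ) + 1) * s⁻¹ * (t ^ ((i : ℤ) + 1))⁻¹ =
          s * t ^ (i : ℤ) * s⁻¹ * (t ^ (i : ℤ))⁻¹ *
          (t ^ (i : ℤ) * (s * t * s⁻¹ * t⁻¹) * (t ^ (i : ℤ))⁻¹) := by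
        rw [zpow_add_one]; group
      rw [e]
      exact h3
    | pred i ih =>
      have h3 := M.mul_mem ih (zorb_closure_conj (t := t) h2 (-i))
      have e : s * t ^ (-(i : ℤ) - 1) * s⁻¹ * (t ^ (-(i : ℤ) - 1))⁻¹ =
          s * t ^ (-(i : ℤ)) * s⁻¹ * (t ^ (-(i : ℤ)))⁻¹ *
          (t ^ (-(i : ℤ)) * (s * t⁻¹ * s⁻¹ * t) * (t ^ (-(i : ℤ)))⁻¹) := by
        rw [zpow_sub_one]; group
      rw [e]
      exact h3
  intro g hg
  induction hg using Subgroup.closure_induction with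
  | mem x hx =>
    obtain ⟨z, y, hy, rfl⟩ := hx
    have h3 := zorb_closure_conj (t := t) (hs y (Subgroup.subset_closure hy)) z
    have h4 := M.mul_mem (M.mul_mem (hc z) h3) (M.inv_mem (hc z))
    have e : s * t ^ z * s⁻¹ * (t ^ z)⁻¹ * (t ^ z * (s * y * s⁻¹) * (t ^ z)⁻¹) *
        (s * t ^ z * s⁻¹ * (t ^ z)⁻¹)⁻¹ = s * (t ^ z * y * (t ^ z)⁻¹) * s⁻¹ := by group
    rwa [e] at h4
  | one => simp
  | mul a b _ _ ha hb =>
    have e : s * (a * b) * s⁻¹ = (s * a * s⁻¹) * (s * b * s⁻¹) := by group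
    rw [e]
    exact M.mul_mem ha hb
  | inv a _ ha =>
    have e : s * a⁻¹ * s⁻¹ = (s * a * s⁻¹)⁻¹ := by group
    rw [e]
    exact M.inv_mem ha

/-- A finitely generated subgroup of `K` normalized by the elements of `U`. -/
theorem exists_normalized {K : Subgroup H} (hK : K.Normal) {U : Set H} (hU : U.Finite)
    (hMil : ∀ t ∈ U, Mil K t ∧ Mil K t⁻¹) (hcomm : ∀ x y : H, x * y * x⁻¹ * y⁻¹ ∈ K) :
    ∃ Y : Set H, Y.Finite ∧ Y ⊆ K ∧
      (∀ s ∈ U ∪ U⁻¹, ∀ t ∈ U ∪ U⁻¹, s * t * s⁻¹ * t⁻¹ ∈ Subgroup.closure Y) ∧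
      ∀ s ∈ U ∪ U⁻¹, ∀ g ∈ Subgroup.closure Y, s * g * s⁻¹ ∈ Subgroup.closure Y := by
  classical
  set V : Set H := U ∪ U⁻¹ with hV
  have hVf : V.Finite := hU.union hU.inv
  have hVinv : ∀ s ∈ V, s⁻¹ ∈ V := by
    rintro s (hs | hs)
    · exact Or.inr (by simpa using hs)
    · exact Or.inl hs
  have key : ∀ L : Finset H, (L : Set H) ⊆ U → ∃ Y : Set H, Y.Finite ∧ Y ⊆ K ∧
      (∀ s ∈ V, ∀ t ∈ V, s * t * s⁻¹ * t⁻¹ ∈ Subgroup.closure Y) ∧
      ∀ s ∈ L, ∀ g ∈ Subgroup.closure Y, s * g * s⁻¹ ∈ Subgroup.closure Y ∧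
        s⁻¹ * g * s ∈ Subgroup.closure Y := by
    intro L
    induction L using Finset.induction_on with
    | empty =>
      intro _
      refine ⟨(fun p : H × H => p.1 * p.2 * p.1⁻¹ * p.2⁻¹) '' (V ×ˢ V), (hVf.prod hVf).image _,
        ?_, fun s hs t ht => Subgroup.subset_closure ⟨(s, t), ⟨hs, ht⟩, rfl⟩, by simp⟩
      rintro _ ⟨⟨s, t⟩, _, rfl⟩
      exact hcomm s t
    | insert t L htL ih =>
      intro hL
      rw [Finset.coe_insert, Set.insert_subset_iff] at hL
      obtain ⟨Y, hYf, hYK, hYc, hYs⟩ := ih hL.2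
      obtain ⟨Y₂, h2f, h2K, h2c⟩ := zorb_finite hK (hMil t hL.1).1 (hMil t hL.1).2 hYf hYK
      have htV : t ∈ V := Or.inl hL.1
      refine ⟨Y₂, h2f, h2K, fun s hs s' hs' => ?_, fun s hs g hg => ?_⟩
      · rw [h2c]
        exact Subgroup.closure_mono (subset_zorb t Y) (hYc s hs s' hs')
      · rw [h2c] at hg ⊢
        rcases Finset.mem_insert.mp hs with rfl | hs
        · have h1 := zorb_conj hg 1
          have h2 := zorb_conj hg (-1)
          exact ⟨by simpa using h1, by simpa using h2⟩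
        · have hsV : s ∈ V := Or.inl (hL.2 hs)
          constructor
          · refine zorb_stable (fun g hg => (hYs s hs g hg).1) (hYc s hsV t htV) ?_ g hg
            have := hYc s hsV t⁻¹ (hVinv t htV)
            simpa using this
          · have h3 := zorb_stable (t := t) (s := s⁻¹) (Y := Y)
              (fun g hg => by simpa using (hYs s hs g hg).2)
              (hYc s⁻¹ (hVinv s hsV) t htV) (by
                have := hYc s⁻¹ (hVinv s hsV) t⁻¹ (hVinv t htV)
                simpa using this) g hg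
            simpa using h3
  obtain ⟨Y, h1, h2, h3, h4⟩ := key hU.toFinset (by simp)
  refine ⟨Y, h1, h2, h3, ?_⟩
  rintro s (hs | hs) g hg
  · exact (h4 s (by simpa using hs) g hg).1
  · have := (h4 s⁻¹ (by simpa using hs) g hg).2
    simpa using this

theorem pcs_top_of_comm {Q : Type v} [Group Q] (hQ : ∀ x y : Q, x * y = y * x)
    {S : Set Q} (hS : S.Finite) (hcl : Subgroup.closure S = ⊤) : PCS (⊤ : Subgroup Q) := by
  classical
  have key : ∀ L : Finset Q, PCS (Subgroup.closure (L : Set Q)) := by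
    intro L
    induction L using Finset.induction_on with
    | empty => rw [Finset.coe_empty, Subgroup.closure_empty]; exact .bot
    | insert t L _ ih =>
      refine .step ih (t := t) ⟨Subgroup.closure_mono (by simp), Subgroup.subset_closure (by simp),
        fun n hn => by rw [hQ t n]; simpa using hn, fun n hn => by rw [hQ t⁻¹ n]; simpa using hn,
        fun g hg => ?_⟩
      rw [Finset.coe_insert] at hg
      induction hg using Subgroup.closure_induction with
      | mem x hx =>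
        rcases hx with rfl | hx
        · exact ⟨1, by simp⟩
        · exact ⟨0, by simpa using Subgroup.subset_closure hx⟩
      | one => exact ⟨0, by simp⟩
      | mul a b _ _ ha hb =>
        obtain ⟨i, hi⟩ := ha
        obtain ⟨j, hj⟩ := hb
        refine ⟨i + j, ?_⟩
        have e : (t ^ (i + j))⁻¹ * (a * b) = ((t ^ i)⁻¹ * a) * ((t ^ j)⁻¹ * b) := by
          rw [zpow_add, mul_inv_rev, hQ (t ^ j)⁻¹ (t ^ i)⁻¹, mul_assoc, mul_assoc,
            ← mul_assoc (t ^ j)⁻¹ a b, hQ (t ^ j)⁻¹ a]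
          group
        rw [e]
        exact Subgroup.mul_mem _ hi hj
      | inv a _ ha =>
        obtain ⟨i, hi⟩ := ha
        refine ⟨-i, ?_⟩
        have e : (t ^ (-i))⁻¹ * a⁻¹ = ((t ^ i)⁻¹ * a)⁻¹ := by
          rw [mul_inv_rev, inv_inv, zpow_neg, inv_inv, hQ a⁻¹]
        rw [e]
        exact Subgroup.inv_mem _ hi
  have := key hS.toFinset
  rwa [Set.Finite.coe_toFinset, hcl] at this

theorem fg_of_map {X : Type v} [Group X] {Q : Type w} [Group Q] (f : X →* Q) {K : Subgroup X}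
    {Y : Set X} (hY : Y.Finite) (hker : Subgroup.closure Y = f.ker) (hYK : Y ⊆ K)
    (h : (K.map f).FG) : K.FG := by
  classical
  obtain ⟨T, hT⟩ := h
  have hch : ∀ q ∈ T, ∃ x ∈ K, f x = q := by
    intro q hq
    have : q ∈ K.map f := hT ▸ Subgroup.subset_closure hq
    exact this
  choose! g hg1 hg2 using hch
  refine ⟨hY.toFinset ∪ T.image g, le_antisymm ?_ ?_⟩
  · rw [Subgroup.closure_le]
    intro x hx
    rw [Finset.coe_union, Set.Finite.coe_toFinset, Finset.coe_image] at hx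
    rcases hx with hx | ⟨q, hq, rfl⟩
    · exact hYK hx
    · exact hg1 q hq
  · intro x hx
    set M := Subgroup.closure (↑(hY.toFinset ∪ T.image g) : Set X) with hM
    have h1 : M.map f = K.map f := by
      rw [hM, MonoidHom.map_closure]
      refine le_antisymm ?_ ?_
      · rw [Subgroup.closure_le]
        rintro _ ⟨x, hx, rfl⟩
        rw [Finset.coe_union, Set.Finite.coe_toFinset, Finset.coe_image] at hx
        rcases hx with hx | ⟨q, hq, rfl⟩
        · exact ⟨x, hYK hx, rfl⟩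
        · exact ⟨g q, hg1 q hq, rfl⟩
      · rw [← hT]
        refine Subgroup.closure_mono ?_
        intro q hq
        refine ⟨g q, ?_, hg2 q hq⟩
        rw [Finset.coe_union, Finset.coe_image]
        exact Or.inr ⟨q, hq, rfl⟩
    have h2 : f x ∈ M.map f := h1 ▸ ⟨x, hx, rfl⟩
    obtain ⟨m, hm, hmx⟩ := h2
    have h3 : m⁻¹ * x ∈ f.ker := by rw [MonoidHom.mem_ker, map_mul, map_inv, hmx]; simp
    rw [← hker] at h3
    have h4 : Subgroup.closure Y ≤ M := by
      refine Subgroup.closure_mono ?_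
      rw [Finset.coe_union, Set.Finite.coe_toFinset]
      exact Set.subset_union_left
    have := M.mul_mem hm (h4 h3)
    simpa using this

/-- Finite generation of `K`. -/
theorem fg_of_mil {K : Subgroup H} (hK : K.Normal) {U : Set H} (hU : U.Finite)
    (hMil : ∀ t ∈ U, Mil K t ∧ Mil K t⁻¹) (hcomm : ∀ x y : H, x * y * x⁻¹ * y⁻¹ ∈ K)
    (hKU : K ≤ Subgroup.closure U) : K.FG := by
  classical
  obtain ⟨Y, hYf, hYK, hYc, hYs⟩ := exists_normalized hK hU hMil hcomm
  set X := Subgroup.closure U with hX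
  set N := Subgroup.closure Y with hN
  have hNK : N ≤ K := by rw [hN, Subgroup.closure_le]; exact hYK
  have hNX : N ≤ X := hNK.trans hKU
  have hnorm : ∀ x ∈ X, ∀ g ∈ N, x * g * x⁻¹ ∈ N := by
    intro x hx
    have : x ∈ (Subgroup.closure U).toSubmonoid := hx
    rw [Subgroup.closure_toSubmonoid] at this
    induction this using Submonoid.closure_induction with
    | mem s hs => exact hYs s hs
    | one => intro g hg; simpa using hg
    | mul a b ha' hb' ha hb =>
      have ha2 : a ∈ X := by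
        have : a ∈ (Subgroup.closure U).toSubmonoid := by
          rw [Subgroup.closure_toSubmonoid]; exact ha'
        exact this
      have hb2 : b ∈ X := by
        have : b ∈ (Subgroup.closure U).toSubmonoid := by
          rw [Subgroup.closure_toSubmonoid]; exact hb'
        exact this
      intro g hg
      have e : a * b * g * (a * b)⁻¹ = a * (b * g * b⁻¹) * a⁻¹ := by group
      rw [e]
      exact ha ha2 _ (hb hb2 g hg)
  let N' : Subgroup X := N.subgroupOf X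
  have hN'n : N'.Normal := by
    constructor
    intro n hn g
    rw [Subgroup.mem_subgroupOf] at hn ⊢
    exact hnorm g g.2 n hn
  -- the quotient is commutative
  let f : X →* X ⧸ N' := QuotientGroup.mk' N'
  have hgen : Subgroup.closure (f '' ((fun x : X => (x : H)) ⁻¹' U)) = ⊤ := by
    rw [← MonoidHom.map_closure]
    have h1 : Subgroup.closure ((fun x : X => (x : H)) ⁻¹' U) = ⊤ := by
      have := Subgroup.closure_closure_coe_preimage (k := U)
      exact this
    rw [h1]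
    rw [← MonoidHom.range_eq_map]
    exact MonoidHom.range_eq_top.mpr (QuotientGroup.mk'_surjective N')
  have hU' : ((fun x : X => (x : H)) ⁻¹' U).Finite :=
    hU.preimage Subtype.val_injective.injOn
  have hcommgen : ∀ s ∈ f '' ((fun x : X => (x : H)) ⁻¹' U),
      ∀ t ∈ f '' ((fun x : X => (x : H)) ⁻¹' U), s * t = t * s := by
    rintro _ ⟨s, hs, rfl⟩ _ ⟨t, ht, rfl⟩
    have h1 : s * t * s⁻¹ * t⁻¹ ∈ N' := by
      rw [Subgroup.mem_subgroupOf]
      exact hYc s (Or.inl hs) t (Or.inl ht)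
    have h2 : f (s * t * s⁻¹ * t⁻¹) = 1 := by
      rw [← MonoidHom.mem_ker, QuotientGroup.ker_mk']
      exact h1
    simp only [map_mul, map_inv] at h2
    have h3 : f s * f t = 1 * (f t * f s) := by
      rw [← h2]; group
    rw [h3, one_mul]
  have hQ : ∀ x y : X ⧸ N', x * y = y * x := by
    intro x y
    have hx : x ∈ Subgroup.closure (f '' ((fun x : X => (x : H)) ⁻¹' U)) := by rw [hgen]; trivial
    have hy : y ∈ Subgroup.closure (f '' ((fun x : X => (x : H)) ⁻¹' U)) := by rw [hgen]; trivial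
    have h1 : Subgroup.closure (f '' ((fun x : X => (x : H)) ⁻¹' U)) ≤
        Subgroup.centralizer (f '' ((fun x : X => (x : H)) ⁻¹' U)) := by
      rw [Subgroup.closure_le]
      intro s hs
      rw [SetLike.mem_coe, Subgroup.mem_centralizer_iff]
      intro t ht
      exact hcommgen t ht s hs
    have h2 : Subgroup.closure (f '' ((fun x : X => (x : H)) ⁻¹' U)) ≤
        Subgroup.centralizer {x} := by
      rw [Subgroup.closure_le]
      intro s hs
      rw [SetLike.mem_coe, Subgroup.mem_centralizer_iff]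
      rintro t rfl
      have := h1 hx
      rw [Subgroup.mem_centralizer_iff] at this
      exact (this s hs).symm
    have := h2 hy
    rw [Subgroup.mem_centralizer_iff] at this
    exact this x rfl
  have hpcs : PCS (⊤ : Subgroup (X ⧸ N')) := pcs_top_of_comm hQ (hU'.image f) hgen
  have hKmap : ((K.subgroupOf X).map f).FG := (hpcs.le le_top).fg
  -- generators of `N'`
  have hY' : ((fun x : X => (x : H)) ⁻¹' Y).Finite := hYf.preimage Subtype.val_injective.injOn
  have hYX : Y ⊆ X := fun y hy => hNX (Subgroup.subset_closure hy)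
  have hker : Subgroup.closure ((fun x : X => (x : H)) ⁻¹' Y) = f.ker := by
    rw [QuotientGroup.ker_mk']
    have h1 : (Subgroup.closure ((fun x : X => (x : H)) ⁻¹' Y)).map X.subtype = N := by
      rw [MonoidHom.map_closure]
      congr 1
      ext y
      simp only [Set.mem_image, Set.mem_preimage, Subgroup.coe_subtype, Subtype.exists,
        exists_and_left, exists_prop, exists_eq_right_right]
      exact ⟨fun h => h.1, fun h => ⟨h, hYX h⟩⟩
    apply Subgroup.map_injective X.subtype_injective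
    rw [h1, Subgroup.map_subgroupOf_eq_of_le hNX]
  have hfin := fg_of_map f (K := K.subgroupOf X) hY' hker (by
    intro y hy
    rw [SetLike.mem_coe, Subgroup.mem_subgroupOf]
    exact hYK hy) hKmap
  obtain ⟨T, hT⟩ := hfin
  refine ⟨T.image X.subtype, ?_⟩
  rw [Finset.coe_image, ← MonoidHom.map_closure, hT, Subgroup.map_subgroupOf_eq_of_le hKU]

end Vale.Agent.P188.H789

end

section

/-! P188, end game: balls of a subgroup and paths inside a subset. -/

universe u v w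

open Pointwise

namespace Vale.Agent.P188.H789

section Bl

variable {X : Type u} [Group X]

/-- Products of at most `n` elements of `A` and their inverses. -/
def Bl (A : Set X) (n : ℕ) : Set X :=
  {x | ∃ l : List X, l.length ≤ n ∧ (∀ a ∈ l, a ∈ A ∨ a⁻¹ ∈ A) ∧ l.prod = x}

theorem one_mem_Bl (A : Set X) (n : ℕ) : (1 : X) ∈ Bl A n := ⟨[], by simp, by simp, by simp⟩

theorem Bl_mono {A : Set X} {m n : ℕ} (h : m ≤ n) : Bl A m ⊆ Bl A n := by
  rintro x ⟨l, h1, h2, h3⟩
  exact ⟨l, h1.trans h, h2, h3⟩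

theorem mul_mem_Bl {A : Set X} {m n : ℕ} {x y : X} (hx : x ∈ Bl A m) (hy : y ∈ Bl A n) :
    x * y ∈ Bl A (m + n) := by
  obtain ⟨l, h1, h2, rfl⟩ := hx
  obtain ⟨l', h1', h2', rfl⟩ := hy
  refine ⟨l ++ l', by rw [List.length_append]; omega, ?_, List.prod_append⟩
  intro a ha
  rcases List.mem_append.mp ha with ha | ha
  exacts [h2 a ha, h2' a ha]

theorem inv_mem_Bl {A : Set X} {n : ℕ} {x : X} (hx : x ∈ Bl A n) : x⁻¹ ∈ Bl A n := by
  obtain ⟨l, h1, h2, rfl⟩ := hx
  refine ⟨(l.map fun x => x⁻¹).reverse, by simpa using h1, ?_, by rw [List.prod_inv_reverse]⟩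
  intro a ha
  rw [List.mem_reverse, List.mem_map] at ha
  obtain ⟨b, hb, rfl⟩ := ha
  rw [inv_inv]
  exact (h2 b hb).symm

theorem mem_Bl_one {A : Set X} {a : X} (ha : a ∈ A) : a ∈ Bl A 1 :=
  ⟨[a], by simp, by simp [ha], by simp⟩

theorem mem_Bl_one' {A : Set X} {a : X} (ha : a ∈ A ∨ a⁻¹ ∈ A) : a ∈ Bl A 1 :=
  ⟨[a], by simp, by simpa using ha, by simp⟩

theorem conj_mem_Bl {A : Set X} {s : X} {c : ℕ} (hs : ∀ a ∈ A, s * a * s⁻¹ ∈ Bl A c) {n : ℕ}
    {x : X} (hx : x ∈ Bl A n) : s * x * s⁻¹ ∈ Bl A (c * n) := by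
  obtain ⟨l, h1, h2, rfl⟩ := hx
  have key : ∀ l : List X, (∀ a ∈ l, a ∈ A ∨ a⁻¹ ∈ A) → s * l.prod * s⁻¹ ∈ Bl A (c * l.length) := by
    intro l
    induction l with
    | nil => intro _; simp [one_mem_Bl]
    | cons a l ih =>
      intro h
      have h1 := ih fun b hb => h b (List.mem_cons_of_mem _ hb)
      have h2 : s * a * s⁻¹ ∈ Bl A c := by
        rcases h a List.mem_cons_self with h | h
        · exact hs a h
        · have := inv_mem_Bl (hs _ h)
          simpa [mul_assoc] using this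
      have h3 := mul_mem_Bl h2 h1
      rw [List.prod_cons, List.length_cons]
      have e : s * (a * l.prod) * s⁻¹ = s * a * s⁻¹ * (s * l.prod * s⁻¹) := by group
      rw [e]
      refine Bl_mono ?_ h3
      ring_nf
      exact le_rfl
  exact Bl_mono (Nat.mul_le_mul_left _ h1) (key l h2)

theorem Bl_subset_closure (A : Set X) (n : ℕ) : Bl A n ⊆ (Subgroup.closure A : Set X) := by
  rintro x ⟨l, -, h2, rfl⟩
  refine Subgroup.list_prod_mem _ fun a ha => ?_
  rcases h2 a ha with h | h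
  · exact Subgroup.subset_closure h
  · simpa using Subgroup.inv_mem _ (Subgroup.subset_closure h)

theorem exists_mem_Bl {A : Set X} {x : X} (hx : x ∈ Subgroup.closure A) : ∃ n, x ∈ Bl A n := by
  have hmem : x ∈ (Subgroup.closure A).toSubmonoid := hx
  rw [Subgroup.closure_toSubmonoid] at hmem
  obtain ⟨l, hl, hp⟩ := Submonoid.exists_list_of_mem_closure hmem
  exact ⟨l.length, l, le_rfl, fun a ha => hl a ha, hp⟩

theorem Bl_finite {A : Set X} (hA : A.Finite) (n : ℕ) : (Bl A n).Finite := by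
  have hU : (A ∪ A⁻¹).Finite := hA.union hA.inv
  have : Finite ↥(A ∪ A⁻¹) := hU.to_subtype
  have h1 := List.finite_length_le (↥(A ∪ A⁻¹)) n
  refine (h1.image (fun l => (l.map Subtype.val).prod)).subset ?_
  rintro x ⟨l, hn, hl, rfl⟩
  have hl' : ∀ a ∈ l, a ∈ A ∪ A⁻¹ := fun a ha => hl a ha
  refine ⟨l.pmap (fun a h => ⟨a, h⟩) hl', ?_, ?_⟩
  · show (l.pmap (fun a h => (⟨a, h⟩ : ↥(A ∪ A⁻¹))) hl').length ≤ n
    rw [List.length_pmap]
    exact hn
  · simp only
    rw [List.map_pmap]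
    simp

theorem exists_Bl_of_finite {A : Set X} {F : Set X} (hF : F.Finite)
    (h : ∀ x ∈ F, x ∈ Subgroup.closure A) : ∃ n, F ⊆ Bl A n := by
  classical
  have h' : ∀ x : X, ∃ n, x ∈ F → x ∈ Bl A n := by
    intro x
    by_cases hx : x ∈ F
    · obtain ⟨n, hn⟩ := exists_mem_Bl (h x hx)
      exact ⟨n, fun _ => hn⟩
    · exact ⟨0, fun h => absurd h hx⟩
  choose f hf using h'
  obtain ⟨M, hM⟩ := (hF.image f).bddAbove
  exact ⟨M, fun x hx => Bl_mono (hM ⟨x, hx, rfl⟩) (hf x hx)⟩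

/-- conjugation by powers -/
theorem conj_pow_mem_Bl {A : Set X} {s : X} {c : ℕ} (hs : ∀ a ∈ A, s * a * s⁻¹ ∈ Bl A c) {n : ℕ}
    {x : X} (hx : x ∈ Bl A n) (j : ℕ) : s ^ j * x * (s ^ j)⁻¹ ∈ Bl A (c ^ j * n) := by
  induction j with
  | zero => simpa using hx
  | succ j ih =>
    have := conj_mem_Bl hs ih
    have e : s ^ (j + 1) * x * (s ^ (j + 1))⁻¹ = s * (s ^ j * x * (s ^ j)⁻¹) * s⁻¹ := by
      rw [pow_succ']; group
    rw [e]
    refine Bl_mono (le_of_eq ?_) this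
    ring

theorem conj_zpow_mem_Bl {A : Set X} {s : X} {c : ℕ} (hs : ∀ a ∈ A, s * a * s⁻¹ ∈ Bl A c)
    (hs' : ∀ a ∈ A, s⁻¹ * a * s ∈ Bl A c) {n : ℕ}
    {x : X} (hx : x ∈ Bl A n) (z : ℤ) : s ^ z * x * (s ^ z)⁻¹ ∈ Bl A (c ^ z.natAbs * n) := by
  obtain ⟨j, rfl | rfl⟩ := z.eq_nat_or_neg
  · simpa using conj_pow_mem_Bl hs hx j
  · have := conj_pow_mem_Bl (s := s⁻¹) (by simpa using hs') hx j
    simpa using this

theorem comm_pow_mem_Bl {A : Set X} {s b : X} {c c₀ : ℕ} (hs : ∀ a ∈ A, s * a * s⁻¹ ∈ Bl A c)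
    (hb : s * b * s⁻¹ * b⁻¹ ∈ Bl A c₀) (j : ℕ) :
    s ^ j * b * (s ^ j)⁻¹ * b⁻¹ ∈ Bl A (c₀ * (c + 1) ^ j) := by
  induction j with
  | zero => simpa using one_mem_Bl A c₀
  | succ j ih =>
    have h1 := mul_mem_Bl (conj_mem_Bl hs ih) hb
    have e : s ^ (j + 1) * b * (s ^ (j + 1))⁻¹ * b⁻¹ =
        s * (s ^ j * b * (s ^ j)⁻¹ * b⁻¹) * s⁻¹ * (s * b * s⁻¹ * b⁻¹) := by
      rw [pow_succ']; group
    rw [e]
    refine Bl_mono ?_ h1
    have : 1 ≤ (c + 1) ^ j := Nat.one_le_pow _ _ (by omega)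
    calc c * (c₀ * (c + 1) ^ j) + c₀ ≤ c * (c₀ * (c + 1) ^ j) + c₀ * (c + 1) ^ j := by nlinarith
      _ = c₀ * (c + 1) ^ (j + 1) := by ring

theorem comm_zpow_mem_Bl {A : Set X} {s b : X} {c c₀ : ℕ} (hs : ∀ a ∈ A, s * a * s⁻¹ ∈ Bl A c)
    (hs' : ∀ a ∈ A, s⁻¹ * a * s ∈ Bl A c)
    (hb : s * b * s⁻¹ * b⁻¹ ∈ Bl A c₀) (hb' : s⁻¹ * b * s * b⁻¹ ∈ Bl A c₀) (z : ℤ) :
    s ^ z * b * (s ^ z)⁻¹ * b⁻¹ ∈ Bl A (c₀ * (c + 1) ^ z.natAbs) := by
  obtain ⟨j, rfl | rfl⟩ := z.eq_nat_or_neg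
  · simpa using comm_pow_mem_Bl hs hb j
  · have := comm_pow_mem_Bl (s := s⁻¹) (b := b) (by simpa using hs') (by simpa using hb') j
    simpa using this

end Bl

section Path

variable {X : Type u} [Group X]

/-- There is a path of `m` steps from `x` to `y` inside `P` with steps in `B`. -/
def PathTo (P B : Set X) (m : ℕ) (x y : X) : Prop :=
  ∃ p : ℕ → X, p 0 = x ∧ p m = y ∧ (∀ i ≤ m, p i ∈ P) ∧ ∀ i < m, (p i)⁻¹ * p (i + 1) ∈ B

theorem PathTo.refl {P B : Set X} {x : X} (hx : x ∈ P) : PathTo P B 0 x x :=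
  ⟨fun _ => x, rfl, rfl, fun _ _ => hx, fun i hi => absurd hi (Nat.not_lt_zero i)⟩

theorem PathTo.mono {P P' B B' : Set X} {m : ℕ} {x y : X} (hP : P ⊆ P') (hB : B ⊆ B')
    (h : PathTo P B m x y) : PathTo P' B' m x y := by
  obtain ⟨p, h0, h1, h2, h3⟩ := h
  exact ⟨p, h0, h1, fun i hi => hP (h2 i hi), fun i hi => hB (h3 i hi)⟩

theorem PathTo.trans {P B : Set X} {m n : ℕ} {x y z : X} (h : PathTo P B m x y)
    (h' : PathTo P B n y z) : PathTo P B (m + n) x z := by
  obtain ⟨p, h0, h1, h2, h3⟩ := h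
  obtain ⟨q, k0, k1, k2, k3⟩ := h'
  refine ⟨fun i => if i ≤ m then p i else q (i - m), by simp [h0], ?_, ?_, ?_⟩
  · by_cases hn : n = 0
    · subst hn
      simp [h1, ← k1, k0]
    · simp only
      rw [if_neg (by omega), ← k1]
      congr 1
      omega
  · intro i hi
    simp only
    split_ifs with h
    · exact h2 i h
    · exact k2 _ (by omega)
  · intro i hi
    simp only
    by_cases h : i + 1 ≤ m
    · rw [if_pos h, if_pos (by omega)]
      exact h3 i (by omega)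
    · by_cases h' : i ≤ m
      · have him : i = m := by omega
        subst him
        rw [if_pos le_rfl, if_neg h]
        have e : i + 1 - i = 0 + 1 := by omega
        rw [e, h1, ← k0]
        exact k3 0 (by omega)
      · rw [if_neg h, if_neg h']
        have e : i + 1 - m = (i - m) + 1 := by omega
        rw [e]
        exact k3 _ (by omega)

theorem PathTo.step {P B : Set X} {x y : X} (hx : x ∈ P) (hy : y ∈ P) (h : x⁻¹ * y ∈ B) :
    PathTo P B 1 x y := by
  refine ⟨fun i => if i = 0 then x else y, by simp, by simp, ?_, ?_⟩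
  · intro i _
    simp only
    split_ifs
    exacts [hx, hy]
  · intro i hi
    have : i = 0 := by omega
    subst this
    simpa using h

theorem PathTo.extend {P B : Set X} (hB : (1 : X) ∈ B) {m : ℕ} {x y : X} (h : PathTo P B m x y)
    {n : ℕ} (hn : m ≤ n) : PathTo P B n x y := by
  obtain ⟨p, h0, h1, h2, h3⟩ := h
  refine ⟨fun i => p (min i m), by simp [h0], by simp [hn, h1], fun i _ => h2 _ (min_le_right _ _),
    fun i hi => ?_⟩
  simp only
  by_cases h : i < m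
  · rw [min_eq_left h.le, min_eq_left (by omega)]
    exact h3 i h
  · rw [min_eq_right (by omega), min_eq_right (by omega)]
    simpa using hB

theorem PathTo.left {P P' B : Set X} {m : ℕ} {x y : X} (h : PathTo P B m x y) (g : X)
    (hg : ∀ z ∈ P, g * z ∈ P') : PathTo P' B m (g * x) (g * y) := by
  obtain ⟨p, h0, h1, h2, h3⟩ := h
  refine ⟨fun i => g * p i, by simp [h0], by simp [h1], fun i hi => hg _ (h2 i hi), fun i hi => ?_⟩
  simpa [mul_assoc] using h3 i hi

/-- A path in a group is pushed forward by a map. -/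
theorem PathTo.map {Y : Type v} [Group Y] {P B : Set X} {P' B' : Set Y} {m : ℕ} {x y : X}
    (h : PathTo P B m x y) (f : X → Y) (hP : ∀ z ∈ P, f z ∈ P')
    (hB : ∀ z w, z⁻¹ * w ∈ B → (f z)⁻¹ * f w ∈ B') : PathTo P' B' m (f x) (f y) := by
  obtain ⟨p, h0, h1, h2, h3⟩ := h
  exact ⟨fun i => f (p i), by simp [h0], by simp [h1], fun i hi => hP _ (h2 i hi),
    fun i hi => hB _ _ (h3 i hi)⟩

/-- A word gives a path. -/
theorem PathTo.of_list {P B : Set X} (l : List X) (x : X) (hB : ∀ a ∈ l, a ∈ B)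
    (hP : ∀ j ≤ l.length, x * (l.take j).prod ∈ P) : PathTo P B l.length x (x * l.prod) := by
  refine ⟨fun i => x * (l.take i).prod, by simp, by simp, hP, fun i hi => ?_⟩
  simp only
  rw [List.prod_take_succ l i hi]
  have : (x * (l.take i).prod)⁻¹ * (x * ((l.take i).prod * l[i])) = l[i] := by group
  rw [this]
  exact hB _ (List.getElem_mem hi)

end Path

end Vale.Agent.P188.H789

end

section

/-!
# Polynomial growth of nilpotent poly-`ℤ` groups
-/

universe u v w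

open Pointwise

namespace Vale.Agent.P188.H789

section

variable {N : Type u} [Group N]

/-- Conjugates by powers of one element have polynomial length in a nilpotent group. -/
theorem conj_poly_aux {K : Subgroup N} [hK : K.Normal] {A : Set N}
    (hA : Subgroup.closure A = K) {c : ℕ} (hc : (⊤ : Subgroup N).lowerCentralSeries c = ⊥)
    (t : N) : ∀ j i : ℕ, c ≤ i + j → ∀ a ∈ K, a ∈ (⊤ : Subgroup N).lowerCentralSeries i →
      ∃ C D : ℕ, ∀ n : ℕ, t ^ n * a * (t ^ n)⁻¹ ∈ Bl A (C * (n + 1) ^ D) := by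
  intro j
  induction j with
  | zero =>
    intro i hi a _ ha
    have h1 := Subgroup.lowerCentralSeries_antitone (S := (⊤ : Subgroup N)) (show c ≤ i by omega) ha
    rw [hc, Subgroup.mem_bot] at h1
    refine ⟨0, 0, fun n => ?_⟩
    rw [h1, mul_one, mul_inv_cancel]
    exact one_mem_Bl _ _
  | succ j ih =>
    intro i hi a haK ha
    obtain ⟨n₀, hn₀⟩ := exists_mem_Bl (A := A) (x := a) (by rw [hA]; exact haK)
    have hb : a⁻¹ * (t * a * t⁻¹) ∈ K := K.mul_mem (K.inv_mem haK) (hK.conj_mem a haK t)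
    have hb2 : a⁻¹ * (t * a * t⁻¹) ∈ (⊤ : Subgroup N).lowerCentralSeries (i + 1) := by
      rw [Subgroup.lowerCentralSeries_succ]
      have := Subgroup.commutator_mem_commutator (H₁ := (⊤ : Subgroup N).lowerCentralSeries i)
        (H₂ := ⊤) (Subgroup.inv_mem _ ha) (Subgroup.mem_top t)
      rw [commutatorElement_def, inv_inv] at this
      simpa [mul_assoc] using this
    obtain ⟨C, D, hCD⟩ := ih (i + 1) (by omega) _ hb hb2
    refine ⟨n₀ + C, D + 1, fun n => ?_⟩
    have key : ∀ n : ℕ, t ^ n * a * (t ^ n)⁻¹ ∈ Bl A (n₀ + n * (C * (n + 1) ^ D)) := by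
      intro n
      induction n with
      | zero => simpa using hn₀
      | succ n ih2 =>
        have e : t ^ (n + 1) * a * (t ^ (n + 1))⁻¹ =
            (t ^ n * a * (t ^ n)⁻¹) * (t ^ n * (a⁻¹ * (t * a * t⁻¹)) * (t ^ n)⁻¹) := by
          rw [pow_succ]; group
        rw [e]
        refine Bl_mono ?_ (mul_mem_Bl ih2 (hCD n))
        have h1 : C * (n + 1) ^ D ≤ C * (n + 1 + 1) ^ D :=
          Nat.mul_le_mul_left _ (Nat.pow_le_pow_left (by omega) _)
        calc n₀ + n * (C * (n + 1) ^ D) + C * (n + 1) ^ D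
            = n₀ + (n + 1) * (C * (n + 1) ^ D) := by ring
          _ ≤ n₀ + (n + 1) * (C * (n + 1 + 1) ^ D) :=
            Nat.add_le_add_left (Nat.mul_le_mul_left _ h1) _
    refine Bl_mono ?_ (key n)
    have h1 : 1 ≤ (n + 1) ^ (D + 1) := Nat.one_le_pow _ _ (by omega)
    calc n₀ + n * (C * (n + 1) ^ D) ≤ n₀ * (n + 1) ^ (D + 1) + (n + 1) * (C * (n + 1) ^ D) := by
          refine Nat.add_le_add ?_ (Nat.mul_le_mul_right _ (Nat.le_succ n))
          exact Nat.le_mul_of_pos_right _ h1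
      _ = (n₀ + C) * (n + 1) ^ (D + 1) := by ring

theorem conj_poly {K : Subgroup N} [K.Normal] {A : Set N} (hA : Subgroup.closure A = K)
    (hN : Group.IsNilpotent N) (t : N) {a : N} (ha : a ∈ K) :
    ∃ C D : ℕ, ∀ z : ℤ, t ^ z * a * (t ^ z)⁻¹ ∈ Bl A (C * (z.natAbs + 1) ^ D) := by
  obtain ⟨c, hc⟩ := Subgroup.nilpotent_iff_lowerCentralSeries.mp hN
  have ha0 : a ∈ (⊤ : Subgroup N).lowerCentralSeries 0 := by
    rw [Subgroup.lowerCentralSeries_zero]; exact Subgroup.mem_top _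
  obtain ⟨C₁, D₁, h1⟩ := conj_poly_aux hA hc t c 0 (by omega) a ha ha0
  obtain ⟨C₂, D₂, h2⟩ := conj_poly_aux hA hc t⁻¹ c 0 (by omega) a ha ha0
  refine ⟨max C₁ C₂, max D₁ D₂, fun z => ?_⟩
  have hmono : ∀ (C D C' D' n : ℕ), C ≤ C' → D ≤ D' → C * (n + 1) ^ D ≤ C' * (n + 1) ^ D' :=
    fun C D C' D' n h h' => Nat.mul_le_mul h (Nat.pow_le_pow_right (by omega) h')
  obtain ⟨n, rfl | rfl⟩ := z.eq_nat_or_neg
  · rw [zpow_natCast, Int.natAbs_natCast]
    exact Bl_mono (hmono _ _ _ _ _ (le_max_left _ _) (le_max_left _ _)) (h1 n)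
  · rw [zpow_neg, zpow_natCast, Int.natAbs_neg, Int.natAbs_natCast, ← inv_pow]
    exact Bl_mono (hmono _ _ _ _ _ (le_max_right _ _) (le_max_right _ _)) (h2 n)

end

theorem exists_common {ι : Type*} {Y : Set ι} (hY : Y.Finite) {P : ι → ℕ → ℕ → Prop}
    (hmono : ∀ y C D C' D', C ≤ C' → D ≤ D' → P y C D → P y C' D')
    (h : ∀ y ∈ Y, ∃ C D, P y C D) : ∃ C D, ∀ y ∈ Y, P y C D := by
  classical
  have h' : ∀ y : ι, ∃ C D, y ∈ Y → P y C D := by
    intro y
    by_cases hy : y ∈ Y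
    · obtain ⟨C, D, h1⟩ := h y hy
      exact ⟨C, D, fun _ => h1⟩
    · exact ⟨0, 0, fun h => absurd h hy⟩
  choose C D hCD using h'
  obtain ⟨M, hM⟩ := (hY.image C).bddAbove
  obtain ⟨M', hM'⟩ := (hY.image D).bddAbove
  exact ⟨M, M', fun y hy => hmono y _ _ _ _ (hM ⟨y, hy, rfl⟩) (hM' ⟨y, hy, rfl⟩) (hCD y hy)⟩

theorem Bl_image {N M : Type*} [Group N] [Group M] (f : N →* M) (A : Set N) (n : ℕ) :
    Bl (f '' A) n ⊆ f '' Bl A n := by
  rintro x ⟨l, h1, h2, rfl⟩
  induction l generalizing n with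
  | nil => exact ⟨1, one_mem_Bl _ _, by simp⟩
  | cons a l ih =>
    rw [List.length_cons] at h1
    obtain ⟨m, rfl⟩ : ∃ m, n = m + 1 := ⟨n - 1, by omega⟩
    obtain ⟨y, hy, hyl⟩ := ih m (by omega) (fun b hb => h2 b (List.mem_cons_of_mem _ hb))
    have ha := h2 a (by simp)
    have : ∃ b ∈ Bl A 1, f b = a := by
      rcases ha with ⟨b, hb, rfl⟩ | ⟨b, hb, hba⟩
      · exact ⟨b, mem_Bl_one hb, rfl⟩
      · exact ⟨b⁻¹, inv_mem_Bl (mem_Bl_one hb), by rw [map_inv, hba, inv_inv]⟩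
    obtain ⟨b, hb, rfl⟩ := this
    refine ⟨b * y, ?_, by rw [map_mul, hyl, List.prod_cons]⟩
    have := mul_mem_Bl hb hy
    rwa [Nat.add_comm] at this

/-- **Polynomial growth of nilpotent poly-`ℤ` groups.** -/
theorem nil_growth : ∀ (d : ℕ) (N : Type u) [Group N], PolyZ d N → Group.IsNilpotent N →
    ∀ A : Set N, A.Finite → ∃ C D : ℕ, ∀ n, (Bl A n).ncard ≤ C * (n + 1) ^ D
  | 0, N, _, h, _, A, _ => by
    have h' : Subsingleton N := h
    refine ⟨1, 0, fun n => ?_⟩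
    have := Set.ncard_le_one_of_subsingleton (Bl A n)
    simpa using this
  | d + 1, N, _, h, hnil, A, hA => by
    classical
    obtain ⟨φ, hφ, hk⟩ := h
    obtain ⟨t, ht⟩ := hφ (Multiplicative.ofAdd 1)
    have hfg : Group.FG φ.ker := H754.PolyZ.fg d hk
    obtain ⟨S₀, hS₀⟩ := Group.fg_iff_subgroup_fg _ |>.1 hfg
    have hnilK : Group.IsNilpotent φ.ker := inferInstance
    -- generating set of the kernel as a set of the kernel
    obtain ⟨S₁, hS₁⟩ := Group.fg_iff.mp hfg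
    set AK : Set N := Subtype.val '' S₁ with hAK
    have hclK : Subgroup.closure AK = φ.ker := by
      have h1 : Subgroup.closure AK = (Subgroup.closure S₁).map φ.ker.subtype := by
        rw [MonoidHom.map_closure]; rfl
      rw [h1, hS₁.1, ← MonoidHom.range_eq_map, Subgroup.range_subtype]
    obtain ⟨C₁, D₁, hgK⟩ := nil_growth d φ.ker hk hnilK S₁ hS₁.2
    have hgK' : ∀ n, (Bl AK n).ncard ≤ C₁ * (n + 1) ^ D₁ := by
      intro n
      have h1 : Bl AK n ⊆ φ.ker.subtype '' Bl S₁ n := Bl_image φ.ker.subtype S₁ n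
      exact ((Set.ncard_le_ncard h1 ((Bl_finite hS₁.2 n).image _)).trans
        (Set.ncard_image_le (Bl_finite hS₁.2 n))).trans (hgK n)
    -- heights
    set e : N → ℤ := fun x => Multiplicative.toAdd (φ x) with he
    have he_mul : ∀ x y, e (x * y) = e x + e y := fun x y => by rw [he]; simp
    have he_t : e t = 1 := by rw [he]; simp [ht]
    have hker : ∀ x : N, x * (t ^ (e x))⁻¹ ∈ φ.ker := by
      intro x
      rw [MonoidHom.mem_ker, map_mul, map_inv, map_zpow, ht]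
      apply Multiplicative.toAdd.injective
      simp [he]
    have hAf : (A ∪ A⁻¹).Finite := hA.union hA.inv
    obtain ⟨M, hM⟩ : ∃ M : ℕ, ∀ a ∈ A ∪ A⁻¹, (e a).natAbs ≤ M := by
      obtain ⟨M, hM⟩ := (hAf.image fun a => (e a).natAbs).bddAbove
      exact ⟨M, fun a ha => hM ⟨a, ha, rfl⟩⟩
    -- conjugates
    obtain ⟨C₂, D₂, hconj⟩ := exists_common (P := fun a C D => ∀ z : ℤ,
        t ^ z * (a * (t ^ (e a))⁻¹) * (t ^ z)⁻¹ ∈ Bl AK (C * (z.natAbs + 1) ^ D)) hAf
      (fun a C D C' D' h h' hP z => Bl_mono (Nat.mul_le_mul h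
        (Nat.pow_le_pow_right (by omega) h')) (hP z))
      (fun a _ => conj_poly hclK hnil t (hker a))
    -- the main estimate
    have key : ∀ l : List N, (∀ a ∈ l, a ∈ A ∨ a⁻¹ ∈ A) →
        (e l.prod).natAbs ≤ l.length * M ∧
        l.prod * (t ^ (e l.prod))⁻¹ ∈ Bl AK (l.length * (C₂ * (l.length * M + 1) ^ D₂)) := by
      intro l
      induction l using List.reverseRecOn with
      | nil =>
        intro _
        have h0 : e (1 : N) = 0 := by rw [he]; simp
        refine ⟨by simp [h0], ?_⟩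
        rw [List.prod_nil, h0]
        simpa using one_mem_Bl AK 0
      | append_singleton l a ih =>
        intro hl
        obtain ⟨h1, h2⟩ := ih (fun b hb => hl b (List.mem_append_left _ hb))
        have ha : a ∈ A ∪ A⁻¹ := by
          rcases hl a (by simp) with h | h
          · exact Or.inl h
          · exact Or.inr (by simpa using h)
        rw [List.prod_append, List.prod_singleton, List.length_append, List.length_singleton]
        refine ⟨?_, ?_⟩
        · rw [he_mul]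
          have := hM a ha
          have h3 := Int.natAbs_add_le (e l.prod) (e a)
          calc (e l.prod + e a).natAbs ≤ l.length * M + M := by omega
            _ = (l.length + 1) * M := by ring
        · have e1 : l.prod * a * (t ^ (e (l.prod * a)))⁻¹ =
              (l.prod * (t ^ (e l.prod))⁻¹) *
              (t ^ (e l.prod) * (a * (t ^ (e a))⁻¹) * (t ^ (e l.prod))⁻¹) := by
            rw [he_mul, zpow_add]
            group
          rw [e1]
          refine Bl_mono ?_ (mul_mem_Bl h2 (hconj a ha (e l.prod)))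
          have h3 : (l.length * M + 1) ^ D₂ ≤ ((l.length + 1) * M + 1) ^ D₂ :=
            Nat.pow_le_pow_left (by nlinarith) _
          have h4 : ((e l.prod).natAbs + 1) ^ D₂ ≤ ((l.length + 1) * M + 1) ^ D₂ :=
            Nat.pow_le_pow_left (by nlinarith) _
          calc l.length * (C₂ * (l.length * M + 1) ^ D₂) + C₂ * ((e l.prod).natAbs + 1) ^ D₂
              ≤ l.length * (C₂ * ((l.length + 1) * M + 1) ^ D₂) +
                C₂ * ((l.length + 1) * M + 1) ^ D₂ :=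
                Nat.add_le_add (Nat.mul_le_mul_left _ (Nat.mul_le_mul_left _ h3))
                  (Nat.mul_le_mul_left _ h4)
            _ = (l.length + 1) * (C₂ * ((l.length + 1) * M + 1) ^ D₂) := by ring
    refine ⟨(2 * M + 1) * (C₁ * (C₂ * (M + 1) ^ D₂ + 1) ^ D₁), (D₂ + 1) * D₁ + 1, fun n => ?_⟩
    -- inclusion in a product
    set Q : ℕ := n * (C₂ * (n * M + 1) ^ D₂) with hQ
    have hAKf : AK.Finite := hS₁.2.image _
    have hsub : Bl A n ⊆ (fun p : N × ℤ => p.1 * t ^ p.2) ''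
        (Bl AK Q ×ˢ (Set.Icc (-((n * M : ℕ) : ℤ)) ((n * M : ℕ) : ℤ))) := by
      rintro x ⟨l, h1, h2, rfl⟩
      obtain ⟨h3, h4⟩ := key l h2
      refine ⟨(l.prod * (t ^ (e l.prod))⁻¹, e l.prod), ⟨?_, ?_⟩, by simp⟩
      · refine Bl_mono ?_ h4
        rw [hQ]
        exact Nat.mul_le_mul h1 (Nat.mul_le_mul_left _ (Nat.pow_le_pow_left (by nlinarith) _))
      · have h5 : (e l.prod).natAbs ≤ n * M := h3.trans (Nat.mul_le_mul_right _ h1)
        simp only [Set.mem_Icc]
        omega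
    have hfinP : (Bl AK Q ×ˢ (Set.Icc (-((n * M : ℕ) : ℤ)) ((n * M : ℕ) : ℤ))).Finite :=
      (Bl_finite hAKf Q).prod (Set.finite_Icc _ _)
    have hcardI : (Set.Icc (-((n * M : ℕ) : ℤ)) ((n * M : ℕ) : ℤ)).ncard = 2 * (n * M) + 1 := by
      rw [Set.ncard_eq_toFinset_card', Set.toFinset_Icc, Int.card_Icc]
      omega
    have hQ1 : Q + 1 ≤ (C₂ * (M + 1) ^ D₂ + 1) * (n + 1) ^ (D₂ + 1) := by
      have h1 : (n * M + 1) ^ D₂ ≤ (M + 1) ^ D₂ * (n + 1) ^ D₂ := by
        rw [← mul_pow]; exact Nat.pow_le_pow_left (by nlinarith) _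
      have h2 : 1 ≤ (n + 1) ^ (D₂ + 1) := Nat.one_le_pow _ _ (by omega)
      calc Q + 1 ≤ (n + 1) * (C₂ * ((M + 1) ^ D₂ * (n + 1) ^ D₂)) + (n + 1) ^ (D₂ + 1) := by
            rw [hQ]
            exact Nat.add_le_add (Nat.mul_le_mul (Nat.le_succ n) (Nat.mul_le_mul_left _ h1)) h2
        _ = _ := by ring
    calc (Bl A n).ncard ≤ (Bl AK Q ×ˢ (Set.Icc (-((n * M : ℕ) : ℤ)) ((n * M : ℕ) : ℤ))).ncard :=
          (Set.ncard_le_ncard hsub (hfinP.image _)).trans (Set.ncard_image_le hfinP)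
      _ = (Bl AK Q).ncard * (2 * (n * M) + 1) := by rw [Set.ncard_prod, hcardI]
      _ ≤ (C₁ * (Q + 1) ^ D₁) * ((2 * M + 1) * (n + 1)) :=
          Nat.mul_le_mul (hgK' Q) (by nlinarith)
      _ ≤ (C₁ * ((C₂ * (M + 1) ^ D₂ + 1) * (n + 1) ^ (D₂ + 1)) ^ D₁) * ((2 * M + 1) * (n + 1)) :=
          Nat.mul_le_mul_right _ (Nat.mul_le_mul_left _ (Nat.pow_le_pow_left hQ1 _))
      _ = _ := by
          rw [mul_pow, ← pow_mul, pow_succ]
          ring

end Vale.Agent.P188.H789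

end

section

/-! P188, end game: the number of points reached by paths inside a slab of the model group. -/

universe u v w

open Pointwise

namespace Vale.Agent.P188.H789

variable {G : Type v} [Group G] {k : ℕ}

/-- The coordinates of `η g`, extended by zero. -/
def cz (η : G →* Multiplicative (Fin k → ℤ)) (g : G) (i : ℕ) : ℤ :=
  if h : i < k then Multiplicative.toAdd (η g) ⟨i, h⟩ else 0

theorem cz_mul (η : G →* Multiplicative (Fin k → ℤ)) (g h : G) (i : ℕ) :
    cz η (g * h) i = cz η g i + cz η h i := by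
  unfold cz
  split_ifs
  · rw [map_mul]; rfl
  · simp

theorem cz_one (η : G →* Multiplicative (Fin k → ℤ)) (i : ℕ) : cz η (1 : G) i = 0 := by
  have := cz_mul η 1 1 i
  rw [mul_one] at this
  omega

theorem cz_inv (η : G →* Multiplicative (Fin k → ℤ)) (g : G) (i : ℕ) :
    cz η g⁻¹ i = - cz η g i := by
  have := cz_mul η g g⁻¹ i
  rw [mul_inv_cancel, cz_one] at this
  omega

theorem cz_zpow (η : G →* Multiplicative (Fin k → ℤ)) (g : G) (z : ℤ) (i : ℕ) :
    cz η (g ^ z) i = z * cz η g i := by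
  induction z using Int.induction_on with
  | zero => simp [cz_one]
  | succ j ih => rw [zpow_add_one, cz_mul, ih]; ring
  | pred j ih => rw [zpow_sub_one, cz_mul, ih, cz_inv]; ring

theorem mem_ker_iff_cz (η : G →* Multiplicative (Fin k → ℤ)) (g : G) :
    g ∈ η.ker ↔ ∀ i, cz η g i = 0 := by
  rw [MonoidHom.mem_ker]
  constructor
  · intro h i
    unfold cz
    rw [h]
    simp
  · intro h
    have h2 : Multiplicative.toAdd (η g) = 0 := by
      funext i
      have := h i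
      unfold cz at this
      rw [dif_pos i.2] at this
      simpa using this
    exact h2

/-- The product `t 0 ^ q 0 * ⋯ * t (n-1) ^ q (n-1)`. -/
def tau (t : ℕ → G) (q : ℕ → ℤ) : ℕ → G
  | 0 => 1
  | n + 1 => tau t q n * t n ^ q n

/-- The sum of the absolute values of the first coordinates. -/
def sz (q : ℕ → ℤ) : ℕ → ℕ
  | 0 => 0
  | n + 1 => sz q n + (q n).natAbs

theorem tau_congr {t : ℕ → G} {q q' : ℕ → ℤ} {n : ℕ} (h : ∀ i < n, q i = q' i) :
    tau t q n = tau t q' n := by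
  induction n with
  | zero => rfl
  | succ n ih =>
    rw [tau, tau, ih fun i hi => h i (by omega), h n (by omega)]

theorem sz_le {q : ℕ → ℤ} {R : ℕ} {n : ℕ} (h : ∀ i, (q i).natAbs ≤ R) : sz q n ≤ n * R := by
  induction n with
  | zero => simp [sz]
  | succ n ih =>
    rw [sz]
    have := h n
    have e : (n + 1) * R = n * R + R := by ring
    omega

theorem cz_tau {η : G →* Multiplicative (Fin k → ℤ)} {t : ℕ → G}
    (ht : ∀ i j, j < k → cz η (t j) i = if i = j then 1 else 0) (q : ℕ → ℤ) :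
    ∀ n ≤ k, ∀ i, cz η (tau t q n) i = if i < n then q i else 0 := by
  intro n
  induction n with
  | zero => intro _ i; simp [tau, cz_one]
  | succ n ih =>
    intro hn i
    rw [tau, cz_mul, ih (by omega), cz_zpow, ht i n (by omega)]
    by_cases h : i = n
    · subst h
      simp
    · by_cases h' : i < n
      · rw [if_pos h', if_neg h, if_pos (by omega)]; ring
      · rw [if_neg h', if_neg h, if_neg (by omega)]; ring

section Bounds

variable {A : Set G} {t : ℕ → G} {c c₀ : ℕ}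

theorem tau_conj_mem (h1 : ∀ j, ∀ a ∈ A, t j * a * (t j)⁻¹ ∈ Bl A c)
    (h2 : ∀ j, ∀ a ∈ A, (t j)⁻¹ * a * t j ∈ Bl A c) (q : ℕ → ℤ) {m : ℕ} {x : G} (n : ℕ)
    (hx : x ∈ Bl A m) : tau t q n * x * (tau t q n)⁻¹ ∈ Bl A (c ^ sz q n * m) := by
  induction n generalizing x m with
  | zero => simpa [tau, sz] using hx
  | succ n ih =>
    have h3 := conj_zpow_mem_Bl (h1 n) (h2 n) hx (q n)
    have h4 := ih h3
    have e : tau t q (n + 1) * x * (tau t q (n + 1))⁻¹ =
        tau t q n * (t n ^ q n * x * (t n ^ q n)⁻¹) * (tau t q n)⁻¹ := by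
      rw [tau]; group
    rw [e]
    refine Bl_mono (le_of_eq ?_) h4
    rw [sz]
    ring

theorem tau_step_mem (h1 : ∀ j, ∀ a ∈ A, t j * a * (t j)⁻¹ ∈ Bl A c)
    (h2 : ∀ j, ∀ a ∈ A, (t j)⁻¹ * a * t j ∈ Bl A c)
    (h3 : ∀ i j (δ : ℤ), δ = 1 ∨ δ = -1 →
      t i * t j ^ δ * (t i)⁻¹ * (t j ^ δ)⁻¹ ∈ Bl A c₀)
    (h4 : ∀ i j (δ : ℤ), δ = 1 ∨ δ = -1 →
      (t i)⁻¹ * t j ^ δ * t i * (t j ^ δ)⁻¹ ∈ Bl A c₀) (q : ℕ → ℤ) {δ : ℤ}
    (hδ : δ = 1 ∨ δ = -1) (n j : ℕ) (hj : j < n) :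
    tau t q n * t j ^ δ * (tau t (fun i => q i + if i = j then δ else 0) n)⁻¹ ∈
      Bl A (n * (c₀ * (c + 1) ^ sz q n)) := by
  induction n with
  | zero => omega
  | succ n ih =>
    by_cases hjn : j = n
    · subst hjn
      have e : tau t (fun i => q i + if i = j then δ else 0) j = tau t q j := by
        refine tau_congr fun i hi => ?_
        rw [if_neg (by omega), add_zero]
      have e2 : tau t q (j + 1) * t j ^ δ *
          (tau t (fun i => q i + if i = j then δ else 0) (j + 1))⁻¹ = 1 := by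
        rw [tau, tau, e]
        simp only [if_true]
        rw [zpow_add]
        group
      rw [e2]
      exact one_mem_Bl _ _
    · have hj' : j < n := by omega
      have h5 := ih hj'
      have h6 := comm_zpow_mem_Bl (h1 n) (h2 n) (h3 n j δ hδ) (h4 n j δ hδ) (q n)
      have h7 := tau_conj_mem h1 h2 q n h6
      have h8 := mul_mem_Bl h7 h5
      have e : tau t q (n + 1) * t j ^ δ *
          (tau t (fun i => q i + if i = j then δ else 0) (n + 1))⁻¹ =
          tau t q n * (t n ^ q n * t j ^ δ * (t n ^ q n)⁻¹ * (t j ^ δ)⁻¹) * (tau t q n)⁻¹ *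
          (tau t q n * t j ^ δ * (tau t (fun i => q i + if i = j then δ else 0) n)⁻¹) := by
        rw [tau, tau, if_neg (fun h => hjn h.symm), add_zero]
        group
      rw [e]
      refine Bl_mono ?_ h8
      have h9 : c ^ sz q n ≤ (c + 1) ^ sz q n := Nat.pow_le_pow_left (by omega) _
      have h10 : 1 ≤ (c + 1) ^ (q n).natAbs := Nat.one_le_pow _ _ (by omega)
      rw [sz, pow_add]
      calc c ^ sz q n * (c₀ * (c + 1) ^ (q n).natAbs) + n * (c₀ * (c + 1) ^ sz q n)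
          ≤ (c + 1) ^ sz q n * (c₀ * (c + 1) ^ (q n).natAbs) +
            n * (c₀ * ((c + 1) ^ sz q n * (c + 1) ^ (q n).natAbs)) := by
            refine add_le_add (Nat.mul_le_mul_right _ h9) (Nat.mul_le_mul_left _
              (Nat.mul_le_mul_left _ ?_))
            exact Nat.le_mul_of_pos_right _ h10
        _ = (n + 1) * (c₀ * ((c + 1) ^ sz q n * (c + 1) ^ (q n).natAbs)) := by ring

end Bounds

/-- The slab of the model group. -/
def Slab (η : G →* Multiplicative (Fin k → ℤ)) (R : ℕ) : Set G :=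
  {g | ∀ i, (cz η g i).natAbs ≤ R}

theorem Slab_mono (η : G →* Multiplicative (Fin k → ℤ)) {R R' : ℕ} (h : R ≤ R') :
    Slab η R ⊆ Slab η R' := fun _ hg i => (hg i).trans h

/-- Elements `t j` with `η (t j) = e_j`. -/
theorem exists_t (η : G →* Multiplicative (Fin k → ℤ)) (hη : Function.Surjective η) :
    ∃ t : ℕ → G, (∀ i j, j < k → cz η (t j) i = if i = j then 1 else 0) ∧
      ∀ j, ¬ j < k → t j = 1 := by
  classical
  have h : ∀ j : ℕ, ∃ g : G, (j < k → ∀ i, cz η g i = if i = j then 1 else 0) ∧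
      (¬ j < k → g = 1) := by
    intro j
    by_cases hj : j < k
    · obtain ⟨g, hg⟩ := hη (Multiplicative.ofAdd (Pi.single ⟨j, hj⟩ 1))
      refine ⟨g, fun _ i => ?_, fun h => absurd hj h⟩
      unfold cz
      by_cases hi : i < k
      · rw [dif_pos hi, hg]
        simp only [toAdd_ofAdd]
        by_cases hij : i = j
        · subst hij
          simp
        · rw [if_neg hij, Pi.single_eq_of_ne]
          intro h
          exact hij (congrArg Fin.val h)
      · rw [dif_neg hi, if_neg (by omega)]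
    · exact ⟨1, fun h => absurd h hj, fun _ => rfl⟩
  choose t ht using h
  exact ⟨t, fun i j hj => (ht j).1 hj i, fun j hj => (ht j).2 hj⟩

theorem slab_kappa (η : G →* Multiplicative (Fin k → ℤ)) {A : Set G} (hA : A.Finite)
    (hcl : Subgroup.closure A = η.ker) {t : ℕ → G}
    (ht : ∀ i j, j < k → cz η (t j) i = if i = j then 1 else 0) (ht' : ∀ j, ¬ j < k → t j = 1) :
    ∃ μ : ℕ, 1 ≤ μ ∧ ∀ (R : ℕ) (g : G) (_ : g ∈ Slab η R) (b : G)
      (_ : b ∈ Bl A 1 ∨ ∃ j δ, j < k ∧ (δ = 1 ∨ δ = -1) ∧ b = t j ^ (δ : ℤ)),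
      tau t (cz η g) k * b * (tau t (cz η (g * b)) k)⁻¹ ∈ Bl A (μ ^ (R + 1)) := by
  classical
  have hfin : (Set.range t).Finite := by
    refine ((Finset.range k).finite_toSet.image t |>.union (Set.finite_singleton 1)).subset ?_
    rintro _ ⟨j, rfl⟩
    by_cases hj : j < k
    · exact Or.inl ⟨j, by simpa using hj, rfl⟩
    · exact Or.inr (by simp [ht' j hj])
  have hAker : ∀ a ∈ A, a ∈ η.ker := fun a ha => hcl ▸ Subgroup.subset_closure ha
  have hconj : ∃ c, ∀ j, ∀ a ∈ A, t j * a * (t j)⁻¹ ∈ Bl A c ∧ (t j)⁻¹ * a * t j ∈ Bl A c := by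
    obtain ⟨c, hc⟩ := exists_Bl_of_finite (A := A)
      (F := (fun p : G × G => p.1 * p.2 * p.1⁻¹) '' ((Set.range t ∪ (Set.range t)⁻¹) ×ˢ A))
      (((hfin.union hfin.inv).prod hA).image _) (by
        rintro _ ⟨⟨s, a⟩, ⟨_, ha⟩, rfl⟩
        rw [hcl]
        exact (MonoidHom.normal_ker η).conj_mem a (hAker a ha) s)
    refine ⟨c, fun j a ha => ⟨hc ⟨(t j, a), ⟨Or.inl ⟨j, rfl⟩, ha⟩, rfl⟩,
      hc ⟨((t j)⁻¹, a), ⟨Or.inr (by simp), ha⟩, by simp⟩⟩⟩
  have hcomm : ∃ c₀, ∀ i j (δ : ℤ), δ = 1 ∨ δ = -1 →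
      t i * t j ^ δ * (t i)⁻¹ * (t j ^ δ)⁻¹ ∈ Bl A c₀ ∧
      (t i)⁻¹ * t j ^ δ * t i * (t j ^ δ)⁻¹ ∈ Bl A c₀ := by
    obtain ⟨c, hc⟩ := exists_Bl_of_finite (A := A)
      (F := (fun p : G × G => p.1 * p.2 * p.1⁻¹ * p.2⁻¹) ''
        ((Set.range t ∪ (Set.range t)⁻¹) ×ˢ (Set.range t ∪ (Set.range t)⁻¹)))
      (((hfin.union hfin.inv).prod (hfin.union hfin.inv)).image _) (by
        rintro _ ⟨⟨s, a⟩, ⟨_, _⟩, rfl⟩
        rw [hcl, MonoidHom.mem_ker]
        simp only [map_mul, map_inv]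
        rw [mul_comm (η s) (η a)]
        simp)
    refine ⟨c, fun i j δ hδ => ?_⟩
    have hmem : t j ^ δ ∈ Set.range t ∪ (Set.range t)⁻¹ := by
      rcases hδ with rfl | rfl
      · exact Or.inl ⟨j, by simp⟩
      · exact Or.inr (by simp)
    exact ⟨hc ⟨(t i, t j ^ δ), ⟨Or.inl ⟨i, rfl⟩, hmem⟩, rfl⟩,
      hc ⟨((t i)⁻¹, t j ^ δ), ⟨Or.inr (by simp), hmem⟩, by simp⟩⟩
  obtain ⟨c', hc'⟩ := hconj
  obtain ⟨c₀, hc₀⟩ := hcomm
  -- enlarge `c'`
  have h1 : ∀ j, ∀ a ∈ A, t j * a * (t j)⁻¹ ∈ Bl A (c' + 1) :=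
    fun j a ha => Bl_mono (by omega) (hc' j a ha).1
  have h2 : ∀ j, ∀ a ∈ A, (t j)⁻¹ * a * t j ∈ Bl A (c' + 1) :=
    fun j a ha => Bl_mono (by omega) (hc' j a ha).2
  refine ⟨(c' + 1 + 1) ^ (k + 1) * ((k + 1) * (c₀ + 1)), ?_, fun R g hg b hb => ?_⟩
  · exact Nat.mul_pos (Nat.pow_pos (by omega)) (Nat.mul_pos (by omega) (by omega))
  have hsz : sz (cz η g) k ≤ k * R := sz_le hg
  have hbase : ∀ e : ℕ, e ≤ k * R → ∀ w : ℕ, w ≤ (k + 1) * (c₀ + 1) →
      w * (c' + 1 + 1) ^ e ≤ ((c' + 1 + 1) ^ (k + 1) * ((k + 1) * (c₀ + 1))) ^ (R + 1) := by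
    intro e he w hw
    rw [mul_pow, ← pow_mul]
    have a1 : (c' + 1 + 1) ^ e ≤ (c' + 1 + 1) ^ ((k + 1) * (R + 1)) := by
      refine Nat.pow_le_pow_right (by omega) (he.trans ?_)
      nlinarith
    have a2 : w ≤ ((k + 1) * (c₀ + 1)) ^ (R + 1) := by
      refine hw.trans ?_
      refine Nat.le_self_pow (by omega) _
    rw [mul_comm w]
    exact Nat.mul_le_mul a1 a2
  rcases hb with hb | ⟨j, δ, hj, hδ, rfl⟩
  · have hbker : b ∈ η.ker := by
      have := Bl_subset_closure A 1 hb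
      rw [hcl] at this
      exact this
    have e : cz η (g * b) = cz η g := by
      funext i
      rw [cz_mul, (mem_ker_iff_cz η b).mp hbker i, add_zero]
    rw [e]
    refine Bl_mono ?_ (tau_conj_mem h1 h2 (cz η g) k hb)
    rw [mul_one]
    have := hbase (sz (cz η g) k) hsz 1 (by nlinarith)
    rw [one_mul] at this
    exact (Nat.pow_le_pow_left (by omega) _).trans this
  · have e : cz η (g * t j ^ δ) = fun i => cz η g i + if i = j then δ else 0 := by
      funext i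
      rw [cz_mul, cz_zpow, ht i j hj]
      split_ifs <;> ring
    rw [e]
    refine Bl_mono ?_ (tau_step_mem h1 h2 (fun i j δ hδ => (hc₀ i j δ hδ).1)
      (fun i j δ hδ => (hc₀ i j δ hδ).2) (cz η g) hδ k j hj)
    rw [← mul_assoc]
    exact hbase _ hsz _ (by nlinarith)

/-- The set of the steps used in the model group. -/
def St (A : Set G) (t : ℕ → G) (k : ℕ) : Set G :=
  Bl A 1 ∪ {b | ∃ j δ, j < k ∧ (δ = 1 ∨ δ = -1) ∧ b = t j ^ (δ : ℤ)}

theorem slab_mem (η : G →* Multiplicative (Fin k → ℤ)) {A : Set G} (hA : A.Finite)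
    (hcl : Subgroup.closure A = η.ker) {t : ℕ → G}
    (ht : ∀ i j, j < k → cz η (t j) i = if i = j then 1 else 0) (ht' : ∀ j, ¬ j < k → t j = 1) :
    ∃ μ : ℕ, 1 ≤ μ ∧ ∀ (R m : ℕ) (x : G), PathTo (Slab η R) (St A t k) m 1 x →
      x * (tau t (cz η x) k)⁻¹ ∈ Bl A (m * μ ^ (R + 1)) := by
  obtain ⟨μ, hμ, h⟩ := slab_kappa η hA hcl ht ht'
  refine ⟨μ, hμ, fun R m x hx => ?_⟩
  obtain ⟨p, h0, h1, h2, h3⟩ := hx
  have key : ∀ i ≤ m, p i * (tau t (cz η (p i)) k)⁻¹ ∈ Bl A (i * μ ^ (R + 1)) := by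
    intro i
    induction i with
    | zero =>
      intro _
      have e : tau t (cz η (1 : G)) k = 1 := by
        have : ∀ n, tau t (cz η (1 : G)) n = 1 := by
          intro n
          induction n with
          | zero => rfl
          | succ n ih => rw [tau, ih, cz_one]; simp
        exact this k
      rw [h0, e]
      simpa using one_mem_Bl A _
    | succ i ih =>
      intro hi
      have h4 := ih (by omega)
      have h5 := h R (p i) (h2 i (by omega)) ((p i)⁻¹ * p (i + 1)) (h3 i (by omega))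
      rw [mul_inv_cancel_left] at h5
      have h6 := mul_mem_Bl h4 h5
      have e : p i * (tau t (cz η (p i)) k)⁻¹ *
          (tau t (cz η (p i)) k * ((p i)⁻¹ * p (i + 1)) * (tau t (cz η (p (i + 1))) k)⁻¹) =
          p (i + 1) * (tau t (cz η (p (i + 1))) k)⁻¹ := by group
      rw [e] at h6
      refine Bl_mono (le_of_eq ?_) h6
      ring
  have := key m le_rfl
  rwa [h1] at this

theorem slab_count₀ (η : G →* Multiplicative (Fin k → ℤ)) {A : Set G} (hA : A.Finite)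
    (hcl : Subgroup.closure A = η.ker) {C D : ℕ} (hgr : ∀ n, (Bl A n).ncard ≤ C * (n + 1) ^ D)
    {t : ℕ → G} (ht : ∀ i j, j < k → cz η (t j) i = if i = j then 1 else 0)
    (ht' : ∀ j, ¬ j < k → t j = 1) :
    ∃ C' : ℕ, 1 ≤ C' ∧ ∀ R m : ℕ, {x | PathTo (Slab η R) (St A t k) m 1 x}.Finite ∧
      {x | PathTo (Slab η R) (St A t k) m 1 x}.ncard ≤ C' ^ (R + 1) * (m + 1) ^ D := by
  classical
  obtain ⟨μ, hμ, h⟩ := slab_mem η hA hcl ht ht'
  refine ⟨(C + 1) * (2 * μ ^ D) * 3 ^ k, ?_, fun R m => ?_⟩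
  · exact Nat.mul_pos (Nat.mul_pos (by omega) (Nat.mul_pos (by omega) (Nat.pow_pos hμ)))
      (Nat.pow_pos (by omega))
  let box : Finset (Fin k → ℤ) := Fintype.piFinset fun _ => Finset.Icc (-(R : ℤ)) R
  let N := m * μ ^ (R + 1)
  let F : Set G := (fun p : G × (Fin k → ℤ) =>
    p.1 * tau t (fun i => if h : i < k then p.2 ⟨i, h⟩ else 0) k) '' (Bl A N ×ˢ (box : Set _))
  have hfinF : ((Bl A N) ×ˢ (box : Set (Fin k → ℤ))).Finite :=
    (Bl_finite hA N).prod box.finite_toSet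
  have hsub : {x | PathTo (Slab η R) (St A t k) m 1 x} ⊆ F := by
    intro x hx
    have h1 := h R m x hx
    have hxs : x ∈ Slab η R := by
      obtain ⟨p, h0, h1, h2, h3⟩ := hx
      rw [← h1]
      exact h2 m le_rfl
    refine ⟨(x * (tau t (cz η x) k)⁻¹, Multiplicative.toAdd (η x)), ⟨h1, ?_⟩, ?_⟩
    · simp only [box, Finset.mem_coe, Fintype.mem_piFinset, Finset.mem_Icc]
      intro i
      have := hxs i
      unfold cz at this
      rw [dif_pos i.2] at this
      simp only [Fin.eta] at this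
      omega
    · simp only
      have e : tau t (fun i => if h : i < k then Multiplicative.toAdd (η x) ⟨i, h⟩ else 0) k =
          tau t (cz η x) k := rfl
      rw [e]
      group
  refine ⟨(hfinF.image _).subset hsub, ?_⟩
  have hcard : (box : Set (Fin k → ℤ)).ncard = (2 * R + 1) ^ k := by
    rw [Set.ncard_coe_finset, Fintype.card_piFinset]
    simp only [Int.card_Icc, Finset.prod_const, Finset.card_univ, Fintype.card_fin]
    congr 1
    omega
  have h3R : 2 * R + 1 ≤ 3 ^ (R + 1) := by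
    clear hsub hcard hfinF
    induction R with
    | zero => norm_num
    | succ R ih => rw [pow_succ]; omega
  have hμR : 1 ≤ μ ^ (R + 1) := Nat.one_le_pow _ _ hμ
  calc {x | PathTo (Slab η R) (St A t k) m 1 x}.ncard ≤ F.ncard :=
        Set.ncard_le_ncard hsub (hfinF.image _)
    _ ≤ ((Bl A N) ×ˢ (box : Set (Fin k → ℤ))).ncard := Set.ncard_image_le hfinF
    _ = (Bl A N).ncard * (2 * R + 1) ^ k := by rw [Set.ncard_prod, hcard]
    _ ≤ (C * (N + 1) ^ D) * (2 * R + 1) ^ k := Nat.mul_le_mul_right _ (hgr N)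
    _ ≤ ((C + 1) * (μ ^ (R + 1) * (m + 1)) ^ D) * (3 ^ (R + 1)) ^ k := by
        refine Nat.mul_le_mul (Nat.mul_le_mul (by omega) (Nat.pow_le_pow_left ?_ _))
          (Nat.pow_le_pow_left h3R _)
        show m * μ ^ (R + 1) + 1 ≤ _
        nlinarith
    _ ≤ ((C + 1) * (2 * μ ^ D) * 3 ^ k) ^ (R + 1) * (m + 1) ^ D := by
        have e1 : (μ ^ (R + 1) * (m + 1)) ^ D = (μ ^ D) ^ (R + 1) * (m + 1) ^ D := by
          rw [mul_pow, ← pow_mul, ← pow_mul, mul_comm (R + 1) D]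
        have e2 : (3 ^ (R + 1)) ^ k = (3 ^ k) ^ (R + 1) := by
          rw [← pow_mul, ← pow_mul, mul_comm]
        rw [e1, e2]
        have e3 : C + 1 ≤ (C + 1) ^ (R + 1) := Nat.le_self_pow (by omega) _
        have e4 : (μ ^ D) ^ (R + 1) ≤ (2 * μ ^ D) ^ (R + 1) :=
          Nat.pow_le_pow_left (by omega) _
        calc (C + 1) * ((μ ^ D) ^ (R + 1) * (m + 1) ^ D) * (3 ^ k) ^ (R + 1)
            ≤ (C + 1) ^ (R + 1) * ((2 * μ ^ D) ^ (R + 1) * (m + 1) ^ D) * (3 ^ k) ^ (R + 1) :=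
              Nat.mul_le_mul_right _ (Nat.mul_le_mul e3 (Nat.mul_le_mul_right _ e4))
          _ = _ := by
            rw [mul_pow ((C + 1) * (2 * μ ^ D)) (3 ^ k), mul_pow (C + 1) (2 * μ ^ D)]; ring

end Vale.Agent.P188.H789

end

section

/-! P188, end game: counting in the slab for general finite step sets. -/

universe u v w

open Pointwise

namespace Vale.Agent.P188.H789

variable {G : Type v} [Group G] {k : ℕ}

theorem exists_slab (η : G →* Multiplicative (Fin k → ℤ)) (g : G) : ∃ r, g ∈ Slab η r := by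
  classical
  refine ⟨∑ i ∈ Finset.range k, (cz η g i).natAbs, fun i => ?_⟩
  by_cases hi : i < k
  · exact Finset.single_le_sum (f := fun i => (cz η g i).natAbs) (fun _ _ => Nat.zero_le _)
      (Finset.mem_range.mpr hi)
  · unfold cz
    rw [dif_neg hi]
    simp

theorem exists_slab_finite (η : G →* Multiplicative (Fin k → ℤ)) {F : Set G} (hF : F.Finite) :
    ∃ r, F ⊆ Slab η r := by
  choose f hf using exists_slab η
  obtain ⟨M, hM⟩ := (hF.image f).bddAbove
  exact ⟨M, fun x hx => Slab_mono η (hM ⟨x, hx, rfl⟩) (hf x)⟩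

theorem mul_mem_Slab {η : G →* Multiplicative (Fin k → ℤ)} {R r : ℕ} {g h : G}
    (hg : g ∈ Slab η R) (hh : h ∈ Slab η r) : g * h ∈ Slab η (R + r) := by
  intro i
  rw [cz_mul]
  have := hg i
  have := hh i
  omega

theorem inv_mem_Slab {η : G →* Multiplicative (Fin k → ℤ)} {R : ℕ} {g : G}
    (hg : g ∈ Slab η R) : g⁻¹ ∈ Slab η R := by
  intro i
  rw [cz_inv, Int.natAbs_neg]
  exact hg i

theorem tau_inv_mem_ker (η : G →* Multiplicative (Fin k → ℤ)) {t : ℕ → G}
    (ht : ∀ i j, j < k → cz η (t j) i = if i = j then 1 else 0) (g : G) :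
    g * (tau t (cz η g) k)⁻¹ ∈ η.ker := by
  rw [mem_ker_iff_cz]
  intro i
  rw [cz_mul, cz_inv, cz_tau ht _ k le_rfl]
  by_cases hi : i < k
  · rw [if_pos hi]; ring
  · rw [if_neg hi]
    unfold cz
    rw [dif_neg hi]
    simp

theorem exists_list_St (η : G →* Multiplicative (Fin k → ℤ)) {A : Set G}
    (hcl : Subgroup.closure A = η.ker) {t : ℕ → G}
    (ht : ∀ i j, j < k → cz η (t j) i = if i = j then 1 else 0) (g : G) :
    ∃ l : List G, (∀ a ∈ l, a ∈ St A t k) ∧ l.prod = g := by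
  have hmem : ∀ x ∈ Subgroup.closure (St A t k),
      ∃ l : List G, (∀ a ∈ l, a ∈ St A t k) ∧ l.prod = x := by
    intro x hx
    have hinv : (St A t k)⁻¹ ⊆ St A t k := by
      intro b hb
      rcases hb with hb | ⟨j, δ, hj, hδ, hb⟩
      · left
        have := inv_mem_Bl hb
        rwa [inv_inv] at this
      · right
        refine ⟨j, -δ, hj, by omega, ?_⟩
        rw [zpow_neg, ← hb, inv_inv]
    have hmem : x ∈ (Subgroup.closure (St A t k)).toSubmonoid := hx
    rw [Subgroup.closure_toSubmonoid, Set.union_eq_left.mpr hinv] at hmem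
    obtain ⟨l, hl, hp⟩ := Submonoid.exists_list_of_mem_closure hmem
    exact ⟨l, hl, hp⟩
  refine hmem g ?_
  have h1 : g * (tau t (cz η g) k)⁻¹ ∈ Subgroup.closure (St A t k) := by
    have h2 := tau_inv_mem_ker η ht g
    rw [← hcl] at h2
    refine Subgroup.closure_mono ?_ h2
    intro a ha
    exact Or.inl (mem_Bl_one ha)
  have h3 : ∀ n ≤ k, tau t (cz η g) n ∈ Subgroup.closure (St A t k) := by
    intro n
    induction n with
    | zero => intro _; exact Subgroup.one_mem _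
    | succ n ih =>
      intro hn
      refine Subgroup.mul_mem _ (ih (by omega)) (Subgroup.zpow_mem _ (Subgroup.subset_closure ?_) _)
      exact Or.inr ⟨n, 1, by omega, Or.inl rfl, by simp⟩
  have := Subgroup.mul_mem _ h1 (h3 k le_rfl)
  rwa [inv_mul_cancel_right] at this

theorem exists_path_St (η : G →* Multiplicative (Fin k → ℤ)) {A : Set G}
    (hcl : Subgroup.closure A = η.ker) {t : ℕ → G}
    (ht : ∀ i j, j < k → cz η (t j) i = if i = j then 1 else 0) (g : G) :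
    ∃ n r, PathTo (Slab η r) (St A t k) n 1 g := by
  obtain ⟨l, hl, hp⟩ := exists_list_St η hcl ht g
  obtain ⟨r, hr⟩ := exists_slab_finite η
    (F := (fun j => (1 : G) * (l.take j).prod) '' Set.Iic l.length) ((Set.finite_Iic _).image _)
  refine ⟨l.length, r, ?_⟩
  have := PathTo.of_list (P := Slab η r) (B := St A t k) l 1 hl (fun j hj => hr ⟨j, hj, rfl⟩)
  rwa [hp, one_mul] at this

theorem one_mem_St (A : Set G) (t : ℕ → G) (k : ℕ) : (1 : G) ∈ St A t k :=
  Or.inl (one_mem_Bl _ _)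

theorem exists_path_St_finite (η : G →* Multiplicative (Fin k → ℤ)) {A : Set G}
    (hcl : Subgroup.closure A = η.ker) {t : ℕ → G}
    (ht : ∀ i j, j < k → cz η (t j) i = if i = j then 1 else 0) {B : Set G} (hB : B.Finite) :
    ∃ n r, ∀ b ∈ B, PathTo (Slab η r) (St A t k) n 1 b := by
  choose n r h using exists_path_St η hcl ht
  obtain ⟨N, hN⟩ := (hB.image n).bddAbove
  obtain ⟨M, hM⟩ := (hB.image r).bddAbove
  exact ⟨N, M, fun b hb => ((h b).mono (Slab_mono η (hM ⟨b, hb, rfl⟩)) subset_rfl).extend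
    (one_mem_St _ _ _) (hN ⟨b, hb, rfl⟩)⟩

theorem path_refine (η : G →* Multiplicative (Fin k → ℤ)) {A : Set G}
    (hcl : Subgroup.closure A = η.ker) {t : ℕ → G}
    (ht : ∀ i j, j < k → cz η (t j) i = if i = j then 1 else 0) {B : Set G} (hB : B.Finite) :
    ∃ ℓ r, ∀ R m x y, PathTo (Slab η R) B m x y →
      PathTo (Slab η (R + r)) (St A t k) (m * ℓ) x y := by
  obtain ⟨ℓ, r, h⟩ := exists_path_St_finite η hcl ht hB
  refine ⟨ℓ, r, fun R m x y hxy => ?_⟩
  obtain ⟨p, h0, h1, h2, h3⟩ := hxy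
  have key : ∀ i ≤ m, PathTo (Slab η (R + r)) (St A t k) (i * ℓ) x (p i) := by
    intro i
    induction i with
    | zero =>
      intro _
      rw [Nat.zero_mul, ← h0]
      exact PathTo.refl (Slab_mono η (by omega) (h2 0 (by omega)))
    | succ i ih =>
      intro hi
      have h4 := (h _ (h3 i (by omega))).left (p i) (P' := Slab η (R + r))
        (fun z hz => mul_mem_Slab (h2 i (by omega)) hz)
      rw [mul_one, mul_inv_cancel_left] at h4
      have h5 := (ih (by omega)).trans h4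
      have e : (i + 1) * ℓ = i * ℓ + ℓ := by ring
      rwa [e]
  have := key m le_rfl
  rwa [h1] at this

/-- The number of points reached by paths of `m` steps inside the slab of width `R`. -/
theorem slab_count (η : G →* Multiplicative (Fin k → ℤ)) (hη : Function.Surjective η)
    {A : Set G} (hA : A.Finite)
    (hcl : Subgroup.closure A = η.ker) {C D : ℕ} (hgr : ∀ n, (Bl A n).ncard ≤ C * (n + 1) ^ D)
    {B : Set G} (hB : B.Finite) :
    ∃ C' : ℕ, 1 ≤ C' ∧ ∀ R m : ℕ, {x | PathTo (Slab η R) B m 1 x}.Finite ∧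
      {x | PathTo (Slab η R) B m 1 x}.ncard ≤ C' ^ (R + 1) * (m + 1) ^ D := by
  obtain ⟨t, ht, ht'⟩ := exists_t η hη
  obtain ⟨ℓ, r, h⟩ := path_refine η hcl ht hB
  obtain ⟨C₁, hC₁, h1⟩ := slab_count₀ η hA hcl hgr ht ht'
  refine ⟨C₁ ^ (r + 1) * (ℓ + 1) ^ D, Nat.mul_pos (Nat.pow_pos hC₁) (Nat.pow_pos (by omega)),
    fun R m => ?_⟩
  have hsub : {x | PathTo (Slab η R) B m 1 x} ⊆
      {x | PathTo (Slab η (R + r)) (St A t k) (m * ℓ) 1 x} := fun x hx => h R m 1 x hx
  refine ⟨(h1 (R + r) (m * ℓ)).1.subset hsub, ?_⟩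
  have hl1 : 1 ≤ (ℓ + 1) ^ D := Nat.one_le_pow _ _ (by omega)
  calc {x | PathTo (Slab η R) B m 1 x}.ncard
      ≤ {x | PathTo (Slab η (R + r)) (St A t k) (m * ℓ) 1 x}.ncard :=
        Set.ncard_le_ncard hsub (h1 (R + r) (m * ℓ)).1
    _ ≤ C₁ ^ (R + r + 1) * (m * ℓ + 1) ^ D := (h1 (R + r) (m * ℓ)).2
    _ ≤ C₁ ^ ((r + 1) * (R + 1)) * (((ℓ + 1) ^ D) ^ (R + 1) * (m + 1) ^ D) := by
        refine Nat.mul_le_mul (Nat.pow_le_pow_right hC₁ (by nlinarith)) ?_
        calc (m * ℓ + 1) ^ D ≤ ((ℓ + 1) * (m + 1)) ^ D := Nat.pow_le_pow_left (by nlinarith) _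
          _ = (ℓ + 1) ^ D * (m + 1) ^ D := mul_pow _ _ _
          _ ≤ _ := Nat.mul_le_mul_right _ (Nat.le_self_pow (by omega) _)
    _ = (C₁ ^ (r + 1) * (ℓ + 1) ^ D) ^ (R + 1) * (m + 1) ^ D := by
        rw [mul_pow, pow_mul]; ring

end Vale.Agent.P188.H789

end

section

/-! P188, block PSI: end points of paths staying near a segment, transfer by a map which is
affine on most points. -/

universe u v w

open Finset

namespace Vale.Agent.P188.H530

open Vale.Agent.P188.H789 (Bl PathTo)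

section Defs

variable {G : Type u} [Group G] {E : Type v} [NormedAddCommGroup E] [NormedSpace ℝ E]

/-- Elements whose height is within `r` of the segment `[0, w]`. -/
def Near (θ : G → E) (w : E) (r : ℝ) : Set G :=
  {g | ∃ s : ℝ, 0 ≤ s ∧ s ≤ 1 ∧ ‖θ g - s • w‖ ≤ r}

/-- End points of paths of `m` steps near the segment `[0, w]`. -/
def Ends (θ : G → E) (B : Set G) (m : ℕ) (w : E) (r : ℝ) : Set G :=
  {x | PathTo (Near θ w r) B m 1 x}

theorem Near_mono {θ : G → E} {w : E} {r r' : ℝ} (h : r ≤ r') : Near θ w r ⊆ Near θ w r' := by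
  rintro g ⟨s, h0, h1, h2⟩
  exact ⟨s, h0, h1, h2.trans h⟩

theorem Near_change {θ : G → E} {w w' : E} {r δ : ℝ} (h : ‖w - w'‖ ≤ δ) :
    Near θ w r ⊆ Near θ w' (r + δ) := by
  rintro g ⟨s, h0, h1, h2⟩
  refine ⟨s, h0, h1, ?_⟩
  have e : θ g - s • w' = (θ g - s • w) + s • (w - w') := by
    rw [smul_sub]; abel
  rw [e]
  refine (norm_add_le _ _).trans (add_le_add h2 ?_)
  rw [norm_smul, Real.norm_of_nonneg h0]
  calc s * ‖w - w'‖ ≤ 1 * ‖w - w'‖ := by gcongr
    _ ≤ δ := by rwa [one_mul]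

theorem Near_smul {θ : G → E} {w : E} {r d : ℝ} (h0 : 0 ≤ d) (h1 : d ≤ 1) :
    Near θ (d • w) r ⊆ Near θ w r := by
  rintro g ⟨s, hs0, hs1, h2⟩
  refine ⟨s * d, mul_nonneg hs0 h0, ?_, by rwa [← smul_smul]⟩
  nlinarith

theorem norm_of_Near {θ : G → E} {w : E} {r : ℝ} {g : G} (h : g ∈ Near θ w r) :
    ‖θ g‖ ≤ ‖w‖ + r := by
  obtain ⟨s, h0, h1, h2⟩ := h
  have e : θ g = s • w + (θ g - s • w) := by abel
  rw [e]
  refine (norm_add_le _ _).trans (add_le_add ?_ h2)
  rw [norm_smul, Real.norm_of_nonneg h0]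
  calc s * ‖w‖ ≤ 1 * ‖w‖ := by gcongr
    _ = ‖w‖ := one_mul _

theorem Ends_mono {θ : G → E} {B B' : Set G} {m : ℕ} {w w' : E} {r r' : ℝ} (hB : B ⊆ B')
    (h : Near θ w r ⊆ Near θ w' r') : Ends θ B m w r ⊆ Ends θ B' m w' r' :=
  fun _ hx => PathTo.mono h hB hx

theorem Ends_mono_m {θ : G → E} {B : Set G} (hB : (1 : G) ∈ B) {m m' : ℕ} (h : m ≤ m') {w : E}
    {r : ℝ} : Ends θ B m w r ⊆ Ends θ B m' w r :=
  fun _ hx => PathTo.extend hB hx h

theorem Ends_near {θ : G → E} {B : Set G} {m : ℕ} {w : E} {r : ℝ} {x : G}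
    (hx : x ∈ Ends θ B m w r) : x ∈ Near θ w r := by
  obtain ⟨p, -, h1, h2, -⟩ := hx
  rw [← h1]
  exact h2 m le_rfl

/-- Additivity of the height. -/
theorem add_one {θ : G → E} (hθ : ∀ x y, θ (x * y) = θ x + θ y) : θ 1 = 0 := by
  have := hθ 1 1
  rw [mul_one] at this
  simpa using this

theorem add_inv {θ : G → E} (hθ : ∀ x y, θ (x * y) = θ x + θ y) (x : G) : θ x⁻¹ = - θ x := by
  have := hθ x x⁻¹
  rw [mul_inv_cancel, add_one hθ] at this
  exact (neg_eq_of_add_eq_zero_right this.symm).symm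

theorem norm_add_Bl {θ : G → E} (hθ : ∀ x y, θ (x * y) = θ x + θ y) {A : Set G} {ℓ : ℝ}
    (hℓ0 : 0 ≤ ℓ) (hℓ : ∀ a ∈ A, ‖θ a‖ ≤ ℓ) {n : ℕ} {x : G} (hx : x ∈ Bl A n) :
    ‖θ x‖ ≤ n * ℓ := by
  obtain ⟨l, h1, h2, rfl⟩ := hx
  have key : ∀ l : List G, (∀ a ∈ l, a ∈ A ∨ a⁻¹ ∈ A) → ‖θ l.prod‖ ≤ l.length * ℓ := by
    intro l
    induction l with
    | nil => intro _; simp [add_one hθ]
    | cons a l ih =>
      intro h
      have h3 := ih fun b hb => h b (List.mem_cons_of_mem _ hb)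
      have h4 : ‖θ a‖ ≤ ℓ := by
        rcases h a List.mem_cons_self with h | h
        · exact hℓ a h
        · have := hℓ _ h
          rwa [add_inv hθ, norm_neg] at this
      rw [List.prod_cons, hθ, List.length_cons]
      push_cast
      calc ‖θ a + θ l.prod‖ ≤ ‖θ a‖ + ‖θ l.prod‖ := norm_add_le _ _
        _ ≤ (l.length + 1) * ℓ := by linarith
  refine (key l h2).trans ?_
  gcongr

/-- Steps of a path between two times. -/
theorem norm_path_le {θ : G → E} (hθ : ∀ x y, θ (x * y) = θ x + θ y) {B : Set G} {ℓ : ℝ}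
    (hℓ : ∀ a ∈ B, ‖θ a‖ ≤ ℓ) {p : ℕ → G} {m : ℕ}
    (hp : ∀ i < m, (p i)⁻¹ * p (i + 1) ∈ B) {i j : ℕ} (hij : i ≤ j) (hj : j ≤ m) :
    ‖θ (p j) - θ (p i)‖ ≤ (j - i : ℕ) * ℓ := by
  obtain ⟨d, rfl⟩ := Nat.exists_eq_add_of_le hij
  rw [Nat.add_sub_cancel_left]
  clear hij
  induction d with
  | zero => simp
  | succ d ih =>
    have h1 := ih (by omega)
    have h2 := hℓ _ (hp (i + d) (by omega))
    rw [hθ, add_inv hθ] at h2
    push_cast
    have e : θ (p (i + (d + 1))) - θ (p i) =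
        (-θ (p (i + d)) + θ (p (i + d + 1))) + (θ (p (i + d)) - θ (p i)) := by
      rw [← add_assoc]; abel
    rw [e]
    refine (norm_add_le _ _).trans ?_
    linarith

end Defs

/-- If at most `q ≤ m` of the indices `0..m` are bad, every index is within `q` of a good one. -/
theorem exists_good {m q : ℕ} (bad : ℕ → Prop) [DecidablePred bad] (hq : q ≤ m)
    (hc : ((range (m + 1)).filter bad).card ≤ q) (j : ℕ) (hj : j ≤ m) :
    ∃ i ≤ m, ¬ bad i ∧ i ≤ j + q ∧ j ≤ i + q := by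
  by_contra hcon
  push Not at hcon
  have hsub : Icc (j - q) (j - q + q) ⊆ (range (m + 1)).filter bad := by
    intro i hi
    rw [Finset.mem_Icc] at hi
    rw [Finset.mem_filter, Finset.mem_range]
    have him : i ≤ m := by omega
    refine ⟨by omega, ?_⟩
    by_contra hb
    have := hcon i him hb (by omega)
    omega
  have := Finset.card_le_card hsub
  rw [Nat.card_Icc] at this
  omega

section Average

variable {G : Type u} [Group G]

end Average

end Vale.Agent.P188.H530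

end
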