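import Vale.Agent.P188.R.G026
import Vale.Agent.P188.R.G022
import Vale.Agent.P188.R.G023

section

/-!
# P188, FILL block, part 15: polynomial families in the curve group
-/

set_option linter.all false

namespace Vale.Agent.P188.H329

open Polynomial Set

section PoA

variable {A : Type} [Ring A] [Algebra ℝ A] {P : Type} [NormedAddCommGroup P] [NormedSpace ℝ P]

/-- polynomial functions with values in an algebra -/
def PoA (f : P → A) : Prop := ∀ φ : A →ₗ[ℝ] ℝ, (fun p => φ (f p)) ∈ Po P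

theorem PoA.const (a : A) : PoA (fun _ : P => a) := fun φ => Po.const _

theorem PoA.smul {s : P → ℝ} (hs : s ∈ Po P) (a : A) : PoA (fun p => s p • a) := by
  intro φ
  have : (fun p => φ (s p • a)) = fun p => s p * φ a := by
    funext p
    rw [map_smul, smul_eq_mul]
  rw [this]
  exact Po.mul hs (Po.const _)

theorem PoA.sub {f g : P → A} (hf : PoA f) (hg : PoA g) : PoA (fun p => f p - g p) := by
  intro φ
  have : (fun p => φ (f p - g p)) = fun p => φ (f p) - φ (g p) := by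
    funext p
    rw [map_sub]
  rw [this]
  exact Po.sub (hf φ) (hg φ)

theorem PoA.sum {α : Type} {s : Finset α} {f : α → P → A} (hf : ∀ a ∈ s, PoA (f a)) :
    PoA (fun p => ∑ a ∈ s, f a p) := by
  intro φ
  have : (fun p => φ (∑ a ∈ s, f a p)) = fun p => ∑ a ∈ s, φ (f a p) := by
    funext p
    rw [map_sum]
  rw [this]
  exact Po.sum fun a ha => hf a ha φ

theorem PoA.mul [FiniteDimensional ℝ A] {f g : P → A} (hf : PoA f) (hg : PoA g) :
    PoA (fun p => f p * g p) := by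
  intro φ
  set b := Module.finBasis ℝ A with hb
  have : (fun p => φ (f p * g p)) =
      fun p => ∑ i, ∑ j, (b.coord i (f p) * b.coord j (g p)) * φ (b i * b j) := by
    funext p
    have h1 : f p = ∑ i, b.coord i (f p) • b i := (b.sum_repr (f p)).symm
    have h2 : g p = ∑ j, b.coord j (g p) • b j := (b.sum_repr (g p)).symm
    have h3 : f p * g p = ∑ i, ∑ j, (b.coord i (f p) * b.coord j (g p)) • (b i * b j) := by
      conv_lhs => rw [h1, h2]
      rw [Finset.sum_mul_sum]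
      refine Finset.sum_congr rfl fun i _ => Finset.sum_congr rfl fun j _ => ?_
      rw [smul_mul_smul_comm]
    rw [h3, map_sum]
    refine Finset.sum_congr rfl fun i _ => ?_
    rw [map_sum]
    refine Finset.sum_congr rfl fun j _ => ?_
    rw [map_smul, smul_eq_mul]
  rw [this]
  exact Po.sum fun i _ => Po.sum fun j _ => Po.mul (Po.mul (hf _) (hg _)) (Po.const _)

end PoA

variable {A : Type} [NormedRing A] [NormedAlgebra ℝ A] [FiniteDimensional ℝ A] {ι : Type}
variable {e : ι → A} {r : ℕ} {P : Type} [NormedAddCommGroup P] [NormedSpace ℝ P]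

/-- polynomial family of elements of the curve group -/
def PFam (h : Nil e r) (g : P → A[X]ˣ) : Prop :=
  (∀ p, g p ∈ F h) ∧ ∀ k, PoA (fun p => (g p : A[X]).coeff k)

theorem PFam.mul {h : Nil e r} {g g' : P → A[X]ˣ} (hg : PFam h g) (hg' : PFam h g') :
    PFam h (fun p => g p * g' p) := by
  refine ⟨fun p => mul_mem (hg.1 p) (hg'.1 p), fun k => ?_⟩
  have : (fun p => ((g p * g' p : A[X]ˣ) : A[X]).coeff k) =
      fun p => ∑ x ∈ Finset.antidiagonal k, (g p : A[X]).coeff x.1 * (g' p : A[X]).coeff x.2 := by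
    funext p
    rw [Units.val_mul, Polynomial.coeff_mul]
  rw [this]
  exact PoA.sum fun x _ => PoA.mul (hg.2 _) (hg'.2 _)

theorem PFam.inv {h : Nil e r} {g : P → A[X]ˣ} (hg : PFam h g) : PFam h (fun p => (g p)⁻¹) := by
  refine ⟨fun p => inv_mem (hg.1 p), fun k => ?_⟩
  induction k using Nat.strong_induction_on with
  | _ k ih =>
    have e1 : ∀ p, (((g p)⁻¹ : A[X]ˣ) : A[X]).coeff k = (if k = 0 then 1 else 0) -
        ∑ x ∈ (Finset.antidiagonal k).erase (0, k),
          (g p : A[X]).coeff x.1 * (((g p)⁻¹ : A[X]ˣ) : A[X]).coeff x.2 := by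
      intro p
      have h1 : ((g p : A[X]) * (((g p)⁻¹ : A[X]ˣ) : A[X])).coeff k = if k = 0 then 1 else 0 := by
        rw [← Units.val_mul, mul_inv_cancel, Units.val_one, coeff_one]
      rw [Polynomial.coeff_mul, ← Finset.add_sum_erase _ _ (show (0, k) ∈ Finset.antidiagonal k by simp)]
        at h1
      have h2 : (g p : A[X]).coeff 0 = 1 := (F_Uo (hg.1 p)).coeff_zero one_pos
      simp only [h2, one_mul] at h1
      rw [← h1]
      abel
    have e2 : (fun p => (((g p)⁻¹ : A[X]ˣ) : A[X]).coeff k) = fun p => (if k = 0 then 1 else 0) -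
        ∑ x ∈ (Finset.antidiagonal k).erase (0, k),
          (g p : A[X]).coeff x.1 * (((g p)⁻¹ : A[X]ˣ) : A[X]).coeff x.2 := funext e1
    rw [e2]
    refine PoA.sub (PoA.const _) (PoA.sum fun x hx => ?_)
    rw [Finset.mem_erase, Finset.mem_antidiagonal] at hx
    have hx2 : x.2 < k := by
      by_contra h3
      apply hx.1
      ext
      · show x.1 = 0; omega
      · show x.2 = k; omega
    exact PoA.mul (hg.2 _) (ih x.2 hx2)

theorem PFam.const {h : Nil e r} {g : A[X]ˣ} (hg : g ∈ F h) : PFam h (fun _ : P => g) :=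
  ⟨fun _ => hg, fun _ => PoA.const _⟩

theorem PFam.lu (h : Nil e r) (i : ι) {x : P → ℝ} (hx : x ∈ Po P) :
    PFam h (fun p => H329.lu h i (x p)) := by
  refine ⟨fun p => lu_mem h i _, fun k => ?_⟩
  have : (fun p => ((H329.lu h i (x p) : A[X]ˣ) : A[X]).coeff k) =
      fun p => (x p ^ k) • ((if k < r + 1 then (k.factorial : ℝ)⁻¹ else 0) • e i ^ k) := by
    funext p
    rw [lu_val, lt_coeff]
    split_ifs
    · rw [smul_smul, mul_comm]
    · simp
  rw [this]
  exact PoA.smul (Po.pow hx k) _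

theorem PFam.ev (h : Nil e r) (l : List (Sym ι)) {s : P → List ι → ℝ}
    (hs : ∀ w, (fun p => s p w) ∈ Po P) : PFam h (fun p => H329.ev h l (s p)) := by
  induction l with
  | nil =>
    simp only [ev_nil]
    exact PFam.const (P := P) (one_mem (F h))
  | cons q l ih =>
    simp only [ev_cons]
    have h1 : (fun p => s p q.2.1) ∈ Po P := hs q.2.1
    have h2 : (fun p => q.2.2.1 * s p q.2.1) ∈ Po P := Po.mul (Po.const (P := P) q.2.2.1) h1
    have h3 : (fun p => q.2.2.1 * s p q.2.1 + q.2.2.2) ∈ Po P :=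
      Po.add h2 (Po.const (P := P) q.2.2.2)
    have h4 : PFam h (fun p => H329.lu h q.1 (Sym.val q (s p))) := PFam.lu h q.1 h3
    exact PFam.mul h4 ih

theorem PFam.cf {h : Nil e r} (f : Frame e) {g : P → A[X]ˣ} (hg : PFam h g) (j : ℕ) (w : List ι) :
    (fun p => f.κ w ((g p : A[X]).coeff j)) ∈ Po P := hg.2 j (f.κ w)

theorem PFam.peel {h : Nil e r} (f : Frame e) {g : P → A[X]ˣ} (hg : PFam h g) (j : ℕ) :
    PFam h (fun p => f.peel h j (g p)) := by
  induction j with
  | zero => exact hg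
  | succ j ih =>
    simp only [f.peel_succ]
    exact (PFam.ev h _ fun w => PFam.cf f ih _ w).inv.mul ih

theorem PFam.co {h : Nil e r} (f : Frame e) {g : P → A[X]ˣ} (hg : PFam h g) (w : List ι) :
    (fun p => f.co h (g p) w) ∈ Po P := PFam.cf f (PFam.peel f hg _) _ w

theorem PFam.cc {h : Nil e r} (f : Frame e) {g : P → A[X]ˣ} (hg : PFam h g) (w : f.β r) :
    (fun p => f.cc h (g p) w) ∈ Po P := PFam.co f hg w.1

theorem PFam.pr (h : Nil e r) {m : ℕ} (J : Fin m → ι) {x : P → Fin m → ℝ}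
    (hx : ∀ t, (fun p => x p t) ∈ Po P) : PFam h (fun p => H329.pr h J (x p)) := by
  induction m with
  | zero =>
    have : (fun p => H329.pr h J (x p)) = fun _ : P => (1 : A[X]ˣ) := by
      funext p
      simp [H329.pr]
    rw [this]
    exact PFam.const (one_mem (F h))
  | succ m ih =>
    have : (fun p => H329.pr h J (x p)) = fun p => H329.lu h (J 0) (x p 0) *
        H329.pr h (fun t => J t.succ) (fun t => x p t.succ) := by
      funext p
      simp [H329.pr, List.ofFn_succ]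
    rw [this]
    exact (PFam.lu h _ (hx 0)).mul (ih _ fun t => hx t.succ)

theorem po_coord {m : ℕ} (t : Fin m) : (fun x : Fin m → ℝ => x t) ∈ Po (Fin m → ℝ) :=
  Po.lin (ContinuousLinearMap.proj (R := ℝ) (φ := fun _ : Fin m => ℝ) t)

theorem pow_aux2 (M : ℝ) (α κ : ℕ) : ∃ K : ℕ, 1 ≤ K ∧ ∀ a u : ℝ, 1 ≤ a → 1 ≤ u →
    M * a ^ α * u ^ κ ≤ (K * a * u) ^ K := by
  obtain ⟨m, hm⟩ := exists_nat_ge M
  set K := max (max m 1) (max α κ) with hK
  have hK1 : 1 ≤ K := le_trans (le_max_right _ _) (le_max_left _ _)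
  have hKm : m ≤ K := le_trans (le_max_left _ _) (le_max_left _ _)
  have hKα : α ≤ K := le_trans (le_max_left _ _) (le_max_right _ _)
  have hKκ : κ ≤ K := le_trans (le_max_right _ _) (le_max_right _ _)
  refine ⟨K, hK1, fun a u ha hu => ?_⟩
  have hKr : (1 : ℝ) ≤ K := by exact_mod_cast hK1
  have h1 : M ≤ (K : ℝ) ^ K := by
    refine hm.trans ?_
    have h2 : (m : ℝ) ≤ K := by exact_mod_cast hKm
    exact h2.trans (le_self_pow₀ hKr (by omega))
  have h3 : a ^ α ≤ a ^ K := pow_le_pow_right₀ ha hKα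
  have h4 : u ^ κ ≤ u ^ K := pow_le_pow_right₀ hu hKκ
  have ha0 : 0 ≤ a := by linarith
  have hu0 : 0 ≤ u := by linarith
  rw [mul_pow, mul_pow]
  exact mul_le_mul (mul_le_mul h1 h3 (by positivity) (by positivity)) h4 (by positivity) (by positivity)

end Vale.Agent.P188.H329

end

section

/-!
# P188, FILL block, part 16: the packing bound with polynomial dependence
-/

set_option linter.all false

namespace Vale.Agent.P188.H329

open Polynomial Set MeasureTheory

variable {A : Type} [NormedRing A] [NormedAlgebra ℝ A] [FiniteDimensional ℝ A] {ι : Type}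
variable {e : ι → A} {r : ℕ} {P : Type} [NormedAddCommGroup P] [NormedSpace ℝ P]

/-- a common polynomial bound for finitely many polynomial functions -/
theorem common_bound {α : Type} [Fintype α] {f : α → P → ℝ} (hf : ∀ a, f a ∈ Po P) :
    ∃ K : ℕ, ∀ a x, |f a x| ≤ K * (1 + ‖x‖) ^ K := by
  choose k hk using fun a => Po.bound (hf a)
  refine ⟨Finset.univ.sup k, fun a x => (hk a x).trans ?_⟩
  have h1 : k a ≤ Finset.univ.sup k := Finset.le_sup (Finset.mem_univ a)
  have h2 : (1 : ℝ) ≤ 1 + ‖x‖ := by linarith [norm_nonneg x]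
  have h3 : (k a : ℝ) ≤ ((Finset.univ.sup k : ℕ) : ℝ) := by exact_mod_cast h1
  exact mul_le_mul h3 (pow_le_pow_right₀ h2 h1) (by positivity) (by positivity)

theorem po_fst {c m : ℕ} (t : Fin c) :
    (fun q : (Fin c → ℝ) × (Fin m → ℝ) => q.1 t) ∈ Po ((Fin c → ℝ) × (Fin m → ℝ)) :=
  Po.lin ((ContinuousLinearMap.proj (R := ℝ) (φ := fun _ : Fin c => ℝ) t).comp
    (ContinuousLinearMap.fst ℝ (Fin c → ℝ) (Fin m → ℝ)))

theorem po_snd {c m : ℕ} (t : Fin m) :
    (fun q : (Fin c → ℝ) × (Fin m → ℝ) => q.2 t) ∈ Po ((Fin c → ℝ) × (Fin m → ℝ)) :=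
  Po.lin ((ContinuousLinearMap.proj (R := ℝ) (φ := fun _ : Fin m => ℝ) t).comp
    (ContinuousLinearMap.snd ℝ (Fin c → ℝ) (Fin m → ℝ)))

theorem region_bound [Finite ι] (h : Nil e r) (f : Frame e) {m : ℕ} (J : Fin m → ι) (c : ℕ) :
    ∃ K2 : ℕ, ∀ (K : Fin c → ι) (w : f.β r) (y : Fin c → ℝ) (x : Fin m → ℝ),
      |f.cc h (pr h K y * pr h J x) w| ≤ K2 * (1 + ‖(y, x)‖) ^ K2 := by
  classical
  haveI : Fintype ι := Fintype.ofFinite ι
  have hΘp : ∀ a : (Fin c → ι) × f.β r, (fun q : (Fin c → ℝ) × (Fin m → ℝ) =>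
      f.cc h (pr h a.1 q.1 * pr h J q.2) a.2) ∈ Po ((Fin c → ℝ) × (Fin m → ℝ)) := by
    intro a
    exact PFam.cc f (PFam.mul (PFam.pr h a.1 fun t => po_fst t) (PFam.pr h J fun t => po_snd t)) a.2
  obtain ⟨K2, hK2⟩ := common_bound hΘp
  exact ⟨K2, fun K w y x => hK2 (K, w) (y, x)⟩

theorem exists_section (h : Nil e r) (f : Frame e) :
    ∃ (L : (f.β r → ℝ) →L[ℝ] (Fin (f.T r).length → ℝ)) (x0 : Fin (f.T r).length → ℝ),
      ∀ s, f.cc h (pr h (fun t => ((f.T r).get t).1) (x0 + L s)) = s := by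
  classical
  set l0 := f.T r with hl0
  set J : Fin l0.length → ι := fun t => (l0.get t).1 with hJ
  refine ⟨ContinuousLinearMap.pi fun t =>
    if hw : (l0.get t).2.1 ∈ f.bb r then
      (l0.get t).2.2.1 • ContinuousLinearMap.proj (R := ℝ) (φ := fun _ : f.β r => ℝ)
        ⟨(l0.get t).2.1, hw⟩ else 0, fun t => (l0.get t).2.2.2, fun s => ?_⟩
  set L : (f.β r → ℝ) →L[ℝ] (Fin l0.length → ℝ) := ContinuousLinearMap.pi fun t =>
    if hw : (l0.get t).2.1 ∈ f.bb r then
      (l0.get t).2.2.1 • ContinuousLinearMap.proj (R := ℝ) (φ := fun _ : f.β r => ℝ)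
        ⟨(l0.get t).2.1, hw⟩ else 0 with hL
  have h1 : ((fun t => (l0.get t).2.2.2) + L s : Fin l0.length → ℝ) =
      fun t => Sym.val (l0.get t) (f.ext s) := by
    funext t
    show (l0.get t).2.2.2 + L s t = _
    unfold Sym.val
    rw [add_comm]
    congr 1
    rw [hL, ContinuousLinearMap.pi_apply]
    unfold Frame.ext
    by_cases hw : (l0.get t).2.1 ∈ f.bb r
    · rw [dif_pos hw, dif_pos hw]
      rfl
    · rw [dif_neg hw, dif_neg hw]
      simp
  rw [h1]
  have h2 := ev_eq_pr h l0 (f.ext s)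
  rw [← h2]
  exact f.cc_ch h s

/-- The packing bound, polynomial version. -/
theorem packQ (h : Nil e r) [Finite ι] : ∃ (n : ℕ) (J : Fin n → ι), ∀ c : ℕ, ∃ K : ℕ, 1 ≤ K ∧
    ∀ ε : ℝ, 0 < ε → ε ≤ 1 → ∀ C : ℝ, 0 ≤ C → ∀ (N : ℕ) (p : Fin N → (Fin c → ι) × (Fin c → ℝ))
      (X : Fin N → Set (Fin n → ℝ)), (∀ l t, |(p l).2 t| ≤ C) → (∀ l, MeasurableSet (X l)) →
      (∀ l, X l ⊆ Icc (fun _ => -1) (fun _ => 1)) → (∀ l, ENNReal.ofReal ε ≤ volume (X l)) →
      (∀ l l', l ≠ l' → ∀ x ∈ X l, ∀ x' ∈ X l',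
        pr h (p l).1 (p l).2 * pr h J x ≠ pr h (p l').1 (p l').2 * pr h J x') →
      (N : ℝ) ≤ (K * (1 + C) / ε) ^ K := by
  classical
  obtain ⟨f⟩ := exists_frame e
  haveI : Fintype ι := Fintype.ofFinite ι
  set l0 := f.T r with hl0
  refine ⟨l0.length, fun t => (l0.get t).1, ?_⟩
  set J : Fin l0.length → ι := fun t => (l0.get t).1 with hJ
  set Ψ : (Fin l0.length → ℝ) → (f.β r → ℝ) := fun x => f.cc h (pr h J x) with hΨ
  have hΨp : ∀ w, (fun x => Ψ x w) ∈ Po (Fin l0.length → ℝ) := fun w =>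
    PFam.cc f (PFam.pr h J fun t => po_coord t) w
  have hΨc : Continuous Ψ := continuous_pi fun w => Po.continuous (hΨp w)
  obtain ⟨L, x0, hsec⟩ : ∃ (L : (f.β r → ℝ) →L[ℝ] (Fin l0.length → ℝ)) (x0 : Fin l0.length → ℝ),
      ∀ s, Ψ (x0 + L s) = s := exists_section h f
  set Q : Set (Fin l0.length → ℝ) := Icc (fun _ => -1) (fun _ => 1) with hQ
  have hQc : IsCompact Q := isCompact_Icc
  have hQ1 : volume Q ≠ ⊤ := hQc.measure_lt_top.ne
  obtain ⟨K1, hK1, hqac⟩ := qac volume hΨp L x0 hsec hQc.isBounded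
  intro c
  obtain ⟨K2, hK2⟩ := region_bound h f J c
  set d := Fintype.card (f.β r) with hd
  obtain ⟨K, hK, hKb⟩ := pow_aux2 ((2 * K2 * 2 ^ K2) ^ d * (2 * K1) ^ K1) (K2 * d) K1
  refine ⟨K, hK, fun ε hε hε1 C hC N p X hp hXm hXQ hXε hdis => ?_⟩
  -- compact subsets
  have hKex : ∀ l, ∃ K ⊆ X l, IsCompact K ∧ ENNReal.ofReal (ε / 2) < volume K := by
    intro l
    have h1 : ENNReal.ofReal (ε / 2) < volume (X l) :=
      lt_of_lt_of_le ((ENNReal.ofReal_lt_ofReal_iff hε).2 (by linarith)) (hXε l)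
    exact (hXm l).exists_lt_isCompact h1
  choose Kc hKX hKc hKε using hKex
  set E : Fin N → Set (f.β r → ℝ) := fun l => Ψ '' Kc l with hE
  have hEc : ∀ l, IsCompact (E l) := fun l => (hKc l).image hΨc
  have hEm : ∀ l, MeasurableSet (E l) := fun l => (hEc l).measurableSet
  have hEδ : ∀ l, ENNReal.ofReal ((ε / 2 / K1) ^ K1) ≤ volume (E l) := fun l =>
    hqac (ε / 2) (by positivity) (by linarith) (Kc l) ((hKX l).trans (hXQ l))
      (hKc l).measurableSet (hKε l).le
  set g : Fin N → A[X]ˣ := fun l => pr h (p l).1 (p l).2 with hg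
  have hgm : ∀ l, g l ∈ F h := fun l => pr_mem h _ _
  set G : Fin N → Set (f.β r → ℝ) := fun l => f.tr h (g l)⁻¹ ⁻¹' E l with hG
  have hGm : ∀ l, MeasurableSet (G l) := fun l =>
    (f.tr_continuous h (inv_mem (hgm l))).measurable (hEm l)
  have hGv : ∀ l, volume (G l) = volume (E l) := fun l =>
    (f.tr_mp h (inv_mem (hgm l))).measure_preimage (hEm l).nullMeasurableSet
  have hGmem : ∀ l s, s ∈ G l → ∃ x ∈ Kc l, f.ch h s = g l * pr h J x := by
    intro l s hs
    obtain ⟨x, hx, hxs⟩ := hs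
    refine ⟨x, hx, ?_⟩
    have h1 : f.ch h (f.tr h (g l)⁻¹ s) = (g l)⁻¹ * f.ch h s := f.ch_tr h (inv_mem (hgm l)) s
    rw [← hxs] at h1
    have h2 : f.ch h (Ψ x) = pr h J x := f.ch_cc h (pr_mem h J x)
    rw [h2] at h1
    rw [h1, mul_inv_cancel_left]
  set R : ℝ := K2 * (2 + C) ^ K2 with hR
  have hR0 : 0 ≤ R := by positivity
  have hGΩ : ∀ l, G l ⊆ Metric.closedBall 0 R := by
    intro l s hs
    obtain ⟨x, hx, hxs⟩ := hGmem l s hs
    rw [mem_closedBall_zero_iff, pi_norm_le_iff_of_nonneg hR0]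
    intro w
    have h1 := hK2 (p l).1 w (p l).2 x
    have h2 : f.cc h (pr h (p l).1 (p l).2 * pr h J x) = s := by
      have : g l * pr h J x = f.ch h s := hxs.symm
      show f.cc h (g l * pr h J x) = s
      rw [this, f.cc_ch]
    rw [h2] at h1
    rw [Real.norm_eq_abs]
    refine h1.trans ?_
    have h3 : ‖((p l).2, x)‖ ≤ 1 + C := by
      rw [Prod.norm_def]
      refine max_le ?_ ?_
      · rw [pi_norm_le_iff_of_nonneg (by linarith)]
        intro t
        rw [Real.norm_eq_abs]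
        linarith [hp l t]
      · rw [pi_norm_le_iff_of_nonneg (by linarith)]
        intro t
        have h4 := hXQ l (hKX l hx)
        rw [Real.norm_eq_abs]
        have : |x t| ≤ 1 := abs_le.2 ⟨h4.1 t, h4.2 t⟩
        linarith
    have h5 : 1 + ‖((p l).2, x)‖ ≤ 2 + C := by linarith
    rw [hR]
    gcongr
  have hGd : Pairwise (Function.onFun Disjoint G) := by
    intro l l' hll
    show Disjoint (G l) (G l')
    rw [Set.disjoint_left]
    intro s hs hs'
    obtain ⟨x, hx, hxs⟩ := hGmem l s hs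
    obtain ⟨x', hx', hxs'⟩ := hGmem l' s hs'
    exact hdis l l' hll x (hKX l hx) x' (hKX l' hx') (by
      show g l * pr h J x = g l' * pr h J x'
      rw [← hxs, ← hxs'])
  set v : ℝ := (ε / 2 / K1) ^ K1 with hv
  have hK1p : (0 : ℝ) < K1 := by exact_mod_cast hK1
  have hvp : 0 < v := by positivity
  have hsum : ENNReal.ofReal (N * v) ≤ ENNReal.ofReal ((2 * R) ^ d) := by
    calc ENNReal.ofReal (N * v) = ∑ _l : Fin N, ENNReal.ofReal v := by
          rw [Finset.sum_const, Finset.card_univ, Fintype.card_fin, nsmul_eq_mul,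
            ENNReal.ofReal_mul (Nat.cast_nonneg N), ENNReal.ofReal_natCast]
      _ ≤ ∑ l : Fin N, volume (G l) := by
          refine Finset.sum_le_sum fun l _ => ?_
          rw [hGv l]
          exact hEδ l
      _ = volume (⋃ l, G l) := by
          rw [measure_iUnion hGd hGm, tsum_fintype]
      _ ≤ volume (Metric.closedBall (0 : f.β r → ℝ) R) := measure_mono (iUnion_subset hGΩ)
      _ = _ := by rw [Real.volume_pi_closedBall _ hR0]
  have hsum' : N * v ≤ (2 * R) ^ d := (ENNReal.ofReal_le_ofReal_iff (by positivity)).1 hsum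
  have h7 : (N : ℝ) ≤ (2 * R) ^ d / v := by
    rw [le_div_iff₀ hvp]
    exact hsum'
  refine h7.trans ?_
  have h8 := hKb (1 + C) (1 / ε) (by linarith) (by rw [le_div_iff₀ hε]; linarith)
  have h9 : K * (1 + C) * (1 / ε) = K * (1 + C) / ε := by ring
  rw [h9] at h8
  refine le_trans ?_ h8
  have h10 : 2 * R ≤ (2 * K2 * 2 ^ K2) * (1 + C) ^ K2 := by
    rw [hR]
    have : (2 + C) ^ K2 ≤ (2 * (1 + C)) ^ K2 := by
      gcongr
      linarith
    rw [mul_pow] at this
    calc 2 * (K2 * (2 + C) ^ K2) ≤ 2 * (K2 * (2 ^ K2 * (1 + C) ^ K2)) := by gcongr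
      _ = _ := by ring
  have h11 : (2 * R) ^ d ≤ ((2 * K2 * 2 ^ K2) * (1 + C) ^ K2) ^ d :=
    pow_le_pow_left₀ (by positivity) h10 d
  have h12 : v⁻¹ = (2 * K1) ^ K1 * (1 / ε) ^ K1 := by
    rw [hv, ← inv_pow, ← mul_pow]
    congr 1
    field_simp
  rw [div_eq_mul_inv, h12]
  calc (2 * R) ^ d * ((2 * K1) ^ K1 * (1 / ε) ^ K1) ≤
      ((2 * K2 * 2 ^ K2) * (1 + C) ^ K2) ^ d * ((2 * K1) ^ K1 * (1 / ε) ^ K1) := by gcongr
    _ = _ := by rw [mul_pow _ ((1 + C) ^ K2), ← pow_mul]; ring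

/-- The polynomial packing bound for every family of letters satisfying the universal relations. -/
theorem packQS (ι : Type) [Finite ι] (r : ℕ) : ∃ (n : ℕ) (J : Fin n → ι), ∀ c : ℕ, ∃ K : ℕ, 1 ≤ K ∧
    ∀ ε : ℝ, 0 < ε → ε ≤ 1 → ∀ C : ℝ, 0 ≤ C → ∀ (S : Type) [Monoid S] (s : ι → ℝ → S), Rel ι r s →
      ∀ (N : ℕ) (p : Fin N → (Fin c → ι) × (Fin c → ℝ))
      (X : Fin N → Set (Fin n → ℝ)), (∀ l t, |(p l).2 t| ≤ C) → (∀ l, MeasurableSet (X l)) →
      (∀ l, X l ⊆ Icc (fun _ => -1) (fun _ => 1)) → (∀ l, ENNReal.ofReal ε ≤ volume (X l)) →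
      (∀ l l', l ≠ l' → ∀ x ∈ X l, ∀ x' ∈ X l',
        prS s (p l).1 (p l).2 * prS s J x ≠ prS s (p l').1 (p l').2 * prS s J x') →
      (N : ℝ) ≤ (K * (1 + C) / ε) ^ K := by
  obtain ⟨n, J, H⟩ := packQ (uNil ι r)
  refine ⟨n, J, fun c => ?_⟩
  obtain ⟨K, hK, hKb⟩ := H c
  refine ⟨K, hK, fun ε hε hε1 C hC S _ s hs N p X h1 h2 h3 h4 h5 =>
    hKb ε hε hε1 C hC N p X h1 h2 h3 h4 ?_⟩
  intro l l' hll x hx x' hx' heq
  refine h5 l l' hll x hx x' hx' ?_
  rw [prS_eq_wd, prS_eq_wd, prS_eq_wd, prS_eq_wd, ← wd_append, ← wd_append]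
  refine hs _ _ ?_
  rw [wd_append, wd_append, ← pr_eq_wd, ← pr_eq_wd, ← pr_eq_wd, ← pr_eq_wd]
  exact heq

/-- From packing to few components. -/
theorem fill_core {ι S : Type} [Group S] [MeasurableSpace S] {s : ι → ℝ → S}
    (hinv : ∀ i x, s i x * s i (-x) = 1) (hm : ∀ i, Measurable fun q : S × ℝ => q.1 * s i q.2)
    {G : Set S} (hG : MeasurableSet G) {θ : ENNReal} (hθ : θ ≠ 0)
    (hwin : ∀ z ∈ G, ∀ i, θ ≤ win s i G z) {n : ℕ} (J : Fin n → ι) {c : ℕ} {C : ℝ} {N0 : ℕ}
    (hN0 : ∀ (N : ℕ) (p : Fin N → (Fin c → ι) × (Fin c → ℝ))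
      (X : Fin N → Set (Fin n → ℝ)), (∀ l t, |(p l).2 t| ≤ C) → (∀ l, MeasurableSet (X l)) →
      (∀ l, X l ⊆ Icc (fun _ => -1) (fun _ => 1)) → (∀ l, θ ^ n ≤ volume (X l)) →
      (∀ l l', l ≠ l' → ∀ x ∈ X l, ∀ x' ∈ X l',
        prS s (p l).1 (p l).2 * prS s J x ≠ prS s (p l').1 (p l').2 * prS s J x') → N ≤ N0)
    (z0 : S) : ∃ T : Finset S, T.card ≤ N0 ∧ (∀ t ∈ T, t ∈ G ∧ InP s c C z0 t) ∧
      ∀ z ∈ G, InP s c C z0 z → ∃ t ∈ T, Reach s G (n + n) z t := by
  classical
  -- the bound for separated sets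
  have hsep : ∀ T : Finset S, (∀ t ∈ T, t ∈ G ∧ InP s c C z0 t) →
      (∀ t ∈ T, ∀ t' ∈ T, t ≠ t' → ¬ Reach s G (n + n) t t') → T.card ≤ N0 := by
    intro T hT hT2
    have hex : ∀ l : Fin T.card, ∃ q : (Fin c → ι) × (Fin c → ℝ), (∀ t, |q.2 t| ≤ C) ∧
        (T.equivFin.symm l : S) = z0 * prS s q.1 q.2 := by
      intro l
      obtain ⟨K, y, h1, h2⟩ := (hT _ (T.equivFin.symm l).2).2
      exact ⟨(K, y), h1, h2⟩
    choose p hp1 hp2 using hex
    refine hN0 T.card p (fun l => ch s G n J (T.equivFin.symm l : S)) hp1 ?_ ?_ ?_ ?_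
    · intro l
      exact measurable_prodMk_left (ch_measurable hm hG n J)
    · intro l
      exact ch_subset s G n J _
    · intro l
      exact ch_volume hm hG hwin n J (hT _ (T.equivFin.symm l).2).1
    · intro l l' hll x hx x' hx' heq
      have h1 := ch_reach s G n J _ hx
      have h2 := ch_reach s G n J _ hx'
      have h3 : (T.equivFin.symm l : S) * prS s J x = (T.equivFin.symm l' : S) * prS s J x' := by
        rw [hp2 l, hp2 l', mul_assoc, mul_assoc, heq]
      rw [h3] at h1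
      have h4 : (T.equivFin.symm l : S) ≠ (T.equivFin.symm l' : S) := by
        intro h5
        exact hll (T.equivFin.symm.injective (Subtype.ext h5))
      exact hT2 _ (T.equivFin.symm l).2 _ (T.equivFin.symm l').2 h4
        (h1.trans (h2.symm hinv))
  -- a maximal separated set
  let Q : ℕ → Prop := fun k => ∃ T : Finset S, T.card = k ∧ (∀ t ∈ T, t ∈ G ∧ InP s c C z0 t) ∧
    ∀ t ∈ T, ∀ t' ∈ T, t ≠ t' → ¬ Reach s G (n + n) t t'
  have hQ0 : Q 0 := ⟨∅, rfl, by simp, by simp⟩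
  obtain ⟨T, hTc, hT1, hT2⟩ := Nat.findGreatest_spec (P := Q) (Nat.zero_le N0) hQ0
  refine ⟨T, hsep T hT1 hT2, hT1, fun z hz hzP => ?_⟩
  by_contra hno0
  have hno : ∀ t ∈ T, ¬ Reach s G (n + n) z t := fun t ht h => hno0 ⟨t, ht, h⟩
  have hzT : z ∉ T := by
    intro h1
    refine hno z h1 ?_
    obtain ⟨x, hx⟩ : (ch s G n J z).Nonempty := by
      rw [nonempty_iff_ne_empty]
      intro h2
      have h3 := ch_volume hm hG hwin n J hz
      rw [h2, measure_empty] at h3
      exact pow_ne_zero n hθ (le_antisymm h3 zero_le')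
    have h4 := ch_reach s G n J z hx
    exact h4.trans (h4.symm hinv)
  have h5 : (insert z T).card = T.card + 1 := Finset.card_insert_of_notMem hzT
  have h6 : ∀ t ∈ insert z T, t ∈ G ∧ InP s c C z0 t := by
    intro t ht
    rcases Finset.mem_insert.1 ht with rfl | ht
    · exact ⟨hz, hzP⟩
    · exact hT1 t ht
  have h7 : ∀ t ∈ insert z T, ∀ t' ∈ insert z T, t ≠ t' → ¬ Reach s G (n + n) t t' := by
    intro t ht t' ht' hne
    rcases Finset.mem_insert.1 ht with h8 | h8
    · rcases Finset.mem_insert.1 ht' with h9 | h9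
      · exact absurd (h8.trans h9.symm) hne
      · rw [h8]
        exact hno t' h9
    · rcases Finset.mem_insert.1 ht' with h9 | h9
      · rw [h9]
        intro h10
        exact hno t h8 (h10.symm hinv)
      · exact hT2 t h8 t' h9 hne
  have h8 : (insert z T).card ≤ N0 := hsep _ h6 h7
  have h9 := Nat.le_findGreatest (P := Q) h8 ⟨insert z T, rfl, h6, h7⟩
  omega

/-- **FILL with polynomial dependence.** The number of components of a clean set (window density at
least `θ`) in a box `z0 · P_c(C)` is at most `(K (1 + C) / θ) ^ K`, where `K` depends only on the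
number of letters, the class and `c`. -/
theorem fillQ (ι : Type) [Finite ι] (r : ℕ) : ∃ n : ℕ, ∀ c : ℕ, ∃ K : ℕ, 1 ≤ K ∧
    ∀ θ : ℝ, 0 < θ → θ ≤ 1 → ∀ C : ℝ, 0 ≤ C →
      ∀ (S : Type) [Group S] [MeasurableSpace S] (s : ι → ℝ → S), Rel ι r s →
      (∀ i, Measurable fun q : S × ℝ => q.1 * s i q.2) →
      ∀ G : Set S, MeasurableSet G → (∀ z ∈ G, ∀ i, ENNReal.ofReal θ ≤ win s i G z) → ∀ z0 : S,
        ∃ T : Finset S, (T.card : ℝ) ≤ (K * (1 + C) / θ) ^ K ∧
          (∀ t ∈ T, t ∈ G ∧ InP s c C z0 t) ∧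
          ∀ z ∈ G, InP s c C z0 z → ∃ t ∈ T, Reach s G (n + n) z t := by
  obtain ⟨n, J, H⟩ := packQS ι r
  refine ⟨n, fun c => ?_⟩
  obtain ⟨K1, hK1, hK1b⟩ := H c
  obtain ⟨K, hK, hKb⟩ := pow_aux2 ((K1 : ℝ) ^ K1) K1 (n * K1)
  refine ⟨K, hK, fun θ hθ hθ1 C hC S _ _ s hs hm G hG hwin z0 => ?_⟩
  have hinv : ∀ i x, s i x * s i (-x) = 1 := by
    intro i x
    rw [← hs.add, add_neg_cancel, hs.zero]
  set V : ℝ := (K1 * (1 + C) / θ ^ n) ^ K1 with hV
  obtain ⟨T, hT1, hT2, hT3⟩ := fill_core hinv hm hG (θ := ENNReal.ofReal θ)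
    (by rw [ne_eq, ENNReal.ofReal_eq_zero, not_le]; exact hθ) hwin J (c := c) (C := C)
    (N0 := ⌊V⌋₊) (fun N p X h1 h2 h3 h4 h5 => by
      refine Nat.le_floor ?_
      refine hK1b (θ ^ n) (by positivity) (pow_le_one₀ hθ.le hθ1) C hC S s hs N p X h1 h2 h3 ?_ h5
      intro l
      rw [ENNReal.ofReal_pow hθ.le]
      exact h4 l) z0
  refine ⟨T, ?_, hT2, hT3⟩
  have hV0 : 0 ≤ V := by positivity
  have h1 : (T.card : ℝ) ≤ V := by
    refine le_trans ?_ (Nat.floor_le hV0)
    exact_mod_cast hT1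
  refine h1.trans ?_
  have h8 := hKb (1 + C) (1 / θ) (by linarith) (by rw [le_div_iff₀ hθ]; linarith)
  have h9 : K * (1 + C) * (1 / θ) = K * (1 + C) / θ := by ring
  rw [h9] at h8
  refine le_trans (le_of_eq ?_) h8
  rw [hV, div_pow, mul_pow, ← pow_mul, one_div, inv_pow, div_eq_mul_inv]

end Vale.Agent.P188.H329

end

section

/-!
# P188, FILL block, part 19: bounded generation with polynomial control
-/

set_option linter.all false

namespace Vale.Agent.P188.H329

open Polynomial Finset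

/-! ### the relation between the universal algebra and a given algebra -/

section rel

variable {ι : Type} [Finite ι] {r : ℕ} {A : Type} [Ring A] [Algebra ℝ A]

/-- `a` acts on the vacuum like `b` -/
def Rr (e : ι → A) (r : ℕ) (a : UA ι r) (b : A) : Prop := ∀ M : UA ι r, La e r (a * M) = b * La e r M

theorem Rr.unique {e : ι → A} {a : UA ι r} {b b' : A} (h : Rr e r a b) (h' : Rr e r a b') : b = b' := by
  have h1 := h 1
  have h2 := h' 1
  rw [h1, La_one, mul_one, mul_one] at h2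
  exact h2

theorem Rr.gen {e : ι → A} (h : Nil e r) (i : ι) : Rr e r (uE ι r i) (e i) := fun M => La_mul h i M

theorem Rr.one (e : ι → A) : Rr e r (1 : UA ι r) 1 := fun M => by rw [one_mul, one_mul]

theorem Rr.zero (e : ι → A) : Rr e r (0 : UA ι r) 0 := fun M => by rw [zero_mul, zero_mul, map_zero]

theorem Rr.add {e : ι → A} {a a' : UA ι r} {b b' : A} (h : Rr e r a b) (h' : Rr e r a' b') :
    Rr e r (a + a') (b + b') := fun M => by rw [add_mul, add_mul, map_add, h M, h' M]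

theorem Rr.sub {e : ι → A} {a a' : UA ι r} {b b' : A} (h : Rr e r a b) (h' : Rr e r a' b') :
    Rr e r (a - a') (b - b') := fun M => by rw [sub_mul, sub_mul, map_sub, h M, h' M]

theorem Rr.mul {e : ι → A} {a a' : UA ι r} {b b' : A} (h : Rr e r a b) (h' : Rr e r a' b') :
    Rr e r (a * a') (b * b') := fun M => by rw [mul_assoc, h, h' M, mul_assoc]

theorem Rr.smul {e : ι → A} {a : UA ι r} {b : A} (h : Rr e r a b) (c : ℝ) :
    Rr e r (c • a) (c • b) := fun M => by rw [smul_mul_assoc, map_smul, h M, smul_mul_assoc]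

theorem Rr.sum {e : ι → A} {α : Type} {s : Finset α} {a : α → UA ι r} {b : α → A}
    (h : ∀ k ∈ s, Rr e r (a k) (b k)) : Rr e r (∑ k ∈ s, a k) (∑ k ∈ s, b k) := by
  intro M
  rw [Finset.sum_mul, Finset.sum_mul, map_sum]
  exact Finset.sum_congr rfl fun k hk => h k hk M

theorem Rr.pow {e : ι → A} {a : UA ι r} {b : A} (h : Rr e r a b) (n : ℕ) :
    Rr e r (a ^ n) (b ^ n) := by
  induction n with
  | zero => rw [pow_zero, pow_zero]; exact Rr.one e
  | succ n ih => rw [pow_succ, pow_succ]; exact ih.mul h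

theorem Rr.br {e : ι → A} (h : Nil e r) (w : List ι) : Rr e r (H329.br (uE ι r) w) (H329.br e w) := by
  induction w with
  | nil => exact Rr.zero e
  | cons i w ih =>
    cases w with
    | nil => exact Rr.gen h i
    | cons j w => exact ((Rr.gen h i).mul ih).sub (ih.mul (Rr.gen h i))

/-- coefficientwise relation -/
def RP (e : ι → A) (r : ℕ) (p : (UA ι r)[X]) (q : A[X]) : Prop := ∀ k, Rr e r (p.coeff k) (q.coeff k)

theorem RP.unique {e : ι → A} {p : (UA ι r)[X]} {q q' : A[X]} (h : RP e r p q) (h' : RP e r p q') :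
    q = q' := by
  ext k
  exact (h k).unique (h' k)

theorem RP.mul {e : ι → A} {p p' : (UA ι r)[X]} {q q' : A[X]} (h : RP e r p q) (h' : RP e r p' q') :
    RP e r (p * p') (q * q') := by
  intro k
  rw [Polynomial.coeff_mul, Polynomial.coeff_mul]
  exact Rr.sum fun x _ => (h x.1).mul (h' x.2)

theorem RP.one (e : ι → A) : RP e r (1 : (UA ι r)[X]) 1 := by
  intro k
  rw [coeff_one, coeff_one]
  split_ifs
  · exact Rr.one e
  · exact Rr.zero e

theorem RP.pow {e : ι → A} {p : (UA ι r)[X]} {q : A[X]} (h : RP e r p q) (n : ℕ) :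
    RP e r (p ^ n) (q ^ n) := by
  induction n with
  | zero => rw [pow_zero, pow_zero]; exact RP.one e
  | succ n ih => rw [pow_succ, pow_succ]; exact ih.mul h

theorem RP.smul {e : ι → A} {p : (UA ι r)[X]} {q : A[X]} (h : RP e r p q) (c : ℝ) :
    RP e r (c • p) (c • q) := by
  intro k
  rw [coeff_smul, coeff_smul]
  exact (h k).smul c

theorem RP.sum {e : ι → A} {α : Type} {s : Finset α} {p : α → (UA ι r)[X]} {q : α → A[X]}
    (h : ∀ k ∈ s, RP e r (p k) (q k)) : RP e r (∑ k ∈ s, p k) (∑ k ∈ s, q k) := by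
  intro k
  rw [finset_sum_coeff, finset_sum_coeff]
  exact Rr.sum fun a ha => h a ha k

theorem RP.monomial {e : ι → A} (n : ℕ) {a : UA ι r} {b : A} (h : Rr e r a b) :
    RP e r (Polynomial.monomial n a) (Polynomial.monomial n b) := by
  intro k
  rw [coeff_monomial, coeff_monomial]
  split_ifs
  · exact h
  · exact Rr.zero e

theorem RP.rexp {e : ι → A} {p : (UA ι r)[X]} {q : A[X]} (h : RP e r p q) (n : ℕ) :
    RP e r (H329.rexp n p) (H329.rexp n q) := by
  unfold H329.rexp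
  exact RP.sum fun k _ => (h.pow k).smul _

theorem RP.lt {e : ι → A} (h : Nil e r) (i : ι) (x : ℝ) :
    RP e r (H329.lt (uE ι r) r i x) (H329.lt e r i x) := by
  unfold H329.lt mon
  exact (RP.monomial 1 ((Rr.gen h i).smul x)).rexp _

theorem RP.wd {e : ι → A} (h : Nil e r) (l : List (ι × ℝ)) :
    RP e r ((H329.wd (lu (uNil ι r)) l : (UA ι r)[X]ˣ) : (UA ι r)[X])
      ((H329.wd (lu h) l : A[X]ˣ) : A[X]) := by
  induction l with
  | nil => exact RP.one e
  | cons q l ih =>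
    have e1 : H329.wd (lu (uNil ι r)) (q :: l) = lu (uNil ι r) q.1 q.2 * H329.wd (lu (uNil ι r)) l := by
      simp [H329.wd]
    have e2 : H329.wd (lu h) (q :: l) = lu h q.1 q.2 * H329.wd (lu h) l := by
      simp [H329.wd]
    rw [e1, e2, Units.val_mul, Units.val_mul]
    exact (RP.lt h q.1 q.2).mul ih

end rel

/-! ### Lie elements with parameters -/

section lie

variable {ι : Type} [Finite ι] {A : Type} [Ring A] [Algebra ℝ A]

/-- the curve `∑ y_w X^{|w|} br w` -/
noncomputable def lc (e : ι → A) (r : ℕ) (y : UW ι r → ℝ) : A[X] :=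
  ∑ w : UW ι r, monomial w.val.length (y w • br e w.val)

theorem lc_mem (e : ι → A) (r : ℕ) (y : UW ι r → ℝ) : lc e r y ∈ LayP e := by
  unfold lc
  refine Submodule.sum_mem _ fun w _ => fun k => ?_
  rw [coeff_monomial]
  split_ifs with hk
  · rw [← hk]
    exact Submodule.smul_mem _ _ (br_mem e w.val)
  · exact Submodule.zero_mem _

theorem RP.lc {e : ι → A} {r : ℕ} (h : Nil e r) (y : UW ι r → ℝ) :
    RP e r (H329.lc (uE ι r) r y) (H329.lc e r y) := by
  unfold H329.lc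
  exact RP.sum fun w _ => RP.monomial _ ((Rr.br h w.val).smul (y w))

theorem ev1_smul (c : ℝ) (p : A[X]) : ev1 A (c • p) = c • ev1 A p := by
  have h1 : c • p = C (algebraMap ℝ A c) * p := by
    ext k
    rw [coeff_smul, coeff_C_mul, Algebra.smul_def]
  have h2 : ev1 A (C (algebraMap ℝ A c)) = algebraMap ℝ A c := by
    show eval₂ (RingHom.id A) 1 (C _) = _
    rw [eval₂_C, RingHom.id_apply]
  rw [h1, map_mul, h2, Algebra.smul_def]

theorem ev1_monomial (n : ℕ) (a : A) : ev1 A (monomial n a) = a := by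
  show eval₂ (RingHom.id A) 1 (monomial n a) = a
  rw [eval₂_monomial, one_pow, mul_one, RingHom.id_apply]

theorem ev1_rexp (n : ℕ) (p : A[X]) : ev1 A (rexp n p) = rexp n (ev1 A p) := by
  unfold rexp
  rw [map_sum]
  refine Finset.sum_congr rfl fun k _ => ?_
  rw [ev1_smul, map_pow]

theorem ev1_lc (e : ι → A) (r : ℕ) (y : UW ι r → ℝ) :
    ev1 A (lc e r y) = ∑ w : UW ι r, y w • br e w.val := by
  unfold lc
  rw [map_sum]
  exact Finset.sum_congr rfl fun w _ => ev1_monomial _ _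

end lie

/-! ### the polynomial family `exp (lc y)` -/

section fam

variable {ι : Type} [Finite ι] {A : Type} [NormedRing A] [NormedAlgebra ℝ A] [FiniteDimensional ℝ A]
variable {P : Type} [NormedAddCommGroup P] [NormedSpace ℝ P]

/-- curves depending polynomially on a parameter -/
def PoP (p : P → A[X]) : Prop := ∀ k, PoA (fun x => (p x).coeff k)

theorem PoP.mul {p q : P → A[X]} (hp : PoP p) (hq : PoP q) : PoP (fun x => p x * q x) := by
  intro k
  have : (fun x => (p x * q x).coeff k) =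
      fun x => ∑ a ∈ Finset.antidiagonal k, (p x).coeff a.1 * (q x).coeff a.2 := by
    funext x
    rw [Polynomial.coeff_mul]
  rw [this]
  exact PoA.sum fun a _ => PoA.mul (hp _) (hq _)

theorem PoP.pow {p : P → A[X]} (hp : PoP p) (n : ℕ) : PoP (fun x => p x ^ n) := by
  induction n with
  | zero =>
    intro k
    simp only [pow_zero]
    exact PoA.const _
  | succ n ih =>
    simp only [pow_succ]
    exact ih.mul hp

theorem PoP.rexp {p : P → A[X]} (hp : PoP p) (n : ℕ) : PoP (fun x => H329.rexp n (p x)) := by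
  intro k
  have : (fun x => (H329.rexp n (p x)).coeff k) =
      fun x => ∑ j ∈ range n, ((j.factorial : ℝ)⁻¹) • ((p x) ^ j).coeff k := by
    funext x
    unfold H329.rexp
    rw [finset_sum_coeff]
    exact Finset.sum_congr rfl fun j _ => coeff_smul _ _ _
  rw [this]
  refine PoA.sum fun j _ => ?_
  intro φ
  have h1 := hp.pow j k φ
  have h2 : (fun x => φ (((j.factorial : ℝ)⁻¹) • ((p x) ^ j).coeff k)) =
      fun x => ((j.factorial : ℝ)⁻¹) * φ (((p x) ^ j).coeff k) := by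
    funext x
    rw [map_smul, smul_eq_mul]
  rw [h2]
  exact Po.mul (Po.const _) h1

theorem PoP.lc (e : ι → A) (r : ℕ) : PoP (fun y : UW ι r → ℝ => H329.lc e r y) := by
  intro k
  have : (fun y : UW ι r → ℝ => (H329.lc e r y).coeff k) =
      fun y => ∑ w : UW ι r, y w • (if w.val.length = k then br e w.val else 0) := by
    funext y
    unfold H329.lc
    rw [finset_sum_coeff]
    refine Finset.sum_congr rfl fun w _ => ?_
    rw [coeff_monomial]
    split_ifs
    · rfl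
    · rw [smul_zero]
  rw [this]
  refine PoA.sum fun w _ => ?_
  exact PoA.smul (Po.lin (ContinuousLinearMap.proj (R := ℝ) (φ := fun _ : UW ι r => ℝ) w)) _

end fam

/-- **Bounded generation.** Exponentials of Lie elements are products of boundedly many letters of
polynomially controlled size, by a universal polynomial formula. -/
theorem gen (ι : Type) [Finite ι] (r : ℕ) : ∃ (m : ℕ) (J : Fin m → ι) (K : ℕ)
    (x : (UW ι r → ℝ) → Fin m → ℝ), (∀ t, (fun y => x y t) ∈ Po (UW ι r → ℝ)) ∧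
      (∀ y t, |x y t| ≤ K * (1 + ‖y‖) ^ K) ∧
      ∀ (A : Type) [Ring A] [Algebra ℝ A] (e : ι → A) (h : Nil e r) (y : UW ι r → ℝ),
        rexp (r + 1) (∑ w : UW ι r, y w • br e w.val) = ((prS (xu h) J (x y) : Aˣ) : A) := by
  classical
  have hU := uNil ι r
  obtain ⟨f⟩ := exists_frame (uE ι r)
  set l0 := f.T r with hl0
  set g : (UW ι r → ℝ) → (UA ι r)[X]ˣ := fun y => eu hU (lc_mem (uE ι r) r y) with hg
  have hgF : ∀ y, g y ∈ F hU := by
    intro y
    have h0 : ev hU (f.T r) (f.co hU (g y)) = g y :=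
      f.ev_co_Fh hU (eu_Fh hU (lc_mem (uE ι r) r y))
    rw [← h0]
    exact ev_mem hU _ _
  have hgP : PFam hU g := by
    refine ⟨hgF, ?_⟩
    exact (PoP.lc (uE ι r) r).rexp (r + 1)
  have hx : ∀ t : Fin l0.length, (fun y => Sym.val (l0.get t) (f.co hU (g y))) ∈ Po (UW ι r → ℝ) := by
    intro t
    have h1 : (fun y => f.co hU (g y) (l0.get t).2.1) ∈ Po (UW ι r → ℝ) := PFam.co f hgP _
    have h2 : (fun y => (l0.get t).2.2.1 * f.co hU (g y) (l0.get t).2.1) ∈ Po (UW ι r → ℝ) :=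
      Po.mul (Po.const _) h1
    exact Po.add h2 (Po.const _)
  obtain ⟨K, hK⟩ := common_bound hx
  refine ⟨l0.length, fun t => (l0.get t).1, K, fun y t => Sym.val (l0.get t) (f.co hU (g y)), hx,
    fun y t => hK t y, ?_⟩
  intro A _ _ e h y
  set J : Fin l0.length → ι := fun t => (l0.get t).1 with hJ
  set x : Fin l0.length → ℝ := fun t => Sym.val (l0.get t) (f.co hU (g y)) with hx'
  -- in the universal group
  have h1 : g y = wd (lu hU) (List.ofFn fun t => (J t, x t)) := by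
    have h2 := f.ev_co_Fh hU (eu_Fh hU (lc_mem (uE ι r) r y))
    rw [ev_eq_pr, pr_eq_wd] at h2
    exact h2.symm
  have h3 : RP e r ((g y : (UA ι r)[X]ˣ) : (UA ι r)[X]) (rexp (r + 1) (lc e r y)) := (RP.lc h y).rexp _
  rw [h1] at h3
  have h4 : rexp (r + 1) (lc e r y) = ((wd (lu h) (List.ofFn fun t => (J t, x t)) : A[X]ˣ) : A[X]) :=
    h3.unique (RP.wd h _)
  have h5 := congrArg (ev1 A) h4
  rw [ev1_rexp, ev1_lc] at h5
  rw [h5, prS_eq_wd]
  have h6 : wd (xu h) (List.ofFn fun t => (J t, x t)) =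
      Units.map (ev1 A : A[X] →* A) (wd (lu h) (List.ofFn fun t => (J t, x t))) :=
    wd_map (Units.map (ev1 A : A[X] →* A)) (lu h) _
  rw [h6]
  rfl

end Vale.Agent.P188.H329

end
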