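import Vale.Agent.P188.R.G027
import Vale.Agent.P188.R.G008
import Mathlib.Algebra.QuadraticDiscriminant
import Mathlib.Analysis.SpecialFunctions.Pow.Real
import Mathlib.Analysis.Normed.Group.Basic
import Vale.Agent.P188.R.G014

section

/-!
# Operator bound for random chains in a right `S`-set with an invariant mean

`S` a group acting on the right on a set `X`, `μ` an invariant mean on `X`, `A'`, `A` finite
subsets of `S`.  One block of a chain goes from `z` to `z * n'⁻¹ * (n * g)`, `n' ∈ A'`, `n ∈ A`.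
-/

set_option linter.unusedSectionVars false

universe u v w

namespace Vale.Agent.P188.H382

open Finset Vale.Agent.P188 Agent.P188.H428

/-- A right action. -/
structure RAct (S : Type u) [Group S] (X : Type v) where
  act : X → S → X
  one : ∀ z, act z 1 = z
  mul : ∀ z s t, act (act z s) t = act z (s * t)

/-- An invariant mean on an `S`-set. -/
structure InvMean {S : Type u} [Group S] {X : Type v} (A : RAct S X) (μ : (X → ℝ) → ℝ) :
    Prop where
  mean : IsMean μ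
  inv : ∀ s f, Bdd f → μ (fun z => f (A.act z s)) = μ f

lemma Bdd.mul' {X : Type v} {f g : X → ℝ} (hf : Bdd f) (hg : Bdd g) :
    Bdd (fun x => f x * g x) := by
  obtain ⟨M, hM⟩ := hf
  obtain ⟨N, hN⟩ := hg
  refine ⟨M * N, fun x => ?_⟩
  rw [abs_mul]
  exact mul_le_mul (hM x) (hN x) (abs_nonneg _) ((abs_nonneg _).trans (hM x))

lemma Bdd.sq' {X : Type v} {f : X → ℝ} (hf : Bdd f) : Bdd (fun x => f x ^ 2) := by
  have := Bdd.mul' hf hf
  simpa only [sq] using this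

lemma Bdd.sum' {X : Type v} {ι : Type w} (s : Finset ι) (f : ι → X → ℝ)
    (hf : ∀ i ∈ s, Bdd (f i)) : Bdd (fun x => ∑ i ∈ s, f i x) := by
  classical
  induction s using Finset.induction_on with
  | empty => simp only [Finset.sum_empty]; exact Bdd.const 0
  | insert a s ha ih =>
    have h1 := ih (fun i hi => hf i (Finset.mem_insert_of_mem hi))
    have h2 := hf a (Finset.mem_insert_self a s)
    have e : (fun x => ∑ i ∈ insert a s, f i x) = f a + fun x => ∑ i ∈ s, f i x := by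
      funext x; rw [Finset.sum_insert ha]; rfl
    rw [e]
    exact h2.add h1

/-- Cauchy–Schwarz for a mean. -/
lemma IsMean.cs {X : Type v} {μ : (X → ℝ) → ℝ} (h : IsMean μ) {f g : X → ℝ} (hf : Bdd f)
    (hg : Bdd g) :
    μ (fun x => f x * g x) ^ 2 ≤ μ (fun x => f x ^ 2) * μ (fun x => g x ^ 2) := by
  set a := μ (fun x => g x ^ 2) with ha
  set b := 2 * μ (fun x => f x * g x) with hb
  set c := μ (fun x => f x ^ 2) with hc
  have key : ∀ t : ℝ, 0 ≤ a * (t * t) + b * t + c := by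
    intro t
    have h1 : 0 ≤ μ (fun x => (f x + t * g x) ^ 2) :=
      h.nonneg _ (Bdd.sq' (hf.add (hg.const_mul t))) (fun x => sq_nonneg _)
    have e : (fun x => (f x + t * g x) ^ 2)
        = ((fun x => (t * t) * (g x ^ 2)) + fun x => (2 * t) * (f x * g x)) +
          fun x => f x ^ 2 := by
      funext x; simp only [Pi.add_apply]; ring
    rw [e, h.add _ _ (((Bdd.sq' hg).const_mul _).add ((Bdd.mul' hf hg).const_mul _)) (Bdd.sq' hf),
      h.add _ _ ((Bdd.sq' hg).const_mul _) ((Bdd.mul' hf hg).const_mul _),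
      h.smul _ _ (Bdd.sq' hg), h.smul _ _ (Bdd.mul' hf hg)] at h1
    rw [ha, hb, hc]
    linarith
  have hd := discrim_le_zero key
  unfold discrim at hd
  rw [hb] at hd
  nlinarith

lemma IsMean.sq_le {X : Type v} {μ : (X → ℝ) → ℝ} (h : IsMean μ) {f : X → ℝ} (hf : Bdd f) :
    μ f ^ 2 ≤ μ (fun x => f x ^ 2) := by
  have := IsMean.cs h hf (Bdd.const 1)
  simpa [h.one] using this

variable {S : Type u} [Group S] [DecidableEq S] {X : Type v} (A : RAct S X) {μ : (X → ℝ) → ℝ}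

/-- Product of the values of `b` along a chain. -/
def wt (b : X → S → ℝ) : (J : ℕ) → (Fin J → S) → (Fin J → S × S) → X → ℝ
  | 0, _, _, _ => 1
  | J + 1, g, ω, z => b (A.act z (ω 0).1⁻¹) (ω 0).1 * b (A.act z (ω 0).1⁻¹) ((ω 0).2 * g 0) *
      wt b J (Fin.tail g) (Fin.tail ω) (A.act z ((ω 0).1⁻¹ * ((ω 0).2 * g 0)))

end Vale.Agent.P188.H382

end

section

/-!
# Exponentially rare large displacements along random chains, mean version
-/

set_option linter.unusedSectionVars false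

universe u v w x

namespace Vale.Agent.P188.H382

open Finset Vale.Agent.P188 Agent.P188.H428

variable {S : Type u} [Group S] [DecidableEq S] {X : Type v} (A : RAct S X) (μ : (X → ℝ) → ℝ)
variable {E : Type w} [NormedAddCommGroup E]

open Classical in
/-- mean of the set of points where right translation by `x` moves `W` by more than `τ`. -/
noncomputable def dev (W : X → E) (τ : ℝ) (x : S) : ℝ :=
  μ (fun z => if τ < ‖W (A.act z x) - W z‖ then 1 else 0)

lemma bdd_ite (p : X → Prop) [DecidablePred p] : Bdd (fun z => if p z then (1 : ℝ) else 0) :=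
  ⟨1, fun z => by dsimp only; split_ifs <;> simp⟩

variable {μ}

lemma dev_nonneg (hμ : InvMean A μ) (W : X → E) (τ : ℝ) (x : S) : 0 ≤ dev A μ W τ x := by
  classical
  unfold dev
  refine hμ.mean.nonneg _ (bdd_ite _) fun z => ?_
  split_ifs <;> simp

end Vale.Agent.P188.H382

end

section

/-!
# Fixed displacements modulo the commutator subgroup, mean version
-/

set_option linter.unusedSectionVars false

universe u v w x

namespace Vale.Agent.P188.H382

open Finset Vale.Agent.P188 Agent.P188.H428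

variable {S : Type u} [Group S] [DecidableEq S]

/-- A big box `B` and a small box `Bs` in `N` at scale `R1`; the overlap of `B * (a⁻¹ * b)` with
`B` (`a, b ∈ Bs`) is only required modulo `⁅N, N⁆`. -/
structure BoxesM (l : S → ℕ) (N : Subgroup S) (C1 M R1 : ℕ) (B Bs : Finset S) : Prop where
  ne : Bs.Nonempty
  sub : Bs ⊆ B
  mem : ∀ n ∈ B, n ∈ N
  len : ∀ n ∈ B, l n ≤ C1 * R1
  card : B.card ≤ M * Bs.card
  shift : ∀ a ∈ Bs, ∀ b ∈ Bs, ∃ (D : Finset S) (σ : S → S), D ⊆ B ∧ B.card ≤ 2 * D.card ∧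
    Set.InjOn σ D ∧ (∀ n ∈ D, σ n ∈ B) ∧ ∀ n ∈ D, (n * (a⁻¹ * b))⁻¹ * σ n ∈ ⁅N, N⁆

variable {X : Type v} (A : RAct S X) {μ : (X → ℝ) → ℝ} {E : Type w} [NormedAddCommGroup E]

open Classical in
/-- Flatness of `W` on all translates of the box, for most points. -/
def FlatM (l : S → ℕ) (W : X → E) (R1 : ℕ) (B : Finset S) (α ε : ℝ) : Prop :=
  ∀ Y, ∃ c, ∀ g, l g ≤ R1 →
    ((B.filter fun n => α < ‖W (A.act Y (n * g)) - c‖).card : ℝ) ≤ ε * B.card

/-- Good displacements. -/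
def Gm (μ : (X → ℝ) → ℝ) (l : S → ℕ) (W : X → E) (τ δ : ℝ) (r : ℕ) (x : S) : Prop :=
  l x ≤ r ∧ dev A μ W τ x ≤ δ

variable {A}

lemma Gm.mono (hμ : InvMean A μ) {l : S → ℕ} {W : X → E} {τ τ' δ δ' : ℝ} {r r' : ℕ} {x : S}
    (h : Gm A μ l W τ δ r x) (hτ : τ ≤ τ') (hδ : δ ≤ δ') (hr : r ≤ r') :
    Gm A μ l W τ' δ' r' x := by
  classical
  refine ⟨h.1.trans hr, le_trans ?_ (h.2.trans hδ)⟩
  unfold dev
  refine hμ.mean.le (bdd_ite _) (bdd_ite _) fun z => ?_
  split_ifs with h1 h2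
  · exact le_refl _
  · exact absurd (lt_of_le_of_lt hτ h1) h2
  · exact zero_le_one
  · exact le_refl _

lemma dev_shift (hμ : InvMean A μ) (W : X → E) (τ : ℝ) (x y : S) :
    letI := Classical.decPred fun z => τ < ‖W (A.act (A.act z x) y) - W (A.act z x)‖
    μ (fun z => if τ < ‖W (A.act (A.act z x) y) - W (A.act z x)‖ then (1 : ℝ) else 0)
      = dev A μ W τ y := by
  classical
  have := hμ.inv x (fun z => if τ < ‖W (A.act z y) - W z‖ then (1 : ℝ) else 0) (bdd_ite _)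
  unfold dev
  rw [← this]

lemma Gm.mul (hμ : InvMean A μ) {l : S → ℕ} {W : X → E} {τ1 τ2 δ1 δ2 : ℝ} {r1 r2 : ℕ}
    {x y : S} (hmul : ∀ x y, l (x * y) ≤ l x + l y)
    (hx : Gm A μ l W τ1 δ1 r1 x) (hy : Gm A μ l W τ2 δ2 r2 y) :
    Gm A μ l W (τ1 + τ2) (δ1 + δ2) (r1 + r2) (x * y) := by
  classical
  refine ⟨(hmul x y).trans (add_le_add hx.1 hy.1), ?_⟩
  have h1 := dev_shift hμ W τ2 x y
  have h2 : dev A μ W (τ1 + τ2) (x * y) ≤ dev A μ W τ1 x + dev A μ W τ2 y := by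
    rw [← h1]
    unfold dev
    rw [← hμ.mean.add _ _ (bdd_ite _) (bdd_ite _)]
    refine hμ.mean.le (bdd_ite _) ((bdd_ite _).add (bdd_ite _)) fun z => ?_
    simp only [Pi.add_apply]
    by_cases e1 : τ1 < ‖W (A.act z x) - W z‖
    · rw [if_pos e1]
      split_ifs <;> norm_num
    · by_cases e2 : τ2 < ‖W (A.act (A.act z x) y) - W (A.act z x)‖
      · rw [if_pos e2]
        split_ifs <;> norm_num
      · have e3 : ‖W (A.act z (x * y)) - W z‖ ≤ τ1 + τ2 := by
          calc ‖W (A.act z (x * y)) - W z‖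
              = ‖(W (A.act z x) - W z) + (W (A.act (A.act z x) y) - W (A.act z x))‖ := by
                rw [A.mul]; congr 1; abel
            _ ≤ ‖W (A.act z x) - W z‖ + ‖W (A.act (A.act z x) y) - W (A.act z x)‖ :=
                norm_add_le _ _
            _ ≤ τ1 + τ2 := add_le_add (not_lt.1 e1) (not_lt.1 e2)
        rw [if_neg (not_lt.2 e3), if_neg e1, if_neg e2]
        norm_num
  linarith [hx.2, hy.2]

lemma Gm.inv (hμ : InvMean A μ) {l : S → ℕ} {W : X → E} {τ δ : ℝ} {r : ℕ} {x : S}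
    (hinv : ∀ x, l x⁻¹ = l x) (hx : Gm A μ l W τ δ r x) : Gm A μ l W τ δ r x⁻¹ := by
  classical
  refine ⟨by rw [hinv]; exact hx.1, le_trans (le_of_eq ?_) hx.2⟩
  have h1 := hμ.inv x⁻¹ (fun z => if τ < ‖W (A.act z x) - W z‖ then (1 : ℝ) else 0) (bdd_ite _)
  unfold dev
  rw [← h1]
  congr 1
  funext z
  rw [A.mul, inv_mul_cancel, A.one, norm_sub_rev]

/-- `out` modulo a normal subgroup. -/
lemma out_congr {H : Type*} [Group H] (π : S →* H) (J : ℕ) (g : Fin J → S)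
    (ω' : Fin J → S × S) (a : Fin J → S) (h : ∀ i, π ((ω' i).1⁻¹ * (ω' i).2) = π (a i)) :
    π (out J g ω') = π (_root_.Agent.P188.H428.pr J a g) := by
  rw [out_eq_pr]
  induction J with
  | zero => rfl
  | succ J ih =>
    have h0 := h 0
    have h1 := ih (Fin.tail g) (Fin.tail ω') (Fin.tail a) (fun i => h i.succ)
    simp only [_root_.Agent.P188.H428.pr, map_mul] at h1 h0 ⊢
    rw [h0]
    congr 1

variable (A)

end Vale.Agent.P188.H382

end

section

/-!
# Random chains with indexed noise and pairwise weights, in a right `S`-set with invariant mean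

`φ : I → S` gives the noise; one block goes from `z` to `z * (φ n')⁻¹ * (φ n * g)`,
`n', n ∈ B`, with weight `b Y n' n` where `Y = z * (φ n')⁻¹`.
-/

set_option linter.unusedSectionVars false

universe u v w x y

namespace Vale.Agent.P188.H382

open Finset Vale.Agent.P188 Agent.P188.H428

variable {S : Type u} [Group S] {X : Type v} (A : RAct S X) {μ : (X → ℝ) → ℝ}
variable {I : Type y} (φ : I → S)

/-- One block operator. -/
def iblk (b : X → I → I → ℝ) (B : Finset I) (g : S) (f : X → ℝ) (z : X) : ℝ :=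
  ∑ n' ∈ B, ∑ n ∈ B, b (A.act z (φ n')⁻¹) n' n * f (A.act z ((φ n')⁻¹ * (φ n * g)))

lemma iblk_bdd (b : X → I → I → ℝ) (hb : ∀ h h', Bdd (fun Y => b Y h h')) (B : Finset I) (g : S)
    (f : X → ℝ) (hf : Bdd f) : Bdd (iblk A φ b B g f) := by
  unfold iblk
  refine Bdd.sum' B _ fun n' _ => Bdd.sum' B _ fun n _ => ?_
  exact Bdd.mul' ((hb n' n).comp _) (hf.comp _)

lemma iblk_sq_le (hμ : InvMean A μ) (b : X → I → I → ℝ) (hb : ∀ h h', Bdd (fun Y => b Y h h'))
    (B : Finset I) (hB : B.Nonempty) (g : S) (f : X → ℝ) (hf : Bdd f) (P : ℝ) (hP0 : 0 ≤ P)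
    (hP : ∀ Y, ∑ n' ∈ B, ∑ n ∈ B, b Y n' n ^ 2 ≤ P) :
    μ (fun z => iblk A φ b B g f z ^ 2) ≤ (P * (B.card : ℝ) ^ 2) * μ (fun z => f z ^ 2) := by
  have hm := hμ.mean
  set v : X → ℝ := iblk A φ b B g f with hv
  have hvb : Bdd v := iblk_bdd A φ b hb B g f hf
  set V : ℝ := μ (fun z => v z ^ 2) with hV
  set U : ℝ := μ (fun z => f z ^ 2) with hU
  set k : ℝ := (B.card : ℝ) with hk
  have hkpos : 0 < k := by rw [hk]; exact_mod_cast hB.card_pos
  set G : X → ℝ := fun Y => ∑ n' ∈ B, ∑ n ∈ B, b Y n' n * v (A.act Y (φ n')) *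
    f (A.act Y (φ n * g)) with hG
  have hGb : Bdd G := Bdd.sum' B _ fun n' _ => Bdd.sum' B _ fun n _ =>
    Bdd.mul' (Bdd.mul' (hb n' n) (hvb.comp _)) (hf.comp _)
  have key1 : V = μ G := by
    have e1 : (fun z => v z ^ 2) = fun z => ∑ n' ∈ B, ∑ n ∈ B,
        b (A.act z (φ n')⁻¹) n' n * v (A.act (A.act z (φ n')⁻¹) (φ n')) *
          f (A.act (A.act z (φ n')⁻¹) (φ n * g)) := by
      funext z
      have h2 : v z ^ 2 = v z * ∑ n' ∈ B, ∑ n ∈ B, b (A.act z (φ n')⁻¹) n' n *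
          f (A.act z ((φ n')⁻¹ * (φ n * g))) := by
        rw [sq]; rfl
      rw [h2, Finset.mul_sum]
      refine Finset.sum_congr rfl fun n' _ => ?_
      rw [Finset.mul_sum]
      refine Finset.sum_congr rfl fun n _ => ?_
      rw [A.mul, inv_mul_cancel, A.one, A.mul]; ring
    have hbd : ∀ n' ∈ B, ∀ n ∈ B, Bdd (fun Y => b Y n' n * v (A.act Y (φ n')) *
        f (A.act Y (φ n * g))) := fun n' _ n _ =>
      Bdd.mul' (Bdd.mul' (hb n' n) (hvb.comp _)) (hf.comp _)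
    have hbd1 : ∀ n' ∈ B, Bdd (fun Y => ∑ n ∈ B, b Y n' n * v (A.act Y (φ n')) *
        f (A.act Y (φ n * g))) := fun n' hn' => Bdd.sum' B _ (hbd n' hn')
    rw [hV, e1, hG]
    rw [(hm.sum B (fun n' z => ∑ n ∈ B, b (A.act z (φ n')⁻¹) n' n *
        v (A.act (A.act z (φ n')⁻¹) (φ n')) * f (A.act (A.act z (φ n')⁻¹) (φ n * g)))
        (fun n' hn' => (hbd1 n' hn').comp (fun z => A.act z (φ n')⁻¹))).2,
      (hm.sum B (fun n' Y => ∑ n ∈ B, b Y n' n * v (A.act Y (φ n')) *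
        f (A.act Y (φ n * g))) hbd1).2]
    refine Finset.sum_congr rfl fun n' hn' => ?_
    exact hμ.inv (φ n')⁻¹ _ (hbd1 n' hn')
  set F1 : X → ℝ := fun Y => ∑ n' ∈ B, v (A.act Y (φ n')) ^ 2 with hF1
  set F2 : X → ℝ := fun Y => ∑ n ∈ B, f (A.act Y (φ n * g)) ^ 2 with hF2
  have hF1b : Bdd F1 := Bdd.sum' B _ fun n' _ => Bdd.sq' (hvb.comp _)
  have hF2b : Bdd F2 := Bdd.sum' B _ fun n' _ => Bdd.sq' (hf.comp _)
  have hμ1 : μ F1 = k * V := by
    rw [hF1, (hm.sum B (fun n' Y => v (A.act Y (φ n')) ^ 2)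
      (fun n' _ => Bdd.sq' (hvb.comp _))).2]
    have h3 : ∀ n' ∈ B, μ (fun Y => v (A.act Y (φ n')) ^ 2) = V := fun n' _ =>
      hμ.inv (φ n') (fun z => v z ^ 2) (Bdd.sq' hvb)
    rw [Finset.sum_congr rfl h3, Finset.sum_const, nsmul_eq_mul]
  have hμ2 : μ F2 = k * U := by
    rw [hF2, (hm.sum B (fun n Y => f (A.act Y (φ n * g)) ^ 2)
      (fun n _ => Bdd.sq' (hf.comp _))).2]
    have h3 : ∀ n ∈ B, μ (fun Y => f (A.act Y (φ n * g)) ^ 2) = U := fun n _ =>
      hμ.inv (φ n * g) (fun z => f z ^ 2) (Bdd.sq' hf)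
    rw [Finset.sum_congr rfl h3, Finset.sum_const, nsmul_eq_mul]
  have key2 : ∀ Y, 2 * G Y ≤ (1 / k) * F1 Y + (P * k) * F2 Y := by
    intro Y
    have h1 : G Y ^ 2 ≤ P * (F1 Y * F2 Y) := by
      have c1 : G Y = ∑ q ∈ B ×ˢ B, b Y q.1 q.2 * (v (A.act Y (φ q.1)) *
          f (A.act Y (φ q.2 * g))) := by
        rw [Finset.sum_product, hG]
        refine Finset.sum_congr rfl fun n' _ => Finset.sum_congr rfl fun n _ => by ring
      have c2 := Finset.sum_mul_sq_le_sq_mul_sq (B ×ˢ B) (fun q => b Y q.1 q.2)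
        (fun q => v (A.act Y (φ q.1)) * f (A.act Y (φ q.2 * g)))
      rw [← c1] at c2
      have c3 : ∑ q ∈ B ×ˢ B, b Y q.1 q.2 ^ 2 ≤ P := by
        rw [Finset.sum_product]; exact hP Y
      have c4 : ∑ q ∈ B ×ˢ B, (v (A.act Y (φ q.1)) * f (A.act Y (φ q.2 * g))) ^ 2
          = F1 Y * F2 Y := by
        rw [Finset.sum_product, hF1, hF2, Finset.sum_mul_sum]
        refine Finset.sum_congr rfl fun n' _ => Finset.sum_congr rfl fun n _ => by ring
      rw [c4] at c2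
      refine c2.trans (mul_le_mul_of_nonneg_right c3 ?_)
      rw [← c4]
      exact Finset.sum_nonneg fun q _ => sq_nonneg _
    have hF10 : 0 ≤ F1 Y := Finset.sum_nonneg fun n _ => sq_nonneg _
    have hF20 : 0 ≤ F2 Y := Finset.sum_nonneg fun n _ => sq_nonneg _
    have h2 : (2 * G Y) ^ 2 ≤ ((1 / k) * F1 Y + (P * k) * F2 Y) ^ 2 := by
      have e : ((1 / k) * F1 Y + (P * k) * F2 Y) ^ 2
          = ((1 / k) * F1 Y - (P * k) * F2 Y) ^ 2 + 4 * (P * (F1 Y * F2 Y)) := by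
        field_simp
        ring
      rw [e]
      nlinarith [sq_nonneg ((1 / k) * F1 Y - (P * k) * F2 Y)]
    exact (le_abs_self _).trans (abs_le_of_sq_le_sq h2 (by positivity))
  have key3 := hm.le (hGb.const_mul 2) ((hF1b.const_mul (1 / k)).add (hF2b.const_mul (P * k)))
    key2
  rw [hm.smul _ _ hGb, hm.add _ _ (hF1b.const_mul (1 / k)) (hF2b.const_mul (P * k)),
    hm.smul _ _ hF1b, hm.smul _ _ hF2b, hμ1, hμ2, ← key1] at key3
  have e1 : (1 / k) * (k * V) = V := by field_simp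
  rw [e1] at key3
  calc V ≤ P * k * (k * U) := by linarith
    _ = _ := by ring

/-- Product of the weights along a chain. -/
def iwt (b : S → X → I → I → ℝ) : (J : ℕ) → (Fin J → S) → (Fin J → I × I) → X → ℝ
  | 0, _, _, _ => 1
  | J + 1, g, ω, z => b (g 0) (A.act z (φ (ω 0).1)⁻¹) (ω 0).1 (ω 0).2 *
      iwt b J (Fin.tail g) (Fin.tail ω) (A.act z ((φ (ω 0).1)⁻¹ * (φ (ω 0).2 * g 0)))

lemma iwt_bdd (b : S → X → I → I → ℝ) (hb : ∀ s h h', Bdd (fun Y => b s Y h h')) (J : ℕ)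
    (g : Fin J → S) (ω : Fin J → I × I) : Bdd (iwt A φ b J g ω) := by
  induction J with
  | zero => exact Bdd.const 1
  | succ J ih =>
    have h := ih (Fin.tail g) (Fin.tail ω)
    exact Bdd.mul' ((hb (g 0) (ω 0).1 (ω 0).2).comp (fun z => A.act z (φ (ω 0).1)⁻¹))
      (h.comp _)

/-- The noise space. -/
def nz (B : Finset I) (J : ℕ) : Finset (Fin J → I × I) :=
  Fintype.piFinset fun _ => B ×ˢ B

lemma mem_nz {B : Finset I} {J : ℕ} {ω : Fin J → I × I} :
    ω ∈ nz B J ↔ ∀ i, (ω i).1 ∈ B ∧ (ω i).2 ∈ B := by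
  unfold nz
  rw [Fintype.mem_piFinset]
  simp only [Finset.mem_product]

lemma card_nz (B : Finset I) (J : ℕ) : (nz B J).card = (B.card * B.card) ^ J := by
  unfold nz
  rw [Fintype.card_piFinset]
  simp [Finset.card_product]

lemma sum_nz_succ (B : Finset I) (J : ℕ) (f : (Fin (J + 1) → I × I) → ℝ) :
    ∑ ω ∈ nz B (J + 1), f ω
      = ∑ n' ∈ B, ∑ n ∈ B, ∑ ω ∈ nz B J, f (Fin.cons (n', n) ω) := by
  rw [← Finset.sum_product' B B (fun n' n => ∑ ω ∈ nz B J, f (Fin.cons (n', n) ω)),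
    ← Finset.sum_product' (B ×ˢ B) (nz B J) (fun p ω => f (Fin.cons (p.1, p.2) ω))]
  refine Finset.sum_nbij' (fun ω => (ω 0, Fin.tail ω)) (fun q => Fin.cons q.1 q.2) ?_ ?_ ?_ ?_ ?_
  · intro ω hω
    rw [mem_nz] at hω
    rw [Finset.mem_product, Finset.mem_product, mem_nz]
    exact ⟨hω 0, fun i => hω i.succ⟩
  · rintro ⟨p, ω⟩ h
    rw [Finset.mem_product, Finset.mem_product, mem_nz] at h
    rw [mem_nz]
    intro i
    refine Fin.cases ?_ (fun j => ?_) i
    · simpa using h.1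
    · simpa using h.2 j
  · intro ω _
    exact Fin.cons_self_tail ω
  · rintro ⟨p, ω⟩ _
    simp
  · intro ω _
    simp only [Prod.mk.eta, Fin.cons_self_tail]

lemma sum_iwt_succ (b : S → X → I → I → ℝ) (B : Finset I) (J : ℕ) (g : Fin (J + 1) → S) (z : X) :
    ∑ ω ∈ nz B (J + 1), iwt A φ b (J + 1) g ω z
      = iblk A φ (b (g 0)) B (g 0) (fun y => ∑ ω ∈ nz B J, iwt A φ b J (Fin.tail g) ω y) z := by
  rw [sum_nz_succ]
  unfold iblk
  refine Finset.sum_congr rfl fun n' _ => Finset.sum_congr rfl fun n _ => ?_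
  rw [Finset.mul_sum]
  refine Finset.sum_congr rfl fun ω _ => ?_
  simp only [iwt, Fin.cons_zero, Fin.tail_cons]

lemma mean_iwt_sq_le (hμ : InvMean A μ) (b : S → X → I → I → ℝ)
    (hb : ∀ s h h', Bdd (fun Y => b s Y h h')) (B : Finset I) (hB : B.Nonempty)
    (P : ℝ) (hP0 : 0 ≤ P) (J : ℕ) (g : Fin J → S)
    (hP : ∀ i Y, ∑ n' ∈ B, ∑ n ∈ B, b (g i) Y n' n ^ 2 ≤ P) :
    μ (fun z => (∑ ω ∈ nz B J, iwt A φ b J g ω z) ^ 2) ≤ (P * (B.card : ℝ) ^ 2) ^ J := by
  induction J with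
  | zero =>
    have : ∀ z, ∑ ω ∈ nz B 0, iwt A φ b 0 g ω z = 1 := by
      intro z
      simp only [iwt]
      rw [Finset.sum_const, card_nz]
      simp
    simp only [this]
    simp [hμ.mean.one]
  | succ J ih =>
    have h1 := ih (Fin.tail g) (fun i Y => hP i.succ Y)
    have h2 := iblk_sq_le A φ hμ (b (g 0)) (hb (g 0)) B hB (g 0)
      (fun y => ∑ ω ∈ nz B J, iwt A φ b J (Fin.tail g) ω y)
      (Bdd.sum' _ _ fun ω _ => iwt_bdd A φ b hb J _ ω) P hP0 (fun Y => hP 0 Y)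
    have h3 : (fun z => (∑ ω ∈ nz B (J + 1), iwt A φ b (J + 1) g ω z) ^ 2)
        = fun z => iblk A φ (b (g 0)) B (g 0)
          (fun y => ∑ ω ∈ nz B J, iwt A φ b J (Fin.tail g) ω y) z ^ 2 := by
      funext z; rw [sum_iwt_succ]
    rw [h3]
    refine le_trans h2 ?_
    rw [pow_succ, mul_comm]
    exact mul_le_mul_of_nonneg_right h1 (by positivity)

end Vale.Agent.P188.H382

end
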