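import Vale.Agent.P188.R.G032
import Vale.Agent.P188.R.G011

section

/-!
P188, Theorem S: controlled Følner pairs give a cautious random walk.
-/

universe u v w

open Filter Topology

namespace Vale.Agent.P188.SG

/-- The scalar product of finitely supported functions. -/
noncomputable def fol1_ip {H : Type u} (f g : H → ℝ) : ℝ := ∑ᶠ x, f x * g x

/-- finite support, as a predicate with a finset -/
def fol1_fs {H : Type u} (f : H → ℝ) : Prop := ∃ F : Finset H, ∀ x, x ∉ F → f x = 0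

theorem fol1_ip_eq {H : Type u} {f g : H → ℝ} {F : Finset H} (hF : ∀ x, x ∉ F → f x = 0) :
    fol1_ip f g = ∑ x ∈ F, f x * g x := by
  unfold fol1_ip
  refine finsum_eq_sum_of_support_subset _ ?_
  intro x hx
  by_contra hxF
  have h0 : f x = 0 := hF x (by simpa using hxF)
  exact hx (by simp [h0])

theorem fol1_ip_comm {H : Type u} (f g : H → ℝ) : fol1_ip f g = fol1_ip g f := by
  unfold fol1_ip
  simp only [mul_comm]

theorem fol1_ip_nonneg {H : Type u} (f : H → ℝ) : 0 ≤ fol1_ip f f :=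
  finsum_nonneg fun x => mul_self_nonneg (f x)

theorem fol1_fs_support {H : Type u} {f g : H → ℝ} (hf : fol1_fs f) :
    (Function.support fun x => f x * g x).Finite := by
  obtain ⟨F, hF⟩ := hf
  refine F.finite_toSet.subset fun x hx => ?_
  by_contra hxF
  exact hx (by simp [hF x (by simpa using hxF)])

theorem fol1_cs {H : Type u} {f g : H → ℝ} (hf : fol1_fs f) (hg : fol1_fs g) :
    fol1_ip f g ^ 2 ≤ fol1_ip f f * fol1_ip g g := by
  classical
  obtain ⟨F, hF⟩ := hf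
  obtain ⟨G, hG⟩ := hg
  have hF' : ∀ x, x ∉ F ∪ G → f x = 0 := fun x hx =>
    hF x fun h => hx (Finset.mem_union_left _ h)
  have hG' : ∀ x, x ∉ F ∪ G → g x = 0 := fun x hx =>
    hG x fun h => hx (Finset.mem_union_right _ h)
  rw [fol1_ip_eq hF', fol1_ip_eq hF', fol1_ip_eq hG']
  have h := Finset.sum_mul_sq_le_sq_mul_sq (F ∪ G) f g
  simpa only [sq] using h

variable {H : Type u} [Group H] {S : Finset H}

theorem fol1_ip_shift (f g : H → ℝ) (s : H) :
    (∑ᶠ x, f (x * s) * g x) = ∑ᶠ x, f x * g (x * s⁻¹) := by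
  have h := finsum_comp_equiv (Equiv.mulRight s) (f := fun x => f x * g (x * s⁻¹))
  rw [← h]
  refine finsum_congr fun x => ?_
  simp

theorem fol1_fs_shift {f : H → ℝ} (hf : fol1_fs f) (s : H) : fol1_fs (fun x => f (x * s)) := by
  classical
  obtain ⟨F, hF⟩ := hf
  refine ⟨F.image (fun x => x * s⁻¹), fun x hx => hF _ fun h => hx ?_⟩
  exact Finset.mem_image.mpr ⟨x * s, h, by simp⟩

theorem fol1_fs_avg {f : H → ℝ} (hf : fol1_fs f) : fol1_fs (avg S f) := by
  classical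
  choose F hF using fun s : H => fol1_fs_shift hf s
  refine ⟨S.biUnion F, fun x hx => ?_⟩
  unfold avg
  have h0 : ∀ s ∈ S, f (x * s) = 0 := fun s hs =>
    hF s x fun h => hx (Finset.mem_biUnion.mpr ⟨s, hs, h⟩)
  rw [Finset.sum_eq_zero h0, mul_zero]

theorem fol1_fs_iter {f : H → ℝ} (hf : fol1_fs f) (n : ℕ) : fol1_fs ((avg S)^[n] f) := by
  induction n with
  | zero => exact hf
  | succ n ih => rw [Function.iterate_succ_apply']; exact fol1_fs_avg ih

theorem fol1_ip_avg_left {f : H → ℝ} (hf : fol1_fs f) (g : H → ℝ) :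
    fol1_ip (avg S f) g = (S.card : ℝ)⁻¹ * ∑ s ∈ S, ∑ᶠ x, f (x * s) * g x := by
  have h1 : ∀ s ∈ S, (Function.support fun x => f (x * s) * g x).Finite := fun s _ =>
    fol1_fs_support (fol1_fs_shift hf s)
  rw [← finsum_sum_comm S (fun x s => f (x * s) * g x) h1, mul_finsum]
  unfold fol1_ip avg
  refine finsum_congr fun x => ?_
  rw [mul_assoc, Finset.sum_mul]

theorem fol1_ip_avg_right {f : H → ℝ} (hf : fol1_fs f) (g : H → ℝ) :
    fol1_ip f (avg S g) = (S.card : ℝ)⁻¹ * ∑ s ∈ S, ∑ᶠ x, f x * g (x * s) := by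
  have h1 : ∀ s ∈ S, (Function.support fun x => f x * g (x * s)).Finite := fun s _ =>
    fol1_fs_support hf
  rw [← finsum_sum_comm S (fun x s => f x * g (x * s)) h1, mul_finsum]
  unfold fol1_ip avg
  refine finsum_congr fun x => ?_
  rw [← Finset.mul_sum]
  ring

theorem fol1_sum_inv (hS : ∀ s ∈ S, s⁻¹ ∈ S) (F : H → ℝ) :
    ∑ s ∈ S, F s⁻¹ = ∑ s ∈ S, F s := by
  refine Finset.sum_bij' (fun s _ => s⁻¹) (fun s _ => s⁻¹) (fun s hs => hS s hs)
    (fun s hs => hS s hs) (fun s _ => inv_inv s) (fun s _ => inv_inv s) (fun s _ => rfl)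

theorem fol1_ip_symm (hS : ∀ s ∈ S, s⁻¹ ∈ S) {f : H → ℝ} (hf : fol1_fs f) (g : H → ℝ) :
    fol1_ip (avg S f) g = fol1_ip f (avg S g) := by
  rw [fol1_ip_avg_left hf, fol1_ip_avg_right hf]
  congr 1
  simp only [fol1_ip_shift]
  exact fol1_sum_inv hS fun s => ∑ᶠ x, f x * g (x * s)

theorem fol1_ip_iter (hS : ∀ s ∈ S, s⁻¹ ∈ S) (m : ℕ) {f : H → ℝ} (hf : fol1_fs f)
    (g : H → ℝ) : fol1_ip ((avg S)^[m] f) g = fol1_ip f ((avg S)^[m] g) := by
  induction m generalizing f with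
  | zero => rfl
  | succ m ih =>
    rw [Function.iterate_succ_apply, ih (fol1_fs_avg hf), fol1_ip_symm hS hf,
      Function.iterate_succ_apply']

/-- log-convexity of the even return probabilities -/
theorem fol1_logconv (hS : ∀ s ∈ S, s⁻¹ ∈ S) {f : H → ℝ} (hf : fol1_fs f) (k : ℕ) :
    fol1_ip ((avg S)^[k + 1] f) ((avg S)^[k + 1] f) ^ 2 ≤
      fol1_ip ((avg S)^[k] f) ((avg S)^[k] f) *
        fol1_ip ((avg S)^[k + 2] f) ((avg S)^[k + 2] f) := by
  have h := fol1_cs (fol1_fs_iter (S := S) hf k) (fol1_fs_iter (S := S) hf (k + 2))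
  have e : fol1_ip ((avg S)^[k] f) ((avg S)^[k + 2] f) =
      fol1_ip ((avg S)^[k + 1] f) ((avg S)^[k + 1] f) := by
    have h1 := fol1_ip_symm hS (fol1_fs_iter (S := S) hf k) ((avg S)^[k + 1] f)
    rw [← Function.iterate_succ_apply' (avg S) k f,
      ← Function.iterate_succ_apply' (avg S) (k + 1) f] at h1
    exact h1.symm
  rwa [e] at h

theorem fol1_seq (N : ℕ → ℝ) (hN : ∀ k, N (k + 1) ^ 2 ≤ N k * N (k + 2)) (h0 : 0 < N 0)
    (q : ℝ) (hq : 0 < q) (h1 : q * N 0 ≤ N 1) (k : ℕ) : q ^ k * N 0 ≤ N k := by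
  have key : ∀ k, 0 < N k ∧ q * N k ≤ N (k + 1) := by
    intro k
    induction k with
    | zero => exact ⟨h0, h1⟩
    | succ k ih =>
      obtain ⟨i1, i2⟩ := ih
      have hp : 0 < N (k + 1) := lt_of_lt_of_le (mul_pos hq i1) i2
      refine ⟨hp, ?_⟩
      have h2 := hN k
      have h3 : q * N (k + 1) * N k ≤ N (k + 2) * N k := by
        calc q * N (k + 1) * N k = (q * N k) * N (k + 1) := by ring
          _ ≤ N (k + 1) * N (k + 1) := mul_le_mul_of_nonneg_right i2 hp.le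
          _ = N (k + 1) ^ 2 := by ring
          _ ≤ N k * N (k + 2) := h2
          _ = N (k + 2) * N k := by ring
      exact le_of_mul_le_mul_right h3 i1
  induction k with
  | zero => simp
  | succ k ih =>
    calc q ^ (k + 1) * N 0 = q * (q ^ k * N 0) := by ring
      _ ≤ q * N k := mul_le_mul_of_nonneg_left ih hq.le
      _ ≤ N (k + 1) := (key k).2

theorem fol1_exp {t : ℝ} (h0 : 0 ≤ t) (h1 : t ≤ 1 / 2) : Real.exp (-(2 * t)) ≤ 1 - t := by
  have h2 : 2 * t + 1 ≤ Real.exp (2 * t) := Real.add_one_le_exp _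
  have h3 : 0 < 2 * t + 1 := by linarith
  rw [Real.exp_neg]
  refine (inv_anti₀ h3 h2).trans ?_
  rw [inv_le_iff_one_le_mul₀ h3]
  nlinarith

/-- the Dirichlet form -/
theorem fol1_energy (hne : S.Nonempty) {f : H → ℝ} {E : Finset H}
    (hE : ∀ x, x ∉ E → f x = 0) {a : ℝ} (ha : ∀ x, ∀ s ∈ S, (f (x * s) - f x) ^ 2 ≤ a) :
    fol1_ip f f - fol1_ip (avg S f) f ≤ a * E.card := by
  classical
  have hf : fol1_fs f := ⟨E, hE⟩
  have hcard : (0 : ℝ) < S.card := by exact_mod_cast hne.card_pos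
  rw [fol1_ip_avg_left hf]
  have key : ∀ s ∈ S, fol1_ip f f - (∑ᶠ x, f (x * s) * f x) ≤ a * E.card := by
    intro s hs
    obtain ⟨G, hG⟩ : ∃ G : Finset H, G = E ∪ E.image (fun x => x * s⁻¹) := ⟨_, rfl⟩
    have hG1 : ∀ x, x ∉ G → f x = 0 := fun x hx =>
      hE x fun h => hx (hG ▸ Finset.mem_union_left _ h)
    have hG2 : ∀ x, x ∉ G → f (x * s) = 0 := fun x hx =>
      hE _ fun h => hx (hG ▸ Finset.mem_union_right _
        (Finset.mem_image.mpr ⟨x * s, h, by simp⟩))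
    have hGc : (G.card : ℝ) ≤ 2 * E.card := by
      have h1 : G.card ≤ E.card + E.card := by
        rw [hG]
        exact (Finset.card_union_le _ _).trans (Nat.add_le_add_left Finset.card_image_le _)
      have h2 : (G.card : ℝ) ≤ ((E.card + E.card : ℕ) : ℝ) := by exact_mod_cast h1
      push_cast at h2
      linarith
    have e1 : fol1_ip f f = ∑ x ∈ G, f x * f x := fol1_ip_eq hG1
    have e2 : fol1_ip f f = ∑ x ∈ G, f (x * s) * f (x * s) := by
      rw [← fol1_ip_eq (g := fun x => f (x * s)) (f := fun x => f (x * s)) hG2]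
      unfold fol1_ip
      exact (finsum_comp_equiv (Equiv.mulRight s) (f := fun x => f x * f x)).symm
    have e3 : (∑ᶠ x, f (x * s) * f x) = ∑ x ∈ G, f (x * s) * f x :=
      fol1_ip_eq (f := fun x => f (x * s)) hG2
    have e4 : 2 * (fol1_ip f f - (∑ᶠ x, f (x * s) * f x)) =
        ∑ x ∈ G, (f (x * s) - f x) ^ 2 := by
      have : ∑ x ∈ G, (f (x * s) - f x) ^ 2 = ∑ x ∈ G, f (x * s) * f (x * s) +
          ∑ x ∈ G, f x * f x - 2 * ∑ x ∈ G, f (x * s) * f x := by
        rw [Finset.mul_sum, ← Finset.sum_add_distrib, ← Finset.sum_sub_distrib]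
        exact Finset.sum_congr rfl fun x _ => by ring
      rw [this, ← e1, ← e2, ← e3]
      ring
    have h5 : ∑ x ∈ G, (f (x * s) - f x) ^ 2 ≤ G.card * a := by
      have := Finset.sum_le_card_nsmul G (fun x => (f (x * s) - f x) ^ 2) a
        (fun x _ => ha x s hs)
      simpa [nsmul_eq_mul] using this
    have ha0 : 0 ≤ a := (sq_nonneg _).trans (ha 1 s hs)
    have h6 : (G.card : ℝ) * a ≤ 2 * E.card * a := mul_le_mul_of_nonneg_right hGc ha0
    linarith
  have h7 : ∑ s ∈ S, (fol1_ip f f - (∑ᶠ x, f (x * s) * f x)) ≤ S.card * (a * E.card) := by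
    have := Finset.sum_le_card_nsmul S (fun s => fol1_ip f f - (∑ᶠ x, f (x * s) * f x)) _ key
    simpa [nsmul_eq_mul] using this
  rw [Finset.sum_sub_distrib, Finset.sum_const, nsmul_eq_mul] at h7
  have h8 := mul_le_mul_of_nonneg_left h7 (inv_nonneg.mpr hcard.le)
  have h9 : (S.card : ℝ)⁻¹ * (S.card * (a * E.card)) = a * E.card := by
    rw [← mul_assoc, inv_mul_cancel₀ hcard.ne', one_mul]
  rw [h9, mul_sub, ← mul_assoc, inv_mul_cancel₀ hcard.ne', one_mul] at h8
  exact h8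

/-- the upper bound for the return probabilities -/
theorem fol1_upper {f : H → ℝ} {E : Finset H} (hE : ∀ x, x ∉ E → f x = 0)
    (h0 : ∀ x, 0 ≤ f x) (h1 : ∀ x, f x ≤ 1) {R : ℝ}
    (hR : ∀ x ∈ E, ∀ y ∈ E, (len S (x⁻¹ * y) : ℝ) ≤ R) (n : ℕ) :
    fol1_ip f ((avg S)^[n] f) ≤ E.card * Ex S n (fun g => if (len S g : ℝ) ≤ R then 1 else 0) := by
  rw [fol1_ip_eq hE]
  have key : ∀ x ∈ E, f x * (avg S)^[n] f x ≤
      Ex S n (fun g => if (len S g : ℝ) ≤ R then 1 else 0) := by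
    intro x hx
    have e : (avg S)^[n] f x = Ex S n (fun g => f (x * g)) := by
      unfold Ex
      rw [Walk_left, mul_one]
    rw [e]
    have h2 : 0 ≤ Ex S n (fun g => f (x * g)) := Ex_nonneg n fun g => h0 _
    have h3 : f x * Ex S n (fun g => f (x * g)) ≤ 1 * Ex S n (fun g => f (x * g)) :=
      mul_le_mul_of_nonneg_right (h1 x) h2
    rw [one_mul] at h3
    refine h3.trans (Ex_mono n fun g => ?_)
    by_cases hg : (len S g : ℝ) ≤ R
    · rw [if_pos hg]
      exact h1 _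
    · rw [if_neg hg]
      refine (hE _ fun hxg => hg ?_).le
      have := hR x hx _ hxg
      rwa [inv_mul_cancel_left] at this
  have := Finset.sum_le_card_nsmul E _ _ key
  simpa [nsmul_eq_mul] using this

/-- the test function -/
theorem fol1_test (hS : SymGen S) {r : ℕ} (hr : 0 < r) {E' E : Finset H} (hne : E'.Nonempty)
    (h : ∀ x ∈ E', ∀ h : H, len S h ≤ r → x * h ∈ E) :
    ∃ f : H → ℝ, (∀ x, 0 ≤ f x) ∧ (∀ x, f x ≤ 1) ∧ (∀ x ∈ E', f x = 1) ∧
      (∀ x, x ∉ E → f x = 0) ∧ ∀ x, ∀ s ∈ S, (f (x * s) - f x) ^ 2 ≤ ((r : ℝ) ^ 2)⁻¹ := by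
  classical
  have hr' : (0 : ℝ) < r := by exact_mod_cast hr
  obtain ⟨d, hd⟩ : ∃ d : H → ℕ, d = fun x => E'.inf' hne (fun y => len S (y⁻¹ * x)) := ⟨_, rfl⟩
  have hd1 : ∀ x, ∀ y ∈ E', d x ≤ len S (y⁻¹ * x) := fun x y hy => by
    rw [hd]
    exact Finset.inf'_le (fun y => len S (y⁻¹ * x)) hy
  have hd2 : ∀ x, ∃ y ∈ E', d x = len S (y⁻¹ * x) := fun x => by
    rw [hd]
    exact Finset.exists_mem_eq_inf' hne (fun y => len S (y⁻¹ * x))
  have hd3 : ∀ x, ∀ s ∈ S, d (x * s) ≤ d x + 1 := by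
    intro x s hs
    obtain ⟨y, hy, e⟩ := hd2 x
    refine (hd1 _ y hy).trans ?_
    rw [← mul_assoc, e]
    exact (len_mul_le hS.gen _ _).trans (Nat.add_le_add_left (len_le_one hs) _)
  have hd4 : ∀ x, ∀ s ∈ S, d x ≤ d (x * s) + 1 := by
    intro x s hs
    have := hd3 (x * s) s⁻¹ (hS.inv s hs)
    rwa [mul_inv_cancel_right] at this
  refine ⟨fun x => max 0 (1 - d x / r), fun x => le_max_left _ _, fun x => ?_, fun x hx => ?_,
    fun x hx => ?_, fun x s hs => ?_⟩
  · refine max_le zero_le_one ?_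
    have : (0 : ℝ) ≤ d x / r := by positivity
    linarith
  · have h0 : d x = 0 := by
      have := hd1 x x hx
      rw [inv_mul_cancel, len_one] at this
      exact Nat.le_zero.mp this
    simp [h0]
  · have h1 : r < d x := by
      by_contra hlt
      obtain ⟨y, hy, e⟩ := hd2 x
      have h2 := h y hy (y⁻¹ * x) (by rw [← e]; exact not_lt.mp hlt)
      rw [mul_inv_cancel_left] at h2
      exact hx h2
    refine max_eq_left ?_
    rw [sub_nonpos, one_le_div hr']
    exact_mod_cast h1.le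
  · have h3 : (d (x * s) : ℝ) ≤ d x + 1 := by exact_mod_cast hd3 x s hs
    have h4 : (d x : ℝ) ≤ d (x * s) + 1 := by exact_mod_cast hd4 x s hs
    have h5 : |max 0 (1 - (d (x * s) : ℝ) / r) - max 0 (1 - (d x : ℝ) / r)| ≤ 1 / r := by
      rw [max_comm 0, max_comm 0]
      refine (abs_max_sub_max_le_abs _ _ _).trans ?_
      have e : 1 - (d (x * s) : ℝ) / r - (1 - d x / r) = (d x - d (x * s)) / r := by ring
      rw [e, abs_div, abs_of_pos hr']
      refine div_le_div_of_nonneg_right ?_ hr'.le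
      rw [abs_le]
      constructor <;> linarith
    have h6 := pow_le_pow_left₀ (abs_nonneg _) h5 2
    rw [sq_abs] at h6
    simpa using h6

/-- the lower bound for the return probabilities -/
theorem fol1_lower (hS : SymGen S) {f : H → ℝ} (hf : fol1_fs f) (h0 : 0 < fol1_ip f f)
    {t : ℝ} (ht0 : 0 ≤ t) (ht1 : t ≤ 1 / 2)
    (ht : fol1_ip f f - fol1_ip (avg S f) f ≤ t * fol1_ip f f) (k : ℕ) :
    Real.exp (-(4 * t * k)) * fol1_ip f f ≤ fol1_ip f ((avg S)^[2 * k] f) := by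
  have h1t : 0 < 1 - t := by linarith
  have e1 : fol1_ip f ((avg S)^[2 * k] f) = fol1_ip ((avg S)^[k] f) ((avg S)^[k] f) := by
    rw [fol1_ip_iter hS.inv k hf, ← Function.iterate_add_apply, two_mul]
  have h2 : (1 - t) * fol1_ip f f ≤ fol1_ip (avg S f) f := by linarith
  have h3 : fol1_ip (avg S f) f ^ 2 ≤ fol1_ip (avg S f) (avg S f) * fol1_ip f f :=
    fol1_cs (fol1_fs_avg hf) hf
  have h4 : ((1 - t) * fol1_ip f f) ^ 2 ≤ fol1_ip (avg S f) f ^ 2 :=
    pow_le_pow_left₀ (mul_nonneg h1t.le h0.le) h2 2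
  have h5 : (1 - t) ^ 2 * fol1_ip f f ≤ fol1_ip (avg S f) (avg S f) := by
    refine le_of_mul_le_mul_right ?_ h0
    calc (1 - t) ^ 2 * fol1_ip f f * fol1_ip f f = ((1 - t) * fol1_ip f f) ^ 2 := by ring
      _ ≤ _ := h4.trans h3
  have h6 := fol1_seq (fun k => fol1_ip ((avg S)^[k] f) ((avg S)^[k] f))
    (fun k => fol1_logconv hS.inv hf k) h0 ((1 - t) ^ 2) (by positivity) h5 k
  rw [e1]
  refine le_trans (mul_le_mul_of_nonneg_right ?_ h0.le) h6
  have h7 : Real.exp (-(4 * t * k)) = (Real.exp (-(2 * t)) ^ 2) ^ k := by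
    rw [← pow_mul, ← Real.exp_nat_mul]
    congr 1
    push_cast
    ring
  rw [h7]
  exact pow_le_pow_left₀ (by positivity)
    (pow_le_pow_left₀ (Real.exp_pos _).le (fol1_exp ht0 ht1) 2) k

theorem fol1_step (hS : SymGen S) {C : ℕ} {r : ℕ} (hr : 0 < r) (hrC : 2 * C ≤ r)
    {E' E : Finset H} (hne : E'.Nonempty)
    (h1 : ∀ x ∈ E', ∀ h : H, len S h ≤ r → x * h ∈ E)
    (h2 : ∀ x ∈ E, ∀ y ∈ E, len S (x⁻¹ * y) ≤ C * (r + 1)) (h3 : E.card ≤ C * E'.card)
    (k : ℕ) :
    0 < C ∧ (C : ℝ)⁻¹ * Real.exp (-(4 * (C / (r : ℝ) ^ 2) * k)) ≤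
      Ex S (2 * k) (fun g => if (len S g : ℝ) ≤ C * (r + 1) then 1 else 0) := by
  have hr' : (0 : ℝ) < r := by exact_mod_cast hr
  have hr1 : (1 : ℝ) ≤ r := by exact_mod_cast hr
  obtain ⟨f, f0, f1, f2, f3, f4⟩ := fol1_test hS hr hne h1
  have hf : fol1_fs f := ⟨E, f3⟩
  have hsub : E' ⊆ E := fun x hx => by
    have := h1 x hx 1 (by rw [len_one]; exact Nat.zero_le _)
    rwa [mul_one] at this
  have hcE' : 0 < E'.card := hne.card_pos
  have hcE : 0 < E.card := lt_of_lt_of_le hcE' (Finset.card_le_card hsub)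
  have hC : 0 < C := by
    rcases Nat.eq_zero_or_pos C with h | h
    · rw [h, zero_mul] at h3
      omega
    · exact h
  refine ⟨hC, ?_⟩
  have hC' : (0 : ℝ) < C := by exact_mod_cast hC
  have hcE'' : (0 : ℝ) < E.card := by exact_mod_cast hcE
  have hcE0 : (0 : ℝ) < E'.card := by exact_mod_cast hcE'
  have h3' : (E.card : ℝ) ≤ C * E'.card := by exact_mod_cast h3
  have hlow : (E'.card : ℝ) ≤ fol1_ip f f := by
    rw [fol1_ip_eq f3]
    calc (E'.card : ℝ) = ∑ x ∈ E', f x * f x := by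
          rw [Finset.sum_congr rfl (fun x hx => by rw [f2 x hx, one_mul])]
          simp
      _ ≤ ∑ x ∈ E, f x * f x :=
          Finset.sum_le_sum_of_subset_of_nonneg hsub fun x _ _ => mul_self_nonneg _
  have hpos : 0 < fol1_ip f f := lt_of_lt_of_le hcE0 hlow
  have hen := fol1_energy hS.ne f3 f4
  have hen2 : fol1_ip f f - fol1_ip (avg S f) f ≤ (C / (r : ℝ) ^ 2) * fol1_ip f f := by
    refine hen.trans ?_
    calc ((r : ℝ) ^ 2)⁻¹ * E.card ≤ ((r : ℝ) ^ 2)⁻¹ * (C * fol1_ip f f) :=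
          mul_le_mul_of_nonneg_left (h3'.trans (mul_le_mul_of_nonneg_left hlow hC'.le))
            (by positivity)
      _ = (C / (r : ℝ) ^ 2) * fol1_ip f f := by ring
  have ht1 : (C : ℝ) / (r : ℝ) ^ 2 ≤ 1 / 2 := by
    rw [div_le_div_iff₀ (by positivity) (by norm_num)]
    have h4 : (2 : ℝ) * C ≤ r := by exact_mod_cast hrC
    nlinarith
  have hL := fol1_lower hS hf hpos (by positivity) ht1 hen2 k
  have hU := fol1_upper (S := S) (R := C * (r + 1)) f3 f0 f1
    (fun x hx y hy => by exact_mod_cast h2 x hx y hy) (2 * k)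
  have h5 : Real.exp (-(4 * (C / (r : ℝ) ^ 2) * k)) * E'.card ≤
      E.card * Ex S (2 * k) (fun g => if (len S g : ℝ) ≤ C * (r + 1) then 1 else 0) :=
    (mul_le_mul_of_nonneg_left hlow (Real.exp_pos _).le).trans (hL.trans hU)
  set X := Ex S (2 * k) (fun g => if (len S g : ℝ) ≤ C * (r + 1) then 1 else 0) with hX
  have hX0 : 0 ≤ X := Ex_nonneg _ fun g => by split_ifs <;> norm_num
  have h6 : Real.exp (-(4 * (C / (r : ℝ) ^ 2) * k)) * E'.card ≤ C * X * E'.card :=
    h5.trans ((mul_le_mul_of_nonneg_right h3' hX0).trans (le_of_eq (by ring)))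
  have h7 := le_of_mul_le_mul_right h6 hcE0
  rw [inv_mul_le_iff₀ hC']
  exact h7

end Vale.Agent.P188.SG

end

section

/-!
P188, Theorem S: weak mixing of the random walk on vectors orthogonal to the finite-dimensional
invariant subspaces.
-/

universe u v w

open Filter Topology

namespace Vale.Agent.P188.SG

/-- bounded real sequences converge along ultrafilters -/
theorem weakMix_lim (U : Ultrafilter ℕ) (x : ℕ → ℝ) (M : ℝ) (h : ∀ n, |x n| ≤ M) :
    ∃ l, Tendsto x U (𝓝 l) := by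
  have hc : IsCompact (Set.Icc (-M) M) := isCompact_Icc
  obtain ⟨l, -, hl⟩ := hc.ultrafilter_le_nhds (U.map x) (by
    rw [le_principal_iff, Ultrafilter.coe_map, mem_map]
    exact Filter.univ_mem' (fun n => abs_le.mp (h n)))
  exact ⟨l, hl⟩

/-- the bounded operator of a bounded bilinear form -/
theorem weakMix_op {V : Type v} [NormedAddCommGroup V] [InnerProductSpace ℝ V] [CompleteSpace V]
    (B : V → V → ℝ) (h1 : ∀ x y z, B (x + y) z = B x z + B y z)
    (h2 : ∀ (a : ℝ) x z, B (a • x) z = a * B x z)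
    (h3 : ∀ x y z, B x (y + z) = B x y + B x z)
    (h4 : ∀ (a : ℝ) x z, B x (a • z) = a * B x z)
    (C : ℝ) (hC : 0 ≤ C) (h5 : ∀ x y, |B x y| ≤ C * ‖x‖ * ‖y‖) :
    ∃ T : V →L[ℝ] V, ∀ x y, inner ℝ (T x) y = B x y := by
  have hφ : ∀ x : V, ∃ φ : V →L[ℝ] ℝ, ∀ y, φ y = B x y := by
    intro x
    refine ⟨LinearMap.mkContinuous
      { toFun := B x
        map_add' := h3 x
        map_smul' := fun a z => by simpa using h4 a x z } (C * ‖x‖) (fun y => ?_), fun y => rfl⟩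
    simpa using h5 x y
  choose φ hφ using hφ
  have hin : ∀ x y, inner ℝ ((InnerProductSpace.toDual ℝ V).symm (φ x)) y = B x y := by
    intro x y
    rw [InnerProductSpace.toDual_symm_apply, hφ]
  have hnorm : ∀ x, ‖(InnerProductSpace.toDual ℝ V).symm (φ x)‖ ≤ C * ‖x‖ := by
    intro x
    rw [LinearIsometryEquiv.norm_map]
    refine ContinuousLinearMap.opNorm_le_bound _ (by positivity) (fun y => ?_)
    rw [hφ, Real.norm_eq_abs]
    exact h5 x y
  refine ⟨LinearMap.mkContinuous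
    { toFun := fun x => (InnerProductSpace.toDual ℝ V).symm (φ x)
      map_add' := fun x y => ?_
      map_smul' := fun a x => ?_ } C hnorm, fun x y => hin x y⟩
  · refine ext_inner_right ℝ (fun z => ?_)
    rw [inner_add_left, hin, hin, hin, h1]
  · refine ext_inner_right ℝ (fun z => ?_)
    rw [hin, h2, RingHom.id_apply, real_inner_smul_left, hin]

section Rep

variable {H : Type u} [Group H] {S : Finset H}
variable {V : Type v} [NormedAddCommGroup V] [InnerProductSpace ℝ V]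

/-- the averaged form `B_n` -/
noncomputable def weakMixB (S : Finset H) (π : H →* (V ≃ₗᵢ[ℝ] V)) (u : V) (n : ℕ) (x y : V) : ℝ :=
  (n : ℝ)⁻¹ * ∑ j ∈ Finset.range n, Ex S j (fun g => inner ℝ (π g u) x * inner ℝ (π g u) y)

theorem weakMixB_comm (π : H →* (V ≃ₗᵢ[ℝ] V)) (u : V) (n : ℕ) (x y : V) :
    weakMixB S π u n x y = weakMixB S π u n y x := by
  unfold weakMixB
  simp only [mul_comm (inner ℝ (π _ u) x)]

theorem weakMixB_add (π : H →* (V ≃ₗᵢ[ℝ] V)) (u : V) (n : ℕ) (x y z : V) :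
    weakMixB S π u n (x + y) z = weakMixB S π u n x z + weakMixB S π u n y z := by
  unfold weakMixB
  rw [← mul_add, ← Finset.sum_add_distrib]
  congr 1
  refine Finset.sum_congr rfl (fun j _ => ?_)
  rw [← Ex_add]
  congr 1
  funext g
  rw [inner_add_right]
  ring

theorem weakMixB_smul (π : H →* (V ≃ₗᵢ[ℝ] V)) (u : V) (n : ℕ) (a : ℝ) (x z : V) :
    weakMixB S π u n (a • x) z = a * weakMixB S π u n x z := by
  unfold weakMixB
  rw [mul_left_comm a]
  congr 1
  rw [Finset.mul_sum]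
  refine Finset.sum_congr rfl (fun j _ => ?_)
  rw [← Ex_smul]
  congr 1
  funext g
  rw [real_inner_smul_right]
  ring

/-- averages of bounded quantities are bounded -/
theorem weakMix_avg_le (n : ℕ) (f : ℕ → ℝ) (M : ℝ) (hM : 0 ≤ M) (h : ∀ j, f j ≤ M) :
    (n : ℝ)⁻¹ * ∑ j ∈ Finset.range n, f j ≤ M := by
  have h1 : ∑ j ∈ Finset.range n, f j ≤ n * M := by
    have := Finset.sum_le_card_nsmul (Finset.range n) f M (fun j _ => h j)
    simpa using this
  rcases Nat.eq_zero_or_pos n with rfl | hn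
  · simpa using hM
  · have hn' : (0 : ℝ) < n := by exact_mod_cast hn
    calc (n : ℝ)⁻¹ * ∑ j ∈ Finset.range n, f j ≤ (n : ℝ)⁻¹ * (n * M) :=
          mul_le_mul_of_nonneg_left h1 (by positivity)
      _ = M := by field_simp

theorem weakMixB_abs (hS : S.Nonempty) (π : H →* (V ≃ₗᵢ[ℝ] V)) (u : V) (n : ℕ) (x y : V) :
    |weakMixB S π u n x y| ≤ ‖u‖ ^ 2 * ‖x‖ * ‖y‖ := by
  have hb : ∀ j, |Ex S j (fun g => inner ℝ (π g u) x * inner ℝ (π g u) y)| ≤
      ‖u‖ ^ 2 * ‖x‖ * ‖y‖ := by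
    intro j
    refine Ex_abs_le hS j (fun g => ?_)
    rw [abs_mul]
    have h1 := abs_real_inner_le_norm (π g u) x
    have h2 := abs_real_inner_le_norm (π g u) y
    rw [LinearIsometryEquiv.norm_map] at h1 h2
    calc |inner ℝ (π g u) x| * |inner ℝ (π g u) y| ≤ (‖u‖ * ‖x‖) * (‖u‖ * ‖y‖) :=
          mul_le_mul h1 h2 (abs_nonneg _) (by positivity)
      _ = ‖u‖ ^ 2 * ‖x‖ * ‖y‖ := by ring
  unfold weakMixB
  rw [abs_le]
  constructor
  · have := weakMix_avg_le n (fun j => -Ex S j (fun g => inner ℝ (π g u) x * inner ℝ (π g u) y))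
      (‖u‖ ^ 2 * ‖x‖ * ‖y‖) (by positivity) (fun j => by
        have := neg_abs_le (Ex S j (fun g => inner ℝ (π g u) x * inner ℝ (π g u) y))
        have := hb j
        linarith)
    rw [Finset.sum_neg_distrib, mul_neg] at this
    linarith
  · exact weakMix_avg_le n _ _ (by positivity) (fun j => (le_abs_self _).trans (hb j))

theorem weakMixB_nonneg (π : H →* (V ≃ₗᵢ[ℝ] V)) (u : V) (n : ℕ) (x : V) :
    0 ≤ weakMixB S π u n x x := by
  unfold weakMixB
  refine mul_nonneg (by positivity) (Finset.sum_nonneg (fun j _ => ?_))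
  exact Ex_nonneg j (fun g => mul_self_nonneg _)

theorem weakMixB_trace (hS : S.Nonempty) (π : H →* (V ≃ₗᵢ[ℝ] V)) (u : V) (n : ℕ) (m : ℕ)
    (e : Fin m → V) (he : Orthonormal ℝ e) :
    ∑ i, weakMixB S π u n (e i) (e i) ≤ ‖u‖ ^ 2 := by
  unfold weakMixB
  rw [← Finset.mul_sum, Finset.sum_comm]
  refine weakMix_avg_le n _ _ (by positivity) (fun j => ?_)
  rw [← Ex_sum]
  rw [← Ex_const (S := S) hS j (‖u‖ ^ 2)]
  refine Ex_mono j (fun g => ?_)
  have h1 := Orthonormal.sum_inner_products_le (π g u) he (s := Finset.univ)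
  rw [LinearIsometryEquiv.norm_map] at h1
  refine le_trans (le_of_eq ?_) h1
  refine Finset.sum_congr rfl (fun i _ => ?_)
  rw [Real.norm_eq_abs, sq_abs, real_inner_comm (e i) (π g u)]
  ring

/-- stationarity -/
theorem weakMixB_stat (hS : S.Nonempty) (π : H →* (V ≃ₗᵢ[ℝ] V)) (u : V) (x : V) :
    Tendsto (fun n => (S.card : ℝ)⁻¹ * ∑ s ∈ S,
      weakMixB S π u n ((π s)⁻¹ x) ((π s)⁻¹ x) - weakMixB S π u n x x) atTop (𝓝 0) := by
  set φ : H → ℝ := fun g => inner ℝ (π g u) x * inner ℝ (π g u) x with hφ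
  have hb : ∀ g, |φ g| ≤ (‖u‖ * ‖x‖) ^ 2 := by
    intro g
    have h1 := abs_real_inner_le_norm (π g u) x
    rw [LinearIsometryEquiv.norm_map] at h1
    rw [hφ]
    simp only [abs_mul]
    rw [sq]
    exact mul_le_mul h1 h1 (abs_nonneg _) (by positivity)
  have hkey : ∀ n, (S.card : ℝ)⁻¹ * ∑ s ∈ S,
      weakMixB S π u n ((π s)⁻¹ x) ((π s)⁻¹ x) - weakMixB S π u n x x =
      (n : ℝ)⁻¹ * (Ex S n φ - Ex S 0 φ) := by
    intro n
    have e1 : ∀ s ∈ S, weakMixB S π u n ((π s)⁻¹ x) ((π s)⁻¹ x) =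
        (n : ℝ)⁻¹ * ∑ j ∈ Finset.range n, Ex S j (fun g => φ (s * g)) := by
      intro s _
      unfold weakMixB
      congr 1
      refine Finset.sum_congr rfl (fun j _ => ?_)
      congr 1
      funext g
      have e2 : inner ℝ (π g u) ((π s)⁻¹ x) = inner ℝ (π (s * g) u) x := by
        rw [← LinearIsometryEquiv.inner_map_map (π s) (π g u) ((π s)⁻¹ x), map_mul]
        congr 1
        show (π s * (π s)⁻¹) x = x
        rw [mul_inv_cancel]
        rfl
      rw [hφ]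
      simp only [e2]
    rw [Finset.sum_congr rfl e1, ← Finset.mul_sum, Finset.sum_comm, mul_left_comm,
      Finset.mul_sum (Finset.range n)]
    have e3 : ∑ j ∈ Finset.range n, (S.card : ℝ)⁻¹ * ∑ s ∈ S, Ex S j (fun g => φ (s * g)) =
        ∑ j ∈ Finset.range n, Ex S (j + 1) φ :=
      Finset.sum_congr rfl (fun j _ => (Ex_succ' j φ).symm)
    rw [e3]
    have e4 : weakMixB S π u n x x = (n : ℝ)⁻¹ * ∑ j ∈ Finset.range n, Ex S j φ := rfl
    rw [e4, ← mul_sub, ← Finset.sum_sub_distrib, Finset.sum_range_sub (fun j => Ex S j φ)]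
  simp only [hkey]
  refine squeeze_zero_norm (a := fun n : ℕ => (n : ℝ)⁻¹ * (2 * (‖u‖ * ‖x‖) ^ 2)) (fun n => ?_) ?_
  · rw [norm_mul, Real.norm_eq_abs, Real.norm_eq_abs, abs_of_nonneg (by positivity)]
    refine mul_le_mul_of_nonneg_left ?_ (by positivity)
    have h1 := Ex_abs_le hS n hb
    have h2 := Ex_abs_le hS 0 hb
    have h3 := abs_sub (Ex S n φ) (Ex S 0 φ)
    linarith
  · have := (tendsto_inv_atTop_nhds_zero_nat (𝕜 := ℝ)).mul_const (2 * (‖u‖ * ‖x‖) ^ 2)
    simpa using this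

variable [CompleteSpace V]

theorem weak_mixing (hS : SymGen S) (π : H →* (V ≃ₗᵢ[ℝ] V)) (u v : V) (hu : FDOrth π u) :
    Tendsto (fun n : ℕ => (n : ℝ)⁻¹ *
      ∑ j ∈ Finset.range n, Ex S j (fun g => (inner ℝ (π g u) v) ^ 2)) atTop (𝓝 0) := by
  have hrw : (fun n : ℕ => (n : ℝ)⁻¹ *
      ∑ j ∈ Finset.range n, Ex S j (fun g => (inner ℝ (π g u) v) ^ 2)) =
      fun n => weakMixB S π u n v v := by
    funext n
    simp only [weakMixB, sq]
  rw [hrw]
  by_contra hcon
  rw [Metric.tendsto_nhds] at hcon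
  push Not at hcon
  obtain ⟨ε, hε, hfr⟩ := hcon
  rw [frequently_iff_neBot] at hfr
  set U : Ultrafilter ℕ := Ultrafilter.of (atTop ⊓ 𝓟 {n | ε ≤ dist (weakMixB S π u n v v) 0}) with hU
  have hUle : (U : Filter ℕ) ≤ atTop ⊓ 𝓟 {n | ε ≤ dist (weakMixB S π u n v v) 0} :=
    Ultrafilter.of_le _
  have hUtop : (U : Filter ℕ) ≤ atTop := hUle.trans inf_le_left
  have hUε : ∀ᶠ n in (U : Filter ℕ), ε ≤ weakMixB S π u n v v := by
    have : ∀ᶠ n in (U : Filter ℕ), ε ≤ dist (weakMixB S π u n v v) 0 :=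
      hUle.trans inf_le_right (mem_principal_self _)
    filter_upwards [this] with n hn
    rwa [Real.dist_eq, sub_zero, abs_of_nonneg (weakMixB_nonneg π u n v)] at hn
  have hlim : ∀ x y : V, ∃ l, Tendsto (fun n => weakMixB S π u n x y) U (𝓝 l) := fun x y =>
    weakMix_lim U _ _ (fun n => weakMixB_abs hS.ne π u n x y)
  choose B hB using hlim
  have hadd : ∀ x y z, B (x + y) z = B x z + B y z := fun x y z => by
    refine tendsto_nhds_unique (hB (x + y) z) ?_
    simp only [weakMixB_add]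
    exact (hB x z).add (hB y z)
  have hsmul : ∀ (a : ℝ) x z, B (a • x) z = a * B x z := fun a x z => by
    refine tendsto_nhds_unique (hB (a • x) z) ?_
    simp only [weakMixB_smul]
    exact (hB x z).const_mul a
  have hcomm : ∀ x y, B x y = B y x := fun x y => by
    refine tendsto_nhds_unique (hB x y) ?_
    simp only [weakMixB_comm π u _ x y]
    exact hB y x
  have hBabs : ∀ x y, |B x y| ≤ ‖u‖ ^ 2 * ‖x‖ * ‖y‖ := fun x y =>
    le_of_tendsto (hB x y).abs (Eventually.of_forall (fun n => weakMixB_abs hS.ne π u n x y))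
  obtain ⟨T, hT⟩ := weakMix_op B hadd hsmul (fun x y z => by
      rw [hcomm x, hadd, hcomm y, hcomm z]) (fun a x z => by rw [hcomm x, hsmul, hcomm z])
      (‖u‖ ^ 2) (by positivity) hBabs
  have hpos : ∀ x, 0 ≤ B x x := fun x =>
    ge_of_tendsto (hB x x) (Eventually.of_forall (fun n => weakMixB_nonneg π u n x))
  have htr : ∀ (m : ℕ) (e : Fin m → V), Orthonormal ℝ e →
      ∑ i, inner ℝ (T (e i)) (e i) ≤ ‖u‖ ^ 2 := by
    intro m e he
    simp only [hT]
    have h1 : Tendsto (fun n => ∑ i, weakMixB S π u n (e i) (e i)) U (𝓝 (∑ i, B (e i) (e i))) :=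
      tendsto_finsetSum _ (fun i _ => hB (e i) (e i))
    exact le_of_tendsto h1 (Eventually.of_forall (fun n => weakMixB_trace hS.ne π u n m e he))
  have hvv : ε ≤ B v v := ge_of_tendsto (hB v v) hUε
  have hT0 : T ≠ 0 := by
    intro h0
    have := hT v v
    rw [h0, zero_apply, inner_zero_left] at this
    linarith
  obtain ⟨lam, W, hlam, hW, hW0, hle, hiff⟩ := top_eigenspace T
    (fun x y => by rw [hT, real_inner_comm, hT, hcomm]) (fun x => by rw [hT]; exact hpos x)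
    (‖u‖ ^ 2) htr hT0
  have hstat : ∀ x, (S.card : ℝ)⁻¹ * ∑ s ∈ S, B ((π s)⁻¹ x) ((π s)⁻¹ x) = B x x := by
    intro x
    have h1 : Tendsto (fun n => (S.card : ℝ)⁻¹ * ∑ s ∈ S,
        weakMixB S π u n ((π s)⁻¹ x) ((π s)⁻¹ x) - weakMixB S π u n x x) U
        (𝓝 ((S.card : ℝ)⁻¹ * ∑ s ∈ S, B ((π s)⁻¹ x) ((π s)⁻¹ x) - B x x)) :=
      ((tendsto_finsetSum _ (fun s _ => hB _ _)).const_mul _).sub (hB x x)
    have h2 := tendsto_nhds_unique h1 ((weakMixB_stat hS.ne π u x).mono_left hUtop)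
    linarith
  have hcard : (0 : ℝ) < S.card := by exact_mod_cast hS.ne.card_pos
  have hinv1 : ∀ s ∈ S, ∀ x ∈ W, (π s)⁻¹ x ∈ W := by
    intro s hs x hx
    have h1 : B x x = lam * ‖x‖ ^ 2 := by rw [← hT]; exact (hiff x).2 hx
    have h2 : ∀ t ∈ S, B ((π t)⁻¹ x) ((π t)⁻¹ x) ≤ lam * ‖x‖ ^ 2 := by
      intro t _
      have := hle ((π t)⁻¹ x)
      rw [hT, LinearIsometryEquiv.norm_map] at this
      exact this
    have h3 : ∑ t ∈ S, B ((π t)⁻¹ x) ((π t)⁻¹ x) = ∑ _t ∈ S, lam * ‖x‖ ^ 2 := by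
      have h4 := hstat x
      rw [h1] at h4
      rw [Finset.sum_const, nsmul_eq_mul]
      field_simp at h4
      linarith
    have h5 := (Finset.sum_eq_sum_iff_of_le h2).1 h3 s hs
    rw [← hiff, hT, LinearIsometryEquiv.norm_map]
    exact h5
  have hinv2 : ∀ s ∈ S, ∀ x ∈ W, π s x ∈ W := by
    intro s hs x hx
    have := hinv1 s⁻¹ (hS.inv s hs) x hx
    rwa [map_inv, inv_inv] at this
  have hInv : Inv π W := by
    intro g
    have hg : g ∈ Subgroup.closure (S : Set H) := by rw [hS.gen]; trivial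
    induction hg using Subgroup.closure_induction'' with
    | mem s hs => exact hinv2 s hs
    | inv_mem s hs => 
      intro x hx
      rw [map_inv]
      exact hinv1 s hs x hx
    | one => 
      intro x hx
      rw [map_one]
      exact hx
    | mul a b _ _ ha hb =>
      intro x hx
      rw [map_mul]
      exact ha _ (hb x hx)
  have horth : ∀ x ∈ W, ∀ g, inner ℝ (π g u) x = 0 := by
    intro x hx g
    have h1 := hu W hW hInv _ (hInv g⁻¹ x hx)
    rw [← LinearIsometryEquiv.inner_map_map (π g)] at h1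
    rw [real_inner_comm]
    have h2 : π g (π g⁻¹ x) = x := by
      show (π g * π g⁻¹) x = x
      rw [← map_mul, mul_inv_cancel, map_one]
      rfl
    rwa [h2] at h1
  obtain ⟨x, hx, hx0⟩ := Submodule.exists_mem_ne_zero_of_ne_bot hW0
  have h1 : B x x = 0 := by
    have : ∀ n, weakMixB S π u n x x = 0 := by
      intro n
      unfold weakMixB
      have : (fun g => inner ℝ (π g u) x * inner ℝ (π g u) x) = fun _ : H => (0 : ℝ) := by
        funext g
        rw [horth x hx g, mul_zero]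
      simp only [this, Ex_const hS.ne, Finset.sum_const_zero, mul_zero]
    refine tendsto_nhds_unique (hB x x) ?_
    simp only [this]
    exact tendsto_const_nhds
  have h2 : B x x = lam * ‖x‖ ^ 2 := by rw [← hT]; exact (hiff x).2 hx
  have h3 : 0 < ‖x‖ := norm_pos_iff.2 hx0
  have h4 : 0 < lam * ‖x‖ ^ 2 := by positivity
  linarith

end Rep

end Vale.Agent.P188.SG

end

section

/-!
P188, Gromov-lite: polynomial growth gives a cautious random walk.
-/

universe u v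

open Filter Topology Pointwise

namespace Vale.Agent.P188.H796

open Vale.Agent.P188.SG

variable {H : Type u} [Group H] {S : Finset H}

theorem ball_growth (hS : Subgroup.closure (S : Set H) = ⊤) {D : ℕ} (hG : GrowthLE H D) :
    ∃ C : ℕ, ∀ n : ℕ, {x : H | len S x ≤ n}.ncard ≤ C * (n + 1) ^ D := by
  classical
  let U : Set H := ((insert 1 (S ∪ S.image fun x => x⁻¹) : Finset H) : Set H)
  have hU : U.Finite := Finset.finite_toSet _
  have hU1 : (1 : H) ∈ U := Finset.mem_coe.2 (Finset.mem_insert_self _ _)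
  obtain ⟨C, hC⟩ := hG U hU
  refine ⟨C, fun n => le_trans (Set.ncard_le_ncard ?_ (finite_pow hU n)) (hC n)⟩
  have hmem : ∀ l : List H, (∀ a ∈ l, a ∈ S ∨ a⁻¹ ∈ S) → l.prod ∈ U ^ l.length := by
    intro l
    induction l with
    | nil => intro _; simp
    | cons a l ih =>
      intro hl
      rw [List.prod_cons, List.length_cons, pow_succ']
      refine Set.mul_mem_mul ?_ (ih fun b hb => hl b (List.mem_cons_of_mem _ hb))
      rcases hl a List.mem_cons_self with h | h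
      · exact Finset.mem_coe.2 (Finset.mem_insert_of_mem (Finset.mem_union_left _ h))
      · refine Finset.mem_coe.2 (Finset.mem_insert_of_mem (Finset.mem_union_right _ ?_))
        exact Finset.mem_image.mpr ⟨a⁻¹, h, inv_inv a⟩
  intro x hx
  obtain ⟨l, h1, h2, h3⟩ := len_list hS x
  have h4 := hmem l h2
  rw [h3, h1] at h4
  exact Set.pow_subset_pow_right hU1 hx h4

/-- doubling at infinitely many scales -/
theorem exists_doubling (b : ℕ → ℕ) (hb : ∀ n, 0 < b n) {C D : ℕ}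
    (hC : ∀ n, b n ≤ C * (n + 1) ^ D) (n0 : ℕ) :
    ∃ r : ℕ, n0 ≤ r ∧ b (2 * r) ≤ 2 ^ (D + 1) * b r := by
  by_contra hcon
  push Not at hcon
  obtain ⟨m, hm⟩ : ∃ m, m = n0 + 1 := ⟨_, rfl⟩
  have h1 : ∀ j, 2 ^ ((D + 1) * j) * b m ≤ b (2 ^ j * m) := by
    intro j
    induction j with
    | zero => simp
    | succ j ih =>
      have h2 : n0 ≤ 2 ^ j * m := by
        have : 1 * m ≤ 2 ^ j * m := Nat.mul_le_mul_right _ Nat.one_le_two_pow
        omega
      have h3 := (hcon _ h2).le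
      have e : 2 ^ (j + 1) * m = 2 * (2 ^ j * m) := by rw [pow_succ]; ring
      rw [e]
      refine le_trans ?_ h3
      have e2 : 2 ^ ((D + 1) * (j + 1)) * b m = 2 ^ (D + 1) * (2 ^ ((D + 1) * j) * b m) := by
        rw [mul_add, mul_one, pow_add]; ring
      rw [e2]
      exact Nat.mul_le_mul_left _ ih
  have h4 : ∀ j, 2 ^ j ≤ C * (2 * m) ^ D := by
    intro j
    have h5 := (h1 j).trans (hC _)
    have h6 : 2 ^ j * m + 1 ≤ 2 ^ j * (2 * m) := by
      have : 1 * m ≤ 2 ^ j * m := Nat.mul_le_mul_right _ Nat.one_le_two_pow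
      have h7 : 1 ≤ m := by omega
      have : 2 ^ j * (2 * m) = 2 ^ j * m + 2 ^ j * m := by ring
      omega
    have h7 : 2 ^ ((D + 1) * j) ≤ C * (2 ^ j * (2 * m)) ^ D := by
      refine le_trans ?_ (h5.trans (Nat.mul_le_mul_left _ (Nat.pow_le_pow_left h6 D)))
      exact Nat.le_mul_of_pos_right _ (hb m)
    have e1 : 2 ^ ((D + 1) * j) = 2 ^ j * (2 ^ j) ^ D := by
      rw [← pow_mul, ← pow_add]
      congr 1
      ring
    have e2 : C * (2 ^ j * (2 * m)) ^ D = C * (2 * m) ^ D * (2 ^ j) ^ D := by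
      rw [mul_pow]; ring
    rw [e1, e2] at h7
    exact Nat.le_of_mul_le_mul_right h7 (by positivity)
  exact absurd (h4 (C * (2 * m) ^ D)) (not_le.2 Nat.lt_two_pow_self)

/-- Følner pairs at infinitely many scales -/
def FolnerInf (S : Finset H) : Prop :=
  ∃ C : ℕ, ∀ n0 : ℕ, ∃ r : ℕ, n0 ≤ r ∧ ∃ E' E : Finset H, E'.Nonempty ∧
    (∀ x ∈ E', ∀ h : H, len S h ≤ r → x * h ∈ E) ∧
    (∀ x ∈ E, ∀ y ∈ E, len S (x⁻¹ * y) ≤ C * (r + 1)) ∧ E.card ≤ C * E'.card

theorem folnerInf_of_growth (hS : Subgroup.closure (S : Set H) = ⊤) {D : ℕ}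
    (hG : GrowthLE H D) : FolnerInf S := by
  classical
  obtain ⟨C, hC⟩ := ball_growth hS hG
  have hfin : ∀ n, {x : H | len S x ≤ n}.Finite := fun n => (ncard_ball_le hS n).1
  have hpos : ∀ n, 0 < {x : H | len S x ≤ n}.ncard := fun n => by
    rw [Set.ncard_pos (hfin n)]
    exact ⟨1, by simp [len_one]⟩
  refine ⟨2 ^ (D + 1) + 4, fun n0 => ?_⟩
  obtain ⟨r, hr, h1⟩ := exists_doubling _ hpos hC n0
  refine ⟨r, hr, (hfin r).toFinset, (hfin (2 * r)).toFinset, ?_, ?_, ?_, ?_⟩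
  · exact ⟨1, by simp [len_one]⟩
  · intro x hx h hh
    simp only [Set.Finite.mem_toFinset, Set.mem_ofPred_eq] at hx ⊢
    have := len_mul_le hS x h
    omega
  · intro x hx y hy
    simp only [Set.Finite.mem_toFinset, Set.mem_ofPred_eq] at hx hy
    have h2 := len_mul_le hS x⁻¹ y
    rw [len_inv hS] at h2
    have h3 : 4 * (r + 1) ≤ (2 ^ (D + 1) + 4) * (r + 1) := Nat.mul_le_mul_right _ (Nat.le_add_left _ _)
    omega
  · rw [← Set.ncard_eq_toFinset_card _ (hfin _), ← Set.ncard_eq_toFinset_card _ (hfin _)]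
    refine h1.trans (Nat.mul_le_mul_right _ (by omega))

theorem cautious_of_folnerInf (hS : SymGen S) (hF : FolnerInf S) : Cautious S := by
  intro c hc
  obtain ⟨C, hC⟩ := hF
  obtain ⟨M, hM⟩ : ∃ M : ℝ, M = 4 * C * (4 * C ^ 2 / c ^ 2 + 1) := ⟨_, rfl⟩
  obtain ⟨r₁, hr₁, E₁', E₁, hne₁, h11, h12, h13⟩ := hC (2 * C + 1)
  obtain ⟨hC0, -⟩ := fol1_step hS (by omega) (by omega) hne₁ h11 h12 h13 0
  have hC' : (0 : ℝ) < C := by exact_mod_cast hC0
  have hC1 : (1 : ℝ) ≤ C := by exact_mod_cast hC0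
  refine ⟨(C : ℝ)⁻¹ * Real.exp (-M), by positivity, ?_⟩
  rw [Filter.frequently_atTop]
  intro n0
  obtain ⟨r₀, hr₀⟩ := exists_nat_ge (c * (n0 + 1))
  obtain ⟨r, hr, E', E, hne, h1, h2, h3⟩ := hC (r₀ + 2 * C + 1)
  obtain ⟨k, hk⟩ : ∃ k : ℕ, k = ⌈(C * ((r : ℝ) + 1) / c) ^ 2⌉₊ := ⟨_, rfl⟩
  obtain ⟨-, h4⟩ := fol1_step hS (by omega) (by omega) hne h1 h2 h3 k
  have hr1 : (1 : ℝ) ≤ r := by
    have : 1 ≤ r := by omega
    exact_mod_cast this
  have hrr : c * (n0 + 1) ≤ r := by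
    have : (r₀ : ℝ) ≤ r := by
      have : r₀ ≤ r := by omega
      exact_mod_cast this
    linarith
  have hk1 : (C * ((r : ℝ) + 1) / c) ^ 2 ≤ k := hk ▸ Nat.le_ceil _
  have hk2 : (k : ℝ) < (C * ((r : ℝ) + 1) / c) ^ 2 + 1 := hk ▸ Nat.ceil_lt_add_one (by positivity)
  have h5 : (n0 : ℝ) + 1 ≤ C * ((r : ℝ) + 1) / c := by
    rw [le_div_iff₀ hc]
    nlinarith
  have h6 : (n0 : ℝ) ≤ k := by
    have : (0 : ℝ) ≤ n0 := Nat.cast_nonneg _
    nlinarith
  have h6' : n0 ≤ k := by exact_mod_cast h6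
  refine ⟨2 * k, by omega, ?_⟩
  refine le_trans ?_ (h4.trans (Ex_mono _ fun g => ?_))
  · refine mul_le_mul_of_nonneg_left (Real.exp_le_exp.mpr ?_) (by positivity)
    rw [hM, neg_le_neg_iff]
    have h7 : (k : ℝ) ≤ (4 * C ^ 2 / c ^ 2 + 1) * (r : ℝ) ^ 2 := by
      have h8 : (C * ((r : ℝ) + 1) / c) ^ 2 ≤ 4 * C ^ 2 / c ^ 2 * (r : ℝ) ^ 2 := by
        have h9 : C * ((r : ℝ) + 1) / c ≤ C * (2 * r) / c := by gcongr; linarith
        refine (pow_le_pow_left₀ (by positivity) h9 2).trans (le_of_eq ?_)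
        ring
      nlinarith
    have h10 : 4 * ((C : ℝ) / (r : ℝ) ^ 2) * k ≤
        4 * ((C : ℝ) / (r : ℝ) ^ 2) * ((4 * C ^ 2 / c ^ 2 + 1) * (r : ℝ) ^ 2) :=
      mul_le_mul_of_nonneg_left h7 (by positivity)
    refine h10.trans (le_of_eq ?_)
    field_simp
  · have h11 : (C : ℝ) * (r + 1) ≤ c * Real.sqrt ((2 * k : ℕ) : ℝ) := by
      have h12 : C * ((r : ℝ) + 1) / c ≤ Real.sqrt ((2 * k : ℕ) : ℝ) := by
        apply Real.le_sqrt_of_sq_le
        push_cast
        have : (0 : ℝ) ≤ k := Nat.cast_nonneg _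
        linarith
      rw [div_le_iff₀ hc] at h12
      linarith
    by_cases hg : (len S g : ℝ) ≤ C * (r + 1)
    · rw [if_pos hg, if_pos (hg.trans h11)]
    · rw [if_neg hg]
      split_ifs <;> norm_num

theorem cautious_of_growth (hS : SymGen S) {D : ℕ} (hG : GrowthLE H D) : Cautious S :=
  cautious_of_folnerInf hS (folnerInf_of_growth hS.gen hG)

end Vale.Agent.P188.H796

end

section

/-!
P188, Gromov-lite: the scalar product of finitely supported functions and the Dirichlet form.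
-/

universe u v

open Filter Topology Pointwise

namespace Vale.Agent.P188.H796

open Vale.Agent.P188.SG

section Fs

variable {H : Type u}

theorem fs_add {f g : H → ℝ} (hf : fol1_fs f) (hg : fol1_fs g) : fol1_fs (f + g) := by
  classical
  obtain ⟨F, hF⟩ := hf
  obtain ⟨G, hG⟩ := hg
  refine ⟨F ∪ G, fun x hx => ?_⟩
  rw [Pi.add_apply, hF x fun h => hx (Finset.mem_union_left _ h),
    hG x fun h => hx (Finset.mem_union_right _ h), add_zero]

theorem fs_smul {f : H → ℝ} (hf : fol1_fs f) (a : ℝ) : fol1_fs (a • f) := by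
  obtain ⟨F, hF⟩ := hf
  exact ⟨F, fun x hx => by rw [Pi.smul_apply, hF x hx, smul_zero]⟩

theorem fs_sub {f g : H → ℝ} (hf : fol1_fs f) (hg : fol1_fs g) : fol1_fs (f - g) := by
  have := fs_add hf (fs_smul hg (-1))
  rwa [neg_one_smul, ← sub_eq_add_neg] at this

theorem ip_add_left {f g : H → ℝ} (h : H → ℝ) (hf : fol1_fs f) (hg : fol1_fs g) :
    fol1_ip (f + g) h = fol1_ip f h + fol1_ip g h := by
  classical
  obtain ⟨F, hF⟩ := hf
  obtain ⟨G, hG⟩ := hg
  have hF' : ∀ x, x ∉ F ∪ G → f x = 0 := fun x hx =>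
    hF x fun h => hx (Finset.mem_union_left _ h)
  have hG' : ∀ x, x ∉ F ∪ G → g x = 0 := fun x hx =>
    hG x fun h => hx (Finset.mem_union_right _ h)
  rw [fol1_ip_eq hF', fol1_ip_eq hG',
    fol1_ip_eq (F := F ∪ G) (fun x hx => by rw [Pi.add_apply, hF' x hx, hG' x hx, add_zero]),
    ← Finset.sum_add_distrib]
  exact Finset.sum_congr rfl fun x _ => by rw [Pi.add_apply]; ring

theorem ip_smul_left (a : ℝ) {f : H → ℝ} (h : H → ℝ) (hf : fol1_fs f) :
    fol1_ip (a • f) h = a * fol1_ip f h := by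
  obtain ⟨F, hF⟩ := hf
  rw [fol1_ip_eq hF,
    fol1_ip_eq (F := F) (fun x hx => by rw [Pi.smul_apply, hF x hx, smul_zero]), Finset.mul_sum]
  exact Finset.sum_congr rfl fun x _ => by rw [Pi.smul_apply, smul_eq_mul]; ring

theorem ip_sub_left {f g : H → ℝ} (h : H → ℝ) (hf : fol1_fs f) (hg : fol1_fs g) :
    fol1_ip (f - g) h = fol1_ip f h - fol1_ip g h := by
  have := ip_add_left h hf (fs_smul hg (-1))
  rw [ip_smul_left _ _ hg, neg_one_smul, ← sub_eq_add_neg] at this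
  rw [this]; ring

theorem ip_add_right {f g : H → ℝ} (h : H → ℝ) (hf : fol1_fs f) (hg : fol1_fs g) :
    fol1_ip h (f + g) = fol1_ip h f + fol1_ip h g := by
  rw [fol1_ip_comm, ip_add_left h hf hg, fol1_ip_comm f, fol1_ip_comm g]

theorem ip_smul_right (a : ℝ) {f : H → ℝ} (h : H → ℝ) (hf : fol1_fs f) :
    fol1_ip h (a • f) = a * fol1_ip h f := by
  rw [fol1_ip_comm, ip_smul_left a h hf, fol1_ip_comm f]

theorem ip_sub_right {f g : H → ℝ} (h : H → ℝ) (hf : fol1_fs f) (hg : fol1_fs g) :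
    fol1_ip h (f - g) = fol1_ip h f - fol1_ip h g := by
  rw [fol1_ip_comm, ip_sub_left h hf hg, fol1_ip_comm f, fol1_ip_comm g]

/-- the norm -/
noncomputable def nrm (f : H → ℝ) : ℝ := Real.sqrt (fol1_ip f f)

theorem nrm_sq (f : H → ℝ) : nrm f ^ 2 = fol1_ip f f := Real.sq_sqrt (fol1_ip_nonneg f)

theorem nrm_nonneg (f : H → ℝ) : 0 ≤ nrm f := Real.sqrt_nonneg _

theorem nrm_add_le {f g : H → ℝ} (hf : fol1_fs f) (hg : fol1_fs g) :
    nrm (f + g) ≤ nrm f + nrm g := by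
  refine Real.sqrt_le_iff.2 ⟨add_nonneg (nrm_nonneg _) (nrm_nonneg _), ?_⟩
  have h1 := fol1_cs hf hg
  have h2 : fol1_ip f g ≤ nrm f * nrm g := by
    refine le_of_sq_le_sq ?_ (mul_nonneg (nrm_nonneg _) (nrm_nonneg _))
    rw [mul_pow, nrm_sq, nrm_sq]
    exact h1
  rw [ip_add_left _ hf hg, ip_add_right _ hf hg, ip_add_right _ hf hg, fol1_ip_comm g f,
    ← nrm_sq f, ← nrm_sq g]
  nlinarith

end Fs

variable {H : Type u} [Group H] {S : Finset H}

/-- the right regular representation -/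
def sh (g : H) (f : H → ℝ) : H → ℝ := fun x => f (x * g)

theorem sh_one (f : H → ℝ) : sh 1 f = f := funext fun x => by rw [sh, mul_one]

theorem sh_mul (g h : H) (f : H → ℝ) : sh (g * h) f = sh g (sh h f) :=
  funext fun x => by simp only [sh, mul_assoc]

theorem sh_sub (g : H) (f f' : H → ℝ) : sh g (f - f') = sh g f - sh g f' := rfl

theorem fs_sh {f : H → ℝ} (hf : fol1_fs f) (g : H) : fol1_fs (sh g f) := fol1_fs_shift hf g

theorem ip_sh (g : H) (f f' : H → ℝ) : fol1_ip (sh g f) (sh g f') = fol1_ip f f' := by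
  unfold fol1_ip sh
  exact finsum_comp_equiv (Equiv.mulRight g) (f := fun x => f x * f' x)

theorem nrm_sh (g : H) (f : H → ℝ) : nrm (sh g f) = nrm f := by
  unfold nrm
  rw [ip_sh]

theorem avg_eq_sum (f : H → ℝ) : avg S f = (S.card : ℝ)⁻¹ • ∑ s ∈ S, sh s f := by
  funext x
  rw [Pi.smul_apply, Finset.sum_apply, smul_eq_mul]
  rfl

theorem avg_sub (f g : H → ℝ) : avg S (f - g) = avg S f - avg S g := by
  funext x
  simp only [avg, Pi.sub_apply, Finset.sum_sub_distrib, mul_sub]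

theorem avg_add (f g : H → ℝ) : avg S (f + g) = avg S f + avg S g := by
  funext x
  simp only [avg, Pi.add_apply, Finset.sum_add_distrib, mul_add]

theorem avg_smul (a : ℝ) (f : H → ℝ) : avg S (a • f) = a • avg S f := by
  funext x
  simp only [avg, Pi.smul_apply, smul_eq_mul, ← Finset.mul_sum]
  ring

theorem ip_avg_left {f : H → ℝ} (hf : fol1_fs f) (g : H → ℝ) :
    fol1_ip (avg S f) g = (S.card : ℝ)⁻¹ * ∑ s ∈ S, fol1_ip (sh s f) g :=
  fol1_ip_avg_left hf g

/-- the Dirichlet form -/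
noncomputable def En (S : Finset H) (f g : H → ℝ) : ℝ := fol1_ip f g - fol1_ip (avg S f) g

theorem nrm_diff_sq {f : H → ℝ} (hf : fol1_fs f) (s : H) :
    fol1_ip (sh s f - f) (sh s f - f) = 2 * (fol1_ip f f - fol1_ip (sh s f) f) := by
  have h1 := fs_sh hf s
  rw [ip_sub_left _ h1 hf, ip_sub_right _ h1 hf, ip_sub_right _ h1 hf, ip_sh,
    fol1_ip_comm f (sh s f)]
  ring

theorem En_self (hS : S.Nonempty) {f : H → ℝ} (hf : fol1_fs f) :
    ∑ s ∈ S, fol1_ip (sh s f - f) (sh s f - f) = 2 * S.card * En S f f := by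
  have hc : (S.card : ℝ) ≠ 0 := by exact_mod_cast hS.card_pos.ne'
  rw [Finset.sum_congr rfl fun s _ => nrm_diff_sq hf s, ← Finset.mul_sum,
    Finset.sum_sub_distrib, Finset.sum_const, nsmul_eq_mul, En, ip_avg_left hf]
  field_simp

theorem En_nonneg (hS : S.Nonempty) {f : H → ℝ} (hf : fol1_fs f) : 0 ≤ En S f f := by
  have h := En_self (S := S) hS hf
  have h1 : 0 ≤ ∑ s ∈ S, fol1_ip (sh s f - f) (sh s f - f) :=
    Finset.sum_nonneg fun s _ => fol1_ip_nonneg _
  have hc : (0 : ℝ) < S.card := by exact_mod_cast hS.card_pos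
  rw [h] at h1
  by_contra hcon
  push Not at hcon
  nlinarith

theorem En_comm (hS : ∀ s ∈ S, s⁻¹ ∈ S) {f : H → ℝ} (hf : fol1_fs f) (g : H → ℝ) :
    En S f g = En S g f := by
  unfold En
  rw [fol1_ip_symm hS hf, fol1_ip_comm f g, fol1_ip_comm f]

theorem En_cs (hne : S.Nonempty) (hS : ∀ s ∈ S, s⁻¹ ∈ S) {f g : H → ℝ} (hf : fol1_fs f)
    (hg : fol1_fs g) : En S f g ^ 2 ≤ En S f f * En S g g := by
  have key : ∀ t : ℝ, 0 ≤ En S g g * (t * t) + (2 * En S f g) * t + En S f f := by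
    intro t
    have h1 := En_nonneg (S := S) hne (fs_add hf (fs_smul hg t))
    have htg := fs_smul hg t
    have e : En S (f + t • g) (f + t • g) =
        En S g g * (t * t) + (2 * En S f g) * t + En S f f := by
      have h2 := En_comm hS hf g
      unfold En at h2 ⊢
      rw [avg_add, avg_smul, ip_add_left _ hf htg, ip_add_right _ hf htg, ip_add_right _ hf htg,
        ip_add_left _ (fol1_fs_avg hf) (fs_smul (fol1_fs_avg hg) t), ip_add_right _ hf htg,
        ip_add_right _ hf htg, ip_smul_left _ _ hg, ip_smul_left _ _ hg,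
        ip_smul_right _ _ hg, ip_smul_right _ _ hg, ip_smul_right _ _ hg,
        ip_smul_left _ _ (fol1_fs_avg hg), ip_smul_left _ _ (fol1_fs_avg hg),
        ip_smul_right _ _ hg]
      have h3 := fol1_ip_comm f g
      rw [h3] at h2 ⊢
      linear_combination (-t) * h2
    rwa [e] at h1
  have h := discrim_le_zero key
  unfold discrim at h
  nlinarith

end Vale.Agent.P188.H796

end
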