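import Vale.Agent.P188.R.G025
import Vale.Agent.P188.R.G040

section

/-!
The concrete representation on polynomial functions; automorphisms.
-/

open Finset Filter Topology

universe u v

namespace Vale.Agent.P188.H796

variable {N : Type u} [Group N] {d n : ℕ}

theorem MB.closure_b (D : MB N d n) : Subgroup.closure (Set.range D.b) = ⊤ := by
  rw [eq_top_iff]
  intro y _
  rw [← D.prod_c y]
  refine Subgroup.list_prod_mem _ fun x hx => ?_
  rw [List.mem_ofFn] at hx
  obtain ⟨i, rfl⟩ := hx
  exact Subgroup.zpow_mem _ (Subgroup.subset_closure (Set.mem_range_self i)) _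

theorem MB.finiteDimensional (D : MB N d n) (k : ℕ) : FiniteDimensional ℝ (PF N k) := by
  classical
  refine PF_finite (Finset.univ.image D.b) ?_ k
  rw [Finset.coe_image, Finset.coe_univ, Set.image_univ]
  exact D.closure_b

/-- right translation on polynomial functions -/
def trL (n : ℕ) (x : N) : Module.End ℝ (PF N n) where
  toFun f := ⟨trn x f.1, trn_mem f.2 x⟩
  map_add' f g := Subtype.ext (by funext y; simp [trn])
  map_smul' c f := Subtype.ext (by funext y; simp [trn])

/-- right translations as a monoid homomorphism -/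
def trH (n : ℕ) : N →* Module.End ℝ (PF N n) where
  toFun := trL n
  map_one' := by ext f y; simp [trL, trn]
  map_mul' x y := by ext f z; simp [trL, trn, mul_assoc]

theorem trH_apply (n : ℕ) (x : N) (f : PF N n) (y : N) : (trH n x f).1 y = f.1 (y * x) := rfl

theorem prod_trH_mem (n : ℕ) (L : List N) (k : ℕ) (f : PF N n) (hf : f.1 ∈ PF N k) :
    ((L.map fun x => (trH n x - 1)).prod f).1 ∈ PF N (k - L.length) := by
  induction L with
  | nil => simpa using hf
  | cons x L ih =>
    simp only [List.map_cons, List.prod_cons, List.length_cons]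
    set g := (L.map fun x => (trH n x - 1)).prod f with hg
    have h1 : (((trH n x - 1) * (L.map fun x => (trH n x - 1)).prod) f).1 = dlt x g.1 := by
      funext y
      rw [Module.End.mul_apply, ← hg]
      simp [dlt, LinearMap.sub_apply, trH_apply]
    rw [h1]
    rcases Nat.eq_zero_or_pos (k - L.length) with h | h
    · rw [h] at ih
      have h2 : g.1 = 0 := (Submodule.mem_bot ℝ).1 ih
      rw [h2]
      have : dlt x (0 : N → ℝ) = 0 := by ext y; simp [dlt]
      rw [this]; exact Submodule.zero_mem _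
    · obtain ⟨e, he⟩ : ∃ e, k - L.length = e + 1 := ⟨k - L.length - 1, by omega⟩
      rw [he] at ih
      have h2 : k - (L.length + 1) = e := by omega
      rw [h2]
      exact ih x

theorem prod_trH_zero (n : ℕ) (m : ℕ) (hm : n ≤ m) (x : Fin m → N) :
    (List.ofFn fun i => (trH n (x i) - 1)).prod = 0 := by
  have h1 := prod_trH_mem (N := N) n (List.ofFn x)
  rw [List.map_ofFn] at h1
  ext f y
  have h2 := h1 n f f.2
  rw [List.length_ofFn, Nat.sub_eq_zero_of_le hm] at h2
  have h3 := (Submodule.mem_bot ℝ).1 h2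
  exact congrFun h3 y

/-- composition with automorphisms -/
def coH (n : ℕ) : MulAut N →* Module.End ℝ (PF N n) where
  toFun θ :=
    { toFun := fun f => ⟨f.1 ∘ (θ⁻¹ : MulAut N), comp_mem (θ⁻¹ : MulAut N).toMonoidHom f.2⟩
      map_add' := fun f g => Subtype.ext (by funext y; simp)
      map_smul' := fun c f => Subtype.ext (by funext y; simp) }
  map_one' := by ext f y; simp
  map_mul' x y := by ext f z; simp [mul_inv_rev]

theorem coH_apply (n : ℕ) (θ : MulAut N) (f : PF N n) (y : N) :
    (coH n θ f).1 y = f.1 ((θ⁻¹ : MulAut N) y) := rfl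

theorem coH_tr (n : ℕ) (θ : MulAut N) (x : N) :
    coH n θ * trH n x = trH n (θ x) * coH n θ := by
  ext f y
  rw [Module.End.mul_apply, Module.End.mul_apply, coH_apply, trH_apply, trH_apply, coH_apply,
    map_mul, MulAut.inv_apply_self]

section concrete

variable (D : MB N d n)

/-- dimension of the space of polynomial functions -/
noncomputable def MB.dim (_D : MB N d n) : ℕ := Module.finrank ℝ (PF N n)

/-- the algebra -/
abbrev MB.Alg : Type := (Fin D.dim → ℝ) →L[ℝ] (Fin D.dim → ℝ)

/-- linear coordinates on polynomial functions -/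
noncomputable def MB.e : PF N n ≃ₗ[ℝ] (Fin D.dim → ℝ) :=
  haveI := D.finiteDimensional n
  (Module.finBasis ℝ (PF N n)).equivFun

/-- the algebra as an endomorphism algebra -/
noncomputable def MB.Φ : Module.End ℝ (PF N n) ≃ₐ[ℝ] D.Alg :=
  (D.e.conjAlgEquiv ℝ).trans (Module.End.toContinuousLinearMap (Fin D.dim → ℝ))

/-- evaluation functional `a ↦ (a f)(1)` -/
noncomputable def MB.evl (f : PF N n) : D.Alg →ₗ[ℝ] ℝ where
  toFun a := ((D.Φ.symm a) f).1 1
  map_add' a b := by simp
  map_smul' c a := by simp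

/-- the representation data -/
noncomputable def MB.R : RD D D.Alg where
  ρ := (D.Φ : Module.End ℝ (PF N n) →* D.Alg).comp (trH n)
  m := n + 2
  one_lt := by omega
  nil := by
    intro x
    have h1 := prod_trH_zero (N := N) n (n + 2) (by omega) x
    have h2 := congrArg D.Φ h1
    rw [map_zero, map_list_prod, List.map_ofFn] at h2
    rw [← h2]
    congr 2
    funext i
    have h3 : D.Φ (trH n (x i) - 1) = D.Φ (trH n (x i)) - D.Φ 1 := map_sub D.Φ _ _
    rw [map_one] at h3
    exact h3.symm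
  ℓ := fun i => D.evl ⟨_, D.c_poly i⟩
  hℓ := by
    intro i y
    change ((D.Φ.symm (D.Φ (trH n y))) ⟨_, D.c_poly i⟩).1 1 = _
    rw [AlgEquiv.symm_apply_apply, trH_apply, one_mul]

theorem MB.R_ρ (x : N) : D.R.ρ x = D.Φ (trH n x) := rfl

/-- automorphisms act on the algebra -/
noncomputable def MB.Th : MulAut N →* (D.Alg ≃ₐ[ℝ] D.Alg) where
  toFun θ :=
    { toFun := fun a => D.Φ (coH n θ) * a * D.Φ (coH n θ⁻¹)
      invFun := fun a => D.Φ (coH n θ⁻¹) * a * D.Φ (coH n θ)
      left_inv := fun a => by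
        have h1 : D.Φ (coH n θ⁻¹) * D.Φ (coH n θ) = 1 := by
          rw [← map_mul, ← map_mul, inv_mul_cancel, map_one, map_one]
        simp only [← mul_assoc, h1, one_mul]
        rw [mul_assoc, h1, mul_one]
      right_inv := fun a => by
        have h1 : D.Φ (coH n θ) * D.Φ (coH n θ⁻¹) = 1 := by
          rw [← map_mul, ← map_mul, mul_inv_cancel, map_one, map_one]
        simp only [← mul_assoc, h1, one_mul]
        rw [mul_assoc, h1, mul_one]
      map_mul' := fun a b => by
        have h1 : D.Φ (coH n θ⁻¹) * D.Φ (coH n θ) = 1 := by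
          rw [← map_mul, ← map_mul, inv_mul_cancel, map_one, map_one]
        calc D.Φ (coH n θ) * (a * b) * D.Φ (coH n θ⁻¹)
            = D.Φ (coH n θ) * a * 1 * b * D.Φ (coH n θ⁻¹) := by simp only [mul_one, mul_assoc]
          _ = _ := by rw [← h1]; simp only [mul_assoc]
      map_add' := fun a b => by rw [mul_add, add_mul]
      commutes' := fun r => by
        have h1 : D.Φ (coH n θ) * D.Φ (coH n θ⁻¹) = 1 := by
          rw [← map_mul, ← map_mul, mul_inv_cancel, map_one, map_one]
        change D.Φ (coH n θ) * algebraMap ℝ D.Alg r * D.Φ (coH n θ⁻¹) = _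
        rw [← Algebra.commutes, mul_assoc, h1, mul_one] }
  map_one' := by
    ext1 a
    change D.Φ (coH n 1) * a * D.Φ (coH n 1⁻¹) = a
    rw [inv_one, map_one, map_one, one_mul, mul_one]
  map_mul' θ θ' := by
    ext1 a
    change D.Φ (coH n (θ * θ')) * a * D.Φ (coH n (θ * θ')⁻¹) =
      D.Φ (coH n θ) * (D.Φ (coH n θ') * a * D.Φ (coH n θ'⁻¹)) * D.Φ (coH n θ⁻¹)
    rw [mul_inv_rev, map_mul, map_mul, map_mul, map_mul]
    simp only [mul_assoc]

theorem MB.Th_apply (θ : MulAut N) (a : D.Alg) :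
    D.Th θ a = D.Φ (coH n θ) * a * D.Φ (coH n θ⁻¹) := rfl

theorem MB.Th_ρ (θ : MulAut N) (x : N) : D.Th θ (D.R.ρ x) = D.R.ρ (θ x) := by
  have h1 : D.Φ (coH n θ) * D.Φ (coH n θ⁻¹) = 1 := by
    rw [← map_mul, ← map_mul, mul_inv_cancel, map_one, map_one]
  rw [Th_apply, R_ρ, R_ρ, ← map_mul, coH_tr, map_mul, mul_assoc, h1, mul_one]

end concrete

end Vale.Agent.P188.H796

end

section

/-!
Automorphisms on the Lie algebra, adjoint action, topology, cocompactness.
-/

open Finset Filter Topology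

universe u v

namespace Vale.Agent.P188.H796

theorem ex_map {A B : Type*} [NormedRing A] [NormedAlgebra ℝ A] [NormedRing B] [NormedAlgebra ℝ B]
    (f : A →ₐ[ℝ] B) (m : ℕ) (v : A) : f (ex m v) = ex m (f v) := by
  simp [ex, map_sum, map_smul, map_pow]

namespace RD

section action

variable {N : Type u} [Group N] {d n : ℕ} {D : MB N d n} {A : Type v} [NormedRing A]
  [NormedAlgebra ℝ A] [FiniteDimensional ℝ A] (R : RD D A)

omit [FiniteDimensional ℝ A] in
theorem map_J (θ : N →* N) (Θ : A →ₐ[ℝ] A) (h : ∀ x, Θ (R.ρ x) = R.ρ (θ x)) {v : A}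
    (hv : v ∈ R.J) : Θ v ∈ R.J := by
  have h1 : R.J ≤ R.J.comap Θ.toLinearMap := by
    conv_lhs => rw [J]
    rw [Submodule.span_le]
    rintro _ ⟨x, rfl⟩
    change Θ (R.ρ x - 1) ∈ R.J
    rw [map_sub, map_one, h]
    exact Submodule.subset_span ⟨_, rfl⟩
  exact h1 hv

omit [FiniteDimensional ℝ A] in
theorem map_VS (θ : N →* N) (Θ : A →ₐ[ℝ] A) (h : ∀ x, Θ (R.ρ x) = R.ρ (θ x)) {v : A}
    (hv : v ∈ R.VS) : Θ v ∈ R.VS := by
  obtain ⟨hJ, s, hs⟩ := hv
  refine ⟨R.map_J θ Θ h hJ, R.act θ Θ h s, ?_⟩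
  rw [← ex_map, ← hs]
  exact R.toA_act θ Θ h s

/-- action of an automorphism on the Lie algebra -/
noncomputable def adL (θ : N →* N) (Θ : A →ₐ[ℝ] A) (h : ∀ x, Θ (R.ρ x) = R.ρ (θ x)) :
    R.V →ₗ[ℝ] R.V where
  toFun v := ⟨Θ v, R.map_VS θ Θ h v.2⟩
  map_add' v w := Subtype.ext (by simp)
  map_smul' c v := Subtype.ext (by simp)

theorem coe_adL (θ : N →* N) (Θ : A →ₐ[ℝ] A) (h : ∀ x, Θ (R.ρ x) = R.ρ (θ x)) (v : R.V) :
    ((R.adL θ Θ h v : R.V) : A) = Θ v := rfl

theorem adL_lie (θ : N →* N) (Θ : A →ₐ[ℝ] A) (h : ∀ x, Θ (R.ρ x) = R.ρ (θ x)) (v w : R.V) :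
    R.adL θ Θ h ⁅v, w⁆ = ⁅R.adL θ Θ h v, R.adL θ Θ h w⁆ :=
  Subtype.ext (by simp [coe_adL, coe_bracket])

theorem Ex_adL (θ : N →* N) (Θ : A →ₐ[ℝ] A) (h : ∀ x, Θ (R.ρ x) = R.ρ (θ x)) (v : R.V) :
    R.Ex (R.adL θ Θ h v) = R.act θ Θ h (R.Ex v) :=
  R.toA_inj (by rw [toA_Ex, toA_act, toA_Ex, ex_map, coe_adL])

theorem Ex_injective : Function.Injective R.Ex := fun v w h => by
  rw [← R.Lo_Ex v, h, R.Lo_Ex]

theorem Lo_injective : Function.Injective R.Lo := fun v w h => by
  rw [← R.Ex_Lo v, h, R.Ex_Lo]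

/-- adjoint action of the real group on the Lie algebra -/
noncomputable def Adn : R.NR →* (R.V →ₗ[ℝ] R.V) where
  toFun s :=
    { toFun := fun v => ⟨R.E s * v * (((R.EU s)⁻¹ : Aˣ) : A), R.conj_mem_V v.2 s⟩
      map_add' := fun v w => Subtype.ext (by simp [mul_add, add_mul])
      map_smul' := fun c v => Subtype.ext (by simp) }
  map_one' := by
    ext v
    have h1 : R.E (1 : R.NR) = 1 := R.toA_one
    have h2 : ((((R.EU (1 : R.NR))⁻¹ : Aˣ)) : A) = 1 := by
      rw [← R.toA_inv, inv_one, toA_one]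
    simp [h1, h2]
  map_mul' s s' := by
    ext v
    have h2 : ((((R.EU (s * s' : R.NR))⁻¹ : Aˣ)) : A) =
        (((R.EU s')⁻¹ : Aˣ) : A) * (((R.EU s)⁻¹ : Aˣ) : A) := by
      rw [← R.toA_inv, mul_inv_rev, toA_mul, toA_inv, toA_inv]
    simp [h2, toA_mul, mul_assoc]

theorem coe_Adn (s : R.NR) (v : R.V) :
    ((R.Adn s v : R.V) : A) = R.E s * v * (((R.EU s)⁻¹ : Aˣ) : A) := rfl

theorem Ex_Adn (s : R.NR) (v : R.V) : R.Ex (R.Adn s v) = s * R.Ex v * s⁻¹ :=
  R.toA_inj (by
    rw [toA_Ex, coe_Adn, map_mul, map_mul, toA_Ex]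
    have h : R.toA s⁻¹ = (((R.EU s)⁻¹ : Aˣ) : A) := R.toA_inv s
    rw [h]
    exact ex_conj (R.EU s) (v : A))

end action

/-! ### topology -/

section topo

variable {N : Type u} [Group N] {d n : ℕ} {D : MB N d n} {A : Type v} [NormedRing A]
  [NormedAlgebra ℝ A] [FiniteDimensional ℝ A] (R : RD D A)

instance : TopologicalSpace R.NR := inferInstanceAs (TopologicalSpace (Fin d → ℝ))
instance : T2Space R.NR := inferInstanceAs (T2Space (Fin d → ℝ))
instance : LocallyCompactSpace R.NR := inferInstanceAs (LocallyCompactSpace (Fin d → ℝ))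
instance : SecondCountableTopology R.NR := inferInstanceAs (SecondCountableTopology (Fin d → ℝ))

omit [FiniteDimensional ℝ A] in
theorem continuous_toA : Continuous R.toA := R.continuous_E

theorem continuous_coords {X : Type*} [TopologicalSpace X] {f : X → A} (hf : Continuous f) :
    Continuous (fun x => (fun i => R.ℓ i (f x) : R.NR)) :=
  continuous_pi (A := fun _ => ℝ) fun i => ((R.ℓ i).continuous_of_finiteDimensional).comp hf

instance : ContinuousMul R.NR := ⟨by
  have h : (fun p : R.NR × R.NR => p.1 * p.2) =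
      fun p => (fun i => R.ℓ i (R.toA p.1 * R.toA p.2) : R.NR) := rfl
  rw [h]
  exact R.continuous_coords ((R.continuous_toA.comp continuous_fst).mul
    (R.continuous_toA.comp continuous_snd))⟩

instance : ContinuousInv R.NR := ⟨by
  have : CompleteSpace A := FiniteDimensional.complete ℝ A
  have h : (fun s : R.NR => s⁻¹) = fun s => (fun i => R.ℓ i (Ring.inverse (R.toA s)) : R.NR) := by
    funext s
    have h1 : Ring.inverse (R.toA s) = (((R.EU s)⁻¹ : Aˣ) : A) := Ring.inverse_unit (R.EU s)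
    rw [h1]
    rfl
  rw [h]
  refine R.continuous_coords ?_
  rw [continuous_iff_continuousAt]
  intro s
  have h1 : ContinuousAt Ring.inverse (R.toA s) := NormedRing.inverse_continuousAt (R.EU s)
  exact ContinuousAt.comp (f := R.toA) h1 (R.continuous_toA.continuousAt)⟩

instance : IsTopologicalGroup R.NR where

theorem continuous_Ex : Continuous R.Ex :=
  R.continuous_coords (continuous_ex.comp continuous_subtype_val)

theorem continuous_Lo : Continuous R.Lo :=
  Continuous.subtype_mk (continuous_lg.comp R.continuous_toA) _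

end topo

/-! ### cocompactness -/

section cocompact

variable {N : Type u} [Group N] {d n : ℕ} {D : MB N d n} {A : Type v} [Ring A] [Algebra ℝ A]
  (R : RD D A)

theorem prod_ofFn_split {M : Type*} [Monoid M] : ∀ {d : ℕ} (k : Fin d) (f : Fin d → M),
    (∀ j, j < k → f j = 1) →
    (List.ofFn f).prod = f k * (List.ofFn (Function.update f k 1)).prod
  | d + 1, k, f, hf => by
    revert hf
    refine Fin.cases ?_ (fun k => ?_) k
    · intro _
      rw [List.ofFn_succ, List.prod_cons, List.ofFn_succ, List.prod_cons]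
      simp
    · intro hf
      have h0 : f 0 = 1 := hf 0 (Fin.succ_pos k)
      rw [List.ofFn_succ, List.prod_cons, h0, one_mul, List.ofFn_succ, List.prod_cons]
      have h1 := prod_ofFn_split k (fun i => f i.succ) (fun j hj => hf _ (Fin.succ_lt_succ_iff.2 hj))
      have h2 : (fun i : Fin d => Function.update f k.succ 1 i.succ) =
          Function.update (fun i => f i.succ) k 1 := by
        funext i
        by_cases h : i = k
        · subst h; simp
        · rw [Function.update_of_ne h, Function.update_of_ne (fun h' => h (Fin.succ_injective _ h'))]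
      rw [h1, h2, Function.update_of_ne (Fin.succ_ne_zero k).symm, h0, one_mul]

/-- one-parameter subgroups of the basis -/
def sg (k : Fin d) (t : ℝ) : R.NR := (Pi.single k t : Fin d → ℝ)

theorem EU_split (k : Fin d) (s : Fin d → ℝ) (hs : ∀ j, j < k → s j = 0) :
    R.EU s = rpU R.m (R.ρ (D.b k)) (R.unip _) (s k) * R.EU (Function.update s k 0) := by
  have hz : ∀ j, rpU R.m (R.ρ (D.b j)) (R.unip _) 0 = 1 := fun j => Units.ext (by
    rw [rpU_val, rp_zero (R.unip _), Units.val_one])
  rw [EU, prod_ofFn_split k]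
  · congr 3
    funext j
    by_cases h : j = k
    · subst h; rw [Function.update_self, Function.update_self, hz]
    · rw [Function.update_of_ne h, Function.update_of_ne h]
  · intro j hj
    rw [hs j hj, hz]

theorem EU_zero : R.EU 0 = 1 := Units.ext R.E_zero

theorem EU_sg (k : Fin d) (t : ℝ) : R.EU (R.sg k t) = rpU R.m (R.ρ (D.b k)) (R.unip _) t := by
  have h := R.EU_split k (Pi.single k t) (fun j hj => Pi.single_eq_of_ne hj.ne _)
  have h2 : Function.update (Pi.single k t : Fin d → ℝ) k 0 = 0 := by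
    funext j
    by_cases h : j = k
    · subst h; simp
    · rw [Function.update_of_ne h, Pi.single_eq_of_ne h, Pi.zero_apply]
  rw [h2, EU_zero, mul_one, Pi.single_eq_same] at h
  exact h

theorem EU_injective : Function.Injective R.EU := fun _ _ h =>
  R.E_injective (congrArg Units.val h)

theorem EU_mul (s s' : R.NR) : R.EU (s * s' : R.NR) = R.EU s * R.EU s' :=
  Units.ext (R.toA_mul s s')

theorem update_eq_ite {d : ℕ} (s : Fin d → ℝ) (k : Fin d) :
    Function.update s k 0 = fun j => if j = k then 0 else s j := by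
  funext j
  by_cases hj : j = k
  · subst hj; rw [Function.update_self, if_pos rfl]
  · rw [Function.update_of_ne hj, if_neg hj]

/-- change one coordinate -/
def upd (s : R.NR) (k : Fin d) (t : ℝ) : R.NR := fun j => if j = k then t else s j

theorem upd_self (s : R.NR) (k : Fin d) (t : ℝ) : R.upd s k t k = t := if_pos rfl

theorem upd_of_ne (s : R.NR) {k j : Fin d} (h : j ≠ k) (t : ℝ) : R.upd s k t j = s j := if_neg h

theorem split (k : Fin d) (s : R.NR) (hs : ∀ j, j < k → s j = 0) :
    s = R.sg k (s k) * R.upd s k 0 := by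
  refine R.EU_injective ?_
  rw [EU_mul, EU_sg]
  have h := R.EU_split k s hs
  exact h.trans (congrArg (fun z => rpU R.m (R.ρ (D.b k)) (R.unip _) (s k) * R.EU z)
    (update_eq_ite s k))

theorem sg_add (k : Fin d) (s t : ℝ) : R.sg k (s + t) = R.sg k s * R.sg k t := by
  refine R.EU_injective ?_
  rw [EU_mul, EU_sg, EU_sg, EU_sg]
  exact Units.ext (rp_add (R.unip _) s t)

/-- elements whose coordinates up to `k` vanish -/
theorem sg_mul_apply (k : Fin d) (t : ℝ) (w : R.NR) (hw : ∀ j, j ≤ k → w j = 0) :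
    R.sg k t * w = R.upd w k t := by
  have h := R.split k (R.upd w k t) (fun j hj => by
    rw [R.upd_of_ne w hj.ne]; exact hw j hj.le)
  have h2 : R.upd (R.upd w k t) k 0 = w := by
    funext j
    by_cases hj : j = k
    · subst hj; rw [R.upd_self]; exact (hw j le_rfl).symm
    · rw [R.upd_of_ne _ hj, R.upd_of_ne _ hj]
  rw [h2, R.upd_self] at h
  exact h.symm

theorem ι_b (k : Fin d) (t : ℤ) : R.ι (D.b k ^ t) = R.sg k t := by
  have h1 : (List.ofFn fun i => D.b i ^ (Pi.single k t : Fin d → ℤ) i).prod = D.b k ^ t := by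
    rw [prod_ofFn_split k]
    · rw [Pi.single_eq_same]
      have : (Function.update (fun i => D.b i ^ (Pi.single k t : Fin d → ℤ) i) k 1) = fun _ => 1 := by
        funext j
        by_cases hj : j = k
        · subst hj; simp
        · rw [Function.update_of_ne hj, Pi.single_eq_of_ne hj, zpow_zero]
      rw [this]
      simp
    · intro j hj
      rw [Pi.single_eq_of_ne hj.ne, zpow_zero]
  funext i
  rw [ι_apply, ← h1, D.c_prod]
  by_cases hi : i = k
  · subst hi; simp [sg]
  · simp [sg, Pi.single_eq_of_ne hi]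

/-- normality of the real series under integer powers of the basis -/
theorem norm_real (k : Fin d) (t : ℤ) (w : R.NR) (hw : ∀ j, j ≤ k → w j = 0) :
    ∀ j, j ≤ k → (R.sg k t * w * R.sg k (-t) : R.NR) j = 0 := by
  intro j hj
  let mask : (Fin d → ℝ) → R.NR := fun s i => if i ≤ k then 0 else s i
  have key : ∀ s : R.NR, R.ℓ j (R.E (R.sg k t) * R.E (mask s) * R.E (R.sg k (-t))) = 0 := by
    refine R.dens ?_ (fun γ hγ => PC.const 0) ?_
    · intro γ hγ
      refine (((PC.const _).mul (R.PC_E fun i => ?_)).mul (PC.const _)).map (R.ℓ j)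
      by_cases hi : i ≤ k
      · simp only [mask, if_pos hi]; exact PC.const 0
      · simp only [mask, if_neg hi]; exact hγ i
    · intro y
      let s' : Fin d → ℤ := fun i => if i ≤ k then 0 else D.c i y
      let y' : N := (List.ofFn fun i => D.b i ^ s' i).prod
      have h1 : mask (R.ι y) = R.ι y' := by
        funext i
        rw [ι_apply, D.c_prod]
        by_cases hi : i ≤ k
        · simp [mask, s', hi]
        · simp [mask, s', hi, ι_apply]
      have h2 : R.E (R.ι y') = R.ρ y' := R.E_coord y'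
      have h3 : R.E (R.sg k t) = R.ρ (D.b k ^ t) := by
        rw [← ι_b]; exact R.E_coord _
      have h4 : R.E (R.sg k (-(t : ℝ))) = R.ρ (D.b k ^ (-t)) := by
        have := R.E_coord (D.b k ^ (-t))
        rw [← this]
        have h5 := R.ι_b k (-t)
        push_cast at h5
        rw [← h5]
        rfl
      rw [h1, h2, h3, h4, ← map_mul, ← map_mul, R.hℓ]
      have h6 := D.norm k t y' (fun i hi => by
        rw [D.c_prod]; simp [s', hi]) j hj
      rw [h6]; simp
  have h := key w
  have hmw : mask w = w := by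
    funext i
    by_cases hi : i ≤ k
    · simp only [mask, if_pos hi]; exact (hw i hi).symm
    · simp only [mask, if_neg hi]
  rw [hmw] at h
  have h2 : R.ℓ j (R.E (R.sg k t * w * R.sg k (-t) : R.NR)) = 0 := by
    rw [toA_mul, toA_mul]; exact h
  rw [← R.ℓ_E (R.sg k t * w * R.sg k (-t) : R.NR) j]
  exact h2

theorem exists_cube_aux : ∀ (r k : ℕ), r + k = d → ∀ s : R.NR, (∀ j : Fin d, (j : ℕ) < k → s j = 0) →
    ∃ x : N, (∀ j, 0 ≤ (s * R.ι x : R.NR) j ∧ (s * R.ι x : R.NR) j < 1) ∧
      ∀ j : Fin d, (j : ℕ) < k → (s * R.ι x : R.NR) j = 0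
  | 0, k, hk, s, hs => by
    have h0 : ∀ j, s j = 0 := fun j => hs j (by have := j.2; omega)
    refine ⟨1, ?_, ?_⟩
    · intro j
      rw [map_one, mul_one, h0]
      exact ⟨le_rfl, one_pos⟩
    · intro j _
      rw [map_one, mul_one, h0]
  | r + 1, k, hk, s, hs => by
    let K : Fin d := ⟨k, by omega⟩
    set t : ℤ := ⌊s K⌋ with ht
    set m : R.NR := R.upd s K 0 with hm
    have hm0 : ∀ j, j ≤ K → m j = 0 := by
      intro j hj
      rcases eq_or_lt_of_le hj with h | h
      · subst h; exact R.upd_self _ _ _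
      · rw [hm, R.upd_of_ne _ h.ne]; exact hs j h
    have hsplit := R.split K s (fun j hj => hs j hj)
    set m' : R.NR := R.sg K t * m * R.sg K (-t) with hm'
    have hm'0 := R.norm_real K t m hm0
    obtain ⟨x, hx1, hx2⟩ := exists_cube_aux r (k + 1) (by omega) m' (fun j hj =>
      hm'0 j (Fin.le_iff_val_le_val.2 (by change (j : ℕ) ≤ k; omega)))
    have e1 : s * R.ι (D.b K ^ (-t) * x) = R.sg K (s K - t) * (m' * R.ι x) := by
      have h1 : R.ι (D.b K ^ (-t)) = R.sg K (-(t : ℝ)) := by
        rw [ι_b]; push_cast; rfl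
      have h2 : R.sg K (s K) = R.sg K (s K - t) * R.sg K t := by
        rw [← sg_add]; congr 1; ring
      conv_lhs => rw [hsplit]
      rw [map_mul, h1, h2, hm']
      simp only [mul_assoc]
      rfl
    have hw0 : ∀ j, j ≤ K → (m' * R.ι x : R.NR) j = 0 := fun j hj =>
      hx2 j (by have : (j : ℕ) ≤ k := hj; omega)
    have e2 := R.sg_mul_apply K (s K - t) (m' * R.ι x) hw0
    refine ⟨D.b K ^ (-t) * x, ?_, ?_⟩
    · intro j
      rw [e1, e2]
      by_cases hj : j = K
      · subst hj
        rw [R.upd_self]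
        exact ⟨by linarith [Int.floor_le (s K)], by linarith [Int.lt_floor_add_one (s K)]⟩
      · rw [R.upd_of_ne _ hj]
        exact hx1 j
    · intro j hj
      rw [e1, e2, R.upd_of_ne _ (by intro h; subst h; exact absurd hj (lt_irrefl _))]
      exact hx2 j (by omega)

/-- **cocompactness** (right form): every element of the real group can be moved to the unit cube by
a right translation by an element of `N`. -/
theorem exists_cube_right (s : R.NR) :
    ∃ x : N, ∀ j, 0 ≤ (s * R.ι x : R.NR) j ∧ (s * R.ι x : R.NR) j < 1 := by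
  obtain ⟨x, hx, _⟩ := R.exists_cube_aux d 0 (by omega) s (fun j hj => absurd hj (Nat.not_lt_zero _))
  exact ⟨x, hx⟩

/-- the unit cube -/
def cube : Set R.NR := {s | ∀ j, 0 ≤ s j ∧ s j < 1}

/-- **cocompactness** (left form) -/
theorem exists_cube_left (s : R.NR) : ∃ (x : N) (c : R.NR), c⁻¹ ∈ R.cube ∧ s = R.ι x * c := by
  obtain ⟨x, hx⟩ := R.exists_cube_right s⁻¹
  refine ⟨x, (s⁻¹ * R.ι x)⁻¹, ?_, by group⟩
  rw [inv_inv]
  exact hx

end cocompact

end RD

end Vale.Agent.P188.H796

end

section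

/-!
P188, Gromov-lite: on an infinite group of polynomial growth, the functions `P ^ k δ` are
almost harmonic compared with their Dirichlet energy.
-/

universe u v

open Filter Topology Pointwise

namespace Vale.Agent.P188.H796

open Vale.Agent.P188.SG

variable {H : Type u} [Group H] {S : Finset H}

open Classical in
/-- the distribution of the random walk -/
noncomputable def fk (S : Finset H) (k : ℕ) : H → ℝ :=
  (avg S)^[k] (fun x => if x = 1 then 1 else 0)

theorem fk_succ (k : ℕ) : fk S (k + 1) = avg S (fk S k) := Function.iterate_succ_apply' _ _ _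

theorem fk_fs (k : ℕ) : fol1_fs (fk S k) := by
  classical
  refine fol1_fs_iter ⟨{1}, fun x hx => ?_⟩ k
  rw [if_neg (by simpa using hx)]

theorem fk_supp (hS : SymGen S) (k : ℕ) (x : H) (hx : fk S k x ≠ 0) : len S x ≤ k := by
  induction k generalizing x with
  | zero =>
    unfold fk at hx
    simp only [Function.iterate_zero, id] at hx
    by_cases h : x = 1
    · rw [h, len_one]
    · exact absurd (if_neg h) hx
  | succ k ih =>
    rw [fk_succ] at hx
    unfold avg at hx
    have h1 : ∃ s ∈ S, fk S k (x * s) ≠ 0 := by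
      by_contra hcon
      push Not at hcon
      exact hx (by rw [Finset.sum_eq_zero hcon, mul_zero])
    obtain ⟨s, hs, h2⟩ := h1
    have h3 := ih _ h2
    have h4 := len_mul_le hS.gen (x * s) s⁻¹
    rw [mul_inv_cancel_right] at h4
    have h5 := len_le_one (hS.inv s hs)
    omega

theorem fk_mass (hne : S.Nonempty) (k : ℕ) : ∑ᶠ x, fk S k x = 1 := by
  classical
  have hc : (S.card : ℝ) ≠ 0 := by exact_mod_cast hne.card_pos.ne'
  induction k with
  | zero =>
    unfold fk
    simp only [Function.iterate_zero, id]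
    rw [finsum_eq_single _ (1 : H) (fun x hx => if_neg hx), if_pos rfl]
  | succ k ih =>
    rw [fk_succ]
    have h1 : ∀ s ∈ S, (Function.support fun x => fk S k (x * s)).Finite := by
      intro s _
      obtain ⟨F, hF⟩ := fol1_fs_shift (fk_fs (S := S) k) s
      refine F.finite_toSet.subset fun x hx => ?_
      by_contra hxF
      exact hx (hF x (by simpa using hxF))
    unfold avg
    rw [← mul_finsum, finsum_sum_comm S (fun x s => fk S k (x * s)) h1]
    have h2 : ∀ s ∈ S, ∑ᶠ x, fk S k (x * s) = 1 := by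
      intro s _
      rw [← ih]
      exact finsum_comp_equiv (Equiv.mulRight s) (f := fun x => fk S k x)
    rw [Finset.sum_congr rfl h2, Finset.sum_const, nsmul_eq_mul, mul_one, inv_mul_cancel₀ hc]

theorem fk_norm (hS : SymGen S) (k : ℕ) :
    1 ≤ ({x : H | len S x ≤ k}.ncard : ℝ) * fol1_ip (fk S k) (fk S k) := by
  classical
  have hfin := (ncard_ball_le hS.gen k).1
  have hF : ∀ x, x ∉ hfin.toFinset → fk S k x = 0 := by
    intro x hx
    by_contra h
    exact hx (by simpa using fk_supp hS k x h)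
  have h1 := fk_mass hS.ne k
  rw [finsum_eq_sum_of_support_subset (s := hfin.toFinset) _ (by
    intro x hx
    by_contra h
    exact hx (hF x h))] at h1
  have h2 := Finset.sum_mul_sq_le_sq_mul_sq hfin.toFinset (fun _ => (1 : ℝ)) (fk S k)
  simp only [one_mul, one_pow, Finset.sum_const, nsmul_eq_mul, mul_one] at h2
  rw [h1, one_pow] at h2
  rw [fol1_ip_eq hF, Set.ncard_eq_toFinset_card _ hfin]
  simpa only [sq] using h2

theorem exists_far [Infinite H] (hS : SymGen S) (k : ℕ) :
    ∃ g : H, 2 * k < len S g ∧ len S g ≤ 2 * k + 1 := by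
  have hfin := (ncard_ball_le hS.gen (2 * k)).1
  obtain ⟨g, hg⟩ : ∃ g : H, g ∉ {x : H | len S x ≤ 2 * k} := by
    by_contra hcon
    push Not at hcon
    exact Set.infinite_univ (hfin.subset fun x _ => hcon x)
  simp only [Set.mem_ofPred_eq, not_le] at hg
  obtain ⟨p, hp0, hp1, hp2, -, -⟩ := exists_path hS.gen g
  have hex : ∃ i, 2 * k < len S (p i) := ⟨_, by rw [hp1]; exact hg⟩
  classical
  obtain ⟨i, hi⟩ : ∃ i, i = Nat.find hex := ⟨_, rfl⟩
  have h1 : 2 * k < len S (p i) := hi ▸ Nat.find_spec hex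
  have h0 : i ≠ 0 := by
    rintro rfl
    rw [hp0, len_one] at h1
    omega
  obtain ⟨j, rfl⟩ := Nat.exists_eq_succ_of_ne_zero h0
  have h2 : ¬ 2 * k < len S (p j) := Nat.find_min hex (by omega)
  refine ⟨p (j + 1), h1, ?_⟩
  have h3 := len_mul_le hS.gen (p j) ((p j)⁻¹ * p (j + 1))
  rw [mul_inv_cancel_left] at h3
  have h4 := hp2 j
  omega

theorem nrm_path (hS : SymGen S) {f : H → ℝ} (hf : fol1_fs f) {M : ℝ} (hM0 : 0 ≤ M)
    (hM : ∀ s ∈ S, nrm (sh s f - f) ≤ M) (g : H) : nrm (sh g f - f) ≤ len S g * M := by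
  obtain ⟨p, hp0, hp1, -, -, hp⟩ := exists_path hS.gen g
  have key : ∀ i : ℕ, nrm (sh (p i) f - f) ≤ i * M := by
    intro i
    induction i with
    | zero =>
      rw [hp0, sh_one, sub_self]
      have : nrm (0 : H → ℝ) = 0 := by
        unfold nrm fol1_ip
        simp
      simp [this]
    | succ i ih =>
      push_cast
      rcases hp i with h | ⟨s, hs, h⟩
      · rw [h]
        nlinarith
      · have hs' : s ∈ S := by
          rcases hs with hs | hs
          · exact hs
          · simpa using hS.inv _ hs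
        have e : sh (p i * s) f - f = sh (p i) (sh s f - f) + (sh (p i) f - f) := by
          rw [sh_mul, sh_sub]
          abel
        rw [h, e]
        refine (nrm_add_le (fs_sh (fs_sub (fs_sh hf s) hf) _)
          (fs_sub (fs_sh hf (p i)) hf)).trans ?_
        rw [nrm_sh]
        have := hM s hs'
        linarith
  have := key (len S g)
  rwa [hp1] at this

/-- the energy of `fk` -/
noncomputable def Ak (S : Finset H) (k : ℕ) : ℝ := En S (fk S k) (fk S k)

omit [Group H] in
theorem ip_disjoint {f f' : H → ℝ} (h : ∀ x, f x = 0 ∨ f' x = 0) : fol1_ip f f' = 0 := by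
  unfold fol1_ip
  have : ∀ x, f x * f' x = 0 := fun x => by
    rcases h x with h | h
    · rw [h, zero_mul]
    · rw [h, mul_zero]
  simp only [this, finsum_zero]

theorem Ak_lower [Infinite H] (hS : SymGen S) (k : ℕ) :
    1 ≤ ({x : H | len S x ≤ k}.ncard : ℝ) * ((2 * k + 1) ^ 2 * (S.card * Ak S k)) := by
  obtain ⟨g, hg1, hg2⟩ := exists_far (S := S) hS k
  have hf := fk_fs (S := S) k
  have h1 : fol1_ip (sh g (fk S k) - fk S k) (sh g (fk S k) - fk S k) =
      2 * fol1_ip (fk S k) (fk S k) := by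
    rw [nrm_diff_sq hf, ip_disjoint (f := sh g (fk S k)) (f' := fk S k), sub_zero]
    intro x
    by_contra hcon
    push Not at hcon
    have h2 := fk_supp hS k _ hcon.1
    have h3 := fk_supp hS k _ hcon.2
    have h4 := len_mul_le hS.gen x⁻¹ (x * g)
    rw [inv_mul_cancel_left, len_inv hS.gen] at h4
    omega
  have hA0 : 0 ≤ Ak S k := En_nonneg hS.ne hf
  have hc : (0 : ℝ) < S.card := by exact_mod_cast hS.ne.card_pos
  have h2 : ∀ s ∈ S, nrm (sh s (fk S k) - fk S k) ≤ Real.sqrt (2 * S.card * Ak S k) := by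
    intro s hs
    refine Real.sqrt_le_sqrt ?_
    have h3 := En_self (S := S) hS.ne hf
    unfold Ak
    rw [← h3]
    exact Finset.single_le_sum (f := fun s => fol1_ip (sh s (fk S k) - fk S k)
      (sh s (fk S k) - fk S k)) (fun s _ => fol1_ip_nonneg _) hs
  have h3 := nrm_path hS hf (Real.sqrt_nonneg _) h2 g
  have h4 := pow_le_pow_left₀ (nrm_nonneg _) h3 2
  rw [nrm_sq, h1, mul_pow, Real.sq_sqrt (by positivity)] at h4
  have h5 : (len S g : ℝ) ≤ 2 * k + 1 := by exact_mod_cast hg2
  have h6 : (len S g : ℝ) ^ 2 ≤ (2 * k + 1) ^ 2 := pow_le_pow_left₀ (by positivity) h5 2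
  have h7 : fol1_ip (fk S k) (fk S k) ≤ (2 * k + 1) ^ 2 * (S.card * Ak S k) := by
    have h8 : (len S g : ℝ) ^ 2 * (2 * S.card * Ak S k) ≤
        (2 * k + 1) ^ 2 * (2 * S.card * Ak S k) :=
      mul_le_mul_of_nonneg_right h6 (by positivity)
    nlinarith
  exact (fk_norm hS k).trans (mul_le_mul_of_nonneg_left h7 (by positivity))

theorem Ak_pos [Infinite H] (hS : SymGen S) (k : ℕ) : 0 < Ak S k := by
  have h1 := Ak_lower (S := S) hS k
  have h2 : 0 ≤ Ak S k := En_nonneg hS.ne (fk_fs k)
  rcases h2.eq_or_lt with h | h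
  · rw [← h] at h1
    norm_num at h1
  · exact h

theorem Ak_logconv (hS : SymGen S) (k : ℕ) : Ak S (k + 1) ^ 2 ≤ Ak S k * Ak S (k + 2) := by
  have h := En_cs (S := S) hS.ne hS.inv (fk_fs (S := S) k) (fk_fs (S := S) (k + 2))
  have e : En S (fk S k) (fk S (k + 2)) = Ak S (k + 1) := by
    unfold Ak En
    rw [fk_succ (S := S) (k + 1), fk_succ (S := S) k,
      ← fol1_ip_symm hS.inv (fk_fs k), ← fol1_ip_symm hS.inv (fol1_fs_avg (fk_fs k)),
      fol1_ip_comm (avg S (fk S k)) (avg S (avg S (fk S k)))]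
  rw [e] at h
  exact h

theorem ip_avg_ge (hne : S.Nonempty) (h1 : (1 : H) ∈ S) {g : H → ℝ} (hg : fol1_fs g) :
    (2 * (S.card : ℝ)⁻¹ - 1) * fol1_ip g g ≤ fol1_ip (avg S g) g := by
  have hc : (0 : ℝ) < S.card := by exact_mod_cast hne.card_pos
  rw [ip_avg_left hg]
  have h2 : ∀ s ∈ S, -fol1_ip g g ≤ fol1_ip (sh s g) g := by
    intro s _
    have h3 := fol1_ip_nonneg (sh s g + g)
    have h4 := fs_sh hg s
    rw [ip_add_left _ h4 hg, ip_add_right _ h4 hg, ip_add_right _ h4 hg, ip_sh,
      fol1_ip_comm g (sh s g)] at h3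
    linarith
  classical
  have h3 : ∑ s ∈ S, fol1_ip (sh s g) g =
      fol1_ip g g + ∑ s ∈ S.erase 1, fol1_ip (sh s g) g := by
    rw [← Finset.add_sum_erase _ _ h1, sh_one]
  have h4 : ((S.card : ℝ) - 1) * (-fol1_ip g g) ≤ ∑ s ∈ S.erase 1, fol1_ip (sh s g) g := by
    have := Finset.card_nsmul_le_sum (S.erase 1) (fun s => fol1_ip (sh s g) g) (-fol1_ip g g)
      (fun s hs => h2 s (Finset.mem_of_mem_erase hs))
    rw [nsmul_eq_mul, Finset.card_erase_of_mem h1, Nat.cast_sub hne.card_pos] at this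
    simpa using this
  rw [h3]
  rw [show (2 * (S.card : ℝ)⁻¹ - 1) * fol1_ip g g =
    (S.card : ℝ)⁻¹ * (fol1_ip g g + ((S.card : ℝ) - 1) * (-fol1_ip g g)) by field_simp; ring]
  exact mul_le_mul_of_nonneg_left (by linarith) (by positivity)

/-- `(1 - P) f_k` -/
noncomputable def gk (S : Finset H) (k : ℕ) : H → ℝ := fk S k - avg S (fk S k)

theorem gk_le (hS : SymGen S) (h1 : (1 : H) ∈ S) (k : ℕ) :
    2 * (S.card : ℝ)⁻¹ * fol1_ip (gk S k) (gk S k) ≤ Ak S k - Ak S (k + 1) := by
  have hf := fk_fs (S := S) k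
  have hf1 := fol1_fs_avg (S := S) hf
  have hf2 := fol1_fs_avg (S := S) hf1
  have hg : fol1_fs (gk S k) := fs_sub hf hf1
  have h2 := ip_avg_ge (S := S) hS.ne h1 hg
  have e : fol1_ip (gk S k) (gk S k) + fol1_ip (avg S (gk S k)) (gk S k) =
      Ak S k - Ak S (k + 1) := by
    have s1 := fol1_ip_symm hS.inv hf (avg S (fk S k))
    have s2 := fol1_ip_symm hS.inv hf (fk S k)
    unfold gk Ak En
    rw [fk_succ, avg_sub, ip_sub_left _ hf hf1, ip_sub_right _ hf hf1, ip_sub_right _ hf hf1,
      ip_sub_left _ hf1 hf2, ip_sub_right _ hf hf1, ip_sub_right _ hf hf1]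
    have s3 := fol1_ip_comm (avg S (avg S (fk S k))) (fk S k)
    linarith
  linarith

theorem Ak_ratio [Infinite H] (hS : SymGen S) {D : ℕ} (hG : GrowthLE H D) {ε : ℝ} (hε : 0 < ε) :
    ∀ᶠ k in atTop, (1 - ε) * Ak S k ≤ Ak S (k + 1) := by
  rcases le_or_gt 1 ε with hε1 | hε1
  · refine Eventually.of_forall fun k => ?_
    have h1 := Ak_pos (S := S) hS k
    have h2 := Ak_pos (S := S) hS (k + 1)
    nlinarith
  by_cases hex : ∃ k0, (1 - ε) * Ak S k0 ≤ Ak S (k0 + 1)
  · obtain ⟨k0, hk0⟩ := hex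
    rw [eventually_atTop]
    refine ⟨k0, fun k hk => ?_⟩
    induction k, hk using Nat.le_induction with
    | base => exact hk0
    | succ k hk ih =>
      have h1 := Ak_logconv (S := S) hS k
      have h2 := Ak_pos (S := S) hS k
      have h3 := Ak_pos (S := S) hS (k + 1)
      have h4 : (1 - ε) * Ak S (k + 1) * Ak S k ≤ Ak S (k + 2) * Ak S k := by
        calc (1 - ε) * Ak S (k + 1) * Ak S k = (1 - ε) * Ak S k * Ak S (k + 1) := by ring
          _ ≤ Ak S (k + 1) * Ak S (k + 1) := mul_le_mul_of_nonneg_right ih h3.le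
          _ ≤ Ak S (k + 2) * Ak S k := by nlinarith
      exact le_of_mul_le_mul_right h4 h2
  · exfalso
    push Not at hex
    have h1 : ∀ k, Ak S k ≤ (1 - ε) ^ k * Ak S 0 := by
      intro k
      induction k with
      | zero => simp
      | succ k ih =>
        rw [pow_succ]
        have := (hex k).le
        nlinarith
    obtain ⟨C, hC⟩ := ball_growth hS.gen hG
    have h2 : ∀ k : ℕ, 1 ≤ (C * (k + 1) ^ D : ℝ) * ((2 * k + 1) ^ 2 *
        (S.card * ((1 - ε) ^ k * Ak S 0))) := by
      intro k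
      refine (Ak_lower (S := S) hS k).trans ?_
      have h3 : ({x : H | len S x ≤ k}.ncard : ℝ) ≤ C * (k + 1) ^ D := by exact_mod_cast hC k
      have h4 : (0 : ℝ) ≤ Ak S k := (Ak_pos hS k).le
      have h5 := h1 k
      gcongr
    have h3 : Tendsto (fun k : ℕ => (C * (k + 1) ^ D : ℝ) * ((2 * k + 1) ^ 2 *
        (S.card * ((1 - ε) ^ k * Ak S 0)))) atTop (𝓝 0) := by
      have h4 : Tendsto (fun k : ℕ => ((k : ℝ) ^ (D + 2) * (1 - ε) ^ k)) atTop (𝓝 0) :=
        tendsto_pow_const_mul_const_pow_of_lt_one (D + 2) (by linarith) (by linarith)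
      have h5 := h4.const_mul (C * 2 ^ D * 9 * S.card * Ak S 0 : ℝ)
      rw [mul_zero] at h5
      refine squeeze_zero' ?_ ?_ h5
      · refine Eventually.of_forall fun k => ?_
        have h6 := (Ak_pos (S := S) hS 0).le
        have h7 : (0 : ℝ) ≤ (1 - ε) ^ k := pow_nonneg (by linarith) _
        positivity
      · filter_upwards [eventually_ge_atTop 1] with k hk
        have hk' : (1 : ℝ) ≤ k := by exact_mod_cast hk
        have h6 := (Ak_pos (S := S) hS 0).le
        have h7 : (0 : ℝ) ≤ (1 - ε) ^ k := pow_nonneg (by linarith) _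
        have h8 : ((k : ℝ) + 1) ^ D ≤ 2 ^ D * (k : ℝ) ^ D := by
          rw [← mul_pow]
          exact pow_le_pow_left₀ (by positivity) (by linarith) _
        have h9 : (2 * (k : ℝ) + 1) ^ 2 ≤ 9 * (k : ℝ) ^ 2 := by nlinarith
        calc (C * (k + 1) ^ D : ℝ) * ((2 * k + 1) ^ 2 * (S.card * ((1 - ε) ^ k * Ak S 0))) ≤
            (C * (2 ^ D * (k : ℝ) ^ D)) * ((9 * (k : ℝ) ^ 2) *
              (S.card * ((1 - ε) ^ k * Ak S 0))) := by gcongr
          _ = C * 2 ^ D * 9 * S.card * Ak S 0 * ((k : ℝ) ^ (D + 2) * (1 - ε) ^ k) := by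
            rw [pow_add]; ring
    have h4 := ge_of_tendsto h3 (Eventually.of_forall h2)
    linarith

end Vale.Agent.P188.H796

end
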