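import Vale.Agent.P188.R.G025
import Vale.Agent.P188.R.G038

section

/-!
Quantitative BCH: for a convex symmetric set `K` with `[K, K] ⊆ C0 K`,
`log (exp X * exp (c Y)) - X ∈ (C c) K` for `X, Y ∈ K`, `0 ≤ c ≤ 1`, with `C = C(m, C0)`.
-/

open Finset Filter Topology Pointwise

namespace Vale.Agent.P188.H615

open Vale.Agent.P188.H796

section poly

variable {A : Type*} [NormedRing A] [NormedAlgebra ℝ A]

/-- evaluation of a polynomial with coefficients in `A` at a real number -/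
noncomputable def ev (s : ℝ) : Polynomial A →ₐ[ℝ] A :=
  Polynomial.eval₂AlgHom (AlgHom.id ℝ A) (algebraMap ℝ A s)
    (fun a => (Algebra.commutes s a).symm)

theorem ev_C (s : ℝ) (a : A) : ev s (Polynomial.C a) = a :=
  Polynomial.eval₂_C _ _

theorem ev_X (s : ℝ) : ev s (Polynomial.X : Polynomial A) = algebraMap ℝ A s :=
  Polynomial.eval₂_X _ _

theorem ev_monomial (s : ℝ) (n : ℕ) (a : A) : ev s (Polynomial.monomial n a) = s ^ n • a := by
  rw [← Polynomial.C_mul_X_pow_eq_monomial, map_mul, map_pow, ev_C, ev_X, ← map_pow,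
    ← Algebra.commutes, ← Algebra.smul_def]

theorem ev_eq_sum (s : ℝ) (P : Polynomial A) (n : ℕ) (hn : P.natDegree < n) :
    ev s P = ∑ k ∈ range n, s ^ k • P.coeff k := by
  conv_lhs => rw [P.as_sum_range' n hn, map_sum]
  exact sum_congr rfl fun k _ => ev_monomial s k _

theorem ev_injective {P : Polynomial A} (h : ∀ s : ℝ, ev s P = 0) : P = 0 := by
  ext k
  rw [Polynomial.coeff_zero]
  refine (Module.forall_dual_apply_eq_zero_iff ℝ (P.coeff k)).1 fun φ => ?_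
  let p : Polynomial ℝ := ∑ j ∈ range (P.natDegree + 1), Polynomial.C (φ (P.coeff j)) *
    Polynomial.X ^ j
  have hp : ∀ s : ℝ, p.eval s = 0 := by
    intro s
    have h1 := congrArg φ (h s)
    rw [ev_eq_sum s P _ (Nat.lt_succ_self _), map_sum, map_zero] at h1
    rw [← h1]
    simp only [p, Polynomial.eval_finsetSum, Polynomial.eval_mul, Polynomial.eval_C,
      Polynomial.eval_pow, Polynomial.eval_X, map_smul, smul_eq_mul]
    exact sum_congr rfl fun k _ => mul_comm _ _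
  have hp0 : p = 0 := Polynomial.funext fun s => by rw [hp s, Polynomial.eval_zero]
  by_cases hk : k ≤ P.natDegree
  · have h2 := congrArg (fun q => Polynomial.coeff q k) hp0
    simp only [p, Polynomial.finsetSum_coeff, Polynomial.coeff_C_mul, Polynomial.coeff_X_pow,
      Polynomial.coeff_zero] at h2
    rw [sum_eq_single k] at h2
    · simpa using h2
    · intro b _ hb
      rw [if_neg (Ne.symm hb), mul_zero]
    · intro hb
      exact absurd (mem_range.2 (Nat.lt_succ_of_le hk)) hb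
  · rw [Polynomial.coeff_eq_zero_of_natDegree_lt (not_le.1 hk), map_zero]

theorem hasDerivAt_ev (P : Polynomial A) (s : ℝ) :
    HasDerivAt (fun s => ev s P) (ev s (Polynomial.derivative P)) s := by
  induction P using Polynomial.induction_on' with
  | add p q hp hq =>
    simp only [map_add]
    exact hp.fun_add hq
  | monomial n a =>
    simp only [ev_monomial, Polynomial.derivative_monomial]
    have h1 := (hasDerivAt_pow n s).smul_const a
    refine h1.congr_deriv ?_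
    rw [mul_comm (n : ℝ), mul_smul, Nat.cast_smul_eq_nsmul, nsmul_eq_mul,
      (Nat.cast_commute n a).eq]

end poly

section sets

variable {A : Type*} [Ring A]

/-- iterated brackets of polynomials -/
noncomputable def Qi (P Q : Polynomial A) : ℕ → Polynomial A
  | 0 => Q
  | i + 1 => P * Qi P Q i - Qi P Q i * P

theorem coeff_bracket (P Q : Polynomial A) (j : ℕ) : (P * Q - Q * P).coeff j =
    ∑ x ∈ antidiagonal j, (P.coeff x.1 * Q.coeff x.2 - Q.coeff x.2 * P.coeff x.1) := by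
  rw [Polynomial.coeff_sub, Polynomial.coeff_mul, Polynomial.coeff_mul, sum_sub_distrib]
  congr 1
  exact (Finset.Nat.sum_antidiagonal_swap
    (f := fun x : ℕ × ℕ => Q.coeff x.1 * P.coeff x.2) (n := j)).symm

/-- the affine polynomial `X + s Y` -/
noncomputable def lin (X Y : A) : Polynomial A :=
  Polynomial.C X + Polynomial.C Y * Polynomial.X

theorem lin_natDegree (X Y : A) : (lin X Y).natDegree ≤ 1 := by
  refine (Polynomial.natDegree_add_le _ _).trans (max_le (by simp) ?_)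
  refine Polynomial.natDegree_mul_le.trans ?_
  rw [Polynomial.natDegree_C, zero_add]
  exact Polynomial.natDegree_X_le

theorem lin_coeff (X Y : A) (j : ℕ) :
    (lin X Y).coeff j = if j = 0 then X else if j = 1 then Y else 0 := by
  unfold lin
  rw [Polynomial.coeff_add, Polynomial.coeff_C]
  rcases j with _ | _ | j
  · simp
  · simp
  · rw [Polynomial.coeff_mul_X, Polynomial.coeff_C]; simp

variable [Algebra ℝ A]

/-- convex symmetric sets, closed under brackets up to the factor `C0` -/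
structure CS (K : Set A) (C0 : ℝ) : Prop where
  conv : Convex ℝ K
  zero : (0 : A) ∈ K
  neg : ∀ x ∈ K, -x ∈ K
  nonneg : 0 ≤ C0
  br : ∀ x ∈ K, ∀ y ∈ K, x * y - y * x ∈ C0 • K

variable {K : Set A} {C0 : ℝ}

theorem CS.mem_zero (h : CS K C0) (a : ℝ) : (0 : A) ∈ a • K := ⟨0, h.zero, by simp⟩

theorem CS.mem_add (h : CS K C0) {a b : ℝ} (ha : 0 ≤ a) (hb : 0 ≤ b) {x y : A}
    (hx : x ∈ a • K) (hy : y ∈ b • K) : x + y ∈ (a + b) • K := by
  rw [h.conv.add_smul ha hb]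
  exact Set.add_mem_add hx hy

theorem CS.mem_mono (h : CS K C0) {a b : ℝ} (ha : 0 ≤ a) (hab : a ≤ b) {x : A}
    (hx : x ∈ a • K) : x ∈ b • K := by
  have := h.mem_add ha (sub_nonneg.2 hab) hx (h.mem_zero (b - a))
  rwa [add_zero, add_sub_cancel] at this

theorem CS.mem_neg (h : CS K C0) {a : ℝ} {x : A} (hx : x ∈ a • K) : -x ∈ a • K := by
  obtain ⟨y, hy, rfl⟩ := hx
  exact ⟨-y, h.neg y hy, by simp⟩

theorem CS.mem_smul (h : CS K C0) {a : ℝ} (t : ℝ) {x : A} (hx : x ∈ a • K) :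
    t • x ∈ (|t| * a) • K := by
  rcases abs_choice t with ht | ht
  · rw [ht]
    obtain ⟨y, hy, rfl⟩ := hx
    exact ⟨y, hy, by simp only [mul_smul]⟩
  · rw [ht]
    have : t • x = -((-t) • x) := by simp
    rw [this]
    refine h.mem_neg ?_
    obtain ⟨y, hy, rfl⟩ := hx
    exact ⟨y, hy, by simp only [mul_smul]⟩

theorem CS.mem_br (h : CS K C0) {a b : ℝ} {x y : A}
    (hx : x ∈ a • K) (hy : y ∈ b • K) : x * y - y * x ∈ (a * b * C0) • K := by
  obtain ⟨x, hx, rfl⟩ := hx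
  obtain ⟨y, hy, rfl⟩ := hy
  obtain ⟨z, hz, hz2⟩ := h.br x hx y hy
  refine ⟨z, hz, ?_⟩
  simp only [smul_mul_assoc, mul_smul_comm, mul_smul] at hz2 ⊢
  rw [hz2, smul_sub, smul_sub, smul_comm b a]

theorem CS.mem_sum (h : CS K C0) {ι : Type*} (s : Finset ι) (a : ι → ℝ) (f : ι → A)
    (ha : ∀ i ∈ s, 0 ≤ a i) (hf : ∀ i ∈ s, f i ∈ a i • K) :
    ∑ i ∈ s, f i ∈ (∑ i ∈ s, a i) • K := by
  classical
  induction s using Finset.induction_on with
  | empty => simpa using h.mem_zero 0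
  | insert i s hi ih =>
    rw [sum_insert hi, sum_insert hi]
    exact h.mem_add (ha i (mem_insert_self i s))
      (sum_nonneg fun j hj => ha j (mem_insert_of_mem hj)) (hf i (mem_insert_self i s))
      (ih (fun j hj => ha j (mem_insert_of_mem hj)) fun j hj => hf j (mem_insert_of_mem hj))

theorem Qi_coeff (h : CS K C0) {P Q : Polynomial A} {B B0 : ℝ} (hB : 0 ≤ B) (hB0 : 0 ≤ B0)
    {k : ℕ} (hP : ∀ j ≤ k, P.coeff j ∈ B • K) (hQ : ∀ j ≤ k, Q.coeff j ∈ B0 • K) (i : ℕ) :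
    ∀ j ≤ k, (Qi P Q i).coeff j ∈ (B0 * ((k + 1) * B * C0) ^ i) • K := by
  induction i with
  | zero =>
    intro j hj
    rw [Qi, pow_zero, mul_one]
    exact hQ j hj
  | succ i ih =>
    intro j hj
    rw [Qi, coeff_bracket]
    have h2 := h.mem_sum (antidiagonal j) (fun _ => B * (B0 * ((k + 1) * B * C0) ^ i) * C0)
      (fun x => P.coeff x.1 * (Qi P Q i).coeff x.2 - (Qi P Q i).coeff x.2 * P.coeff x.1)
      (fun _ _ => by have := h.nonneg; positivity)
      (fun x hx => by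
        rw [HasAntidiagonal.mem_antidiagonal] at hx
        exact h.mem_br (hP x.1 (by omega)) (ih x.2 (by omega)))
    refine h.mem_mono ?_ ?_ h2
    · exact sum_nonneg fun _ _ => by have := h.nonneg; positivity
    · rw [sum_const, Finset.Nat.card_antidiagonal, nsmul_eq_mul, pow_succ]
      have h3 : ((j + 1 : ℕ) : ℝ) ≤ k + 1 := by exact_mod_cast Nat.succ_le_succ hj
      have h4 : 0 ≤ B * (B0 * ((k + 1) * B * C0) ^ i) * C0 := by have := h.nonneg; positivity
      calc ((j + 1 : ℕ) : ℝ) * (B * (B0 * ((k + 1) * B * C0) ^ i) * C0)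
          ≤ (k + 1) * (B * (B0 * ((k + 1) * B * C0) ^ i) * C0) := mul_le_mul_of_nonneg_right h3 h4
        _ = _ := by ring

/-- the constants -/
noncomputable def BB (a : Polynomial ℝ) (C0 : ℝ) (B0 : ℕ → ℝ) : ℕ → ℝ
  | 0 => 1
  | k + 1 => BB a C0 B0 k + ∑ i ∈ range (a.natDegree + 1), |a.coeff i| *
      (B0 k * ((k + 1) * BB a C0 B0 k * C0) ^ i)

theorem BB_nonneg (a : Polynomial ℝ) {C0 : ℝ} (h : 0 ≤ C0) {B0 : ℕ → ℝ} (hB0 : ∀ k, 0 ≤ B0 k)
    (k : ℕ) : 0 ≤ BB a C0 B0 k := by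
  induction k with
  | zero => simp [BB]
  | succ k ih => rw [BB]; have := hB0 k; positivity

theorem coeff_succ_eq (P : Polynomial A) (k : ℕ) :
    P.coeff (k + 1) = ((k + 1 : ℕ) : ℝ)⁻¹ • (Polynomial.derivative P).coeff k := by
  rw [Polynomial.coeff_derivative]
  have h4 : P.coeff (k + 1) * ((k : A) + 1) = ((k + 1 : ℕ) : ℝ) • P.coeff (k + 1) := by
    rw [Nat.cast_smul_eq_nsmul, nsmul_eq_mul, Nat.cast_succ]
    exact ((Nat.cast_commute k _).add_left (Commute.one_left _)).eq.symm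
  rw [h4, inv_smul_smul₀]
  positivity

theorem P_coeff (h : CS K C0) (a : Polynomial ℝ) {P Q : Polynomial A} {B0 : ℕ → ℝ}
    (hB0 : ∀ k, 0 ≤ B0 k) (h0 : P.coeff 0 ∈ K) (hQ : ∀ k, ∀ j ≤ k, Q.coeff j ∈ B0 k • K)
    (hP : Polynomial.derivative P = ∑ i ∈ range (a.natDegree + 1), a.coeff i • Qi P Q i) (k : ℕ) :
    ∀ j ≤ k, P.coeff j ∈ (BB a C0 B0 k) • K := by
  induction k with
  | zero =>
    intro j hj
    obtain rfl : j = 0 := by omega
    rw [BB, one_smul]; exact h0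
  | succ k ih =>
    intro j hj
    have hBk := BB_nonneg a h.nonneg hB0 k
    have hS : 0 ≤ ∑ i ∈ range (a.natDegree + 1), |a.coeff i| *
      (B0 k * ((k + 1) * BB a C0 B0 k * C0) ^ i) := by
      have := h.nonneg; have := hB0 k; positivity
    rcases Nat.lt_or_ge j (k + 1) with hj2 | hj2
    · refine h.mem_mono hBk ?_ (ih j (by omega))
      rw [BB]; linarith
    · obtain rfl : j = k + 1 := by omega
      have h1 := congrArg (fun q => Polynomial.coeff q k) hP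
      simp only [Polynomial.finsetSum_coeff, Polynomial.coeff_smul] at h1
      have h2 : ∑ i ∈ range (a.natDegree + 1), a.coeff i • (Qi P Q i).coeff k ∈
          (∑ i ∈ range (a.natDegree + 1), |a.coeff i| *
            (B0 k * ((k + 1) * BB a C0 B0 k * C0) ^ i)) • K := by
        refine h.mem_sum _ _ _ (fun i _ => by have := h.nonneg; have := hB0 k; positivity)
          fun i _ => ?_
        exact h.mem_smul _ (Qi_coeff h hBk (hB0 k) ih (hQ k) i k le_rfl)
      rw [← h1] at h2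
      rw [coeff_succ_eq]
      have h5 := h.mem_smul (((k + 1 : ℕ) : ℝ)⁻¹) h2
      have h6 : |(((k + 1 : ℕ) : ℝ)⁻¹)| ≤ 1 := by
        rw [abs_of_nonneg (by positivity)]
        refine inv_le_one_of_one_le₀ ?_
        exact_mod_cast Nat.succ_le_succ (Nat.zero_le k)
      refine h.mem_mono (mul_nonneg (abs_nonneg _) hS) ?_ h5
      rw [BB]
      calc _ ≤ 1 * _ := mul_le_mul_of_nonneg_right h6 hS
        _ ≤ _ := by rw [one_mul]; linarith

/-- submodule version -/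
theorem Qi_coeff_mem {H I I' : Submodule ℝ A} (hI' : I' ≤ I)
    (hb : ∀ x ∈ H, ∀ y ∈ I, x * y - y * x ∈ I') {P Q : Polynomial A} {k : ℕ}
    (hP : ∀ j ≤ k, P.coeff j ∈ H) (hQ : ∀ j ≤ k, Q.coeff j ∈ I) (i : ℕ) :
    ∀ j ≤ k, (Qi P Q (i + 1)).coeff j ∈ I' := by
  induction i with
  | zero =>
    intro j hj
    rw [Qi, Qi, coeff_bracket]
    refine Submodule.sum_mem _ fun x hx => ?_
    rw [HasAntidiagonal.mem_antidiagonal] at hx
    exact hb _ (hP x.1 (by omega)) _ (hQ x.2 (by omega))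
  | succ i ih =>
    intro j hj
    rw [Qi, coeff_bracket]
    refine Submodule.sum_mem _ fun x hx => ?_
    rw [HasAntidiagonal.mem_antidiagonal] at hx
    exact hb _ (hP x.1 (by omega)) _ (hI' (ih x.2 (by omega)))

end sets

section main

variable {A : Type*} [NormedRing A] [NormedAlgebra ℝ A] {m : ℕ}

theorem ev_Qi (s : ℝ) (P Q : Polynomial A) (i : ℕ) :
    ev s (Qi P Q i) = ((adL (ev s P)) ^ i) (ev s Q) := by
  induction i with
  | zero => rw [Qi]; rfl
  | succ i ih =>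
    rw [Qi, map_sub, map_mul, map_mul, ih, pow_succ', Module.End.mul_apply, adL_apply]

theorem aeval_Qi (s : ℝ) (P Q : Polynomial A) (a : Polynomial ℝ) :
    ev s (∑ i ∈ range (a.natDegree + 1), a.coeff i • Qi P Q i) =
      (Polynomial.aeval (adL (ev s P)) a) (ev s Q) := by
  rw [map_sum, Polynomial.aeval_eq_sum_range, LinearMap.sum_apply]
  refine sum_congr rfl fun i _ => ?_
  rw [map_smul, ev_Qi]
  rfl

/-- truncated exponential of a polynomial -/
noncomputable def exP (m : ℕ) (P : Polynomial A) : Polynomial A :=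
  ∑ j ∈ range m, ((j.factorial : ℝ)⁻¹) • P ^ j

theorem ev_exP (P : Polynomial A) (s : ℝ) : ev s (exP m P) = ex m (ev s P) := by
  unfold exP ex
  rw [map_sum]
  exact sum_congr rfl fun j _ => by rw [map_smul, map_pow]

theorem exP_natDegree {P : Polynomial A} (h : P.natDegree ≤ 1) : (exP m P).natDegree ≤ m := by
  unfold exP
  refine Polynomial.natDegree_sum_le_of_forall_le _ _ fun j hj => ?_
  refine (Polynomial.natDegree_smul_le _ _).trans ?_
  refine Polynomial.natDegree_pow_le.trans ?_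
  calc j * _ ≤ j * 1 := Nat.mul_le_mul_left j h
    _ ≤ m := by have := mem_range.1 hj; omega

/-- the polynomial `log (g * exp P)` -/
noncomputable def PP (m : ℕ) (g : A) (P : Polynomial A) : Polynomial A :=
  ∑ k ∈ range m, be k • (Polynomial.C g * exP m P - 1) ^ k

theorem ev_PP (g : A) (P : Polynomial A) (s : ℝ) :
    ev s (PP m g P) = lg m (g * ex m (ev s P)) := by
  unfold PP lg
  rw [map_sum]
  refine sum_congr rfl fun k _ => ?_
  rw [map_smul, map_pow, map_sub, map_one, map_mul, ev_C, ev_exP]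

theorem PP_natDegree (g : A) {P : Polynomial A} (h : P.natDegree ≤ 1) :
    (PP m g P).natDegree ≤ m * m := by
  unfold PP
  refine Polynomial.natDegree_sum_le_of_forall_le _ _ fun k hk => ?_
  refine (Polynomial.natDegree_smul_le _ _).trans ?_
  refine Polynomial.natDegree_pow_le.trans ?_
  have hk2 := (mem_range.1 hk).le
  refine Nat.mul_le_mul hk2 ?_
  refine (Polynomial.natDegree_sub_le _ _).trans ?_
  refine max_le ?_ (by simp)
  refine Polynomial.natDegree_mul_le.trans ?_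
  rw [Polynomial.natDegree_C, zero_add]
  exact exP_natDegree h

theorem ev_lin (X Y : A) (s : ℝ) : ev s (lin X Y) = X + s • Y := by
  unfold lin
  rw [map_add, map_mul, ev_C, ev_C, ev_X, ← Algebra.commutes, ← Algebra.smul_def]

theorem PP_deriv (hm : 0 < m) {g X Y : A}
    (hXY : ∀ s : ℝ, (X + s • Y) ^ m = 0)
    (hu : ∀ s : ℝ, (g * ex m (X + s • Y) - 1) ^ m = 0) :
    Polynomial.derivative (PP m g (lin X Y)) = ∑ i ∈ range ((aa m hm).natDegree + 1),
      (aa m hm).coeff i • Qi (PP m g (lin X Y))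
        (∑ i ∈ range ((psi m).natDegree + 1), (psi m).coeff i • Qi (lin X Y) (Polynomial.C Y) i)
        i := by
  rw [← sub_eq_zero]
  refine ev_injective fun s => ?_
  rw [map_sub, sub_eq_zero, aeval_Qi, aeval_Qi, ev_C, ev_lin]
  set P := PP m g (lin X Y) with hP
  set Z := ev s P with hZ
  set X1 := X + s • Y with hX1
  have hev : ∀ t : ℝ, ev t P = lg m (g * ex m (X + t • Y)) := fun t => by
    rw [hP, ev_PP, ev_lin]
  have hZm : Z ^ m = 0 := by rw [hZ, hev]; exact lg_pow (hu s)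
  have hc : HasDerivAt (fun h : ℝ => ev (s + h) P) (ev s (Polynomial.derivative P)) 0 := by
    have h2 : HasDerivAt (fun s => ev s P) (ev s (Polynomial.derivative P)) (s + 0) := by
      rw [add_zero]; exact hasDerivAt_ev P s
    exact h2.comp_const_add s 0
  set W := ev s (Polynomial.derivative P) with hW
  have hc0 : ev (s + 0) P = Z := by rw [add_zero]
  have hexc : ∀ h : ℝ, ex m (ev (s + h) P) = g * ex m (X1 + h • Y) := by
    intro h
    rw [hev, ex_lg hm (hu _), hX1, add_smul, add_assoc]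
  have hE : Ek Z W m = 0 := by
    have h1 := hasDerivAt_pow_curve hc m
    rw [hc0] at h1
    have h2 : (fun h : ℝ => (ev (s + h) P) ^ m) = fun _ => 0 := by
      funext h
      rw [hev]
      exact lg_pow (hu _)
    rw [h2] at h1
    exact h1.unique (hasDerivAt_const (0 : ℝ) (0 : A))
  have hd : HasDerivAt (fun h : ℝ => X1 + h • Y) Y 0 := by
    have h1 := (hasDerivAt_id (0 : ℝ)).smul_const Y
    rw [one_smul] at h1
    exact h1.const_add X1
  have hd0 : X1 + (0 : ℝ) • Y = X1 := by rw [zero_smul, add_zero]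
  have hE1 : Ek X1 Y m = 0 := by
    have h1 := hasDerivAt_pow_curve hd m
    rw [hd0] at h1
    have h2 : (fun h : ℝ => (X1 + h • Y) ^ m) = fun _ => 0 := by
      funext h
      rw [hX1, add_assoc, ← add_smul]
      exact hXY _
    rw [h2] at h1
    exact h1.unique (hasDerivAt_const (0 : ℝ) (0 : A))
  have h1 := hasDerivAt_ex_curve (m := m) hc 1
  rw [hc0] at h1
  have h2 : HasDerivAt (fun h : ℝ => ex m ((1 : ℝ) • ev (s + h) P)) (g * Dt m X1 Y 1) 0 := by
    have h3 : (fun h : ℝ => ex m ((1 : ℝ) • ev (s + h) P)) =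
        fun h : ℝ => g * ex m ((1 : ℝ) • (X1 + h • Y)) := by
      funext h
      rw [one_smul, one_smul, hexc]
    rw [h3]
    have h4 := hasDerivAt_ex_curve (m := m) hd 1
    rw [hd0] at h4
    exact h4.const_mul g
  have h3 := h1.unique h2
  have hX1m : X1 ^ m = 0 := hXY s
  have h4 := dexp_formula hm hZm hE 1
  have h5 := dexp_formula hm hX1m hE1 1
  rw [h3] at h4
  simp only [neg_smul, one_smul] at h4 h5
  have hZg : ex m (-Z) * g = ex m (-X1) := by
    have e1 := hexc 0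
    rw [hc0, hd0] at e1
    have e2 : ex m (-Z) * (g * ex m X1) = 1 := by rw [← e1]; exact ex_neg_mul hm hZm
    calc ex m (-Z) * g = ex m (-Z) * g * (ex m X1 * ex m (-X1)) := by
          rw [ex_mul_neg hm hX1m, mul_one]
      _ = ex m (-Z) * (g * ex m X1) * ex m (-X1) := by simp only [mul_assoc]
      _ = _ := by rw [e2, one_mul]
  rw [← mul_assoc, hZg, h5] at h4
  have h6 := aeval_aa hm hZm W
  rw [← h4] at h6
  rw [← h6, St_eq_aeval]

/-- coefficients of the inhomogeneous term -/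
noncomputable def B1 (m : ℕ) (C0 : ℝ) (k : ℕ) : ℝ :=
  ∑ i ∈ range ((psi m).natDegree + 1), |(psi m).coeff i| * (1 * ((k + 1) * 1 * C0) ^ i)

theorem B1_nonneg (m : ℕ) {C0 : ℝ} (h : 0 ≤ C0) (k : ℕ) : 0 ≤ B1 m C0 k := by
  unfold B1; positivity

theorem inh_coeff {K : Set A} {C0 : ℝ} (hK : CS K C0) {X Y : A} (hX : X ∈ K) (hY : Y ∈ K)
    (k : ℕ) : ∀ j ≤ k,
    (∑ i ∈ range ((psi m).natDegree + 1), (psi m).coeff i • Qi (lin X Y) (Polynomial.C Y) i).coeff j
      ∈ B1 m C0 k • K := by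
  intro j hj
  rw [Polynomial.finsetSum_coeff]
  simp only [Polynomial.coeff_smul]
  refine hK.mem_sum _ _ _ (fun i _ => by have := hK.nonneg; positivity) fun i _ => ?_
  refine hK.mem_smul _ (Qi_coeff hK zero_le_one zero_le_one ?_ ?_ i j hj)
  · intro l _
    rw [lin_coeff, one_smul]
    split_ifs
    · exact hX
    · exact hY
    · exact hK.zero
  · intro l _
    rw [Polynomial.coeff_C, one_smul]
    split_ifs
    · exact hY
    · exact hK.zero

/-- general quantitative statement: `log (g exp (X + c Y)) - log (g exp X) ∈ C c K` if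
`log (g exp X) ∈ K` -/
theorem qbch_gen (hm : 0 < m) {C0 : ℝ} (hC0 : 0 ≤ C0) : ∃ C : ℝ, 0 ≤ C ∧
    ∀ (K : Set A), CS K C0 → ∀ X ∈ K, ∀ Y ∈ K, ∀ g : A,
    (∀ s : ℝ, (X + s • Y) ^ m = 0) → (∀ s : ℝ, (g * ex m (X + s • Y) - 1) ^ m = 0) →
    lg m (g * ex m X) ∈ K →
    ∀ c : ℝ, 0 ≤ c → c ≤ 1 → lg m (g * ex m (X + c • Y)) - lg m (g * ex m X) ∈ (C * c) • K := by
  set a := aa m hm with ha
  refine ⟨∑ k ∈ range (m * m), BB a C0 (B1 m C0) (m * m),
    sum_nonneg fun _ _ => BB_nonneg a hC0 (B1_nonneg m hC0) _, ?_⟩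
  intro K hK X hX Y hY g hXY hu h0K c hc0 hc1
  have hBn := BB_nonneg a hC0 (B1_nonneg m hC0) (m * m)
  have hdeg := PP_natDegree (m := m) g (lin_natDegree X Y)
  have h0 : (PP m g (lin X Y)).coeff 0 = lg m (g * ex m X) := by
    have h1 := ev_PP (m := m) g (lin X Y) 0
    rw [ev_lin, zero_smul, add_zero,
      ev_eq_sum 0 _ (m * m + 1) (Nat.lt_succ_of_le hdeg), sum_range_succ'] at h1
    simpa using h1
  have hco := P_coeff hK a (B1_nonneg m hC0) (by rw [h0]; exact h0K)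
    (fun k => inh_coeff (m := m) hK hX hY k) (PP_deriv hm hXY hu) (m * m)
  have h1 := ev_PP (m := m) g (lin X Y) c
  rw [ev_lin, ev_eq_sum c _ (m * m + 1) (Nat.lt_succ_of_le hdeg), sum_range_succ',
    pow_zero, one_smul, h0] at h1
  rw [← h1, add_sub_cancel_right, sum_mul]
  refine hK.mem_sum _ _ _ (fun _ _ => mul_nonneg hBn hc0) fun k hk => ?_
  have h2 := hK.mem_smul (c ^ (k + 1)) (hco (k + 1) (mem_range.1 hk))
  refine hK.mem_mono (mul_nonneg (abs_nonneg _) hBn) ?_ h2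
  rw [abs_of_nonneg (by positivity), mul_comm]
  refine mul_le_mul_of_nonneg_left ?_ hBn
  calc c ^ (k + 1) = c ^ k * c := pow_succ c k
    _ ≤ 1 * c := mul_le_mul_of_nonneg_right (pow_le_one₀ hc0 hc1) hc0
    _ = c := one_mul c

/-- algebraic BCH modulo brackets: `log (g exp (X + Y)) ≡ log (g exp X) + Y` modulo `[H, I]` -/
theorem bch_mod_gen (hm : 0 < m) {H I I' : Submodule ℝ A} (hI : I ≤ H) (hI' : I' ≤ I)
    (hb : ∀ x ∈ H, ∀ y ∈ I, x * y - y * x ∈ I') {g X Y : A} (hX : X ∈ H) (hY : Y ∈ I)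
    (hXY : ∀ s : ℝ, (X + s • Y) ^ m = 0) (hu : ∀ s : ℝ, (g * ex m (X + s • Y) - 1) ^ m = 0)
    (h0 : lg m (g * ex m X) ∈ H) :
    lg m (g * ex m (X + Y)) - lg m (g * ex m X) - Y ∈ I' := by
  set P := PP m g (lin X Y) with hP
  set Q : Polynomial A := ∑ i ∈ range ((psi m).natDegree + 1),
    (psi m).coeff i • Qi (lin X Y) (Polynomial.C Y) i with hQ
  have hlin : ∀ j, (lin X Y).coeff j ∈ H := by
    intro j
    rw [lin_coeff]
    split_ifs
    · exact hX
    · exact hI hY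
    · exact H.zero_mem
  have hCY : ∀ j, (Polynomial.C Y).coeff j ∈ I := by
    intro j
    rw [Polynomial.coeff_C]
    split_ifs
    · exact hY
    · exact I.zero_mem
  have hQ1 : ∀ j, Q.coeff j - (if j = 0 then Y else 0) ∈ I' := by
    intro j
    rw [hQ, Polynomial.finsetSum_coeff, sum_range_succ', Polynomial.coeff_smul,
      psi_coeff_zero hm, one_smul, Qi, Polynomial.coeff_C, add_sub_cancel_right]
    refine I'.sum_mem fun i _ => ?_
    rw [Polynomial.coeff_smul]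
    exact I'.smul_mem _ (Qi_coeff_mem hI' hb (k := j) (fun l _ => hlin l) (fun l _ => hCY l)
      i j le_rfl)
  have hQ2 : ∀ j, Q.coeff j ∈ I := by
    intro j
    have h1 := I.add_mem (hI' (hQ1 j)) (show (if j = 0 then Y else 0) ∈ I by
      split_ifs
      · exact hY
      · exact I.zero_mem)
    rwa [sub_add_cancel] at h1
  have hdeg := PP_natDegree (m := m) g (lin_natDegree X Y)
  have hP0 : P.coeff 0 = lg m (g * ex m X) := by
    have h1 := ev_PP (m := m) g (lin X Y) 0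
    rw [ev_lin, zero_smul, add_zero,
      ev_eq_sum 0 _ (m * m + 1) (Nat.lt_succ_of_le hdeg), sum_range_succ'] at h1
    simpa using h1
  have hD := PP_deriv hm hXY hu
  rw [← hP, ← hQ] at hD
  have key : ∀ k, (∀ j ≤ k, P.coeff j ∈ H) →
      (Polynomial.derivative P).coeff k - (if k = 0 then Y else 0) ∈ I' := by
    intro k hk
    rw [hD, Polynomial.finsetSum_coeff, sum_range_succ', Polynomial.coeff_smul,
      aa_coeff_zero hm, one_smul, Qi, add_sub_assoc]
    refine I'.add_mem (I'.sum_mem fun i _ => ?_) (hQ1 k)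
    rw [Polynomial.coeff_smul]
    exact I'.smul_mem _ (Qi_coeff_mem hI' hb (k := k) hk (fun l _ => hQ2 l) i k le_rfl)
  have hH : ∀ k, ∀ j ≤ k, P.coeff j ∈ H := by
    intro k
    induction k with
    | zero =>
      intro j hj
      obtain rfl : j = 0 := by omega
      rw [hP0]; exact h0
    | succ k ih =>
      intro j hj
      rcases Nat.lt_or_ge j (k + 1) with hj2 | hj2
      · exact ih j (by omega)
      · obtain rfl : j = k + 1 := by omega
        rw [coeff_succ_eq]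
        refine H.smul_mem _ ?_
        have h1 := H.add_mem (hI (hI' (key k ih))) (show (if k = 0 then Y else 0) ∈ H by
          split_ifs
          · exact hI hY
          · exact H.zero_mem)
        rwa [sub_add_cancel] at h1
  have key2 : ∀ k, P.coeff (k + 1) - (if k = 0 then Y else 0) ∈ I' := by
    intro k
    have h1 := I'.smul_mem (((k + 1 : ℕ) : ℝ)⁻¹) (key k (hH k))
    rw [smul_sub, ← coeff_succ_eq] at h1
    have h2 : (((k + 1 : ℕ) : ℝ)⁻¹) • (if k = 0 then Y else 0) = (if k = 0 then Y else 0) := by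
      rcases Nat.eq_zero_or_pos k with rfl | hk
      · simp
      · rw [if_neg (by omega), smul_zero]
    rwa [h2] at h1
  have h1 := ev_PP (m := m) g (lin X Y) 1
  rw [ev_lin, one_smul, ev_eq_sum 1 _ (m * m + 1) (Nat.lt_succ_of_le hdeg),
    sum_range_succ', ← hP, hP0] at h1
  simp only [one_pow, one_smul] at h1
  rw [← h1, add_sub_cancel_right]
  have h2 : (∑ k ∈ range (m * m), P.coeff (k + 1)) - Y =
      ∑ k ∈ range (m * m), (P.coeff (k + 1) - (if k = 0 then Y else 0)) := by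
    rw [sum_sub_distrib]
    congr 1
    rw [sum_ite_eq' (range (m * m)) 0 (fun _ => Y), if_pos]
    rw [mem_range]; positivity
  rw [h2]
  exact I'.sum_mem fun k _ => key2 k

theorem ex_zero (hm : 0 < m) : ex m (0 : A) = 1 := by
  have := ex_zero_smul hm (0 : A)
  rwa [smul_zero] at this

end main

end Vale.Agent.P188.H615

end

section

/-!
Baker, Campbell, Hausdorff on the Lie algebra of the real Malcev completion.
-/

open Finset Filter Topology Pointwise

universe u v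

namespace Vale.Agent.P188.H615

open Vale.Agent.P188.H796

section hadamard

variable {A : Type*} [NormedRing A] [NormedAlgebra ℝ A] {m : ℕ}

/-- partial sums of `∑ t^k/k! ad^k W` -/
noncomputable def Ht (M : ℕ) (Z W : A) (t : ℝ) : A :=
  ∑ k ∈ range M, t ^ k • ((k.factorial : ℝ)⁻¹ • ((adL Z) ^ k) W)

theorem hasDerivAt_Ht {M : ℕ} {Z W : A} (hM : ((adL Z) ^ M) W = 0) (t : ℝ) :
    HasDerivAt (Ht M Z W) (adL Z (Ht M Z W t)) t := by
  have h2 : ∀ k ∈ range M, HasDerivAt (fun s : ℝ => s ^ k •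
      ((k.factorial : ℝ)⁻¹ • ((adL Z) ^ k) W))
      (((k : ℝ) * t ^ (k - 1)) • ((k.factorial : ℝ)⁻¹ • ((adL Z) ^ k) W)) t := by
    intro k _
    exact (hasDerivAt_pow k t).smul_const _
  have h3 := HasDerivAt.fun_sum h2
  suffices hs : adL Z (Ht M Z W t) = ∑ k ∈ range M, ((k : ℝ) * t ^ (k - 1)) •
      ((k.factorial : ℝ)⁻¹ • ((adL Z) ^ k) W) by
    rw [hs]; exact h3
  have h6 : adL Z (Ht M Z W t) = ∑ k ∈ range M,
      t ^ k • ((k.factorial : ℝ)⁻¹ • ((adL Z) ^ (k + 1)) W) := by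
    unfold Ht
    rw [map_sum]
    refine sum_congr rfl fun k _ => ?_
    rw [map_smul, map_smul, pow_succ' (adL Z), Module.End.mul_apply]
  rw [h6]
  cases M with
  | zero => simp
  | succ M =>
    rw [sum_range_succ, hM, smul_zero, smul_zero, add_zero,
      sum_range_succ' (fun k => ((k : ℝ) * t ^ (k - 1)) •
        ((k.factorial : ℝ)⁻¹ • ((adL Z) ^ k) W))]
    simp only [Nat.cast_zero, zero_mul, zero_smul, add_zero]
    refine sum_congr rfl fun k _ => ?_
    rw [smul_smul, smul_smul, Nat.add_sub_cancel, Nat.factorial_succ]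
    congr 1
    push_cast
    have : ((k : ℝ) + 1) ≠ 0 := by positivity
    have : (k.factorial : ℝ) ≠ 0 := by positivity
    field_simp

/-- `exp Z * W * exp (-Z) = exp (ad Z) W` -/
theorem hadamard (hm : 0 < m) {Z W : A} (hZ : Z ^ m = 0) :
    ex m Z * W * ex m (-Z) = Ht (2 * m) Z W 1 := by
  have hM : ((adL Z) ^ (2 * m)) W = 0 := by rw [adL_pow_zero hZ]; rfl
  have hZ' : (-Z) ^ m = 0 := by rw [neg_pow, hZ, mul_zero]
  have key : ∀ t : ℝ, HasDerivAt (fun t : ℝ => ex m (t • Z) * W * ex m ((-t) • Z) -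
      Ht (2 * m) Z W t)
      (-(adL (-Z) (ex m (t • Z) * W * ex m ((-t) • Z) - Ht (2 * m) Z W t))) t := by
    intro t
    have h3 := (((hasDerivAt_ex hZ t).mul_const W).fun_mul (hasDerivAt_ex_neg hZ t)).fun_sub
      (hasDerivAt_Ht hM t)
    refine h3.congr_deriv ?_
    rw [adL_apply, adL_apply]
    have h5 := (ex_comm (m := m) Z t).eq
    have h6 := (ex_comm (m := m) Z (-t)).eq
    rw [h6, ← h5]
    noncomm_ring
  have h0 : ex m ((0 : ℝ) • Z) * W * ex m ((-(0 : ℝ)) • Z) - Ht (2 * m) Z W 0 = 0 := by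
    rw [neg_zero, ex_zero_smul hm, one_mul, mul_one, sub_eq_zero]
    unfold Ht
    obtain ⟨n, hn⟩ : ∃ n, 2 * m = n + 1 := ⟨2 * m - 1, by omega⟩
    rw [hn, sum_range_succ']
    simp
  have := ad_unique hm hZ' key h0 1
  rw [neg_smul, one_smul] at this
  exact sub_eq_zero.mp this

theorem hadamard_mem (hm : 0 < m) {H I I' I'' : Submodule ℝ A} (hI'' : I'' ≤ I')
    (hb : ∀ x ∈ H, ∀ y ∈ I, x * y - y * x ∈ I') (hb' : ∀ x ∈ H, ∀ y ∈ I', x * y - y * x ∈ I'')
    {Z W : A} (hZ : Z ^ m = 0) (hZH : Z ∈ H) (hW : W ∈ I) :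
    ex m Z * W * ex m (-Z) - W - (Z * W - W * Z) ∈ I'' := by
  rw [hadamard hm hZ]
  unfold Ht
  obtain ⟨n, hn⟩ : ∃ n, 2 * m = n + 1 + 1 := ⟨2 * m - 2, by omega⟩
  rw [hn, sum_range_succ', sum_range_succ']
  have h1 : ∀ k, ((adL Z) ^ (k + 2)) W ∈ I'' := by
    intro k
    induction k with
    | zero =>
      rw [pow_two, Module.End.mul_apply, adL_apply, adL_apply]
      exact hb' _ hZH _ (hb _ hZH _ hW)
    | succ k ih =>
      rw [show k + 1 + 2 = (k + 2) + 1 from rfl, pow_succ', Module.End.mul_apply, adL_apply]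
      exact hb' _ hZH _ (hI'' ih)
  have h2 : (∑ k ∈ range n, (1 : ℝ) ^ (k + 1 + 1) •
      (((k + 1 + 1).factorial : ℝ)⁻¹ • ((adL Z) ^ (k + 1 + 1)) W)) ∈ I'' :=
    I''.sum_mem fun k _ => I''.smul_mem _ (I''.smul_mem _ (h1 k))
  simpa using h2

end hadamard

section transfer

variable {N : Type u} [Group N] {d n : ℕ} {D : MB N d n} {A : Type v} [NormedRing A]
  [NormedAlgebra ℝ A] [FiniteDimensional ℝ A] (R : RD D A)

theorem V_pow (v : R.V) : (v : A) ^ R.m = 0 := R.J_nil (R.V_le_J v.2)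

theorem V_pow_add (v w : R.V) (s : ℝ) : ((v : A) + s • (w : A)) ^ R.m = 0 :=
  V_pow R (v + s • w)

theorem V_unip (x : R.NR) (v w : R.V) (s : ℝ) :
    (R.toA x * ex R.m ((v : A) + s • (w : A)) - 1) ^ R.m = 0 := by
  have h1 : ex R.m ((v : A) + s • (w : A)) = R.toA (R.Ex (v + s • w)) := by
    rw [R.toA_Ex]; rfl
  rw [h1, ← map_mul]
  exact R.E_unip _

theorem coe_Lo (x : R.NR) : ((R.Lo x : R.V) : A) = lg R.m (R.toA x) := rfl

theorem coe_Lo_mul_Ex (x : R.NR) (v : R.V) :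
    ((R.Lo (x * R.Ex v) : R.V) : A) = lg R.m (R.toA x * ex R.m (v : A)) := by
  rw [coe_Lo, map_mul, R.toA_Ex]

/-- the image of a Lie submodule in the algebra -/
noncomputable def im (I : Submodule ℝ R.V) : Submodule ℝ A := I.map R.V.subtype

theorem mem_im {I : Submodule ℝ R.V} {v : R.V} : (v : A) ∈ im R I ↔ v ∈ I := by
  constructor
  · rintro ⟨w, hw, h⟩
    have : w = v := Subtype.ext h
    rwa [← this]
  · intro h
    exact ⟨v, h, rfl⟩

theorem im_mono {I J : Submodule ℝ R.V} (h : I ≤ J) : im R I ≤ im R J := Submodule.map_mono h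

theorem im_bracket {H I I' : Submodule ℝ R.V} (h : ∀ x ∈ H, ∀ y ∈ I, ⁅x, y⁆ ∈ I') :
    ∀ x ∈ im R H, ∀ y ∈ im R I, x * y - y * x ∈ im R I' := by
  rintro _ ⟨x, hx, rfl⟩ _ ⟨y, hy, rfl⟩
  exact ⟨⁅x, y⁆, h x hx y hy, rfl⟩

/-- algebraic BCH, submodule form -/
theorem Lo_mul_Ex_add' {H I I' : Submodule ℝ R.V} (hI : I ≤ H) (hI' : I' ≤ I)
    (hb : ∀ x ∈ H, ∀ y ∈ I, ⁅x, y⁆ ∈ I') (x : R.NR) {v w : R.V} (hv : v ∈ H) (hw : w ∈ I)
    (hx : R.Lo (x * R.Ex v) ∈ H) :
    R.Lo (x * R.Ex (v + w)) - R.Lo (x * R.Ex v) - w ∈ I' := by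
  rw [← mem_im R]
  have h := bch_mod_gen (R.hm0) (im_mono R hI) (im_mono R hI') (im_bracket R hb)
    (g := R.toA x) (X := (v : A)) (Y := (w : A)) ((mem_im R).2 hv) ((mem_im R).2 hw)
    (V_pow_add R v w) (V_unip R x v w) (by rw [← coe_Lo_mul_Ex]; exact (mem_im R).2 hx)
  have h2 : (((R.Lo (x * R.Ex (v + w)) - R.Lo (x * R.Ex v) - w : R.V)) : A) =
      lg R.m (R.toA x * ex R.m ((v : A) + (w : A))) - lg R.m (R.toA x * ex R.m (v : A)) - w := by
    rw [Submodule.coe_sub, Submodule.coe_sub, coe_Lo_mul_Ex, coe_Lo_mul_Ex]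
    rfl
  rw [h2]
  exact h

theorem Lo_one : R.Lo 1 = 0 := by
  rw [← R.Ex_zero, R.Lo_Ex]

theorem Lo_inv (x : R.NR) : R.Lo x⁻¹ = -R.Lo x := by
  conv_lhs => rw [← R.Ex_Lo x, ← R.Ex_neg, R.Lo_Ex]

/-- `log (exp v * exp w) ≡ v + w` -/
theorem Lo_Ex_mul_Ex' {H I I' : Submodule ℝ R.V} (hI : I ≤ H) (hI' : I' ≤ I)
    (hb : ∀ x ∈ H, ∀ y ∈ I, ⁅x, y⁆ ∈ I') {v w : R.V} (hv : v ∈ H) (hw : w ∈ I) :
    R.Lo (R.Ex v * R.Ex w) - v - w ∈ I' := by
  have h := Lo_mul_Ex_add' R hI hI' hb (R.Ex v) (v := 0) (w := w) H.zero_mem hw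
    (by rw [R.Ex_zero, mul_one, R.Lo_Ex]; exact hv)
  rwa [zero_add, R.Ex_zero, mul_one, R.Lo_Ex] at h

/-- `log (exp v⁻¹ * exp (v + w)) ≡ w` -/
theorem Lo_Ex_inv_mul' {H I I' : Submodule ℝ R.V} (hI : I ≤ H) (hI' : I' ≤ I)
    (hb : ∀ x ∈ H, ∀ y ∈ I, ⁅x, y⁆ ∈ I') {v w : R.V} (hv : v ∈ H) (hw : w ∈ I) :
    R.Lo ((R.Ex v)⁻¹ * R.Ex (v + w)) - w ∈ I' := by
  have h := Lo_mul_Ex_add' R hI hI' hb (R.Ex v)⁻¹ (v := v) (w := w) hv hw
    (by rw [inv_mul_cancel, Lo_one]; exact H.zero_mem)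
  rwa [inv_mul_cancel, Lo_one, sub_zero] at h

/-- the subgroup `exp W` of a Lie subalgebra -/
noncomputable def ExS (W : Submodule ℝ R.V) (hW : ∀ x ∈ W, ∀ y ∈ W, ⁅x, y⁆ ∈ W) :
    Subgroup R.NR where
  carrier := {x | R.Lo x ∈ W}
  one_mem' := by
    change R.Lo 1 ∈ W
    rw [Lo_one]; exact W.zero_mem
  mul_mem' := by
    intro x y hx hy
    change R.Lo (x * y) ∈ W
    have h := Lo_Ex_mul_Ex' R le_rfl le_rfl hW hx hy
    rw [R.Ex_Lo, R.Ex_Lo] at h
    have h2 := W.add_mem (W.add_mem h hy) hx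
    have h3 : R.Lo (x * y) - R.Lo x - R.Lo y + R.Lo y + R.Lo x = R.Lo (x * y) := by abel
    rwa [h3] at h2
  inv_mem' := by
    intro x hx
    change R.Lo x⁻¹ ∈ W
    rw [Lo_inv]
    exact W.neg_mem hx

theorem mem_ExS {W : Submodule ℝ R.V} {hW : ∀ x ∈ W, ∀ y ∈ W, ⁅x, y⁆ ∈ W} {x : R.NR} :
    x ∈ ExS R W hW ↔ R.Lo x ∈ W := Iff.rfl

theorem coe_Adn_Ex (v w : R.V) :
    ((R.Adn (R.Ex v) w : R.V) : A) = ex R.m (v : A) * (w : A) * ex R.m (-(v : A)) := by
  rw [R.coe_Adn]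
  have h1 : R.E (R.Ex v) = ex R.m (v : A) := R.toA_Ex v
  have h2 : (((R.EU (R.Ex v))⁻¹ : Aˣ) : A) = ex R.m (-(v : A)) := by
    rw [← R.toA_inv, ← R.Ex_neg]
    exact R.toA_Ex (-v)
  rw [h1, h2]

/-- `Ad (exp v) w ≡ w + [v, w]` -/
theorem Adn_Ex_sub' {H I I' I'' : Submodule ℝ R.V} (hI'' : I'' ≤ I')
    (hb : ∀ x ∈ H, ∀ y ∈ I, ⁅x, y⁆ ∈ I') (hb' : ∀ x ∈ H, ∀ y ∈ I', ⁅x, y⁆ ∈ I'')
    {v w : R.V} (hv : v ∈ H) (hw : w ∈ I) :
    R.Adn (R.Ex v) w - w - ⁅v, w⁆ ∈ I'' := by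
  rw [← mem_im R]
  have h := hadamard_mem (R.hm0) (im_mono R hI'') (im_bracket R hb) (im_bracket R hb')
    (V_pow R v) ((mem_im R).2 hv) ((mem_im R).2 hw)
  rw [Submodule.coe_sub, Submodule.coe_sub, coe_Adn_Ex]
  exact h

theorem Adn_Ex_sub_mem' {H I I' : Submodule ℝ R.V} (hI' : I' ≤ I)
    (hb : ∀ x ∈ H, ∀ y ∈ I, ⁅x, y⁆ ∈ I') {v w : R.V} (hv : v ∈ H) (hw : w ∈ I) :
    R.Adn (R.Ex v) w - w ∈ I' := by
  have h := Adn_Ex_sub' R (I'' := I') le_rfl hb (fun x hx y hy => hb x hx y (hI' hy)) hv hw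
  have h2 := I'.add_mem h (hb v hv w hw)
  rwa [sub_add_cancel] at h2

open scoped commutatorElement in
/-- `log [exp v, exp w] ≡ [v, w]` -/
theorem Lo_comm' {H I I' I'' : Submodule ℝ R.V} (hI : I ≤ H) (hI' : I' ≤ I) (hI'' : I'' ≤ I')
    (hb : ∀ x ∈ H, ∀ y ∈ I, ⁅x, y⁆ ∈ I') (hb' : ∀ x ∈ H, ∀ y ∈ I', ⁅x, y⁆ ∈ I'')
    {v w : R.V} (hv : v ∈ H) (hw : w ∈ I) :
    R.Lo ⁅R.Ex v, R.Ex w⁆ - ⁅v, w⁆ ∈ I'' := by
  set w' := R.Adn (R.Ex v) w with hw'
  have e1 := Adn_Ex_sub' R hI'' hb hb' hv hw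
  have hd : w' - w ∈ I' := Adn_Ex_sub_mem' R hI' hb hv hw
  set dd := w' - w with hdd
  set U := R.Lo ((R.Ex w)⁻¹ * R.Ex (w + dd)) with hU
  have h2 : U - dd ∈ I'' := Lo_Ex_inv_mul' R (hI'.trans hI) hI'' hb' (hI hw) hd
  have hU' : U ∈ I' := by
    have := I'.add_mem (hI'' h2) hd
    rwa [sub_add_cancel] at this
  have h3 : R.Adn (R.Ex w) U - U ∈ I'' := Adn_Ex_sub_mem' R hI'' hb' (hI hw) hU'
  have h4 : ⁅R.Ex v, R.Ex w⁆ = R.Ex (R.Adn (R.Ex w) U) := by
    rw [R.Ex_Adn, hU, R.Ex_Lo, commutatorElement_def]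
    have h5 : w + dd = w' := by rw [hdd]; abel
    rw [h5, hw', R.Ex_Adn]
    group
  rw [h4, R.Lo_Ex]
  have h6 : R.Adn (R.Ex w) U - ⁅v, w⁆ = (R.Adn (R.Ex w) U - U) + (U - dd) +
      (w' - w - ⁅v, w⁆) := by rw [hdd]; abel
  rw [h6]
  exact I''.add_mem (I''.add_mem h3 h2) e1

end transfer

end Vale.Agent.P188.H615

end

section

/-!
Logarithmic length bound on the exponential of a Lie subalgebra generated by short letters.
-/

open Finset Filter Topology Pointwise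

universe u v

namespace Vale.Agent.P188.H615

open Vale.Agent.P188.H796

/-- `f = O(1 + L)` -/
def OL {T : Type*} (L f : T → ℝ) : Prop := ∃ C : ℝ, 0 ≤ C ∧ ∀ t, f t ≤ C * (1 + L t)

namespace OL

variable {T : Type*} {L f g : T → ℝ}

theorem const (hL : ∀ t, 0 ≤ L t) (c : ℝ) : OL L (fun _ => c) :=
  ⟨|c|, abs_nonneg _, fun t => by
    have h1 := le_abs_self c
    have h2 := abs_nonneg c
    nlinarith [hL t]⟩

theorem self : OL L L := ⟨1, zero_le_one, fun t => by linarith⟩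

theorem add (hf : OL L f) (hg : OL L g) : OL L (fun t => f t + g t) := by
  obtain ⟨C, hC, h⟩ := hf
  obtain ⟨C', hC', h'⟩ := hg
  exact ⟨C + C', by positivity, fun t => by have := h t; have := h' t; linarith⟩

theorem mul_const (hf : OL L f) {c : ℝ} (hc : 0 ≤ c) : OL L (fun t => c * f t) := by
  obtain ⟨C, hC, h⟩ := hf
  exact ⟨c * C, by positivity, fun t => by
    have := mul_le_mul_of_nonneg_left (h t) hc
    linarith⟩

theorem mono (hf : OL L f) (h : ∀ t, g t ≤ f t) : OL L g := by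
  obtain ⟨C, hC, h'⟩ := hf
  exact ⟨C, hC, fun t => (h t).trans (h' t)⟩

theorem comp {T' : Type*} (hf : OL L f) (φ : T' → T) : OL (fun t => L (φ t)) (fun t => f (φ t)) := by
  obtain ⟨C, hC, h⟩ := hf
  exact ⟨C, hC, fun t => h _⟩

theorem trans {L' : T → ℝ} (hL' : ∀ t, 0 ≤ L' t) (hf : OL L f) (hL : OL L' L) : OL L' f := by
  obtain ⟨C, hC, h⟩ := hf
  obtain ⟨C', hC', h'⟩ := hL
  refine ⟨C * (1 + C'), by positivity, fun t => (h t).trans ?_⟩
  rw [mul_assoc]
  refine mul_le_mul_of_nonneg_left ?_ hC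
  have := h' t
  have := hL' t
  nlinarith

theorem sum (hL : ∀ t, 0 ≤ L t) {ι : Type*} (s : Finset ι) {F : ι → T → ℝ}
    (h : ∀ i ∈ s, OL L (F i)) :
    OL L (fun t => ∑ i ∈ s, F i t) := by
  classical
  induction s using Finset.induction_on with
  | empty => simpa using const hL 0
  | insert i s hi ih =>
    have := (h i (mem_insert_self i s)).add (ih fun j hj => h j (mem_insert_of_mem hj))
    refine this.mono fun t => ?_
    rw [sum_insert hi]

end OL

theorem log_one_add_nonneg {a : ℝ} (ha : 0 ≤ a) : 0 ≤ Real.log (1 + a) :=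
  Real.log_nonneg (by linarith)

theorem log_mul_le {a C : ℝ} (ha : 0 ≤ a) (hC : 0 ≤ C) :
    Real.log (1 + C * a) ≤ Real.log (1 + C) + Real.log (1 + a) := by
  rw [← Real.log_mul (by positivity) (by positivity)]
  refine Real.log_le_log (by positivity) ?_
  nlinarith

section norms

variable {A : Type v} [NormedRing A] [NormedAlgebra ℝ A]

theorem norm_pow_le_aux (v : A) {k m : ℕ} (hk : k ≤ m) {b : ℝ} (hb : ‖v‖ ≤ b) :
    ‖v ^ k‖ ≤ (1 + ‖(1 : A)‖) * (1 + b) ^ m := by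
  have hb0 : 0 ≤ b := (norm_nonneg v).trans hb
  have h1 : (1 : ℝ) ≤ (1 + b) := by linarith
  have h2 : ‖v ^ k‖ ≤ (1 + ‖(1 : A)‖) * (1 + b) ^ k := by
    rcases Nat.eq_zero_or_pos k with rfl | hk
    · rw [pow_zero, pow_zero, mul_one]; linarith
    · have h3 := norm_pow_le' v hk
      have h4 : ‖v‖ ^ k ≤ (1 + b) ^ k := by gcongr; linarith
      have h5 : 0 ≤ (1 + b) ^ k := by positivity
      nlinarith [norm_nonneg (1 : A)]
  refine h2.trans ?_
  gcongr

theorem norm_ex_le (m : ℕ) : ∃ C : ℝ, 1 ≤ C ∧ ∀ v : A, ‖ex m v‖ ≤ C * (1 + ‖v‖) ^ m := by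
  refine ⟨1 + ∑ k ∈ range m, (k.factorial : ℝ)⁻¹ * (1 + ‖(1 : A)‖), ?_, fun v => ?_⟩
  · have : 0 ≤ ∑ k ∈ range m, (k.factorial : ℝ)⁻¹ * (1 + ‖(1 : A)‖) := by positivity
    linarith
  · have h1 : ‖ex m v‖ ≤ ∑ k ∈ range m, (k.factorial : ℝ)⁻¹ * ((1 + ‖(1 : A)‖) * (1 + ‖v‖) ^ m) := by
      unfold ex
      refine (norm_sum_le _ _).trans (sum_le_sum fun k hk => ?_)
      rw [norm_smul, Real.norm_of_nonneg (by positivity)]
      exact mul_le_mul_of_nonneg_left (norm_pow_le_aux v (mem_range.1 hk).le le_rfl) (by positivity)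
    have h2 : 0 ≤ 1 * (1 + ‖v‖) ^ m := by positivity
    have h3 : ∑ k ∈ range m, (k.factorial : ℝ)⁻¹ * ((1 + ‖(1 : A)‖) * (1 + ‖v‖) ^ m) =
        (∑ k ∈ range m, (k.factorial : ℝ)⁻¹ * (1 + ‖(1 : A)‖)) * (1 + ‖v‖) ^ m := by
      rw [sum_mul]; exact sum_congr rfl fun k _ => by ring
    rw [h3] at h1
    linarith

theorem norm_lg_le (m : ℕ) : ∃ C : ℝ, 1 ≤ C ∧ ∀ v : A, ‖lg m v‖ ≤ C * (1 + ‖v‖) ^ m := by
  refine ⟨1 + (∑ k ∈ range m, |be k| * (1 + ‖(1 : A)‖)) * (1 + ‖(1 : A)‖) ^ m, ?_, fun v => ?_⟩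
  · have : 0 ≤ (∑ k ∈ range m, |be k| * (1 + ‖(1 : A)‖)) * (1 + ‖(1 : A)‖) ^ m := by positivity
    linarith
  · have hn : ‖v - 1‖ ≤ ‖v‖ + ‖(1 : A)‖ := norm_sub_le _ _
    have h1 : ‖lg m v‖ ≤ ∑ k ∈ range m, |be k| * ((1 + ‖(1 : A)‖) *
        (1 + (‖v‖ + ‖(1 : A)‖)) ^ m) := by
      unfold lg
      refine (norm_sum_le _ _).trans (sum_le_sum fun k hk => ?_)
      rw [norm_smul, Real.norm_eq_abs]
      exact mul_le_mul_of_nonneg_left (norm_pow_le_aux _ (mem_range.1 hk).le hn) (by positivity)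
    have h4 : (1 + (‖v‖ + ‖(1 : A)‖)) ^ m ≤ (1 + ‖(1 : A)‖) ^ m * (1 + ‖v‖) ^ m := by
      rw [← mul_pow]
      gcongr
      nlinarith [norm_nonneg v, norm_nonneg (1 : A)]
    have h2 : 0 ≤ 1 * (1 + ‖v‖) ^ m := by positivity
    have h5 : ∑ k ∈ range m, |be k| * ((1 + ‖(1 : A)‖) * (1 + (‖v‖ + ‖(1 : A)‖)) ^ m) =
        (∑ k ∈ range m, |be k| * (1 + ‖(1 : A)‖)) * (1 + (‖v‖ + ‖(1 : A)‖)) ^ m := by
      rw [sum_mul]; exact sum_congr rfl fun k _ => by ring
    have h6 : 0 ≤ ∑ k ∈ range m, |be k| * (1 + ‖(1 : A)‖) := by positivity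
    calc ‖lg m v‖ ≤ _ := h1
      _ = _ := h5
      _ ≤ (∑ k ∈ range m, |be k| * (1 + ‖(1 : A)‖)) * ((1 + ‖(1 : A)‖) ^ m * (1 + ‖v‖) ^ m) :=
          mul_le_mul_of_nonneg_left h4 h6
      _ ≤ _ := by linarith

/-- `log (1 + ‖ex v‖) = O(1 + log (1 + ‖v‖))` -/
theorem log_ex_le (m : ℕ) : ∃ C : ℝ, 0 ≤ C ∧ ∀ v : A,
    Real.log (1 + ‖ex m v‖) ≤ C * (1 + Real.log (1 + ‖v‖)) := by
  obtain ⟨C, hC, h⟩ := norm_ex_le (A := A) m
  refine ⟨Real.log (1 + C) + m, by have := Real.log_nonneg (show 1 ≤ 1 + C by linarith); positivity,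
    fun v => ?_⟩
  have h1 : 1 + ‖ex m v‖ ≤ (1 + C) * (1 + ‖v‖) ^ m := by
    have := one_le_pow₀ (n := m) (show (1 : ℝ) ≤ 1 + ‖v‖ by linarith [norm_nonneg v])
    linarith [h v]
  have h2 := Real.log_le_log (by positivity) h1
  rw [Real.log_mul (by positivity) (by positivity), Real.log_pow] at h2
  have h3 := log_one_add_nonneg (norm_nonneg v)
  have h4 := Real.log_nonneg (show 1 ≤ 1 + C by linarith)
  have h5 : (0 : ℝ) ≤ m := Nat.cast_nonneg m
  nlinarith

theorem log_lg_le (m : ℕ) : ∃ C : ℝ, 0 ≤ C ∧ ∀ v : A,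
    Real.log (1 + ‖lg m v‖) ≤ C * (1 + Real.log (1 + ‖v‖)) := by
  obtain ⟨C, hC, h⟩ := norm_lg_le (A := A) m
  refine ⟨Real.log (1 + C) + m, by have := Real.log_nonneg (show 1 ≤ 1 + C by linarith); positivity,
    fun v => ?_⟩
  have h1 : 1 + ‖lg m v‖ ≤ (1 + C) * (1 + ‖v‖) ^ m := by
    have := one_le_pow₀ (n := m) (show (1 : ℝ) ≤ 1 + ‖v‖ by linarith [norm_nonneg v])
    linarith [h v]
  have h2 := Real.log_le_log (by positivity) h1
  rw [Real.log_mul (by positivity) (by positivity), Real.log_pow] at h2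
  have h3 := log_one_add_nonneg (norm_nonneg v)
  have h4 := Real.log_nonneg (show 1 ≤ 1 + C by linarith)
  have h5 : (0 : ℝ) ≤ m := Nat.cast_nonneg m
  nlinarith

end norms

section lz

variable {N : Type u} [Group N] {d n : ℕ} {D : MB N d n} {A : Type v} [NormedRing A]
  [NormedAlgebra ℝ A] [FiniteDimensional ℝ A] (R : RD D A)

/-- size of a vector -/
noncomputable def lv (v : R.V) : ℝ := Real.log (1 + ‖(v : A)‖)

/-- size of an element of the real group -/
noncomputable def lz (x : R.NR) : ℝ := lv R (R.Lo x)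

theorem lv_nonneg (v : R.V) : 0 ≤ lv R v := log_one_add_nonneg (norm_nonneg _)

theorem lz_nonneg (x : R.NR) : 0 ≤ lz R x := lv_nonneg R _

theorem lz_Ex (v : R.V) : lz R (R.Ex v) = lv R v := by rw [lz, R.Lo_Ex]

theorem lz_inv (x : R.NR) : lz R x⁻¹ = lz R x := by
  rw [lz, Lo_inv, lz, lv, lv, Submodule.coe_neg, norm_neg]

theorem lz_one : lz R 1 = 0 := by
  rw [lz, Lo_one, lv, Submodule.coe_zero, norm_zero, add_zero, Real.log_one]

theorem lz_mul : ∃ C : ℝ, 0 ≤ C ∧ ∀ x y, lz R (x * y) ≤ C * (1 + (lz R x + lz R y)) := by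
  obtain ⟨C1, hC1, h1⟩ := log_ex_le (A := A) R.m
  obtain ⟨C2, hC2, h2⟩ := log_lg_le (A := A) R.m
  refine ⟨C2 * (1 + 2 * C1), by positivity, fun x y => ?_⟩
  have hx : ∀ x, Real.log (1 + ‖R.toA x‖) ≤ C1 * (1 + lz R x) := by
    intro x
    have := h1 (R.Lo x : A)
    rwa [← R.toA_Ex, R.Ex_Lo] at this
  have h3 : Real.log (1 + ‖R.toA (x * y)‖) ≤
      Real.log (1 + ‖R.toA x‖) + Real.log (1 + ‖R.toA y‖) := by
    rw [← Real.log_mul (by positivity) (by positivity)]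
    refine Real.log_le_log (by positivity) ?_
    have := norm_mul_le (R.toA x) (R.toA y)
    rw [map_mul]
    nlinarith [norm_nonneg (R.toA x), norm_nonneg (R.toA y)]
  have h4 := h2 (R.toA (x * y))
  have h5 : lz R (x * y) ≤ C2 * (1 + Real.log (1 + ‖R.toA (x * y)‖)) := h4
  refine h5.trans ?_
  have h6 : 1 + Real.log (1 + ‖R.toA (x * y)‖) ≤ (1 + 2 * C1) * (1 + (lz R x + lz R y)) := by
    have := hx x
    have := hx y
    have := lz_nonneg R x
    have := lz_nonneg R y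
    nlinarith
  calc _ ≤ C2 * ((1 + 2 * C1) * (1 + (lz R x + lz R y))) := mul_le_mul_of_nonneg_left h6 hC2
    _ = _ := by ring

variable {T : Type*} {L : T → ℝ} (hL : ∀ t, 0 ≤ L t)

include hL in
theorem OL.lz_mul {x y : T → R.NR} (hx : OL L fun t => lz R (x t)) (hy : OL L fun t => lz R (y t)) :
    OL L fun t => lz R (x t * y t) := by
  obtain ⟨C, hC, h⟩ := H615.lz_mul R
  exact (((OL.const hL 1).add (hx.add hy)).mul_const hC).mono fun t => h _ _

theorem OL.lz_inv {x : T → R.NR} (hx : OL L fun t => lz R (x t)) :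
    OL L fun t => lz R (x t)⁻¹ := hx.mono fun t => (H615.lz_inv R _).le

include hL in
theorem OL.lz_list {ι : Type*} (l : List ι) {x : ι → T → R.NR}
    (hx : ∀ i ∈ l, OL L fun t => lz R (x i t)) :
    OL L fun t => lz R (l.map fun i => x i t).prod := by
  induction l with
  | nil => simpa [lz_one] using OL.const hL 0
  | cons i l ih =>
    have := OL.lz_mul R hL (hx i (by simp)) (ih fun j hj => hx j (by simp [hj]))
    simpa using this

theorem phi_bound (φ : R.V →ₗ[ℝ] ℝ) : ∃ C : ℝ, 0 ≤ C ∧ ∀ v, |φ v| ≤ C * ‖(v : A)‖ := by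
  obtain ⟨g, hg⟩ := LinearMap.exists_extend φ
  refine ⟨‖LinearMap.toContinuousLinearMap g‖, norm_nonneg _, fun v => ?_⟩
  have h1 := (LinearMap.toContinuousLinearMap g).le_opNorm (v : A)
  have h2 : (LinearMap.toContinuousLinearMap g) (v : A) = φ v := by
    rw [← hg]; rfl
  rwa [h2, Real.norm_eq_abs] at h1

end lz

end Vale.Agent.P188.H615

end

section

/-!
The lower central series of a Lie subalgebra `e` of `V`; families of short elements; logarithmic
length bound on `exp e`.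
-/

open Finset Filter Topology Pointwise

universe u v

namespace Vale.Agent.P188.H615

open Vale.Agent.P188.H796

section gam

variable {N : Type u} [Group N] {d n : ℕ} {D : MB N d n} {A : Type v} [NormedRing A]
  [NormedAlgebra ℝ A] [FiniteDimensional ℝ A] (R : RD D A)

/-- lower central series: `gam 0 = e`, `gam (i+1) = [e, gam i]` -/
noncomputable def gam (e : Submodule ℝ R.V) : ℕ → Submodule ℝ R.V
  | 0 => e
  | i + 1 => Submodule.span ℝ {z | ∃ x ∈ e, ∃ y ∈ gam e i, ⁅x, y⁆ = z}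

variable {R} {e : Submodule ℝ R.V}

theorem lie_mem_gam {i : ℕ} {x y : R.V} (hx : x ∈ e) (hy : y ∈ gam R e i) :
    ⁅x, y⁆ ∈ gam R e (i + 1) := Submodule.subset_span ⟨x, hx, y, hy, rfl⟩

theorem gam_succ_le (he : ∀ x ∈ e, ∀ y ∈ e, ⁅x, y⁆ ∈ e) (i : ℕ) : gam R e (i + 1) ≤ gam R e i := by
  induction i with
  | zero =>
    refine Submodule.span_le.2 ?_
    rintro _ ⟨x, hx, y, hy, rfl⟩
    exact he x hx y hy
  | succ i ih =>
    conv_lhs => rw [gam]
    rw [Submodule.span_le]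
    rintro _ ⟨x, hx, y, hy, rfl⟩
    exact lie_mem_gam hx (ih hy)

theorem gam_anti (he : ∀ x ∈ e, ∀ y ∈ e, ⁅x, y⁆ ∈ e) {i j : ℕ} (hij : i ≤ j) :
    gam R e j ≤ gam R e i := by
  induction j, hij using Nat.le_induction with
  | base => exact le_rfl
  | succ j _ ih => exact (gam_succ_le he j).trans ih

theorem gam_le (he : ∀ x ∈ e, ∀ y ∈ e, ⁅x, y⁆ ∈ e) (i : ℕ) : gam R e i ≤ e :=
  gam_anti he (Nat.zero_le i)

theorem im_gam_le (i : ℕ) : im R (gam R e i) ≤ R.J ^ (i + 1) := by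
  induction i with
  | zero =>
    rw [zero_add, pow_one]
    rintro _ ⟨x, _, rfl⟩
    exact R.V_le_J x.2
  | succ i ih =>
    have h1 : gam R e (i + 1) ≤ (R.J ^ (i + 1 + 1)).comap R.V.subtype := by
      conv_lhs => rw [gam]
      rw [Submodule.span_le]
      rintro _ ⟨x, _, y, hy, rfl⟩
      have hx : (x : A) ∈ R.J := R.V_le_J x.2
      have hy : (y : A) ∈ R.J ^ (i + 1) := ih ((mem_im R).2 hy)
      change (x : A) * (y : A) - (y : A) * (x : A) ∈ R.J ^ (i + 1 + 1)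
      refine Submodule.sub_mem _ ?_ ?_
      · rw [pow_succ']
        exact Submodule.mul_mem_mul hx hy
      · rw [pow_succ]
        exact Submodule.mul_mem_mul hy hx
    rintro _ ⟨x, hx, rfl⟩
    exact h1 hx

theorem gam_eq_bot {i : ℕ} (hi : R.m ≤ i + 1) : gam R e i = ⊥ := by
  rw [eq_bot_iff]
  intro x hx
  have h1 := im_gam_le i ((mem_im R).2 hx)
  obtain ⟨k, hk⟩ := Nat.exists_eq_add_of_le hi
  rw [hk, pow_add, R.J_pow, Submodule.bot_mul] at h1
  have h2 : (x : A) = 0 := (Submodule.mem_bot ℝ).1 h1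
  exact (Submodule.mem_bot ℝ).2 (Subtype.ext h2)

/-- brackets with `[e, e]` go down two steps -/
theorem lie_gam_one {i : ℕ} {x y : R.V}
    (hx : x ∈ gam R e 1) (hy : y ∈ gam R e i) : ⁅x, y⁆ ∈ gam R e (i + 2) := by
  rw [gam] at hx
  induction hx using Submodule.span_induction with
  | mem x hx =>
    obtain ⟨a, ha, b, hb, rfl⟩ := hx
    rw [lie_lie]
    refine Submodule.sub_mem _ ?_ ?_
    · exact lie_mem_gam ha (lie_mem_gam hb hy)
    · exact lie_mem_gam hb (lie_mem_gam ha hy)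
  | zero => rw [zero_lie]; exact Submodule.zero_mem _
  | add a b _ _ ha hb => rw [add_lie]; exact Submodule.add_mem _ ha hb
  | smul t a _ ha => rw [smul_lie]; exact Submodule.smul_mem _ t ha

/-- generation of `e` modulo brackets -/
theorem le_span_sup (he : ∀ x ∈ e, ∀ y ∈ e, ⁅x, y⁆ ∈ e) {Cv : Set R.V}
    (hCv : ∀ x, x ∈ LieSubalgebra.lieSpan ℝ R.V Cv ↔ x ∈ e) :
    e ≤ Submodule.span ℝ Cv ⊔ gam R e 1 := by
  have hle : Submodule.span ℝ Cv ⊔ gam R e 1 ≤ e := by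
    refine sup_le (Submodule.span_le.2 fun x hx => ?_) (gam_succ_le he 0)
    exact (hCv x).1 (LieSubalgebra.subset_lieSpan hx)
  let W : LieSubalgebra ℝ R.V :=
    { (Submodule.span ℝ Cv ⊔ gam R e 1 : Submodule ℝ R.V) with
      lie_mem' := by
        intro x y hx hy
        exact Submodule.mem_sup_right (lie_mem_gam (hle hx) (hle hy)) }
  have h1 : LieSubalgebra.lieSpan ℝ R.V Cv ≤ W :=
    LieSubalgebra.lieSpan_le.2 fun x hx => Submodule.mem_sup_left (Submodule.subset_span hx)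
  intro x hx
  exact h1 ((hCv x).2 hx)

/-- one step of the generation of the lower central series -/
theorem gam_step {i : ℕ} {Cv Z : Set R.V}
    (hC : Cv ⊆ e)
    (h0 : e ≤ Submodule.span ℝ Cv ⊔ gam R e 1)
    (hi : gam R e i ≤ Submodule.span ℝ Z ⊔ gam R e (i + 1)) :
    gam R e (i + 1) ≤ Submodule.span ℝ {z | ∃ u ∈ Cv, ∃ y ∈ Z, ⁅u, y⁆ = z} ⊔ gam R e (i + 2) := by
  set W := Submodule.span ℝ {z | ∃ u ∈ Cv, ∃ y ∈ Z, ⁅u, y⁆ = z} ⊔ gam R e (i + 2) with hW
  have k1 : ∀ u ∈ Cv, ∀ y ∈ gam R e i, ⁅u, y⁆ ∈ W := by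
    intro u hu y hy
    obtain ⟨a, ha, b, hb, rfl⟩ := Submodule.mem_sup.1 (hi hy)
    rw [lie_add]
    refine W.add_mem ?_ (Submodule.mem_sup_right (lie_mem_gam (hC hu) hb))
    clear hy hb
    induction ha using Submodule.span_induction with
    | mem x hx => exact Submodule.mem_sup_left (Submodule.subset_span ⟨u, hu, x, hx, rfl⟩)
    | zero => rw [lie_zero]; exact W.zero_mem
    | add a b _ _ ha hb =>
      rw [lie_add]
      exact W.add_mem ha hb
    | smul t a h1 ha =>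
      rw [lie_smul]
      exact W.smul_mem t ha
  conv_lhs => rw [gam]
  rw [Submodule.span_le]
  rintro _ ⟨x, hx, y, hy, rfl⟩
  obtain ⟨a, ha, b, hb, rfl⟩ := Submodule.mem_sup.1 (h0 hx)
  change ⁅a + b, y⁆ ∈ W
  rw [add_lie]
  refine W.add_mem ?_ (Submodule.mem_sup_right (lie_gam_one hb hy))
  clear hx
  induction ha using Submodule.span_induction with
  | mem x hx => exact k1 x hx y hy
  | zero => rw [zero_lie]; exact W.zero_mem
  | add a b _ _ ha hb => rw [add_lie]; exact W.add_mem ha hb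
  | smul t a _ ha => rw [smul_lie]; exact W.smul_mem t ha

end gam

end Vale.Agent.P188.H615

end
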