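import Vale.Agent.P188.R.G038
import Vale.Agent.P188.R.G012

/-!
The concrete group `S` for a group `Γ` with a nilpotent normal subgroup `N` with a Malcev basis.
-/

open Finset Filter Topology

universe u v w

namespace Vale.Agent.P188.H796

namespace PushData

variable {Γ : Type u} [Group Γ] {N : Subgroup Γ} {K : Type v} [Group K] (P : PushData Γ N K)

/-- universal property of `S` -/
def liftK {Q : Type w} [Group Q] (fK : K →* Q) (fG : Γ →* Q)
    (h : ∀ g k, fK (P.α g k) = fG g * fK k * (fG g)⁻¹) (h' : ∀ n : N, fK (P.ι n) = fG n) :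
    P.S →* Q :=
  QuotientGroup.lift P.Δ
    (SemidirectProduct.lift fK fG (fun g => by
      ext k
      exact h g k)) (by
    rintro x ⟨n, hn1, hn2⟩
    change fK x.left * fG x.right = 1
    rw [hn1, hn2, map_inv, h', inv_mul_cancel])

theorem liftK_inK {Q : Type w} [Group Q] (fK : K →* Q) (fG : Γ →* Q)
    (h : ∀ g k, fK (P.α g k) = fG g * fK k * (fG g)⁻¹) (h' : ∀ n : N, fK (P.ι n) = fG n) (k : K) :
    P.liftK fK fG h h' (P.inK k) = fK k := by
  change fK k * fG 1 = fK k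
  rw [map_one, mul_one]

theorem liftK_inG {Q : Type w} [Group Q] (fK : K →* Q) (fG : Γ →* Q)
    (h : ∀ g k, fK (P.α g k) = fG g * fK k * (fG g)⁻¹) (h' : ∀ n : N, fK (P.ι n) = fG n) (g : Γ) :
    P.liftK fK fG h h' (P.inG g) = fG g := by
  change fK 1 * fG g = fG g
  rw [map_one, one_mul]

end PushData

section auts

variable {N : Type u} [Group N] {d n : ℕ} (D : MB N d n)

/-- automorphisms of `N` act on the real group -/
noncomputable def MB.actH (θ : MulAut N) : D.R.NR →* D.R.NR :=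
  D.R.act θ.toMonoidHom (D.Th θ : D.Alg →ₐ[ℝ] D.Alg) (fun x => D.Th_ρ θ x)

theorem MB.toA_actH (θ : MulAut N) (s : D.R.NR) :
    D.R.toA (D.actH θ s) = D.Th θ (D.R.toA s) := D.R.toA_act _ _ _ s

/-- automorphisms of `N` act on the real group -/
noncomputable def MB.actM : MulAut N →* MulAut D.R.NR where
  toFun θ :=
    { toFun := D.actH θ
      invFun := D.actH θ⁻¹
      left_inv := fun s => D.R.toA_inj (by
        rw [toA_actH, toA_actH, ← AlgEquiv.mul_apply, ← map_mul, inv_mul_cancel, map_one,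
          AlgEquiv.one_apply])
      right_inv := fun s => D.R.toA_inj (by
        rw [toA_actH, toA_actH, ← AlgEquiv.mul_apply, ← map_mul, mul_inv_cancel, map_one,
          AlgEquiv.one_apply])
      map_mul' := map_mul (D.actH θ) }
  map_one' := by
    ext s : 1
    refine D.R.toA_inj ?_
    change D.R.toA (D.actH 1 s) = D.R.toA s
    rw [toA_actH, map_one, AlgEquiv.one_apply]
  map_mul' θ θ' := by
    ext s : 1
    refine D.R.toA_inj ?_
    change D.R.toA (D.actH (θ * θ') s) = D.R.toA (D.actH θ (D.actH θ' s))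
    rw [toA_actH, toA_actH, toA_actH, map_mul, AlgEquiv.mul_apply]

theorem MB.toA_actM (θ : MulAut N) (s : D.R.NR) :
    D.R.toA (D.actM θ s) = D.Th θ (D.R.toA s) := D.toA_actH θ s

theorem MB.actM_ι (θ : MulAut N) (y : N) : D.actM θ (D.R.ι y) = D.R.ι (θ y) :=
  D.R.act_ι θ.toMonoidHom (D.Th θ : D.Alg →ₐ[ℝ] D.Alg) (fun x => D.Th_ρ θ x) y

theorem MB.actM_conj (x : N) (s : D.R.NR) :
    D.actM (MulAut.conj x) s = D.R.ι x * s * (D.R.ι x)⁻¹ := by
  refine D.R.toA_inj ?_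
  rw [toA_actM, map_mul, map_mul, D.R.toA_ι, ← map_inv D.R.ι x, D.R.toA_ι]
  refine D.R.dens (f := fun s => D.Th (MulAut.conj x) (D.R.toA s))
    (g := fun s => D.R.ρ x * D.R.toA s * D.R.ρ x⁻¹) ?_ ?_ ?_ s
  · intro γ hγ
    exact (D.R.PC_E hγ).map (D.Th (MulAut.conj x)).toLinearMap
  · intro γ hγ
    exact ((PC.const _).mul (D.R.PC_E hγ)).mul (PC.const _)
  · intro y
    simp only [D.R.toA_ι]
    rw [D.Th_ρ, MulAut.conj_apply, map_mul, map_mul]

/-- automorphisms of `N` act on the Lie algebra -/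
noncomputable def MB.AdV : MulAut N →* (D.R.V ≃ₗ[ℝ] D.R.V) where
  toFun θ :=
    { D.R.adL θ.toMonoidHom (D.Th θ : D.Alg →ₐ[ℝ] D.Alg) (fun x => D.Th_ρ θ x) with
      invFun := D.R.adL (θ⁻¹ : MulAut N).toMonoidHom (D.Th θ⁻¹ : D.Alg →ₐ[ℝ] D.Alg)
        (fun x => D.Th_ρ θ⁻¹ x)
      left_inv := fun s => Subtype.ext (by
        change D.Th θ⁻¹ (D.Th θ s) = s
        rw [← AlgEquiv.mul_apply, ← map_mul, inv_mul_cancel, map_one, AlgEquiv.one_apply])
      right_inv := fun s => Subtype.ext (by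
        change D.Th θ (D.Th θ⁻¹ s) = s
        rw [← AlgEquiv.mul_apply, ← map_mul, mul_inv_cancel, map_one, AlgEquiv.one_apply]) }
  map_one' := by
    ext s : 2
    change D.Th 1 (s : D.Alg) = s
    rw [map_one, AlgEquiv.one_apply]
  map_mul' θ θ' := by
    ext s : 2
    change D.Th (θ * θ') (s : D.Alg) = D.Th θ (D.Th θ' s)
    rw [map_mul, AlgEquiv.mul_apply]

theorem MB.AdV_lie (θ : MulAut N) (v w : D.R.V) : D.AdV θ ⁅v, w⁆ = ⁅D.AdV θ v, D.AdV θ w⁆ :=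
  D.R.adL_lie θ.toMonoidHom (D.Th θ : D.Alg →ₐ[ℝ] D.Alg) (fun x => D.Th_ρ θ x) v w

theorem MB.Ex_AdV (θ : MulAut N) (v : D.R.V) : D.R.Ex (D.AdV θ v) = D.actM θ (D.R.Ex v) :=
  D.R.Ex_adL θ.toMonoidHom (D.Th θ : D.Alg →ₐ[ℝ] D.Alg) (fun x => D.Th_ρ θ x) v

theorem MB.continuous_actM (θ : MulAut N) : Continuous (D.actM θ) := by
  have h : (D.actM θ : D.R.NR → D.R.NR) =
      fun s => (fun i => D.R.ℓ i (D.Th θ (D.R.toA s)) : D.R.NR) := rfl
  rw [h]
  refine D.R.continuous_coords ?_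
  exact ((D.Th θ).toLinearMap.continuous_of_finiteDimensional).comp D.R.continuous_toA

/-- adjoint action of the real group by linear equivalences -/
noncomputable def MB.AdnE : D.R.NR →* (D.R.V ≃ₗ[ℝ] D.R.V) :=
  (LinearMap.GeneralLinearGroup.generalLinearEquiv ℝ D.R.V).toMonoidHom.comp
    D.R.Adn.toHomUnits

end auts

section concrete

variable {Γ : Type u} [Group Γ] {N : Subgroup Γ} [hN : N.Normal] {d n : ℕ} (D : MB N d n)

/-- action of `Γ` on the real group -/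
noncomputable def MB.αΓ : Γ →* MulAut D.R.NR := D.actM.comp (MulAut.conjNormal (H := N))

theorem MB.αΓ_ι (g : Γ) (y : N) :
    D.αΓ g (D.R.ι y) = D.R.ι ⟨g * y * g⁻¹, hN.conj_mem y y.2 g⟩ := by
  rw [αΓ, MonoidHom.comp_apply, actM_ι]
  rfl

theorem MB.αΓ_coe (x : N) (s : D.R.NR) : D.αΓ (x : Γ) s = D.R.ι x * s * (D.R.ι x)⁻¹ := by
  rw [αΓ, MonoidHom.comp_apply]
  have : (MulAut.conjNormal (x : Γ) : MulAut N) = MulAut.conj x := by
    ext y
    simp [MulAut.conjNormal_apply]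
  rw [this, actM_conj]

/-- the pushout data -/
noncomputable def MB.P : PushData Γ N D.R.NR where
  normal := hN
  ι := D.R.ι
  inj := D.R.ι_injective
  α := D.αΓ
  α_ι := D.αΓ_ι
  α_n := D.αΓ_coe

/-- the group `S = (N_ℝ ⋊ Γ) / N` -/
abbrev MB.S : Type u := (D.P : PushData Γ N D.R.NR).S

/-- embedding of the real group -/
noncomputable abbrev MB.inN : D.R.NR →* D.S := D.P.inK

/-- embedding of `Γ` -/
noncomputable abbrev MB.inΓ : Γ →* D.S := D.P.inG

/-- action of `Γ` on the Lie algebra -/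
noncomputable def MB.AdΓ : Γ →* (D.R.V ≃ₗ[ℝ] D.R.V) := D.AdV.comp (MulAut.conjNormal (H := N))

theorem MB.Ex_AdΓ (g : Γ) (v : D.R.V) : D.R.Ex (D.AdΓ g v) = D.αΓ g (D.R.Ex v) :=
  D.Ex_AdV _ v

theorem MB.AdΓ_lie (g : Γ) (v w : D.R.V) : D.AdΓ g ⁅v, w⁆ = ⁅D.AdΓ g v, D.AdΓ g w⁆ :=
  D.AdV_lie _ v w

/-- the adjoint action of `S` on the Lie algebra -/
noncomputable def MB.Ad : D.S →* (D.R.V ≃ₗ[ℝ] D.R.V) :=
  D.P.liftK D.AdnE D.AdΓ (by
    intro g k
    ext v : 1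
    change D.R.Adn (D.αΓ g k) v = D.AdΓ g (D.R.Adn k ((D.AdΓ g)⁻¹ v))
    apply D.R.Ex_injective
    rw [D.R.Ex_Adn, D.Ex_AdΓ, D.R.Ex_Adn, map_mul, map_mul, map_inv, ← map_inv D.AdΓ, D.Ex_AdΓ]
    congr 2
    rw [← MulAut.mul_apply, ← map_mul, mul_inv_cancel, map_one, MulAut.one_apply]) (by
    intro x
    ext v : 1
    change D.R.Adn (D.R.ι x) v = D.AdΓ x v
    apply D.R.Ex_injective
    rw [D.R.Ex_Adn, D.Ex_AdΓ, D.αΓ_coe])

theorem MB.Ad_inN (s : D.R.NR) (v : D.R.V) : D.Ad (D.inN s) v = D.R.Adn s v := by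
  rw [Ad, PushData.liftK_inK]
  rfl

theorem MB.Ad_inΓ (g : Γ) (v : D.R.V) : D.Ad (D.inΓ g) v = D.AdΓ g v := by
  rw [Ad, PushData.liftK_inG]

/-- the exponential map to `S` -/
noncomputable def MB.ex (v : D.R.V) : D.S := D.inN (D.R.Ex v)

theorem MB.ex_Ad (s : D.S) (v : D.R.V) : D.ex (D.Ad s v) = s * D.ex v * s⁻¹ := by
  obtain ⟨k, g, rfl⟩ := D.P.exists_eq s
  rw [map_mul]
  change D.ex (D.Ad (D.inN k) (D.Ad (D.inΓ g) v)) = _
  rw [D.Ad_inN, D.Ad_inΓ, ex, D.R.Ex_Adn, D.Ex_AdΓ, map_mul, map_mul, ex]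
  have h : D.inN (D.αΓ g (D.R.Ex v)) = D.inΓ g * D.inN (D.R.Ex v) * (D.inΓ g)⁻¹ :=
    (D.P.inG_conj g (D.R.Ex v)).symm
  rw [h, map_inv]
  group

theorem MB.ex_injective : Function.Injective (D.ex : D.R.V → D.S) := fun _ _ h =>
  D.R.Ex_injective (D.P.inK_injective h)

theorem RD.Adn_lie {N : Type u} [Group N] {d n : ℕ} {D : MB N d n} {A : Type v} [NormedRing A]
    [NormedAlgebra ℝ A] [FiniteDimensional ℝ A] (R : RD D A) (k : R.NR) (v w : R.V) :
    R.Adn k ⁅v, w⁆ = ⁅R.Adn k v, R.Adn k w⁆ := by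
  apply Subtype.ext
  rw [R.coe_Adn, R.coe_bracket, R.coe_bracket, R.coe_Adn, R.coe_Adn]
  have h : (((R.EU k)⁻¹ : Aˣ) : A) * R.E k = 1 := Units.inv_mul (R.EU k)
  generalize R.E k = a at h ⊢
  generalize (((R.EU k)⁻¹ : Aˣ) : A) = b at h ⊢
  generalize (v : A) = x
  generalize (w : A) = y
  calc a * (x * y - y * x) * b = a * x * 1 * y * b - a * y * 1 * x * b := by noncomm_ring
    _ = a * x * (b * a) * y * b - a * y * (b * a) * x * b := by rw [h]
    _ = a * x * b * (a * y * b) - a * y * b * (a * x * b) := by simp only [mul_assoc]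

theorem MB.Ad_mul_apply (k : D.R.NR) (g : Γ) (v : D.R.V) :
    D.Ad (D.inN k * D.inΓ g) v = D.R.Adn k (D.AdΓ g v) := by
  rw [map_mul, LinearEquiv.mul_apply, D.Ad_inN, D.Ad_inΓ]

theorem MB.Ad_lie (s : D.S) (v w : D.R.V) : D.Ad s ⁅v, w⁆ = ⁅D.Ad s v, D.Ad s w⁆ := by
  obtain ⟨k, g, rfl⟩ := D.P.exists_eq s
  rw [D.Ad_mul_apply, D.Ad_mul_apply, D.Ad_mul_apply, D.AdΓ_lie, RD.Adn_lie]

end concrete

end Vale.Agent.P188.H796
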