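import Vale.Agent.P188.R.G033
import Vale.Agent.P188.R.G027
import Vale.Agent.P188.R.G001

section

/-!
The isolated lower central series, its weights, and the product lemma: the weights of the graded
pieces are products of generator weights.
-/

universe u v

namespace Vale.Agent.P188.H754

open Module
open scoped commutatorElement

section lser

variable {Γ : Type u} [Group Γ]

/-- characters of `H` invariant under conjugation by `N` -/
def invCh (H N : Subgroup Γ) : Submodule ℂ (Ch H) where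
  carrier := {φ | ∀ n ∈ N, ∀ x (hx : x ∈ H) (h : n⁻¹ * x * n ∈ H),
    ev φ (n⁻¹ * x * n) h = ev φ x hx}
  zero_mem' := by intro n _ x hx h; rfl
  add_mem' := by
    intro a b ha hb n hn x hx h
    rw [ev_add, ev_add, ha n hn x hx h, hb n hn x hx h]
  smul_mem' := by
    intro c a ha n hn x hx h
    rw [ev_smul, ev_smul, ha n hn x hx h]

theorem mem_invCh_iff {H N : Subgroup Γ} [H.Normal] {φ : Ch H} :
    φ ∈ invCh H N ↔ ∀ n ∈ N, conjRep H n φ = φ := by
  constructor
  · intro h n hn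
    apply ch_ext
    intro x hx
    rw [ev_conjRep]
    exact h n hn x hx _
  · intro h n hn x hx hx'
    have := congrArg (fun ψ : Ch H => ev ψ x hx) (h n hn)
    simp only [ev_conjRep] at this
    exact this

theorem conjRep_mem_invCh {H N : Subgroup Γ} [H.Normal] [hN : N.Normal] {φ : Ch H}
    (hφ : φ ∈ invCh H N) (g : Γ) : conjRep H g φ ∈ invCh H N := by
  rw [mem_invCh_iff] at hφ ⊢
  intro n hn
  have h1 : n * g = g * (g⁻¹ * n * g) := by group
  have h2 : g⁻¹ * n * g ∈ N := conj_mem_of_normal hn g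
  rw [← Module.End.mul_apply, ← map_mul, h1, map_mul, Module.End.mul_apply, hφ _ h2]

/-- one step of the isolated lower central series -/
def lstep (H N : Subgroup Γ) : Subgroup Γ := ann H (invCh H N : Set (Ch H))

theorem lstep_le (H N : Subgroup Γ) : lstep H N ≤ H := ann_le _ _

instance lstep_normal (H N : Subgroup Γ) [hH : H.Normal] [hN : N.Normal] :
    (lstep H N).Normal := by
  constructor
  rintro x ⟨hx, hx'⟩ g
  refine ⟨hH.conj_mem x hx g, fun φ hφ => ?_⟩
  have := hx' (conjRep H g⁻¹ φ) (conjRep_mem_invCh hφ g⁻¹)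
  rw [ev_conjRep] at this
  rw [← this]
  exact ev_congr _ _ (by rw [inv_inv])

/-- the isolated lower central series -/
def lser (N : Subgroup Γ) : ℕ → Subgroup Γ
  | 0 => N
  | i + 1 => lstep (lser N i) N

@[simp] theorem lser_zero (N : Subgroup Γ) : lser N 0 = N := rfl

instance lser_normal (N : Subgroup Γ) [hN : N.Normal] : ∀ i, (lser N i).Normal
  | 0 => hN
  | i + 1 => by
    have := lser_normal N i
    exact lstep_normal (lser N i) N

theorem lser_le (N : Subgroup Γ) : ∀ i, lser N i ≤ N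
  | 0 => le_rfl
  | i + 1 => (lstep_le _ _).trans (lser_le N i)

theorem comm_mem_lstep {H N : Subgroup Γ} [H.Normal] {x n : Γ} (hx : x ∈ H) (hn : n ∈ N) :
    ⁅x, n⁆ ∈ lstep H N := by
  have h0 : n * x⁻¹ * n⁻¹ ∈ H := Subgroup.Normal.conj_mem inferInstance _ (H.inv_mem hx) n
  have h1 : ⁅x, n⁆ = x * (n * x⁻¹ * n⁻¹) := by rw [commutatorElement_def]; group
  have h2 : ⁅x, n⁆ ∈ H := by rw [h1]; exact H.mul_mem hx h0
  refine ⟨h2, fun φ hφ => ?_⟩
  rw [ev_congr φ h2 h1, ev_mul φ hx h0]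
  have h4 : n * x⁻¹ * n⁻¹ = (n⁻¹⁻¹ * x * n⁻¹)⁻¹ := by group
  rw [ev_congr φ h0 h4, ev_inv φ (conj_mem_of_normal hx n⁻¹),
    hφ n⁻¹ (N.inv_mem hn) x hx (conj_mem_of_normal hx n⁻¹)]
  ring

/-- nonzero invariant characters exist -/
theorem exists_inv_char {H N : Subgroup Γ} [hNn : N.Normal] [H.Normal] (hHN : H ≤ N)
    (hnil : Group.IsNilpotent N) {φ₀ : Ch H} (hφ₀ : φ₀ ≠ 0) :
    ∃ φ ∈ invCh H N, φ ≠ 0 := by
  classical
  obtain ⟨k, hk⟩ := (Subgroup.isNilpotent_iff_lowerCentralSeries N).1 hnil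
  -- minimal `j` with a nonzero character vanishing on `H ∩ lcs j`
  have hex : ∃ j, ∃ φ : Ch H, φ ≠ 0 ∧ φ ∈ chAnn H (N.lowerCentralSeries j) := by
    refine ⟨k, φ₀, hφ₀, ?_⟩
    intro x hx hxK
    rw [hk, Subgroup.mem_bot] at hxK
    rw [ev_congr φ₀ hx hxK, ev_one]
  obtain ⟨φ, hφ, hφj⟩ := Nat.find_spec hex
  set j := Nat.find hex with hj
  have hj0 : j ≠ 0 := by
    intro h0
    rw [h0] at hφj
    apply hφ
    apply ch_ext
    intro x hx
    exact hφj x hx (by rw [Subgroup.lowerCentralSeries_zero]; exact hHN hx)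
  obtain ⟨i, hi⟩ := Nat.exists_eq_succ_of_ne_zero hj0
  refine ⟨φ, ?_, hφ⟩
  rw [mem_invCh_iff]
  intro n hn
  by_contra hne
  refine Nat.find_min hex (m := i) (by omega) ⟨conjRep H n φ - φ, sub_ne_zero.2 hne, ?_⟩
  intro x hx hxK
  rw [ev_sub, ev_conjRep]
  have h1 : n⁻¹ * x * n * x⁻¹ ∈ H :=
    H.mul_mem (conj_mem_of_normal hx n) (H.inv_mem hx)
  have h2 : n⁻¹ * x * n * x⁻¹ ∈ N.lowerCentralSeries j := by
    have e : n⁻¹ * x * n * x⁻¹ = ⁅x, n⁻¹⁆⁻¹ := by rw [commutatorElement_def]; group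
    rw [hi, e, Subgroup.lowerCentralSeries_succ]
    exact inv_mem (Subgroup.commutator_mem_commutator hxK (N.inv_mem hn))
  have h3 := hφj _ h1 h2
  rw [ev_mul φ (conj_mem_of_normal hx n) (H.inv_mem hx), ev_inv φ hx] at h3
  rw [sub_eq_add_neg]; exact h3

theorem lser_polyZ {N : Subgroup Γ} [hNn : N.Normal] (hnil : Group.IsNilpotent N) {n : ℕ}
    (h : PolyZ n N) (i : ℕ) : ∃ m ≤ n - i, PolyZ m (lser N i) := by
  induction i with
  | zero => exact ⟨n, by simp, h⟩
  | succ i ih =>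
    obtain ⟨m, hm, hp⟩ := ih
    cases m with
    | zero =>
      have h0 : Subsingleton (lser N i) := hp
      have h1 : Subsingleton (lser N (i + 1)) := by
        constructor
        intro a b
        have h2 : (⟨a, lstep_le _ _ a.2⟩ : lser N i) = ⟨b, lstep_le _ _ b.2⟩ :=
          Subsingleton.elim _ _
        exact Subtype.ext (congrArg (fun z : lser N i => (z : Γ)) h2)
      exact ⟨0, Nat.zero_le _, h1⟩
    | succ m =>
      have hp' := hp
      obtain ⟨φ₁, hφ₁, hk₁⟩ := hp'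
      -- a nonzero complex character
      let φ' : Ch (lser N i) :=
        { toFun := fun x => ((Multiplicative.toAdd (φ₁ x.toMul) : ℤ) : ℂ)
          map_zero' := by simp
          map_add' := by intro a b; simp }
      have hφ' : φ' ≠ 0 := by
        intro h0
        obtain ⟨t, ht⟩ := hφ₁ (Multiplicative.ofAdd 1)
        have h1 : φ' (Additive.ofMul t) = 0 := by rw [h0]; rfl
        change ((Multiplicative.toAdd (φ₁ t) : ℤ) : ℂ) = 0 at h1
        rw [ht] at h1
        simp at h1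
      obtain ⟨φ, hφinv, hφ0⟩ := exists_inv_char (lser_le N i) hnil hφ'
      obtain ⟨ψ, hψ1, hψ2⟩ := exists_int_char (PolyZ.fg _ hp) φ hφ0
      have hkψ := PolyZ.ker_of m hp ψ hψ1
      let f : lser N (i + 1) →* ψ.ker :=
        { toFun := fun x => ⟨⟨x, lstep_le _ _ x.2⟩, hψ2 _ (x.2.2 φ hφinv)⟩
          map_one' := by ext; simp
          map_mul' := by intro a b; ext; simp }
      have hf : Function.Injective f := by
        intro a b hab
        have h3 := congrArg (fun z : ψ.ker => ((z : lser N i) : Γ)) hab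
        exact Subtype.ext h3
      obtain ⟨m', hm', hp''⟩ := PolyZ.of_injective m f hf hkψ
      exact ⟨m', by omega, hp''⟩

theorem lser_eq_bot {N : Subgroup Γ} [hNn : N.Normal] (hnil : Group.IsNilpotent N) {n : ℕ}
    (h : PolyZ n N) : lser N n = ⊥ := by
  obtain ⟨m, hm, hp⟩ := lser_polyZ hnil h n
  have : m = 0 := by omega
  subst this
  have h0 : Subsingleton (lser N n) := hp
  exact Subgroup.eq_bot_of_subsingleton _

/-- conjugation on the invariant characters -/
def invRep (H N : Subgroup Γ) [H.Normal] [N.Normal] : Γ →* Module.End ℂ (invCh H N) where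
  toFun g := (conjRep H g).restrict (fun _ hx => conjRep_mem_invCh hx g)
  map_one' := by ext x; simp
  map_mul' a b := by ext x; simp

/-- nilpotency criterion, second version -/
theorem isNilpotent_of_unip' {U N : Subgroup Γ} [hNn : N.Normal] {n : ℕ} (hn : lser N n = ⊥)
    (hUN : ∃ k, U.lowerCentralSeries k ≤ N)
    (h : ∀ i < n, ∃ (F : ℕ → Submodule ℂ (invCh (lser N i) N)) (m : ℕ), F 0 = ⊥ ∧ F m = ⊤ ∧
      ∀ u ∈ U, ∀ j, ∀ φ ∈ F (j + 1), invRep (lser N i) N u φ - φ ∈ F j) :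
    Group.IsNilpotent U := by
  have key : ∀ i ≤ n, ∃ k, U.lowerCentralSeries k ≤ lser N i := by
    intro i
    induction i with
    | zero => intro _; exact hUN
    | succ i ih =>
      intro hi
      obtain ⟨F, m, hF0, hFm, hF⟩ := h i (by omega)
      let F' : ℕ → Submodule ℂ (Ch (lser N i)) := fun j => (F j).map (invCh (lser N i) N).subtype
      have h1 : ∀ j, ∃ k, U.lowerCentralSeries k ≤
          ann (lser N i) (F' j : Set (Ch (lser N i))) := by
        intro j
        induction j with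
        | zero =>
          have h2 := ih (by omega)
          have h3 : ann (lser N i) (F' 0 : Set (Ch (lser N i))) = lser N i := by
            simp only [F', hF0, Submodule.map_bot, Submodule.bot_coe]
            exact ann_zero _
          rw [h3]; exact h2
        | succ j ihj =>
          refine lcs_step (fun x hx u hu => commutator_mem_ann (U := U) ?_ hx hu) ihj
          rintro u hu _ ⟨φ, hφ, rfl⟩
          exact ⟨_, hF u hu j φ hφ, rfl⟩
      have h2 := h1 m
      have h3 : (F' m : Set (Ch (lser N i))) = (invCh (lser N i) N : Set (Ch (lser N i))) := by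
        simp only [F', hFm, Submodule.map_top, Submodule.range_subtype]
      rw [h3] at h2
      exact h2
  obtain ⟨k, hk⟩ := key n le_rfl
  rw [hn, le_bot_iff] at hk
  exact (Subgroup.isNilpotent_iff_lowerCentralSeries U).2 ⟨k, hk⟩

end lser

end Vale.Agent.P188.H754

end

section

/-!
The product lemma: weights of the graded pieces of the isolated lower central series are products
of generator weights.
-/

universe u v

namespace Vale.Agent.P188.H754

open Module
open scoped commutatorElement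

section prod

variable {Γ : Type u} [Group Γ]

theorem ev_conj_inv {L N : Subgroup Γ} {φ : Ch L} (hφ : φ ∈ invCh L N) {w m : Γ} (hw : w ∈ L)
    (hm : m ∈ N) (h : m * w * m⁻¹ ∈ L) : ev φ (m * w * m⁻¹) h = ev φ w hw := by
  have h1 : m⁻¹⁻¹ * w * m⁻¹ ∈ L := by rw [inv_inv]; exact h
  rw [← hφ m⁻¹ (N.inv_mem hm) w hw h1]
  exact ev_congr φ h (by rw [inv_inv])

variable {L N : Subgroup Γ} [L.Normal] [N.Normal]

/-- the bihomomorphism `(x, n) ↦ φ ⁅x, n⁆` -/
def bil (hLN : L ≤ N) {φ : Ch (lstep L N)} (hφ : φ ∈ invCh (lstep L N) N) (n : Γ) (hn : n ∈ N) :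
    Ch L where
  toFun x := ev φ ⁅(x.toMul : Γ), n⁆ (comm_mem_lstep x.toMul.2 hn)
  map_zero' := by
    have h1 : ⁅(((0 : Additive L).toMul : L) : Γ), n⁆ = 1 := by
      rw [commutatorElement_def]; simp
    rw [ev_congr φ _ h1, ev_one]
  map_add' := by
    intro x y
    have hx := comm_mem_lstep (N := N) x.toMul.2 hn
    have hy := comm_mem_lstep (N := N) y.toMul.2 hn
    have h0 : ((x.toMul : L) : Γ) * ⁅(y.toMul : Γ), n⁆ * ((x.toMul : L) : Γ)⁻¹ ∈ lstep L N :=
      Subgroup.Normal.conj_mem inferInstance _ hy _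
    have h1 : ⁅(((x + y).toMul : L) : Γ), n⁆ =
        (((x.toMul : L) : Γ) * ⁅(y.toMul : Γ), n⁆ * ((x.toMul : L) : Γ)⁻¹) *
          ⁅(x.toMul : Γ), n⁆ := by
      simp only [commutatorElement_def, toMul_add, Subgroup.coe_mul]
      group
    rw [ev_congr φ _ h1, ev_mul φ h0 hx, ev_conj_inv hφ hy (hLN x.toMul.2) h0, add_comm]

theorem ev_bil (hLN : L ≤ N) {φ : Ch (lstep L N)} (hφ : φ ∈ invCh (lstep L N) N) {n : Γ}
    (hn : n ∈ N) {x : Γ} (hx : x ∈ L) :
    ev (bil hLN hφ n hn) x hx = ev φ ⁅x, n⁆ (comm_mem_lstep hx hn) := rfl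

theorem bil_mul (hLN : L ≤ N) {φ : Ch (lstep L N)} (hφ : φ ∈ invCh (lstep L N) N) {n m : Γ}
    (hn : n ∈ N) (hm : m ∈ N) :
    bil hLN hφ (n * m) (N.mul_mem hn hm) = bil hLN hφ n hn + bil hLN hφ m hm := by
  apply ch_ext
  intro x hx
  rw [ev_add, ev_bil, ev_bil, ev_bil]
  have hx1 := comm_mem_lstep (N := N) hx hn
  have hx2 := comm_mem_lstep (N := N) hx hm
  have h0 : n * ⁅x, m⁆ * n⁻¹ ∈ lstep L N := Subgroup.Normal.conj_mem inferInstance _ hx2 _
  have h1 : ⁅x, n * m⁆ = ⁅x, n⁆ * (n * ⁅x, m⁆ * n⁻¹) := by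
    simp only [commutatorElement_def]; group
  rw [ev_congr φ _ h1, ev_mul φ hx1 h0, ev_conj_inv hφ hx2 hn h0]

theorem bil_congr (hLN : L ≤ N) {φ : Ch (lstep L N)} (hφ : φ ∈ invCh (lstep L N) N) {n m : Γ}
    (hn : n ∈ N) (h : n = m) : bil hLN hφ n hn = bil hLN hφ m (h ▸ hn) := by
  subst h; rfl

theorem bil_one (hLN : L ≤ N) {φ : Ch (lstep L N)} (hφ : φ ∈ invCh (lstep L N) N) :
    bil hLN hφ 1 N.one_mem = 0 := by
  have h1 := bil_mul hLN hφ N.one_mem N.one_mem
  rw [bil_congr hLN hφ (N.mul_mem N.one_mem N.one_mem) (mul_one 1)] at h1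
  exact left_eq_add.1 h1

theorem bil_inv (hLN : L ≤ N) {φ : Ch (lstep L N)} (hφ : φ ∈ invCh (lstep L N) N) {n : Γ}
    (hn : n ∈ N) : bil hLN hφ n⁻¹ (N.inv_mem hn) = - bil hLN hφ n hn := by
  have h1 := bil_mul hLN hφ hn (N.inv_mem hn)
  rw [bil_congr hLN hφ (N.mul_mem hn (N.inv_mem hn)) (mul_inv_cancel n), bil_one] at h1
  exact (neg_eq_of_add_eq_zero_right h1.symm).symm

theorem bil_mem (hLN : L ≤ N) {φ : Ch (lstep L N)} (hφ : φ ∈ invCh (lstep L N) N) {n : Γ}
    (hn : n ∈ N) : bil hLN hφ n hn ∈ invCh L N := by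
  intro m hm x hx h
  rw [ev_bil, ev_bil]
  -- `⁅m⁻¹ x m, n⁆ = m⁻¹ ⁅x, m n m⁻¹⁆ m`
  have hc : m * n * m⁻¹ ∈ N := N.mul_mem (N.mul_mem hm hn) (N.inv_mem hm)
  have h1 := comm_mem_lstep (N := N) hx hc
  have h0 : m⁻¹ * ⁅x, m * n * m⁻¹⁆ * m ∈ lstep L N := conj_mem_of_normal h1 m
  have e1 : ⁅m⁻¹ * x * m, n⁆ = m⁻¹ * ⁅x, m * n * m⁻¹⁆ * m := by
    simp only [commutatorElement_def]; group
  rw [ev_congr φ _ e1, hφ m hm _ h1 h0]
  -- additivity in the second variable
  have h2 := bil_mul hLN hφ (N.mul_mem hm hn) (N.inv_mem hm)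
  rw [bil_mul hLN hφ hm hn, bil_inv hLN hφ hm] at h2
  have h3 := congrArg (fun ψ : Ch L => ev ψ x hx) h2
  simp only [ev_bil, ev_add] at h3
  rw [h3]
  have h4 : ev (- bil hLN hφ m hm) x hx = - ev φ ⁅x, m⁆ (comm_mem_lstep hx hm) := rfl
  rw [h4]; ring

theorem bil_conj (hLN : L ≤ N) {φ : Ch (lstep L N)} (hφ : φ ∈ invCh (lstep L N) N) {g : Γ}
    {lam : ℂ} (hlam : conjRep (lstep L N) g φ = lam • φ) {n : Γ} (hn : n ∈ N) :
    conjRep L g (bil hLN hφ (g⁻¹ * n * g) (conj_mem_of_normal hn g)) = lam • bil hLN hφ n hn := by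
  apply ch_ext
  intro x hx
  rw [ev_conjRep, ev_smul, ev_bil, ev_bil]
  have h1 := comm_mem_lstep (N := N) hx hn
  have h2 := congrArg (fun ψ : Ch (lstep L N) => ev ψ ⁅x, n⁆ h1) hlam
  simp only [ev_conjRep, ev_smul] at h2
  rw [← h2]
  apply ev_congr
  simp only [commutatorElement_def]; group

theorem bil_ne_zero (hLfg : L.FG) (hLN : L ≤ N) {φ : Ch (lstep L N)}
    (hφ : φ ∈ invCh (lstep L N) N) (hφ0 : φ ≠ 0) : ∃ n, ∃ hn : n ∈ N, bil hLN hφ n hn ≠ 0 := by
  classical
  by_contra hcon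
  push Not at hcon
  apply hφ0
  -- `φ` vanishes on `⁅L, N⁆`
  have hvan : ⁅L, N⁆ ≤ ann (lstep L N) {φ} := by
    rw [Subgroup.commutator_le]
    intro x hx n hn
    refine ⟨comm_mem_lstep hx hn, ?_⟩
    rintro ψ rfl
    have h1 := congrArg (fun ψ : Ch L => ev ψ x hx) (hcon n hn)
    exact h1
  have hDL : ⁅L, N⁆ ≤ L := Subgroup.commutator_le_left L N
  let D : Subgroup L := (⁅L, N⁆).subgroupOf L
  have hDn : D.Normal := inferInstance
  have hcommQ : ∀ a b : L ⧸ D, a * b = b * a := by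
    intro a b
    induction a using QuotientGroup.induction_on with | H a => ?_
    induction b using QuotientGroup.induction_on with | H b => ?_
    rw [← QuotientGroup.mk_mul, ← QuotientGroup.mk_mul, QuotientGroup.eq,
      Subgroup.mem_subgroupOf]
    have h2 : (((a * b)⁻¹ * (b * a) : L) : Γ) = ⁅(b : Γ)⁻¹, (a : Γ)⁻¹⁆ := by
      rw [commutatorElement_def]; push_cast; group
    rw [h2]
    exact Subgroup.commutator_mem_commutator (L.inv_mem b.2) (N.inv_mem (hLN a.2))
  letI : CommGroup (L ⧸ D) :=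
    { (inferInstance : Group (L ⧸ D)) with mul_comm := hcommQ }
  have hfgL : Group.FG L := (Group.fg_iff_subgroup_fg L).2 hLfg
  have hfgQ : Group.FG (L ⧸ D) := QuotientGroup.fg _
  apply ch_ext
  intro y hy
  have hyL : y ∈ L := lstep_le L N hy
  obtain ⟨m, hm0, hm⟩ := torsion_of_chars (A := L ⧸ D) (QuotientGroup.mk ⟨y, hyL⟩) (by
    intro ψ
    let ψ' : Ch L := ψ.comp (QuotientGroup.mk' D).toAdditive
    have h1 : ψ' ∈ invCh L N := by
      intro n hn x hx h
      change ψ (Additive.ofMul (QuotientGroup.mk ⟨n⁻¹ * x * n, h⟩))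
        = ψ (Additive.ofMul (QuotientGroup.mk ⟨x, hx⟩))
      congr 2
      rw [QuotientGroup.eq, Subgroup.mem_subgroupOf]
      change (n⁻¹ * x * n)⁻¹ * x ∈ ⁅L, N⁆
      have e : (n⁻¹ * x * n)⁻¹ * x = ⁅x⁻¹, n⁻¹⁆⁻¹ := by
        rw [commutatorElement_def]; group
      rw [e]
      exact inv_mem (Subgroup.commutator_mem_commutator (L.inv_mem hx) (N.inv_mem hn))
    exact hy.2 ψ' h1)
  rw [← QuotientGroup.mk_pow, QuotientGroup.eq_one_iff, Subgroup.mem_subgroupOf] at hm
  have h2 := hvan hm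
  obtain ⟨h3, h4⟩ := h2
  have h5 := h4 φ rfl
  have h6 : ev φ (y ^ m) ((lstep L N).pow_mem hy m) = 0 := h5
  rw [ev_pow φ hy m] at h6
  rcases mul_eq_zero.1 h6 with h | h
  · exact absurd (by exact_mod_cast h) hm0
  · exact h

/-- the product lemma -/
theorem prod_lemma (hLfg : L.FG) (hLN : L ≤ N) (g : Γ) (lam : ℂ)
    (h : (invRep (lstep L N) N g).HasEigenvalue lam) :
    ∃ μ ν, (invRep L N g).HasEigenvalue μ ∧ (conjRep N g).HasEigenvalue ν ∧ lam = μ * ν := by
  classical
  have hfd : FiniteDimensional ℂ (Ch L) := finiteDimensional_ch hLfg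
  obtain ⟨φ, hφe⟩ := h.exists_hasEigenvector
  have hφ1 : invRep (lstep L N) N g φ = lam • φ := Module.End.mem_eigenspace_iff.1 hφe.1
  have hφ0 : (φ : Ch (lstep L N)) ≠ 0 := fun h => hφe.2 (Subtype.ext h)
  have hφ := φ.2
  have hlam : conjRep (lstep L N) g (φ : Ch (lstep L N)) = lam • (φ : Ch (lstep L N)) :=
    congrArg Subtype.val hφ1
  have hlam0 : lam ≠ 0 := by
    rintro rfl
    rw [zero_smul] at hlam
    apply hφ0
    rw [← ρ_inv_apply (conjRep (lstep L N)) g (φ : Ch (lstep L N)), hlam, map_zero]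
  let V' : Submodule ℂ (Ch L) := Submodule.span ℂ {ψ | ∃ n, ∃ hn : n ∈ N, bil hLN hφ n hn = ψ}
  have hB : ∀ n (hn : n ∈ N), bil hLN hφ n hn ∈ V' := fun n hn =>
    Submodule.subset_span ⟨n, hn, rfl⟩
  have hV'le : V' ≤ invCh L N := by
    rw [Submodule.span_le]
    rintro _ ⟨n, hn, rfl⟩
    exact bil_mem hLN hφ hn
  have hT0 : ∀ n (hn : n ∈ N), ∃ hn' : g * n * g⁻¹ ∈ N,
      conjRep L g (bil hLN hφ n hn) = lam • bil hLN hφ (g * n * g⁻¹) hn' := by
    intro n hn
    have hn' : g * n * g⁻¹ ∈ N := Subgroup.Normal.conj_mem inferInstance n hn g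
    refine ⟨hn', ?_⟩
    rw [← bil_conj hLN hφ hlam hn']
    congr 1
    exact bil_congr hLN hφ hn (by group)
  have hTV : ∀ x ∈ V', conjRep L g x ∈ V' := by
    intro x hx
    have : V' ≤ V'.comap (conjRep L g) := by
      rw [Submodule.span_le]
      rintro _ ⟨n, hn, rfl⟩
      obtain ⟨hn', h1⟩ := hT0 n hn
      change conjRep L g (bil hLN hφ n hn) ∈ V'
      rw [h1]
      exact V'.smul_mem _ (hB _ hn')
    exact this hx
  obtain ⟨n₀, hn₀, hn₀'⟩ := bil_ne_zero hLfg hLN hφ hφ0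
  have hV'0 : Nontrivial V' := by
    refine ⟨⟨⟨_, hB n₀ hn₀⟩, 0, ?_⟩⟩
    intro h
    exact hn₀' (congrArg Subtype.val h)
  let S : Module.End ℂ V' := (conjRep L g).restrict hTV
  obtain ⟨μ, hμ⟩ := Module.End.exists_eigenvalue (Module.Dual.transpose (R := ℂ) S)
  obtain ⟨ψ, hψe⟩ := hμ.exists_hasEigenvector
  have hψ1 : ∀ x : V', ψ (S x) = μ * ψ x := by
    intro x
    have h1 := Module.End.mem_eigenspace_iff.1 hψe.1
    have h2 := congrArg (fun f : Module.Dual ℂ V' => f x) h1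
    exact h2
  -- `μ` is an eigenvalue of `S`
  have hSμ : ∃ x : V', x ≠ 0 ∧ S x = μ • x := by
    by_contra hcon
    push Not at hcon
    have hinj : Function.Injective (S - μ • (1 : Module.End ℂ V')) := by
      rw [← LinearMap.ker_eq_bot, LinearMap.ker_eq_bot']
      intro x hx
      by_contra hx0
      apply hcon x hx0
      rw [← sub_eq_zero]
      simpa using hx
    have hsurj := LinearMap.injective_iff_surjective.1 hinj
    apply hψe.2
    ext y
    obtain ⟨x, rfl⟩ := hsurj y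
    rw [LinearMap.sub_apply, map_sub, LinearMap.smul_apply, Module.End.one_apply, map_smul, hψ1,
      smul_eq_mul, sub_self, LinearMap.zero_apply]
  obtain ⟨x, hx0, hx⟩ := hSμ
  let χ : Ch N :=
    { toFun := fun n => ψ ⟨bil hLN hφ n.toMul n.toMul.2, hB _ _⟩
      map_zero' := by
        have h1 : (⟨bil hLN hφ ((0 : Additive N).toMul : N) (0 : Additive N).toMul.2, hB _ _⟩ :
            V') = 0 := Subtype.ext (bil_one hLN hφ)
        rw [h1, map_zero]
      map_add' := by
        intro a b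
        rw [← map_add]
        congr 1
        exact Subtype.ext (bil_mul hLN hφ a.toMul.2 b.toMul.2) }
  have hχ : ∀ n (hn : n ∈ N), ev χ n hn = ψ ⟨bil hLN hφ n hn, hB n hn⟩ := fun _ _ => rfl
  have hχ0 : χ ≠ 0 := by
    intro h0
    apply hψe.2
    have h1 : ∀ n (hn : n ∈ N), ψ ⟨bil hLN hφ n hn, hB n hn⟩ = 0 := by
      intro n hn
      rw [← hχ, h0]; rfl
    ext y
    rw [LinearMap.zero_apply]
    obtain ⟨y, hy⟩ := y
    induction hy using Submodule.span_induction with
    | mem z hz =>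
      obtain ⟨n, hn, rfl⟩ := hz
      exact h1 n hn
    | zero => exact map_zero ψ
    | add a b ha hb iha ihb =>
      have : (⟨a + b, V'.add_mem ha hb⟩ : V') = ⟨a, ha⟩ + ⟨b, hb⟩ := rfl
      rw [this, map_add, iha, ihb, add_zero]
    | smul c a ha iha =>
      have : (⟨c • a, V'.smul_mem c ha⟩ : V') = c • ⟨a, ha⟩ := rfl
      rw [this, map_smul, iha, smul_zero]
  have hrel : ∀ n (hn : n ∈ N), lam * ev χ n hn
      = μ * ev χ (g⁻¹ * n * g) (conj_mem_of_normal hn g) := by
    intro n hn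
    rw [hχ, hχ, ← hψ1, ← smul_eq_mul, ← map_smul]
    congr 1
    exact Subtype.ext (bil_conj hLN hφ hlam hn).symm
  have hμ0 : μ ≠ 0 := by
    rintro rfl
    apply hχ0
    apply ch_ext
    intro n hn
    have h1 := hrel n hn
    rw [zero_mul] at h1
    rcases mul_eq_zero.1 h1 with h | h
    · exact absurd h hlam0
    · exact h
  refine ⟨μ, lam / μ, ?_, ?_, ?_⟩
  · refine Module.End.hasEigenvalue_of_hasEigenvector (x := ⟨(x : Ch L), hV'le x.2⟩) ⟨?_, ?_⟩
    · rw [Module.End.mem_eigenspace_iff]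
      apply Subtype.ext
      have h1 : ((S x : V') : Ch L) = ((μ • x : V') : Ch L) := congrArg Subtype.val hx
      exact h1
    · intro h
      apply hx0
      have h1 := congrArg (fun z : invCh L N => (z : Ch L)) h
      exact Subtype.ext h1
  · refine Module.End.hasEigenvalue_of_hasEigenvector (x := χ) ⟨?_, hχ0⟩
    rw [Module.End.mem_eigenspace_iff]
    apply ch_ext
    intro n hn
    rw [ev_conjRep, ev_smul, div_mul_eq_mul_div, hrel n hn]
    field_simp
  · field_simp

end prod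

end Vale.Agent.P188.H754

end

section

/-!
The structure theorem for virtually polycyclic groups.
-/

universe u v

namespace Vale.Agent.P188.H754

open Module
open scoped commutatorElement

section final

variable {Γ : Type u} [Group Γ]

theorem exists_flag_invCh {H N : Subgroup Γ} [hNn : N.Normal] [H.Normal] (hH : H.FG)
    (hcomm : ∀ a b : Γ, ⁅a, b⁆ ∈ N) : ∃ F m, FlagData (invRep H N) ⊤ F m := by
  have hfd : FiniteDimensional ℂ (Ch H) := finiteDimensional_ch hH
  obtain ⟨F, m, hF, _⟩ := trig N hcomm (invRep H N) (fun j => if j = 0 then ⊥ else ⊤) 1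
    (by simp) (by simp) (by
      intro n hn j x hx
      by_cases hj : j = 0
      · subst hj
        simp only [if_true]
        rw [Submodule.mem_bot, sub_eq_zero]
        exact Subtype.ext (mem_invCh_iff.1 x.2 n hn)
      · simp [hj])
  exact ⟨F, m, hF⟩

theorem eig_all_one {n : ℕ} (hΓ : PolyZ n Γ) {N : Subgroup Γ} [N.Normal] {g : Γ}
    (hg : ∀ ν, (conjRep N g).HasEigenvalue ν → ν = 1) (i : ℕ) :
    ∀ μ, (invRep (lser N i) N g).HasEigenvalue μ → μ = 1 := by
  induction i with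
  | zero =>
    intro μ hμ
    obtain ⟨φ, hφe⟩ := hμ.exists_hasEigenvector
    have hφ1 : invRep (lser N 0) N g φ = μ • φ := Module.End.mem_eigenspace_iff.1 hφe.1
    have hφ0 : (φ : Ch (lser N 0)) ≠ 0 := fun h => hφe.2 (Subtype.ext h)
    apply hg
    refine Module.End.hasEigenvalue_of_hasEigenvector (x := φ.1) ⟨?_, hφ0⟩
    exact Module.End.mem_eigenspace_iff.2 (congrArg Subtype.val hφ1)
  | succ i ih =>
    intro lam hlam
    obtain ⟨μ, ν, hμ, hν, rfl⟩ := prod_lemma (PolyZ.subgroup_fg hΓ _) (lser_le N i) g lam hlam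
    rw [ih μ hμ, hg ν hν, one_mul]

theorem FlagData.scal_unique {V : Type v} [AddCommGroup V] [Module ℂ V]
    {ρ : Γ →* Module.End ℂ V} {Γ1 : Subgroup Γ} {F : ℕ → Submodule ℂ V} {m : ℕ}
    (h : FlagData ρ Γ1 F m) {g : Γ} {j : ℕ} (hj : F j ≠ F (j + 1)) {c d : ℂ}
    (hc : ∀ x ∈ F (j + 1), ρ g x - c • x ∈ F j) (hd : ∀ x ∈ F (j + 1), ρ g x - d • x ∈ F j) :
    c = d := by
  by_contra hne
  apply hj
  refine le_antisymm (h.mono (Nat.le_succ j)) fun x hx => ?_
  have h1 := (F j).sub_mem (hd x hx) (hc x hx)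
  have e : (ρ g) x - d • x - ((ρ g) x - c • x) = (c - d) • x := by rw [sub_smul]; abel
  rw [e] at h1
  have h2 := (F j).smul_mem (c - d)⁻¹ h1
  rwa [smul_smul, inv_mul_cancel₀ (sub_ne_zero.2 hne), one_smul] at h2

theorem unip_le {n : ℕ} (hΓ : PolyZ n Γ) {N : Subgroup Γ} [hNn : N.Normal]
    (hnil : Group.IsNilpotent N) (hcomm : ∀ a b : Γ, ⁅a, b⁆ ∈ N)
    (hfit : ∀ M : Subgroup Γ, M.Normal → Group.IsNilpotent M → M ≤ N)
    {F : ℕ → Submodule ℂ (Ch N)} {m : ℕ} (hF : FlagData (conjRep N) ⊤ F m) : hF.unip ≤ N := by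
  have hfd : FiniteDimensional ℂ (Ch N) := finiteDimensional_ch (PolyZ.subgroup_fg hΓ _)
  apply hfit
  · constructor
    intro u hu g
    exact hF.conj_mem trivial hu
  · obtain ⟨n', _, hn'⟩ := PolyZ.of_injective n N.subtype N.subtype_injective hΓ
    refine isNilpotent_of_unip' (N := N) (lser_eq_bot hnil hn') ⟨1, ?_⟩ ?_
    · rw [Subgroup.lowerCentralSeries_succ, Subgroup.commutator_le]
      intro a _ b _
      exact hcomm a b
    · intro i _
      have hfdi : FiniteDimensional ℂ (Ch (lser N i)) :=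
        finiteDimensional_ch (PolyZ.subgroup_fg hΓ _)
      obtain ⟨E, d, hE⟩ := exists_flag_invCh (H := lser N i) (N := N)
        (PolyZ.subgroup_fg hΓ _) hcomm
      refine ⟨E, d, hE.zero, hE.top, ?_⟩
      intro u hu j φ hφ
      obtain ⟨c, hc⟩ := hE.scal u trivial j
      by_cases hj : E j = E (j + 1)
      · rw [hj]
        exact (E (j + 1)).sub_mem (hE.inv trivial _ hφ) hφ
      · obtain ⟨x, hx0, hx⟩ := hE.exists_eigen trivial hc hj
        have h1 : (invRep (lser N i) N u).HasEigenvalue c :=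
          Module.End.hasEigenvalue_of_hasEigenvector
            ⟨Module.End.mem_eigenspace_iff.2 hx, hx0⟩
        have h2 : ∀ ν, (conjRep N u).HasEigenvalue ν → ν = 1 := by
          intro ν hν
          obtain ⟨φ, hφe⟩ := hν.exists_hasEigenvector
          obtain ⟨l, hl, hlne, hl2⟩ := hF.eigen_mem (g := u) trivial hφe.2
            (Module.End.mem_eigenspace_iff.1 hφe.1)
          refine hF.scal_unique hlne hl2 ?_
          intro x hx
          rw [one_smul]
          exact hu.2 l x hx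
        have h3 := eig_all_one hΓ h2 i c h1
        have h4 := hc φ hφ
        rwa [h3, one_smul] at h4

/-- the generator weights are bounded below on `ℤ^k` -/
theorem generator_bound {n : ℕ} (hΓ : PolyZ n Γ) {k : ℕ} (η : Γ →* Multiplicative (Fin k → ℤ))
    (hη : Function.Surjective η) (hnil : Group.IsNilpotent η.ker)
    (hfit : ∀ M : Subgroup Γ, M.Normal → Group.IsNilpotent M → M ≤ η.ker) :
    ∃ c : ℝ, 0 < c ∧ ∀ g : Γ, η g ≠ 1 → ∃ μ, (conjRep η.ker g).HasEigenvalue μ ∧
      c * ‖Multiplicative.toAdd (η g)‖ ≤ |Real.log ‖μ‖| := by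
  classical
  set N := η.ker with hN
  have hcomm : ∀ a b : Γ, ⁅a, b⁆ ∈ N := by
    intro a b
    rw [hN, MonoidHom.mem_ker, map_commutatorElement, commutatorElement_def]
    rw [mul_comm (η a) (η b)]; group
  have hfd : FiniteDimensional ℂ (Ch N) := finiteDimensional_ch (PolyZ.subgroup_fg hΓ _)
  obtain ⟨F, m, hF, hFN⟩ := exists_flag_nil (N := N) (H := N) (PolyZ.subgroup_fg hΓ _) le_rfl
    hcomm hnil
  have hunip := unip_le hΓ hnil hcomm hfit hF
  have hscal : ∀ g : Γ, ∀ j, ∃ c : ℂ, (∀ x ∈ F (j + 1), conjRep N g x - c • x ∈ F j) ∧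
      (F j = F (j + 1) → c = 1) := by
    intro g j
    by_cases hj : F j = F (j + 1)
    · refine ⟨1, fun x hx => ?_, fun _ => rfl⟩
      rw [one_smul, hj]
      exact (F (j + 1)).sub_mem (hF.inv trivial _ hx) hx
    · obtain ⟨c, hc⟩ := hF.scal g trivial j
      exact ⟨c, hc, fun h => absurd h hj⟩
  choose χ hχ hχ1 using hscal
  have hmul : ∀ g h j, χ (g * h) j = χ g j * χ h j := by
    intro g h j
    by_cases hj : F j = F (j + 1)
    · rw [hχ1 _ _ hj, hχ1 _ _ hj, hχ1 _ _ hj, mul_one]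
    · exact hF.scal_unique hj (hχ _ j) (hF.scal_mul trivial trivial (hχ g j) (hχ h j))
  have hNone : ∀ g ∈ N, ∀ j, χ g j = 1 := by
    intro g hg j
    by_cases hj : F j = F (j + 1)
    · exact hχ1 _ _ hj
    · refine hF.scal_unique hj (hχ g j) ?_
      intro x hx
      rw [one_smul]
      exact hFN g hg j x hx
  have hne : ∀ g j, χ g j ≠ 0 := by
    intro g j h0
    have h1 := hmul g g⁻¹ j
    rw [mul_inv_cancel, hNone 1 N.one_mem, h0, zero_mul] at h1
    exact one_ne_zero h1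
  have hsame : ∀ g h j, η g = η h → χ g j = χ h j := by
    intro g h j hgh
    have h1 : h⁻¹ * g ∈ N := by
      rw [hN, MonoidHom.mem_ker, map_mul, map_inv, hgh, inv_mul_cancel]
    have h2 := hmul h (h⁻¹ * g) j
    rw [hNone _ h1, mul_one] at h2
    rw [← h2]; congr 1; group
  choose s hs using hη
  let L : (Fin k → ℤ) →+ (Fin m → ℝ) :=
    { toFun := fun v j => Real.log ‖χ (s (Multiplicative.ofAdd v)) j‖
      map_zero' := by
        funext j
        rw [hsame (s (Multiplicative.ofAdd 0)) 1 j (by rw [hs, map_one, ofAdd_zero]),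
          hNone 1 N.one_mem]
        simp
      map_add' := by
        intro v w
        funext j
        rw [hsame (s (Multiplicative.ofAdd (v + w)))
          (s (Multiplicative.ofAdd v) * s (Multiplicative.ofAdd w)) j
          (by rw [map_mul, hs, hs, hs, ofAdd_add]), hmul, norm_mul,
          Real.log_mul (norm_ne_zero_iff.2 (hne _ _)) (norm_ne_zero_iff.2 (hne _ _))]
        rfl }
  have hL : ∀ g : Γ, ∀ j, L (Multiplicative.toAdd (η g)) j = Real.log ‖χ g j‖ := by
    intro g j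
    change Real.log ‖χ (s (Multiplicative.ofAdd (Multiplicative.toAdd (η g)))) j‖ = _
    rw [hsame _ g j (by rw [hs]; rfl)]
  have heig : ∀ g μ, (conjRep N g).HasEigenvalue μ → ∃ j < m, μ = χ g j := by
    intro g μ hμ
    obtain ⟨φ, hφe⟩ := hμ.exists_hasEigenvector
    obtain ⟨l, hl, hlne, hl2⟩ := hF.eigen_mem (g := g) trivial hφe.2
      (Module.End.mem_eigenspace_iff.1 hφe.1)
    exact ⟨l, hl, hF.scal_unique hlne hl2 (hχ g l)⟩
  have heig' : ∀ g j, F j ≠ F (j + 1) → (conjRep N g).HasEigenvalue (χ g j) := by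
    intro g j hj
    obtain ⟨x, hx0, hx⟩ := hF.exists_eigen (g := g) trivial (hχ g j) hj
    exact Module.End.hasEigenvalue_of_hasEigenvector ⟨Module.End.mem_eigenspace_iff.2 hx, hx0⟩
  have hfin : ∀ R : ℝ, {v : Fin k → ℤ | ‖L v‖ ≤ R}.Finite := by
    intro R
    obtain ⟨E, hE, hEg⟩ := finite_eig (H := N) (PolyZ.subgroup_fg hΓ _) (Real.exp R)
    have hfinE : (insert (1 : ℂ) E).Finite := hE.insert _
    have hpi : (Set.univ.pi (fun _ : Fin m => (insert (1 : ℂ) E))).Finite :=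
      Set.Finite.pi' (fun _ => hfinE) |>.subset (by
        intro f hf i
        exact hf i trivial)
    let Φ : (Fin k → ℤ) → (Fin m → ℂ) := fun v j => χ (s (Multiplicative.ofAdd v)) j
    refine Set.Finite.of_finite_image (f := Φ) (hpi.subset ?_) ?_
    · rintro _ ⟨v, hv, rfl⟩ j _
      have hv' : ‖L v‖ ≤ R := hv
      change χ (s (Multiplicative.ofAdd v)) j ∈ _
      by_cases hj : F j = F (j + 1)
      · rw [hχ1 _ _ hj]; exact Set.mem_insert _ _
      · refine Set.mem_insert_of_mem _ (hEg _ ?_ _ (heig' _ _ hj))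
        intro μ hμ
        obtain ⟨l, hl, rfl⟩ := heig _ μ hμ
        have h1 : |Real.log ‖χ (s (Multiplicative.ofAdd v)) l‖| ≤ R := by
          have h2 := norm_le_pi_norm (L v) ⟨l, hl⟩
          exact (Real.norm_eq_abs _ ▸ h2).trans hv'
        have h3 : 0 < ‖χ (s (Multiplicative.ofAdd v)) l‖ := norm_pos_iff.2 (hne _ _)
        rw [← Real.exp_log h3]
        exact Real.exp_le_exp.2 ((le_abs_self _).trans h1)
    · intro v _ w _ hvw
      have h1 : (s (Multiplicative.ofAdd w))⁻¹ * s (Multiplicative.ofAdd v) ∈ hF.unip := by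
        refine hF.quot_mem trivial trivial fun j => ?_
        refine ⟨χ (s (Multiplicative.ofAdd v)) j, hχ _ j, ?_⟩
        by_cases hj : j < m
        · have h2 : χ (s (Multiplicative.ofAdd v)) j = χ (s (Multiplicative.ofAdd w)) j :=
            congrFun hvw ⟨j, hj⟩
          rw [h2]
          exact hχ _ j
        · have h3 : F j = ⊤ := by
            rw [eq_top_iff, ← hF.top]
            exact hF.mono (by omega)
          have h4 : F (j + 1) = ⊤ := by
            rw [eq_top_iff, ← hF.top]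
            exact hF.mono (by omega)
          intro x _
          rw [h3]; trivial
      have h2 := hunip h1
      rw [hN, MonoidHom.mem_ker, map_mul, map_inv, hs, hs] at h2
      have h3 := inv_mul_eq_one.1 h2
      exact (Multiplicative.ofAdd.injective h3).symm
  obtain ⟨c, hc, hcL⟩ := discrete_bound L hfin
  refine ⟨c, hc, fun g hg => ?_⟩
  set v := Multiplicative.toAdd (η g) with hv
  have hv0 : v ≠ 0 := by
    intro h0
    apply hg
    rw [← ofAdd_toAdd (η g), ← hv, h0, ofAdd_zero]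
  have hpos : 0 < c * ‖v‖ := mul_pos hc (norm_pos_iff.2 hv0)
  obtain ⟨j, hj⟩ : ∃ j, c * ‖v‖ ≤ |L v j| := by
    by_contra hcon
    push Not at hcon
    have h1 : ‖L v‖ < c * ‖v‖ := (pi_norm_lt_iff hpos).2 hcon
    exact absurd (hcL v) (not_le.2 h1)
  have hLj : L v j = Real.log ‖χ g j‖ := hL g j
  rw [hLj] at hj
  refine ⟨χ g j, heig' g j ?_, hj⟩
  intro heq
  rw [hχ1 _ _ heq] at hj
  simp at hj
  linarith

end final

/-- **Structure theorem (Z0)**, for poly-`ℤ` groups. -/
theorem polyZ_Z0 {G : Type u} [Group G] {n : ℕ} (h : PolyZ n G) :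
    ∃ G1 : Subgroup G, G1.FiniteIndex ∧ ∃ (k : ℕ) (η : G1 →* Multiplicative (Fin k → ℤ)),
      Function.Surjective η ∧ η.ker.FG ∧ Group.IsNilpotent η.ker ∧
      (∀ M : Subgroup G1, M.Normal → Group.IsNilpotent M → M ≤ η.ker) ∧
      (∃ m, PolyZ m G1) ∧ (∃ m, PolyZ m η.ker) ∧
      ∃ c : ℝ, 0 < c ∧ ∀ g : G1, η g ≠ 1 → ∃ μ, (conjRep η.ker g).HasEigenvalue μ ∧
        c * ‖Multiplicative.toAdd (η g)‖ ≤ |Real.log ‖μ‖| := by
  obtain ⟨G1, hG1, k, η, hη, hnil, hfit⟩ := polyZ_structure h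
  obtain ⟨m, _, hm⟩ := PolyZ.of_injective n G1.subtype G1.subtype_injective h
  obtain ⟨m', _, hm'⟩ := PolyZ.of_injective m η.ker.subtype η.ker.subtype_injective hm
  exact ⟨G1, hG1, k, η, hη, PolyZ.subgroup_fg hm _, hnil, hfit, ⟨m, hm⟩, ⟨m', hm'⟩,
    generator_bound hm η hη hnil hfit⟩

/-- **Structure theorem (Z0)** for virtually polycyclic groups: a virtually polycyclic group `G`
has a finite index subgroup `Γ` (given by an injective homomorphism `ι` with range of finite index)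
which is torsion-free (poly-`ℤ`) and an extension of `ℤ ^ k` by a finitely generated nilpotent
group `N = ker η`, such that `N` is the largest nilpotent normal subgroup of `Γ`, and the weights
of `ℤ ^ k` on `Hom(N, ℂ)` are bounded below: every `g` with `η g ≠ 1` has an eigenvalue `μ` on
`Hom(N, ℂ)` with `c * ‖η g‖ ≤ |log ‖μ‖|`. -/
theorem virtPoly_Z0 {G : Type u} [Group G] (h : IsVirtuallyPolycyclic G) :
    ∃ (Γ : Type u) (_ : Group Γ) (ι : Γ →* G), Function.Injective ι ∧ ι.range.FiniteIndex ∧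
      ∃ (k : ℕ) (η : Γ →* Multiplicative (Fin k → ℤ)),
      Function.Surjective η ∧ η.ker.FG ∧ Group.IsNilpotent η.ker ∧
      (∀ M : Subgroup Γ, M.Normal → Group.IsNilpotent M → M ≤ η.ker) ∧
      (∃ m, PolyZ m Γ) ∧ (∃ m, PolyZ m η.ker) ∧
      (∀ (x : Γ) (e : ℕ), e ≠ 0 → x ^ e = 1 → x = 1) ∧
      ∃ c : ℝ, 0 < c ∧ ∀ g : Γ, η g ≠ 1 → ∃ μ, (conjRep η.ker g).HasEigenvalue μ ∧
        c * ‖Multiplicative.toAdd (η g)‖ ≤ |Real.log ‖μ‖| := by
  obtain ⟨P, hP, hPCS⟩ := isVirtuallyPolycyclic_iff.1 h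
  obtain ⟨Q, hQP, hQ, hrel⟩ := PCS.exists_pzs hPCS
  obtain ⟨n, hn⟩ := PZS.polyZ hQ
  have hQfin : Q.FiniteIndex := by
    refine ⟨?_⟩
    rw [← Subgroup.relIndex_mul_index hQP]
    exact mul_ne_zero hrel hP.index_ne_zero
  obtain ⟨G1, hG1, k, η, hη, hfg, hnil, hfit, ⟨m, hm⟩, hm', hc⟩ := polyZ_Z0 hn
  refine ⟨G1, inferInstance, Q.subtype.comp G1.subtype,
    Q.subtype_injective.comp G1.subtype_injective, ?_, k, η, hη, hfg, hnil, hfit, ⟨m, hm⟩, hm',
    fun x e he hx => PolyZ.torsionFree m hm x e he hx, hc⟩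
  rw [MonoidHom.range_comp, Subgroup.range_subtype]
  exact finiteIndex_map_subtype Q G1 hQfin hG1

end Vale.Agent.P188.H754

end

section

/-!
Generator characters and crossed homomorphisms.
-/

universe u v

namespace Vale.Agent.P188.H754

open Module
open scoped commutatorElement

section chars

variable {Γ : Type u} [Group Γ]

/-- A generator weight: a nonzero homomorphism `φ : N → ℂ` with
`φ (g * n * g⁻¹) = ρ g * φ n` for a character `ρ` of `Γ`. -/
structure GenWeight (N : Subgroup Γ) where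
  /-- the character -/
  ρ : Γ →* ℂ
  /-- the homomorphism on `N` -/
  φ : Γ → ℂ
  φ_mul : ∀ x ∈ N, ∀ y ∈ N, φ (x * y) = φ x + φ y
  φ_conj : ∀ g : Γ, ∀ x ∈ N, φ (g * x * g⁻¹) = ρ g * φ x
  φ_ne : ∃ x ∈ N, φ x ≠ 0

theorem GenWeight.φ_one {N : Subgroup Γ} (w : GenWeight N) : w.φ 1 = 0 := by
  have h := w.φ_mul 1 N.one_mem 1 N.one_mem
  rw [mul_one] at h
  linear_combination -h

theorem GenWeight.φ_inv {N : Subgroup Γ} (w : GenWeight N) {x : Γ} (hx : x ∈ N) :
    w.φ x⁻¹ = - w.φ x := by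
  have h := w.φ_mul x hx x⁻¹ (N.inv_mem hx)
  rw [mul_inv_cancel, w.φ_one] at h
  linear_combination -h

theorem GenWeight.ρ_ne {N : Subgroup Γ} (w : GenWeight N) (g : Γ) : w.ρ g ≠ 0 := by
  intro h
  have h1 : w.ρ (g * g⁻¹) = 0 := by rw [map_mul, h, zero_mul]
  rw [mul_inv_cancel, map_one] at h1
  exact one_ne_zero h1

/-- characters are trivial on `N` -/
theorem GenWeight.ρ_of_mem {N : Subgroup Γ} (w : GenWeight N) {n : Γ} (hn : n ∈ N) :
    w.ρ n = 1 := by
  obtain ⟨x, hx, hx0⟩ := w.φ_ne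
  have h1 := w.φ_conj n x hx
  rw [w.φ_mul _ (N.mul_mem hn hx) _ (N.inv_mem hn), w.φ_mul _ hn _ hx, w.φ_inv hn] at h1
  have h2 : (w.ρ n - 1) * w.φ x = 0 := by linear_combination -h1
  rcases mul_eq_zero.1 h2 with h | h
  · exact sub_eq_zero.1 h
  · exact absurd h hx0

/-- A nontrivial generator weight extends to a crossed homomorphism on the whole group. -/
theorem GenWeight.exists_crossed {N : Subgroup Γ} (hcomm : ∀ a b : Γ, ⁅a, b⁆ ∈ N)
    (w : GenWeight N) (hw : ∃ g, w.ρ g ≠ 1) :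
    ∃ D : Γ → ℂ, (∀ g h, D (g * h) = D g + w.ρ g * D h) ∧ ∀ n ∈ N, D n = w.φ n := by
  obtain ⟨g₀, hg₀⟩ := hw
  have hne : 1 - w.ρ g₀ ≠ 0 := sub_ne_zero.2 (Ne.symm hg₀)
  refine ⟨fun g => (1 - w.ρ g₀)⁻¹ * w.φ ⁅g, g₀⁆, ?_, ?_⟩
  · intro g h
    have hN : ∀ a b : Γ, a * b * a⁻¹ ∈ N → b ∈ N → True := fun _ _ _ _ => trivial
    have h1 : ⁅g * h, g₀⁆ = (g * ⁅h, g₀⁆ * g⁻¹) * ⁅g, g₀⁆ := by
      simp only [commutatorElement_def]; group
    have h2 : g * ⁅h, g₀⁆ * g⁻¹ ∈ N := by
      have h3 : g * ⁅h, g₀⁆ * g⁻¹ = ⁅g, ⁅h, g₀⁆⁆ * ⁅h, g₀⁆ := by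
        simp only [commutatorElement_def]; group
      rw [h3]
      exact N.mul_mem (hcomm _ _) (hcomm _ _)
    simp only []
    rw [h1, w.φ_mul _ h2 _ (hcomm _ _), w.φ_conj _ _ (hcomm _ _)]
    ring
  · intro n hn
    have h2 : g₀ * n⁻¹ * g₀⁻¹ ∈ N := by
      have h3 : g₀ * n⁻¹ * g₀⁻¹ = ⁅g₀, n⁻¹⁆ * n⁻¹ := by
        simp only [commutatorElement_def]; group
      rw [h3]
      exact N.mul_mem (hcomm _ _) (N.inv_mem hn)
    have h1 : ⁅n, g₀⁆ = n * (g₀ * n⁻¹ * g₀⁻¹) := by
      simp only [commutatorElement_def]; group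
    simp only []
    rw [h1, w.φ_mul _ hn _ h2, w.φ_conj _ _ (N.inv_mem hn), w.φ_inv hn]
    field_simp
    ring

/-- an eigenvalue of a single element on `Hom(N, ℂ)` gives a generator weight -/
theorem exists_genWeight {N : Subgroup Γ} [N.Normal] (hN : N.FG) (hcomm : ∀ a b : Γ, ⁅a, b⁆ ∈ N)
    {g : Γ} {μ : ℂ} (hμ : (conjRep N g).HasEigenvalue μ) : ∃ w : GenWeight N, w.ρ g = μ⁻¹ := by
  classical
  have hfd : FiniteDimensional ℂ (Ch N) := finiteDimensional_ch hN
  -- `N` acts trivially on characters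
  have htriv : ∀ n ∈ N, ∀ φ : Ch N, conjRep N n φ = φ := by
    intro n hn φ
    apply ch_ext
    intro x hx
    rw [ev_conjRep]
    have h1 := ev_mul φ (N.mul_mem (N.inv_mem hn) hx) hn
    rw [h1, ev_mul φ (N.inv_mem hn) hx, ev_inv φ hn]
    ring
  have hc : ∀ a b : Γ, Commute (conjRep N a) (conjRep N b) := by
    intro a b
    refine LinearMap.ext fun φ => ?_
    have h1 : a * b = b * a * ⁅a⁻¹, b⁻¹⁆ := by rw [commutatorElement_def]; group
    rw [← map_mul, ← map_mul, h1, map_mul (conjRep N) (b * a), Module.End.mul_apply,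
      htriv _ (hcomm _ _)]
  set W := (conjRep N g).eigenspace μ with hW
  have hWne : Nontrivial W := Submodule.nontrivial_iff_ne_bot.2 hμ
  have hinv : ∀ a : Γ, ∀ x ∈ W, conjRep N a x ∈ W := by
    intro a x hx
    rw [hW, Module.End.mem_eigenspace_iff] at hx ⊢
    have := congrArg (fun A : Module.End ℂ (Ch N) => A x) (hc g a).eq
    simp only [Module.End.mul_apply] at this
    rw [this, hx, map_smul]
  obtain ⟨χ, x, hx0, hx⟩ := exists_common_eigenvector
    (fun a : Γ => (conjRep N a).restrict (hinv a)) (by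
      intro a b
      refine LinearMap.ext fun x => Subtype.ext ?_
      have := congrArg (fun A : Module.End ℂ (Ch N) => A (x : Ch N)) (hc a b).eq
      exact this)
  have hx0' : (x : Ch N) ≠ 0 := fun h => hx0 (Subtype.ext h)
  have hx' : ∀ a, conjRep N a (x : Ch N) = χ a • (x : Ch N) := fun a => congrArg Subtype.val (hx a)
  have hinj : ∀ c d : ℂ, c • (x : Ch N) = d • (x : Ch N) → c = d := by
    intro c d h
    by_contra hne
    apply hx0'
    have h1 : (c - d) • (x : Ch N) = 0 := by rw [sub_smul, h, sub_self]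
    exact (smul_eq_zero.1 h1).resolve_left (sub_ne_zero.2 hne)
  have hχmul : ∀ a b, χ (a * b) = χ a * χ b := by
    intro a b
    apply hinj
    rw [← hx', map_mul, Module.End.mul_apply, hx' b, map_smul, hx' a, smul_smul, mul_comm]
  have hχ1 : χ 1 = 1 := by
    apply hinj
    rw [← hx', map_one, Module.End.one_apply, one_smul]
  have hχg : χ g = μ := by
    apply hinj
    rw [← hx']
    exact Module.End.mem_eigenspace_iff.1 x.2
  have hχinv : ∀ a, χ a⁻¹ = (χ a)⁻¹ := by
    intro a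
    have h1 := hχmul a a⁻¹
    rw [mul_inv_cancel, hχ1] at h1
    exact eq_inv_of_mul_eq_one_right h1.symm
  let ρ : Γ →* ℂ :=
    { toFun := fun a => χ a⁻¹
      map_one' := by rw [inv_one, hχ1]
      map_mul' := by
        intro a b
        rw [mul_inv_rev, hχmul, mul_comm] }
  refine ⟨⟨ρ, fun y => if hy : y ∈ N then ev (x : Ch N) y hy else 0, ?_, ?_, ?_⟩, ?_⟩
  · intro a ha b hb
    rw [dif_pos ha, dif_pos hb, dif_pos (N.mul_mem ha hb), ev_mul _ ha hb]
  · intro a y hy
    have h1 : a * y * a⁻¹ ∈ N := Subgroup.Normal.conj_mem inferInstance y hy a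
    rw [dif_pos hy, dif_pos h1]
    have h2 := congrArg (fun ψ : Ch N => ev ψ y hy) (hx' a⁻¹)
    simp only [ev_conjRep, ev_smul] at h2
    change _ = χ a⁻¹ * _
    rw [← h2]
    exact ev_congr _ _ (by rw [inv_inv])
  · by_contra hcon
    push Not at hcon
    apply hx0'
    apply ch_ext
    intro y hy
    have := hcon y hy
    rw [dif_pos hy] at this
    exact this
  · change χ g⁻¹ = μ⁻¹
    rw [hχinv, hχg]

/-- **Structure theorem (Z0), crossed homomorphism form.** A virtually polycyclic group has a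
finite index torsion-free poly-`ℤ` subgroup `Γ`, an extension of `ℤ ^ k` by a finitely generated
nilpotent group `N = ker η`, such that every `g` is seen by some generator weight:
`c * ‖η g‖ ≤ |log ‖ρ g‖|`. -/
theorem virtPoly_genWeight {G : Type u} [Group G] (h : IsVirtuallyPolycyclic G) :
    ∃ (Γ : Type u) (_ : Group Γ) (ι : Γ →* G), Function.Injective ι ∧ ι.range.FiniteIndex ∧
      ∃ (k : ℕ) (η : Γ →* Multiplicative (Fin k → ℤ)),
      Function.Surjective η ∧ η.ker.FG ∧ Group.IsNilpotent η.ker ∧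
      (∀ M : Subgroup Γ, M.Normal → Group.IsNilpotent M → M ≤ η.ker) ∧
      (∃ m, PolyZ m Γ) ∧ (∃ m, PolyZ m η.ker) ∧
      (∀ (x : Γ) (e : ℕ), e ≠ 0 → x ^ e = 1 → x = 1) ∧
      ∃ c : ℝ, 0 < c ∧ ∀ g : Γ, η g ≠ 1 → ∃ w : GenWeight η.ker,
        c * ‖Multiplicative.toAdd (η g)‖ ≤ |Real.log ‖w.ρ g‖| := by
  obtain ⟨Γ, inst, ι, hι, hfi, k, η, hη, hfg, hnil, hfit, hm, hm', htf, c, hc, hcb⟩ :=
    virtPoly_Z0 h
  refine ⟨Γ, inst, ι, hι, hfi, k, η, hη, hfg, hnil, hfit, hm, hm', htf, c, hc, ?_⟩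
  intro g hg
  obtain ⟨μ, hμ, hb⟩ := hcb g hg
  have hcomm : ∀ a b : Γ, ⁅a, b⁆ ∈ η.ker := by
    intro a b
    rw [MonoidHom.mem_ker, map_commutatorElement, commutatorElement_def]
    rw [mul_comm (η a) (η b)]; group
  obtain ⟨w, hw⟩ := exists_genWeight hfg hcomm hμ
  refine ⟨w, ?_⟩
  rw [hw, norm_inv, Real.log_inv, abs_neg]
  exact hb

end chars

end Vale.Agent.P188.H754

end

section

/-! P188: reduction of the rigidity statement to small groups and to a model group. -/

universe u v w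

namespace Vale.Agent.P188.H187

open Vale.Agent.P188

/-- Virtual polycyclicity is invariant under isomorphism. -/
theorem isVirtuallyPolycyclic_of_mulEquiv {G : Type u} {G' : Type v} [Group G] [Group G']
    (e : G ≃* G') (h : IsVirtuallyPolycyclic G) : IsVirtuallyPolycyclic G' := by
  obtain ⟨P, hP, hP'⟩ := isVirtuallyPolycyclic_iff.1 h
  refine isVirtuallyPolycyclic_iff.2 ⟨P.map e.toMonoidHom, ?_, hP'.map _⟩
  refine ⟨?_⟩
  have h1 : (P.map e.toMonoidHom).index = P.index :=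
    Subgroup.index_map_of_bijective e.bijective P
  rw [h1]
  exact hP.index_ne_zero

/-- Isomorphic groups are coarsely equivalent. -/
theorem coarseEquiv_of_mulEquiv {G : Type u} {G' : Type v} [Group G] [Group G']
    (e : G ≃* G') : CoarseEquiv G G' := by
  refine ⟨e, e.symm, ?_, ?_, ?_, ?_⟩
  · intro A hA
    refine ⟨e '' A, hA.image _, fun x y hxy => ?_⟩
    exact ⟨_, hxy, by simp⟩
  · intro A hA
    refine ⟨e.symm '' A, hA.image _, fun x y hxy => ?_⟩
    exact ⟨_, hxy, by simp⟩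
  · refine ⟨{1}, Set.finite_singleton _, fun x => ?_⟩
    simp
  · refine ⟨{1}, Set.finite_singleton _, fun x => ?_⟩
    simp

/-- The data of the model group. -/
structure Z0 (Γ : Type) [Group Γ] (k : ℕ) (η : Γ →* Multiplicative (Fin k → ℤ)) : Prop where
  surj : Function.Surjective η
  ker_fg : η.ker.FG
  nil : Group.IsNilpotent η.ker
  fit : ∀ M : Subgroup Γ, M.Normal → Group.IsNilpotent M → M ≤ η.ker
  polyZ : ∃ m, PolyZ m Γ
  ker_polyZ : ∃ m, PolyZ m η.ker
  torsionFree : ∀ (x : Γ) (e : ℕ), e ≠ 0 → x ^ e = 1 → x = 1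
  weights : ∃ c : ℝ, 0 < c ∧ ∀ g : Γ, η g ≠ 1 → ∃ w : H754.GenWeight η.ker,
    c * ‖Multiplicative.toAdd (η g)‖ ≤ |Real.log ‖w.ρ g‖|

/-- What has to be proved: every finitely generated group coarsely equivalent to a model group is
virtually polycyclic. -/
def Core : Prop :=
  ∀ (Γ : Type) [Group Γ] (k : ℕ) (η : Γ →* Multiplicative (Fin k → ℤ)), Z0 Γ k η →
    ∀ (H : Type) [Group H] [Group.FG H], CoarseEquiv H Γ → IsVirtuallyPolycyclic H

theorem countable_of_fg {H : Type u} [Group H] (h : Group.FG H) : Countable H := by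
  obtain ⟨S, hS⟩ := (Group.fg_def (G := H)).1 h
  have h1 : ∀ n : ℕ, ∃ B : Set H, B.Finite ∧ ∀ x y : H, wordDist (S : Set H) x y ≤ n →
      x⁻¹ * y ∈ B := fun n => finite_ball hS S.finite_toSet n
  choose B hB hB' using h1
  have h2 : (⋃ n, B n) = (Set.univ : Set H) := by
    rw [Set.eq_univ_iff_forall]
    intro y
    refine Set.mem_iUnion.2 ⟨wordDist (S : Set H) 1 y, ?_⟩
    simpa using hB' _ 1 y le_rfl
  rw [← Set.countable_univ_iff, ← h2]
  exact Set.countable_iUnion fun n => (hB n).countable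

theorem fg_left {H : Type u} {G : Type v} [Group H] [Group G]
    (h : QuasiIsometric H G) : Group.FG H := by
  obtain ⟨S, T, hS, hT, _⟩ := h
  exact (Group.fg_def (G := H)).2 ⟨S, hS⟩

theorem fg_right {H : Type u} {G : Type v} [Group H] [Group G]
    (h : QuasiIsometric H G) : Group.FG G := by
  obtain ⟨S, T, hS, hT, _⟩ := h
  exact (Group.fg_def (G := G)).2 ⟨T, hT⟩

/-- The rigidity theorem follows from the case of the model groups. -/
theorem rigidity_of_core (hcore : Core) {H : Type u} {G : Type v} [Group H] [Group G]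
    (hG : IsVirtuallyPolycyclic G) (hQ : QuasiIsometric H G) : IsVirtuallyPolycyclic H := by
  have hH : Group.FG H := fg_left hQ
  have hGf : Group.FG G := fg_right hQ
  have : Countable H := countable_of_fg hH
  have : Countable G := countable_of_fg hGf
  have : Small.{0} H := Countable.toSmall H
  have : Small.{0} G := Countable.toSmall G
  let eH : H ≃* Shrink.{0} H := (Shrink.mulEquiv.{0, u} (α := H)).symm
  let eG : G ≃* Shrink.{0} G := (Shrink.mulEquiv.{0, v} (α := G)).symm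
  have hG' : IsVirtuallyPolycyclic (Shrink.{0} G) := isVirtuallyPolycyclic_of_mulEquiv eG hG
  obtain ⟨Γ, _, ι, hι, hfi, k, η, h1, h2, h3, h4, h5, h6, h7, h8⟩ := H754.virtPoly_genWeight hG'
  have hZ : Z0 Γ k η := ⟨h1, h2, h3, h4, h5, h6, h7, h8⟩
  have c1 : CoarseEquiv (Shrink.{0} H) H := coarseEquiv_of_mulEquiv eH.symm
  have c2 : CoarseEquiv H G := hQ.coarseEquiv
  have c3 : CoarseEquiv G (Shrink.{0} G) := coarseEquiv_of_mulEquiv eG
  have c4 : CoarseEquiv (Shrink.{0} G) ι.range := coarseEquiv_of_finiteIndex _ hfi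
  have c5 : CoarseEquiv ι.range Γ :=
    coarseEquiv_of_mulEquiv (MonoidHom.ofInjective hι).symm
  have hHf : Group.FG (Shrink.{0} H) :=
    Group.fg_of_surjective (f := eH.toMonoidHom) eH.surjective
  exact isVirtuallyPolycyclic_of_mulEquiv eH.symm
    (hcore Γ k η hZ (Shrink.{0} H) (c1.trans (c2.trans (c3.trans (c4.trans c5)))))

end Vale.Agent.P188.H187

end
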