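import Vale.Agent.P188.R.G038
import Vale.Agent.P188.R.G019
import Vale.Agent.P188.R.G042
import Vale.Agent.P188.R.G046
import Vale.Agent.P188.R.G021
import Vale.Agent.P188.R.G025
import Vale.Agent.P188.R.G050

section

/-!
P188, Gromov-lite: an infinite group of polynomial growth has a nonzero harmonic cocycle.
-/

universe u v

open Filter Topology Pointwise

namespace Vale.Agent.P188.H796

open Vale.Agent.P188.SG

section Completion

variable {H : Type u} [Group H] {X₀ : Type v}

/-- An isometric representation with a cocycle on a semi-inner product space extends to the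
completion. -/
theorem hx_completion [SeminormedAddCommGroup X₀] [InnerProductSpace ℝ X₀]
    (ρ : H → X₀ →ₗᵢ[ℝ] X₀) (h1 : ∀ x, ρ 1 x = x)
    (hmul : ∀ g h x, ρ (g * h) x = ρ g (ρ h x)) (b₀ : H → X₀)
    (hb : ∀ g h, b₀ (g * h) = b₀ g + ρ g (b₀ h)) :
    ∃ (V : Type v) (_ : NormedAddCommGroup V) (_ : InnerProductSpace ℝ V)
      (_ : CompleteSpace V) (π : H →* (V ≃ₗᵢ[ℝ] V)) (b : H → V) (j : X₀ → V), IsCocycle π b ∧
      (∀ h, b h = j (b₀ h)) ∧ (∀ x y, j (x + y) = j x + j y) ∧ (∀ x, ‖j x‖ = ‖x‖) := by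
  let C : H → UniformSpace.Completion X₀ →L[ℝ] UniformSpace.Completion X₀ :=
    fun h => (ρ h).toContinuousLinearMap.completion
  have hC : ∀ h (x : X₀), C h (x : UniformSpace.Completion X₀) = ((ρ h x : X₀) : _) := fun h x =>
    ContinuousLinearMap.completion_apply_coe _ _
  have hC1 : ∀ x, C 1 x = x := fun x => by
    induction x using UniformSpace.Completion.induction_on with
    | hp => exact isClosed_eq (C 1).continuous continuous_id
    | ih x => rw [hC, h1]
  have hCmul : ∀ g h x, C (g * h) x = C g (C h x) := fun g h x => by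
    induction x using UniformSpace.Completion.induction_on with
    | hp => exact isClosed_eq (C _).continuous ((C g).continuous.comp (C h).continuous)
    | ih x => rw [hC, hC, hC, hmul]
  have hCn : ∀ h x, ‖C h x‖ = ‖x‖ := fun h x => by
    induction x using UniformSpace.Completion.induction_on with
    | hp => exact isClosed_eq (C h).continuous.norm continuous_norm
    | ih x => rw [hC, UniformSpace.Completion.norm_coe, UniformSpace.Completion.norm_coe,
        LinearIsometry.norm_map]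
  have hinv1 : ∀ h x, C h (C h⁻¹ x) = x := fun h x => by
    rw [← hCmul, mul_inv_cancel, hC1]
  have hinv2 : ∀ h x, C h⁻¹ (C h x) = x := fun h x => by
    rw [← hCmul, inv_mul_cancel, hC1]
  let E : H → UniformSpace.Completion X₀ ≃ₗᵢ[ℝ] UniformSpace.Completion X₀ := fun h =>
    { toLinearEquiv := LinearEquiv.ofLinearMap (C h).toLinearMap (C h⁻¹).toLinearMap
        (LinearMap.ext fun x => hinv1 h x) (LinearMap.ext fun x => hinv2 h x)
      norm_map' := fun x => hCn h x }
  have hE : ∀ h x, E h x = C h x := fun h x => rfl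
  let π : H →* (UniformSpace.Completion X₀ ≃ₗᵢ[ℝ] UniformSpace.Completion X₀) :=
    { toFun := E
      map_one' := LinearIsometryEquiv.ext fun x => by rw [hE, hC1]; rfl
      map_mul' := fun g h => LinearIsometryEquiv.ext fun x => by
        rw [hE, hCmul]; rfl }
  refine ⟨UniformSpace.Completion X₀, inferInstance, inferInstance, inferInstance, π,
    fun h => ((b₀ h : X₀) : _), fun x => (x : _), fun g h => ?_, fun h => rfl,
    fun x y => UniformSpace.Completion.coe_add _ _,
    fun x => UniformSpace.Completion.norm_coe _⟩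
  show ((b₀ (g * h) : X₀) : UniformSpace.Completion X₀) = (b₀ g : _) + C g (b₀ h : _)
  rw [hC, hb, UniformSpace.Completion.coe_add]

/-- The same for a positive semidefinite form. -/
theorem hx_core [AddCommGroup X₀] [Module ℝ X₀] (c : PreInnerProductSpace.Core ℝ X₀)
    (ρ : H → X₀ →ₗ[ℝ] X₀) (h1 : ∀ x, ρ 1 x = x)
    (hmul : ∀ g h x, ρ (g * h) x = ρ g (ρ h x))
    (hρ : ∀ h x, c.inner (ρ h x) (ρ h x) = c.inner x x) (b₀ : H → X₀)
    (hb : ∀ g h, b₀ (g * h) = b₀ g + ρ g (b₀ h)) :
    ∃ (V : Type v) (_ : NormedAddCommGroup V) (_ : InnerProductSpace ℝ V)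
      (_ : CompleteSpace V) (π : H →* (V ≃ₗᵢ[ℝ] V)) (b : H → V) (j : X₀ → V), IsCocycle π b ∧
      (∀ h, b h = j (b₀ h)) ∧ (∀ x y, j (x + y) = j x + j y) ∧
      (∀ x, ‖j x‖ ^ 2 = c.inner x x) := by
  let i1 : SeminormedAddCommGroup X₀ :=
    @InnerProductSpace.Core.toSeminormedAddCommGroup ℝ X₀ _ _ _ c
  let i2 : InnerProductSpace ℝ X₀ := InnerProductSpace.ofCore c
  have hnorm : ∀ x : X₀, ‖x‖ ^ 2 = c.inner x x := fun x => by
    rw [← real_inner_self_eq_norm_sq]
  obtain ⟨V, j1, j2, j3, π, b, j, hc, hbj, hadd, hn⟩ := hx_completion (X₀ := X₀)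
    (fun h => { toLinearMap := ρ h
                norm_map' := fun x => by
                  have h2 : ‖ρ h x‖ ^ 2 = ‖x‖ ^ 2 := by rw [hnorm, hnorm, hρ]
                  exact (pow_left_inj₀ (norm_nonneg _) (norm_nonneg _) two_ne_zero).1 h2 })
    h1 hmul b₀ hb
  exact ⟨V, j1, j2, j3, π, b, j, hc, hbj, hadd, fun x => by rw [hn, hnorm]⟩

end Completion

variable {H : Type u} [Group H] {S : Finset H}

/-- bounded sequences of finitely supported functions -/
def hxX (H : Type u) : Submodule ℝ (ℕ → H → ℝ) where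
  carrier := {x | (∀ k, fol1_fs (x k)) ∧ Bdd (fun k => nrm (x k))}
  add_mem' := by
    rintro x y ⟨h1, M, hM⟩ ⟨h2, N, hN⟩
    refine ⟨fun k => fs_add (h1 k) (h2 k), M + N, fun k => ?_⟩
    rw [abs_of_nonneg (nrm_nonneg _)]
    have h3 := nrm_add_le (h1 k) (h2 k)
    have h4 := (le_abs_self _).trans (hM k)
    have h5 := (le_abs_self _).trans (hN k)
    exact h3.trans (add_le_add h4 h5)
  zero_mem' := ⟨fun k => ⟨∅, fun x _ => rfl⟩, 0, fun k => by
    have : nrm ((0 : ℕ → H → ℝ) k) = 0 := by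
      unfold nrm fol1_ip
      simp
    show |nrm ((0 : ℕ → H → ℝ) k)| ≤ 0
    rw [this, abs_zero]⟩
  smul_mem' := by
    rintro a x ⟨h1, M, hM⟩
    refine ⟨fun k => fs_smul (h1 k) a, |a| * M, fun k => ?_⟩
    have : nrm ((a • x) k) = |a| * nrm (x k) := by
      unfold nrm
      rw [Pi.smul_apply, ip_smul_left _ _ (h1 k), ip_smul_right _ _ (h1 k), ← mul_assoc,
        Real.sqrt_mul (mul_self_nonneg a), Real.sqrt_mul_self_eq_abs]
    show |nrm ((a • x) k)| ≤ |a| * M
    rw [this, abs_mul, abs_abs]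
    exact mul_le_mul_of_nonneg_left (hM k) (abs_nonneg _)

omit [Group H] in
theorem hx_bdd {x y : ℕ → H → ℝ} (hx : x ∈ hxX H) (hy : y ∈ hxX H) :
    Bdd (fun k => fol1_ip (x k) (y k)) := by
  obtain ⟨h1, M, hM⟩ := hx
  obtain ⟨h2, N, hN⟩ := hy
  refine ⟨M * N, fun k => ?_⟩
  have h3 := fol1_cs (h1 k) (h2 k)
  have h4 := (le_abs_self _).trans (hM k)
  have h5 := (le_abs_self _).trans (hN k)
  have h6 : |fol1_ip (x k) (y k)| ≤ nrm (x k) * nrm (y k) := by
    refine abs_le_of_sq_le_sq ?_ (mul_nonneg (nrm_nonneg _) (nrm_nonneg _))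
    rw [mul_pow, nrm_sq, nrm_sq]
    exact h3
  exact h6.trans (mul_le_mul h4 h5 (nrm_nonneg _) ((nrm_nonneg _).trans h4))

theorem ulim_add {a b : ℕ → ℝ} (ha : Bdd a) (hb : Bdd b) :
    ulim (fun k => a k + b k) = ulim a + ulim b :=
  ulim_eq ((tendsto_ulim ha).add (tendsto_ulim hb))

theorem ulim_smul {a : ℕ → ℝ} (r : ℝ) (ha : Bdd a) : ulim (fun k => r * a k) = r * ulim a :=
  ulim_eq ((tendsto_ulim ha).const_mul r)

theorem ulim_nonneg {a : ℕ → ℝ} (ha : Bdd a) (h : ∀ k, 0 ≤ a k) : 0 ≤ ulim a :=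
  ge_of_tendsto (tendsto_ulim ha) (Eventually.of_forall h)

theorem exists_harmonic [Infinite H] (hS : SymGen S) (h1 : (1 : H) ∈ S) {D : ℕ}
    (hG : GrowthLE H D) :
    ∃ (V : Type u) (_ : NormedAddCommGroup V) (_ : InnerProductSpace ℝ V)
      (_ : CompleteSpace V) (π : H →* (V ≃ₗᵢ[ℝ] V)) (b : H → V), IsCocycle π b ∧
      ∑ s ∈ S, b s = 0 ∧ ∃ s ∈ S, b s ≠ 0 := by
  let c : PreInnerProductSpace.Core ℝ (hxX H) :=
    { inner := fun x y => ulim (fun k => fol1_ip ((x : ℕ → H → ℝ) k) ((y : ℕ → H → ℝ) k))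
      conj_inner_symm := fun x y => by
        show ulim _ = ulim _
        congr 1
        funext k
        exact fol1_ip_comm _ _
      re_inner_nonneg := fun x => ulim_nonneg (hx_bdd x.2 x.2) fun k => fol1_ip_nonneg _
      add_left := fun x y z => by
        rw [← ulim_add (hx_bdd x.2 z.2) (hx_bdd y.2 z.2)]
        congr 1
        funext k
        exact ip_add_left _ (x.2.1 k) (y.2.1 k)
      smul_left := fun x y r => by
        show ulim _ = r * ulim _
        rw [← ulim_smul r (hx_bdd x.2 y.2)]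
        congr 1
        funext k
        exact ip_smul_left r _ (x.2.1 k) }
  let ρ : H → hxX H →ₗ[ℝ] hxX H := fun g =>
    { toFun := fun x => ⟨fun k => sh g ((x : ℕ → H → ℝ) k), fun k => fs_sh (x.2.1 k) g, by
        obtain ⟨M, hM⟩ := x.2.2
        exact ⟨M, fun k => by
          show |nrm (sh g ((x : ℕ → H → ℝ) k))| ≤ M
          rw [nrm_sh]
          exact hM k⟩⟩
      map_add' := fun x y => rfl
      map_smul' := fun r x => rfl }
  have hApos : ∀ k, 0 < Ak S k := fun k => Ak_pos hS k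
  obtain ⟨w, hw⟩ : ∃ w : ℕ → ℝ, w = fun k => (Real.sqrt (Ak S k))⁻¹ := ⟨_, rfl⟩
  have hw2 : ∀ k, w k * (w k * Ak S k) = 1 := by
    intro k
    rw [hw, ← mul_assoc, ← mul_inv, Real.mul_self_sqrt (hApos k).le, inv_mul_cancel₀ (hApos k).ne']
  have hw0 : ∀ k, 0 < w k := fun k => by
    rw [hw]
    exact inv_pos.2 (Real.sqrt_pos.2 (hApos k))
  have hbfs : ∀ g k, fol1_fs (w k • (sh g (fk S k) - fk S k)) := fun g k =>
    fs_smul (fs_sub (fs_sh (fk_fs k) g) (fk_fs k)) _
  have hnrmsm : ∀ (a : ℝ) (f : H → ℝ), fol1_fs f → nrm (a • f) = |a| * nrm f := by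
    intro a f hf
    unfold nrm
    rw [ip_smul_left _ _ hf, ip_smul_right _ _ hf, ← mul_assoc,
      Real.sqrt_mul (mul_self_nonneg a), Real.sqrt_mul_self_eq_abs]
  have hsum : ∀ k, ∑ s ∈ S, fol1_ip (w k • (sh s (fk S k) - fk S k))
      (w k • (sh s (fk S k) - fk S k)) = 2 * S.card := by
    intro k
    have h2 : ∀ s ∈ S, fol1_ip (w k • (sh s (fk S k) - fk S k))
        (w k • (sh s (fk S k) - fk S k)) =
        w k * w k * fol1_ip (sh s (fk S k) - fk S k) (sh s (fk S k) - fk S k) := by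
      intro s _
      have hfs := fs_sub (fs_sh (fk_fs (S := S) k) s) (fk_fs (S := S) k)
      rw [ip_smul_left _ _ hfs, ip_smul_right _ _ hfs]
      ring
    rw [Finset.sum_congr rfl h2, ← Finset.mul_sum, En_self hS.ne (fk_fs k)]
    have := hw2 k
    unfold Ak at this
    linear_combination (2 * (S.card : ℝ)) * this
  have hbb : ∀ g, Bdd (fun k => nrm (w k • (sh g (fk S k) - fk S k))) := by
    intro g
    refine ⟨len S g * Real.sqrt (2 * S.card), fun k => ?_⟩
    rw [abs_of_nonneg (nrm_nonneg _)]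
    have e : w k • (sh g (fk S k) - fk S k) = sh g (w k • fk S k) - w k • fk S k := by
      rw [smul_sub]; rfl
    rw [e]
    refine nrm_path hS (fs_smul (fk_fs k) _) (Real.sqrt_nonneg _) (fun s hs => ?_) g
    have e2 : sh s (w k • fk S k) - w k • fk S k = w k • (sh s (fk S k) - fk S k) := by
      rw [smul_sub]; rfl
    rw [e2]
    refine Real.sqrt_le_sqrt ?_
    rw [← hsum k]
    exact Finset.single_le_sum (f := fun s => fol1_ip (w k • (sh s (fk S k) - fk S k))
      (w k • (sh s (fk S k) - fk S k))) (fun s _ => fol1_ip_nonneg _) hs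
  let b₀ : H → hxX H := fun g => ⟨fun k => w k • (sh g (fk S k) - fk S k),
    fun k => hbfs g k, hbb g⟩
  obtain ⟨V, j1, j2, j3, π, b, j, hc, hbj, hadd, hn⟩ := hx_core c ρ
    (fun x => Subtype.ext (funext fun k => sh_one _))
    (fun g h x => Subtype.ext (funext fun k => sh_mul g h _))
    (fun g x => by
      show ulim _ = ulim _
      congr 1
      funext k
      exact ip_sh g _ _)
    b₀
    (fun g h => Subtype.ext (funext fun k => by
      show w k • (sh (g * h) (fk S k) - fk S k) =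
        w k • (sh g (fk S k) - fk S k) + sh g (w k • (sh h (fk S k) - fk S k))
      rw [sh_mul]
      funext x
      simp only [sh, Pi.smul_apply, Pi.sub_apply, Pi.add_apply, smul_eq_mul]
      ring))
  have hj0 : j 0 = 0 := by
    have := hadd 0 0
    rw [add_zero] at this
    simpa using this
  have hjsum : ∀ T : Finset H, ∑ s ∈ T, b s = j (∑ s ∈ T, b₀ s) := by
    intro T
    classical
    induction T using Finset.induction_on with
    | empty => simp [hj0]
    | insert a T ha ih => rw [Finset.sum_insert ha, Finset.sum_insert ha, hadd, ih, hbj]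
  refine ⟨V, j1, j2, j3, π, b, hc, ?_, ?_⟩
  · rw [hjsum S, ← norm_eq_zero, ← sq_eq_zero_iff, hn]
    show ulim _ = 0
    refine ulim_eq ?_
    have e : ∀ k, ((∑ s ∈ S, b₀ s : hxX H) : ℕ → H → ℝ) k =
        (-(w k * S.card)) • gk S k := by
      intro k
      have hc0 : (S.card : ℝ) ≠ 0 := by exact_mod_cast hS.ne.card_pos.ne'
      rw [Submodule.coe_sum, Finset.sum_apply]
      show ∑ s ∈ S, w k • (sh s (fk S k) - fk S k) = _
      rw [← Finset.smul_sum, Finset.sum_sub_distrib, Finset.sum_const]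
      unfold gk
      rw [avg_eq_sum]
      funext x
      simp only [Pi.smul_apply, Pi.sub_apply, Finset.sum_apply, smul_eq_mul, nsmul_eq_mul,
        Pi.mul_apply, Pi.natCast_apply]
      field_simp
      ring
    have e2 : ∀ k, fol1_ip (((∑ s ∈ S, b₀ s : hxX H) : ℕ → H → ℝ) k)
        (((∑ s ∈ S, b₀ s : hxX H) : ℕ → H → ℝ) k) =
        (S.card : ℝ) ^ 2 * (w k ^ 2 * fol1_ip (gk S k) (gk S k)) := by
      intro k
      have hg : fol1_fs (gk S k) := fs_sub (fk_fs k) (fol1_fs_avg (fk_fs k))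
      rw [e k, ip_smul_left _ _ hg, ip_smul_right _ _ hg]
      ring
    have h3 : Tendsto (fun k => (S.card : ℝ) ^ 2 * (w k ^ 2 * fol1_ip (gk S k) (gk S k)))
        atTop (𝓝 0) := by
      have hc0 : (0 : ℝ) < S.card := by exact_mod_cast hS.ne.card_pos
      rw [Metric.tendsto_atTop]
      intro ε hε
      obtain ⟨η, hη⟩ : ∃ η : ℝ, η = ε / (S.card : ℝ) ^ 3 := ⟨_, rfl⟩
      have hη0 : 0 < η := by rw [hη]; positivity
      obtain ⟨k0, hk0⟩ := eventually_atTop.1 (Ak_ratio (S := S) hS hG hη0)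
      refine ⟨k0, fun k hk => ?_⟩
      have h4 := hk0 k hk
      have h5 := gk_le (S := S) hS h1 k
      have h6 : 0 ≤ fol1_ip (gk S k) (gk S k) := fol1_ip_nonneg _
      rw [Real.dist_0_eq_abs, abs_of_nonneg (by positivity)]
      have h7 : 2 * (S.card : ℝ)⁻¹ * fol1_ip (gk S k) (gk S k) ≤ η * Ak S k := by linarith
      have h8 : fol1_ip (gk S k) (gk S k) ≤ S.card / 2 * (η * Ak S k) := by
        have := mul_le_mul_of_nonneg_left h7 (by positivity : (0 : ℝ) ≤ S.card / 2)
        refine le_trans (le_of_eq ?_) this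
        field_simp
      have h9 : w k ^ 2 * fol1_ip (gk S k) (gk S k) ≤ S.card / 2 * η := by
        calc w k ^ 2 * fol1_ip (gk S k) (gk S k) ≤ w k ^ 2 * (S.card / 2 * (η * Ak S k)) :=
              mul_le_mul_of_nonneg_left h8 (by positivity)
          _ = S.card / 2 * η * (w k * (w k * Ak S k)) := by ring
          _ = S.card / 2 * η := by rw [hw2 k, mul_one]
      calc (S.card : ℝ) ^ 2 * (w k ^ 2 * fol1_ip (gk S k) (gk S k)) ≤
          (S.card : ℝ) ^ 2 * (S.card / 2 * η) := mul_le_mul_of_nonneg_left h9 (by positivity)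
        _ = ε / 2 := by rw [hη]; field_simp
        _ < ε := by linarith
    have h4 : (fun k => fol1_ip (((∑ s ∈ S, b₀ s : hxX H) : ℕ → H → ℝ) k)
        (((∑ s ∈ S, b₀ s : hxX H) : ℕ → H → ℝ) k)) =
        fun k => (S.card : ℝ) ^ 2 * (w k ^ 2 * fol1_ip (gk S k) (gk S k)) := funext e2
    rw [h4]
    exact h3.mono_left Nat.hyperfilter_le_atTop
  · by_contra hcon
    push Not at hcon
    have h2 : ∀ s ∈ S, Tendsto (fun k => fol1_ip (w k • (sh s (fk S k) - fk S k))
        (w k • (sh s (fk S k) - fk S k))) (hyperfilter ℕ : Filter ℕ) (𝓝 0) := by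
      intro s hs
      have h3 := hn (b₀ s)
      rw [← hbj, hcon s hs, norm_zero] at h3
      have h4 : ulim (fun k => fol1_ip (w k • (sh s (fk S k) - fk S k))
        (w k • (sh s (fk S k) - fk S k))) = 0 := by
        rw [← show (0 : ℝ) ^ 2 = 0 by norm_num]
        exact h3.symm
      have h5 := tendsto_ulim (hx_bdd (b₀ s).2 (b₀ s).2)
      have h6 : ulim (fun k => fol1_ip ((b₀ s : ℕ → H → ℝ) k) ((b₀ s : ℕ → H → ℝ) k)) = 0 := h4
      rw [h6] at h5
      exact h5
    have h3 := tendsto_finsetSum S h2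
    simp only [hsum, Finset.sum_const_zero] at h3
    have h4 := tendsto_nhds_unique h3 tendsto_const_nhds
    have hc0 : (0 : ℝ) < S.card := by exact_mod_cast hS.ne.card_pos
    linarith

end Vale.Agent.P188.H796

end

section

/-!
P188, Gromov-lite: real representations; from a harmonic cocycle to a finite-dimensional one.
-/

universe u v

open Filter Topology Pointwise

namespace Vale.Agent.P188.H796

open Vale.Agent.P188.SG

theorem real_virtAbelian {D : ℕ} {G : Type u} [Group G] [Group.FG G] (hG : GrowthLE G D)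
    {W : Type v} [NormedAddCommGroup W] [InnerProductSpace ℝ W] [FiniteDimensional ℝ W]
    (σ : G →* (W ≃ₗᵢ[ℝ] W)) :
    ∃ N : Subgroup G, N.FiniteIndex ∧ ∀ x ∈ N, ∀ y ∈ N, σ x * σ y = σ y * σ x := by
  classical
  let bs := stdOrthonormalBasis ℝ W
  let L : G →* (W →ₗ[ℝ] W) :=
    { toFun := fun g => (σ g).toLinearEquiv.toLinearMap
      map_one' := by rw [map_one]; rfl
      map_mul' := fun g h => by rw [map_mul]; rfl }
  let A : G →* Matrix (Fin (Module.finrank ℝ W)) (Fin (Module.finrank ℝ W)) ℝ :=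
    ((LinearMap.toMatrixOrthonormal bs : (W →ₗ[ℝ] W) ≃⋆ₐ[ℝ] _) : (W →ₗ[ℝ] W) →* _).comp L
  let B : G →* Matrix (Fin (Module.finrank ℝ W)) (Fin (Module.finrank ℝ W)) ℂ :=
    (RingHom.mapMatrix (m := Fin (Module.finrank ℝ W)) (algebraMap ℝ ℂ)).toMonoidHom.comp A
  let ρ : G →* (EuclideanSpace ℂ (Fin (Module.finrank ℝ W)) →L[ℂ]
      EuclideanSpace ℂ (Fin (Module.finrank ℝ W))) :=
    { toFun := fun g => Matrix.toEuclideanCLM (𝕜 := ℂ) (B g)
      map_one' := by rw [map_one, map_one]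
      map_mul' := fun g h => by rw [map_mul, map_mul] }
  have hA : ∀ g, A g = LinearMap.toMatrixOrthonormal bs (σ g).toLinearEquiv.toLinearMap :=
    fun g => rfl
  have hB : ∀ g, B g = (A g).map (algebraMap ℝ ℂ) := fun g => rfl
  have hρd : ∀ g, ρ g = Matrix.toEuclideanCLM (𝕜 := ℂ) (B g) := fun g => rfl
  have h1 : ∀ g, star (A g) * A g = 1 := by
    intro g
    rw [hA, ← map_star, ← map_mul]
    have : star (σ g).toLinearEquiv.toLinearMap * (σ g).toLinearEquiv.toLinearMap = 1 := by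
      refine LinearMap.ext fun x => ext_inner_left ℝ fun y => ?_
      show inner ℝ y (LinearMap.adjoint (σ g).toLinearEquiv.toLinearMap
        ((σ g).toLinearEquiv.toLinearMap x)) = inner ℝ y x
      rw [LinearMap.adjoint_inner_right]
      exact (σ g).inner_map_map y x
    rw [this, map_one]
  have h2 : ∀ g, star (B g) * B g = 1 := by
    intro g
    have h3 : star (B g) = (star (A g)).map (algebraMap ℝ ℂ) := by
      rw [hB]
      ext i j
      simp [Matrix.star_apply]
    rw [h3, hB, ← Matrix.map_mul, h1]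
    simp
  have hρ : IsoRep ρ := by
    intro g
    rw [ContinuousLinearMap.norm_map_iff_adjoint_comp_self]
    show star (ρ g) * ρ g = 1
    rw [hρd, ← map_star, ← map_mul, h2, map_one]
  obtain ⟨N, hN, hc⟩ := virtAbelian D _ G hG _ rfl ρ hρ
  refine ⟨N, hN, fun x hx y hy => ?_⟩
  have h3 := hc x hx y hy
  rw [← map_mul, ← map_mul, hρd, hρd] at h3
  have h4 := (Matrix.toEuclideanCLM (𝕜 := ℂ)).injective h3
  rw [hB, hB] at h4
  have h5 : A (x * y) = A (y * x) := by
    ext i j
    have := congrFun (congrFun h4 i) j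
    simpa using this
  rw [hA, hA] at h5
  have h6 := (LinearMap.toMatrixOrthonormal bs).injective h5
  rw [← map_mul, ← map_mul]
  exact LinearIsometryEquiv.ext fun v => LinearMap.congr_fun h6 v

/-- a nonzero finite-dimensional harmonic cocycle -/
theorem exists_fd_harmonic {H : Type u} [Group H] [Infinite H] {S : Finset H} (hS : SymGen S)
    (h1 : (1 : H) ∈ S) {D : ℕ} (hG : GrowthLE H D) :
    ∃ (W : Type u) (_ : NormedAddCommGroup W) (_ : InnerProductSpace ℝ W)
      (_ : FiniteDimensional ℝ W) (σ : H →* (W ≃ₗᵢ[ℝ] W)) (c : H → W), IsCocycle σ c ∧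
      ∑ s ∈ S, c s = 0 ∧ ∃ s ∈ S, c s ≠ 0 := by
  obtain ⟨V, i1, i2, i3, π, b, hb, hh, s₀, hs₀, hbs₀⟩ := exists_harmonic hS h1 hG
  have hcau := cautious_of_growth hS hG
  have h2 : ¬ ∀ s ∈ S, FDOrth π (b s) := fun ho =>
    hbs₀ (harmonic_eq_zero hS hcau π b hb hh ho s₀)
  push Not at h2
  obtain ⟨s, hs, ho⟩ := h2
  unfold FDOrth at ho
  push Not at ho
  obtain ⟨W, hWf, hWi, w, hw, hin⟩ := ho
  let σ : H →* (W ≃ₗᵢ[ℝ] W) :=
    { toFun := fun g =>
        { toLinearEquiv := LinearEquiv.ofLinearMap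
            ((π g).toLinearEquiv.toLinearMap.restrict (hWi g))
            ((π g⁻¹).toLinearEquiv.toLinearMap.restrict (hWi g⁻¹))
            (LinearMap.ext fun x => Subtype.ext (by
              show (π g * π g⁻¹) (x : V) = x
              rw [← map_mul, mul_inv_cancel, map_one]
              rfl))
            (LinearMap.ext fun x => Subtype.ext (by
              show (π g⁻¹ * π g) (x : V) = x
              rw [← map_mul, inv_mul_cancel, map_one]
              rfl))
          norm_map' := fun x => (π g).norm_map (x : V) }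
      map_one' := by
        refine LinearIsometryEquiv.ext fun x => Subtype.ext ?_
        show π 1 (x : V) = x
        rw [map_one]; rfl
      map_mul' := fun g h => by
        refine LinearIsometryEquiv.ext fun x => Subtype.ext ?_
        show π (g * h) (x : V) = π g (π h (x : V))
        rw [map_mul]; rfl }
  have hpc : ∀ g v, W.starProjection (π g v) = π g (W.starProjection v) :=
    fun g v => fd_proj_comm π W hWi g v
  let c : H → W := fun g => ⟨W.starProjection (b g), W.starProjection_apply_mem _⟩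
  refine ⟨W, inferInstance, inferInstance, hWf, σ, c, fun g h => Subtype.ext ?_,
    Subtype.ext ?_, s, hs, fun h0 => hin ?_⟩
  · show W.starProjection (b (g * h)) = W.starProjection (b g) + π g (W.starProjection (b h))
    rw [hb g h, map_add, hpc]
  · rw [Submodule.coe_sum]
    show ∑ s ∈ S, W.starProjection (b s) = 0
    rw [← map_sum, hh, map_zero]
  · have h3 : W.starProjection (b s) = 0 := congrArg Subtype.val h0
    rw [real_inner_comm, ← Submodule.starProjection_inner_eq_zero (K := W) (b s) w hw, h3,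
      sub_zero]

end Vale.Agent.P188.H796

end

section

/-!
`Adn (Ex X) = exp (ad X)`; nilpotency of the Lie algebra.
-/

open Finset Filter Topology

universe u v w

namespace Vale.Agent.P188.H796

section alg

variable {A : Type v} [NormedRing A] [NormedAlgebra ℝ A] [FiniteDimensional ℝ A] {m : ℕ}

/-- commutator with `x` as a continuous linear map -/
noncomputable def adA (x : A) : A →L[ℝ] A :=
  ContinuousLinearMap.mul ℝ A x - (ContinuousLinearMap.mul ℝ A).flip x

omit [FiniteDimensional ℝ A] in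
theorem adA_apply (x y : A) : adA x y = x * y - y * x := rfl

omit [FiniteDimensional ℝ A] in
theorem adA_pow {x : A} (hx : x ^ m = 0) : (adA x) ^ (2 * m) = 0 := by
  have h1 : ∀ k : ℕ, ∀ y, ((ContinuousLinearMap.mul ℝ A x) ^ k) y = x ^ k * y := by
    intro k
    induction k with
    | zero => intro y; simp
    | succ k ih =>
      intro y
      rw [pow_succ, _root_.mul_apply_eq_comp, ContinuousLinearMap.mul_apply', ih, pow_succ,
        mul_assoc]
  have h2 : ∀ k : ℕ, ∀ y, ((-((ContinuousLinearMap.mul ℝ A).flip x)) ^ k) y = y * (-x) ^ k := by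
    intro k
    induction k with
    | zero => intro y; simp
    | succ k ih =>
      intro y
      rw [pow_succ, _root_.mul_apply_eq_comp]
      have : (-((ContinuousLinearMap.mul ℝ A).flip x)) y = y * (-x) := by simp
      rw [this, ih, pow_succ', mul_assoc]
  have h3 : Commute (ContinuousLinearMap.mul ℝ A x) (-((ContinuousLinearMap.mul ℝ A).flip x)) := by
    ext y
    simp [mul_assoc]
  have h4 : adA x = ContinuousLinearMap.mul ℝ A x + (-((ContinuousLinearMap.mul ℝ A).flip x)) :=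
    sub_eq_add_neg _ _
  rw [h4]
  refine h3.add_pow_eq_zero_of_add_le_succ_of_pow_eq_zero (m := m) (n := m) ?_ ?_ (by omega)
  · ext y
    rw [h1, hx]; simp
  · ext y
    rw [h2, neg_pow, hx]; simp

/-- `exp(x) y exp(-x) = exp(ad x) y` -/
theorem ex_mul_mul_ex_neg (hm : 0 < m) {x : A} (hx : x ^ m = 0) (y : A) :
    ex m x * y * ex m (-x) = ∑ k ∈ range (2 * m), ((k.factorial : ℝ)⁻¹) • ((adA x) ^ k) y := by
  let M := ContinuousLinearMap.mul ℝ A
  let f : ℝ → (A →L[ℝ] A) := fun t => (M (ex m (t • x))).comp (M.flip (ex m ((-t) • x)))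
  have hf : ∀ t, HasDerivAt f (f t * adA x) t := by
    intro t
    have e1 : HasDerivAt (fun t => M (ex m (t • x))) (M (ex m (t • x) * x)) t :=
      (M.hasFDerivAt.comp_hasDerivAt t (hasDerivAt_ex hx t))
    have e2 : HasDerivAt (fun t => M.flip (ex m ((-t) • x))) (M.flip (-(x * ex m ((-t) • x)))) t :=
      (M.flip.hasFDerivAt.comp_hasDerivAt t (hasDerivAt_ex_neg hx t))
    have e3 := e1.clm_comp e2
    refine e3.congr_deriv ?_
    ext y
    simp only [_root_.add_apply, ContinuousLinearMap.comp_apply, f,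
      _root_.mul_apply_eq_comp, adA_apply, M, ContinuousLinearMap.flip_apply,
      ContinuousLinearMap.mul_apply', mul_neg]
    rw [sub_mul, mul_sub, sub_eq_add_neg]
    simp only [mul_assoc]
  have h := ode_unique (m := 2 * m) (by omega) (adA_pow hx) hf 1
  have hz : ex m (0 : A) = 1 := by
    have := ex_zero_smul hm (0 : A)
    rwa [smul_zero] at this
  have h0 : f 0 = 1 := by
    ext y
    simp [f, M, hz]
  have h1 : f 1 y = ex m x * y * ex m (-x) := by
    simp [f, M, mul_assoc]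
  rw [← h1, h, h0, one_mul, one_smul, ex]
  simp only [_root_.sum_apply, _root_.smul_apply]

end alg

namespace RD

variable {N : Type u} [Group N] {d n : ℕ} {D : MB N d n} {A : Type v} [NormedRing A]
  [NormedAlgebra ℝ A] [FiniteDimensional ℝ A] (R : RD D A)

theorem coe_ad_pow (X : R.V) (k : ℕ) (v : R.V) :
    ((((LieAlgebra.ad ℝ R.V X) ^ k) v : R.V) : A) = ((adA (X : A)) ^ k) (v : A) := by
  induction k generalizing v with
  | zero => simp
  | succ k ih =>
    rw [pow_succ, pow_succ, Module.End.mul_apply, _root_.mul_apply_eq_comp, ih]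
    rfl

theorem ad_pow (X : R.V) : (LieAlgebra.ad ℝ R.V X) ^ (2 * R.m) = 0 := by
  ext v
  rw [coe_ad_pow, adA_pow (R.J_nil X.2.1)]
  rfl

/-- the adjoint action of `Ex X` is `exp (ad X)` -/
theorem Adn_Ex (X v : R.V) : R.Adn (R.Ex X) v =
    ∑ k ∈ range (2 * R.m), ((k.factorial : ℝ)⁻¹) • ((LieAlgebra.ad ℝ R.V X) ^ k) v := by
  apply Subtype.ext
  have h1 : (((R.EU (R.Ex X))⁻¹ : Aˣ) : A) = ex R.m (-(X : A)) := by
    rw [← R.toA_inv, ← R.Ex_neg]
    exact R.toA_Ex (-X)
  have h2 : R.E (R.Ex X) = ex R.m (X : A) := R.toA_Ex X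
  rw [coe_Adn, h1, h2, ex_mul_mul_ex_neg R.hm0 (R.J_nil X.2.1), Submodule.coe_sum]
  refine sum_congr rfl fun k _ => ?_
  rw [Submodule.coe_smul, coe_ad_pow]

theorem Adn_eq (s : R.NR) (v : R.V) : R.Adn s v =
    ∑ k ∈ range (2 * R.m), ((k.factorial : ℝ)⁻¹) • ((LieAlgebra.ad ℝ R.V (R.Lo s)) ^ k) v := by
  conv_lhs => rw [← R.Ex_Lo s]
  exact R.Adn_Ex _ v

theorem Adn_sub_mem (s : R.NR) (I : LieIdeal ℝ R.V) {x : R.V} (hx : x ∈ I) :
    R.Adn s x - x ∈ (⁅(⊤ : LieIdeal ℝ R.V), I⁆ : LieIdeal ℝ R.V) := by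
  have hk : ∀ k, ((LieAlgebra.ad ℝ R.V (R.Lo s)) ^ k) x ∈ I := by
    intro k
    induction k with
    | zero => simpa using hx
    | succ k ih =>
      rw [pow_succ', Module.End.mul_apply]
      exact I.lie_mem ih
  obtain ⟨M, hM⟩ : ∃ M, 2 * R.m = M + 1 := ⟨2 * R.m - 1, by have := R.hm0; omega⟩
  rw [Adn_eq, hM, sum_range_succ']
  simp only [Nat.factorial_zero, Nat.cast_one, inv_one, pow_zero, one_smul, Module.End.one_apply,
    add_sub_cancel_right]
  refine Submodule.sum_mem (⁅(⊤ : LieIdeal ℝ R.V), I⁆ : LieIdeal ℝ R.V).toSubmodule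
    fun k _ => ?_
  refine Submodule.smul_mem (⁅(⊤ : LieIdeal ℝ R.V), I⁆ : LieIdeal ℝ R.V).toSubmodule _ ?_
  rw [pow_succ', Module.End.mul_apply]
  exact LieSubmodule.lie_mem_lie (LieSubmodule.mem_top _) (hk k)

instance : LieModule.IsNilpotent R.V R.V := by
  have : LieRing.IsNilpotent R.V := by
    rw [LieAlgebra.isNilpotent_iff_forall (R := ℝ)]
    intro x
    exact ⟨2 * R.m, R.ad_pow x⟩
  exact this

end RD

end Vale.Agent.P188.H796

end

section

/-!
P188, Gromov-lite: an infinite group of polynomial growth virtually maps onto `ℤ`.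
-/

universe u v

open Filter Topology Pointwise

namespace Vale.Agent.P188.H796

open Vale.Agent.P188.SG

theorem surj_of_infinite_add {B : Type u} [AddCommGroup B] [Module.Finite ℤ B] [Infinite B] :
    ∃ φ : B →+ ℤ, Function.Surjective φ := by
  by_cases hsub : Subsingleton (B ⧸ Submodule.torsion ℤ B)
  · exfalso
    rw [Submodule.Quotient.subsingleton_iff] at hsub
    have h1 : Module.IsTorsion ℤ B := by
      intro x
      have h2 : x ∈ Submodule.torsion ℤ B := by rw [hsub]; trivial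
      exact h2
    have := Module.finite_of_fg_torsion B h1
    exact not_finite B
  · rw [not_subsingleton_iff_nontrivial] at hsub
    let bs := Module.Free.chooseBasis ℤ (B ⧸ Submodule.torsion ℤ B)
    have hne : Nonempty (Module.Free.ChooseBasisIndex ℤ (B ⧸ Submodule.torsion ℤ B)) :=
      bs.index_nonempty
    obtain ⟨i⟩ := hne
    refine ⟨((bs.coord i).comp (Submodule.torsion ℤ B).mkQ).toAddMonoidHom, fun n => ?_⟩
    obtain ⟨x, hx⟩ := (Submodule.torsion ℤ B).mkQ_surjective (n • bs i)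
    refine ⟨x, ?_⟩
    show bs.coord i ((Submodule.torsion ℤ B).mkQ x) = n
    rw [hx]
    simp

/-- a finitely generated group with an infinite commutative image maps onto `ℤ` -/
theorem surj_of_infinite_comm {K : Type u} [Group K] [Group.FG K] {A : Type v} [Group A]
    (f : K →* A) (hc : ∀ x y, f x * f y = f y * f x) (hinf : ¬ Finite f.range) :
    ∃ φ : K →* Multiplicative ℤ, Function.Surjective φ := by
  let _ : CommGroup f.range :=
    { (inferInstance : Group f.range) with
      mul_comm := by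
        rintro ⟨_, x, rfl⟩ ⟨_, y, rfl⟩
        exact Subtype.ext (hc x y) }
  have h1 : Group.FG f.range := Group.fg_of_surjective f.rangeRestrict_surjective
  have h2 : AddGroup.FG (Additive f.range) := GroupFG.iff_add_fg.1 h1
  have h3 : Module.Finite ℤ (Additive f.range) := Module.Finite.iff_addGroup_fg.2 h2
  have h4 : Infinite (Additive f.range) := not_finite_iff_infinite.1 hinf
  obtain ⟨φ, hφ⟩ := surj_of_infinite_add (B := Additive f.range)
  refine ⟨(AddMonoidHom.toMultiplicativeRight φ).comp f.rangeRestrict, fun n => ?_⟩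
  obtain ⟨x, hx⟩ := hφ (Multiplicative.toAdd n)
  obtain ⟨y, hy⟩ := f.rangeRestrict_surjective (Additive.toMul x)
  refine ⟨y, ?_⟩
  rw [MonoidHom.comp_apply, hy]
  show Multiplicative.ofAdd (φ x) = n
  rw [hx]
  rfl

/-- an infinite finitely generated group of polynomial growth has a finite index subgroup
mapping onto `ℤ` -/
theorem exists_onto {H : Type u} [Group H] [Group.FG H] [Infinite H] {D : ℕ}
    (hG : GrowthLE H D) :
    ∃ K : Subgroup H, K.FiniteIndex ∧ ∃ φ : K →* Multiplicative ℤ, Function.Surjective φ := by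
  classical
  obtain ⟨S₀, hS₀⟩ := (Group.fg_def (G := H)).1 inferInstance
  obtain ⟨S, hS, h1⟩ : ∃ S : Finset H, SymGen S ∧ (1 : H) ∈ S := by
    refine ⟨insert 1 (S₀ ∪ S₀.image fun x => x⁻¹), ⟨⟨1, Finset.mem_insert_self _ _⟩, ?_, ?_⟩,
      Finset.mem_insert_self _ _⟩
    · intro s hs
      simp only [Finset.mem_insert, Finset.mem_union, Finset.mem_image] at hs ⊢
      rcases hs with h | h | ⟨y, hy, rfl⟩
      · exact Or.inl (by rw [h, inv_one])
      · exact Or.inr (Or.inr ⟨s, h, rfl⟩)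
      · exact Or.inr (Or.inl (by rwa [inv_inv]))
    · rw [eq_top_iff, ← hS₀]
      refine Subgroup.closure_mono fun x hx => ?_
      exact Finset.mem_coe.2 (Finset.mem_insert_of_mem (Finset.mem_union_left _ hx))
  obtain ⟨W, i1, i2, i3, σ, c, hc, hh, s₀, hs₀, hcs₀⟩ := exists_fd_harmonic hS h1 hG
  by_cases hK : σ.ker.FiniteIndex
  · refine ⟨σ.ker, hK, ?_⟩
    have hKfg : Group.FG σ.ker := Subgroup.fg_of_index_ne_zero _
    have hcK : ∀ g : H, ∀ k ∈ σ.ker, c (g * k) = c g + σ g (c k) := fun g k _ => hc g k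
    let f : σ.ker →* Multiplicative W :=
      { toFun := fun k => Multiplicative.ofAdd (c k)
        map_one' := by
          show Multiplicative.ofAdd (c ((1 : σ.ker) : H)) = 1
          rw [Subgroup.coe_one, EO_one hc, ofAdd_zero]
        map_mul' := fun g h => by
          show Multiplicative.ofAdd (c ((g : H) * h)) =
            Multiplicative.ofAdd (c g) * Multiplicative.ofAdd (c h)
          have hg : σ (g : H) = 1 := g.2
          rw [hc, hg, ← ofAdd_add]
          rfl }
    refine surj_of_infinite_comm f (fun x y => mul_comm _ _) fun hfin => ?_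
    -- the cocycle vanishes on the kernel
    have h0 : ∀ k ∈ σ.ker, c k = 0 := by
      intro k hk
      obtain ⟨n, hn, hk1⟩ := isOfFinOrder_iff_pow_eq_one.1
        (isOfFinOrder_of_finite (f.rangeRestrict ⟨k, hk⟩))
      have hk2 : (f ⟨k, hk⟩) ^ n = 1 := by
        have := congrArg Subtype.val hk1
        simpa using this
      have hk3 : n • c k = 0 := by
        have : Multiplicative.ofAdd (n • c k) = 1 := by
          rw [ofAdd_nsmul]
          exact hk2
        exact this
      rw [← Nat.cast_smul_eq_nsmul ℝ] at hk3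
      rcases smul_eq_zero.1 hk3 with h | h
      · exact absurd h (by exact_mod_cast hn.ne')
      · exact h
    -- so it takes finitely many values
    have hfr : (Set.range c).Finite := by
      have : Finite (H ⧸ σ.ker) := Subgroup.finite_quotient_of_finiteIndex
      let F : H ⧸ σ.ker → W := Quotient.lift c (by
        intro a b hab
        have h2 : a⁻¹ * b ∈ σ.ker := QuotientGroup.leftRel_apply.1 hab
        have h3 := hc a (a⁻¹ * b)
        rw [mul_inv_cancel_left, h0 _ h2, map_zero, add_zero] at h3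
        exact h3.symm)
      refine (Set.finite_range F).subset ?_
      rintro _ ⟨g, rfl⟩
      exact ⟨QuotientGroup.mk g, rfl⟩
    obtain ⟨_, ⟨g, rfl⟩, hg⟩ := Set.exists_max_image (Set.range c) (fun v => ‖v‖ ^ 2) hfr
      ⟨c 1, 1, rfl⟩
    have h2 : ∀ s ∈ S, ‖c (g * s)‖ ^ 2 =
        ‖c g‖ ^ 2 + 2 * inner ℝ (c g) (σ g (c s)) + ‖c s‖ ^ 2 := by
      intro s _
      rw [hc g s, norm_add_sq_real, LinearIsometryEquiv.norm_map]
    have h3 : ∑ s ∈ S, ‖c (g * s)‖ ^ 2 = S.card * ‖c g‖ ^ 2 + ∑ s ∈ S, ‖c s‖ ^ 2 := by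
      rw [Finset.sum_congr rfl h2, Finset.sum_add_distrib, Finset.sum_add_distrib,
        ← Finset.mul_sum, ← inner_sum, ← map_sum, hh, map_zero, inner_zero_right, mul_zero,
        add_zero, Finset.sum_const, nsmul_eq_mul]
    have h4 : ∑ s ∈ S, ‖c (g * s)‖ ^ 2 ≤ S.card * ‖c g‖ ^ 2 := by
      have := Finset.sum_le_card_nsmul S (fun s => ‖c (g * s)‖ ^ 2) (‖c g‖ ^ 2)
        (fun s _ => hg _ ⟨g * s, rfl⟩)
      rwa [nsmul_eq_mul] at this
    have h5 : ‖c s₀‖ ^ 2 ≤ ∑ s ∈ S, ‖c s‖ ^ 2 :=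
      Finset.single_le_sum (f := fun s => ‖c s‖ ^ 2) (fun s _ => by positivity) hs₀
    have h6 : ‖c s₀‖ ^ 2 ≤ 0 := by linarith
    have h7 : 0 < ‖c s₀‖ := norm_pos_iff.2 hcs₀
    nlinarith
  · obtain ⟨N, hN, hcomm⟩ := real_virtAbelian hG σ
    refine ⟨N, hN, ?_⟩
    have hNfg : Group.FG N := Subgroup.fg_of_index_ne_zero _
    refine surj_of_infinite_comm (σ.comp N.subtype) (fun x y => hcomm x x.2 y y.2)
      fun hfin => hK ?_
    have h2 : (σ.comp N.subtype).ker.FiniteIndex := Subgroup.finiteIndex_ker _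
    have h3 : (σ.comp N.subtype).ker = σ.ker.subgroupOf N := rfl
    rw [h3] at h2
    have h4 : (σ.ker ⊓ N).FiniteIndex := by
      refine ⟨?_⟩
      rw [← Subgroup.relIndex_mul_index (inf_le_right : σ.ker ⊓ N ≤ N), Subgroup.inf_relIndex_right]
      exact mul_ne_zero h2.index_ne_zero hN.index_ne_zero
    exact Subgroup.finiteIndex_of_le (inf_le_left : σ.ker ⊓ N ≤ σ.ker)

end Vale.Agent.P188.H796

end

section

/-!
The adjoint representation of `S` satisfies the hypotheses of the weight decomposition.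
-/

open Finset Filter Topology
open scoped commutatorElement

universe u v w

namespace Vale.Agent.P188.H796

variable {Γ : Type u} [Group Γ] {N : Subgroup Γ} [hN : N.Normal] {d n : ℕ} (D : MB N d n)

/-- the adjoint representation as a homomorphism to endomorphisms -/
noncomputable def MB.AdE : D.S →* Module.End ℝ D.R.V :=
  (LinearEquiv.automorphismGroup.toLinearMapMonoidHom).comp D.Ad

theorem MB.AdE_apply (s : D.S) (v : D.R.V) : D.AdE s v = D.Ad s v := rfl

instance MB.normal_inN : (D.inN : D.R.NR →* D.S).range.Normal := D.P.range_inK_normal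

theorem MB.comm_mem (habel : ∀ a b : Γ, ⁅a, b⁆ ∈ N) (s s' : D.S) :
    ⁅s, s'⁆ ∈ (D.inN : D.R.NR →* D.S).range := by
  have hq : ∀ k : D.R.NR, (QuotientGroup.mk' (D.inN : D.R.NR →* D.S).range) (D.inN k) = 1 := by
    intro k
    rw [QuotientGroup.mk'_apply, QuotientGroup.eq_one_iff]
    exact ⟨k, rfl⟩
  obtain ⟨k, g, rfl⟩ := D.P.exists_eq s
  obtain ⟨k', g', rfl⟩ := D.P.exists_eq s'
  rw [← QuotientGroup.eq_one_iff, ← QuotientGroup.mk'_apply, map_commutatorElement, map_mul,
    map_mul]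
  have h1 := hq k
  have h2 := hq k'
  change ⁅(QuotientGroup.mk' (D.inN : D.R.NR →* D.S).range) (D.inN k) * _,
    (QuotientGroup.mk' (D.inN : D.R.NR →* D.S).range) (D.inN k') * _⁆ = 1
  rw [h1, h2, one_mul, one_mul, ← map_commutatorElement, ← map_commutatorElement]
  have h3 := D.P.inG_coe ⟨⁅g, g'⁆, habel g g'⟩
  simp only at h3
  rw [h3]
  exact hq _

theorem MB.lrep (habel : ∀ a b : Γ, ⁅a, b⁆ ∈ N) :
    H269.LRep (D.inN : D.R.NR →* D.S).range D.AdE where
  comm := D.comm_mem habel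
  lie := fun g x y => D.Ad_lie g x y
  unip := by
    rintro _ ⟨s, rfl⟩ I x hx
    rw [D.AdE_apply, D.Ad_inN]
    exact D.R.Adn_sub_mem s I hx
  nil := inferInstance

omit hN in
theorem comm_mem_ker {k : ℕ} (η : Γ →* Multiplicative (Fin k → ℤ)) (a b : Γ) :
    ⁅a, b⁆ ∈ η.ker := by
  rw [MonoidHom.mem_ker, map_commutatorElement, commutatorElement_eq_one_iff_mul_comm, mul_comm]

/-- the projection of `S` to `ℤ^k` -/
noncomputable def MB.θ {k : ℕ} (η : Γ →* Multiplicative (Fin k → ℤ)) (D : MB η.ker d n) :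
    D.S →* Multiplicative (Fin k → ℤ) :=
  D.P.lift η (fun x => x.2)

theorem MB.θ_inN {k : ℕ} (η : Γ →* Multiplicative (Fin k → ℤ)) (D : MB η.ker d n) (s : D.R.NR) :
    D.θ η (D.inN s) = 1 := D.P.lift_inK _ _ s

theorem MB.θ_inΓ {k : ℕ} (η : Γ →* Multiplicative (Fin k → ℤ)) (D : MB η.ker d n) (g : Γ) :
    D.θ η (D.inΓ g) = η g := D.P.lift_inG _ _ g

theorem MB.θ_ker {k : ℕ} (η : Γ →* Multiplicative (Fin k → ℤ)) (D : MB η.ker d n) :
    (D.θ η).ker = (D.inN : D.R.NR →* D.S).range := by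
  ext s
  rw [MonoidHom.mem_ker]
  exact D.P.ker_lift η rfl s

end Vale.Agent.P188.H796

end

section

/-!
P188: finitely generated groups of polynomial growth are virtually polycyclic
(a weak form of Gromov's theorem, after Kleiner, Shalom and Ozawa).
-/

universe u v

open Pointwise

namespace Vale.Agent.P188.H796

theorem ker_fg {K : Type u} [Group K] [Group.FG K] {D : ℕ} (hG : GrowthLE K D)
    (φ : K →* Multiplicative ℤ) (t : K) (ht : φ t = Multiplicative.ofAdd 1) :
    Group.FG φ.ker := by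
  classical
  obtain ⟨S, hS⟩ := (Group.fg_def (G := K)).1 inferInstance
  have htk : ∀ k : ℤ, φ (t ^ k) = Multiplicative.ofAdd k := fun k => by
    rw [map_zpow, ht, ← ofAdd_zsmul, smul_eq_mul, mul_one]
  obtain ⟨es, hes⟩ : ∃ es : K → K, ∀ s, es s = s * (t ^ (Multiplicative.toAdd (φ s)))⁻¹ :=
    ⟨_, fun _ => rfl⟩
  have hesk : ∀ s, es s ∈ φ.ker := fun s => by
    rw [MonoidHom.mem_ker, hes, map_mul, map_inv, htk]
    simp
  choose T hT1 hT2 using fun s : K => milnor_two hG t (es s)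
  obtain ⟨M, hM⟩ : ∃ M : Subgroup K, M = Subgroup.closure ((S.biUnion T : Finset K) : Set K) :=
    ⟨_, rfl⟩
  have hMk : M ≤ φ.ker := by
    rw [hM, Subgroup.closure_le]
    intro x hx
    rw [Finset.mem_coe, Finset.mem_biUnion] at hx
    obtain ⟨s, -, hx⟩ := hx
    obtain ⟨k, rfl⟩ := hT1 s x hx
    have := φ.normal_ker.conj_mem (es s) (hesk s) (t ^ k)
    exact this
  have hcj : ∀ s ∈ S, ∀ k : ℤ, t ^ k * es s * (t ^ k)⁻¹ ∈ M := by
    intro s hs k
    rw [hM]
    refine Subgroup.closure_mono ?_ (hT2 s k)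
    intro x hx
    exact Finset.mem_coe.2 (Finset.mem_biUnion.2 ⟨s, hs, hx⟩)
  have hMt : ∀ k : ℤ, ∀ x ∈ M, t ^ k * x * (t ^ k)⁻¹ ∈ M := by
    intro k x hx
    rw [hM] at hx
    induction hx using Subgroup.closure_induction with
    | mem x hx =>
      rw [Finset.mem_coe, Finset.mem_biUnion] at hx
      obtain ⟨s, hs, hx⟩ := hx
      obtain ⟨l, rfl⟩ := hT1 s x hx
      have := hcj s hs (k + l)
      have e : t ^ k * (t ^ l * es s * (t ^ l)⁻¹) * (t ^ k)⁻¹ =
          t ^ (k + l) * es s * (t ^ (k + l))⁻¹ := by rw [zpow_add]; group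
      rwa [e]
    | one => simp
    | mul x y _ _ hx hy =>
      have : t ^ k * (x * y) * (t ^ k)⁻¹ = (t ^ k * x * (t ^ k)⁻¹) * (t ^ k * y * (t ^ k)⁻¹) := by
        group
      rw [this]
      exact Subgroup.mul_mem _ hx hy
    | inv x _ hx =>
      have : t ^ k * x⁻¹ * (t ^ k)⁻¹ = (t ^ k * x * (t ^ k)⁻¹)⁻¹ := by group
      rw [this]
      exact Subgroup.inv_mem _ hx
  -- every element is in `M t ^ k`
  have hdec : ∀ x : K, ∃ k : ℤ, x * (t ^ k)⁻¹ ∈ M := by
    intro x
    have hx : x ∈ Subgroup.closure (S : Set K) := by rw [hS]; trivial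
    induction hx using Subgroup.closure_induction with
    | mem s hs =>
      refine ⟨Multiplicative.toAdd (φ s), ?_⟩
      have := hcj s hs 0
      rw [hes] at this
      simpa using this
    | one => exact ⟨0, by simp⟩
    | mul x y _ _ hx hy =>
      obtain ⟨k, hk⟩ := hx
      obtain ⟨l, hl⟩ := hy
      refine ⟨k + l, ?_⟩
      have e : x * y * (t ^ (k + l))⁻¹ = (x * (t ^ k)⁻¹) * (t ^ k * (y * (t ^ l)⁻¹) * (t ^ k)⁻¹) := by
        rw [zpow_add]; group
      rw [e]
      exact M.mul_mem hk (hMt k _ hl)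
    | inv x _ hx =>
      obtain ⟨k, hk⟩ := hx
      refine ⟨-k, ?_⟩
      have e : x⁻¹ * (t ^ (-k))⁻¹ = t ^ (-k) * (x * (t ^ k)⁻¹)⁻¹ * (t ^ (-k))⁻¹ := by
        rw [zpow_neg]; group
      rw [e]
      exact hMt (-k) _ (M.inv_mem hk)
  have hker : M = φ.ker := by
    refine le_antisymm hMk fun x hx => ?_
    obtain ⟨k, hk⟩ := hdec x
    have h1 := hMk hk
    rw [MonoidHom.mem_ker, map_mul, map_inv, htk, MonoidHom.mem_ker.1 hx, one_mul, inv_eq_one] at h1
    have h2 : k = 0 := h1
    rw [h2] at hk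
    simpa using hk
  refine (Group.fg_iff_subgroup_fg _).2 ⟨S.biUnion T, ?_⟩
  rw [← hM, hker]

theorem ker_growth {K : Type u} [Group K] {D : ℕ} (hG : GrowthLE K D)
    (φ : K →* Multiplicative ℤ) (t : K) (ht : φ t = Multiplicative.ofAdd 1) :
    ∃ D', D = D' + 1 ∧ GrowthLE φ.ker D' := by
  classical
  have htk : ∀ k : ℕ, φ (t ^ k) = Multiplicative.ofAdd (k : ℤ) := fun k => by
    rw [map_pow, ht, ← ofAdd_nsmul, nsmul_eq_mul, mul_one]
  have key : ∀ F : Set φ.ker, F.Finite → (1 : φ.ker) ∈ F → ∃ C : ℕ, ∀ n : ℕ,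
      (n + 1) * (F ^ n).ncard ≤ C * (n + 1) ^ D := by
    intro F hF hF1
    obtain ⟨C, hC⟩ := hG (insert t (Subtype.val '' F)) ((hF.image _).insert _)
    refine ⟨C * 2 ^ D, fun n => ?_⟩
    have h1 : ((Set.Iic n ×ˢ (F ^ n)).image fun p : ℕ × φ.ker => (p.2 : K) * t ^ p.1) ⊆
        (insert t (Subtype.val '' F)) ^ (2 * n) := by
      rintro _ ⟨⟨k, x⟩, ⟨hk, hx⟩, rfl⟩
      simp only [Set.mem_Iic] at hk
      have hx' : (x : K) ∈ (Subtype.val '' F) ^ n := by
        have : (x : K) ∈ (φ.ker.subtype '' F) ^ n := by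
          rw [← Set.image_pow]
          exact ⟨x, hx, rfl⟩
        exact this
      have h2 : (x : K) ∈ (insert t (Subtype.val '' F)) ^ n :=
        Set.pow_subset_pow_left (Set.subset_insert _ _) hx'
      have h3 : t ^ k ∈ (insert t (Subtype.val '' F)) ^ k :=
        Set.pow_mem_pow (Set.mem_insert _ _)
      have h4 : t ^ k ∈ (insert t (Subtype.val '' F)) ^ n :=
        Set.pow_subset_pow_right
          (Set.mem_insert_of_mem t (⟨1, hF1, rfl⟩ : (1 : K) ∈ Subtype.val '' F)) hk h3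
      rw [two_mul, pow_add]
      exact Set.mul_mem_mul h2 h4
    have hinj : Set.InjOn (fun p : ℕ × φ.ker => (p.2 : K) * t ^ p.1)
        (Set.Iic n ×ˢ (F ^ n)) := by
      rintro ⟨k, x⟩ - ⟨l, y⟩ - he
      simp only at he
      have h2 := congrArg φ he
      rw [map_mul, map_mul, htk, htk, MonoidHom.mem_ker.1 x.2, MonoidHom.mem_ker.1 y.2, one_mul,
        one_mul] at h2
      have h3 : (k : ℤ) = l := Multiplicative.ofAdd.injective h2
      have h4 : k = l := by exact_mod_cast h3
      subst h4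
      rw [mul_left_inj] at he
      rw [Subtype.ext he]
    have h2 := Set.ncard_le_ncard h1 (finite_pow ((hF.image _).insert _) _)
    rw [hinj.ncard_image, Set.ncard_prod] at h2
    have h3 : (Set.Iic n).ncard = n + 1 := by
      rw [Set.ncard_eq_toFinset_card']
      simp
    rw [h3] at h2
    refine (h2.trans (hC (2 * n))).trans ?_
    rw [mul_assoc, ← mul_pow]
    exact Nat.mul_le_mul_left _ (Nat.pow_le_pow_left (by omega) _)
  rcases D with _ | D
  · exfalso
    obtain ⟨C, hC⟩ := key {1} (Set.finite_singleton _) rfl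
    have h1 := hC (C + 1)
    simp at h1
  · refine ⟨D, rfl, fun F hF => ?_⟩
    obtain ⟨C, hC⟩ := key (insert 1 F) (hF.insert _) (Set.mem_insert _ _)
    refine ⟨C, fun n => ?_⟩
    have h1 := hC n
    have h2 : (F ^ n).ncard ≤ ((insert 1 F) ^ n).ncard :=
      Set.ncard_le_ncard (Set.pow_subset_pow_left (Set.subset_insert _ _))
        (finite_pow (hF.insert _) _)
    refine h2.trans ?_
    have h3 : (n + 1) * ((insert 1 F) ^ n).ncard ≤ (n + 1) * (C * (n + 1) ^ D) := by
      refine h1.trans (le_of_eq ?_)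
      ring
    exact Nat.le_of_mul_le_mul_left h3 (by omega)

theorem VPS.of_finiteIndex {H : Type u} [Group H] {K : Subgroup H} (hK : K.FiniteIndex)
    (h : VPS (⊤ : Subgroup K)) : VPS (⊤ : Subgroup H) := by
  obtain ⟨Q, -, hQ, hi⟩ := h
  refine ⟨Q.map K.subtype, le_top, hQ.map _, ?_⟩
  rw [Subgroup.relIndex_top_right] at hi ⊢
  have h1 : (Q.map K.subtype) ≤ K := Subgroup.map_subtype_le Q
  rw [← Subgroup.relIndex_mul_index h1]
  refine mul_ne_zero ?_ hK.index_ne_zero
  have h2 : (Q.map K.subtype).subgroupOf K = Q :=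
    Subgroup.comap_map_eq_self_of_injective K.subtype_injective Q
  rw [Subgroup.relIndex, h2]
  exact hi

theorem VPS.of_top {H : Type u} [Group H] {K : Subgroup H}
    (h : VPS (⊤ : Subgroup K)) : VPS K := by
  obtain ⟨Q, -, hQ, hi⟩ := h
  refine ⟨Q.map K.subtype, Subgroup.map_subtype_le Q, hQ.map _, ?_⟩
  rw [Subgroup.relIndex_top_right] at hi
  have h2 : (Q.map K.subtype).subgroupOf K = Q :=
    Subgroup.comap_map_eq_self_of_injective K.subtype_injective Q
  rw [Subgroup.relIndex, h2]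
  exact hi

theorem gromov_vps : ∀ (D : ℕ) (H : Type u) [Group H] [Group.FG H], GrowthLE H D →
    VPS (⊤ : Subgroup H) := by
  intro D
  induction D using Nat.strong_induction_on with
  | _ D ih =>
  intro H _ _ hG
  rcases finite_or_infinite H with hfin | hinf
  · refine ⟨⊥, bot_le, .bot, ?_⟩
    rw [Subgroup.relIndex_top_right]
    exact Subgroup.index_ne_zero_of_finite
  · obtain ⟨K, hK, φ, hφ⟩ := exists_onto hG
    have hKfg : Group.FG K := Subgroup.fg_of_index_ne_zero _
    have hKG : GrowthLE K D := hG.subgroup K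
    obtain ⟨t, ht⟩ := hφ (Multiplicative.ofAdd 1)
    obtain ⟨D', rfl, hD'⟩ := ker_growth hKG φ t ht
    have hLfg := ker_fg hKG φ t ht
    have h1 := (ih D' (Nat.lt_succ_self D') φ.ker hD').of_top
    refine VPS.of_finiteIndex hK (h1.step (t := t) ⟨le_top, trivial, ?_, ?_, ?_⟩ hLfg)
    · intro n hn
      exact φ.normal_ker.conj_mem n hn t
    · intro n hn
      have := φ.normal_ker.conj_mem n hn t⁻¹
      rwa [inv_inv] at this
    · intro g _
      refine ⟨Multiplicative.toAdd (φ g), ?_⟩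
      rw [MonoidHom.mem_ker, map_mul, map_inv, map_zpow, ht, ← ofAdd_zsmul, smul_eq_mul, mul_one]
      simp

/-- **Gromov-lite**: a finitely generated group of polynomial growth is virtually polycyclic. -/
theorem gromov_lite {H : Type u} [Group H] [Group.FG H] {D : ℕ} (hG : GrowthLE H D) :
    IsVirtuallyPolycyclic H := by
  obtain ⟨Q, -, hQ, hi⟩ := gromov_vps D H hG
  rw [Subgroup.relIndex_top_right] at hi
  exact isVirtuallyPolycyclic_iff.2 ⟨Q, ⟨hi⟩, hQ⟩

end Vale.Agent.P188.H796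

end

section

/-!
Norm bounds in the unipotent algebra, and polynomial comparison of coordinates, logarithms and
norms.
-/

open Finset Filter Topology

universe u v w

namespace Vale.Agent.P188.H796

namespace RD

section prod

variable {N : Type u} [Group N] {d n : ℕ} {D : MB N d n} {A : Type v} [NormedRing A]
  [NormedAlgebra ℝ A] (R : RD D A)

/-- non-commutative elementary symmetric polynomials of the `u - 1` -/
def es {A : Type v} [NormedRing A] : List A → ℕ → A
  | [], 0 => 1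
  | [], _ + 1 => 0
  | _ :: _, 0 => 1
  | u :: L, j + 1 => es L (j + 1) + (u - 1) * es L j

theorem es_zero (L : List A) : es L 0 = 1 := by cases L <;> rfl

theorem es_cons (u : A) (L : List A) (j : ℕ) :
    es (u :: L) (j + 1) = es L (j + 1) + (u - 1) * es L j := rfl

theorem prod_eq_es (L : List A) : ∀ M, L.length ≤ M → L.prod = ∑ j ∈ range (M + 1), es L j := by
  induction L with
  | nil =>
    intro M _
    rw [sum_range_succ']
    have h0 : ∑ k ∈ range M, es ([] : List A) (k + 1) = 0 := sum_eq_zero fun j _ => rfl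
    rw [h0, zero_add]
    rfl
  | cons u L ih =>
    intro M hM
    rw [List.length_cons] at hM
    obtain ⟨M, rfl⟩ : ∃ k, M = k + 1 := ⟨M - 1, by omega⟩
    rw [sum_range_succ', es_zero, List.prod_cons]
    simp only [es_cons]
    rw [sum_add_distrib, ← mul_sum, ← ih M (by omega)]
    have h1 := ih (M + 1) (by omega)
    rw [sum_range_succ', es_zero] at h1
    calc u * L.prod = (u - 1) * L.prod + L.prod := by noncomm_ring
      _ = (u - 1) * L.prod + (∑ k ∈ range (M + 1), es L (k + 1) + 1) := by rw [← h1]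
      _ = _ := by abel

theorem es_mem (L : List A) (hL : ∀ u ∈ L, u - 1 ∈ R.J) : ∀ j, es L j ∈ R.J ^ j := by
  induction L with
  | nil =>
    intro j
    cases j with
    | zero => rw [pow_zero]; exact Submodule.one_le.1 le_rfl
    | succ j => exact Submodule.zero_mem _
  | cons u L ih =>
    have ih' := ih (fun v hv => hL v (List.mem_cons_of_mem _ hv))
    intro j
    cases j with
    | zero => rw [es_zero, pow_zero]; exact Submodule.one_le.1 le_rfl
    | succ j =>
      rw [es_cons]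
      refine Submodule.add_mem _ (ih' _) ?_
      rw [pow_succ']
      exact Submodule.mul_mem_mul (hL u List.mem_cons_self) (ih' _)

theorem J_pow_ge {j : ℕ} (hj : R.m ≤ j) : R.J ^ j = ⊥ := by
  obtain ⟨i, rfl⟩ := Nat.exists_eq_add_of_le hj
  rw [pow_add, R.J_pow, Submodule.bot_mul]

theorem es_norm (L : List A) {K : ℝ} (hK : 0 ≤ K) (hL : ∀ u ∈ L, ‖u - 1‖ ≤ K) :
    ∀ j, ‖es L j‖ ≤ ‖(1 : A)‖ * (L.length * K) ^ j := by
  induction L with
  | nil =>
    intro j
    cases j with
    | zero => simp [es]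
    | succ j => simp [es]
  | cons u L ih =>
    have ih' := ih (fun v hv => hL v (List.mem_cons_of_mem _ hv))
    intro j
    cases j with
    | zero => simp [es]
    | succ j =>
      rw [es_cons]
      have h1 := ih' (j + 1)
      have h2 := ih' j
      have h3 := hL u List.mem_cons_self
      have hb : 0 ≤ ‖(1 : A)‖ := norm_nonneg _
      have hl : (0 : ℝ) ≤ L.length * K := by positivity
      have h4 : ‖(u - 1) * es L j‖ ≤ K * (‖(1 : A)‖ * (L.length * K) ^ j) :=
        (norm_mul_le _ _).trans (mul_le_mul h3 h2 (norm_nonneg _) hK)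
      have h5 : (L.length * K) ^ j ≤ ((L.length + 1) * K) ^ j :=
        pow_le_pow_left₀ hl (by nlinarith) j
      calc ‖es L (j + 1) + (u - 1) * es L j‖
          ≤ ‖(1 : A)‖ * (L.length * K) ^ (j + 1) + K * (‖(1 : A)‖ * (L.length * K) ^ j) :=
            (norm_add_le _ _).trans (add_le_add h1 h4)
        _ = ‖(1 : A)‖ * ((L.length * K) ^ j * ((L.length + 1) * K)) := by ring
        _ ≤ ‖(1 : A)‖ * (((L.length + 1) * K) ^ j * ((L.length + 1) * K)) := by gcongr
        _ = _ := by rw [List.length_cons]; push_cast; ring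

/-- **product bound** in the unipotent algebra -/
theorem norm_prod_le (L : List A) {K : ℝ} (hK : 0 ≤ K) (hJ : ∀ u ∈ L, u - 1 ∈ R.J)
    (hL : ∀ u ∈ L, ‖u - 1‖ ≤ K) :
    ‖L.prod‖ ≤ ‖(1 : A)‖ * R.m * (1 + L.length * K) ^ R.m := by
  have hl : (0 : ℝ) ≤ L.length * K := by positivity
  have h1 : L.prod = ∑ j ∈ range R.m, es L j := by
    rw [prod_eq_es L (L.length + R.m) (by omega)]
    symm
    refine sum_subset (range_subset_range.2 (by omega)) ?_
    intro j _ hj
    rw [mem_range, not_lt] at hj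
    have := R.es_mem L hJ j
    rw [R.J_pow_ge hj] at this
    exact (Submodule.mem_bot ℝ).1 this
  rw [h1]
  refine (norm_sum_le _ _).trans ?_
  have h2 : ∀ j ∈ range R.m, ‖es L j‖ ≤ ‖(1 : A)‖ * (1 + L.length * K) ^ R.m := by
    intro j hj
    rw [mem_range] at hj
    refine (es_norm L hK hL j).trans ?_
    refine mul_le_mul_of_nonneg_left ?_ (norm_nonneg _)
    calc (L.length * K) ^ j ≤ (1 + L.length * K) ^ j := pow_le_pow_left₀ hl (by linarith) j
      _ ≤ (1 + L.length * K) ^ R.m := pow_le_pow_right₀ (by linarith) hj.le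
  refine (sum_le_sum h2).trans ?_
  rw [sum_const, card_range, nsmul_eq_mul]
  exact le_of_eq (by ring)

end prod

section comp

variable {N : Type u} [Group N] {d n : ℕ} {D : MB N d n} {A : Type v} [NormedRing A]
  [NormedAlgebra ℝ A] [FiniteDimensional ℝ A] (R : RD D A)

omit [FiniteDimensional ℝ A] in
theorem norm_pow_le_max (u : A) (k : ℕ) : ‖u ^ k‖ ≤ max 1 ‖(1 : A)‖ * ‖u‖ ^ k := by
  rcases Nat.eq_zero_or_pos k with rfl | hk
  · simp
  · calc ‖u ^ k‖ ≤ ‖u‖ ^ k := norm_pow_le' u hk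
      _ ≤ max 1 ‖(1 : A)‖ * ‖u‖ ^ k := le_mul_of_one_le_left (by positivity) (le_max_left _ _)

omit [FiniteDimensional ℝ A] in
theorem exists_ex_bound (m : ℕ) : ∃ C : ℝ, 0 < C ∧ ∀ v : A, ‖ex m v‖ ≤ C * (1 + ‖v‖) ^ m := by
  refine ⟨m * max 1 ‖(1 : A)‖ + 1, by positivity, fun v => ?_⟩
  unfold ex
  refine (norm_sum_le _ _).trans ?_
  have h : ∀ k ∈ range m, ‖((k.factorial : ℝ)⁻¹) • v ^ k‖ ≤ max 1 ‖(1 : A)‖ * (1 + ‖v‖) ^ m := by
    intro k hk
    rw [mem_range] at hk
    rw [norm_smul]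
    have h1 : ‖((k.factorial : ℝ)⁻¹)‖ ≤ 1 := by
      rw [norm_inv, Real.norm_natCast]
      exact inv_le_one_of_one_le₀ (by exact_mod_cast Nat.one_le_iff_ne_zero.2 k.factorial_ne_zero)
    have h2 := norm_pow_le_max v k
    have h3 : ‖v‖ ^ k ≤ (1 + ‖v‖) ^ m :=
      (pow_le_pow_left₀ (norm_nonneg _) (by linarith) k).trans
        (pow_le_pow_right₀ (by linarith [norm_nonneg v]) hk.le)
    calc ‖((k.factorial : ℝ)⁻¹)‖ * ‖v ^ k‖ ≤ 1 * (max 1 ‖(1 : A)‖ * ‖v‖ ^ k) :=
          mul_le_mul h1 h2 (norm_nonneg _) zero_le_one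
      _ ≤ max 1 ‖(1 : A)‖ * (1 + ‖v‖) ^ m := by rw [one_mul]; gcongr
  refine (sum_le_sum h).trans ?_
  rw [sum_const, card_range, nsmul_eq_mul, ← mul_assoc]
  refine mul_le_mul_of_nonneg_right (by linarith) (by positivity)

omit [FiniteDimensional ℝ A] in
theorem exists_lg_bound (m : ℕ) : ∃ C : ℝ, 0 < C ∧ ∀ u : A, ‖lg m u‖ ≤ C * (1 + ‖u - 1‖) ^ m := by
  refine ⟨(∑ k ∈ range m, |be k|) * max 1 ‖(1 : A)‖ + 1, by positivity, fun u => ?_⟩
  unfold lg
  refine (norm_sum_le _ _).trans ?_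
  have h : ∀ k ∈ range m, ‖be k • (u - 1) ^ k‖ ≤
      |be k| * (max 1 ‖(1 : A)‖ * (1 + ‖u - 1‖) ^ m) := by
    intro k hk
    rw [mem_range] at hk
    rw [norm_smul, Real.norm_eq_abs]
    refine mul_le_mul_of_nonneg_left ?_ (abs_nonneg _)
    refine (norm_pow_le_max (u - 1) k).trans ?_
    have h3 : ‖u - 1‖ ^ k ≤ (1 + ‖u - 1‖) ^ m :=
      (pow_le_pow_left₀ (norm_nonneg _) (by linarith) k).trans
        (pow_le_pow_right₀ (by linarith [norm_nonneg (u - 1)]) hk.le)
    gcongr
  refine (sum_le_sum h).trans ?_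
  rw [← sum_mul, ← mul_assoc]
  refine mul_le_mul_of_nonneg_right (by linarith) (by positivity)

/-- `‖Lo s‖` is polynomially bounded by `‖toA s - 1‖` -/
theorem exists_Lo_bound : ∃ C : ℝ, 0 < C ∧ ∀ s : R.NR,
    ‖((R.Lo s : R.V) : A)‖ ≤ C * (1 + ‖R.toA s - 1‖) ^ R.m := by
  obtain ⟨C, hC, h⟩ := exists_lg_bound (A := A) R.m
  exact ⟨C, hC, fun s => h _⟩

/-- coordinates are linear functionals of `toA s` -/
theorem exists_coord_bound : ∃ C : ℝ, 0 < C ∧ ∀ (s : R.NR) (i : Fin d), |s i| ≤ C * ‖R.toA s‖ := by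
  have h1 : ∀ i : Fin d, ∃ C : ℝ, 0 < C ∧ ∀ a : A, |R.ℓ i a| ≤ C * ‖a‖ := by
    intro i
    let f : A →L[ℝ] ℝ := LinearMap.toContinuousLinearMap (R.ℓ i)
    refine ⟨‖f‖ + 1, by positivity, fun a => ?_⟩
    have := f.le_opNorm a
    calc |R.ℓ i a| = ‖f a‖ := rfl
      _ ≤ ‖f‖ * ‖a‖ := this
      _ ≤ (‖f‖ + 1) * ‖a‖ := by nlinarith [norm_nonneg a]
  choose C hC h using h1
  refine ⟨∑ i, C i + 1, by have := sum_nonneg fun i (_ : i ∈ univ) => (hC i).le; linarith,
    fun s i => ?_⟩
  have h2 : s i = R.ℓ i (R.toA s) := (R.ℓ_toA s i).symm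
  rw [h2]
  refine (h i _).trans (mul_le_mul_of_nonneg_right ?_ (norm_nonneg _))
  have := single_le_sum (fun i (_ : i ∈ univ) => (hC i).le) (mem_univ i)
  linarith

omit [FiniteDimensional ℝ A] in
/-- products of elements of a bounded set: polynomial bound -/
theorem exists_list_bound (K : ℝ) (hK : 0 ≤ K) : ∃ C : ℝ, 0 < C ∧ ∀ L : List R.NR,
    (∀ s ∈ L, ‖R.toA s - 1‖ ≤ K) → ‖R.toA L.prod‖ ≤ C * (1 + L.length) ^ R.m := by
  refine ⟨(‖(1 : A)‖ * R.m + 1) * (1 + K) ^ R.m, by positivity, fun L hL => ?_⟩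
  have h1 := R.norm_prod_le (L.map R.toA) hK (by
    intro u hu
    rw [List.mem_map] at hu
    obtain ⟨s, _, rfl⟩ := hu
    exact R.E_sub_one_mem s) (by
    intro u hu
    rw [List.mem_map] at hu
    obtain ⟨s, hs, rfl⟩ := hu
    exact hL s hs)
  rw [← map_list_prod, List.length_map] at h1
  refine h1.trans ?_
  have h2 : (1 + (L.length : ℝ) * K) ≤ (1 + K) * (1 + L.length) := by
    nlinarith [(Nat.cast_nonneg L.length : (0 : ℝ) ≤ L.length)]
  calc ‖(1 : A)‖ * R.m * (1 + (L.length : ℝ) * K) ^ R.m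
      ≤ (‖(1 : A)‖ * R.m + 1) * ((1 + K) * (1 + L.length)) ^ R.m := by gcongr; linarith
    _ = _ := by rw [mul_pow]; ring

/-- word length bounds in `N`: the norm of `toA (ι x)` is polynomial in the word length -/
theorem exists_ι_bound (B : Set N) (hB : B.Finite) : ∃ C : ℝ, 0 < C ∧ ∀ L : List N,
    (∀ x ∈ L, x ∈ B ∨ x⁻¹ ∈ B) → ‖R.ρ L.prod‖ ≤ C * (1 + L.length) ^ R.m := by
  have hB' : (B ∪ B⁻¹).Finite := hB.union hB.inv
  obtain ⟨K, hK⟩ := (hB'.image fun x => ‖R.ρ x - 1‖).bddAbove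
  obtain ⟨C, hC, h⟩ := R.exists_list_bound (max K 0) (le_max_right _ _)
  refine ⟨C, hC, fun L hL => ?_⟩
  have h1 := h (L.map R.ι) (by
    intro s hs
    rw [List.mem_map] at hs
    obtain ⟨x, hx, rfl⟩ := hs
    rw [R.toA_ι]
    refine le_trans (hK ⟨x, ?_, rfl⟩) (le_max_left _ _)
    rcases hL x hx with h | h
    · exact Or.inl h
    · exact Or.inr h)
  rwa [← map_list_prod, R.toA_ι, List.length_map] at h1

end comp

end RD

end Vale.Agent.P188.H796

end

section

/-!
P188, block QA7 (structure of a locally virtually nilpotent group of bounded degree).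
Exact statements of the sub-blocks (helper83).
-/

universe u

namespace Vale.Agent.P188.QA7

open Vale.Agent.P188.H754 Vale.Agent.P188.H796
open scoped commutatorElement

/-- the subgroup generated by the `J`-th powers -/
def pw (G : Type u) [Group G] (J : ℕ) : Subgroup G := Subgroup.closure {x | ∃ y : G, x = y ^ J}

/-- torsion free -/
def TF (G : Type u) [Group G] : Prop := ∀ (x : G) (e : ℕ), e ≠ 0 → x ^ e = 1 → x = 1

/-- `T` is isolated in `C`. -/
def Iso {G : Type u} [Group G] (T C : Subgroup G) : Prop :=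
  ∀ x ∈ C, ∀ e : ℕ, e ≠ 0 → x ^ e ∈ T → x ∈ T

/-- (S1) polynomial growth implies virtually nilpotent, with the bound for the Hirsch length -/
def StNil : Prop := ∀ (D : ℕ) (B : Type u) [Group B] [Group.FG B], GrowthLE B D →
  ∃ N : Subgroup B, N.Normal ∧ N.FiniteIndex ∧ Group.IsNilpotent N ∧ ∃ h ≤ D, PolyZ h N

/-- (S1') finitely generated torsion-free nilpotent groups of growth degree at most `D` -/
def StPZ : Prop := ∀ (D : ℕ) (L : Type u) [Group L] [Group.FG L], GrowthLE L D →
  Group.IsNilpotent L → TF L → ∃ h ≤ D, PolyZ h L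

/-- (S2) Minkowski: the action on the isolated lower central series is trivial on a subgroup of
bounded index -/
def StMink : Prop := ∀ h : ℕ, ∃ J : ℕ, ∀ (B : Type u) [Group B] (N : Subgroup B), N.Normal →
  N.FiniteIndex → Group.IsNilpotent N → PolyZ h N →
  ∃ C : Subgroup B, C.Normal ∧ N ≤ C ∧ C.index ≠ 0 ∧ C.index ≤ J ∧
    ∀ i, ∀ c ∈ C, ∀ x ∈ lser N i, ⁅c, x⁆ ∈ lser N (i + 1)

/-- (S3) Baer: a group with a finite index hypercentral subgroup -/
def StBaer : Prop := ∀ (C : Type u) [Group C] (n : ℕ) (Z : ℕ → Subgroup C),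
  (Z 0).FiniteIndex → Z n = ⊥ → (∀ i, (Z i).FG) → (∀ i, Z (i + 1) ≤ Z i) →
  (∀ i, ∀ x ∈ Z i, ∀ c : C, ⁅c, x⁆ ∈ Z (i + 1)) →
  ∃ T : Subgroup C, T.Normal ∧ Finite T ∧ Iso T ⊤ ∧
    ∃ k, (⊤ : Subgroup C).lowerCentralSeries k ≤ T

/-- (S5) local structure -/
def StLoc : Prop := ∀ D m : ℕ, ∃ J M : ℕ, 0 < J ∧ ∀ (B : Type u) [Group B] [Group.FG B],
  GrowthLE B D → (∀ F : Subgroup B, Finite F → Nat.card F ≤ m) →
  (pw B J).index ≠ 0 ∧ (pw B J).index ≤ M ∧
  ∃ T : Subgroup B, T.Normal ∧ Finite T ∧ T ≤ pw B J ∧ Iso T (pw B J) ∧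
    ∃ k, (pw B J).lowerCentralSeries k ≤ T

/-- torsion-free, locally (finitely generated nilpotent, of Hirsch length at most `h₀`) -/
structure LocNil (h₀ : ℕ) (K : Type u) [Group K] : Prop where
  tf : TF K
  nil : ∀ B : Subgroup K, B.FG → Group.IsNilpotent B
  pz : ∀ B : Subgroup K, B.FG → ∃ h ≤ h₀, PolyZ h B

/-- (S8) finite by virtually polycyclic -/
def StFinExt : Prop := ∀ (H : Type u) [Group H] (T : Subgroup H) [T.Normal], Finite T →
  IsVirtuallyPolycyclic (H ⧸ T) → IsVirtuallyPolycyclic H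

end Vale.Agent.P188.QA7

end
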