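import Vale.Agent.P188.R.G027
import Vale.Agent.P188.R.G002
import Vale.Agent.P188.R.G038
import Vale.Agent.P188.R.G041
import Vale.Agent.P188.R.G031
import Vale.Agent.P188.R.G037
import Vale.Agent.P188.R.G012
import Vale.Agent.P188.R.G053

section

/-!
Right-invariant means on solvable (discrete) groups.
-/

universe u v w

namespace Vale.Agent.P188.H131

open Filter Topology Vale.Agent.P188
open scoped commutatorElement

/-! ### Limits along an ultrafilter -/

/-- Limit of a bounded family along an ultrafilter. -/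
noncomputable def ul {ι : Type w} (U : Ultrafilter ι) (a : ι → ℝ) : ℝ := limUnder (U : Filter ι) a

lemma tendsto_ul {ι : Type w} (U : Ultrafilter ι) {a : ι → ℝ} (ha : Bdd a) :
    Tendsto a (U : Filter ι) (𝓝 (ul U a)) := by
  obtain ⟨M, hM⟩ := ha
  have hc : IsCompact (Set.Icc (-M) M) := isCompact_Icc
  have hle : ((U.map a : Ultrafilter ℝ) : Filter ℝ) ≤ 𝓟 (Set.Icc (-M) M) := by
    rw [Filter.le_principal_iff]
    exact Filter.mem_map.mpr (Filter.univ_mem' (fun n => _root_.abs_le.mp (hM n)))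
  obtain ⟨x, _, hx⟩ := hc.ultrafilter_le_nhds (U.map a) hle
  exact tendsto_nhds_limUnder ⟨x, hx⟩

lemma ul_eq {ι : Type w} (U : Ultrafilter ι) {a : ι → ℝ} {x : ℝ}
    (h : Tendsto a (U : Filter ι) (𝓝 x)) : ul U a = x := h.limUnder_eq

/-! ### Operations on means -/

lemma IsMean.map {X : Type u} {Y : Type v} {μ : (X → ℝ) → ℝ} (h : IsMean μ) (φ : X → Y) :
    IsMean (fun f : Y → ℝ => μ (fun x => f (φ x))) where
  add := fun _ _ hf hg => h.add _ _ (hf.comp φ) (hg.comp φ)
  smul := fun a _ hf => h.smul a _ (hf.comp φ)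
  nonneg := fun _ hf h0 => h.nonneg _ (hf.comp φ) (fun _ => h0 _)
  one := h.one

lemma hasMean_of_surjective {G : Type u} {Q : Type v} [Group G] [Group Q] (φ : G →* Q)
    (hφ : Function.Surjective φ) (h : HasMean G) : HasMean Q := by
  obtain ⟨μ, hμ, hinv⟩ := h
  refine ⟨fun f => μ (fun x => f (φ x)), IsMean.map hμ φ, fun q f hf => ?_⟩
  obtain ⟨g, rfl⟩ := hφ q
  have := hinv g (fun x => f (φ x)) (hf.comp φ)
  simp only [map_mul] at this
  exact this

lemma hasMean_of_equiv {G : Type u} {Q : Type v} [Group G] [Group Q] (φ : G ≃* Q)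
    (h : HasMean G) : HasMean Q :=
  hasMean_of_surjective φ.toMonoidHom φ.surjective h

/-- Extensions. -/
lemma hasMean_extension {G : Type u} [Group G] (N : Subgroup G) [N.Normal] (hN : HasMean N)
    (hQ : HasMean (G ⧸ N)) : HasMean G := by
  obtain ⟨μ, hμ, hinv⟩ := hN
  obtain ⟨κ, hκ, hinvκ⟩ := hQ
  let ν : (G → ℝ) → (G ⧸ N) → ℝ := fun f q => μ (fun x : N => f (x * q.out))
  have hν0 : ∀ f, Bdd f → ∀ x : G, ν f (x : G ⧸ N) = μ (fun n : N => f (n * x)) := by
    intro f hf x
    obtain ⟨n, hn⟩ := QuotientGroup.mk_out_eq_mul N x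
    have hmem : x * n * x⁻¹ ∈ N := Subgroup.Normal.conj_mem inferInstance _ n.2 _
    have := hinv ⟨x * n * x⁻¹, hmem⟩ (fun m : N => f (m * x)) (hf.comp _)
    show μ (fun m : N => f (m * (x : G ⧸ N).out)) = _
    rw [← this, hn]
    congr 1
    funext m
    congr 1
    simp only [Subgroup.coe_mul]
    group
  have hν : ∀ f, Bdd f → Bdd (ν f) := by
    rintro f ⟨M, hM⟩
    exact ⟨M, fun i => hμ.abs_le (fun x => hM _)⟩
  refine ⟨fun f => κ (ν f), ⟨?_, ?_, ?_, ?_⟩, ?_⟩
  · intro f g hf hg
    have : ν (f + g) = ν f + ν g := by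
      funext i
      exact hμ.add _ _ (hf.comp _) (hg.comp _)
    simp only [this]
    exact hκ.add _ _ (hν f hf) (hν g hg)
  · intro a f hf
    have : ν (fun x => a * f x) = fun i => a * ν f i := by
      funext i
      exact hμ.smul a _ (hf.comp _)
    simp only [this]
    exact hκ.smul a _ (hν f hf)
  · intro f hf h
    apply hκ.nonneg _ (hν f hf)
    intro i
    exact hμ.nonneg _ (hf.comp _) (fun x => h _)
  · have : ν (fun _ => 1) = fun _ => 1 := by
      funext i
      exact hμ.one
    simp only [this]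
    exact hκ.one
  · intro g f hf
    have key : ν (fun x => f (x * g)) = fun q => ν f (q * (g : G ⧸ N)) := by
      funext q
      induction q using QuotientGroup.induction_on with
      | H x =>
        rw [hν0 _ (hf.comp (fun y => y * g)) x, ← QuotientGroup.mk_mul, hν0 f hf (x * g)]
        simp only [mul_assoc]
    simp only [key]
    exact hinvκ _ _ (hν f hf)

/-- Directed unions: it suffices to look at the finitely generated subgroups. -/
lemma hasMean_of_fg {G : Type u} [Group G]
    (h : ∀ F : Finset G, HasMean (Subgroup.closure (F : Set G))) : HasMean G := by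
  classical
  choose μ hμ hinv using h
  let U : Ultrafilter (Finset G) := Ultrafilter.of atTop
  have hU : (U : Filter (Finset G)) ≤ atTop := Ultrafilter.of_le _
  let ν : (G → ℝ) → Finset G → ℝ := fun f F => μ F (fun x => f x)
  have hν : ∀ f, Bdd f → Bdd (ν f) := by
    rintro f ⟨M, hM⟩
    exact ⟨M, fun F => (hμ F).abs_le (fun x => hM _)⟩
  refine ⟨fun f => ul U (ν f), ⟨?_, ?_, ?_, ?_⟩, ?_⟩
  · intro f g hf hg
    apply ul_eq
    have : ν (f + g) = fun F => ν f F + ν g F := by
      funext F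
      exact (hμ F).add _ _ (hf.comp _) (hg.comp _)
    rw [this]
    exact (tendsto_ul U (hν f hf)).add (tendsto_ul U (hν g hg))
  · intro a f hf
    apply ul_eq
    have : ν (fun x => a * f x) = fun F => a * ν f F := by
      funext F
      exact (hμ F).smul a _ (hf.comp _)
    rw [this]
    exact (tendsto_ul U (hν f hf)).const_mul a
  · intro f hf h
    exact ge_of_tendsto' (tendsto_ul U (hν f hf))
      (fun F => (hμ F).nonneg _ (hf.comp _) (fun x => h _))
  · apply ul_eq
    have : ν (fun _ => 1) = fun _ => 1 := by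
      funext F
      exact (hμ F).one
    rw [this]
    exact tendsto_const_nhds
  · intro g f hf
    apply ul_eq
    have h1 : ∀ᶠ F in (U : Filter (Finset G)), ν f F = ν (fun x => f (x * g)) F := by
      apply hU
      filter_upwards [eventually_ge_atTop {g}] with F hF
      have hg : g ∈ Subgroup.closure (F : Set G) :=
        Subgroup.subset_closure (by
          have := hF (Finset.mem_singleton_self g)
          exact_mod_cast this)
      exact (hinv F ⟨g, hg⟩ (fun x => f x) (hf.comp _)).symm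
    exact (tendsto_ul U (hν f hf)).congr' h1

lemma hasMean_int : HasMean (Multiplicative ℤ) := by
  refine hasMean_of_PolyZ 1 _ ⟨MonoidHom.id _, Function.surjective_id, ?_⟩
  show Subsingleton _
  refine ⟨fun a b => ?_⟩
  have ha : (a : Multiplicative ℤ) = 1 := a.2
  have hb : (b : Multiplicative ℤ) = 1 := b.2
  exact Subtype.ext (ha.trans hb.symm)

lemma hasMean_of_comm {A : Type u} [Group A] (hA : ∀ a b : A, a * b = b * a) : HasMean A := by
  classical
  apply hasMean_of_fg
  intro F
  induction F using Finset.induction_on with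
  | empty =>
    have : Subsingleton (Subgroup.closure ((∅ : Finset A) : Set A)) := by
      rw [Finset.coe_empty, Subgroup.closure_empty]
      infer_instance
    exact hasMean_of_subsingleton _
  | insert a F ha ih =>
    set K := Subgroup.closure ((insert a F : Finset A) : Set A) with hK
    set N : Subgroup K := (Subgroup.closure (F : Set A)).subgroupOf K with hN
    have hle : Subgroup.closure (F : Set A) ≤ K := by
      apply Subgroup.closure_mono
      simp
    have haK : a ∈ K := Subgroup.subset_closure (by simp)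
    have hnorm : N.Normal := by
      refine ⟨fun n hn g => ?_⟩
      have : g * n * g⁻¹ = n := by
        apply Subtype.ext
        simp only [Subgroup.coe_mul, Subgroup.coe_inv]
        rw [hA (g : A) (n : A)]
        group
      rwa [this]
    have h1 : HasMean N :=
      hasMean_of_equiv (Subgroup.subgroupOfEquivOfLe hle).symm ih
    refine hasMean_extension N h1 ?_
    refine hasMean_of_surjective (zpowersHom (K ⧸ N) ((⟨a, haK⟩ : K) : K ⧸ N)) ?_ hasMean_int
    intro q
    induction q using QuotientGroup.induction_on with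
    | H x =>
      obtain ⟨x, hx⟩ := x
      have key : ∃ n : ℤ, ∃ y ∈ Subgroup.closure (F : Set A), x = a ^ n * y := by
        induction hx using Subgroup.closure_induction with
        | mem z hz =>
          rw [Finset.coe_insert, Set.mem_insert_iff] at hz
          rcases hz with rfl | hz
          · exact ⟨1, 1, one_mem _, by simp⟩
          · exact ⟨0, z, Subgroup.subset_closure hz, by simp⟩
        | one => exact ⟨0, 1, one_mem _, by simp⟩
        | mul z w _ _ hz hw =>
          obtain ⟨n, y, hy, rfl⟩ := hz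
          obtain ⟨m, y', hy', rfl⟩ := hw
          refine ⟨n + m, y * y', mul_mem hy hy', ?_⟩
          rw [zpow_add, mul_assoc, ← mul_assoc y, hA y (a ^ m)]
          simp only [mul_assoc]
        | inv z _ hz =>
          obtain ⟨n, y, hy, rfl⟩ := hz
          refine ⟨-n, y⁻¹, inv_mem hy, ?_⟩
          rw [mul_inv_rev, ← zpow_neg, hA]
      obtain ⟨n, y, hy, hxy⟩ := key
      refine ⟨Multiplicative.ofAdd n, ?_⟩
      rw [zpowersHom_apply, toAdd_ofAdd, ← QuotientGroup.mk_zpow, QuotientGroup.eq, hN,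
        Subgroup.mem_subgroupOf]
      simp only [Subgroup.coe_mul, InvMemClass.coe_inv, SubgroupClass.coe_zpow]
      rw [hxy]
      simpa [← mul_assoc] using hy

/-- Solvable groups have right-invariant means. -/
theorem hasMean_of_solvable (G : Type u) [Group G] [hG : Group.IsSolvable G] : HasMean G := by
  obtain ⟨N, hN⟩ := hG.solvable
  have key : ∀ i, i ≤ N → HasMean (derivedSeries G (N - i)) := by
    intro i
    induction i with
    | zero =>
      intro _
      rw [Nat.sub_zero, hN]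
      exact hasMean_of_subsingleton _
    | succ i ih =>
      intro hi
      have h1 := ih (by omega)
      have e : N - i = (N - (i + 1)) + 1 := by omega
      rw [e] at h1
      set D := derivedSeries G (N - (i + 1)) with hD
      have hle : derivedSeries G (N - (i + 1) + 1) ≤ D := by
        rw [derivedSeries_succ]
        exact Subgroup.commutator_le_left _ _
      set M : Subgroup D := (derivedSeries G (N - (i + 1) + 1)).subgroupOf D with hM
      have hnorm : M.Normal := by
        rw [hM]; infer_instance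
      refine hasMean_extension M (hasMean_of_equiv (Subgroup.subgroupOfEquivOfLe hle).symm h1) ?_
      apply hasMean_of_comm
      intro a b
      induction a using QuotientGroup.induction_on with
      | H a =>
        induction b using QuotientGroup.induction_on with
        | H b =>
          rw [← QuotientGroup.mk_mul, ← QuotientGroup.mk_mul, QuotientGroup.eq, hM,
            Subgroup.mem_subgroupOf, derivedSeries_succ]
          have h2 : ⁅(b : G)⁻¹, (a : G)⁻¹⁆ ∈ ⁅D, D⁆ :=
            Subgroup.commutator_mem_commutator (inv_mem b.2) (inv_mem a.2)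
          have h3 : ((((a * b)⁻¹ * (b * a) : D)) : G) = ⁅(b : G)⁻¹, (a : G)⁻¹⁆ := by
            simp only [commutatorElement_def, Subgroup.coe_mul, Subgroup.coe_inv]
            group
          rw [h3]
          exact h2
  have h0 := key N le_rfl
  rw [Nat.sub_self, derivedSeries_zero] at h0
  exact hasMean_of_equiv Subgroup.topEquiv h0

end Vale.Agent.P188.H131

end

section

/-!
Haar measure on the real hull `R.NR` of `N`: unimodular, invariant under automorphisms preserving
`N`.
-/

open MeasureTheory MeasureTheory.Measure Topology Set Pointwise Vale.Agent.P188.H796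

set_option linter.unusedSectionVars false

universe u v

namespace Vale.Agent.P188.H131

variable {N : Type u} [Group N] {d n : ℕ} {D : MB N d n} {A : Type v} [NormedRing A]
  [NormedAlgebra ℝ A] [FiniteDimensional ℝ A] (R : RD D A)

instance : MeasurableSpace R.NR := inferInstanceAs (MeasurableSpace (Fin d → ℝ))
instance : BorelSpace R.NR := inferInstanceAs (BorelSpace (Fin d → ℝ))

theorem isCompact_closure_cube : ∃ C : Set R.NR, IsCompact C ∧ R.cube ⊆ C := by
  have h : IsCompact (Set.Icc (0 : Fin d → ℝ) 1) := isCompact_Icc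
  refine ⟨(Set.Icc (0 : Fin d → ℝ) 1 : Set (Fin d → ℝ)), h, ?_⟩
  intro s hs
  exact ⟨fun j => (hs j).1, fun j => (hs j).2.le⟩

theorem lat_range : Lat R.ι.range where
  disc := by
    refine ⟨{s : R.NR | ∀ i, |s i| < 1}, ?_, ?_⟩
    · have : IsOpen {s : Fin d → ℝ | ∀ i, |s i| < 1} := by
        simp only [ofPred_forall]
        exact isOpen_iInter_of_finite fun i =>
          isOpen_lt (continuous_abs.comp (continuous_apply i)) continuous_const
      refine IsOpen.mem_nhds this ?_
      intro i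
      show |(0 : ℝ)| < 1
      simp
    · rintro _ ⟨y, rfl⟩ hy
      have h0 : ∀ i, D.c i y = 0 := by
        intro i
        have h1 : |((D.c i y : ℤ) : ℝ)| < 1 := hy i
        have h2 : |D.c i y| < 1 := by exact_mod_cast h1
        exact Int.abs_lt_one_iff.mp h2
      funext i
      show ((D.c i y : ℤ) : ℝ) = 0
      rw [h0 i]; simp
  coco := by
    obtain ⟨C, hC, hC2⟩ := isCompact_closure_cube R
    refine ⟨C⁻¹, hC.inv, fun x => ?_⟩
    obtain ⟨y, c, hc, rfl⟩ := R.exists_cube_left x
    refine ⟨(R.ι y)⁻¹, inv_mem ⟨y, rfl⟩, ?_⟩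
    rw [inv_mul_cancel_left]
    exact hC2 hc

end Vale.Agent.P188.H131

end

section

/-!
# Induced `S`-sets

`j : G →* S`, every `s : S` is `j (fl s) * r (π s)` (rounding).  A right `G`-set `X` induces the
right `S`-set `X × Q`.
-/

set_option linter.unusedSectionVars false

universe u v w x y

namespace Vale.Agent.P188.H382

open Finset Vale.Agent.P188 Agent.P188.H428 Vale.Agent.P188.H131

/-- A rounding of `S` to `G`. -/
structure Rounding (S : Type u) [Group S] (G : Type v) [Group G] (Q : Type w) where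
  j : G →* S
  fl : S → G
  π : S → Q
  r : Q → S
  eq : ∀ s, j (fl s) * r (π s) = s
  π_j : ∀ g s, π (j g * s) = π s
  fl_j : ∀ g s, fl (j g * s) = g * fl s
  π_r : ∀ q, π (r q) = q
  fl_r : ∀ q, fl (r q) = 1

section

variable {S : Type u} [Group S] {G : Type v} [Group G] {Q : Type w} (ρ : Rounding S G Q)
  {X : Type x}

lemma Rounding.r_π (s : S) : ρ.r (ρ.π s) = (ρ.j (ρ.fl s))⁻¹ * s := by
  have := ρ.eq s
  rw [eq_inv_mul_iff_mul_eq]; exact this

lemma Rounding.step (s t : S) : ρ.π (ρ.r (ρ.π s) * t) = ρ.π (s * t) := by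
  rw [ρ.r_π, mul_assoc, ← map_inv, ρ.π_j]

lemma Rounding.step_fl (s t : S) : ρ.fl (ρ.r (ρ.π s) * t) = (ρ.fl s)⁻¹ * ρ.fl (s * t) := by
  rw [ρ.r_π, mul_assoc, ← map_inv, ρ.fl_j]

/-- The induced `S`-set. -/
def ind (A0 : RAct G X) : RAct S (X × Q) where
  act z s := (A0.act z.1 (ρ.fl (ρ.r z.2 * s)), ρ.π (ρ.r z.2 * s))
  one z := by
    rw [mul_one, ρ.fl_r, ρ.π_r, A0.one]
  mul z s t := by
    simp only
    rw [ρ.step, ρ.step_fl, A0.mul, mul_assoc, mul_inv_cancel_left]

lemma ind_act (A0 : RAct G X) (x : X) (q : Q) (s : S) :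
    (ind ρ A0).act (x, q) s = (A0.act x (ρ.fl (ρ.r q * s)), ρ.π (ρ.r q * s)) := rfl

/-- The mean on the induced `S`-set. -/
def indMean (lam : (Q → ℝ) → ℝ) (m : (X → ℝ) → ℝ) (f : X × Q → ℝ) : ℝ :=
  lam fun q => m fun x => f (x, q)

/-- the mean on `Q` coming from a mean on `S`. -/
def qMean (m : (S → ℝ) → ℝ) (f : Q → ℝ) : ℝ := m fun s => f (ρ.π s)

lemma IsMean.bdd_inner {Y : Type y} {m : (X → ℝ) → ℝ} (hm : IsMean m) {f : X → Y → ℝ}
    (hf : ∃ M : ℝ, ∀ x y, |f x y| ≤ M) : Bdd (fun y => m fun x => f x y) := by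
  obtain ⟨M, hM⟩ := hf
  exact ⟨M, fun y => hm.abs_le fun x => hM x y⟩

/-- product of means -/
lemma isMean_prod {Y : Type y} {m : (X → ℝ) → ℝ} (hm : IsMean m) {lam : (Y → ℝ) → ℝ}
    (hl : IsMean lam) : IsMean (fun f : X × Y → ℝ => lam fun q => m fun x => f (x, q)) where
  add f g hf hg := by
    obtain ⟨M, hM⟩ := hf
    obtain ⟨M', hM'⟩ := hg
    have h1 : (fun q => m fun x => (f + g) (x, q))
        = (fun q => m fun x => f (x, q)) + fun q => m fun x => g (x, q) := by
      funext q
      exact hm.add _ _ ⟨M, fun x => hM _⟩ ⟨M', fun x => hM' _⟩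
    rw [h1]
    exact hl.add _ _ (IsMean.bdd_inner hm ⟨M, fun x y => hM (x, y)⟩)
      (IsMean.bdd_inner hm ⟨M', fun x y => hM' (x, y)⟩)
  smul a f hf := by
    obtain ⟨M, hM⟩ := hf
    have h1 : (fun q => m fun x => a * f (x, q)) = fun q => a * m fun x => f (x, q) := by
      funext q
      exact hm.smul a _ ⟨M, fun x => hM _⟩
    rw [h1]
    exact hl.smul a _ (IsMean.bdd_inner hm ⟨M, fun x y => hM (x, y)⟩)
  nonneg f hf h := by
    obtain ⟨M, hM⟩ := hf
    exact hl.nonneg _ (IsMean.bdd_inner hm ⟨M, fun x y => hM (x, y)⟩)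
      fun q => hm.nonneg _ ⟨M, fun x => hM _⟩ fun x => h _
  one := by
    have : (fun _ : Y => m fun _ => (1 : ℝ)) = fun _ => 1 := by funext; exact hm.one
    rw [this]; exact hl.one

theorem qMean_isMean {m : (S → ℝ) → ℝ} (hm : IsMean m) : IsMean (qMean ρ m) :=
  IsMean.map hm _

theorem invMean_ind (A0 : RAct G X) {m0 : (X → ℝ) → ℝ} (hm0 : InvMean A0 m0)
    {m : (S → ℝ) → ℝ} (hm : IsMean m) (hinv : ∀ (s : S) f, Bdd f → m (fun t => f (t * s)) = m f) :
    InvMean (ind ρ A0) (indMean (qMean ρ m) m0) where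
  mean := isMean_prod hm0.mean (qMean_isMean ρ hm)
  inv s f hf := by
    obtain ⟨M, hM⟩ := hf
    unfold indMean qMean
    have h1 : (fun t => m0 fun x => f ((ind ρ A0).act (x, ρ.π t) s))
        = fun t => (fun t' => m0 fun x => f (x, ρ.π t')) (t * s) := by
      funext t
      simp only [ind_act, ρ.step]
      exact hm0.inv (ρ.fl (ρ.r (ρ.π t) * s)) (fun x => f (x, ρ.π (t * s))) ⟨M, fun x => hM _⟩
    rw [h1]
    exact hinv s (fun t' => m0 fun x => f (x, ρ.π t'))
      ⟨M, fun t => hm0.mean.abs_le fun x => hM (x, ρ.π t)⟩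

/-- a pulled back function has the same mean -/
lemma indMean_fst {m : (S → ℝ) → ℝ} (hm : IsMean m) (m0 : (X → ℝ) → ℝ) (f : X → ℝ) :
    indMean (qMean ρ m) m0 (fun z => f z.1) = m0 f := by
  unfold indMean qMean
  exact hm.const (m0 f)

variable (S) in
/-- `S` acting on itself. -/
def selfAct : RAct S S where
  act z s := z * s
  one := mul_one
  mul := mul_assoc

variable {E : Type*} [NormedAddCommGroup E]

lemma lip_ind (A0 : RAct G X) (W : X → E) (L0 : ℝ) (hL0 : 0 ≤ L0) (lG : G → ℕ) (l : S → ℕ)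
    (C : ℕ) (hW : ∀ x g, ‖W (A0.act x g) - W x‖ ≤ L0 * lG g)
    (hC : ∀ q s, lG (ρ.fl (ρ.r q * s)) ≤ C * l s) (z : X × Q) (s : S) :
    ‖(fun z : X × Q => W z.1) ((ind ρ A0).act z s) - (fun z : X × Q => W z.1) z‖
      ≤ (L0 * C) * l s := by
  obtain ⟨x, q⟩ := z
  refine (hW x _).trans ?_
  rw [mul_assoc]
  refine mul_le_mul_of_nonneg_left ?_ hL0
  exact_mod_cast hC q s

lemma flat_ind {I : Type*} (φ : I → S) (A0 : RAct G X) (W : X → E) (l : S → ℕ) (R1 : ℕ)
    (B : Finset I) (α ε : ℝ)
    (h : ∀ x, FlatI (selfAct S) φ l (fun s => W (A0.act x (ρ.fl s))) R1 B α ε) :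
    FlatI (ind ρ A0) φ l (fun z => W z.1) R1 B α ε := by
  intro Y g hg
  obtain ⟨x, q⟩ := Y
  exact h x (ρ.r q) g hg

end

end Vale.Agent.P188.H382

end

section

/-!
Lebesgue measure on a Lie subalgebra `e` of `V` is transported by `Ex` to a bi-invariant measure
on the group `exp e`.
-/

open MeasureTheory MeasureTheory.Measure Topology Set Filter Vale.Agent.P188.H796
  Vale.Agent.P188.H615
open scoped ENNReal

set_option linter.unusedSectionVars false

universe u v

namespace Vale.Agent.P188.H131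

section exlg

variable {A : Type v} [NormedRing A] [NormedAlgebra ℝ A]

theorem differentiable_ex (m : ℕ) : Differentiable ℝ (fun v : A => ex m v) := by
  unfold ex
  fun_prop

theorem differentiable_lg (m : ℕ) : Differentiable ℝ (fun v : A => lg m v) := by
  unfold lg
  fun_prop

end exlg

variable {N : Type u} [Group N] {d n : ℕ} {D : MB N d n} {A : Type v} [NormedRing A]
  [NormedAlgebra ℝ A] [FiniteDimensional ℝ A] (R : RD D A)

section alg

variable {R} {e : Submodule ℝ R.V} (he : ∀ x ∈ e, ∀ y ∈ e, ⁅x, y⁆ ∈ e)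

/-- left translation in logarithmic coordinates -/
noncomputable def LT (x : ExS R e he) (v : e) : e :=
  ⟨R.Lo (x * R.Ex v), (ExS R e he).mul_mem x.2 (by rw [mem_ExS, R.Lo_Ex]; exact v.2)⟩

/-- right translation in logarithmic coordinates -/
noncomputable def RT (x : ExS R e he) (v : e) : e :=
  ⟨R.Lo (R.Ex v * x), (ExS R e he).mul_mem (by rw [mem_ExS, R.Lo_Ex]; exact v.2) x.2⟩

theorem coe_LT (x : ExS R e he) (v : e) : ((LT he x v : e) : R.V) = R.Lo (x * R.Ex v) := rfl

theorem coe_RT (x : ExS R e he) (v : e) : ((RT he x v : e) : R.V) = R.Lo (R.Ex v * x) := rfl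

theorem Ex_LT (x : ExS R e he) (v : e) : R.Ex (LT he x v) = x * R.Ex v := by
  rw [coe_LT, R.Ex_Lo]

theorem Ex_RT (x : ExS R e he) (v : e) : R.Ex (RT he x v) = R.Ex v * x := by
  rw [coe_RT, R.Ex_Lo]

theorem LT_mul (x y : ExS R e he) (v : e) : LT he (x * y) v = LT he x (LT he y v) := by
  apply Subtype.ext
  rw [coe_LT, coe_LT, Ex_LT, ← mul_assoc]; rfl

theorem LT_one (v : e) : LT he 1 v = v := by
  apply Subtype.ext
  rw [coe_LT, OneMemClass.coe_one, one_mul, R.Lo_Ex]

theorem LT_bijective (x : ExS R e he) : Function.Bijective (LT he x) := by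
  constructor
  · intro v w h
    have := congrArg (LT he x⁻¹) h
    rwa [← LT_mul, ← LT_mul, inv_mul_cancel, LT_one, LT_one] at this
  · intro v
    exact ⟨LT he x⁻¹ v, by rw [← LT_mul, mul_inv_cancel, LT_one]⟩

theorem RT_eq (x : ExS R e he) (v : e) : RT he x v = - LT he x⁻¹ (-v) := by
  apply Subtype.ext
  rw [coe_RT, Submodule.coe_neg, coe_LT, Submodule.coe_neg, R.Ex_neg, InvMemClass.coe_inv,
    ← mul_inv_rev, Lo_inv, neg_neg]

theorem exists_left_inverse (e : Submodule ℝ R.V) :
    ∃ p : A →L[ℝ] e, ∀ v : e, p ((v : R.V) : A) = v := by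
  obtain ⟨g, hg⟩ := LinearMap.exists_leftInverse_of_injective
    (R.V.subtype ∘ₗ e.subtype) (by
      rw [LinearMap.ker_eq_bot]
      exact (Subtype.coe_injective).comp Subtype.coe_injective)
  refine ⟨LinearMap.toContinuousLinearMap g, fun v => ?_⟩
  have := LinearMap.congr_fun hg v
  exact this

theorem differentiable_LT (x : ExS R e he) : Differentiable ℝ (LT he x) := by
  obtain ⟨p, hp⟩ := exists_left_inverse e
  have h : LT he x = fun v : e => p (lg R.m (R.toA x * ex R.m ((v : R.V) : A))) := by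
    funext v
    rw [← coe_Lo_mul_Ex R, ← coe_LT he x v, hp]
  rw [h]
  have h1 : Differentiable ℝ (fun v : e => ((v : R.V) : A)) := by
    have : (fun v : e => ((v : R.V) : A)) = (R.V.subtypeL.comp e.subtypeL : e →L[ℝ] A) := rfl
    rw [this]
    exact ContinuousLinearMap.differentiable _
  have h2 : Differentiable ℝ (fun v : e => ex R.m ((v : R.V) : A)) :=
    Differentiable.comp (g := fun v : A => ex R.m v) (f := fun v : e => ((v : R.V) : A))
      (differentiable_ex R.m) h1
  have h3 : Differentiable ℝ (fun v : e => R.toA x * ex R.m ((v : R.V) : A)) :=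
    Differentiable.const_mul (𝕜 := ℝ) (E := e) h2 (R.toA (x : R.NR))
  have h4 : Differentiable ℝ (fun v : e => lg R.m (R.toA x * ex R.m ((v : R.V) : A))) :=
    Differentiable.comp (g := fun v : A => lg R.m v)
      (f := fun v : e => R.toA x * ex R.m ((v : R.V) : A)) (differentiable_lg R.m) h3
  exact Differentiable.comp (g := fun a : A => p a)
      (f := fun v : e => lg R.m (R.toA x * ex R.m ((v : R.V) : A))) p.differentiable h4

theorem tri_LT (x : ExS R e he) (i : ℕ) (v u : e) (hu : (u : R.V) ∈ gam R e i) :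
    ((LT he x (v + u) - LT he x v - u : e) : R.V) ∈ gam R e (i + 1) := by
  have := Lo_mul_Ex_add' R (gam_le he i) (gam_succ_le he i)
    (fun x hx y hy => lie_mem_gam hx hy) (x : R.NR) v.2 hu
    ((ExS R e he).mul_mem x.2 (by rw [mem_ExS, R.Lo_Ex]; exact v.2))
  exact this

end alg

section meas

variable [MeasurableSpace A] [BorelSpace A] {R} {e : Submodule ℝ R.V}
  (he : ∀ x ∈ e, ∀ y ∈ e, ⁅x, y⁆ ∈ e)

theorem mp_LT (μ : Measure e) [μ.IsAddHaarMeasure] (x : ExS R e he) :
    MeasurePreserving (LT he x) μ μ := by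
  refine tri_mp μ (differentiable_LT he x) (LT_bijective he x)
    (fun i => (gam R e i).comap e.subtype) ?_ (c := R.m) ?_ ?_
  · rw [eq_top_iff]
    intro v _
    exact v.2
  · rw [gam_eq_bot (by omega), eq_bot_iff]
    intro v hv
    have : (v : R.V) = 0 := by simpa using hv
    simpa using this
  · intro i v u hu
    exact tri_LT he x i v u hu

theorem mp_RT (μ : Measure e) [μ.IsAddHaarMeasure] (x : ExS R e he) :
    MeasurePreserving (RT he x) μ μ := by
  have h1 : RT he x = (fun v => -v) ∘ (LT he x⁻¹) ∘ (fun v => -v) := by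
    funext v
    rw [RT_eq]; rfl
  rw [h1]
  have h2 : MeasurePreserving (fun v : e => -v) μ μ := Measure.measurePreserving_neg μ
  exact h2.comp ((mp_LT he μ x⁻¹).comp h2)

end meas

end Vale.Agent.P188.H131

end

section

/-!
# Good points of an `S`-set

A finite family of conditions: `z` is good if for every `k ∈ K` and most `i ∈ Lam k`, `W` moves
little from `z` to `z * ψ k i`.
-/

set_option linter.unusedSectionVars false

universe u v w x y y'

namespace Vale.Agent.P188.H382

open Finset Vale.Agent.P188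

variable {S : Type u} [Group S] {X : Type v} (A : RAct S X) {μ : (X → ℝ) → ℝ}
variable {E : Type w} [NormedAddCommGroup E] {κ : Type y} {I : Type y'}

open Classical in
/-- Good points. -/
def GoodS (W : X → E) (τ θ : ℝ) (K : Finset κ) (Lam : κ → Finset I) (ψ : κ → I → S) (z : X) :
    Prop :=
  ∀ k ∈ K, (((Lam k).filter fun i => τ < ‖W (A.act z (ψ k i)) - W z‖).card : ℝ)
    ≤ θ * (Lam k).card

open Classical in
/-- Bad points are rare. -/
theorem mean_not_good_le (hμ : InvMean A μ) (W : X → E) (τ θ δ : ℝ) (hθ : 0 < θ)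
    (K : Finset κ) (Lam : κ → Finset I) (ψ : κ → I → S)
    (hdev : ∀ k ∈ K, ∀ i ∈ Lam k, dev A μ W τ (ψ k i) ≤ δ) (hδ : 0 ≤ δ) :
    μ (fun z => if GoodS A W τ θ K Lam ψ z then 0 else 1) ≤ K.card * (δ / θ) := by
  have hm := hμ.mean
  set F : κ → X → ℝ := fun k z => (1 / (θ * (Lam k).card)) *
    ∑ i ∈ Lam k, (if τ < ‖W (A.act z (ψ k i)) - W z‖ then (1 : ℝ) else 0) with hF
  have hFs : ∀ k, Bdd (fun z => ∑ i ∈ Lam k,
      (if τ < ‖W (A.act z (ψ k i)) - W z‖ then (1 : ℝ) else 0)) := fun k =>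
    Bdd.sum' _ _ fun i _ => bdd_ite _
  have hFb : ∀ k, Bdd (F k) := fun k => (hFs k).const_mul _
  have hF0 : ∀ k z, 0 ≤ F k z := by
    intro k z
    refine mul_nonneg (by positivity) (Finset.sum_nonneg fun i _ => ?_)
    split_ifs <;> norm_num
  have h1 : ∀ z, (if GoodS A W τ θ K Lam ψ z then (0 : ℝ) else 1) ≤ ∑ k ∈ K, F k z := by
    intro z
    split_ifs with h
    · exact Finset.sum_nonneg fun k _ => hF0 k z
    · unfold GoodS at h
      push Not at h
      obtain ⟨k, hk, hk2⟩ := h
      have h2 : 1 ≤ F k z := by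
        have hcard : 0 < ((Lam k).card : ℝ) := by
          by_contra h0
          have h0' : (Lam k).card = 0 := by
            have : ((Lam k).card : ℝ) ≤ 0 := not_lt.1 h0
            exact_mod_cast le_antisymm this (Nat.cast_nonneg _)
          rw [Finset.card_eq_zero] at h0'
          rw [h0'] at hk2
          simp at hk2
        rw [hF]
        simp only
        rw [← Finset.sum_filter, Finset.sum_const, nsmul_eq_mul, mul_one, one_div,
          le_inv_mul_iff₀ (by positivity), mul_one]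
        exact hk2.le
      exact h2.trans (Finset.single_le_sum (fun k _ => hF0 k z) hk)
  have h2 := hm.le (g := fun z => ∑ k ∈ K, F k z) (by
    refine ⟨1, fun z => ?_⟩
    dsimp only
    split_ifs <;> simp) (Bdd.sum' K F fun k _ => hFb k) h1
  refine h2.trans ?_
  rw [(hm.sum K F fun k _ => hFb k).2]
  calc ∑ k ∈ K, μ (F k) ≤ ∑ _k ∈ K, δ / θ := by
        refine Finset.sum_le_sum fun k hk => ?_
        rw [hF]
        simp only
        rw [hm.smul _ _ (hFs k), (hm.sum (Lam k) _ fun i _ => bdd_ite _).2]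
        have h3 : ∑ i ∈ Lam k, μ (fun z => if τ < ‖W (A.act z (ψ k i)) - W z‖ then (1 : ℝ) else 0)
            ≤ ∑ _i ∈ Lam k, δ := Finset.sum_le_sum fun i hi => by
              have := hdev k hk i hi
              unfold dev at this
              exact this
        rw [Finset.sum_const, nsmul_eq_mul] at h3
        rcases (Lam k).card.eq_zero_or_pos with h0 | h0
        · rw [h0]; simp; positivity
        · have h0' : (0 : ℝ) < (Lam k).card := by exact_mod_cast h0
          calc 1 / (θ * (Lam k).card) * ∑ i ∈ Lam k,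
                μ (fun z => if τ < ‖W (A.act z (ψ k i)) - W z‖ then (1 : ℝ) else 0)
              ≤ 1 / (θ * (Lam k).card) * ((Lam k).card * δ) :=
                mul_le_mul_of_nonneg_left h3 (by positivity)
            _ = δ / θ := by field_simp
    _ = K.card * (δ / θ) := by rw [Finset.sum_const, nsmul_eq_mul]

open Classical in
/-- Two good points `z`, `z * s` whose boxes match up to bounded error have close values. -/
theorem good_close (W : X → E) (l : S → ℕ) (L : ℝ) (hL : 0 ≤ L)
    (hW : ∀ z h, ‖W (A.act z h) - W z‖ ≤ L * l h) (τ θ : ℝ)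
    (K : Finset κ) (Lam : κ → Finset I) (ψ : κ → I → S) (z : X) (s : S)
    (hz : GoodS A W τ θ K Lam ψ z) (hzs : GoodS A W τ θ K Lam ψ (A.act z s))
    (k1 k2 : κ) (hk1 : k1 ∈ K) (hk2 : k2 ∈ K) (Φ : I → I) (M C : ℕ)
    (hΦ : ∀ i ∈ Lam k1, Φ i ∈ Lam k2)
    (hM : ∀ i' ∈ Lam k2, ((Lam k1).filter fun i => Φ i = i').card ≤ M)
    (hC : ∀ i ∈ Lam k1, l ((s * ψ k1 i)⁻¹ * ψ k2 (Φ i)) ≤ C)
    (hcount : M * (θ * (Lam k2).card) + θ * (Lam k1).card < (Lam k1).card) :
    ‖W (A.act z s) - W z‖ ≤ 2 * τ + L * C := by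
  have h2 := hz k2 hk2
  have h1 := hzs k1 hk1
  set bad1 := (Lam k1).filter fun i => τ < ‖W (A.act (A.act z s) (ψ k1 i)) - W (A.act z s)‖
    with hbad1
  set bad2 := (Lam k2).filter fun i => τ < ‖W (A.act z (ψ k2 i)) - W z‖ with hbad2
  set pre := (Lam k1).filter fun i => Φ i ∈ bad2 with hpre
  have hprecard : (pre.card : ℝ) ≤ M * bad2.card := by
    have : pre.card ≤ M * bad2.card := by
      have h3 : pre ⊆ bad2.biUnion fun i' => (Lam k1).filter fun i => Φ i = i' := by
        intro i hi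
        rw [hpre, Finset.mem_filter] at hi
        rw [Finset.mem_biUnion]
        exact ⟨Φ i, hi.2, Finset.mem_filter.2 ⟨hi.1, rfl⟩⟩
      refine (Finset.card_le_card h3).trans (Finset.card_biUnion_le.trans ?_)
      calc ∑ i' ∈ bad2, ((Lam k1).filter fun i => Φ i = i').card ≤ ∑ _i' ∈ bad2, M :=
            Finset.sum_le_sum fun i' hi' => hM i' (Finset.mem_filter.1 hi').1
        _ = M * bad2.card := by rw [Finset.sum_const, smul_eq_mul, mul_comm]
    exact_mod_cast this
  have hex : ∃ i ∈ Lam k1, i ∉ bad1 ∧ i ∉ pre := by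
    by_contra hcon
    push Not at hcon
    have h3 : Lam k1 ⊆ bad1 ∪ pre := by
      intro i hi
      rw [Finset.mem_union]
      by_cases h : i ∈ bad1
      · exact Or.inl h
      · exact Or.inr (hcon i hi h)
    have h4 : ((Lam k1).card : ℝ) ≤ bad1.card + pre.card := by
      exact_mod_cast (Finset.card_le_card h3).trans (Finset.card_union_le _ _)
    have h5 : (M : ℝ) * bad2.card ≤ M * (θ * (Lam k2).card) :=
      mul_le_mul_of_nonneg_left h2 (Nat.cast_nonneg _)
    linarith
  obtain ⟨i, hi, hi1, hi2⟩ := hex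
  have e1 : ‖W (A.act (A.act z s) (ψ k1 i)) - W (A.act z s)‖ ≤ τ := by
    by_contra h
    exact hi1 (Finset.mem_filter.2 ⟨hi, not_le.1 h⟩)
  have e2 : ‖W (A.act z (ψ k2 (Φ i))) - W z‖ ≤ τ := by
    by_contra h
    exact hi2 (Finset.mem_filter.2 ⟨hi, Finset.mem_filter.2 ⟨hΦ i hi, not_le.1 h⟩⟩)
  have e3 : ‖W (A.act z (ψ k2 (Φ i))) - W (A.act (A.act z s) (ψ k1 i))‖ ≤ L * C := by
    have h6 := hW (A.act (A.act z s) (ψ k1 i)) ((s * ψ k1 i)⁻¹ * ψ k2 (Φ i))
    rw [A.mul, A.mul,
      show s * (ψ k1 i * ((s * ψ k1 i)⁻¹ * ψ k2 (Φ i))) = ψ k2 (Φ i) by group] at h6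
    refine h6.trans (mul_le_mul_of_nonneg_left ?_ hL)
    exact_mod_cast hC i hi
  calc ‖W (A.act z s) - W z‖
      = ‖-(W (A.act (A.act z s) (ψ k1 i)) - W (A.act z s)) +
          (-(W (A.act z (ψ k2 (Φ i))) - W (A.act (A.act z s) (ψ k1 i))) +
            (W (A.act z (ψ k2 (Φ i))) - W z))‖ := by congr 1; abel
    _ ≤ ‖-(W (A.act (A.act z s) (ψ k1 i)) - W (A.act z s))‖ +
          (‖-(W (A.act z (ψ k2 (Φ i))) - W (A.act (A.act z s) (ψ k1 i)))‖ +
            ‖W (A.act z (ψ k2 (Φ i))) - W z‖) :=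
        (norm_add_le _ _).trans (add_le_add_right (norm_add_le _ _) _)
    _ ≤ τ + (L * C + τ) := by
        rw [norm_neg, norm_neg]
        exact add_le_add e1 (add_le_add e3 e2)
    _ = 2 * τ + L * C := by ring

end Vale.Agent.P188.H382

end

section

/-!
Haar measure of the real group `R.NR` as a product over an ideal `e` and a complement `W`.
-/

open MeasureTheory MeasureTheory.Measure Topology Set Filter Vale.Agent.P188.H796
  Vale.Agent.P188.H615
open scoped ENNReal

set_option linter.unusedSectionVars false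

universe u v

namespace Vale.Agent.P188.H131

variable {N : Type u} [Group N] {d n : ℕ} {D : MB N d n} {A : Type v} [NormedRing A]
  [NormedAlgebra ℝ A] [FiniteDimensional ℝ A] (R : RD D A)

variable {R} {e : Submodule ℝ R.V}

theorem top_lie : ∀ x ∈ (⊤ : Submodule ℝ R.V), ∀ y ∈ (⊤ : Submodule ℝ R.V),
    ⁅x, y⁆ ∈ (⊤ : Submodule ℝ R.V) := fun _ _ _ _ => Submodule.mem_top

/-- translations in logarithmic coordinates preserve Lebesgue measure on `V` -/
theorem mp_LTV [MeasurableSpace A] [BorelSpace A] (R : RD D A) (μ : Measure R.V)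
    [μ.IsAddHaarMeasure] (x : R.NR) : MeasurePreserving (fun v => R.Lo (x * R.Ex v)) μ μ := by
  refine tri_mp μ ?_ ?_ (fun i => gam R ⊤ i) rfl (c := R.m) (gam_eq_bot (by omega)) ?_
  · have h : (fun v => R.Lo (x * R.Ex v)) =
        fun v : R.V => (LT top_lie ⟨x, show R.Lo x ∈ (⊤ : Submodule ℝ R.V) from Submodule.mem_top⟩
          (⟨v, Submodule.mem_top⟩ : (⊤ : Submodule ℝ R.V)) : R.V) := rfl
    rw [h]
    have h1 : Differentiable ℝ (fun v : R.V => (⟨v, Submodule.mem_top⟩ : (⊤ : Submodule ℝ R.V))) := by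
      have : (fun v : R.V => (⟨v, Submodule.mem_top⟩ : (⊤ : Submodule ℝ R.V))) =
        (LinearMap.toContinuousLinearMap
          ((Submodule.topEquiv (R := ℝ) (M := R.V)).symm : R.V →ₗ[ℝ] (⊤ : Submodule ℝ R.V))) := rfl
      rw [this]
      exact ContinuousLinearMap.differentiable _
    have h2 : Differentiable ℝ (fun v : (⊤ : Submodule ℝ R.V) => (v : R.V)) :=
      (⊤ : Submodule ℝ R.V).subtypeL.differentiable
    have h3 := differentiable_LT (R := R) top_lie
      ⟨x, show R.Lo x ∈ (⊤ : Submodule ℝ R.V) from Submodule.mem_top⟩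
    have h4 : Differentiable ℝ (fun v : R.V => LT top_lie
        ⟨x, show R.Lo x ∈ (⊤ : Submodule ℝ R.V) from Submodule.mem_top⟩
        (⟨v, Submodule.mem_top⟩ : (⊤ : Submodule ℝ R.V))) := Differentiable.comp
        (g := LT top_lie ⟨x, show R.Lo x ∈ (⊤ : Submodule ℝ R.V) from Submodule.mem_top⟩)
        (f := fun v : R.V => (⟨v, Submodule.mem_top⟩ : (⊤ : Submodule ℝ R.V))) h3 h1
    exact Differentiable.comp (g := fun v : (⊤ : Submodule ℝ R.V) => (v : R.V))
      (f := fun v : R.V => LT top_lie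
        ⟨x, show R.Lo x ∈ (⊤ : Submodule ℝ R.V) from Submodule.mem_top⟩
        (⟨v, Submodule.mem_top⟩ : (⊤ : Submodule ℝ R.V))) h2 h4
  · constructor
    · intro v w h
      have := congrArg R.Ex h
      simp only [R.Ex_Lo] at this
      exact R.Ex_injective (mul_left_cancel this)
    · intro v
      refine ⟨R.Lo (x⁻¹ * R.Ex v), ?_⟩
      simp only [R.Ex_Lo, mul_inv_cancel_left, R.Lo_Ex]
  · intro i v u hu
    exact Lo_mul_Ex_add' R (H := ⊤) le_top (gam_succ_le top_lie i)
      (fun x hx y hy => lie_mem_gam Submodule.mem_top hy) x Submodule.mem_top hu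
      Submodule.mem_top

/-- the image of Lebesgue measure under `Ex` -/
noncomputable def muK [MeasurableSpace A] [BorelSpace A] (R : RD D A) (μ : Measure R.V) :
    Measure R.NR := μ.map R.Ex

theorem isHaar_muK [MeasurableSpace A] [BorelSpace A] (R : RD D A) (μ : Measure R.V)
    [μ.IsAddHaarMeasure] : IsHaarMeasure (muK R μ) where
  lt_top_of_isCompact := by
    intro K hK
    unfold muK
    rw [map_apply R.continuous_Ex.measurable hK.measurableSet]
    have : R.Ex ⁻¹' K = R.Lo '' K := by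
      ext v
      constructor
      · intro hv; exact ⟨_, hv, R.Lo_Ex v⟩
      · rintro ⟨k, hk, rfl⟩
        rw [mem_preimage, R.Ex_Lo]; exact hk
    rw [this]
    exact (hK.image R.continuous_Lo).measure_lt_top
  map_mul_left_eq_self := by
    intro x
    unfold muK
    rw [map_map (measurable_const_mul x) R.continuous_Ex.measurable]
    conv_rhs => rw [← (mp_LTV R μ x).map_eq]
    rw [map_map R.continuous_Ex.measurable (mp_LTV R μ x).measurable]
    congr 1
    funext v
    simp only [Function.comp, R.Ex_Lo]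
  open_pos := by
    intro U hU hne
    unfold muK
    rw [map_apply R.continuous_Ex.measurable hU.measurableSet]
    refine (hU.preimage R.continuous_Ex).measure_ne_zero μ ?_
    obtain ⟨k, hk⟩ := hne
    exact ⟨R.Lo k, by rw [mem_preimage, R.Ex_Lo]; exact hk⟩

section prod

variable (R) (W : Submodule ℝ R.V) (hW : IsCompl e W)

variable (hid : ∀ x : R.V, ∀ y ∈ e, ⁅x, y⁆ ∈ e)

include hid

end prod

end Vale.Agent.P188.H131

end

section

/-!
Homomorphisms `N → ℂ` extend to the real group, and are linear functionals of the logarithm.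
-/

open Topology Set Filter Vale.Agent.P188.H796 Vale.Agent.P188.H615

set_option linter.unusedSectionVars false

universe u v

namespace Vale.Agent.P188.H131

variable {N : Type u} [Group N] {d n : ℕ} {D : MB N d n} {A : Type v} [NormedRing A]
  [NormedAlgebra ℝ A] [FiniteDimensional ℝ A] (R : RD D A)

/-- the extension to the real group -/
noncomputable def PhiR (φ : N → ℂ) (s : R.NR) : ℂ := ∑ i, (s i : ℝ) • φ (D.b i)

variable {φ : N → ℂ} (hφ : ∀ x y, φ (x * y) = φ x + φ y)

theorem PC_PhiR (φ : N → ℂ) {γ : ℝ → Fin d → ℝ} (hγ : ∀ i, PC fun t => γ t i) :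
    PC fun t => PhiR R φ (γ t) :=
  PC.sum _ fun i _ => (hγ i).smul (PC.const _)

theorem PC_coord {γ : ℝ → R.NR} (hγ : PC fun t => R.toA (γ t)) (i : Fin d) :
    PC fun t => (γ t i : ℝ) := by
  refine (hγ.map (R.ℓ i)).congr fun t => ?_
  exact (R.ℓ_toA (γ t) i).symm

include hφ

theorem hom_one : φ 1 = 0 := by
  have := hφ 1 1
  rw [mul_one] at this
  exact left_eq_add.1 this

theorem hom_zpow (x : N) (k : ℤ) : φ (x ^ k) = (k : ℂ) * φ x := by
  let f : N →* Multiplicative ℂ :=
    { toFun := fun x => Multiplicative.ofAdd (φ x)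
      map_one' := by rw [hom_one hφ]; rfl
      map_mul' := fun x y => by rw [hφ]; rfl }
  have h := map_zpow f x k
  have h2 : φ (x ^ k) = Multiplicative.toAdd (f x ^ k) := by rw [← h]; rfl
  rw [h2, toAdd_zpow]
  show k • φ x = _
  rw [zsmul_eq_mul]

theorem hom_list (l : List N) : φ l.prod = (l.map φ).sum := by
  induction l with
  | nil => simp [hom_one hφ]
  | cons a l ih => rw [List.prod_cons, hφ, ih, List.map_cons, List.sum_cons]

theorem PhiR_ι (y : N) : PhiR R φ (R.ι y) = φ y := by
  conv_rhs => rw [← D.prod_c y, hom_list hφ, List.map_ofFn, List.sum_ofFn]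
  unfold PhiR
  refine Finset.sum_congr rfl fun i _ => ?_
  rw [Function.comp_apply, hom_zpow hφ, R.ι_apply, Complex.real_smul]
  push_cast
  rfl

theorem PhiR_mul (s t : R.NR) : PhiR R φ (s * t) = PhiR R φ s + PhiR R φ t := by
  have h1 : ∀ (y : N) (s : R.NR), PhiR R φ (s * R.ι y) = PhiR R φ s + φ y := by
    intro y
    refine R.dens (f := fun s => PhiR R φ (s * R.ι y)) (g := fun s => PhiR R φ s + φ y) ?_ ?_ ?_
    · intro γ hγ
      let γ' : ℝ → R.NR := fun t => γ t
      refine PC_PhiR R φ (γ := fun t => γ' t * R.ι y) fun i => ?_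
      refine PC_coord R (γ := fun t => γ' t * R.ι y) ?_ i
      refine ((R.PC_E hγ).mul (PC.const (R.toA (R.ι y)))).congr fun t => ?_
      exact map_mul R.toA (γ' t) (R.ι y)
    · intro γ hγ
      exact (PC_PhiR R φ hγ).add (PC.const _)
    · intro x
      rw [← map_mul, PhiR_ι R hφ, PhiR_ι R hφ, hφ]
  refine R.dens (f := fun t => PhiR R φ (s * t)) (g := fun t => PhiR R φ s + PhiR R φ t)
    ?_ ?_ ?_ t
  · intro γ hγ
    let γ' : ℝ → R.NR := fun t => γ t
    refine PC_PhiR R φ (γ := fun t => s * γ' t) fun i => ?_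
    refine PC_coord R (γ := fun t => s * γ' t) ?_ i
    refine ((PC.const (R.toA s)).mul (R.PC_E hγ)).congr fun t => ?_
    exact map_mul R.toA s (γ' t)
  · intro γ hγ
    exact (PC.const _).add (PC_PhiR R φ hγ)
  · intro y
    rw [h1, PhiR_ι R hφ]

theorem PhiR_smul (v : R.V) (t : ℝ) : PhiR R φ (R.Ex (t • v)) = t • PhiR R φ (R.Ex v) := by
  have hp : PC fun t : ℝ => PhiR R φ (R.Ex (t • v)) := by
    refine PC_PhiR R φ (γ := fun t => (R.Ex (t • v) : R.NR)) fun i => ?_
    refine PC_coord R (γ := fun t => R.Ex (t • v)) ?_ i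
    refine (PC.ex (m := R.m) (v := (v : A))).congr fun t => ?_
    rw [R.toA_Ex]; rfl
  have h1 : ∀ k : ℕ, PhiR R φ (R.Ex ((k : ℝ) • v)) = (k : ℝ) • PhiR R φ (R.Ex v) := by
    intro k
    induction k with
    | zero =>
      have := PhiR_mul R hφ 1 1
      rw [mul_one] at this
      have h0 := left_eq_add.1 this
      simp only [Nat.cast_zero, zero_smul, R.Ex_zero, h0]
    | succ k ih =>
      rw [Nat.cast_succ, R.Ex_add, PhiR_mul R hφ, ih, one_smul, add_smul, one_smul]
  exact PC.eq_of_nat hp (PC.id.smul (PC.const _)) h1 t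

/-- the extension is a linear functional of the logarithm -/
theorem exists_lin : ∃ L : R.V →ₗ[ℝ] ℂ, ∀ v, L v = PhiR R φ (R.Ex v) := by
  have hd : Differentiable ℝ (fun v : R.V => PhiR R φ (R.Ex v)) := by
    have h : (fun v : R.V => PhiR R φ (R.Ex v)) =
        fun v : R.V => ∑ i, (R.ℓ i (ex R.m (v : A))) • φ (D.b i) := by
      funext v
      unfold PhiR
      refine Finset.sum_congr rfl fun i _ => ?_
      rw [← R.toA_Ex]
      exact congrArg (fun x : ℝ => x • φ (D.b i)) (R.ℓ_toA (R.Ex v) i).symm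
    rw [h]
    have h0 : Differentiable ℝ (fun v : R.V => ex R.m (v : A)) :=
      Differentiable.comp (g := fun v : A => ex R.m v) (f := fun v : R.V => (v : A))
        (differentiable_ex R.m) R.V.subtypeL.differentiable
    refine Differentiable.fun_sum fun i _ => ?_
    refine Differentiable.smul_const ?_ _
    have h2 : Differentiable ℝ (fun a : A => R.ℓ i a) :=
      (LinearMap.toContinuousLinearMap (R.ℓ i)).differentiable
    exact Differentiable.comp (g := fun a : A => R.ℓ i a) (f := fun v : R.V => ex R.m (v : A)) h2 h0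
  set ψ : R.V → ℂ := fun v => PhiR R φ (R.Ex v) with hψ
  have h0 : ψ 0 = 0 := by
    have := PhiR_smul R hφ 0 0
    rw [zero_smul, zero_smul] at this
    exact this
  have key : ∀ v, fderiv ℝ ψ 0 v = ψ v := by
    intro v
    have h1 : HasFDerivAt ψ (fderiv ℝ ψ 0) ((fun t : ℝ => t • v) 0) := by
      simpa using (hd 0).hasFDerivAt
    have h2 : HasDerivAt (fun t : ℝ => t • v) v 0 := by
      simpa using (hasDerivAt_id (0 : ℝ)).smul_const v
    have h3 : HasDerivAt (fun t : ℝ => ψ (t • v)) (fderiv ℝ ψ 0 v) 0 :=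
      HasFDerivAt.comp_hasDerivAt (l := ψ) (f := fun t : ℝ => t • v) (0 : ℝ) h1 h2
    have h4 : (fun t : ℝ => ψ (t • v)) = fun t : ℝ => t • ψ v := by
      funext t
      exact PhiR_smul R hφ v t
    rw [h4] at h3
    have h5 : HasDerivAt (fun t : ℝ => t • ψ v) (ψ v) 0 := by
      simpa using (hasDerivAt_id (0 : ℝ)).smul_const (ψ v)
    exact h3.unique h5
  exact ⟨(fderiv ℝ ψ 0 : R.V →ₗ[ℝ] ℂ), key⟩

theorem PhiR_one : PhiR R φ 1 = 0 := by
  have := PhiR_mul R hφ 1 1
  rw [mul_one] at this
  exact left_eq_add.1 this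

theorem PhiR_inv (s : R.NR) : PhiR R φ s⁻¹ = - PhiR R φ s := by
  have := PhiR_mul R hφ s s⁻¹
  rw [mul_inv_cancel, PhiR_one R hφ] at this
  linear_combination -this

/-- the functional vanishes on brackets -/
theorem lin_lie {L : R.V →ₗ[ℝ] ℂ} (hL : ∀ v, L v = PhiR R φ (R.Ex v)) (w v : R.V) :
    L ⁅w, v⁆ = 0 := by
  -- `L (Ad (Ex (t w)) v) = L v`
  have h1 : ∀ t : ℝ, L (R.Adn (R.Ex (t • w)) v) = L v := by
    intro t
    rw [hL, R.Ex_Adn, PhiR_mul R hφ, PhiR_mul R hφ, PhiR_inv R hφ, hL]
    ring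
  obtain ⟨M, hM⟩ : ∃ M, 2 * R.m = M + 1 + 1 := ⟨2 * R.m - 2, by have := R.hm0; omega⟩
  have h2 : ∀ t : ℝ, L (R.Adn (R.Ex (t • w)) v) = L v + t • (L ⁅w, v⁆ + t •
      ∑ k ∈ Finset.range M, t ^ k • L ((((k + 2).factorial : ℝ)⁻¹) •
        ((LieAlgebra.ad ℝ R.V w) ^ (k + 2)) v)) := by
    intro t
    rw [R.Adn_Ex, hM, Finset.sum_range_succ', Finset.sum_range_succ', map_add, map_add]
    have e0 : L ((((0 : ℕ).factorial : ℝ)⁻¹) • ((LieAlgebra.ad ℝ R.V (t • w)) ^ 0) v) = L v := by
      simp
    have e1 : L ((((0 + 1 : ℕ).factorial : ℝ)⁻¹) • ((LieAlgebra.ad ℝ R.V (t • w)) ^ (0 + 1)) v) =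
        t • L ⁅w, v⁆ := by
      simp
    rw [e0, e1, map_sum, smul_add, smul_smul, Finset.smul_sum, add_comm (L v), add_assoc,
      add_comm (∑ k ∈ Finset.range M, _)]
    have e2 : ∀ k : ℕ, L ((((k + 1 + 1 : ℕ).factorial : ℝ)⁻¹) •
        ((LieAlgebra.ad ℝ R.V (t • w)) ^ (k + 1 + 1)) v) = (t * t) • (t ^ k • L ((((k + 2).factorial : ℝ)⁻¹) •
        ((LieAlgebra.ad ℝ R.V w) ^ (k + 2)) v)) := by
      intro k
      rw [map_smul (LieAlgebra.ad ℝ R.V), smul_pow, LinearMap.smul_apply, smul_comm, map_smul,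
        smul_smul]
      congr 1
      ring
    simp only [e2]
    abel
  have h3 : ∀ t : ℝ, t ≠ 0 → L ⁅w, v⁆ + t • ∑ k ∈ Finset.range M, t ^ k •
      L ((((k + 2).factorial : ℝ)⁻¹) • ((LieAlgebra.ad ℝ R.V w) ^ (k + 2)) v) = 0 := by
    intro t ht
    have := h2 t
    rw [h1] at this
    have h4 := left_eq_add.1 this
    exact (smul_eq_zero.1 h4).resolve_left ht
  have hc : Continuous fun t : ℝ => L ⁅w, v⁆ + t • ∑ k ∈ Finset.range M, t ^ k •
      L ((((k + 2).factorial : ℝ)⁻¹) • ((LieAlgebra.ad ℝ R.V w) ^ (k + 2)) v) := by fun_prop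
  have h4 : Tendsto (fun t : ℝ => L ⁅w, v⁆ + t • ∑ k ∈ Finset.range M, t ^ k •
      L ((((k + 2).factorial : ℝ)⁻¹) • ((LieAlgebra.ad ℝ R.V w) ^ (k + 2)) v)) (𝓝[≠] 0)
      (𝓝 (L ⁅w, v⁆)) := by
    have := hc.tendsto 0
    rw [zero_smul, add_zero] at this
    exact this.mono_left nhdsWithin_le_nhds
  have h5 : Tendsto (fun t : ℝ => L ⁅w, v⁆ + t • ∑ k ∈ Finset.range M, t ^ k •
      L ((((k + 2).factorial : ℝ)⁻¹) • ((LieAlgebra.ad ℝ R.V w) ^ (k + 2)) v)) (𝓝[≠] 0)
      (𝓝 0) := by
    refine tendsto_const_nhds.congr' ?_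
    filter_upwards [self_mem_nhdsWithin] with t ht
    exact (h3 t ht).symm
  exact tendsto_nhds_unique h4 h5

end Vale.Agent.P188.H131

end
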