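import Vale.Agent.P188.R.G027
import Vale.Agent.P188.R.G001

section

/-!
First pass: a poly-`ℤ` group has a finite index subgroup which is (nilpotent)-by-(abelian), with the
nilpotent part containing every nilpotent subgroup normalised by a finite index subgroup.
-/

universe u v

namespace Vale.Agent.P188.H754

open Module
open scoped commutatorElement

section flag

variable {Γ : Type u} [Group Γ] {V : Type v} [AddCommGroup V] [Module ℂ V]

/-- a flag preserved by `Γ1`, with scalar action on the quotients -/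
structure FlagData (ρ : Γ →* Module.End ℂ V) (Γ1 : Subgroup Γ) (F : ℕ → Submodule ℂ V) (m : ℕ) :
    Prop where
  zero : F 0 = ⊥
  top : F m = ⊤
  mono : Monotone F
  scal : ∀ g ∈ Γ1, ∀ i, ∃ c : ℂ, ∀ x ∈ F (i + 1), ρ g x - c • x ∈ F i

variable {ρ : Γ →* Module.End ℂ V} {Γ1 : Subgroup Γ} {F : ℕ → Submodule ℂ V} {m : ℕ}

theorem FlagData.restrict (h : FlagData ρ Γ1 F m) {Γ2 : Subgroup Γ} (h2 : Γ2 ≤ Γ1) :
    FlagData ρ Γ2 F m :=
  ⟨h.zero, h.top, h.mono, fun g hg => h.scal g (h2 hg)⟩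

theorem FlagData.inv (h : FlagData ρ Γ1 F m) {g : Γ} (hg : g ∈ Γ1) (j : ℕ) {x : V}
    (hx : x ∈ F j) : ρ g x ∈ F j := by
  cases j with
  | zero =>
    rw [h.zero, Submodule.mem_bot] at hx ⊢
    rw [hx, map_zero]
  | succ j =>
    obtain ⟨c, hc⟩ := h.scal g hg j
    have h1 := h.mono (Nat.le_succ j) (hc x hx)
    have h2 := (F (j + 1)).smul_mem c hx
    have h3 := (F (j + 1)).add_mem h1 h2
    simpa using h3

/-- the elements acting trivially on the graded pieces -/
def FlagData.unip (h : FlagData ρ Γ1 F m) : Subgroup Γ where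
  carrier := {g | g ∈ Γ1 ∧ ∀ j, ∀ x ∈ F (j + 1), ρ g x - x ∈ F j}
  one_mem' := ⟨Γ1.one_mem, fun j x _ => by simp⟩
  mul_mem' := by
    rintro a b ⟨ha, ha'⟩ ⟨hb, hb'⟩
    refine ⟨Γ1.mul_mem ha hb, fun j x hx => ?_⟩
    have h1 := ha' j _ (h.inv hb _ hx)
    have h2 := (F j).add_mem h1 (hb' j x hx)
    rw [map_mul, Module.End.mul_apply]
    simpa using h2
  inv_mem' := by
    rintro a ⟨ha, ha'⟩
    refine ⟨Γ1.inv_mem ha, fun j x hx => ?_⟩
    have h1 := ha' j _ (h.inv (Γ1.inv_mem ha) _ hx)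
    rw [ρ_apply_inv] at h1
    have h2 := (F j).neg_mem h1
    simpa using h2

theorem FlagData.mem_unip (h : FlagData ρ Γ1 F m) {g : Γ} :
    g ∈ h.unip ↔ g ∈ Γ1 ∧ ∀ j, ∀ x ∈ F (j + 1), ρ g x - x ∈ F j := Iff.rfl

theorem FlagData.unip_le (h : FlagData ρ Γ1 F m) : h.unip ≤ Γ1 := fun _ hx => hx.1

theorem FlagData.conj_mem (h : FlagData ρ Γ1 F m) {g u : Γ} (hg : g ∈ Γ1) (hu : u ∈ h.unip) :
    g * u * g⁻¹ ∈ h.unip := by
  refine ⟨Γ1.mul_mem (Γ1.mul_mem hg hu.1) (Γ1.inv_mem hg), fun j x hx => ?_⟩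
  have h1 := hu.2 j _ (h.inv (Γ1.inv_mem hg) _ hx)
  have h2 := h.inv hg _ h1
  rw [map_sub, ρ_apply_inv] at h2
  rw [map_mul, map_mul]
  simpa using h2

theorem FlagData.scal_mul (h : FlagData ρ Γ1 F m) {a b : Γ} (hb : b ∈ Γ1) (ha : a ∈ Γ1)
    {c d : ℂ} {j : ℕ}
    (hc : ∀ x ∈ F (j + 1), ρ a x - c • x ∈ F j) (hd : ∀ x ∈ F (j + 1), ρ b x - d • x ∈ F j) :
    ∀ x ∈ F (j + 1), ρ (a * b) x - (c * d) • x ∈ F j := by
  intro x hx
  have h1 := h.inv ha _ (hd x hx)
  have h2 := (F j).smul_mem d (hc x hx)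
  have h3 := (F j).add_mem h1 h2
  rw [map_sub, map_smul] at h3
  rw [map_mul, Module.End.mul_apply]
  have e : (ρ a) ((ρ b) x) - (c * d) • x
      = (ρ a) ((ρ b) x) - d • (ρ a) x + d • ((ρ a) x - c • x) := by
    rw [smul_sub, smul_smul, mul_comm d c]; abel
  rw [e]; exact h3

theorem FlagData.quot_mem (h : FlagData ρ Γ1 F m) {a b : Γ} (ha : a ∈ Γ1) (hb : b ∈ Γ1)
    (hc : ∀ j, ∃ c : ℂ, (∀ x ∈ F (j + 1), ρ a x - c • x ∈ F j) ∧
      (∀ x ∈ F (j + 1), ρ b x - c • x ∈ F j)) : b⁻¹ * a ∈ h.unip := by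
  refine ⟨Γ1.mul_mem (Γ1.inv_mem hb) ha, fun j x hx => ?_⟩
  obtain ⟨c, h1, h2⟩ := hc j
  have h3 := (F j).sub_mem (h1 x hx) (h2 x hx)
  have h4 := h.inv (Γ1.inv_mem hb) _ h3
  rw [map_mul, Module.End.mul_apply]
  have e : ρ b⁻¹ ((ρ a) x - c • x - ((ρ b) x - c • x)) = ρ b⁻¹ (ρ a x) - x := by
    rw [sub_sub_sub_cancel_right, map_sub, ρ_inv_apply]
  rw [← e]; exact h4

theorem FlagData.comm_mem (h : FlagData ρ Γ1 F m) {a b : Γ} (ha : a ∈ Γ1) (hb : b ∈ Γ1) :
    ⁅a, b⁆ ∈ h.unip := by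
  have e : ⁅a, b⁆ = (b⁻¹ * a⁻¹)⁻¹ * (a⁻¹ * b⁻¹) := by rw [commutatorElement_def]; group
  rw [e]
  have ha' := Γ1.inv_mem ha
  have hb' := Γ1.inv_mem hb
  refine h.quot_mem (Γ1.mul_mem ha' hb') (Γ1.mul_mem hb' ha') fun j => ?_
  obtain ⟨c, hc⟩ := h.scal _ ha' j
  obtain ⟨d, hd⟩ := h.scal _ hb' j
  refine ⟨c * d, h.scal_mul hb' ha' hc hd, ?_⟩
  rw [mul_comm]
  exact h.scal_mul ha' hb' hd hc

theorem FlagData.exists_eigen [FiniteDimensional ℂ V] (h : FlagData ρ Γ1 F m) {g : Γ}
    (hg : g ∈ Γ1) {j : ℕ} {c : ℂ} (hc : ∀ x ∈ F (j + 1), ρ g x - c • x ∈ F j)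
    (hj : F j ≠ F (j + 1)) : ∃ x : V, x ≠ 0 ∧ ρ g x = c • x := by
  by_contra hcon
  push Not at hcon
  let T : F (j + 1) →ₗ[ℂ] F j :=
    { toFun := fun x => ⟨ρ g x - c • (x : V), hc x x.2⟩
      map_add' := by
        intro x y
        ext
        simp only [Submodule.coe_add, map_add, smul_add]
        abel
      map_smul' := by
        intro a x
        ext
        simp only [Submodule.coe_smul, map_smul, RingHom.id_apply, smul_sub]
        rw [smul_comm] }
  have hinj : Function.Injective T := by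
    rw [← LinearMap.ker_eq_bot, LinearMap.ker_eq_bot']
    intro x hx
    by_contra hx0
    have h1 : (x : V) ≠ 0 := fun h => hx0 (Subtype.ext h)
    apply hcon x h1
    have h2 := congrArg Subtype.val hx
    change ρ g x - c • (x : V) = 0 at h2
    exact sub_eq_zero.1 h2
  have h1 := LinearMap.finrank_le_finrank_of_injective hinj
  have h2 : F j < F (j + 1) := lt_of_le_of_ne (h.mono (Nat.le_succ j)) hj
  have h3 := Submodule.finrank_lt_finrank_of_lt h2
  omega

theorem FlagData.eigen_mem [FiniteDimensional ℂ V] (h : FlagData ρ Γ1 F m) {g : Γ} (hg : g ∈ Γ1)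
    {c : ℂ} {x : V} (hx : x ≠ 0) (hc : ρ g x = c • x) :
    ∃ j < m, F j ≠ F (j + 1) ∧ ∀ y ∈ F (j + 1), ρ g y - c • y ∈ F j := by
  classical
  have hex : ∃ j, x ∈ F j := ⟨m, by rw [h.top]; trivial⟩
  set j := Nat.find hex with hj
  have h1 : x ∈ F j := Nat.find_spec hex
  have h2 : j ≠ 0 := by
    intro h0
    rw [h0, h.zero, Submodule.mem_bot] at h1
    exact hx h1
  obtain ⟨i, hi⟩ := Nat.exists_eq_succ_of_ne_zero h2
  have h3 : x ∉ F i := Nat.find_min hex (by omega)
  rw [hi] at h1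
  have hle : j ≤ m := Nat.find_min' hex (by rw [h.top]; trivial)
  refine ⟨i, by omega, ?_, ?_⟩
  · intro heq
    rw [heq] at h3
    exact h3 h1
  · obtain ⟨d, hd⟩ := h.scal g hg i
    have h4 := hd x h1
    rw [hc, ← sub_smul] at h4
    have h5 : c - d = 0 := by
      by_contra hne
      apply h3
      have := (F i).smul_mem (c - d)⁻¹ h4
      rwa [smul_smul, inv_mul_cancel₀ hne, one_smul] at this
    rw [sub_eq_zero.1 h5]
    exact hd

end flag

/-- Key step of the Fitting property: eigenvalues of nilpotently acting elements are 1. -/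
theorem eig_one {G : Type u} [Group G] {H Γ2 U2 : Subgroup G} [H.Normal] (hΓ2 : Γ2.FiniteIndex)
    (hnorm : ∀ g ∈ Γ2, ∀ u ∈ U2, g * u * g⁻¹ ∈ U2)
    (hnil : Group.IsNilpotent U2) {u : G} (hu : u ∈ U2) {φ : Ch H} (hφ : φ ≠ 0) {c : ℂ}
    (hc : conjRep H u φ = c • φ) : c = 1 := by
  by_contra hne
  have hne' : c - 1 ≠ 0 := sub_ne_zero.2 hne
  have step : ∀ x (hx : x ∈ H), ∃ hy : x⁻¹ * (u⁻¹ * x * u) ∈ H,
      ev φ (x⁻¹ * (u⁻¹ * x * u)) hy = (c - 1) * ev φ x hx := by
    intro x hx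
    refine ⟨H.mul_mem (H.inv_mem hx) (conj_mem_of_normal hx u), ?_⟩
    rw [ev_mul φ (H.inv_mem hx) (conj_mem_of_normal hx u), ev_inv φ hx]
    have h1 := congrArg (fun ψ : Ch H => ev ψ x hx) hc
    simp only [ev_conjRep, ev_smul] at h1
    rw [h1]; ring
  have iter : ∀ t : ℕ, ∀ x (hx : x ∈ H), x ∈ Γ2 →
      ∃ y, ∃ hy : y ∈ H, y ∈ U2.lowerCentralSeries t ∧ ev φ y hy = (c - 1) ^ (t + 1) * ev φ x hx := by
    intro t
    induction t with
    | zero =>
      intro x hx hx2
      obtain ⟨hy, h1⟩ := step x hx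
      refine ⟨_, hy, ?_, by rw [h1]; ring⟩
      have e : x⁻¹ * (u⁻¹ * x * u) = (x⁻¹ * u⁻¹ * x⁻¹⁻¹) * u := by group
      rw [e]
      exact U2.mul_mem (hnorm _ (Γ2.inv_mem hx2) _ (U2.inv_mem hu)) hu
    | succ t ih =>
      intro x hx hx2
      obtain ⟨y, hy, hy1, hy2⟩ := ih x hx hx2
      obtain ⟨hz, h1⟩ := step y hy
      refine ⟨_, hz, ?_, by rw [h1, hy2]; ring⟩
      have e : y⁻¹ * (u⁻¹ * y * u) = ⁅y⁻¹, u⁻¹⁆ := by rw [commutatorElement_def]; group
      rw [e, Subgroup.lowerCentralSeries_succ]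
      exact Subgroup.commutator_mem_commutator (inv_mem hy1) (U2.inv_mem hu)
  obtain ⟨k, hk⟩ := (Subgroup.isNilpotent_iff_lowerCentralSeries U2).1 hnil
  have h0 : ∀ x (hx : x ∈ H), x ∈ Γ2 → ev φ x hx = 0 := by
    intro x hx hx2
    obtain ⟨y, hy, hy1, hy2⟩ := iter k x hx hx2
    rw [hk, Subgroup.mem_bot] at hy1
    rw [ev_congr φ hy hy1, ev_one] at hy2
    rcases mul_eq_zero.1 hy2.symm with h | h
    · exact absurd h (pow_ne_zero _ hne')
    · exact h
  apply hφ
  apply ch_ext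
  intro x hx
  obtain ⟨e, he0, he, hemem⟩ := Subgroup.exists_pow_mem_of_index_ne_zero hΓ2.index_ne_zero x
  have h1 := h0 (x ^ e) (H.pow_mem hx e) hemem
  rw [ev_pow φ hx e] at h1
  rcases mul_eq_zero.1 h1 with h | h
  · exact absurd (by exact_mod_cast h) he0.ne'
  · exact h

theorem first_pass {G : Type u} [Group G] {n : ℕ} (h : PolyZ n G) :
    ∃ Γ1 U : Subgroup G, Γ1.FiniteIndex ∧ U ≤ Γ1 ∧ Group.IsNilpotent U ∧
      (∀ a ∈ Γ1, ∀ b ∈ Γ1, ⁅a, b⁆ ∈ U) ∧ (∀ a ∈ Γ1, ∀ u ∈ U, a * u * a⁻¹ ∈ U) ∧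
      ∀ Γ2 U2 : Subgroup G, Γ2.FiniteIndex → U2 ≤ Γ1 →
        (∀ g ∈ Γ2, ∀ u ∈ U2, g * u * g⁻¹ ∈ U2) → Group.IsNilpotent U2 → U2 ≤ U := by
  have hfl : ∀ i : Fin n, HasFlag (conjRep (ser (⊤ : Subgroup G) i)) := by
    intro i
    have hfd : FiniteDimensional ℂ (Ch (ser (⊤ : Subgroup G) i)) :=
      finiteDimensional_ch (PolyZ.subgroup_fg h _)
    exact exists_flag _ (PolyZ.solvable n h) (PolyZ.subgroup_fg h)
  choose Γi hfin F m hF0 hFm hmono hscal using hfl
  have hΓ1 : (⨅ i, Γi i).FiniteIndex := Subgroup.finiteIndex_iInf hfin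
  have FD : ∀ i : Fin n, FlagData (conjRep (ser (⊤ : Subgroup G) i)) (⨅ i, Γi i) (F i) (m i) :=
    fun i => ⟨hF0 i, hFm i, hmono i, fun g hg j => hscal i g ((iInf_le Γi i) hg) j⟩
  set Γ1 := ⨅ i, Γi i with hΓ1def
  let U : Subgroup G := Γ1 ⊓ ⨅ i, (FD i).unip
  have hUmem : ∀ x, x ∈ U ↔ x ∈ Γ1 ∧ ∀ i, x ∈ (FD i).unip := by
    intro x
    simp [U, Subgroup.mem_iInf]
  refine ⟨Γ1, U, hΓ1, inf_le_left, ?_, ?_, ?_, ?_⟩
  · have hpz : PolyZ n (⊤ : Subgroup G) := PolyZ.of_equiv n Subgroup.topEquiv.symm h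
    refine isNilpotent_of_unip (N := (⊤ : Subgroup G)) (ser_eq_bot hpz) ⟨0, le_top⟩ ?_
    intro i hi
    refine ⟨F ⟨i, hi⟩, m ⟨i, hi⟩, hF0 _, hFm _, ?_⟩
    intro u hu j φ hφ
    exact (((hUmem u).1 hu).2 ⟨i, hi⟩).2 j φ hφ
  · intro a ha b hb
    rw [hUmem]
    refine ⟨?_, fun i => (FD i).comm_mem ha hb⟩
    rw [commutatorElement_def]
    exact Γ1.mul_mem (Γ1.mul_mem (Γ1.mul_mem ha hb) (Γ1.inv_mem ha)) (Γ1.inv_mem hb)
  · intro a ha u hu
    rw [hUmem] at hu ⊢
    exact ⟨Γ1.mul_mem (Γ1.mul_mem ha hu.1) (Γ1.inv_mem ha), fun i => (FD i).conj_mem ha (hu.2 i)⟩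
  · intro Γ2 U2 hΓ2 hU2 hnorm hnil u hu
    rw [hUmem]
    refine ⟨hU2 hu, fun i => ?_⟩
    rw [FlagData.mem_unip]
    refine ⟨hU2 hu, fun j x hx => ?_⟩
    have hfd : FiniteDimensional ℂ (Ch (ser (⊤ : Subgroup G) i)) :=
      finiteDimensional_ch (PolyZ.subgroup_fg h _)
    obtain ⟨c, hc⟩ := (FD i).scal u (hU2 hu) j
    by_cases hj : F i j = F i (j + 1)
    · rw [hj]
      exact (F i (j + 1)).sub_mem ((FD i).inv (hU2 hu) _ hx) hx
    · obtain ⟨φ, hφ0, hφ⟩ := (FD i).exists_eigen (hU2 hu) hc hj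
      have h1 := eig_one hΓ2 hnorm hnil hu hφ0 hφ
      have h2 := hc x hx
      rwa [h1, one_smul] at h2

end Vale.Agent.P188.H754

end

section

/-!
A poly-`ℤ` group has a finite index subgroup which is an extension of `ℤ ^ k` by a nilpotent group
`N`; moreover `N` contains every nilpotent subgroup normalised by a finite index subgroup.
-/

universe u v

namespace Vale.Agent.P188.H754

open Module
open scoped commutatorElement

/-- A group `Γ1` with a normal subgroup with abelian quotient: some finite index subgroup is an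
extension of `ℤ^k` by the same subgroup. -/
theorem exists_free_quotient {G : Type u} [Group G] {Γ1 U : Subgroup G} (hfg : Γ1.FG)
    (hΓ1 : Γ1.FiniteIndex) (hUΓ : U ≤ Γ1) (hcomm : ∀ a ∈ Γ1, ∀ b ∈ Γ1, ⁅a, b⁆ ∈ U)
    (hnorm : ∀ a ∈ Γ1, ∀ u ∈ U, a * u * a⁻¹ ∈ U) :
    ∃ G1 : Subgroup G, G1.FiniteIndex ∧ G1 ≤ Γ1 ∧ U ≤ G1 ∧ ∃ (k : ℕ)
      (η : G1 →* Multiplicative (Fin k → ℤ)), Function.Surjective η ∧
      ∀ g : G1, η g = 1 ↔ (g : G) ∈ U := by
  classical
  let U' : Subgroup Γ1 := U.subgroupOf Γ1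
  have hU'n : U'.Normal := by
    constructor
    intro u hu g
    rw [Subgroup.mem_subgroupOf] at hu ⊢
    exact hnorm g g.2 u hu
  have hcommQ : ∀ a b : Γ1 ⧸ U', a * b = b * a := by
    intro a b
    induction a using QuotientGroup.induction_on with | H a => ?_
    induction b using QuotientGroup.induction_on with | H b => ?_
    rw [← QuotientGroup.mk_mul, ← QuotientGroup.mk_mul, QuotientGroup.eq,
      Subgroup.mem_subgroupOf]
    have h1 := hcomm (b : G)⁻¹ (Γ1.inv_mem b.2) (a : G)⁻¹ (Γ1.inv_mem a.2)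
    have h2 : (((a * b)⁻¹ * (b * a) : Γ1) : G) = ⁅(b : G)⁻¹, (a : G)⁻¹⁆ := by
      rw [commutatorElement_def]; push_cast; group
    rw [h2]; exact h1
  letI : CommGroup (Γ1 ⧸ U') :=
    { (inferInstance : Group (Γ1 ⧸ U')) with mul_comm := hcommQ }
  have hfgΓ : Group.FG Γ1 := (Group.fg_iff_subgroup_fg Γ1).2 hfg
  have hfgQ : Group.FG (Γ1 ⧸ U') := QuotientGroup.fg _
  obtain ⟨ι, j, hι, hj, p, hp, e, ⟨E⟩⟩ :=
    CommGroup.equiv_free_prod_prod_multiplicative_zmod (Γ1 ⧸ U')
  let π : Γ1 →* (j → Multiplicative ℤ) × ((i : ι) → Multiplicative (ZMod (p i ^ e i))) :=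
    E.toMonoidHom.comp (QuotientGroup.mk' U')
  have hπsurj : Function.Surjective π := E.surjective.comp (QuotientGroup.mk'_surjective U')
  have hπker : ∀ g : Γ1, π g = 1 ↔ (g : G) ∈ U := by
    intro g
    change E (QuotientGroup.mk' U' g) = 1 ↔ _
    rw [map_eq_one_iff E E.injective]
    rw [QuotientGroup.mk'_apply, QuotientGroup.eq_one_iff, Subgroup.mem_subgroupOf]
  have hfinF : Finite ((i : ι) → Multiplicative (ZMod (p i ^ e i))) := by
    have : ∀ i, NeZero (p i ^ e i) := fun i => ⟨pow_ne_zero _ (hp i).ne_zero⟩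
    have : ∀ i, Finite (Multiplicative (ZMod (p i ^ e i))) := fun i =>
      (inferInstance : Finite (ZMod (p i ^ e i)))
    infer_instance
  let π2 : Γ1 →* ((i : ι) → Multiplicative (ZMod (p i ^ e i))) := (MonoidHom.snd _ _).comp π
  let K : Subgroup Γ1 := π2.ker
  have hK : K.FiniteIndex := by
    have : Finite π2.range := inferInstance
    exact Subgroup.finiteIndex_ker π2
  refine ⟨K.map Γ1.subtype, finiteIndex_map_subtype Γ1 K hΓ1 hK, ?_, ?_, Fintype.card j, ?_⟩
  · rintro _ ⟨x, _, rfl⟩; exact x.2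
  · intro u hu
    refine ⟨⟨u, hUΓ hu⟩, ?_, rfl⟩
    change (π ⟨u, hUΓ hu⟩).2 = 1
    rw [(hπker ⟨u, hUΓ hu⟩).2 hu]; rfl
  · let r : j ≃ Fin (Fintype.card j) := Fintype.equivFin j
    have hG1 : ∀ g : K.map Γ1.subtype, (g : G) ∈ Γ1 := by
      rintro ⟨_, ⟨x, _, rfl⟩⟩; exact x.2
    have hG1K : ∀ g : K.map Γ1.subtype, (π ⟨g, hG1 g⟩).2 = 1 := by
      rintro ⟨_, ⟨x, hx, rfl⟩⟩; exact hx
    let η : K.map Γ1.subtype →* Multiplicative (Fin (Fintype.card j) → ℤ) :=
      { toFun := fun g => Multiplicative.ofAdd (fun i => Multiplicative.toAdd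
          ((π ⟨g, hG1 g⟩).1 (r.symm i)))
        map_one' := by
          have : π ⟨((1 : K.map Γ1.subtype) : G), hG1 1⟩ = 1 := by
            have e1 : (⟨((1 : K.map Γ1.subtype) : G), hG1 1⟩ : Γ1) = 1 := rfl
            rw [e1, map_one]
          rw [this]; rfl
        map_mul' := by
          intro a b
          have : π ⟨((a * b : K.map Γ1.subtype) : G), hG1 _⟩ = π ⟨a, hG1 a⟩ * π ⟨b, hG1 b⟩ := by
            rw [← map_mul]; rfl
          rw [this]; rfl }
    refine ⟨η, ?_, ?_⟩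
    · intro v
      obtain ⟨x, hx⟩ := hπsurj (fun i => Multiplicative.ofAdd (Multiplicative.toAdd v (r i)), 1)
      have hxK : x ∈ K := by
        change (π x).2 = 1
        rw [hx]
      refine ⟨⟨x, ⟨x, hxK, rfl⟩⟩, ?_⟩
      change Multiplicative.ofAdd (fun i => Multiplicative.toAdd ((π x).1 (r.symm i))) = v
      rw [hx]
      rw [← ofAdd_toAdd v]
      congr 1
      funext i
      simp
    · intro g
      rw [← hπker ⟨g, hG1 g⟩]
      constructor
      · intro h
        refine Prod.ext ?_ (hG1K g)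
        funext i
        have h1 := congrFun (congrArg Multiplicative.toAdd h) (r i)
        change Multiplicative.toAdd ((π ⟨g, hG1 g⟩).1 (r.symm (r i))) = 0 at h1
        rw [Equiv.symm_apply_apply] at h1
        change (π ⟨g, hG1 g⟩).1 i = 1
        rw [← ofAdd_toAdd ((π ⟨g, hG1 g⟩).1 i), h1, ofAdd_zero]
      · intro h
        change Multiplicative.ofAdd (fun i => Multiplicative.toAdd
          ((π ⟨g, hG1 g⟩).1 (r.symm i))) = 1
        rw [h]; rfl

/-- first form of the structure theorem, for poly-`ℤ` groups -/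
theorem polyZ_structure {G : Type u} [Group G] {n : ℕ} (h : PolyZ n G) :
    ∃ G1 : Subgroup G, G1.FiniteIndex ∧ ∃ (k : ℕ)
      (η : G1 →* Multiplicative (Fin k → ℤ)), Function.Surjective η ∧
      Group.IsNilpotent η.ker ∧ ∀ M : Subgroup G1, M.Normal → Group.IsNilpotent M → M ≤ η.ker := by
  obtain ⟨Γ1, U, hΓ1, hUΓ, hnil, hcomm, hnorm, hfit⟩ := first_pass h
  obtain ⟨G1, hG1, hG1Γ, hUG1, k, η, hη, hker⟩ :=
    exists_free_quotient (PolyZ.subgroup_fg h Γ1) hΓ1 hUΓ hcomm hnorm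
  refine ⟨G1, hG1, k, η, hη, ?_, ?_⟩
  · have h1 : η.ker.map G1.subtype = U := by
      ext x
      constructor
      · rintro ⟨y, hy, rfl⟩; exact (hker y).1 hy
      · intro hx; exact ⟨⟨x, hUG1 hx⟩, (hker _).2 hx, rfl⟩
    have h2 := Group.isNilpotent_congr
      (Subgroup.equivMapOfInjective η.ker _ G1.subtype_injective)
    rw [h2, h1]; exact hnil
  · intro M hM hMnil x hx
    rw [MonoidHom.mem_ker, hker]
    refine hfit G1 (M.map G1.subtype) hG1 ?_ ?_ ?_ ⟨x, hx, rfl⟩
    · rintro _ ⟨y, _, rfl⟩; exact hG1Γ y.2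
    · rintro g hg _ ⟨y, hy, rfl⟩
      exact ⟨⟨g, hg⟩ * y * ⟨g, hg⟩⁻¹, hM.conj_mem y hy ⟨g, hg⟩, rfl⟩
    · exact (Group.isNilpotent_congr (Subgroup.equivMapOfInjective M _ G1.subtype_injective)).1 hMnil

end Vale.Agent.P188.H754

end

section

/-!
Second pass: flags for the whole group on the characters of the isolated derived series of the
nilpotent normal subgroup.
-/

universe u v

namespace Vale.Agent.P188.H754

open Module
open scoped commutatorElement

section trig

variable {Γ : Type u} [Group Γ]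

/-- quotient representation by an invariant subspace -/
def quoRepT {V : Type v} [AddCommGroup V] [Module ℂ V] (ρ : Γ →* Module.End ℂ V)
    (W : Submodule ℂ V) (hW : ∀ g : Γ, ∀ x ∈ W, ρ g x ∈ W) : Γ →* Module.End ℂ (V ⧸ W) where
  toFun g := W.mapQ W (ρ g) (fun x hx => hW g x hx)
  map_one' := by
    apply Submodule.linearMap_qext
    ext x; simp
  map_mul' a b := by
    apply Submodule.linearMap_qext
    ext x; simp

theorem quoRepT_mk {V : Type v} [AddCommGroup V] [Module ℂ V] (ρ : Γ →* Module.End ℂ V)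
    (W : Submodule ℂ V) (hW : ∀ g : Γ, ∀ x ∈ W, ρ g x ∈ W) (g : Γ) (x : V) :
    quoRepT ρ W hW g (W.mkQ x) = W.mkQ (ρ g x) := by
  simp [quoRepT]

/-- (unipotent)-by-abelian groups are trigonalisable -/
theorem trig (N : Subgroup Γ) [hNn : N.Normal] (hcomm : ∀ a b : Γ, ⁅a, b⁆ ∈ N)
    {V : Type v} [AddCommGroup V] [Module ℂ V] [FiniteDimensional ℂ V]
    (ρ : Γ →* Module.End ℂ V) (E : ℕ → Submodule ℂ V) (d : ℕ) (hE0 : E 0 = ⊥) (hEd : E d = ⊤)
    (hE : ∀ n ∈ N, ∀ j, ∀ x ∈ E (j + 1), ρ n x - x ∈ E j) :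
    ∃ F m, FlagData ρ ⊤ F m ∧ ∀ n ∈ N, ∀ j, ∀ x ∈ F (j + 1), ρ n x - x ∈ F j := by
  classical
  generalize hn : finrank ℂ V = n
  induction n using Nat.strong_induction_on generalizing V with
  | _ n ih =>
  rcases subsingleton_or_nontrivial V with hV | hV
  · refine ⟨fun _ => ⊤, 0, ⟨Subsingleton.elim _ _, rfl, fun _ _ _ => le_rfl, ?_⟩, ?_⟩
    · intro g _ i
      exact ⟨0, fun x _ => trivial⟩
    · intro n _ j x _; trivial
  let W0 : Submodule ℂ V :=
    { carrier := {x | ∀ n ∈ N, ρ n x = x}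
      zero_mem' := by intro n _; exact map_zero _
      add_mem' := by
        intro a b ha hb n hn
        rw [map_add, ha n hn, hb n hn]
      smul_mem' := by
        intro c a ha n hn
        rw [map_smul, ha n hn] }
  have hW0 : W0 ≠ ⊥ := by
    have hex : ∃ j, E j ≠ ⊥ := ⟨d, by rw [hEd]; exact top_ne_bot⟩
    have h1 := Nat.find_spec hex
    have h2 : Nat.find hex ≠ 0 := by
      intro h0
      rw [h0] at h1
      exact h1 hE0
    obtain ⟨i, hi⟩ := Nat.exists_eq_succ_of_ne_zero h2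
    have h3 : E i = ⊥ := by
      by_contra hne
      exact Nat.find_min hex (m := i) (by omega) hne
    rw [hi] at h1
    intro hbot
    apply h1
    rw [eq_bot_iff]
    intro x hx
    rw [← hbot]
    intro n hn
    have h4 := hE n hn i x hx
    rw [h3, Submodule.mem_bot] at h4
    exact sub_eq_zero.1 h4
  have hW0inv : ∀ g : Γ, ∀ x ∈ W0, ρ g x ∈ W0 := by
    intro g x hx n hn
    have h1 : n * g = g * (g⁻¹ * n * g) := by group
    have h2 : g⁻¹ * n * g ∈ N := by
      have := hNn.conj_mem n hn g⁻¹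
      simpa using this
    have h3 := hx _ h2
    rw [← Module.End.mul_apply, ← map_mul, h1, map_mul, Module.End.mul_apply, h3]
  have : Nontrivial W0 := Submodule.nontrivial_iff_ne_bot.2 hW0
  obtain ⟨χ, x₀, hx₀, hχ⟩ := exists_common_eigenvector
    (fun g : Γ => (ρ g).restrict (hW0inv g)) (by
      intro a b
      refine LinearMap.ext fun x => Subtype.ext ?_
      change ρ a (ρ b x) = ρ b (ρ a x)
      have h1 : a * b = b * a * ⁅a⁻¹, b⁻¹⁆ := by rw [commutatorElement_def]; group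
      rw [← Module.End.mul_apply, ← Module.End.mul_apply, ← map_mul, ← map_mul, h1, map_mul,
        Module.End.mul_apply, x.2 _ (hcomm _ _)])
  have hx₀' : (x₀ : V) ≠ 0 := fun h => hx₀ (Subtype.ext h)
  have hχ' : ∀ g, ρ g (x₀ : V) = χ g • (x₀ : V) := fun g => congrArg Subtype.val (hχ g)
  let W : Submodule ℂ V := Submodule.span ℂ {(x₀ : V)}
  have hWχ : ∀ g, ∀ x ∈ W, ρ g x = χ g • x := by
    intro g x hx
    obtain ⟨a, rfl⟩ := Submodule.mem_span_singleton.1 hx
    rw [map_smul, hχ', smul_comm]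
  have hWN : ∀ n ∈ N, ∀ x ∈ W, ρ n x = x := by
    intro n hn x hx
    obtain ⟨a, rfl⟩ := Submodule.mem_span_singleton.1 hx
    rw [map_smul, x₀.2 n hn]
  have hW : ∀ g : Γ, ∀ x ∈ W, ρ g x ∈ W := by
    intro g x hx
    rw [hWχ g x hx]
    exact W.smul_mem _ hx
  have hWne : W ≠ ⊥ := by
    intro h
    apply hx₀'
    have : (x₀ : V) ∈ W := Submodule.mem_span_singleton_self _
    rwa [h, Submodule.mem_bot] at this
  have hlt : finrank ℂ (V ⧸ W) < n := by
    have h1 := Submodule.finrank_quotient_add_finrank W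
    have h2 : 0 < finrank ℂ W := by
      have : Nontrivial W := Submodule.nontrivial_iff_ne_bot.2 hWne
      exact finrank_pos
    omega
  obtain ⟨F', m', hF', hFN'⟩ := ih _ hlt (quoRepT ρ W hW) (fun j => (E j).map W.mkQ)
    (by rw [hE0, Submodule.map_bot]) (by rw [hEd, Submodule.map_top, Submodule.range_mkQ])
    (by
      rintro n hn j _ ⟨x, hx, rfl⟩
      rw [quoRepT_mk, ← map_sub]
      exact ⟨_, hE n hn j x hx, rfl⟩) rfl
  let F : ℕ → Submodule ℂ V := fun i => match i with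
    | 0 => ⊥
    | j + 1 => (F' j).comap W.mkQ
  have hF1 : F 1 = W := by
    change (F' 0).comap W.mkQ = W
    rw [hF'.zero, Submodule.comap_bot, Submodule.ker_mkQ]
  refine ⟨F, m' + 1, ⟨rfl, ?_, ?_, ?_⟩, ?_⟩
  · change (F' m').comap W.mkQ = ⊤
    rw [hF'.top, Submodule.comap_top]
  · apply monotone_nat_of_le_succ
    intro i
    cases i with
    | zero => exact bot_le
    | succ j => exact Submodule.comap_mono (hF'.mono (Nat.le_succ j))
  · intro g _ i
    cases i with
    | zero =>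
      refine ⟨χ g, fun x hx => ?_⟩
      rw [hF1] at hx
      rw [hWχ g x hx, sub_self]
      exact zero_mem _
    | succ j =>
      obtain ⟨c, hc⟩ := hF'.scal g trivial j
      refine ⟨c, fun x hx => ?_⟩
      have h1 := hc _ hx
      rw [quoRepT_mk, ← map_smul, ← map_sub] at h1
      exact h1
  · intro n hn i x hx
    cases i with
    | zero =>
      rw [hF1] at hx
      rw [hWN n hn x hx, sub_self]
      exact zero_mem _
    | succ j =>
      have h1 := hFN' n hn j _ hx
      rw [quoRepT_mk, ← map_sub] at h1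
      exact h1

/-- the characters of `H` vanishing on `H ∩ K` -/
def chAnn (H K : Subgroup Γ) : Submodule ℂ (Ch H) where
  carrier := {φ | ∀ x (hx : x ∈ H), x ∈ K → ev φ x hx = 0}
  zero_mem' := by intro x hx _; rfl
  add_mem' := by
    intro a b ha hb x hx hxK
    rw [ev_add, ha x hx hxK, hb x hx hxK, add_zero]
  smul_mem' := by
    intro c a ha x hx hxK
    rw [ev_smul, ha x hx hxK, mul_zero]

theorem exists_flag_nil {N H : Subgroup Γ} [hNn : N.Normal] [H.Normal] (hH : H.FG) (hHN : H ≤ N)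
    (hcomm : ∀ a b : Γ, ⁅a, b⁆ ∈ N) (hnil : Group.IsNilpotent N) :
    ∃ F m, FlagData (conjRep H) ⊤ F m ∧
      ∀ n ∈ N, ∀ j, ∀ φ ∈ F (j + 1), conjRep H n φ - φ ∈ F j := by
  have hfd : FiniteDimensional ℂ (Ch H) := finiteDimensional_ch hH
  obtain ⟨k, hk⟩ := (Subgroup.isNilpotent_iff_lowerCentralSeries N).1 hnil
  refine trig N hcomm (conjRep H) (fun j => chAnn H (N.lowerCentralSeries j)) k ?_ ?_ ?_
  · rw [eq_bot_iff]
    intro φ hφ
    rw [Submodule.mem_bot]
    apply ch_ext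
    intro x hx
    exact hφ x hx (by rw [Subgroup.lowerCentralSeries_zero]; exact hHN hx)
  · rw [eq_top_iff]
    intro φ _ x hx hxK
    rw [hk, Subgroup.mem_bot] at hxK
    rw [ev_congr φ hx hxK, ev_one]
  · intro n hn j φ hφ x hx hxK
    rw [ev_sub, ev_conjRep]
    have h1 : n⁻¹ * x * n * x⁻¹ ∈ H :=
      H.mul_mem (conj_mem_of_normal hx n) (H.inv_mem hx)
    have h2 : n⁻¹ * x * n * x⁻¹ ∈ N.lowerCentralSeries (j + 1) := by
      have e : n⁻¹ * x * n * x⁻¹ = ⁅x, n⁻¹⁆⁻¹ := by rw [commutatorElement_def]; group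
      rw [e, Subgroup.lowerCentralSeries_succ]
      exact inv_mem (Subgroup.commutator_mem_commutator hxK (N.inv_mem hn))
    have h3 := hφ _ h1 h2
    rw [ev_mul φ (conj_mem_of_normal hx n) (H.inv_mem hx), ev_inv φ hx] at h3
    rw [sub_eq_add_neg]; exact h3

end trig

end Vale.Agent.P188.H754

end

section

/-!
Integrality of the conjugation representation, and finiteness of bounded eigenvalues.
-/

universe u v

namespace Vale.Agent.P188.H754

open Module
open scoped commutatorElement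

section integ

variable {G : Type u} [Group G]

theorem ch_prod {H : Subgroup G} (ψ : Ch H) {k : ℕ} (x : Fin k → H) (z : Fin k → ℤ) :
    ψ (Additive.ofMul (List.ofFn fun i => x i ^ z i).prod)
      = ∑ i, (z i : ℂ) * ψ (Additive.ofMul (x i)) := by
  let ψ' : H →* Multiplicative ℂ := AddMonoidHom.toMultiplicativeRight ψ
  have h1 : ψ' (List.ofFn fun i => x i ^ z i).prod = ∏ i, ψ' (x i) ^ z i := by
    rw [map_list_prod, List.map_ofFn, List.prod_ofFn]
    refine Finset.prod_congr rfl fun i _ => ?_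
    simp
  have h2 := congrArg Multiplicative.toAdd h1
  rw [toAdd_prod] at h2
  refine h2.trans (Finset.sum_congr rfl fun i _ => ?_)
  rw [toAdd_zpow, zsmul_eq_mul]
  rfl

/-- an integral dual basis of the space of characters -/
theorem exists_int_basis {H : Subgroup G} (hH : H.FG) :
    ∃ (r : ℕ) (b : Basis (Fin r) ℂ (Ch H)) (x : Fin r → H),
      (∀ (φ : Ch H) i, b.repr φ i = φ (Additive.ofMul (x i))) ∧
      ∀ i (y : H), ∃ z : ℤ, b i (Additive.ofMul y) = z := by
  classical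
  have hfgH : Group.FG H := (Group.fg_iff_subgroup_fg H).2 hH
  have hfgA : Group.FG (Abelianization H) := QuotientGroup.fg _
  obtain ⟨ι, j, hι, hj, p, hp, e, ⟨E⟩⟩ :=
    CommGroup.equiv_free_prod_prod_multiplicative_zmod (Abelianization H)
  set F := ((i : ι) → Multiplicative (ZMod (p i ^ e i))) with hF
  have hfinF : Finite F := by
    have : ∀ i, NeZero (p i ^ e i) := fun i => ⟨pow_ne_zero _ (hp i).ne_zero⟩
    have : ∀ i, Finite (Multiplicative (ZMod (p i ^ e i))) := fun i =>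
      (inferInstance : Finite (ZMod (p i ^ e i)))
    rw [hF]
    infer_instance
  let r : j ≃ Fin (Fintype.card j) := Fintype.equivFin j
  -- the projection
  let π : H →* (j → Multiplicative ℤ) × F := E.toMonoidHom.comp Abelianization.of
  have hπ : Function.Surjective π := E.surjective.comp (QuotientGroup.mk'_surjective _)
  let q : Fin (Fintype.card j) → Ch H := fun i =>
    { toFun := fun y => ((Multiplicative.toAdd ((π y.toMul).1 (r.symm i)) : ℤ) : ℂ)
      map_zero' := by simp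
      map_add' := by intro a b; simp }
  have hx : ∀ i : Fin (Fintype.card j), ∃ x : H,
      π x = (Pi.mulSingle (r.symm i) (Multiplicative.ofAdd (1 : ℤ)), 1) := fun i => hπ _
  choose x hx using hx
  have hqx : ∀ i l, q i (Additive.ofMul (x l)) = if i = l then 1 else 0 := by
    intro i l
    change ((Multiplicative.toAdd ((π (x l)).1 (r.symm i)) : ℤ) : ℂ) = _
    rw [hx l]
    by_cases h : i = l
    · subst h; simp
    · simp [h, Pi.mulSingle_eq_of_ne]
  -- every character is determined by its values at the `x i`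
  have hdet : ∀ φ : Ch H, (∀ i, φ (Additive.ofMul (x i)) = 0) → φ = 0 := by
    intro φ hφ
    -- the kernel of `π.1` consists of elements killed by `φ`
    have hker : ∀ y : H, (∀ i, q i (Additive.ofMul y) = 0) → φ (Additive.ofMul y) = 0 := by
      intro y hy
      have h1 : (π y).1 = 1 := by
        funext i
        have h2 := hy (r i)
        change ((Multiplicative.toAdd ((π y).1 (r.symm (r i))) : ℤ) : ℂ) = 0 at h2
        rw [Equiv.symm_apply_apply] at h2
        have h3 : Multiplicative.toAdd ((π y).1 i) = 0 := by exact_mod_cast h2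
        rw [← ofAdd_toAdd ((π y).1 i), h3, ofAdd_zero]; rfl
      have h2 : ((π y) ^ (Nat.card F)) = 1 := by
        refine Prod.ext ?_ ?_
        · rw [Prod.pow_fst, h1, one_pow]; rfl
        · rw [Prod.pow_snd, pow_card_eq_one']; rfl
      have h3 : Abelianization.of (y ^ Nat.card F) = 1 := by
        rw [← map_pow] at h2
        exact E.injective (by rw [map_one]; exact h2)
      -- lift φ
      let φ' : H →* Multiplicative ℂ := AddMonoidHom.toMultiplicativeRight φ
      have h4 : φ' (y ^ Nat.card F) = 1 := by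
        rw [← Abelianization.lift_apply_of φ' (y ^ Nat.card F), h3, map_one]
      have h5 : φ (Additive.ofMul (y ^ Nat.card F)) = 0 := h4
      have h6 : (Nat.card F : ℂ) * φ (Additive.ofMul y) = 0 := by
        rw [← h5, ofMul_pow, map_nsmul, nsmul_eq_mul]
      rcases mul_eq_zero.1 h6 with h | h
      · have : Nat.card F ≠ 0 := Nat.card_pos.ne'
        exact absurd (by exact_mod_cast h) this
      · exact h
    refine AddMonoidHom.ext fun y => ?_
    -- correct `y`
    have hq : ∀ i, ∃ z : ℤ, q i y = z := fun i => ⟨_, rfl⟩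
    choose z hz using hq
    let w : H := (List.ofFn fun i => x i ^ z i).prod
    have hw : ∀ ψ : Ch H, ψ (Additive.ofMul w) = ∑ i, (z i : ℂ) * ψ (Additive.ofMul (x i)) :=
      fun ψ => ch_prod ψ x z
    have h1 : φ (Additive.ofMul (y.toMul * w⁻¹)) = 0 := by
      apply hker
      intro i
      rw [ofMul_mul, ofMul_inv, map_add, map_neg, hw, ofMul_toMul, hz i]
      simp [hqx]
    rw [ofMul_mul, ofMul_inv, map_add, map_neg, hw, ofMul_toMul] at h1
    simp only [hφ, mul_zero, Finset.sum_const_zero, neg_zero, add_zero] at h1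
    rw [h1]; rfl
  -- the linear equivalence
  let L : Ch H →ₗ[ℂ] (Fin (Fintype.card j) → ℂ) :=
    { toFun := fun φ i => φ (Additive.ofMul (x i))
      map_add' := by intro a b; rfl
      map_smul' := by intro c a; rfl }
  have hLinj : Function.Injective L := by
    rw [← LinearMap.ker_eq_bot, LinearMap.ker_eq_bot']
    intro φ hφ
    exact hdet φ (fun i => congrFun hφ i)
  have hLq : ∀ i, L (q i) = Pi.single i 1 := by
    intro i
    funext l
    change q i (Additive.ofMul (x l)) = _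
    rw [hqx, Pi.single_apply]
    by_cases h : i = l
    · simp [h]
    · simp [h, Ne.symm h]
  have hLsurj : Function.Surjective L := by
    intro v
    refine ⟨∑ i, v i • q i, ?_⟩
    rw [map_sum]
    simp only [map_smul, hLq]
    funext l
    simp [Finset.sum_apply, Pi.single_apply]
  let Le : Ch H ≃ₗ[ℂ] (Fin (Fintype.card j) → ℂ) := LinearEquiv.ofBijective L ⟨hLinj, hLsurj⟩
  let b := Basis.ofEquivFun Le
  have hb : ∀ i, b i = q i := by
    intro i
    apply Le.injective
    change Le (b i) = L (q i)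
    rw [hLq]
    simp [b]
  refine ⟨Fintype.card j, b, x, ?_, ?_⟩
  · intro φ i
    rfl
  · intro i y
    rw [hb]
    exact ⟨_, rfl⟩

/-- bounded eigenvalues of the conjugation representation form a finite set -/
theorem finite_eig {H : Subgroup G} [H.Normal] (hH : H.FG) (R : ℝ) :
    ∃ E : Set ℂ, E.Finite ∧ ∀ g : G, (∀ μ, (conjRep H g).HasEigenvalue μ → ‖μ‖ ≤ R) →
      ∀ μ, (conjRep H g).HasEigenvalue μ → μ ∈ E := by
  classical
  have hfd : FiniteDimensional ℂ (Ch H) := finiteDimensional_ch hH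
  obtain ⟨r, b, x, hbx, hbz⟩ := exists_int_basis hH
  set C : ℝ := max R 1 ^ r * r.choose (r / 2) with hC
  have hU : {z : ℤ | |(z : ℝ)| ≤ C}.Finite := by
    refine (Set.finite_Icc (-(⌈C⌉)) (⌈C⌉)).subset ?_
    intro z hz
    have hz' : |(z : ℝ)| ≤ C := hz
    rw [abs_le] at hz'
    have h3 := Int.le_ceil C
    refine ⟨?_, ?_⟩
    · have : (-(⌈C⌉ : ℤ) : ℝ) ≤ z := by linarith [hz'.1]
      exact_mod_cast this
    · have : (z : ℝ) ≤ (⌈C⌉ : ℤ) := by linarith [hz'.2]
      exact_mod_cast this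
  refine ⟨_, Polynomial.bUnion_roots_finite (Int.castRingHom ℂ) r hU, ?_⟩
  intro g hg μ hμ
  -- the integer matrix
  have hent : ∀ i l, ∃ z : ℤ, LinearMap.toMatrix b b (conjRep H g) i l = z := by
    intro i l
    rw [LinearMap.toMatrix_apply, hbx]
    have h1 : conjRep H g (b l) (Additive.ofMul (x i))
        = b l (Additive.ofMul ⟨g⁻¹ * (x i : G) * g, conj_mem_of_normal (x i).2 g⟩) :=
      ev_conjRep g (b l) (x i).2
    rw [h1]
    exact hbz l _
  choose A hA using hent
  have hM : LinearMap.toMatrix b b (conjRep H g) = (Matrix.of A).map (Int.castRingHom ℂ) := by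
    ext i l
    rw [hA]; simp
  have hcp : (conjRep H g).charpoly = ((Matrix.of A).charpoly).map (Int.castRingHom ℂ) := by
    rw [← LinearMap.charpoly_toMatrix (conjRep H g) b, hM, Matrix.charpoly_map]
  set f := (Matrix.of A).charpoly with hf
  have hmonic : f.Monic := Matrix.charpoly_monic _
  have hdeg : f.natDegree ≤ r := by
    rw [hf, Matrix.charpoly_natDegree_eq_dim, Fintype.card_fin]
  have hroots : ∀ z ∈ (f.map (Int.castRingHom ℂ)).roots, ‖z‖ ≤ R := by
    intro z hz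
    apply hg
    rw [Module.End.hasEigenvalue_iff_isRoot_charpoly, hcp]
    exact Polynomial.isRoot_of_mem_roots hz
  have hcoef : ∀ i, f.coeff i ∈ {z : ℤ | |(z : ℝ)| ≤ C} := by
    intro i
    have h1 := Polynomial.coeff_bdd_of_roots_le (Int.castRingHom ℂ) hmonic
      (IsAlgClosed.splits _) hdeg hroots i
    rw [Polynomial.coeff_map] at h1
    change |((f.coeff i : ℤ) : ℝ)| ≤ C
    simpa using h1
  refine Set.mem_iUnion₂.2 ⟨f, ⟨hdeg, hcoef⟩, ?_⟩
  rw [Finset.mem_coe, Multiset.mem_toFinset]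
  have h2 := hμ
  rw [Module.End.hasEigenvalue_iff_isRoot_charpoly, hcp] at h2
  exact (Polynomial.mem_roots (hmonic.map _).ne_zero).2 h2

end integ

/-- a homomorphism from `ℤ^k` to a finite dimensional space with finite preimages of bounded sets
is bounded below -/
theorem discrete_bound {k : ℕ} {J : Type*} [Fintype J] (L : (Fin k → ℤ) →+ (J → ℝ))
    (hL : ∀ R : ℝ, {v : Fin k → ℤ | ‖L v‖ ≤ R}.Finite) :
    ∃ c : ℝ, 0 < c ∧ ∀ v : Fin k → ℤ, c * ‖v‖ ≤ ‖L v‖ := by
  classical
  let Lr : (Fin k → ℝ) →ₗ[ℝ] (J → ℝ) :=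
    { toFun := fun x => ∑ i, x i • L (Pi.single i 1)
      map_add' := by
        intro x y
        rw [← Finset.sum_add_distrib]
        refine Finset.sum_congr rfl fun i _ => ?_
        rw [Pi.add_apply, add_smul]
      map_smul' := by
        intro c x
        rw [RingHom.id_apply, Finset.smul_sum]
        refine Finset.sum_congr rfl fun i _ => ?_
        rw [Pi.smul_apply, smul_eq_mul, mul_smul] }
  have hLr : ∀ v : Fin k → ℤ, Lr (fun i => (v i : ℝ)) = L v := by
    intro v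
    have h1 : v = ∑ i, v i • (Pi.single i (1 : ℤ) : Fin k → ℤ) := by
      funext l
      simp [Finset.sum_apply, Pi.single_apply]
    conv_rhs => rw [h1, map_sum]
    change ∑ i, (v i : ℝ) • L (Pi.single i 1) = _
    refine Finset.sum_congr rfl fun i _ => ?_
    rw [map_zsmul, Int.cast_smul_eq_zsmul]
  have hcast : ∀ v : Fin k → ℤ, ‖(fun i => (v i : ℝ))‖ = ‖v‖ := by
    intro v
    rw [Pi.norm_def, Pi.norm_def]
    congr 1
  by_cases hker : LinearMap.ker Lr = ⊥
  · obtain ⟨K, hK, hanti⟩ := LinearMap.exists_antilipschitzWith Lr hker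
    refine ⟨(K : ℝ)⁻¹, by positivity, fun v => ?_⟩
    have h1 := hanti.le_mul_dist (fun i => (v i : ℝ)) 0
    rw [dist_zero_right, map_zero, dist_zero_right, hLr, hcast] at h1
    rw [inv_mul_le_iff₀ (by exact_mod_cast hK)]
    exact h1
  · exfalso
    obtain ⟨x, hx, hx0⟩ := (Submodule.ne_bot_iff _).1 hker
    rw [LinearMap.mem_ker] at hx
    obtain ⟨i₀, hi₀⟩ : ∃ i, x i ≠ 0 := by
      by_contra h
      push Not at h
      exact hx0 (funext h)
    -- the rounded multiples
    let w : ℕ → Fin k → ℤ := fun n i => ⌊(n : ℝ) * x i⌋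
    obtain ⟨C, hC⟩ : ∃ C : ℝ, ∀ y : Fin k → ℝ, ‖y‖ ≤ 1 → ‖Lr y‖ ≤ C := by
      refine ⟨‖LinearMap.toContinuousLinearMap Lr‖, fun y hy => ?_⟩
      have h1 := (LinearMap.toContinuousLinearMap Lr).le_opNorm y
      calc ‖Lr y‖ ≤ ‖LinearMap.toContinuousLinearMap Lr‖ * ‖y‖ := h1
        _ ≤ ‖LinearMap.toContinuousLinearMap Lr‖ * 1 := by gcongr
        _ = _ := mul_one _
    have hw : ∀ n, w n ∈ {v : Fin k → ℤ | ‖L v‖ ≤ C} := by
      intro n
      change ‖L (w n)‖ ≤ C
      rw [← hLr]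
      have h1 : Lr (fun i => ((w n i : ℤ) : ℝ)) = Lr ((fun i => ((w n i : ℤ) : ℝ)) - (n : ℝ) • x) := by
        rw [map_sub, map_smul, hx, smul_zero, sub_zero]
      rw [h1]
      apply hC
      rw [pi_norm_le_iff_of_nonneg zero_le_one]
      intro i
      simp only [Pi.sub_apply, Pi.smul_apply, smul_eq_mul, w, Real.norm_eq_abs]
      have h2 := Int.floor_le ((n : ℝ) * x i)
      have h3 := Int.lt_floor_add_one ((n : ℝ) * x i)
      rw [abs_le]
      constructor <;> linarith
    have hfin := (hL C).image (fun v => v i₀)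
    have hinf : Set.Infinite (Set.range fun n : ℕ => w n i₀) := by
      intro hf
      obtain ⟨B, hB⟩ := hf.bddAbove
      obtain ⟨B', hB'⟩ := hf.bddBelow
      rcases lt_or_gt_of_ne hi₀ with h | h
      · obtain ⟨n, hn⟩ := exists_nat_gt ((-(B' : ℝ) + 1) / (-x i₀))
        have h1 : (B' : ℝ) ≤ w n i₀ := by exact_mod_cast hB' ⟨n, rfl⟩
        have h2 : ((w n i₀ : ℤ) : ℝ) ≤ n * x i₀ := Int.floor_le _
        rw [div_lt_iff₀ (by linarith)] at hn
        linarith
      · obtain ⟨n, hn⟩ := exists_nat_gt (((B : ℝ) + 1) / x i₀)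
        have h1 : ((w n i₀ : ℤ) : ℝ) ≤ B := by exact_mod_cast hB ⟨n, rfl⟩
        have h2 : (n : ℝ) * x i₀ < (w n i₀ : ℤ) + 1 := Int.lt_floor_add_one _
        rw [div_lt_iff₀ h] at hn
        linarith
    apply hinf
    refine hfin.subset ?_
    rintro _ ⟨n, rfl⟩
    exact ⟨w n, hw n, rfl⟩

end Vale.Agent.P188.H754

end

section

/-!
The isolated lower central series of a nilpotent normal subgroup.
-/

universe u v

namespace Vale.Agent.P188.H754

open Module
open scoped commutatorElement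

/-! ### more on poly-`ℤ` groups -/

theorem PolyZ.succ_of_hom {m : ℕ} {H : Type u} [Group H] (ψ : H →* Multiplicative ℤ)
    (hψ : ∃ x, ψ x ≠ 1) (hk : PolyZ m ψ.ker) : PolyZ (m + 1) H := by
  obtain ⟨x₀, hx₀⟩ := hψ
  let D : AddSubgroup ℤ :=
    { carrier := {k | ∃ x, ψ x = Multiplicative.ofAdd k}
      zero_mem' := ⟨1, by simp⟩
      add_mem' := by
        rintro a b ⟨x, hx⟩ ⟨y, hy⟩
        exact ⟨x * y, by rw [map_mul, hx, hy, ofAdd_add]⟩
      neg_mem' := by
        rintro a ⟨x, hx⟩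
        exact ⟨x⁻¹, by rw [map_inv, hx, ofAdd_neg]⟩ }
  obtain ⟨d, hd⟩ := Int.subgroup_cyclic D
  have hmem : ∀ x, ∃ c : ℤ, Multiplicative.toAdd (ψ x) = c * d := by
    intro x
    have : Multiplicative.toAdd (ψ x) ∈ D := ⟨x, rfl⟩
    rw [hd, AddSubgroup.mem_closure_singleton] at this
    obtain ⟨c, hc⟩ := this
    exact ⟨c, by rw [← hc]; simp⟩
  have hd0 : d ≠ 0 := by
    rintro rfl
    obtain ⟨c, hc⟩ := hmem x₀
    apply hx₀
    rw [mul_zero] at hc
    rw [← ofAdd_toAdd (ψ x₀), hc, ofAdd_zero]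
  choose q hq using hmem
  let θ : H →* Multiplicative ℤ :=
    { toFun := fun x => Multiplicative.ofAdd (q x)
      map_one' := by
        have h1 := hq 1
        rw [map_one, toAdd_one] at h1
        have h2 : q 1 = 0 := by
          rcases mul_eq_zero.1 h1.symm with h | h
          · exact h
          · exact absurd h hd0
        rw [h2, ofAdd_zero]
      map_mul' := by
        intro x y
        have h1 := hq (x * y)
        rw [map_mul, toAdd_mul, hq x, hq y, ← add_mul] at h1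
        have h2 := mul_right_cancel₀ hd0 h1
        rw [← h2, ofAdd_add] }
  refine ⟨θ, ?_, ?_⟩
  · intro k
    have h1 : d ∈ D := by rw [hd]; exact AddSubgroup.subset_closure rfl
    obtain ⟨x, hx⟩ := h1
    have h2 := hq x
    rw [hx, toAdd_ofAdd] at h2
    have h3 : q x = 1 := by
      have : (q x - 1) * d = 0 := by linarith
      rcases mul_eq_zero.1 this with h | h
      · omega
      · exact absurd h hd0
    refine ⟨x ^ (Multiplicative.toAdd k), ?_⟩
    rw [map_zpow]
    change (Multiplicative.ofAdd (q x)) ^ _ = k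
    rw [h3, ← ofAdd_zsmul]
    simp
  · refine PolyZ.of_equiv m (MulEquiv.subgroupCongr ?_) hk
    ext x
    rw [MonoidHom.mem_ker, MonoidHom.mem_ker]
    change _ ↔ Multiplicative.ofAdd (q x) = 1
    constructor
    · intro h
      have h1 := hq x
      rw [h, toAdd_one] at h1
      rcases mul_eq_zero.1 h1.symm with h | h
      · rw [h, ofAdd_zero]
      · exact absurd h hd0
    · intro h
      have h1 : q x = 0 := by simpa using h
      have h2 := hq x
      rw [h1, zero_mul] at h2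
      rw [← ofAdd_toAdd (ψ x), h2, ofAdd_zero]

theorem PolyZ.ker_of : ∀ (m : ℕ) {G : Type u} [Group G], PolyZ (m + 1) G →
    ∀ ψ : G →* Multiplicative ℤ, (∃ x, ψ x ≠ 1) → PolyZ m ψ.ker := by
  intro m
  induction m with
  | zero =>
    intro G _ h ψ hψ
    obtain ⟨φ, hφ, hk⟩ := h
    have hk' : Subsingleton φ.ker := hk
    obtain ⟨t, ht⟩ := hφ (Multiplicative.ofAdd 1)
    have hdec : ∀ x : G, x = t ^ (Multiplicative.toAdd (φ x)) := by
      intro x
      have h1 : x * (t ^ (Multiplicative.toAdd (φ x)))⁻¹ ∈ φ.ker := by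
        rw [MonoidHom.mem_ker, map_mul, map_inv, map_zpow, ht, ← ofAdd_zsmul]
        simp
      have h2 : (⟨_, h1⟩ : φ.ker) = 1 := Subsingleton.elim _ _
      have h3 := congrArg Subtype.val h2
      exact mul_inv_eq_one.1 h3
    have htne : ψ t ≠ 1 := by
      intro h
      obtain ⟨x, hx⟩ := hψ
      apply hx
      rw [hdec x, map_zpow, h, one_zpow]
    change Subsingleton ψ.ker
    constructor
    have key : ∀ a : ψ.ker, (a : G) = 1 := by
      intro a
      have h1 : ψ a = 1 := a.2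
      rw [hdec a, map_zpow] at h1
      have h2 := congrArg Multiplicative.toAdd h1
      rw [toAdd_zpow, toAdd_one, smul_eq_mul] at h2
      rcases mul_eq_zero.1 h2 with h | h
      · rw [hdec a, h, zpow_zero]
      · exfalso
        apply htne
        rw [← ofAdd_toAdd (ψ t), h, ofAdd_zero]
    intro a b
    exact Subtype.ext ((key a).trans (key b).symm)
  | succ m ih =>
    intro G _ h ψ hψ
    obtain ⟨φ, hφ, hk⟩ := h
    obtain ⟨t, ht⟩ := hφ (Multiplicative.ofAdd 1)
    by_cases htriv : ∀ x ∈ φ.ker, ψ x = 1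
    · -- same kernel
      have hdec : ∀ x : G, ψ x = ψ t ^ (Multiplicative.toAdd (φ x)) := by
        intro x
        have h1 : x * (t ^ (Multiplicative.toAdd (φ x)))⁻¹ ∈ φ.ker := by
          rw [MonoidHom.mem_ker, map_mul, map_inv, map_zpow, ht, ← ofAdd_zsmul]
          simp
        have h2 := htriv _ h1
        rw [map_mul, map_inv, map_zpow] at h2
        exact mul_inv_eq_one.1 h2
      have htne : ψ t ≠ 1 := by
        intro h
        obtain ⟨x, hx⟩ := hψ
        apply hx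
        rw [hdec x, h, one_zpow]
      refine PolyZ.of_equiv (m + 1) (MulEquiv.subgroupCongr ?_) hk
      ext x
      constructor
      · exact htriv x
      · intro hx
        rw [MonoidHom.mem_ker, hdec x] at hx
        have h2 := congrArg Multiplicative.toAdd hx
        rw [toAdd_zpow, toAdd_one, smul_eq_mul] at h2
        rcases mul_eq_zero.1 h2 with h | h
        · rw [MonoidHom.mem_ker, ← ofAdd_toAdd (φ x), h, ofAdd_zero]
        · exfalso
          apply htne
          rw [← ofAdd_toAdd (ψ t), h, ofAdd_zero]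
    · push Not at htriv
      obtain ⟨s, hs, hsne⟩ := htriv
      -- restrict `ψ` to the kernel of `φ`
      have h1 := ih hk (ψ.comp φ.ker.subtype) ⟨⟨s, hs⟩, hsne⟩
      refine PolyZ.succ_of_hom (φ.comp ψ.ker.subtype) ?_ ?_
      · set d := Multiplicative.toAdd (ψ s) with hd
        set e := Multiplicative.toAdd (ψ t) with he
        have hw : t ^ d * (s ^ e)⁻¹ ∈ ψ.ker := by
          rw [MonoidHom.mem_ker, map_mul, map_inv, map_zpow, map_zpow]
          rw [← toAdd_eq_zero, toAdd_mul, toAdd_inv, toAdd_zpow, toAdd_zpow, ← hd, ← he]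
          simp only [smul_eq_mul]; ring
        refine ⟨⟨_, hw⟩, ?_⟩
        change φ (t ^ d * (s ^ e)⁻¹) ≠ 1
        rw [map_mul, map_inv, map_zpow, map_zpow, (MonoidHom.mem_ker.1 hs), one_zpow, inv_one,
          mul_one, ht, ← ofAdd_zsmul]
        intro h
        have h3 : d = 0 := by simpa using h
        apply hsne
        rw [← ofAdd_toAdd (ψ s), ← hd, h3, ofAdd_zero]
      · refine PolyZ.of_equiv m ?_ h1
        exact
          { toFun := fun x => ⟨⟨x.1.1, x.2⟩, x.1.2⟩
            invFun := fun x => ⟨⟨x.1.1, x.2⟩, x.1.2⟩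
            left_inv := fun x => rfl
            right_inv := fun x => rfl
            map_mul' := fun x y => rfl }

/-- a nonzero complex character factors through a nonzero integral one -/
theorem exists_int_char {H : Type u} [Group H] (hH : Group.FG H) (φ : Additive H →+ ℂ)
    (hφ : φ ≠ 0) : ∃ ψ : H →* Multiplicative ℤ, (∃ x, ψ x ≠ 1) ∧
      ∀ x : H, φ (Additive.ofMul x) = 0 → ψ x = 1 := by
  classical
  have hfgR : (AddMonoidHom.range φ).FG := by
    have h1 : AddGroup.FG (Additive H) := inferInstance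
    have h2 : AddGroup.FG φ.range := AddGroup.fg_of_surjective φ.rangeRestrict_surjective
    exact (AddGroup.fg_iff_addSubgroup_fg _).1 h2
  have hfin : Module.Finite ℤ φ.range :=
    Module.Finite.iff_addGroup_fg.2 ((AddGroup.fg_iff_addSubgroup_fg _).2 hfgR)
  have hfree : Module.Free ℤ φ.range := inferInstance
  obtain ⟨x₀, hx₀⟩ : ∃ x, φ x ≠ 0 := by
    by_contra h
    push Not at h
    exact hφ (AddMonoidHom.ext h)
  let b := Module.Free.chooseBasis ℤ φ.range
  obtain ⟨i, hi⟩ : ∃ i, b.repr (φ.rangeRestrict x₀) i ≠ 0 := by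
    by_contra h
    push Not at h
    have h1 : b.repr (φ.rangeRestrict x₀) = 0 := Finsupp.ext h
    have h2 : φ.rangeRestrict x₀ = 0 := by
      rwa [LinearEquiv.map_eq_zero_iff] at h1
    exact hx₀ (congrArg Subtype.val h2)
  let ψ : H →* Multiplicative ℤ :=
    { toFun := fun x => Multiplicative.ofAdd (b.repr (φ.rangeRestrict (Additive.ofMul x)) i)
      map_one' := by simp
      map_mul' := by
        intro x y
        rw [ofMul_mul, map_add, map_add, Finsupp.add_apply, ofAdd_add] }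
  refine ⟨ψ, ⟨x₀.toMul, ?_⟩, ?_⟩
  · intro h
    apply hi
    have h1 := congrArg Multiplicative.toAdd h
    exact h1
  · intro x hx
    have h1 : φ.rangeRestrict (Additive.ofMul x) = 0 := Subtype.ext hx
    change Multiplicative.ofAdd _ = _
    rw [h1, map_zero, Finsupp.zero_apply, ofAdd_zero]

/-- in a finitely generated abelian group an element killed by all characters is torsion -/
theorem torsion_of_chars {A : Type u} [CommGroup A] [Group.FG A] (a : A)
    (h : ∀ φ : Additive A →+ ℂ, φ (Additive.ofMul a) = 0) : ∃ m : ℕ, m ≠ 0 ∧ a ^ m = 1 := by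
  classical
  obtain ⟨ι, j, hι, hj, p, hp, e, ⟨E⟩⟩ := CommGroup.equiv_free_prod_prod_multiplicative_zmod A
  set F := ((i : ι) → Multiplicative (ZMod (p i ^ e i))) with hF
  have hfinF : Finite F := by
    have : ∀ i, NeZero (p i ^ e i) := fun i => ⟨pow_ne_zero _ (hp i).ne_zero⟩
    have : ∀ i, Finite (Multiplicative (ZMod (p i ^ e i))) := fun i =>
      (inferInstance : Finite (ZMod (p i ^ e i)))
    rw [hF]
    infer_instance
  have h1 : (E a).1 = 1 := by
    funext i
    let q : Additive A →+ ℂ :=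
      { toFun := fun y => ((Multiplicative.toAdd ((E y.toMul).1 i) : ℤ) : ℂ)
        map_zero' := by simp
        map_add' := by intro a b; simp }
    have h2 : ((Multiplicative.toAdd ((E a).1 i) : ℤ) : ℂ) = 0 := h q
    have h3 : Multiplicative.toAdd ((E a).1 i) = 0 := by exact_mod_cast h2
    rw [← ofAdd_toAdd ((E a).1 i), h3, ofAdd_zero]; rfl
  refine ⟨Nat.card F, Nat.card_pos.ne', ?_⟩
  apply E.injective
  rw [map_pow, map_one]
  refine Prod.ext ?_ ?_
  · rw [Prod.pow_fst, h1, one_pow]; rfl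
  · rw [Prod.pow_snd, pow_card_eq_one']; rfl

end Vale.Agent.P188.H754

end
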