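import Vale.Agent.P188.R.G027

section

/-!
The equivariant top contraction of a poly-`ℤ` group.
-/

universe u v w

namespace Vale.Agent.P188

open Finsupp

section Flt

variable {X : Type u}

/-- The projection onto chains on lists of length `q`. -/
noncomputable def flt (q : ℕ) : Ch X →ₗ[ℤ] Ch X :=
  Finsupp.linearCombination ℤ (fun l => if l.length = q then single l 1 else 0)

lemma flt_single (q : ℕ) (l : List X) :
    flt q (single l 1) = if l.length = q then single l 1 else 0 := by
  simp [flt, Finsupp.linearCombination_single]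

lemma flt_mem (q : ℕ) (u : Ch X) : flt q u ∈ Sp (Gr q) := by
  apply map_mem_of_Sp (p := Set.univ) _ (by rw [mem_Sp]; exact fun _ _ => trivial)
  intro l _
  rw [flt_single]
  split_ifs with h
  · exact single_mem_Sp h 1
  · exact Submodule.zero_mem _

lemma flt_eq {q : ℕ} {u : Ch X} (hu : u ∈ Sp (Gr q)) : flt q u = u := by
  have := eq_of_Sp (L := flt q) (L' := LinearMap.id) (p := Gr q) (u := u) (by
    intro l hl
    rw [flt_single, if_pos (mem_Gr.mp hl)]
    rfl) hu
  exact this

lemma flt_eq_zero {q q' : ℕ} (h : q' ≠ q) {u : Ch X} (hu : u ∈ Sp (Gr q')) : flt q u = 0 := by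
  have := eq_of_Sp (L := flt q) (L' := 0) (p := Gr q') (u := u) (by
    intro l hl
    rw [mem_Gr] at hl
    rw [flt_single, if_neg (by omega)]
    rfl) hu
  exact this

lemma bd_flt (q : ℕ) (u : Ch X) : bd (flt (q + 1) u) = flt q (bd u) := by
  have : (bd ∘ₗ flt (q + 1) : Ch X →ₗ[ℤ] Ch X) = flt q ∘ₗ bd := by
    apply lin_ext
    intro l
    rw [LinearMap.comp_apply, LinearMap.comp_apply, flt_single, bd_single, one_smul]
    split_ifs with h
    · rw [bd_single, one_smul, flt_eq]
      apply Sp_mono _ (dl_mem l)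
      rintro l' ⟨_, h2⟩
      rw [mem_Gr]; omega
    · rw [map_zero]
      rcases l with _ | ⟨x, t⟩
      · simp
      · rw [flt_eq_zero (q' := t.length)]
        · simp only [List.length_cons] at h; omega
        · apply Sp_mono _ (dl_mem (x :: t))
          rintro l' ⟨_, h2⟩
          rw [mem_Gr]; simpa using h2
  exact LinearMap.congr_fun this u

lemma flt_act {G : Type v} [Group G] [MulAction G X] (q : ℕ) (g : G) (u : Ch X) :
    flt q (act g u) = act g (flt q u) := by
  have : (flt q ∘ₗ act g : Ch X →ₗ[ℤ] Ch X) = act g ∘ₗ flt q := by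
    apply lin_ext
    intro l
    rw [LinearMap.comp_apply, LinearMap.comp_apply, act_single, flt_single, flt_single,
      List.length_map]
    split_ifs with h
    · rw [act_single]
    · rw [map_zero]
  exact LinearMap.congr_fun this u

end Flt

/-- Cycles. -/
noncomputable abbrev Cyc (G : Type u) := LinearMap.ker (bd : Ch G →ₗ[ℤ] Ch G)

noncomputable instance cycAct (G : Type u) [Group G] : DistribMulAction G (Cyc G) where
  smul g v := ⟨act g v.1, by rw [LinearMap.mem_ker, bd_act, LinearMap.mem_ker.mp v.2, map_zero]⟩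
  one_smul v := Subtype.ext (act_one v.1)
  mul_smul g h v := Subtype.ext (act_mul g h v.1)
  smul_zero g := Subtype.ext (map_zero (act g))
  smul_add g v w := Subtype.ext (map_add (act g) v.1 w.1)

theorem top_contraction (n : ℕ) (G : Type u) [Group G] (h : PolyZ n G) :
    ∃ k : Ch G →ₗ[ℤ] Ch G, (∀ (g : G) (u : Ch G), k (act g u) = act g (k u)) ∧
      (∀ u ∈ Sp (Gr (n + 1) : Set (List G)), k u ∈ Sp (Gr (n + 2))) ∧
      (∀ u ∈ Sp (Gr (n + 2) : Set (List G)), bd (k (bd u)) = bd u) := by
  have hfree : ∀ (g : G) (x : G), g • x = x → g = 1 := by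
    intro g x h
    exact mul_eq_right.mp h
  obtain ⟨b, hb, hb'⟩ := Van_of_PolyZ n G h (n + 2) le_rfl G hfree (Cyc G)
    (bd.codRestrict (LinearMap.ker bd) (fun u => bd_bd u))
    (fun g u => Subtype.ext (bd_act g u)) (fun u _ => Subtype.ext (bd_bd _))
  have hbc : ∀ u, bd (b u).1 = 0 := fun u => LinearMap.mem_ker.mp (b u).2
  let kl : List G → Ch G := fun l => match l with
    | [] => 0
    | x :: t => cns x (flt (n + 1) (b (single (x :: t) 1)).1)
  let k : Ch G →ₗ[ℤ] Ch G := Finsupp.linearCombination ℤ kl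
  have hk : ∀ l, k (single l 1) = kl l := by
    intro l; simp [k, Finsupp.linearCombination_single]
  refine ⟨k, ?_, ?_, ?_⟩
  · intro g u
    have : (k ∘ₗ act g : Ch G →ₗ[ℤ] Ch G) = act g ∘ₗ k := by
      apply lin_ext
      intro l
      rw [LinearMap.comp_apply, LinearMap.comp_apply, act_single, hk, hk]
      rcases l with _ | ⟨x, t⟩
      · simp [kl]
      · have h1 := hb g (single (x :: t) 1)
        rw [act_single] at h1
        simp only [kl, List.map_cons]
        rw [act_cns, ← flt_act]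
        simp only [List.map_cons] at h1
        rw [h1]
        rfl
    exact LinearMap.congr_fun this u
  · intro u hu
    apply map_mem_of_Sp _ hu
    intro l hl
    rw [hk]
    rcases l with _ | ⟨x, t⟩
    · exact Submodule.zero_mem _
    · apply cns_mem _ (flt_mem (n + 1) _)
      intro l hl
      rw [mem_Gr] at *
      simp [hl]
  · intro u hu
    have h1 : ∀ v ∈ Sp (Gr (n + 1) : Set (List G)), bd (k v) = flt (n + 1) (b v).1 := by
      intro v hv
      have := eq_of_Sp (L := bd ∘ₗ k)
        (L' := flt (n + 1) ∘ₗ (LinearMap.ker bd).subtype ∘ₗ b) (p := Gr (n + 1)) (u := v) (by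
        intro l hl
        rw [LinearMap.comp_apply, hk]
        rcases l with _ | ⟨x, t⟩
        · simp [Gr] at hl
        · show bd (cns x (flt (n + 1) (b (single (x :: t) 1)).1)) = _
          rw [bd_cns, bd_flt, hbc, map_zero, map_zero, sub_zero]
          rfl) hv
      exact this
    rw [h1 _ (bd_mem_Gr hu), hb' u hu]
    exact flt_eq (bd_mem_Gr hu)

end Vale.Agent.P188

end

section

/-!
Equivariant chain maps into controlled chains.
-/

universe u v w

namespace Vale.Agent.P188

open Finsupp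

variable {H : Type u} [Group H]

lemma act_ctl {A : Set H} {q : ℕ} (g : H) {u : Ch H} (hu : u ∈ Sp (Ctl A ∩ Gr q)) :
    act g u ∈ Sp (Ctl A ∩ Gr q) := by
  apply pf_mem _ hu
  rintro l ⟨hl, hl'⟩
  exact ⟨Ctl_map_mul g hl, by simpa [Gr] using hl'⟩

theorem exists_compress (hUA : UA H) (Q : ℕ) : ∃ A : Set H, A.Finite ∧
    ∃ s : Ch H →ₗ[ℤ] Ch H, (∀ (g : H) (u : Ch H), s (act g u) = act g (s u)) ∧
      s (single [] 1) = single [] 1 ∧
      (∀ q ≤ Q, ∀ u ∈ Sp (Gr q : Set (List H)), s u ∈ Sp (Ctl A ∩ Gr q)) ∧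
      (∀ q ≤ Q, ∀ u ∈ Sp (Gr q : Set (List H)), bd (s u) = s (bd u)) := by
  classical
  induction Q with
  | zero =>
    refine ⟨∅, Set.finite_empty, flt 0, fun g u => flt_act 0 g u, ?_, ?_, ?_⟩
    · rw [flt_single]; simp
    · intro q hq u hu
      obtain rfl : q = 0 := by omega
      rw [flt_eq hu]
      apply Sp_mono _ hu
      intro l hl
      refine ⟨?_, hl⟩
      have : l = [] := List.length_eq_zero_iff.mp hl
      subst this
      intro x hx
      simp at hx
    · intro q hq u hu
      obtain rfl : q = 0 := by omega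
      rw [bd_of_Gr_zero hu, map_zero, flt_eq hu, bd_of_Gr_zero hu]
  | succ Q ih =>
    obtain ⟨A, hA, s, hs_eq, hs_nil, hs_mem, hs_bd⟩ := ih
    obtain ⟨B, hB, hfill⟩ := hUA Q A hA
    have hw : ∀ l : List H, ∃ w : Ch H, l.length = Q + 1 →
        w ∈ Sp (Ctl B ∩ Gr (Q + 1)) ∧ bd w = s (dl l) := by
      intro l
      by_cases hl : l.length = Q + 1
      · have hdl : dl l ∈ Sp (Gr Q : Set (List H)) := by
          apply Sp_mono _ (dl_mem l)
          rintro l' ⟨_, h2⟩
          rw [mem_Gr]; omega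
        obtain ⟨w, hw, hbw⟩ := hfill (s (dl l)) (hs_mem Q le_rfl _ hdl) (by
          rw [hs_bd Q le_rfl _ hdl, bd_dl, map_zero])
        exact ⟨w, fun _ => ⟨hw, hbw⟩⟩
      · exact ⟨0, fun h => absurd h hl⟩
    choose w hw using hw
    let sl : List H → Ch H := fun l => if l.length ≤ Q then s (single l 1) else
      if l.length = Q + 1 then
        match l with
        | [] => 0
        | x :: t => act x (w ((x :: t).map (fun y => x⁻¹ • y)))
      else 0
    let s' : Ch H →ₗ[ℤ] Ch H := Finsupp.linearCombination ℤ sl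
    have hs' : ∀ l, s' (single l 1) = sl l := by
      intro l; simp [s', Finsupp.linearCombination_single]
    have hlow : ∀ q ≤ Q, ∀ u ∈ Sp (Gr q : Set (List H)), s' u = s u := by
      intro q hq u hu
      apply eq_of_Sp (p := Gr q) _ hu
      intro l hl
      rw [hs']
      rw [mem_Gr] at hl
      simp only [sl]
      rw [if_pos (by omega)]
    have htop : ∀ (x : H) (t : List H), (x :: t).length = Q + 1 →
        s' (single (x :: t) 1) = act x (w ((x :: t).map (fun y => x⁻¹ • y))) := by
      intro x t h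
      rw [hs']
      simp only [sl]
      rw [if_neg (by omega), if_pos h]
    refine ⟨A ∪ B, hA.union hB, s', ?_, ?_, ?_, ?_⟩
    · intro g u
      have : (s' ∘ₗ act g : Ch H →ₗ[ℤ] Ch H) = act g ∘ₗ s' := by
        apply lin_ext
        intro l
        rw [LinearMap.comp_apply, LinearMap.comp_apply, act_single]
        rcases lt_trichotomy l.length (Q + 1) with h | h | h
        · rw [hlow l.length (by omega) _ (single_mem_Sp (p := Gr l.length) rfl 1),
            hlow l.length (by omega) _ (single_mem_Sp (p := Gr l.length) (by simp [Gr]) 1),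
            ← hs_eq, act_single]
        · rcases l with _ | ⟨x, t⟩
          · simp at h
          · rw [htop x t h]
            rw [List.map_cons, htop _ _ (by simpa using h), ← act_mul]
            congr 2
            rw [List.map_cons, List.map_cons, List.map_map]
            congr 1
            · simp
            · apply List.map_congr_left
              intro y _
              simp [mul_assoc]
        · rw [hs', hs']
          simp only [sl, List.length_map]
          rw [if_neg (by omega), if_neg (by omega), if_neg (by omega), if_neg (by omega),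
            map_zero]
      exact LinearMap.congr_fun this u
    · rw [hlow 0 (by omega) _ (single_mem_Sp (p := Gr 0) rfl 1), hs_nil]
    · intro q hq u hu
      rcases Nat.lt_or_ge Q q with h | h
      · obtain rfl : q = Q + 1 := by omega
        apply map_mem_of_Sp _ hu
        intro l hl
        rcases l with _ | ⟨x, t⟩
        · simp [Gr] at hl
        · rw [htop x t hl]
          apply Sp_mono _ (act_ctl x (hw _ (by simpa [Gr] using hl)).1)
          exact Set.inter_subset_inter_left _ (Ctl_mono Set.subset_union_right)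
      · rw [hlow q h u hu]
        apply Sp_mono _ (hs_mem q h u hu)
        exact Set.inter_subset_inter_left _ (Ctl_mono Set.subset_union_left)
    · intro q hq u hu
      rcases Nat.lt_or_ge Q q with h | h
      · obtain rfl : q = Q + 1 := by omega
        have := eq_of_Sp (L := bd ∘ₗ s') (L' := s' ∘ₗ bd) (p := Gr (Q + 1)) (u := u) (by
          intro l hl
          rcases l with _ | ⟨x, t⟩
          · simp [Gr] at hl
          · have hl' : ((x :: t).map (fun y => x⁻¹ • y)).length = Q + 1 := by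
              simpa [Gr] using hl
            rw [LinearMap.comp_apply, LinearMap.comp_apply, htop x t hl, bd_act,
              (hw _ hl').2, ← hs_eq, bd_single, one_smul]
            have e1 : act x (dl ((x :: t).map (fun y => x⁻¹ • y))) = dl (x :: t) := by
              have := bd_act x (act x⁻¹ (single (x :: t) (1 : ℤ)))
              rw [← act_mul, mul_inv_cancel, act_one, act_single, bd_single, bd_single,
                one_smul, one_smul] at this
              exact this.symm
            rw [e1]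
            have hdl : dl (x :: t) ∈ Sp (Gr Q : Set (List H)) := by
              apply Sp_mono _ (dl_mem (x :: t))
              rintro l' ⟨_, h2⟩
              rw [mem_Gr] at *
              omega
            rw [hlow Q le_rfl _ hdl]) hu
        exact this
      · rw [hlow q h u hu, hs_bd q h u hu]
        rcases q with _ | q
        · rw [bd_of_Gr_zero hu, map_zero, map_zero]
        · rw [hlow q (by omega) _ (bd_mem_Gr hu)]

end Vale.Agent.P188

end

section

/-!
Norms of chains, finiteness of sets of lists, and rational invariant functionals.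
-/

universe u v w

namespace Vale.Agent.P188

open Finsupp

section Norm

variable {X : Type u} {Y : Type v}

/-- The `ℓ¹` norm of a chain. -/
def nm (u : Ch X) : ℤ := u.sum (fun _ a => |a|)

lemma nm_nonneg (u : Ch X) : 0 ≤ nm u :=
  Finset.sum_nonneg (fun _ _ => abs_nonneg _)

lemma abs_le_nm (u : Ch X) (l : List X) : |u l| ≤ nm u := by
  classical
  by_cases h : l ∈ u.support
  · exact Finset.single_le_sum (f := fun l => |u l|) (fun _ _ => abs_nonneg _) h
  · rw [Finsupp.notMem_support_iff.mp h, abs_zero]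
    exact nm_nonneg u

lemma nm_single (l : List X) (a : ℤ) : nm (single l a) = |a| := by
  simp [nm]

lemma nm_add (u v : Ch X) : nm (u + v) ≤ nm u + nm v := by
  classical
  have h : ∀ w : Ch X, w.support ⊆ u.support ∪ v.support → nm w =
      ∑ l ∈ u.support ∪ v.support, |w l| := by
    intro w hw
    exact Finsupp.sum_of_support_subset _ hw _ (fun _ _ => abs_zero)
  rw [h _ Finsupp.support_add, h u Finset.subset_union_left, h v Finset.subset_union_right,
    ← Finset.sum_add_distrib]
  exact Finset.sum_le_sum (fun l _ => abs_add_le _ _)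

lemma nm_neg (u : Ch X) : nm (-u) = nm u := by
  unfold nm
  rw [Finsupp.sum, Finsupp.sum, Finsupp.support_neg]
  simp

lemma nm_sub (u v : Ch X) : nm (u - v) ≤ nm u + nm v := by
  rw [sub_eq_add_neg]
  exact (nm_add _ _).trans (by rw [nm_neg])

lemma nm_zero : nm (0 : Ch X) = 0 := by simp [nm]

lemma nm_sum {ι : Type w} (s : Finset ι) (f : ι → Ch X) :
    nm (∑ i ∈ s, f i) ≤ ∑ i ∈ s, nm (f i) := by
  classical
  induction s using Finset.induction_on with
  | empty => simp [nm_zero]
  | insert a s ha ih =>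
    rw [Finset.sum_insert ha, Finset.sum_insert ha]
    exact (nm_add _ _).trans (by linarith)

lemma nm_mapDomain (f : List X → List Y) (u : Ch X) : nm (Finsupp.mapDomain f u) ≤ nm u := by
  unfold Finsupp.mapDomain
  rw [Finsupp.sum]
  refine (nm_sum _ _).trans ?_
  simp only [nm_single]
  exact le_rfl

lemma nm_pf (f : X → Y) (u : Ch X) : nm (pf f u) ≤ nm u := nm_mapDomain _ _

lemma nm_cns (x : X) (u : Ch X) : nm (cns x u) ≤ nm u := nm_mapDomain _ _

lemma nm_prl (f : X → X) (l : List X) : nm (prl f l) ≤ l.length := by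
  induction l with
  | nil => simp [prl, nm_zero]
  | cons x t ih =>
    rw [prl_cons]
    refine (nm_sub _ _).trans ?_
    rw [nm_single]
    have := nm_cns x (prl f t)
    simp only [abs_one, List.length_cons]
    push_cast
    linarith

/-- Finiteness of the set of lists of given length with entries in a finite set. -/
lemma finite_lists {W : Set X} (hW : W.Finite) (n : ℕ) : (On W ∩ Gr n : Set (List X)).Finite := by
  induction n with
  | zero =>
    apply (Set.finite_singleton ([] : List X)).subset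
    rintro l ⟨_, hl⟩
    exact List.length_eq_zero_iff.mp hl
  | succ n ih =>
    apply (Set.Finite.image2 (fun x l => x :: l) hW ih).subset
    rintro l ⟨hl, hl'⟩
    rcases l with _ | ⟨x, t⟩
    · simp [Gr] at hl'
    · refine ⟨x, hl x (by simp), t, ⟨fun y hy => hl y (by simp [hy]), ?_⟩, rfl⟩
      simpa [Gr] using hl'

lemma bd_apply_eq (u : Ch X) (T : Finset (List X)) (hT : ∀ l, u l ≠ 0 → l ∈ T)
    (ξ : List X) : (bd u) ξ = ∑ l ∈ T, u l * (dl l) ξ := by
  classical
  have h1 : bd u = ∑ l ∈ T, u l • dl l := by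
    rw [bd, Finsupp.linearCombination_apply]
    apply Finsupp.sum_of_support_subset
    · intro l hl
      exact hT l (by simpa using hl)
    · intro l _
      simp
  rw [h1, Finsupp.finsetSum_apply]
  rfl

lemma lin_apply_eq {K : Ch X →ₗ[ℤ] Ch Y} (u : Ch X) (T : Finset (List X))
    (hT : ∀ l, u l ≠ 0 → l ∈ T) (ξ : List Y) :
    (K u) ξ = ∑ l ∈ T, u l * (K (single l 1)) ξ := by
  classical
  have h1 : K u = ∑ l ∈ T, u l • K (single l 1) := by
    conv_lhs => rw [← Finsupp.sum_single u]
    rw [Finsupp.sum, map_sum]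
    have h2 : ∀ l, K (single l (u l)) = u l • K (single l 1) := by
      intro l
      rw [← map_smul]
      simp
    simp only [h2]
    apply Finset.sum_subset
    · intro l hl
      exact hT l (by simpa using hl)
    · intro l _ hl
      rw [Finsupp.notMem_support_iff.mp hl, zero_smul]
  rw [h1, Finsupp.finsetSum_apply]
  rfl

end Norm

section Functional

/-- Bounded integer functions. -/
def BddZ {X : Type u} (f : X → ℤ) : Prop := ∃ M : ℤ, ∀ x, |f x| ≤ M

lemma BddZ.cast {X : Type u} {f : X → ℤ} (hf : BddZ f) : Bdd (fun x => (f x : ℝ)) := by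
  obtain ⟨M, hM⟩ := hf
  refine ⟨M, fun x => ?_⟩
  have := hM x
  show |(f x : ℝ)| ≤ M
  exact_mod_cast this

lemma exists_rho : ∃ ρ : ℝ →ₗ[ℚ] ℚ, ρ 1 = 1 := by
  have hinj : LinearMap.ker (Algebra.linearMap ℚ ℝ) = ⊥ := by
    rw [LinearMap.ker_eq_bot]
    exact (algebraMap ℚ ℝ).injective
  obtain ⟨ρ, hρ⟩ := LinearMap.exists_leftInverse_of_injective _ hinj
  refine ⟨ρ, ?_⟩
  have := LinearMap.congr_fun hρ 1
  simpa using this

/-- A rational-valued invariant functional on bounded integer functions. -/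
lemma exists_functional {H : Type u} [Group H] (h : HasMean H) :
    ∃ J : (H → ℤ) → ℚ,
      (∀ {ι : Type u} (s : Finset ι) (a : ι → ℤ) (f : ι → H → ℤ), (∀ i ∈ s, BddZ (f i)) →
        J (fun x => ∑ i ∈ s, a i * f i x) = ∑ i ∈ s, (a i : ℚ) * J (f i)) ∧
      (∀ a : ℤ, J (fun _ => a) = a) ∧
      (∀ (g : H) f, BddZ f → J (fun x => f (x * g)) = J f) := by
  obtain ⟨μ, hμ, hinv⟩ := h
  obtain ⟨ρ, hρ⟩ := exists_rho
  have hρZ : ∀ (a : ℤ) (x : ℝ), ρ ((a : ℝ) * x) = (a : ℚ) * ρ x := by
    intro a x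
    have := ρ.map_smul (a : ℚ) x
    rw [Rat.smul_def, smul_eq_mul] at this
    rw [← this]
    simp
  refine ⟨fun f => ρ (μ (fun x => (f x : ℝ))), ?_, ?_, ?_⟩
  · intro ι s a f hf
    have e1 : (fun x => ((∑ i ∈ s, a i * f i x : ℤ) : ℝ)) =
        fun x => ∑ i ∈ s, (a i : ℝ) * (f i x : ℝ) := by
      funext x
      push_cast
      rfl
    have h1 := hμ.sum s (fun i x => (a i : ℝ) * (f i x : ℝ))
      (fun i hi => (hf i hi).cast.const_mul _)
    simp only
    rw [e1, h1.2, map_sum]
    apply Finset.sum_congr rfl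
    intro i hi
    rw [hμ.smul _ _ (hf i hi).cast, hρZ]
  · intro a
    simp only
    rw [hμ.const]
    have := hρZ a 1
    rw [mul_one, hρ, mul_one] at this
    exact this
  · intro g f hf
    simp only
    congr 1
    exact hinv g _ hf.cast

/-- Common denominators. -/
lemma exists_denominator {ι : Type u} {S : Set ι} (hS : S.Finite) (q : ι → ℚ) :
    ∃ m : ℤ, 0 < m ∧ ∀ i ∈ S, ∃ z : ℤ, (m : ℚ) * q i = z := by
  classical
  refine ⟨∏ i ∈ hS.toFinset, ((q i).den : ℤ), ?_, ?_⟩
  · apply Finset.prod_pos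
    intro i _
    exact_mod_cast (q i).den_pos
  · intro i hi
    have hi' : i ∈ hS.toFinset := by simpa using hi
    refine ⟨(∏ j ∈ hS.toFinset.erase i, ((q j).den : ℤ)) * (q i).num, ?_⟩
    rw [← Finset.mul_prod_erase _ _ hi']
    push_cast
    have h1 : ((q i).den : ℚ) * q i = (q i).num := by
      rw [mul_comm]
      exact_mod_cast Rat.mul_den_eq_num (q i)
    calc ((q i).den : ℚ) * (∏ j ∈ hS.toFinset.erase i, ((q j).den : ℚ)) * q i
        = (∏ j ∈ hS.toFinset.erase i, ((q j).den : ℚ)) * (((q i).den : ℚ) * q i) := by ring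
      _ = _ := by rw [h1]

end Functional

end Vale.Agent.P188

end

section

/-!
Transport of the top contraction along a coarse equivalence, averaging over the group, and
clearing denominators.
-/

universe u v w

namespace Vale.Agent.P188

open Finsupp Pointwise

/-- Lists whose entries lie in `x * E`. -/
def Nr {H : Type u} [Group H] (x : H) (E : Set H) : Set (List H) := On {y | x⁻¹ * y ∈ E}

lemma exists_local_contraction {H : Type u} {Z : Type v} [Group H] [Group Z] {n : ℕ}
    (hc : CoarseEquiv H Z) (hZ : PolyZ n Z) :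
    ∃ k : Ch H →ₗ[ℤ] Ch H,
      (∀ u ∈ Sp (Gr (n + 1) : Set (List H)), k u ∈ Sp (Gr (n + 2))) ∧
      (∀ u ∈ Sp (Gr (n + 2) : Set (List H)), bd (k (bd u)) = bd u) ∧
      (∀ A : Set H, A.Finite → ∃ E : Set H, E.Finite ∧ ∃ M : ℤ, ∀ (x : H) (t : List H),
        (x :: t) ∈ Ctl A ∩ Gr (n + 1) → k (single (x :: t) 1) ∈ Sp (Nr x E) ∧
          ∀ l, |k (single (x :: t) 1) l| ≤ M) := by
  classical
  obtain ⟨F, F', hF, hF', ⟨E₀, hE₀, hE₀'⟩, _⟩ := hc
  obtain ⟨k, hk_eq, hk_mem, hk_bd⟩ := top_contraction n Z hZ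
  refine ⟨pf F' ∘ₗ k ∘ₗ pf F - pr (F' ∘ F), ?_, ?_, ?_⟩
  · intro u hu
    apply Submodule.sub_mem
    · exact pf_mem (fun l hl => by simpa [Gr] using hl)
        (hk_mem _ (pf_mem (fun l hl => by simpa [Gr] using hl) hu))
    · exact pr_mem (fun l hl l' _ h2 => by rw [mem_Gr] at *; omega) hu
  · intro u hu
    have hFu : pf F u ∈ Sp (Gr (n + 2)) := pf_mem (fun l hl => by simpa [Gr] using hl) hu
    have h1 := bd_pr (F' ∘ F) (bd u)
    rw [bd_bd, map_zero, add_zero] at h1
    show bd (pf F' (k (pf F (bd u))) - pr (F' ∘ F) (bd u)) = bd u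
    rw [map_sub, bd_pf, ← bd_pf F, hk_bd _ hFu, bd_pf F, pf_comp, h1]
    abel
  · intro A hA
    obtain ⟨A₁, hA₁, hA₁'⟩ := hF A hA
    -- bounds for the finitely many normalised lists
    have hfin := finite_lists hA₁ (n + 1)
    obtain ⟨M₁, hM₁⟩ : ∃ M₁ : ℤ, ∀ l ∈ (On A₁ ∩ Gr (n + 1) : Set (List Z)),
        nm (k (single l 1)) ≤ M₁ := by
      obtain ⟨M, hM⟩ := (hfin.image (fun l => nm (k (single l 1)))).bddAbove
      exact ⟨M, fun l hl => hM ⟨l, hl, rfl⟩⟩
    let E₁ : Set Z := ⋃ l ∈ (On A₁ ∩ Gr (n + 1) : Set (List Z)),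
      ⋃ l' ∈ (↑(k (single l 1)).support : Set (List Z)), {y | y ∈ l'}
    have hE₁ : E₁.Finite := by
      apply hfin.biUnion
      intro l _
      apply (Finset.finite_toSet _).biUnion
      intro l' _
      exact List.finite_toSet l'
    obtain ⟨E₂, hE₂, hE₂'⟩ := hF' E₁ hE₁
    refine ⟨E₀ * E₂ ∪ (A ∪ A * E₀), (hE₀.mul hE₂).union (hA.union (hA.mul hE₀)),
      M₁ + (n + 1 : ℕ), ?_⟩
    rintro x t ⟨hl, hl'⟩
    have hxy : ∀ y ∈ x :: t, x⁻¹ * y ∈ A := fun y hy => hl x (by simp) y hy
    -- normalise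
    have hnorm : ((x :: t).map F).map (fun y => (F x)⁻¹ • y) ∈
        (On A₁ ∩ Gr (n + 1) : Set (List Z)) := by
      refine ⟨?_, by simpa [Gr] using hl'⟩
      intro y hy
      rw [List.map_map, List.mem_map] at hy
      obtain ⟨y', hy', rfl⟩ := hy
      exact hA₁' x y' (hxy y' hy')
    have hkk : k (pf F (single (x :: t) 1)) = act (F x)
        (k (single (((x :: t).map F).map (fun y => (F x)⁻¹ • y)) 1)) := by
      rw [← hk_eq, act_single, pf_single, List.map_map]
      congr 2
      have : ((fun y => F x • y) ∘ fun y => (F x)⁻¹ • y) = (id : Z → Z) := by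
        funext y; exact smul_inv_smul _ _
      rw [this, List.map_id]
    have hsupp : k (single (((x :: t).map F).map (fun y => (F x)⁻¹ • y)) 1) ∈ Sp (On E₁) := by
      rw [mem_Sp]
      intro l h y hy
      exact Set.mem_biUnion hnorm (Set.mem_biUnion (by simpa using h) hy)
    constructor
    · show pf F' (k (pf F (single (x :: t) 1))) - pr (F' ∘ F) (single (x :: t) 1) ∈ _
      apply Submodule.sub_mem
      · rw [hkk]
        have h2 : act (F x) (k (single (((x :: t).map F).map (fun y => (F x)⁻¹ • y)) 1)) ∈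
            Sp (On {y | (F x)⁻¹ * y ∈ E₁}) := by
          apply pf_mem _ hsupp
          intro l hl y hy
          rw [List.mem_map] at hy
          obtain ⟨y', hy', rfl⟩ := hy
          show (F x)⁻¹ * (F x • y') ∈ E₁
          rw [smul_eq_mul, inv_mul_cancel_left]
          exact hl y' hy'
        apply pf_mem _ h2
        intro l hl y hy
        rw [List.mem_map] at hy
        obtain ⟨y', hy', rfl⟩ := hy
        refine Or.inl ⟨x⁻¹ * F' (F x), hE₀' x, (F' (F x))⁻¹ * F' y', hE₂' _ _ (hl y' hy'), ?_⟩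
        simp only
        group
      · rw [pr_single, one_smul]
        apply Sp_mono _ (prl_mem _ _)
        rintro l ⟨h1, _⟩ y hy
        have h3 := h1 hy
        rw [List.mem_append, List.mem_map] at h3
        rcases h3 with h | ⟨y', h, rfl⟩
        · exact Or.inr (Or.inl (hxy y h))
        · refine Or.inr (Or.inr ⟨x⁻¹ * y', hxy y' h, y'⁻¹ * F' (F y'), hE₀' y', ?_⟩)
          simp only [Function.comp_apply]
          group
    · intro l
      refine (abs_le_nm _ l).trans ?_
      show nm (pf F' (k (pf F (single (x :: t) 1))) - pr (F' ∘ F) (single (x :: t) 1)) ≤ _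
      refine (nm_sub _ _).trans ?_
      have h1 : nm (pf F' (k (pf F (single (x :: t) 1)))) ≤ M₁ := by
        refine (nm_pf _ _).trans ?_
        rw [hkk]
        exact (nm_pf _ _).trans (hM₁ _ hnorm)
      have h2 : nm (pr (F' ∘ F) (single (x :: t) 1)) ≤ (n + 1 : ℕ) := by
        rw [pr_single, one_smul]
        refine (nm_prl _ _).trans ?_
        rw [mem_Gr] at hl'
        rw [hl']
      linarith

theorem exists_integral_contraction {H : Type u} {Z : Type v} [Group H] [Group Z] {n : ℕ}
    (hc : CoarseEquiv H Z) (hZ : PolyZ n Z) (A : Set H) (hA : A.Finite) :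
    ∃ m : ℤ, 0 < m ∧ ∃ k : Ch H →ₗ[ℤ] Ch H,
      (∀ (g : H) (u : Ch H), k (act g u) = act g (k u)) ∧
      (∀ u ∈ Sp (Gr (n + 1) : Set (List H)), k u ∈ Sp (Gr (n + 2))) ∧
      (∀ u ∈ Sp (Ctl A ∩ Gr (n + 2) : Set (List H)), bd (k (bd u)) = m • bd u) := by
  classical
  obtain ⟨K, hK_mem, hK_bd, hK_loc⟩ := exists_local_contraction hc hZ
  obtain ⟨J, hJ_sum, hJ_const, hJ_inv⟩ :=
    exists_functional (hasMean_of_coarseEquiv hc (hasMean_of_PolyZ n Z hZ))
  obtain ⟨E, hE, M, hEM⟩ := hK_loc A hA
  let φ : List H → List H → H → ℤ := fun σ τ g =>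
    K (act g (single σ 1)) (τ.map (fun y => g • y))
  let κ : List H → List H → ℚ := fun σ τ => J (φ σ τ)
  -- controlled lists stay controlled
  have hctl : ∀ (g : H) (σ : List H), σ ∈ (Ctl A ∩ Gr (n + 1) : Set (List H)) →
      σ.map (fun y => g • y) ∈ (Ctl A ∩ Gr (n + 1) : Set (List H)) := by
    rintro g σ ⟨h1, h2⟩
    exact ⟨Ctl_map_mul g h1, by simpa [Gr] using h2⟩
  have hφ_bdd : ∀ σ ∈ (Ctl A ∩ Gr (n + 1) : Set (List H)), ∀ τ, BddZ (φ σ τ) := by
    intro σ hσ τ
    refine ⟨M, fun g => ?_⟩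
    rcases σ with _ | ⟨x, t⟩
    · exact absurd hσ.2 (by simp [Gr])
    · simp only [φ]
      rw [act_single]
      exact (hEM (g • x) (t.map (fun y => g • y)) (hctl g _ hσ)).2 _
  have hφ_supp : ∀ (x : H) (t : List H), (x :: t) ∈ (Ctl A ∩ Gr (n + 1) : Set (List H)) →
      ∀ (τ : List H) (g : H), φ (x :: t) τ g ≠ 0 → τ ∈ (Nr x E ∩ Gr (n + 2) : Set (List H)) := by
    intro x t hσ τ g hne
    simp only [φ] at hne
    rw [act_single] at hne
    have h1 := (hEM (g • x) (t.map (fun y => g • y)) (hctl g _ hσ)).1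
    have h2 : K (single ((x :: t).map (fun y => g • y)) 1) ∈ Sp (Gr (n + 2)) :=
      hK_mem _ (single_mem_Sp (hctl g _ hσ).2 1)
    rw [mem_Sp] at h1 h2
    refine ⟨?_, by simpa [Gr] using h2 _ hne⟩
    intro y hy
    have := h1 _ hne (g • y) (List.mem_map.mpr ⟨y, hy, rfl⟩)
    have h3 : (g • x)⁻¹ * (g • y) ∈ E := this
    rw [smul_eq_mul, smul_eq_mul, mul_inv_rev, mul_assoc, inv_mul_cancel_left] at h3
    exact h3
  have hκ_zero : ∀ (x : H) (t : List H), (x :: t) ∈ (Ctl A ∩ Gr (n + 1) : Set (List H)) →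
      ∀ τ : List H, τ ∉ (Nr x E ∩ Gr (n + 2) : Set (List H)) → κ (x :: t) τ = 0 := by
    intro x t hσ τ hτ
    have : φ (x :: t) τ = fun _ => 0 := by
      funext g
      by_contra hne
      exact hτ (hφ_supp x t hσ τ g hne)
    simp only [κ]
    rw [this, hJ_const]
    simp
  have hκ_inv : ∀ (g : H), ∀ σ ∈ (Ctl A ∩ Gr (n + 1) : Set (List H)), ∀ τ : List H,
      κ (σ.map (fun y => g • y)) (τ.map (fun y => g • y)) = κ σ τ := by
    intro g σ hσ τ
    simp only [κ]
    rw [← hJ_inv g (φ σ τ) (hφ_bdd σ hσ τ)]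
    congr 1
    funext x
    simp only [φ]
    rw [← act_single, ← act_mul, List.map_map]
    congr 2
    funext y
    simp only [Function.comp_apply]
    rw [mul_smul]
  -- common denominators
  have hSig := finite_lists hA (n + 1)
  have hT := finite_lists hE (n + 2)
  obtain ⟨m, hm, hm'⟩ := exists_denominator (hSig.prod hT) (fun p => κ p.1 p.2)
  have hint : ∀ σ ∈ (Ctl A ∩ Gr (n + 1) : Set (List H)), ∀ τ : List H,
      ∃ z : ℤ, (m : ℚ) * κ σ τ = z := by
    intro σ hσ τ
    rcases σ with _ | ⟨x, t⟩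
    · exact absurd hσ.2 (by simp [Gr])
    by_cases hτ : τ ∈ (Nr x E ∩ Gr (n + 2) : Set (List H))
    · rw [← hκ_inv x⁻¹ _ hσ τ]
      apply hm' (_, _)
      refine ⟨⟨?_, by simpa [Gr] using hσ.2⟩, ⟨?_, by simpa [Gr] using hτ.2⟩⟩
      · intro y hy
        change y ∈ (x :: t).map (fun y => x⁻¹ • y) at hy
        rw [List.mem_map] at hy
        obtain ⟨y', hy', rfl⟩ := hy
        exact hσ.1 x (by simp) y' hy'
      · intro y hy
        change y ∈ τ.map (fun y => x⁻¹ • y) at hy
        rw [List.mem_map] at hy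
        obtain ⟨y', hy', rfl⟩ := hy
        exact hτ.1 y' hy'
    · exact ⟨0, by rw [hκ_zero x t hσ τ hτ]; simp⟩
  let cf : List H → List H → ℤ := fun σ τ => ((m : ℚ) * κ σ τ).num
  have hcf : ∀ σ ∈ (Ctl A ∩ Gr (n + 1) : Set (List H)), ∀ τ : List H,
      (cf σ τ : ℚ) = (m : ℚ) * κ σ τ := by
    intro σ hσ τ
    obtain ⟨z, hz⟩ := hint σ hσ τ
    simp only [cf]
    rw [hz]
    simp
  have hcf_supp : ∀ (x : H) (t : List H), (x :: t) ∈ (Ctl A ∩ Gr (n + 1) : Set (List H)) →
      ∀ τ, cf (x :: t) τ ≠ 0 → τ ∈ (Nr x E ∩ Gr (n + 2) : Set (List H)) := by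
    intro x t hσ τ hne
    by_contra hτ
    apply hne
    simp only [cf]
    rw [hκ_zero x t hσ τ hτ]
    simp
  have hNfin : ∀ x : H, (Nr x E ∩ Gr (n + 2) : Set (List H)).Finite := by
    intro x
    apply finite_lists
    have : {y : H | x⁻¹ * y ∈ E} = (fun y => x⁻¹ * y) ⁻¹' E := rfl
    rw [this]
    exact hE.preimage (mul_right_injective x⁻¹).injOn
  have hcf_fin : ∀ σ ∈ (Ctl A ∩ Gr (n + 1) : Set (List H)), {τ | cf σ τ ≠ 0}.Finite := by
    intro σ hσ
    rcases σ with _ | ⟨x, t⟩
    · exact absurd hσ.2 (by simp [Gr])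
    exact (hNfin x).subset (fun τ hτ => hcf_supp x t hσ τ hτ)
  let kl : List H → Ch H := fun σ =>
    if h : σ ∈ (Ctl A ∩ Gr (n + 1) : Set (List H)) then
      Finsupp.ofSupportFinite (cf σ) (hcf_fin σ h) else 0
  have hkl : ∀ σ ∈ (Ctl A ∩ Gr (n + 1) : Set (List H)), ∀ τ, kl σ τ = cf σ τ := by
    intro σ hσ τ
    simp only [kl]
    rw [dif_pos hσ]
    rfl
  have hkl0 : ∀ σ, σ ∉ (Ctl A ∩ Gr (n + 1) : Set (List H)) → kl σ = 0 := by
    intro σ hσ
    simp only [kl]
    rw [dif_neg hσ]
  let k : Ch H →ₗ[ℤ] Ch H := Finsupp.linearCombination ℤ kl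
  have hk : ∀ l, k (single l 1) = kl l := by
    intro l; simp [k, Finsupp.linearCombination_single]
  have hcf_inv : ∀ (g : H), ∀ σ ∈ (Ctl A ∩ Gr (n + 1) : Set (List H)), ∀ τ : List H,
      cf (σ.map (fun y => g • y)) (τ.map (fun y => g • y)) = cf σ τ := by
    intro g σ hσ τ
    simp only [cf]
    rw [hκ_inv g σ hσ τ]
  have hmapinj : ∀ g : H, Function.Injective (List.map (fun y : H => g • y)) :=
    fun g => List.map_injective_iff.mpr (MulAction.injective g)
  have hctl' : ∀ (g : H) (σ : List H), σ.map (fun y => g • y) ∈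
      (Ctl A ∩ Gr (n + 1) : Set (List H)) → σ ∈ (Ctl A ∩ Gr (n + 1) : Set (List H)) := by
    intro g σ h
    have := hctl g⁻¹ _ h
    rw [List.map_map] at this
    have e : ((fun y => g⁻¹ • y) ∘ fun y => g • y) = (id : H → H) := by
      funext y; exact inv_smul_smul _ _
    rwa [e, List.map_id] at this
  refine ⟨m, hm, k, ?_, ?_, ?_⟩
  · intro g u
    have : (k ∘ₗ act g : Ch H →ₗ[ℤ] Ch H) = act g ∘ₗ k := by
      apply lin_ext
      intro σ
      rw [LinearMap.comp_apply, LinearMap.comp_apply, act_single, hk, hk]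
      by_cases hσ : σ ∈ (Ctl A ∩ Gr (n + 1) : Set (List H))
      · ext τ
        obtain ⟨τ', rfl⟩ : ∃ τ' : List H, τ'.map (fun y => g • y) = τ := by
          refine ⟨τ.map (fun y => g⁻¹ • y), ?_⟩
          rw [List.map_map]
          have e : ((fun y => g • y) ∘ fun y => g⁻¹ • y) = (id : H → H) := by
            funext y; exact smul_inv_smul _ _
          rw [e, List.map_id]
        rw [hkl _ (hctl g σ hσ), hcf_inv g σ hσ]
        have : (act g (kl σ)) (τ'.map (fun y => g • y)) = kl σ τ' :=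
          Finsupp.mapDomain_apply (hmapinj g) (kl σ) τ'
        rw [this, hkl σ hσ]
      · rw [hkl0 σ hσ, hkl0 _ (fun h => hσ (hctl' g σ h)), map_zero]
    exact LinearMap.congr_fun this u
  · intro u hu
    apply map_mem_of_Sp _ hu
    intro σ hσ
    rw [hk]
    by_cases hσ' : σ ∈ (Ctl A ∩ Gr (n + 1) : Set (List H))
    · rw [mem_Sp]
      intro τ hτ
      rw [hkl σ hσ'] at hτ
      rcases σ with _ | ⟨x, t⟩
      · exact absurd hσ'.2 (by simp [Gr])
      exact (hcf_supp x t hσ' τ hτ).2
    · rw [hkl0 σ hσ']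
      exact Submodule.zero_mem _
  · intro u hu
    have := eq_of_Sp (L := bd ∘ₗ k ∘ₗ bd) (L' := m • bd) (p := Ctl A ∩ Gr (n + 2)) (u := u) (by
      rintro τ₀ ⟨hτ₀, hτ₀'⟩
      show bd (k (bd (single τ₀ 1))) = m • bd (single τ₀ 1)
      rw [bd_single, one_smul]
      have hdl : dl τ₀ ∈ Sp (Ctl A ∩ Gr (n + 1)) := by
        apply Sp_mono _ (dl_mem τ₀)
        rintro l' ⟨h1, h2⟩
        refine ⟨SubC_Ctl A τ₀ hτ₀ l' h1, ?_⟩
        rw [mem_Gr] at *
        omega
      set S : Finset (List H) := (dl τ₀).support with hS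
      have hSmem : ∀ σ ∈ S, σ ∈ (Ctl A ∩ Gr (n + 1) : Set (List H)) := by
        intro σ hσ
        exact (mem_Sp.mp hdl) σ (by simpa [hS] using hσ)
      let hd : List H → H := fun l => match l with
        | [] => 1
        | x :: _ => x
      let T : Finset (List H) := S.biUnion (fun σ => (hNfin (hd σ)).toFinset)
      have hTmem : ∀ σ ∈ S, ∀ τ ∈ (Nr (hd σ) E ∩ Gr (n + 2) : Set (List H)), τ ∈ T := by
        intro σ hσ τ hτ
        exact Finset.mem_biUnion.mpr ⟨σ, hσ, (hNfin (hd σ)).mem_toFinset.mpr hτ⟩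
      have hSne : ∀ l, dl τ₀ l ≠ 0 → l ∈ S := by
        intro l hl
        simpa [hS] using hl
      -- the value of `k (dl τ₀)`
      have hkT : ∀ τ, k (dl τ₀) τ = ∑ σ ∈ S, dl τ₀ σ * cf σ τ := by
        intro τ
        rw [lin_apply_eq (dl τ₀) S hSne]
        apply Finset.sum_congr rfl
        intro σ hσ
        rw [hk, hkl σ (hSmem σ hσ)]
      have hkTsupp : ∀ τ, k (dl τ₀) τ ≠ 0 → τ ∈ T := by
        intro τ hτ
        rw [hkT] at hτ
        obtain ⟨σ, hσ, hne⟩ := Finset.exists_ne_zero_of_sum_ne_zero hτ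
        have hσ' := hSmem σ hσ
        apply hTmem σ hσ
        rcases σ with _ | ⟨x, t⟩
        · exact absurd hσ'.2 (by simp [Gr])
        exact hcf_supp x t hσ' τ (right_ne_zero_of_mul hne)
      -- the translated identity
      have hg : ∀ (g : H) (ξ : List H), ∑ p ∈ S ×ˢ T, (dl τ₀ p.1 * dl p.2 ξ) * φ p.1 p.2 g =
          dl τ₀ ξ := by
        intro g ξ
        have hU : ∀ τ, (act g⁻¹ (K (act g (dl τ₀)))) τ = ∑ σ ∈ S, dl τ₀ σ * φ σ τ g := by
          intro τ
          have e1 : (act g⁻¹ (K (act g (dl τ₀)))) τ = (K (act g (dl τ₀)))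
              (τ.map (fun y => g • y)) := by
            have := Finsupp.mapDomain_apply (hmapinj g⁻¹) (K (act g (dl τ₀)))
              (τ.map (fun y => g • y))
            rw [List.map_map] at this
            have e : ((fun y => g⁻¹ • y) ∘ fun y => g • y) = (id : H → H) := by
              funext y; exact inv_smul_smul _ _
            rw [e, List.map_id] at this
            exact this
          rw [e1]
          exact lin_apply_eq (K := K ∘ₗ act g) (dl τ₀) S hSne _
        have hUsupp : ∀ τ, (act g⁻¹ (K (act g (dl τ₀)))) τ ≠ 0 → τ ∈ T := by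
          intro τ hτ
          rw [hU] at hτ
          obtain ⟨σ, hσ, hne⟩ := Finset.exists_ne_zero_of_sum_ne_zero hτ
          have hσ' := hSmem σ hσ
          apply hTmem σ hσ
          rcases σ with _ | ⟨x, t⟩
          · exact absurd hσ'.2 (by simp [Gr])
          exact hφ_supp x t hσ' τ g (right_ne_zero_of_mul hne)
        have hbdU : bd (act g⁻¹ (K (act g (dl τ₀)))) = dl τ₀ := by
          have h1 : act g (dl τ₀) = bd (act g (single τ₀ (1 : ℤ))) := by
            rw [bd_act, bd_single, one_smul]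
          rw [bd_act, h1, hK_bd _ (act_mem_Gr g (single_mem_Sp hτ₀' 1)), ← h1, ← act_mul,
            inv_mul_cancel, act_one]
        have h2 := bd_apply_eq (act g⁻¹ (K (act g (dl τ₀)))) T hUsupp ξ
        rw [hbdU] at h2
        rw [h2, Finset.sum_product_right]
        apply Finset.sum_congr rfl
        intro τ _
        rw [hU, Finset.sum_mul]
        apply Finset.sum_congr rfl
        intro σ _
        ring
      ext ξ
      rw [bd_apply_eq _ T hkTsupp ξ]
      have hQ : ((∑ τ ∈ T, k (dl τ₀) τ * dl τ ξ : ℤ) : ℚ) = ((m * dl τ₀ ξ : ℤ) : ℚ) := by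
        have h1 := hJ_sum (S ×ˢ T) (fun p => dl τ₀ p.1 * dl p.2 ξ) (fun p => φ p.1 p.2)
          (fun p hp => hφ_bdd _ (hSmem _ (Finset.mem_product.mp hp).1) _)
        have h2 : (fun x => ∑ p ∈ S ×ˢ T, (dl τ₀ p.1 * dl p.2 ξ) * φ p.1 p.2 x) =
            fun _ => dl τ₀ ξ := funext (fun g => hg g ξ)
        rw [h2, hJ_const] at h1
        push_cast
        rw [h1, Finset.sum_product_right, Finset.mul_sum]
        apply Finset.sum_congr rfl
        intro τ _
        rw [hkT]
        push_cast
        rw [Finset.sum_mul, Finset.mul_sum]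
        apply Finset.sum_congr rfl
        intro σ hσ
        rw [hcf σ (hSmem σ hσ) τ]
        ring
      have hZ' : (∑ τ ∈ T, k (dl τ₀) τ * dl τ ξ : ℤ) = m * dl τ₀ ξ := by exact_mod_cast hQ
      rw [hZ']
      rfl) hu
    exact this

end Vale.Agent.P188

end

section

/-!
Descent: a top contraction up to the integer `m` forces the orders of finite subgroups
to divide `m`.
-/

universe u v w

namespace Vale.Agent.P188

open Finsupp

variable {H : Type u} [Group H]

/-- Projection onto chains whose first vertex lies in `D`. -/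
noncomputable def dom (D : Set H) : Ch H →ₗ[ℤ] Ch H :=
  open Classical in
  Finsupp.linearCombination ℤ (fun l => match l with
    | [] => 0
    | x :: t => if x ∈ D then single (x :: t) 1 else 0)

omit [Group H] in
lemma dom_cons (D : Set H) (x : H) (t : List H) [Decidable (x ∈ D)] :
    dom D (single (x :: t) 1) = if x ∈ D then single (x :: t) 1 else 0 := by
  simp only [dom, Finsupp.linearCombination_single, one_smul]
  congr

omit [Group H] in
lemma dom_mem (D : Set H) {q : ℕ} {u : Ch H} (hu : u ∈ Sp (Gr q)) : dom D u ∈ Sp (Gr q) := by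
  classical
  apply map_mem_of_Sp _ hu
  intro l hl
  rcases l with _ | ⟨x, t⟩
  · simp [dom, Finsupp.linearCombination_single]
  · rw [dom_cons]
    split_ifs
    · exact single_mem_Sp hl 1
    · exact Submodule.zero_mem _

/-- Translates of a fundamental domain decompose chains. -/
lemma sum_dom (F : Subgroup H) [Fintype F] (D : Set H)
    (hD : Subgroup.IsComplement (F : Set H) D) {q : ℕ} {u : Ch H}
    (hu : u ∈ Sp (Gr (q + 1))) :
    ∑ f : F, act (f : H) (dom D (act (f : H)⁻¹ u)) = u := by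
  classical
  have := eq_of_Sp (L := ∑ f : F, act (f : H) ∘ₗ dom D ∘ₗ act (f : H)⁻¹)
    (L' := LinearMap.id) (p := Gr (q + 1)) (u := u) (by
    intro l hl
    rcases l with _ | ⟨x, t⟩
    · simp [Gr] at hl
    obtain ⟨⟨⟨f₀, hf₀⟩, ⟨d₀, hd₀⟩⟩, hfd, huniq⟩ := hD.existsUnique x
    simp only at hfd
    rw [LinearMap.sum_apply, Finset.sum_eq_single (⟨f₀, hf₀⟩ : F)]
    · rw [LinearMap.comp_apply, LinearMap.comp_apply, act_single, List.map_cons, dom_cons,
        if_pos, act_single, List.map_cons, List.map_map]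
      · have e1 : f₀ • f₀⁻¹ • x = x := smul_inv_smul _ _
        have e2 : ((fun y => f₀ • y) ∘ fun y => f₀⁻¹ • y) = (id : H → H) := by
          funext y; exact smul_inv_smul _ _
        simp only
        rw [e1, e2, List.map_id]
        rfl
      · simp only
        rw [← hfd]
        simpa using hd₀
    · rintro ⟨f, hf⟩ _ hne
      rw [LinearMap.comp_apply, LinearMap.comp_apply, act_single, List.map_cons, dom_cons,
        if_neg, map_zero]
      intro hmem
      apply hne
      have := huniq (⟨f, hf⟩, ⟨f⁻¹ * x, hmem⟩) (by simp)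
      exact congrArg Prod.fst this
    · intro h
      exact absurd (Finset.mem_univ _) h) hu
  rw [LinearMap.sum_apply] at this
  exact this

theorem descend (F : Subgroup H) [Finite F] (N : ℕ) (m : ℤ) (s : Ch H →ₗ[ℤ] Ch H)
    (hs_eq : ∀ (g : H) (u : Ch H), s (act g u) = act g (s u))
    (hs_nil : s (single [] 1) = single [] 1)
    (hs_mem : ∀ q ≤ N, ∀ u ∈ Sp (Gr q : Set (List H)), s u ∈ Sp (Gr q))
    (hs_bd : ∀ q ≤ N, ∀ u ∈ Sp (Gr q : Set (List H)), bd (s u) = s (bd u))
    (Θ : Ch H →ₗ[ℤ] Ch H) (hΘ_eq : ∀ (g : H) (u : Ch H), Θ (act g u) = act g (Θ u))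
    (hΘ_mem : ∀ u ∈ Sp (Gr N : Set (List H)), Θ u ∈ Sp (Gr (N + 1)))
    (hΘ : ∀ u ∈ Sp (Gr N : Set (List H)), bd u = 0 → bd (Θ u) = m • s u) :
    (Nat.card F : ℤ) ∣ m := by
  classical
  have : Fintype F := Fintype.ofFinite F
  obtain ⟨D, hD, _⟩ := Subgroup.exists_isComplement_right F 1
  have main : ∀ j ≤ N, ∃ T : Ch H →ₗ[ℤ] Ch H,
      (∀ (g : F) (u : Ch H), T (act (g : H) u) = act (g : H) (T u)) ∧
      (∀ u ∈ Sp (Gr (N - j) : Set (List H)), T u ∈ Sp (Gr (N - j + 1))) ∧
      (∀ u ∈ Sp (Gr (N - j) : Set (List H)), bd u = 0 → bd (T u) = m • s u) := by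
    intro j
    induction j with
    | zero => exact fun _ => ⟨Θ, fun g u => hΘ_eq g u, hΘ_mem, hΘ⟩
    | succ j ih =>
      intro hj
      obtain ⟨T, hT_eq, hT_mem, hT⟩ := ih (by omega)
      obtain ⟨q, hq⟩ : ∃ q, N - (j + 1) = q := ⟨_, rfl⟩
      have hq' : N - j = q + 1 := by omega
      rw [hq]
      rw [hq'] at hT_mem hT
      let R : Ch H →ₗ[ℤ] Ch H := m • s - bd ∘ₗ T
      have hR : ∀ u, R u = m • s u - bd (T u) := fun u => rfl
      have hR_eq : ∀ (g : F) (u : Ch H), R (act (g : H) u) = act (g : H) (R u) := by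
        intro g u
        rw [hR, hR, hs_eq, hT_eq, bd_act, map_sub, map_smul]
      have hR_mem : ∀ u ∈ Sp (Gr (q + 1) : Set (List H)), R u ∈ Sp (Gr (q + 1)) := by
        intro u hu
        rw [hR]
        exact Submodule.sub_mem _ (Submodule.smul_mem _ _ (hs_mem _ (by omega) u hu))
          (bd_mem_Gr (hT_mem u hu))
      have hcns : ∀ u ∈ Sp (Gr q : Set (List H)), cns 1 u ∈ Sp (Gr (q + 1)) := by
        intro u hu
        exact cns_mem (fun l hl => by rw [mem_Gr] at *; simp [hl]) hu
      let T' : Ch H →ₗ[ℤ] Ch H := ∑ f : F, act (f : H) ∘ₗ dom D ∘ₗ R ∘ₗ cns 1 ∘ₗ bd ∘ₗ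
        cns 1 ∘ₗ act (f : H)⁻¹
      have hT' : ∀ u, T' u = ∑ f : F, act (f : H) (dom D (R (cns 1 (bd (cns 1
          (act (f : H)⁻¹ u)))))) := by
        intro u
        simp only [T', LinearMap.sum_apply, LinearMap.comp_apply]
      have hT'cyc : ∀ u ∈ Sp (Gr q : Set (List H)), bd u = 0 → T' u = R (cns 1 u) := by
        intro u hu hbu
        rw [hT', ← sum_dom F D hD (hR_mem _ (hcns u hu))]
        apply Finset.sum_congr rfl
        intro f _
        congr 2
        have h1 : bd (act (f : H)⁻¹ u) = 0 := by rw [bd_act, hbu, map_zero]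
        rw [bd_cns, h1, map_zero, sub_zero]
        have hf : (f : H)⁻¹ = ((f⁻¹ : F) : H) := rfl
        rw [hf, ← hR_eq, ← sub_eq_zero, ← map_sub, hR]
        have hz : cns 1 (act ((f⁻¹ : F) : H) u) - act ((f⁻¹ : F) : H) (cns 1 u) ∈
            Sp (Gr (q + 1) : Set (List H)) :=
          Submodule.sub_mem _ (hcns _ (act_mem_Gr _ hu)) (act_mem_Gr _ (hcns u hu))
        rw [hT _ hz, sub_self]
        rw [map_sub, bd_act, bd_cns, bd_cns, bd_act, hbu]
        simp
      refine ⟨T', ?_, ?_, ?_⟩
      · intro g u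
        rw [hT', hT', map_sum]
        rw [← Equiv.sum_comp (Equiv.mulLeft g)]
        apply Finset.sum_congr rfl
        intro f _
        have e : act ((g * f : F) : H)⁻¹ (act (g : H) u) = act (f : H)⁻¹ u := by
          rw [← act_mul]
          congr 2
          simp [mul_inv_rev]
        simp only [Equiv.coe_mulLeft]
        rw [e, Subgroup.coe_mul, act_mul]
      · intro u hu
        rw [hT']
        apply Submodule.sum_mem
        intro f _
        exact act_mem_Gr _ (dom_mem D (hR_mem _ (hcns _ (bd_mem_Gr (hcns _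
          (act_mem_Gr _ hu))))))
      · intro u hu hbu
        rw [hT'cyc u hu hbu, hR, map_sub, bd_bd, sub_zero, map_smul,
          hs_bd (q + 1) (by omega) _ (hcns u hu), bd_cns, hbu, map_zero, sub_zero]
  obtain ⟨T, hT_eq, hT_mem, hT⟩ := main N le_rfl
  rw [Nat.sub_self] at hT_mem hT
  have hnil : (single ([] : List H) (1 : ℤ)) ∈ Sp (Gr 0 : Set (List H)) :=
    single_mem_Sp (p := Gr 0) rfl 1
  have hv := hT_mem _ hnil
  have hbv := hT _ hnil (by simp)
  rw [hs_nil] at hbv
  set v := T (single [] 1) with hvdef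
  have hinv : ∀ f : F, act (f : H)⁻¹ v = v := by
    intro f
    have := hT_eq f⁻¹ (single [] 1)
    rw [act_single] at this
    simp only [List.map_nil] at this
    exact this.symm
  have hsum := sum_dom F D hD (q := 0) hv
  have hsum' : ∑ f : F, act (f : H) (dom D v) = v := by
    rw [← hsum]
    apply Finset.sum_congr rfl
    intro f _
    rw [hsum, hinv]
  have hnilact : ∀ (g : H) (w : Ch H), (act g w) [] = w [] := by
    intro g w
    have : (Finsupp.lapply ([] : List H) : Ch H →ₗ[ℤ] ℤ) ∘ₗ act g = Finsupp.lapply [] := by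
      apply lin_ext
      intro l
      rw [LinearMap.comp_apply, act_single, Finsupp.lapply_apply, Finsupp.lapply_apply]
      rcases l with _ | ⟨x, t⟩
      · simp
      · simp
    exact LinearMap.congr_fun this w
  have hfinal : (bd v) [] = (Nat.card F : ℤ) * (bd (dom D v)) [] := by
    conv_lhs => rw [← hsum']
    rw [map_sum, Finsupp.finsetSum_apply]
    simp only [bd_act, hnilact]
    rw [Finset.sum_const, Finset.card_univ, Nat.card_eq_fintype_card]
    simp
  rw [hbv] at hfinal
  refine ⟨(bd (dom D v)) [], ?_⟩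
  rw [← hfinal]
  simp

end Vale.Agent.P188

end

section

/-!
Finite subgroups of a group coarsely equivalent to a poly-`ℤ` group have bounded order.
-/

universe u v w

namespace Vale.Agent.P188

open Finsupp Pointwise

lemma UA_of_coarseEquiv {H : Type u} {Z : Type v} [Group H] [Group Z] {n : ℕ}
    (hc : CoarseEquiv H Z) (hZ : PolyZ n Z) : UA H := by
  obtain ⟨F, F', hF, hF', h1, _⟩ := hc
  exact UA_of_coarse hF hF' h1 (UA_of_PolyZ n Z hZ)

theorem exists_package {H : Type u} {Z : Type v} [Group H] [Group Z] {n : ℕ}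
    (hc : CoarseEquiv H Z) (hZ : PolyZ n Z) :
    ∃ (m : ℤ) (s Θ : Ch H →ₗ[ℤ] Ch H), 0 < m ∧
      (∀ (g : H) (u : Ch H), s (act g u) = act g (s u)) ∧
      s (single [] 1) = single [] 1 ∧
      (∀ q ≤ n + 2, ∀ u ∈ Sp (Gr q : Set (List H)), s u ∈ Sp (Gr q)) ∧
      (∀ q ≤ n + 2, ∀ u ∈ Sp (Gr q : Set (List H)), bd (s u) = s (bd u)) ∧
      (∀ (g : H) (u : Ch H), Θ (act g u) = act g (Θ u)) ∧
      (∀ u ∈ Sp (Gr (n + 1) : Set (List H)), Θ u ∈ Sp (Gr (n + 2))) ∧
      (∀ u ∈ Sp (Gr (n + 1) : Set (List H)), bd u = 0 → bd (Θ u) = m • s u) := by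
  obtain ⟨A, hA, s, hs_eq, hs_nil, hs_mem, hs_bd⟩ := exists_compress (UA_of_coarseEquiv hc hZ) (n + 2)
  obtain ⟨m, hm, k, hk_eq, hk_mem, hk_bd⟩ := exists_integral_contraction hc hZ A hA
  have hs_mem' : ∀ q ≤ n + 2, ∀ u ∈ Sp (Gr q : Set (List H)), s u ∈ Sp (Gr q) :=
    fun q hq u hu => Sp_mono Set.inter_subset_right (hs_mem q hq u hu)
  refine ⟨m, s, k ∘ₗ s, hm, hs_eq, hs_nil, hs_mem', hs_bd, ?_, ?_, ?_⟩
  · intro g u
    rw [LinearMap.comp_apply, LinearMap.comp_apply, hs_eq, hk_eq]
  · intro u hu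
    exact hk_mem _ (hs_mem' _ (by omega) u hu)
  · intro u hu hbu
    have hw : cns (1 : H) u ∈ Sp (Gr (n + 2) : Set (List H)) :=
      cns_mem (fun l hl => by simpa [Gr] using hl) hu
    have hw' : bd (cns (1 : H) u) = u := by rw [bd_cns, hbu, map_zero, sub_zero]
    have h1 : s u = bd (s (cns 1 u)) := by rw [hs_bd _ le_rfl _ hw, hw']
    rw [LinearMap.comp_apply, h1, hk_bd _ (hs_mem _ le_rfl _ hw)]

theorem card_dvd_of_coarseEquiv {H : Type u} {Z : Type v} [Group H] [Group Z] {n : ℕ}
    (hc : CoarseEquiv H Z) (hZ : PolyZ n Z) :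
    ∃ m : ℕ, 0 < m ∧ ∀ F : Subgroup H, Finite F → Nat.card F ∣ m := by
  obtain ⟨m, s, Θ, hm, hs_eq, hs_nil, hs_mem, hs_bd, hΘ_eq, hΘ_mem, hΘ⟩ := exists_package hc hZ
  refine ⟨m.toNat, by omega, fun F hF => ?_⟩
  have := descend F (n + 1) m s hs_eq hs_nil (fun q hq => hs_mem q (by omega))
    (fun q hq => hs_bd q (by omega)) Θ hΘ_eq hΘ_mem hΘ
  have h2 : (m.toNat : ℤ) = m := Int.toNat_of_nonneg hm.le
  rw [← h2] at this
  exact_mod_cast this

end Vale.Agent.P188

end
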