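import Vale.Agent.P188.R.G024

/-!
# LIN*: the asymptotic form over an abstract model
-/

open MeasureTheory Set Finset
open scoped ENNReal BigOperators

namespace P188.H882

universe u

/-- Abstract model for coarse differentiation. `t i` are the generic directions, `h i` the dual
additive functions, `Nt ρ` the neutral elements at scale `ρ`. -/
structure LinModel (S : Type u) [Group S] [MeasurableSpace S] (μ : Measure S)
    (ι : Type) [Fintype ι] [DecidableEq ι] where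
  l : S → ℝ
  t : ι → S
  h : ι → S → ℝ
  c : ℕ
  C : ℝ
  Nt : ℕ → Set S
  one_le_C : 1 ≤ C
  l_one : l 1 ≤ 0
  l_nonneg : ∀ x, 0 ≤ l x
  l_mul : ∀ x y, l (x * y) ≤ l x + l y
  l_t : ∀ i (m : ℤ), l (t i ^ m) ≤ |m| * C
  h_mul : ∀ i x y, h i (x * y) = h i x + h i y
  h_t : ∀ i j, h j (t i) = if i = j then 1 else 0
  h_meas : ∀ i, Measurable (h i)
  h_le : ∀ i x, |h i x| ≤ C * (l x + 1)
  mp : ∀ w : S, MeasurePreserving (fun x : S => x * w) μ μ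
  dec1 : ∀ ε : ℝ, 0 < ε → ∃ d : ℝ, 0 < d ∧ ∃ ρ0 : ℕ, ∀ ρ ≥ ρ0, ∀ i u, l u ≤ d * ρ →
    ∃ us : List S, us.length ≤ c ∧ us.prod = u ∧
      ∀ v ∈ us, l v ≤ ρ ∧ Mrg l (Nt ρ) (t i) ρ (ε * ρ) v
  dec2 : ∀ d : ℝ, 0 < d → C * d ≤ 1 → ∃ ρ0 : ℕ, ∀ ρ ≥ ρ0, ∀ u, l u ≤ d * ρ →
    ∃ us : List S, us.length ≤ c ∧ us.prod = u ∧
      ∀ v ∈ us, l v ≤ C * (d * ρ) ∧ Typed l t h ρ ⌈C * (d * ρ)⌉₊ C (Nt ρ) v
  box : ∀ r : ℝ, 1 ≤ r → ∃ Q : Set S, MeasurableSet Q ∧ μ Q ≠ 0 ∧ μ Q ≠ ∞ ∧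
    (∀ q ∈ Q, l q ≤ C * r ∧ l q⁻¹ ≤ C * r) ∧
    ∀ v, l v ≤ r → μ.real {q ∈ Q | q * v ∉ Q} ≤ μ.real Q / 4

lemma omega_num {c L wm ε1 ε0 ρ : ℝ} (hc0 : 0 ≤ c) (hL : 0 < L) (hwm0 : 0 < wm)
    (h1 : 24 * (c + 1) * (L + 1) * ε1 ≤ wm) (hε1 : 0 ≤ ε1) (hε0 : 0 ≤ ε0)
    (he1 : 48 * (c + 1) * ε0 ≤ wm) (hρR : 0 < ρ)
    (t3 : 24 * (c + 1) * (L + 1) ≤ wm * ρ) :
    c * (3 * (4 * (ε0 * ρ) + 2 * L * (ε1 * ρ + 1) + 2 * (ε0 * ρ)) / ρ) ≤ wm := by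
  have e1 : c * (3 * (4 * (ε0 * ρ) + 2 * L * (ε1 * ρ + 1) + 2 * (ε0 * ρ)) / ρ)
      = c * (18 * ε0) + 6 * (L * ε1) * c + 6 * L * c / ρ := by
    field_simp; ring
  rw [e1]
  have a1 : c * (18 * ε0) ≤ wm * (3 / 8) := by nlinarith
  have a2 : 6 * (L * ε1) * c ≤ wm / 4 := by
    have h2 : L * c ≤ (c + 1) * (L + 1) := by nlinarith
    have h3 : 6 * (L * ε1) * c = 6 * (L * c) * ε1 := by ring
    rw [h3]
    have h4 : (L * c) * ε1 ≤ (c + 1) * (L + 1) * ε1 := mul_le_mul_of_nonneg_right h2 hε1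
    nlinarith
  have a3 : 6 * L * c / ρ ≤ wm / 4 := by
    rw [div_le_iff₀ hρR]
    nlinarith [mul_nonneg hL.le hc0]
  linarith

lemma two_wm_le {c k C wm ε : ℝ} (hc0 : 0 ≤ c) (hk0 : 0 ≤ k) (hC : 1 ≤ C) (hwm0 : 0 < wm)
    (hwm : wm * (100 * (c + 1) * (k + 1) * C ^ 2) = ε) : 2 * wm ≤ ε := by
  rw [← hwm]
  have h5 : 1 ≤ (c + 1) * (k + 1) := by nlinarith [mul_nonneg hc0 hk0]
  have h6 : 1 ≤ C ^ 2 := by nlinarith
  have h7 : 1 ≤ (c + 1) * (k + 1) * C ^ 2 := by nlinarith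
  nlinarith

/-- the final numerical estimate -/
lemma err_num {c C k L L1 ε wm ε0 d ρ ω R2 : ℝ} (hc0 : 0 ≤ c) (hC : 1 ≤ C) (hk0 : 0 ≤ k)
    (hL : 0 < L) (hL1 : 0 ≤ L1) (hε : 0 < ε)
    (hwm : wm * (100 * (c + 1) * (k + 1) * C ^ 2) = ε) (hω0 : 0 ≤ ω) (hωle : ω ≤ wm) (hd0 : 0 < d)
    (hρR : 0 < ρ) (he2 : 64 * (c + 1) * ε0 ≤ ε * d) (hε0 : 0 ≤ ε0)
    (t4 : 16 * (c + 1) * (L * (C + 1) + k * (C * L1) + 1) ≤ ε * (d * ρ))
    (t5 : 1 ≤ d * ρ) (hR2 : R2 ≤ C * (C * d * ρ) + 1) {H : ℝ}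
    (hH : H ≤ 2 * C ^ 2 * (d * ρ)) (hH0 : 0 ≤ H) :
    2 * (c * (2 * (ε0 * ρ) + 2 * R2 * ω + L * (C + 1) + ε0 * ρ + k * (C * L1)))
      + k * (2 * ω * H) ≤ ε * (d * ρ) := by
  set r := d * ρ with hr
  have hC2 : 1 ≤ C ^ 2 := by nlinarith
  have hR2' : R2 ≤ 2 * C ^ 2 * r := by
    have : C * (C * d * ρ) = C ^ 2 * r := by rw [hr]; ring
    nlinarith
  have hwm0 : 0 ≤ wm := hω0.trans hωle
  -- (c+1) C² wm ≤ ε/100 and (k+1) C² wm ≤ ε/100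
  have b1 : 100 * ((c + 1) * C ^ 2 * wm) ≤ ε := by
    rw [← hwm]
    have : 0 ≤ (c + 1) * C ^ 2 * wm := by positivity
    nlinarith [mul_nonneg hk0 this]
  have b2 : 100 * ((k + 1) * C ^ 2 * wm) ≤ ε := by
    rw [← hwm]
    have : 0 ≤ (k + 1) * C ^ 2 * wm := by positivity
    nlinarith [mul_nonneg hc0 this]
  have r0 : 0 ≤ r := by linarith
  have s1 : c * (2 * R2 * ω) ≤ (ε / 25) * r := by
    have h1 : R2 * ω ≤ (2 * C ^ 2 * r) * wm := mul_le_mul hR2' hωle hω0 (by positivity)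
    have h2 : c * (2 * R2 * ω) ≤ c * (2 * ((2 * C ^ 2 * r) * wm)) := by
      have := mul_le_mul_of_nonneg_left h1 hc0
      nlinarith
    have h3 : c * (2 * ((2 * C ^ 2 * r) * wm)) = 4 * (c * C ^ 2 * wm) * r := by ring
    have h4 : c * C ^ 2 * wm ≤ (c + 1) * C ^ 2 * wm := by
      have : 0 ≤ C ^ 2 * wm := by positivity
      nlinarith
    have h5 : 4 * (c * C ^ 2 * wm) * r ≤ (ε / 25) * r := by
      refine mul_le_mul_of_nonneg_right ?_ r0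
      linarith
    linarith
  have s2 : k * (2 * ω * H) ≤ (ε / 25) * r := by
    have h1 : ω * H ≤ wm * (2 * C ^ 2 * r) := mul_le_mul hωle hH hH0 hwm0
    have h2 : k * (2 * ω * H) ≤ k * (2 * (wm * (2 * C ^ 2 * r))) := by
      have := mul_le_mul_of_nonneg_left h1 hk0
      nlinarith
    have h3 : k * (2 * (wm * (2 * C ^ 2 * r))) = 4 * (k * C ^ 2 * wm) * r := by ring
    have h4 : k * C ^ 2 * wm ≤ (k + 1) * C ^ 2 * wm := by
      have : 0 ≤ C ^ 2 * wm := by positivity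
      nlinarith
    have h5 : 4 * (k * C ^ 2 * wm) * r ≤ (ε / 25) * r := by
      refine mul_le_mul_of_nonneg_right ?_ r0
      linarith
    linarith
  have s3 : c * (3 * (ε0 * ρ)) ≤ (ε / 16) * r := by
    have h1 : 64 * ((c + 1) * ε0) * ρ ≤ ε * d * ρ :=
      mul_le_mul_of_nonneg_right (by linarith) hρR.le
    have h2 : c * (3 * (ε0 * ρ)) ≤ 3 * ((c + 1) * ε0) * ρ := by
      have : 0 ≤ ε0 * ρ := by positivity
      nlinarith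
    have h3 : ε * d * ρ = ε * r := by rw [hr]; ring
    nlinarith
  have s4 : c * (L * (C + 1) + k * (C * L1)) ≤ (ε / 16) * r := by
    have h1 : 0 ≤ L * (C + 1) + k * (C * L1) := by positivity
    nlinarith
  have e1 : 2 * (c * (2 * (ε0 * ρ) + 2 * R2 * ω + L * (C + 1) + ε0 * ρ + k * (C * L1)))
      = 2 * (c * (3 * (ε0 * ρ))) + 2 * (c * (2 * R2 * ω)) + 2 * (c * (L * (C + 1) + k * (C * L1))) := by
    ring
  rw [e1]
  nlinarith [mul_nonneg hε.le r0]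

variable {S : Type u} [Group S] [MeasurableSpace S] [MeasurableMul₂ S] [MeasurableInv S]
  {μ : Measure S} {ι : Type} [Fintype ι]

omit [MeasurableInv S] in
lemma measurableSet_aff {f : S → ℝ} (hfm : Measurable f) (t : S) (ρ : ℕ) (e : ℝ) :
    MeasurableSet {x | Aff f t ρ e x} := by
  have : {x | Aff f t ρ e x} = ⋂ m : ℤ, ⋂ (_ : |m| ≤ (ρ : ℤ)),
      {x | |f (x * t ^ m) - f x - m * dq f t ρ x| ≤ e} := by
    ext x; simp [Aff]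
  rw [this]
  refine MeasurableSet.iInter fun m => MeasurableSet.iInter fun _ => ?_
  refine measurableSet_le (Measurable.abs ?_) measurable_const
  refine ((hfm.comp (measurable_mul_const _)).sub hfm).sub ?_
  exact (measurable_dq hfm (measurable_mul_const _)).const_mul _

omit [MeasurableInv S] in
lemma good_set {f : S → ℝ} (hfm : Measurable f) (t : ι → S) (ρ : ℕ) (e : ℝ) {D : Set S}
    (hD : MeasurableSet D) (hDf : μ D ≠ ∞) {a : ℝ}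
    (hAff : ∀ i, μ.real {x ∈ D | ¬ Aff f (t i) ρ e x} ≤ a) :
    ∃ Gd ⊆ D, MeasurableSet Gd ∧ (∀ x ∈ Gd, ∀ i, Aff f (t i) ρ e x) ∧
      μ.real (D \ Gd) ≤ Fintype.card ι * a := by
  refine ⟨D ∩ ⋂ i, {x | Aff f (t i) ρ e x}, Set.inter_subset_left,
    hD.inter (MeasurableSet.iInter fun i => measurableSet_aff hfm _ _ _),
    fun x hx i => Set.mem_iInter.mp hx.2 i, ?_⟩
  have hsub : D \ (D ∩ ⋂ i, {x | Aff f (t i) ρ e x}) ⊆
      ⋃ i ∈ (Finset.univ : Finset ι), {x ∈ D | ¬ Aff f (t i) ρ e x} := by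
    rintro x ⟨hx, hxG⟩
    have : ¬ ∀ i, Aff f (t i) ρ e x := fun h => hxG ⟨hx, Set.mem_iInter.mpr h⟩
    push Not at this
    obtain ⟨i, hi⟩ := this
    simp only [Finset.mem_univ, Set.iUnion_true, Set.mem_iUnion]
    exact ⟨i, hx, hi⟩
  refine (measureReal_mono hsub (ne_top_of_le_ne_top hDf (measure_mono ?_))).trans ?_
  · intro x hx
    simp only [Finset.mem_univ, Set.iUnion_true, Set.mem_iUnion] at hx
    obtain ⟨i, hi⟩ := hx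
    exact hi.1
  · refine (measureReal_biUnion_finset_le _ _).trans ?_
    refine (Finset.sum_le_sum fun i _ => hAff i).trans ?_
    rw [Finset.sum_const, nsmul_eq_mul, Finset.card_univ]

omit [MeasurableMul₂ S] [MeasurableInv S] in
lemma LinModel.dqb [DecidableEq ι] (M : LinModel S μ ι) {L : ℝ} (hL : 0 ≤ L) {f : S → ℝ}
    (hf : ∀ x s, |f (x * s) - f x| ≤ L * (M.l s + 1)) {ρ : ℕ} (hρ : 0 < ρ) (x : S) (i : ι) :
    |dq f (M.t i) ρ x| ≤ L * (M.C + 1) := by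
  refine abs_dq_le (L := L * (M.C + 1)) (fun y => ?_) hρ x
  refine (hf y (M.t i)).trans ?_
  have := M.l_t i 1
  simp only [zpow_one, abs_one, Int.cast_one, one_mul] at this
  exact mul_le_mul_of_nonneg_left (by linarith) hL

omit [MeasurableMul₂ S] [MeasurableInv S] in
/-- step 1 of `one_scale`: the measure estimate -/
lemma LinModel.core1 [DecidableEq ι] (M : LinModel S μ ι) {L ε ε0 ε1 d d1 ω : ℝ}
    (hL : 0 < L) {ρ : ℕ} (hρ : 2 ≤ ρ) (hε00 : 0 < ε0) (hε10 : 0 < ε1)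
    (hε1b : ε1 ≤ 1) (hd0 : 0 < d) (hd11 : d1 ≤ 1) (hdd1 : (M.c + 1) * M.C ^ 2 * d ≤ d1)
    (he3 : (32 * (M.c + 1) ^ 2 * (Fintype.card ι + 1) * (Fintype.card ι + 2)) * ε0 ≤ ε)
    (hdec1 : ∀ i u, M.l u ≤ d1 * ρ → ∃ us : List S, us.length ≤ M.c ∧ us.prod = u ∧
      ∀ v ∈ us, M.l v ≤ ρ ∧ Mrg M.l (M.Nt ρ) (M.t i) ρ (ε1 * ρ) v)
    (hdec2 : ∀ u, M.l u ≤ M.C * d * ρ →
      ∃ us : List S, us.length ≤ M.c ∧ us.prod = u ∧ ∀ v ∈ us, M.l v ≤ M.C * (M.C * d * ρ) ∧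
        Typed M.l M.t M.h ρ ⌈M.C * (M.C * d * ρ)⌉₊ M.C (M.Nt ρ) v)
    (hω : ω = M.c * (3 * (4 * (ε0 * ρ) + 2 * L * (ε1 * ρ + 1) + 2 * (ε0 * ρ)) / ρ))
    {f : S → ℝ} (hf : ∀ x s, |f (x * s) - f x| ≤ L * (M.l s + 1)) {D Gd : Set S}
    (hDf : μ D ≠ ∞)
    (hFol : ∀ w, M.l w ≤ (M.c + M.C + 1) * ρ → μ.real {x ∈ D | x * w ∉ D} ≤ ε0 * μ.real D)
    (hNF : ∀ v ∈ M.Nt ρ, μ.real {x ∈ D | ¬ |f (x * v) - f x| ≤ ε0 * ρ} ≤ ε0 * μ.real D)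
    (hGD : Gd ⊆ D) (hGdA : ∀ x ∈ Gd, ∀ i, Aff f (M.t i) ρ (ε0 * ρ) x)
    (hGm : μ.real (D \ Gd) ≤ Fintype.card ι * (ε0 * μ.real D))
    (u : S) (hu : M.l u ≤ M.C * (d * ρ)) :
    μ.real {x ∈ D | ¬ Rel f M.t M.h ρ (M.c * (2 * (ε0 * ρ) + 2 * (⌈M.C * (M.C * d * ρ)⌉₊ : ℝ) * ω
      + L * (M.C + 1) + ε0 * ρ + Fintype.card ι * (M.C * (L * (M.C + 1))))) ω x (x * u)} ≤
      (ε / 4) * μ.real D := by
  have hC := M.one_le_C
  have hC0 : 0 < M.C := by linarith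
  have hk0 : (0:ℝ) ≤ Fintype.card ι := by positivity
  have hc0 : (0:ℝ) ≤ M.c := by positivity
  have hρR : (0:ℝ) < ρ := by positivity
  have hD0 : 0 ≤ μ.real D := measureReal_nonneg
  have a1 : (M.c : ℝ) * ρ + ρ * M.C + ε1 * ρ ≤ (M.c + M.C + 1) * ρ := by nlinarith
  have a2 : (M.c : ℝ) * (M.C * (M.C * d * ρ)) ≤ d1 * ρ := by
    have : (M.c : ℝ) * (M.C * (M.C * d * ρ)) = (M.c * M.C ^ 2 * d) * ρ := by ring
    rw [this]
    refine mul_le_mul_of_nonneg_right ?_ hρR.le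
    have : 0 ≤ M.C ^ 2 * d := by positivity
    nlinarith
  have a3 : d1 * ρ ≤ (M.c + M.C + 1) * ρ := by
    refine mul_le_mul_of_nonneg_right ?_ hρR.le
    linarith
  have a4 : M.C * d * ρ ≤ d1 * ρ := by
    refine mul_le_mul_of_nonneg_right ?_ hρR.le
    have h1 : M.C * d ≤ M.C ^ 2 * d := by
      have := mul_nonneg (mul_nonneg hC0.le (sub_nonneg.mpr hC)) hd0.le
      nlinarith
    have h2 : 0 ≤ (M.c:ℝ) * (M.C ^ 2 * d) := by positivity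
    nlinarith
  have a5 : M.l u ≤ M.C * d * ρ := by rw [mul_assoc]; exact hu
  have h1 := rel_meas (S := S) (μ := μ) (D := D) (Gd := Gd) (Nt := M.Nt ρ) (c := M.c)
      (r0 := M.C * d * ρ) (r1 := M.C * (M.C * d * ρ)) (r1' := ρ) (r2 := d1 * ρ)
      (r3 := (M.c + M.C + 1) * ρ)
      (ρ2 := ⌈M.C * (M.C * d * ρ)⌉₊) (τ := ε1 * ρ) (τ2 := M.C) (τ3 := ε0 * ρ) (lt := M.C)
      (ε0 := Fintype.card ι * (ε0 * μ.real D)) (δ := ε0 * μ.real D) (θ := ε0 * μ.real D)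
      M.l_one M.l_nonneg M.l_mul hL.le (by positivity) hf M.h_mul M.h_t M.mp hρ
      (by positivity) (by positivity) hC0.le (by positivity) hC0.le M.l_t hDf
      hGD hGdA (M.dqb hL.le hf (by omega)) (by positivity)
      (by positivity) (by positivity) hGm a1 a2 a3 a4 hFol hdec1 hdec2 (by positivity)
      (by positivity) hNF hω u a5
  refine h1.trans ?_
  have e1 : 8 * ((M.c:ℝ) + 1) ^ 2 * (Fintype.card ι + 1) * (Fintype.card ι * (ε0 * μ.real D)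
      + ε0 * μ.real D + ε0 * μ.real D)
      = ((32 * (M.c + 1) ^ 2 * (Fintype.card ι + 1) * (Fintype.card ι + 2)) * ε0) / 4 * μ.real D := by
    ring
  rw [e1]
  refine mul_le_mul_of_nonneg_right ?_ hD0
  linarith

end P188.H882
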