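import Vale.Agent.P188.R.G010
import Vale.Agent.P188.R.G026
import Vale.Agent.P188.R.G015
import Mathlib.MeasureTheory.Function.Floor
import Mathlib.Analysis.Normed.Operator.ContinuousLinearMap
import Mathlib.MeasureTheory.Constructions.BorelSpace.Basic
import Mathlib.MeasureTheory.Constructions.BorelSpace.Metric

section

/-!
# P188, block GCL, core form

A set `Tol` of points from which, for every letter, a contracting path stays below the starting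
height (up to `τ`) has small measure.
-/

set_option linter.all false

namespace Vale.Agent.P188.H893

open MeasureTheory Set Real H616 H329

variable {ι : Type} {S : Type} [Group S] {l h : S → ℝ} {X : S → ℂ} {A L : ℝ}

/-- the coordinate along a path below height `H` -/
theorem path_le (c : Coord l h X A L) (z : S) {γ : ℕ → S} (h0 : γ 0 = 1) {H lt : ℝ} {m : ℕ}
    (hst : ∀ k < m, l ((γ k)⁻¹ * γ (k + 1)) ≤ lt) (hH : ∀ k ≤ m, h (z * γ k) ≤ H) :
    ‖X (z * γ m) - X z‖ ≤ m * (A * (1 + lt) * exp (H + L * lt)) := by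
  induction m with
  | zero => simp [h0]
  | succ m ih =>
    have h1 := ih (fun k hk => hst k (by omega)) fun j hj => hH j (by omega)
    have h2 : ‖X (z * γ (m + 1)) - X (z * γ m)‖ ≤ A * (1 + lt) * exp (H + L * lt) := by
      refine c.step' _ _ (hH m (by omega)) ?_
      have : (z * γ m)⁻¹ * (z * γ (m + 1)) = (γ m)⁻¹ * γ (m + 1) := by group
      rw [this]; exact hst m (by omega)
    calc ‖X (z * γ (m + 1)) - X z‖
        = ‖(X (z * γ (m + 1)) - X (z * γ m)) + (X (z * γ m) - X z)‖ := by ring_nf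
      _ ≤ _ := norm_add_le _ _
      _ ≤ A * (1 + lt) * exp (H + L * lt) + m * (A * (1 + lt) * exp (H + L * lt)) := add_le_add h2 h1
      _ = _ := by push_cast; ring

/-- two paths that merge -/
theorem merge_le (c : Coord l h X A L) (z w : S) {γ : ℕ → S} (h0 : γ 0 = 1) {H lt d : ℝ} {m : ℕ}
    (hlt0 : 0 ≤ lt) (hd0 : 0 ≤ d) (hst : ∀ k < m, l ((γ k)⁻¹ * γ (k + 1)) ≤ lt)
    (hz : ∀ k ≤ m, h (z * γ k) ≤ H) (hw : ∀ k ≤ m, h (w * γ k) ≤ H)
    (hd : l ((z * γ m)⁻¹ * (w * γ m)) ≤ d) :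
    ‖X w - X z‖ ≤ (2 * m + 1) * (A * (1 + d + lt) * exp (H + L * (d + lt))) := by
  have h1 := path_le c z h0 hst hz
  have h2 := path_le c w h0 hst hw
  have h3 := c.step' (z * γ m) (w * γ m) (hz m le_rfl) hd
  have hA := c.A0
  have hL := c.L0
  set B := A * (1 + d + lt) * exp (H + L * (d + lt)) with hB
  have hb1 : A * (1 + lt) * exp (H + L * lt) ≤ B := by
    refine mul_le_mul ?_ (exp_le_exp.2 ?_) (exp_pos _).le ?_
    · exact mul_le_mul_of_nonneg_left (by linarith) hA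
    · nlinarith [mul_nonneg hL hd0]
    · exact mul_nonneg hA (by linarith)
  have hb2 : A * (1 + d) * exp (H + L * d) ≤ B := by
    refine mul_le_mul ?_ (exp_le_exp.2 ?_) (exp_pos _).le ?_
    · exact mul_le_mul_of_nonneg_left (by linarith) hA
    · nlinarith [mul_nonneg hL hlt0]
    · exact mul_nonneg hA (by linarith)
  have hm : (0 : ℝ) ≤ m := Nat.cast_nonneg m
  calc ‖X w - X z‖ = ‖-(X (w * γ m) - X w) + ((X (w * γ m) - X (z * γ m)) +
        (X (z * γ m) - X z))‖ := by ring_nf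
    _ ≤ ‖-(X (w * γ m) - X w)‖ + ‖(X (w * γ m) - X (z * γ m)) + (X (z * γ m) - X z)‖ :=
        norm_add_le _ _
    _ ≤ ‖X (w * γ m) - X w‖ + (‖X (w * γ m) - X (z * γ m)‖ + ‖X (z * γ m) - X z‖) := by
        rw [norm_neg]
        gcongr
        exact norm_add_le _ _
    _ ≤ m * B + (B + m * B) := by
        refine add_le_add (h2.trans ?_) (add_le_add (h3.trans hb2) (h1.trans ?_))
        · exact mul_le_mul_of_nonneg_left hb1 hm
        · exact mul_le_mul_of_nonneg_left hb1 hm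
    _ = _ := by ring

/-- Contracting paths for the letters `s i x`, `|x| ≤ 1`. -/
structure Paths (l : S → ℝ) (s : ι → ℝ → S) (γ : ι → ℕ → S) (m : ℕ) (d lt lm : ℝ) : Prop where
  d0 : 0 ≤ d
  lt0 : 0 ≤ lt
  one : ∀ i, γ i 0 = 1
  stepl : ∀ i, ∀ k < m, l ((γ i k)⁻¹ * γ i (k + 1)) ≤ lt
  merge : ∀ i x, |x| ≤ 1 → l ((γ i m)⁻¹ * s i x * γ i m) ≤ d
  len : ∀ i x, |x| ≤ 1 → l (s i x) ≤ lm

/-- Points for which all the contracting paths stay below the starting height plus `τ`. -/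
def Tol (h : S → ℝ) (γ : ι → ℕ → S) (m : ℕ) (τ : ℝ) : Set S :=
  {z | ∀ i, ∀ k ≤ m, h (z * γ i k) ≤ h z + τ}

theorem floor_eq {x y : ℝ} {M : ℕ} {cc : ℤ} (hM : 2 ≤ M) (hxy : |y - x| ≤ M - 2)
    (hx : (M : ℤ) ∣ ⌊x⌋ - cc) (hy : (M : ℤ) ∣ ⌊y⌋ - cc) : ⌊y⌋ = ⌊x⌋ := by
  have h1 : (M : ℤ) ∣ ⌊y⌋ - ⌊x⌋ := by
    have := dvd_sub hy hx
    have e : ⌊y⌋ - cc - (⌊x⌋ - cc) = ⌊y⌋ - ⌊x⌋ := by ring
    rwa [e] at this
  have h2 : |⌊y⌋ - ⌊x⌋| < (M : ℤ) := by
    rw [abs_le] at hxy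
    have a1 := Int.floor_le x
    have a2 := Int.lt_floor_add_one x
    have a3 := Int.floor_le y
    have a4 := Int.lt_floor_add_one y
    rw [abs_lt]
    constructor
    · have : (-(M : ℤ) : ℝ) < ((⌊y⌋ - ⌊x⌋ : ℤ) : ℝ) := by
        push_cast
        linarith [hxy.1]
      exact_mod_cast this
    · have : ((⌊y⌋ - ⌊x⌋ : ℤ) : ℝ) < ((M : ℤ) : ℝ) := by
        push_cast
        linarith [hxy.2]
      exact_mod_cast this
  have h3 := Int.eq_zero_of_abs_lt_dvd h1 h2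
  linarith

theorem reach_close (c : Coord l h X A L) {s : ι → ℝ → S} {γ : ι → ℕ → S} {m : ℕ} {d lt lm : ℝ}
    (P : Paths l s γ m d lt lm) {τ : ℝ} (hτ : 0 < τ) {M : ℕ} (hM2 : 2 ≤ M)
    (hM : L * lm ≤ (M - 2) * τ) {G : Set S} (hG : G ⊆ Tol h γ m τ) {cc : ℤ}
    (hGc : ∀ z ∈ G, (M : ℤ) ∣ ⌊h z / τ⌋ - cc) {n : ℕ} {a b : S} (hr : Reach s G n a b) :
    ⌊h b / τ⌋ = ⌊h a / τ⌋ ∧ ‖X b - X a‖ ≤ n * ((2 * m + 1) * (A * (1 + d + lt) *
      exp ((⌊h a / τ⌋ + 2) * τ + L * (d + lt)))) := by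
  induction n generalizing a with
  | zero =>
    obtain ⟨_, rfl⟩ := hr
    simp
  | succ n ih =>
    obtain ⟨ha, i, x, hx, hr⟩ := hr
    have ha' : a * s i x ∈ G := hr.left
    obtain ⟨h1, h2⟩ := ih hr
    have hf : ⌊h (a * s i x) / τ⌋ = ⌊h a / τ⌋ := by
      refine floor_eq hM2 ?_ (hGc _ ha) (hGc _ ha')
      rw [← sub_div, abs_div, abs_of_pos hτ, div_le_iff₀ hτ]
      exact (c.lip a (s i x)).trans ((mul_le_mul_of_nonneg_left (P.len i x hx) c.L0).trans hM)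
    have hle : ∀ y : S, ⌊h y / τ⌋ = ⌊h a / τ⌋ → h y ≤ (⌊h a / τ⌋ + 1) * τ := by
      intro y hy
      have := (Int.lt_floor_add_one (h y / τ)).le
      rw [hy, div_le_iff₀ hτ] at this
      exact this
    have hmer : ‖X (a * s i x) - X a‖ ≤ (2 * m + 1) * (A * (1 + d + lt) *
        exp ((⌊h a / τ⌋ + 2) * τ + L * (d + lt))) := by
      refine merge_le c a (a * s i x) (P.one i) P.lt0 P.d0 (P.stepl i) ?_ ?_ ?_
      · intro k hk
        have h3 := hG ha i k hk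
        have h4 := hle a rfl
        linarith
      · intro k hk
        have h3 := hG ha' i k hk
        have h4 := hle _ hf
        linarith
      · have e : (a * γ i m)⁻¹ * (a * s i x * γ i m) = (γ i m)⁻¹ * s i x * γ i m := by group
        rw [e]
        exact P.merge i x hx
    refine ⟨h1.trans hf, ?_⟩
    rw [hf] at h2
    calc ‖X b - X a‖ = ‖(X b - X (a * s i x)) + (X (a * s i x) - X a)‖ := by ring_nf
      _ ≤ _ := norm_add_le _ _
      _ ≤ _ := add_le_add h2 hmer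
      _ = _ := by push_cast; ring

/-- **GCL, core form.** -/
theorem gcl_core [Finite ι] [MeasurableSpace S] (μ : Measure S) [SFinite μ]
    (c : Coord l h X A L) {s : ι → ℝ → S} {γ : ι → ℕ → S} {m : ℕ} {d lt lm : ℝ}
    (P : Paths l s γ m d lt lm)
    (hadd : ∀ i x y, s i (x + y) = s i x * s i y) (hs0 : ∀ i, s i 0 = 1)
    (hm : ∀ i, Measurable fun q : S × ℝ => q.1 * s i q.2)
    (hinv : ∀ i x, MeasurePreserving (fun z => z * s i x) μ μ)
    (hh : Measurable h) (hγ : ∀ i k, Measurable fun z => h (z * γ i k))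
    {τ : ℝ} (hτ : 0 < τ) {M : ℕ} (hM2 : 2 ≤ M) (hM : L * lm ≤ (M - 2) * τ)
    {DD Dq : Set S} (hDD : MeasurableSet DD) (hDq : MeasurableSet Dq)
    (hDDq : ∀ z ∈ DD, ∀ i x, |x| ≤ 1 → z * s i x ∈ Dq)
    {θ θ' : ENNReal} {n N0 N p cI : ℕ} {CI κ0 : ℝ} {B : S → Set S}
    (hfill : ∀ G : Set S, MeasurableSet G → (∀ z ∈ G, ∀ i, θ' ≤ win s i G z) → ∀ z0 : S,
        ∃ T : Finset S, T.card ≤ N0 ∧
          ∀ z ∈ G, InP s cI CI z0 z → ∃ t ∈ T, Reach s G n z t)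
    (hcov : ∀ z0, ∃ F : Finset S, F.card ≤ p ∧ ∀ z ∈ DD ∩ B z0, ∃ z1 ∈ F, InP s cI CI z1 z)
    (hN : p * N0 ≤ N)
    (hspread : ∀ Γ : Set S, MeasurableSet Γ → Γ ⊆ DD → θ * μ DD ≤ μ Γ → μ Γ ≠ 0 → ∃ z0,
      ∀ (Y : Finset S) (φ : S → S), Y.card ≤ N → (∀ z ∈ Γ ∩ B z0, φ z ∈ Y) →
      ∃ z ∈ Γ ∩ B z0, ∃ z' ∈ Γ ∩ B z0, φ z = φ z' ∧ exp (h z + κ0) < ‖X z - X z'‖)
    (hbig : 2 * (n * ((2 * m + 1) * (A * (1 + d + lt) * exp (2 * τ + L * (d + lt))))) ≤ exp κ0) :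
    μ (DD ∩ Tol h γ m τ) ≤ M * (θ * μ DD + Nat.card ι * (θ' * μ Dq)) := by
  classical
  haveI : Fintype ι := Fintype.ofFinite ι
  have hTol : MeasurableSet (Tol h γ m τ) := by
    have : Tol h γ m τ = ⋂ i : ι, ⋂ k : Fin (m + 1), {z | h (z * γ i k) ≤ h z + τ} := by
      ext z
      simp only [Tol, mem_setOf_eq, mem_iInter]
      constructor
      · intro h1 i k
        exact h1 i k (by omega)
      · intro h1 i k hk
        exact h1 i ⟨k, by omega⟩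
    rw [this]
    refine MeasurableSet.iInter fun i => MeasurableSet.iInter fun k => ?_
    exact measurableSet_le (hγ i k) (hh.add_const τ)
  set Γ : ℕ → Set S := fun cc => (DD ∩ Tol h γ m τ) ∩ {z | (M : ℤ) ∣ ⌊h z / τ⌋ - cc} with hΓ
  have hfl : Measurable fun z => ⌊h z / τ⌋ := (hh.div_const τ).floor
  have hΓm : ∀ cc, MeasurableSet (Γ cc) := by
    intro cc
    refine (hDD.inter hTol).inter ?_
    exact hfl (MeasurableSet.of_discrete (s := {k : ℤ | (M : ℤ) ∣ k - cc}))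
  have hone : ∀ cc, μ (Γ cc) ≤ θ * μ DD + Nat.card ι * (θ' * μ Dq) := by
    intro cc
    obtain ⟨Γ', hsub, hΓ'm, hloss, hwin⟩ := clean μ hadd hs0 hm hinv (hΓm cc) hDq
      (fun z hz i x hx => hDDq z hz.1.1 i x hx) θ'
    have h1 : μ (Γ cc) ≤ μ Γ' + Nat.card ι * (θ' * μ Dq) := by
      calc μ (Γ cc) ≤ μ (Γ' ∪ (Γ cc \ Γ')) := measure_mono (by
            intro z hz
            by_cases h2 : z ∈ Γ'
            · exact Or.inl h2
            · exact Or.inr ⟨hz, h2⟩)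
        _ ≤ μ Γ' + μ (Γ cc \ Γ') := measure_union_le _ _
        _ ≤ _ := by gcongr
    refine h1.trans (add_le_add ?_ le_rfl)
    by_contra hcon
    rw [not_le] at hcon
    obtain ⟨z0, hz0⟩ := hspread Γ' hΓ'm (fun z hz => (hsub hz).1.1) hcon.le
      (fun h2 => by rw [h2] at hcon; exact not_lt_zero' hcon)
    obtain ⟨F, hF, hFc⟩ := hcov z0
    choose T hT1 hT2 using hfill Γ' hΓ'm hwin
    set Y : Finset S := F.biUnion T with hY
    have hYc : Y.card ≤ N := by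
      refine le_trans ?_ hN
      refine (Finset.card_biUnion_le).trans ?_
      calc ∑ u ∈ F, (T u).card ≤ ∑ u ∈ F, N0 := Finset.sum_le_sum fun u _ => hT1 u
        _ = F.card * N0 := by rw [Finset.sum_const, smul_eq_mul]
        _ ≤ p * N0 := Nat.mul_le_mul_right _ hF
    have hch : ∀ z ∈ Γ' ∩ B z0, ∃ y ∈ Y, Reach s Γ' n z y := by
      intro z hz
      obtain ⟨z1, hz1, hin⟩ := hFc z ⟨(hsub hz.1).1.1, hz.2⟩
      obtain ⟨t, ht, hr⟩ := hT2 z1 z hz.1 hin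
      exact ⟨t, Finset.mem_biUnion.2 ⟨z1, hz1, ht⟩, hr⟩
    set φ : S → S := fun z => if hz : z ∈ Γ' ∩ B z0 then (hch z hz).choose else z with hφ
    have hφY : ∀ z ∈ Γ' ∩ B z0, φ z ∈ Y ∧ Reach s Γ' n z (φ z) := by
      intro z hz
      have : φ z = (hch z hz).choose := by simp only [hφ]; rw [dif_pos hz]
      rw [this]
      exact (hch z hz).choose_spec
    obtain ⟨z, hz, z', hz', heq, hbad⟩ := hz0 Y φ hYc fun z hz => (hφY z hz).1
    have hGT : Γ' ⊆ Tol h γ m τ := fun z hz => (hsub hz).1.2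
    have hGc : ∀ z ∈ Γ', (M : ℤ) ∣ ⌊h z / τ⌋ - (cc : ℤ) := fun z hz => (hsub hz).2
    obtain ⟨k1, k2⟩ := reach_close c P hτ hM2 hM hGT hGc (hφY z hz).2
    obtain ⟨k3, k4⟩ := reach_close c P hτ hM2 hM hGT hGc (hφY z' hz').2
    rw [← heq] at k3 k4
    have k5 : ⌊h z' / τ⌋ = ⌊h z / τ⌋ := k3.symm.trans k1
    rw [k5] at k4
    have hfl : (⌊h z / τ⌋ : ℝ) * τ ≤ h z := by
      have := Int.floor_le (h z / τ)
      rwa [le_div_iff₀ hτ] at this
    have hA := c.A0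
    have hd0 := P.d0
    have hlt0 := P.lt0
    set Q := n * ((2 * (m : ℝ) + 1) * (A * (1 + d + lt) *
      exp ((⌊h z / τ⌋ + 2) * τ + L * (d + lt)))) with hQ
    have hfin : ‖X z - X z'‖ ≤ exp (h z + κ0) := by
      calc ‖X z - X z'‖ = ‖-(X (φ z) - X z) + (X (φ z) - X z')‖ := by ring_nf
        _ ≤ ‖-(X (φ z) - X z)‖ + ‖X (φ z) - X z'‖ := norm_add_le _ _
        _ ≤ Q + Q := by rw [norm_neg]; exact add_le_add k2 k4
        _ = 2 * (n * ((2 * (m : ℝ) + 1) * (A * (1 + d + lt) *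
              exp (⌊h z / τ⌋ * τ + (2 * τ + L * (d + lt)))))) := by
            rw [hQ]; ring_nf
        _ ≤ 2 * (n * ((2 * (m : ℝ) + 1) * (A * (1 + d + lt) *
              exp (h z + (2 * τ + L * (d + lt)))))) := by
            gcongr
        _ = exp (h z) * (2 * (n * ((2 * m + 1) * (A * (1 + d + lt) *
              exp (2 * τ + L * (d + lt)))))) := by
            rw [exp_add (h z) (2 * τ + L * (d + lt))]; ring
        _ ≤ exp (h z) * exp κ0 := mul_le_mul_of_nonneg_left hbig (exp_pos _).le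
        _ = exp (h z + κ0) := by rw [exp_add]
    exact absurd hbad (not_lt.2 hfin)
  have hcovc : DD ∩ Tol h γ m τ ⊆ ⋃ cc ∈ Finset.range M, Γ cc := by
    intro z hz
    have hM0 : (0 : ℤ) < M := by omega
    have h1 := Int.emod_nonneg ⌊h z / τ⌋ hM0.ne'
    have h2 := Int.emod_lt_of_pos ⌊h z / τ⌋ hM0
    obtain ⟨cc, hcc⟩ := Int.eq_ofNat_of_zero_le h1
    rw [mem_iUnion₂]
    refine ⟨cc, Finset.mem_range.2 (by omega), hz, ?_⟩
    show (M : ℤ) ∣ ⌊h z / τ⌋ - (cc : ℤ)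
    rw [← hcc]
    exact Int.dvd_self_sub_emod
  calc μ (DD ∩ Tol h γ m τ) ≤ μ (⋃ cc ∈ Finset.range M, Γ cc) := measure_mono hcovc
    _ ≤ ∑ cc ∈ Finset.range M, μ (Γ cc) := measure_biUnion_finset_le _ _
    _ ≤ ∑ cc ∈ Finset.range M, (θ * μ DD + Nat.card ι * (θ' * μ Dq)) :=
        Finset.sum_le_sum fun cc _ => hone cc
    _ = M * (θ * μ DD + Nat.card ι * (θ' * μ Dq)) := by
        rw [Finset.sum_const, Finset.card_range, nsmul_eq_mul]

end Vale.Agent.P188.H893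

end

section

/-!
# P188, block NOFOLD, part 2: the core with the FILL theorem plugged in, and with short moves
-/

set_option linter.all false

namespace Vale.Agent.P188.H616

open MeasureTheory Set Real H329

variable {ι : Type} {S : Type} [Group S] {l h : S → ℝ} {X : S → ℂ} {A L : ℝ}

/-- Class 1 property: the height is maximal at the top, and the slopes are known. -/
structure Up3 (h : S → ℝ) (t : S) (m : ℕ) (err s0 s1 : ℝ) (z : S) : Prop where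
  up : ∀ j ≤ m, h (z * t ^ j) ≤ h (z * t ^ m) + err
  down : ∀ j ≤ m, h (z * t⁻¹ ^ j) ≤ h (z * t ^ m) + err
  slope : |h (z * t ^ m) - h (z * t⁻¹ ^ m) - s1| ≤ err
  slope0 : |h (z * t ^ m) - h z - s0| ≤ err

theorem Up3.toUp {t : S} {m : ℕ} {err s0 s1 : ℝ} {z : S} (hz : Up3 h t m err s0 s1 z) :
    Up h t m err s1 z := ⟨hz.up, hz.down, hz.slope⟩

/-- `z` and `w` merge along `t` (at the top or at the bottom) or are close -/
def Mv3 (l : S → ℝ) (t : S) (m : ℕ) (d : ℝ) (z w : S) : Prop :=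
  l ((z * t ^ m)⁻¹ * (w * t ^ m)) ≤ d ∨ l ((z * t⁻¹ ^ m)⁻¹ * (w * t⁻¹ ^ m)) ≤ d ∨ l (z⁻¹ * w) ≤ d

theorem Up3.mv (c : Coord l h X A L) {t : S} {m : ℕ} {err s0 s1 d : ℝ} {z w : S}
    (hz : Up3 h t m err s0 s1 z) (hw : Up3 h t m err s0 s1 w) (hd0 : 0 ≤ d)
    (hm : Mv3 l t m d z w) :
    |h (w * t ^ m) - h (z * t ^ m)| ≤ L * d + 2 * err := by
  rcases hm with hm | hm | hm
  · exact hz.toUp.mv c hw.toUp hd0 (Or.inl hm)
  · exact hz.toUp.mv c hw.toUp hd0 (Or.inr hm)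
  · have h1 := (c.lip' z w).trans (mul_le_mul_of_nonneg_left hm c.L0)
    have h2 := hz.slope0
    have h3 := hw.slope0
    rw [abs_le] at h1 h2 h3 ⊢
    constructor <;> linarith [h1.1, h1.2, h2.1, h2.2, h3.1, h3.2]

theorem Up3.close (c : Coord l h X A L) {t : S} {m : ℕ} {err s0 s1 d lt : ℝ} {z w : S}
    (hlt : l t ≤ lt) (hlt' : l t⁻¹ ≤ lt)
    (hz : Up3 h t m err s0 s1 z) (hw : Up3 h t m err s0 s1 w) (hd0 : 0 ≤ d)
    (hm : Mv3 l t m d z w) :
    ‖X w - X z‖ ≤ (2 * m + 1) * (A * (1 + d + lt) *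
      exp (h (z * t ^ m) + (L * d + 2 * err) + err + L * (d + lt))) := by
  rcases hm with hm | hm | hm
  · exact hz.toUp.close c hlt hlt' hw.toUp hd0 (Or.inl hm)
  · exact hz.toUp.close c hlt hlt' hw.toUp hd0 (Or.inr hm)
  · have he : 0 ≤ err := (abs_nonneg _).trans hz.slope
    have hlt0 : 0 ≤ lt := (c.l0 t).trans hlt
    have h1 : h z ≤ h (z * t ^ m) + err := by
      have := hz.up 0 (Nat.zero_le _)
      simpa using this
    refine (c.step' z w h1 hm).trans ?_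
    have hA := c.A0
    have hL := c.L0
    have hLd : 0 ≤ L * d := mul_nonneg hL hd0
    have hLlt : 0 ≤ L * lt := mul_nonneg hL hlt0
    have e1 : A * (1 + d) * exp (h (z * t ^ m) + err + L * d) ≤ A * (1 + d + lt) *
        exp (h (z * t ^ m) + (L * d + 2 * err) + err + L * (d + lt)) := by
      refine mul_le_mul ?_ (exp_le_exp.2 ?_) (exp_pos _).le ?_
      · exact mul_le_mul_of_nonneg_left (by linarith) hA
      · nlinarith
      · exact mul_nonneg hA (by linarith)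
    refine e1.trans ?_
    have hm0 : (0 : ℝ) ≤ m := Nat.cast_nonneg m
    refine le_mul_of_one_le_left ?_ (by linarith)
    exact mul_nonneg (mul_nonneg hA (by linarith)) (exp_pos _).le

/-- `w` is joined to `y` by `n` moves inside `Γ` -/
def Join3 (l : S → ℝ) (t : S) (m : ℕ) (d : ℝ) (Γ : Set S) (n : ℕ) (w y : S) : Prop :=
  ∃ p : ℕ → S, p 0 = w ∧ p n = y ∧ (∀ j ≤ n, p j ∈ Γ) ∧ ∀ j < n, Mv3 l t m d (p j) (p (j + 1))

theorem Join3.close (c : Coord l h X A L) {t : S} {m : ℕ} {err s0 s1 d lt : ℝ} {Γ : Set S}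
    (hlt : l t ≤ lt) (hlt' : l t⁻¹ ≤ lt) (hd0 : 0 ≤ d) (he : 0 ≤ err)
    (hΓ : ∀ z ∈ Γ, Up3 h t m err s0 s1 z) {n : ℕ} {w y : S} (hj : Join3 l t m d Γ n w y) :
    ‖X y - X w‖ ≤ n * ((2 * m + 1) * (A * (1 + d + lt) *
      exp (h (w * t ^ m) + (n + 1) * (L * d + 2 * err) + err + L * (d + lt)))) := by
  obtain ⟨p, h0, hn, hp, hmv⟩ := hj
  subst h0
  set e1 := L * d + 2 * err with he1
  have hLd : 0 ≤ L * d := mul_nonneg c.L0 hd0
  have he10 : 0 ≤ e1 := by rw [he1]; linarith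
  have hlt0 : 0 ≤ lt := (c.l0 t).trans hlt
  -- heights of the tops
  have htop : ∀ j ≤ n, h (p j * t ^ m) ≤ h (p 0 * t ^ m) + j * e1 := by
    intro j
    induction j with
    | zero => intro _; simp
    | succ j ih =>
      intro hj
      have h1 := ih (by omega)
      have h2 := (hΓ _ (hp j (by omega))).mv c (hΓ _ (hp (j + 1) hj)) hd0 (hmv j (by omega))
      rw [abs_le] at h2
      push_cast
      linarith [h2.2]
  set B := (2 * (m : ℝ) + 1) * (A * (1 + d + lt) *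
      exp (h (p 0 * t ^ m) + (n + 1) * e1 + err + L * (d + lt))) with hB
  have hstep : ∀ j < n, ‖X (p (j + 1)) - X (p j)‖ ≤ B := by
    intro j hj
    have h1 := (hΓ _ (hp j (by omega))).close c hlt hlt' (hΓ _ (hp (j + 1) (by omega))) hd0
      (hmv j hj)
    refine h1.trans ?_
    rw [hB]
    have hA := c.A0
    have h2 := htop j (by omega)
    have h3 : (j : ℝ) + 1 ≤ n := by exact_mod_cast hj
    have h4 : (j : ℝ) * e1 + e1 ≤ (n + 1) * e1 := by nlinarith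
    gcongr (2 * (m : ℝ) + 1) * (A * (1 + d + lt) * exp ?_)
    linarith
  have hsum : ∀ j ≤ n, ‖X (p j) - X (p 0)‖ ≤ j * B := by
    intro j
    induction j with
    | zero => intro _; simp
    | succ j ih =>
      intro hj
      have h1 := ih (by omega)
      have h2 := hstep j (by omega)
      calc ‖X (p (j + 1)) - X (p 0)‖ = ‖(X (p (j + 1)) - X (p j)) + (X (p j) - X (p 0))‖ := by
            ring_nf
        _ ≤ _ := norm_add_le _ _
        _ ≤ B + j * B := add_le_add h2 h1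
        _ = _ := by push_cast; ring
  rw [← hn]
  exact hsum n le_rfl

theorem Join3.of_reach {s : ι → ℝ → S} {G : Set S} {t : S} {m : ℕ} {d : ℝ}
    (hmerge : ∀ i x, |x| ≤ 1 → l ((t ^ m)⁻¹ * s i x * t ^ m) ≤ d ∨
      l ((t⁻¹ ^ m)⁻¹ * s i x * t⁻¹ ^ m) ≤ d ∨ l (s i x) ≤ d) {n : ℕ} {a b : S}
    (hr : Reach s G n a b) : Join3 l t m d G n a b := by
  induction n generalizing a with
  | zero =>
    obtain ⟨ha, rfl⟩ := hr
    refine ⟨fun _ => a, rfl, rfl, fun _ _ => ha, fun j hj => absurd hj (Nat.not_lt_zero _)⟩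
  | succ n ih =>
    obtain ⟨ha, i, x, hx, hr⟩ := hr
    obtain ⟨p, h0, hn, hp, hmv⟩ := ih hr
    refine ⟨fun j => match j with | 0 => a | j + 1 => p j, rfl, hn, ?_, ?_⟩
    · intro j hj
      match j with
      | 0 => exact ha
      | j + 1 => exact hp j (by omega)
    · intro j hj
      match j with
      | 0 =>
        show Mv3 l t m d a (p 0)
        rw [h0]
        unfold Mv3
        have e1 : (a * t ^ m)⁻¹ * (a * s i x * t ^ m) = (t ^ m)⁻¹ * s i x * t ^ m := by group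
        have e2 : (a * t⁻¹ ^ m)⁻¹ * (a * s i x * t⁻¹ ^ m) = (t⁻¹ ^ m)⁻¹ * s i x * t⁻¹ ^ m := by
          rw [mul_inv_rev]
          simp only [mul_assoc, inv_mul_cancel_left]
        have e3 : a⁻¹ * (a * s i x) = s i x := by group
        rw [e1, e2, e3]
        exact hmerge i x hx
      | j + 1 => exact hmv j (by omega)

/-- **NOFOLD with FILL plugged in.** -/
theorem nofold_fill [Finite ι] [MeasurableSpace S] (μ : Measure S) [SFinite μ]
    (c : Coord l h X A L) {s : ι → ℝ → S} {t : S} {m n N0 N p cI : ℕ}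
    {err s0 s1 d lt C0 CI κ0 : ℝ} (hlt : l t ≤ lt) (hlt' : l t⁻¹ ≤ lt) (hd0 : 0 ≤ d)
    (he : 0 ≤ err) (hC0 : 0 ≤ C0)
    (hmerge : ∀ i x, |x| ≤ 1 → l ((t ^ m)⁻¹ * s i x * t ^ m) ≤ d ∨
      l ((t⁻¹ ^ m)⁻¹ * s i x * t⁻¹ ^ m) ≤ d ∨ l (s i x) ≤ d)
    (hadd : ∀ i x y, s i (x + y) = s i x * s i y) (hs0 : ∀ i, s i 0 = 1)
    (hm : ∀ i, Measurable fun q : S × ℝ => q.1 * s i q.2)
    (hinv : ∀ i x, MeasurePreserving (fun z => z * s i x) μ μ)
    {D Dq Γ1 Γ2 : Set S} {τ : S → S} {θ θ' : ENNReal} {B : S → Set S}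
    (hΓ2m : MeasurableSet Γ2) (hΓ1m : MeasurableSet Γ1) (hτm : MeasurePreserving τ μ μ)
    (hDq : MeasurableSet Dq) (hΓ1q : ∀ z ∈ Γ1, ∀ i x, |x| ≤ 1 → z * s i x ∈ Dq)
    (hΓ2D : Γ2 ⊆ D)
    (hup : ∀ z ∈ Γ1, Up3 h t m err s0 s1 z)
    (hdown : ∀ z ∈ Γ2, ∀ j ≤ m, h (z * t ^ j) ≤ h z + err)
    (hτ : ∀ z ∈ Γ2, l ((z * t ^ m)⁻¹ * (τ z * t ^ m)) ≤ d)
    (hfill : ∀ G : Set S, MeasurableSet G → (∀ z ∈ G, ∀ i, θ' ≤ win s i G z) → ∀ z0 : S,
        ∃ T : Finset S, T.card ≤ N0 ∧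
          ∀ z ∈ G, InP s cI CI z0 z → ∃ t ∈ T, Reach s G n z t)
    (hcov : ∀ z0, ∃ F : Finset S, F.card ≤ p ∧ ∀ z ∈ Γ2 ∩ B z0, ∃ z1 ∈ F, InP s cI CI z1 (τ z))
    (hN : p * N0 ≤ N)
    (hspread : ∀ Γ : Set S, MeasurableSet Γ → Γ ⊆ D → θ * μ D ≤ μ Γ → μ Γ ≠ 0 → ∃ z0,
      ∀ (Y : Finset S) (φ : S → S), Y.card ≤ N → (∀ z ∈ Γ ∩ B z0, φ z ∈ Y) →
      ∃ z ∈ Γ ∩ B z0, ∃ z' ∈ Γ ∩ B z0, φ z = φ z' ∧ |h z - h z'| ≤ C0 ∧
        exp (h z + κ0) < ‖X z - X z'‖)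
    (hbig : 2 * ((n + 1) * ((2 * m + 1) * (A * (1 + d + lt) *
      exp (C0 + (n + 1) * (L * d + 2 * err) + 3 * err + 2 * L * (d + lt))))) ≤ exp κ0) :
    μ {z | z ∈ Γ2 ∧ τ z ∈ Γ1} ≤ θ * μ D + Nat.card ι * (θ' * μ Dq) := by
  classical
  obtain ⟨Γ1', hsub, hΓ1'm, hloss, hwin⟩ := clean μ hadd hs0 hm hinv hΓ1m hDq hΓ1q θ'
  by_contra hcon
  rw [not_le] at hcon
  set Γ : Set S := {z | z ∈ Γ2 ∧ τ z ∈ Γ1'} with hΓ
  have hΓm : MeasurableSet Γ := hΓ2m.inter (hτm.measurable hΓ1'm)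
  have h1 : {z | z ∈ Γ2 ∧ τ z ∈ Γ1} ⊆ Γ ∪ τ ⁻¹' (Γ1 \ Γ1') := by
    rintro z ⟨hz, hz1⟩
    by_cases hz2 : τ z ∈ Γ1'
    · exact Or.inl ⟨hz, hz2⟩
    · exact Or.inr ⟨hz1, hz2⟩
  have hl2 : μ (τ ⁻¹' (Γ1 \ Γ1')) ≤ Nat.card ι * (θ' * μ Dq) := by
    rw [hτm.measure_preimage (hΓ1m.diff hΓ1'm).nullMeasurableSet]
    exact hloss
  have h2 : θ * μ D + Nat.card ι * (θ' * μ Dq) < μ Γ + Nat.card ι * (θ' * μ Dq) :=
    hcon.trans_le (((measure_mono h1).trans (measure_union_le _ _)).trans (add_le_add le_rfl hl2))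
  have h3 : θ * μ D < μ Γ := by
    by_contra h4
    rw [not_lt] at h4
    exact absurd h2 (not_lt.2 (add_le_add h4 le_rfl))
  have h4 : μ Γ ≠ 0 := fun h5 => by rw [h5] at h3; exact not_lt_zero' h3
  obtain ⟨z0, hz0⟩ := hspread Γ hΓm (fun z hz => hΓ2D hz.1) h3.le h4
  obtain ⟨F, hF, hFc⟩ := hcov z0
  choose T hT1 hT2 using hfill Γ1' hΓ1'm hwin
  set Y : Finset S := F.biUnion T with hY
  have hYc : Y.card ≤ N := by
    refine le_trans ?_ hN
    refine (Finset.card_biUnion_le).trans ?_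
    calc ∑ u ∈ F, (T u).card ≤ ∑ u ∈ F, N0 := Finset.sum_le_sum fun u _ => hT1 u
      _ = F.card * N0 := by rw [Finset.sum_const, smul_eq_mul]
      _ ≤ p * N0 := Nat.mul_le_mul_right _ hF
  have hch : ∀ z ∈ Γ ∩ B z0, ∃ y ∈ Y, Join3 l t m d Γ1' n (τ z) y := by
    intro z hz
    obtain ⟨z1, hz1, hin⟩ := hFc z ⟨hz.1.1, hz.2⟩
    obtain ⟨y, hy, hr⟩ := hT2 z1 (τ z) hz.1.2 hin
    exact ⟨y, Finset.mem_biUnion.2 ⟨z1, hz1, hy⟩, Join3.of_reach hmerge hr⟩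
  set φ : S → S := fun z => if hz : z ∈ Γ ∩ B z0 then (hch z hz).choose else z with hφ
  have hφY : ∀ z ∈ Γ ∩ B z0, φ z ∈ Y ∧ Join3 l t m d Γ1' n (τ z) (φ z) := by
    intro z hz
    have : φ z = (hch z hz).choose := by simp only [hφ]; rw [dif_pos hz]
    rw [this]
    exact (hch z hz).choose_spec
  obtain ⟨z, hz, z', hz', heq, hclose, hbad⟩ := hz0 Y φ hYc fun z hz => (hφY z hz).1
  -- the estimate for one point
  have hLd : 0 ≤ L * d := mul_nonneg c.L0 hd0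
  have hlt0 : 0 ≤ lt := (c.l0 t).trans hlt
  have hLlt : 0 ≤ L * (d + lt) := mul_nonneg c.L0 (by linarith)
  have hLlt2 : L * d ≤ L * (d + lt) := mul_le_mul_of_nonneg_left (by linarith) c.L0
  have hA := c.A0
  have key : ∀ x ∈ Γ ∩ B z0, ‖X (φ x) - X x‖ ≤ (n + 1) * ((2 * m + 1) * (A * (1 + d + lt) *
      exp (h x + ((n + 1) * (L * d + 2 * err) + 3 * err + 2 * L * (d + lt))))) := by
    intro x hx
    have hx2 : x ∈ Γ2 := hx.1.1
    have hx1 : τ x ∈ Γ1' := hx.1.2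
    have hU := hup _ (hsub hx1)
    have hD := hdown x hx2
    have hm := hτ x hx2
    have htop : h (τ x * t ^ m) ≤ h x + err + L * d := by
      have h5 := (c.lip' (x * t ^ m) (τ x * t ^ m)).trans (mul_le_mul_of_nonneg_left hm c.L0)
      rw [abs_le] at h5
      linarith [h5.2, hD m le_rfl]
    have ha : ‖X (τ x) - X x‖ ≤ (2 * m + 1) * (A * (1 + d + lt) *
        exp (h x + 2 * err + L * d + L * (d + lt))) := by
      refine c.merge x (τ x) t hlt hd0 m (fun j hj => ?_) (fun j hj => ?_) hm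
      · have := hD j hj; linarith
      · have := hU.up j hj; linarith
    have hb := (hφY x hx).2.close c hlt hlt' hd0 he (fun z hz => hup z (hsub hz))
    set Q := (2 * (m : ℝ) + 1) * (A * (1 + d + lt) *
      exp (h x + ((n + 1) * (L * d + 2 * err) + 3 * err + 2 * L * (d + lt)))) with hQ
    have hn0 : (0 : ℝ) ≤ n := Nat.cast_nonneg n
    have he1 : 0 ≤ (n : ℝ) * (L * d + 2 * err) := by positivity
    have ha' : ‖X (τ x) - X x‖ ≤ Q := by
      refine ha.trans ?_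
      rw [hQ]
      gcongr (2 * (m : ℝ) + 1) * (A * (1 + d + lt) * exp ?_)
      nlinarith
    have hb' : ‖X (φ x) - X (τ x)‖ ≤ n * Q := by
      refine hb.trans ?_
      rw [hQ]
      gcongr (n : ℝ) * ((2 * (m : ℝ) + 1) * (A * (1 + d + lt) * exp ?_))
      nlinarith
    calc ‖X (φ x) - X x‖ = ‖(X (φ x) - X (τ x)) + (X (τ x) - X x)‖ := by ring_nf
      _ ≤ _ := norm_add_le _ _
      _ ≤ n * Q + Q := add_le_add hb' ha'
      _ = _ := by ring
  have k1 := key z hz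
  have k2 := key z' hz'
  rw [← heq] at k2
  set W := ((n + 1) * (L * d + 2 * err) + 3 * err + 2 * L * (d + lt)) with hW
  have hfin : ‖X z - X z'‖ ≤ exp (h z + κ0) := by
    rw [abs_le] at hclose
    calc ‖X z - X z'‖ = ‖-(X (φ z) - X z) + (X (φ z) - X z')‖ := by ring_nf
      _ ≤ ‖-(X (φ z) - X z)‖ + ‖X (φ z) - X z'‖ := norm_add_le _ _
      _ ≤ (n + 1) * ((2 * m + 1) * (A * (1 + d + lt) * exp (h z + W))) +
          (n + 1) * ((2 * m + 1) * (A * (1 + d + lt) * exp (h z' + W))) := by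
          rw [norm_neg]; exact add_le_add k1 k2
      _ ≤ (n + 1) * ((2 * m + 1) * (A * (1 + d + lt) * exp (h z + (C0 + W)))) +
          (n + 1) * ((2 * m + 1) * (A * (1 + d + lt) * exp (h z + (C0 + W)))) := by
          have e1 : exp (h z + W) ≤ exp (h z + (C0 + W)) := exp_le_exp.2 (by linarith)
          have e2 : exp (h z' + W) ≤ exp (h z + (C0 + W)) :=
            exp_le_exp.2 (by linarith [hclose.1])
          gcongr
      _ = exp (h z) * (2 * ((n + 1) * ((2 * m + 1) * (A * (1 + d + lt) * exp (C0 + W))))) := by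
          rw [exp_add (h z) (C0 + W)]; ring
      _ ≤ exp (h z) * exp κ0 := by
          refine mul_le_mul_of_nonneg_left ?_ (exp_pos _).le
          refine le_trans (le_of_eq ?_) hbig
          rw [hW]
          ring_nf
      _ = exp (h z + κ0) := by rw [exp_add]
  exact absurd hbad (not_lt.2 hfin)

end Vale.Agent.P188.H616

end

section

/-!
# P188, block GCL: neutral flatness and sign choice out of smallness of `Tol`
-/

set_option linter.all false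

namespace Vale.Agent.P188.H893

open MeasureTheory Set Real H616 H329

variable {ι : Type} {S : Type} [Group S] {l h : S → ℝ} {X : S → ℂ} {A L : ℝ}

/-- the forward path: along `ζ` from `ζ j` to `ζ n`, then along `u i` -/
def fwd (ζ : ℕ → S) (u : ι → ℕ → S) (n j : ℕ) (i : ι) (k : ℕ) : S :=
  if k ≤ n - j then (ζ j)⁻¹ * ζ (j + k) else (ζ j)⁻¹ * ζ n * u i (k - (n - j))

/-- the backward path: along `ζ` from `ζ j` to `ζ 0`, then along `u i` -/
def bwd (ζ : ℕ → S) (u : ι → ℕ → S) (j : ℕ) (i : ι) (k : ℕ) : S :=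
  if k ≤ j then (ζ j)⁻¹ * ζ (j - k) else (ζ j)⁻¹ * ζ 0 * u i (k - j)

theorem mem_tol_fwd (c : Coord l h X A L) {ζ : ℕ → S} {u : ι → ℕ → S} {n m : ℕ}
    {κ τ : ℝ} (hτ : 0 ≤ τ) (hu : ∀ i k, k ≤ m → L * l (u i k) ≤ κ) {x : S} {j : ℕ} (hj : j ≤ n)
    (hmax : ∀ j' ≤ n, h (x * ζ j') ≤ h (x * ζ j)) (hlow : h (x * ζ n) ≤ h (x * ζ j) - κ) :
    x * ζ j ∈ Tol h (fwd ζ u n j) (n - j + m) τ := by
  intro i k hk
  unfold fwd
  split_ifs with h1
  · have e : x * ζ j * ((ζ j)⁻¹ * ζ (j + k)) = x * ζ (j + k) := by group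
    rw [e]
    have := hmax (j + k) (by omega)
    linarith
  · have e : x * ζ j * ((ζ j)⁻¹ * ζ n * u i (k - (n - j))) = x * ζ n * u i (k - (n - j)) := by group
    rw [e]
    have h2 := c.lip (x * ζ n) (u i (k - (n - j)))
    have h3 := hu i (k - (n - j)) (by omega)
    rw [abs_le] at h2
    linarith [h2.2]

theorem mem_tol_bwd (c : Coord l h X A L) {ζ : ℕ → S} {u : ι → ℕ → S} {n m : ℕ}
    {κ τ : ℝ} (hτ : 0 ≤ τ) (hu : ∀ i k, k ≤ m → L * l (u i k) ≤ κ) {x : S} {j : ℕ} (hj : j ≤ n)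
    (hmax : ∀ j' ≤ n, h (x * ζ j') ≤ h (x * ζ j)) (hlow : h (x * ζ 0) ≤ h (x * ζ j) - κ) :
    x * ζ j ∈ Tol h (bwd ζ u j) (j + m) τ := by
  intro i k hk
  unfold bwd
  split_ifs with h1
  · have e : x * ζ j * ((ζ j)⁻¹ * ζ (j - k)) = x * ζ (j - k) := by group
    rw [e]
    have := hmax (j - k) (by omega)
    linarith
  · have e : x * ζ j * ((ζ j)⁻¹ * ζ 0 * u i (k - j)) = x * ζ 0 * u i (k - j) := by group
    rw [e]
    have h2 := c.lip (x * ζ 0) (u i (k - j))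
    have h3 := hu i (k - j) (by omega)
    rw [abs_le] at h2
    linarith [h2.2]

/-- **Neutral flatness.** `ζ` is a path from `1` to `ζ n`; if the approximate peaks with respect to
the paths `fwd`, `bwd` are few then `h` changes little from `x` to `x * ζ n` for most `x`. -/
theorem neutral_flat [MeasurableSpace S] (μ : Measure S) (c : Coord l h X A L)
    (hri : ∀ (g : S) (V : Set S), μ ((fun z => z * g) ⁻¹' V) ≤ μ V)
    {ζ : ℕ → S} (hζ : ζ 0 = 1) {u : ι → ℕ → S} {n m : ℕ} {κ τ : ℝ} (hτ : 0 ≤ τ)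
    (hu : ∀ i k, k ≤ m → L * l (u i k) ≤ κ) {D Dp : Set S} (hD : ∀ x ∈ D, ∀ j ≤ n, x * ζ j ∈ Dp)
    {θ : ENNReal}
    (hf : ∀ j ≤ n, μ (Dp ∩ Tol h (fwd ζ u n j) (n - j + m) τ) ≤ θ)
    (hb : ∀ j ≤ n, μ (Dp ∩ Tol h (bwd ζ u j) (j + m) τ) ≤ θ) :
    μ {x | x ∈ D ∧ κ < |h (x * ζ n) - h x|} ≤ (2 * (n + 1) : ℕ) * θ := by
  classical
  set V : ℕ → Set S := fun j => (fun z => z * ζ j) ⁻¹' (Dp ∩ Tol h (fwd ζ u n j) (n - j + m) τ) ∪
    (fun z => z * ζ j) ⁻¹' (Dp ∩ Tol h (bwd ζ u j) (j + m) τ) with hV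
  have hsub : {x | x ∈ D ∧ κ < |h (x * ζ n) - h x|} ⊆ ⋃ j ∈ Finset.range (n + 1), V j := by
    rintro x ⟨hx, hκ⟩
    obtain ⟨j, hj, hmax⟩ := Finset.exists_max_image (Finset.range (n + 1)) (fun j => h (x * ζ j))
      ⟨0, Finset.mem_range.2 (by omega)⟩
    have hj' : j ≤ n := by
      have := Finset.mem_range.1 hj
      omega
    have hmax' : ∀ j' ≤ n, h (x * ζ j') ≤ h (x * ζ j) := fun j' hj' =>
      hmax j' (Finset.mem_range.2 (by omega))
    rw [mem_iUnion₂]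
    refine ⟨j, hj, ?_⟩
    have hx0 : h (x * ζ 0) = h x := by rw [hζ, mul_one]
    rcases lt_abs.1 hκ with h1 | h1
    · right
      refine ⟨hD x hx j hj', mem_tol_bwd c hτ hu hj' hmax' ?_⟩
      have := hmax' n le_rfl
      rw [hx0]
      linarith
    · left
      refine ⟨hD x hx j hj', mem_tol_fwd c hτ hu hj' hmax' ?_⟩
      have := hmax' 0 (Nat.zero_le _)
      rw [hx0] at this
      linarith
  calc μ {x | x ∈ D ∧ κ < |h (x * ζ n) - h x|} ≤ μ (⋃ j ∈ Finset.range (n + 1), V j) :=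
        measure_mono hsub
    _ ≤ ∑ j ∈ Finset.range (n + 1), μ (V j) := measure_biUnion_finset_le _ _
    _ ≤ ∑ j ∈ Finset.range (n + 1), (θ + θ) := by
        refine Finset.sum_le_sum fun j hj => ?_
        have hj' : j ≤ n := by
          have := Finset.mem_range.1 hj
          omega
        exact (measure_union_le _ _).trans (add_le_add ((hri _ _).trans (hf j hj'))
          ((hri _ _).trans (hb j hj')))
    _ = _ := by
        rw [Finset.sum_const, Finset.card_range, nsmul_eq_mul]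
        push_cast
        ring

end Vale.Agent.P188.H893

end

section

/-!
# P188, block NOFOLD, part 3: all directions and all pairs of labels
-/

set_option linter.all false

namespace Vale.Agent.P188.H616

open MeasureTheory Set Real H329

variable {S : Type} [Group S] {V W : Type*} [NormedAddCommGroup V] [NormedSpace ℝ V]
  [AddCommGroup W] [Module ℝ W] {Λ Dir Ph : Type*}

/-- `f` is straight along `t` at `z` up to time `m`, with slope `T (σ z) v`. -/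
def StrAt (f : S → V) (σ : S → Λ) (T : Λ → W →ₗ[ℝ] V) (t : S) (v : W) (m : ℕ) (err : ℝ) (z : S) :
    Prop :=
  ∀ j ≤ m, ‖f (z * t ^ j) - f z - (j : ℝ) • T (σ z) v‖ ≤ err ∧
    ‖f (z * t⁻¹ ^ j) - f z + (j : ℝ) • T (σ z) v‖ ≤ err

theorem StrAt.measurable [MeasurableSpace S] [MeasurableSpace V] [BorelSpace V]
    [SecondCountableTopology V] [MeasurableSpace Λ] [Countable Λ] [MeasurableSingletonClass Λ]
    {f : S → V} {σ : S → Λ} (T : Λ → W →ₗ[ℝ] V) (t : S) (v : W) (m : ℕ) (err : ℝ)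
    (hf : Measurable f) (hσ : Measurable σ) (hr : ∀ g : S, Measurable fun z => z * g) :
    MeasurableSet {z | StrAt f σ T t v m err z} := by
  have h1 : {z | StrAt f σ T t v m err z} = ⋃ s : Λ, (σ ⁻¹' {s} ∩ ⋂ j : Fin (m + 1),
      ({z | ‖f (z * t ^ (j : ℕ)) - f z - ((j : ℕ) : ℝ) • T s v‖ ≤ err} ∩
        {z | ‖f (z * t⁻¹ ^ (j : ℕ)) - f z + ((j : ℕ) : ℝ) • T s v‖ ≤ err})) := by
    ext z
    simp only [mem_setOf_eq, mem_iUnion, mem_inter_iff, mem_preimage, mem_singleton_iff, mem_iInter]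
    constructor
    · intro h
      exact ⟨σ z, rfl, fun j => h j (by omega)⟩
    · rintro ⟨s, rfl, h⟩ j hj
      exact h ⟨j, by omega⟩
  rw [h1]
  refine MeasurableSet.iUnion fun s => (hσ (measurableSet_singleton s)).inter
    (MeasurableSet.iInter fun j => MeasurableSet.inter ?_ ?_)
  · exact measurableSet_le (((hf.comp (hr _)).sub hf).sub_const _).norm measurable_const
  · exact measurableSet_le (((hf.comp (hr _)).sub hf).add_const _).norm measurable_const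

/-- target functionals: `bt β` is bounded by `Lb` -/
theorem StrAt.up3 {f : S → V} {σ : S → Λ} {T : Λ → W →ₗ[ℝ] V} {t : S} {v : W} {m : ℕ} {err : ℝ}
    {z : S} (hz : StrAt f σ T t v m err z) {b : V →ₗ[ℝ] ℝ} {Lb : ℝ} (hb : ∀ x, |b x| ≤ Lb * ‖x‖)
    (hLb : 0 ≤ Lb) (hpos : 0 ≤ b (T (σ z) v)) :
    Up3 (fun z => b (f z)) t m (2 * (Lb * err)) (m * b (T (σ z) v)) (2 * (m * b (T (σ z) v))) z := by
  have he : 0 ≤ err := (norm_nonneg _).trans (hz 0 (Nat.zero_le _)).1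
  have hLe : 0 ≤ Lb * err := mul_nonneg hLb he
  have h1 : ∀ j ≤ m, |b (f (z * t ^ j)) - b (f z) - j * b (T (σ z) v)| ≤ Lb * err := by
    intro j hj
    have h := (hb _).trans (mul_le_mul_of_nonneg_left (hz j hj).1 hLb)
    rwa [map_sub, map_sub, map_smul, smul_eq_mul] at h
  have h2 : ∀ j ≤ m, |b (f (z * t⁻¹ ^ j)) - b (f z) + j * b (T (σ z) v)| ≤ Lb * err := by
    intro j hj
    have h := (hb _).trans (mul_le_mul_of_nonneg_left (hz j hj).2 hLb)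
    rwa [map_add, map_sub, map_smul, smul_eq_mul] at h
  have h3 := abs_le.1 (h1 m le_rfl)
  have h4 := abs_le.1 (h2 m le_rfl)
  have h5 : ∀ j : ℕ, j ≤ m → (j : ℝ) * b (T (σ z) v) ≤ m * b (T (σ z) v) := fun j hj =>
    mul_le_mul_of_nonneg_right (by exact_mod_cast hj) hpos
  have h6 : ∀ j : ℕ, 0 ≤ (j : ℝ) * b (T (σ z) v) := fun j => mul_nonneg (Nat.cast_nonneg j) hpos
  refine ⟨fun j hj => ?_, fun j hj => ?_, ?_, ?_⟩
  · have a1 := abs_le.1 (h1 j hj)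
    have a2 := h5 j hj
    show b (f (z * t ^ j)) ≤ b (f (z * t ^ m)) + _
    linarith [a1.2, h3.1]
  · have a1 := abs_le.1 (h2 j hj)
    have a2 := h6 j
    have a3 := h6 m
    show b (f (z * t⁻¹ ^ j)) ≤ b (f (z * t ^ m)) + _
    linarith [a1.2, h3.1]
  · show |b (f (z * t ^ m)) - b (f (z * t⁻¹ ^ m)) - _| ≤ _
    rw [abs_le]
    constructor <;> linarith [h3.1, h3.2, h4.1, h4.2]
  · show |b (f (z * t ^ m)) - b (f z) - _| ≤ _
    rw [abs_le]
    constructor <;> linarith [h3.1, h3.2]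

theorem StrAt.down {f : S → V} {σ : S → Λ} {T : Λ → W →ₗ[ℝ] V} {t : S} {v : W} {m : ℕ} {err : ℝ}
    {z : S} (hz : StrAt f σ T t v m err z) {b : V →ₗ[ℝ] ℝ} {Lb : ℝ} (hb : ∀ x, |b x| ≤ Lb * ‖x‖)
    (hLb : 0 ≤ Lb) (hneg : b (T (σ z) v) ≤ 0) :
    ∀ j ≤ m, b (f (z * t ^ j)) ≤ b (f z) + 2 * (Lb * err) := by
  intro j hj
  have he : 0 ≤ err := (norm_nonneg _).trans (hz 0 (Nat.zero_le _)).1
  have hLe : 0 ≤ Lb * err := mul_nonneg hLb he
  have h := (hb _).trans (mul_le_mul_of_nonneg_left (hz j hj).1 hLb)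
  rw [map_sub, map_sub, map_smul, smul_eq_mul] at h
  have h6 : (j : ℝ) * b (T (σ z) v) ≤ 0 := mul_nonpos_of_nonneg_of_nonpos (Nat.cast_nonneg j) hneg
  linarith [(abs_le.1 h).2]

/-- **NOFOLD: labels.** If for every direction and every pair of labels that are not compatible the
set of folded points is small then `σ (τ z) = σ z` for most `z`. -/
theorem nofold_labels [MeasurableSpace S] (μ : Measure S) [Fintype Λ] [Fintype Ph]
    {Dr : Finset Dir} {σ : S → Λ} {τ : S → S} (P : Dir → Λ → Set Ph)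
    (hcard : ∀ v ∈ Dr, ∀ s s', (P v s).ncard = (P v s').ncard)
    (hinj : ∀ s s', (∀ v ∈ Dr, P v s = P v s') → s = s') (Str : Dir → Set S) {D1 D2 : Set S}
    {e : ENNReal}
    (hpair : ∀ v ∈ Dr, ∀ b s1 s2, b ∈ P v s1 → b ∉ P v s2 →
      μ {z | (z ∈ D2 ∧ σ z = s2 ∧ z ∈ Str v) ∧ (τ z ∈ D1 ∧ σ (τ z) = s1 ∧ τ z ∈ Str v)} ≤ e) :
    μ {z | (z ∈ D2 ∧ ∀ v ∈ Dr, z ∈ Str v) ∧ (τ z ∈ D1 ∧ ∀ v ∈ Dr, τ z ∈ Str v) ∧ σ (τ z) ≠ σ z} ≤
      (Dr.card * (Fintype.card Ph * (Fintype.card Λ * Fintype.card Λ)) : ℕ) * e := by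
  classical
  set I : Finset (Dir × Ph × Λ × Λ) := (Dr ×ˢ (Finset.univ : Finset (Ph × Λ × Λ))).filter
    fun q => q.2.1 ∈ P q.1 q.2.2.1 ∧ q.2.1 ∉ P q.1 q.2.2.2 with hI
  have hsub : {z | (z ∈ D2 ∧ ∀ v ∈ Dr, z ∈ Str v) ∧ (τ z ∈ D1 ∧ ∀ v ∈ Dr, τ z ∈ Str v) ∧
      σ (τ z) ≠ σ z} ⊆ ⋃ q ∈ I, {z | (z ∈ D2 ∧ σ z = q.2.2.2 ∧ z ∈ Str q.1) ∧
        (τ z ∈ D1 ∧ σ (τ z) = q.2.2.1 ∧ τ z ∈ Str q.1)} := by
    rintro z ⟨⟨hz1, hz2⟩, ⟨hz3, hz4⟩, hz5⟩
    have h1 : ∃ v ∈ Dr, P v (σ (τ z)) ≠ P v (σ z) := by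
      by_contra hcon
      push Not at hcon
      exact hz5 (hinj _ _ hcon)
    obtain ⟨v, hv, hne⟩ := h1
    have h2 : ∃ b, b ∈ P v (σ (τ z)) ∧ b ∉ P v (σ z) := by
      by_contra hcon
      push Not at hcon
      have h3 : P v (σ (τ z)) ⊆ P v (σ z) := fun b hb => hcon b hb
      exact hne (Set.eq_of_subset_of_ncard_le h3 (hcard v hv _ _).le)
    obtain ⟨b, hb1, hb2⟩ := h2
    rw [mem_iUnion₂]
    refine ⟨(v, b, σ (τ z), σ z), ?_, ⟨hz1, rfl, hz2 v hv⟩, ⟨hz3, rfl, hz4 v hv⟩⟩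
    rw [hI, Finset.mem_filter, Finset.mem_product]
    exact ⟨⟨hv, Finset.mem_univ _⟩, hb1, hb2⟩
  have hIc : I.card ≤ Dr.card * (Fintype.card Ph * (Fintype.card Λ * Fintype.card Λ)) := by
    refine (Finset.card_filter_le _ _).trans (le_of_eq ?_)
    rw [Finset.card_product, Finset.card_univ, Fintype.card_prod, Fintype.card_prod]
  calc _ ≤ μ (⋃ q ∈ I, {z | (z ∈ D2 ∧ σ z = q.2.2.2 ∧ z ∈ Str q.1) ∧
        (τ z ∈ D1 ∧ σ (τ z) = q.2.2.1 ∧ τ z ∈ Str q.1)}) := measure_mono hsub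
    _ ≤ ∑ q ∈ I, μ {z | (z ∈ D2 ∧ σ z = q.2.2.2 ∧ z ∈ Str q.1) ∧
        (τ z ∈ D1 ∧ σ (τ z) = q.2.2.1 ∧ τ z ∈ Str q.1)} := measure_biUnion_finset_le _ _
    _ ≤ ∑ q ∈ I, e := by
        refine Finset.sum_le_sum fun q hq => ?_
        rw [hI, Finset.mem_filter, Finset.mem_product] at hq
        exact hpair q.1 hq.1.1 q.2.1 q.2.2.1 q.2.2.2 hq.2.1 hq.2.2
    _ = I.card * e := by rw [Finset.sum_const, nsmul_eq_mul]
    _ ≤ _ := by gcongr

/-- the offset is preserved at a merging pair of straight points -/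
theorem offset_close {f : S → V} {σ : S → Λ} {T : Λ → W →ₗ[ℝ] V} {t : S} {v : W} {m : ℕ} {err d : ℝ}
    {l : S → ℝ} {L : ℝ} (hL : 0 ≤ L) (hlip : ∀ z g, ‖f (z * g) - f z‖ ≤ L * l g)
    {z w : S} (hz : StrAt f σ T t v m err z) (hw : StrAt f σ T t v m err w) (hσ : σ w = σ z)
    (hm : l ((z * t ^ m)⁻¹ * (w * t ^ m)) ≤ d) : ‖f w - f z‖ ≤ L * d + 2 * err := by
  have h1 := (hz m le_rfl).1
  have h2 := (hw m le_rfl).1
  rw [hσ] at h2
  have h3 := (hlip (z * t ^ m) ((z * t ^ m)⁻¹ * (w * t ^ m))).trans (mul_le_mul_of_nonneg_left hm hL)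
  rw [mul_inv_cancel_left] at h3
  have e : f w - f z = (f (w * t ^ m) - f (z * t ^ m)) - (f (w * t ^ m) - f w -
      (m : ℝ) • T (σ z) v) + (f (z * t ^ m) - f z - (m : ℝ) • T (σ z) v) := by abel
  rw [e]
  calc _ ≤ ‖(f (w * t ^ m) - f (z * t ^ m)) - (f (w * t ^ m) - f w - (m : ℝ) • T (σ z) v)‖ +
        ‖f (z * t ^ m) - f z - (m : ℝ) • T (σ z) v‖ := norm_add_le _ _
    _ ≤ (‖f (w * t ^ m) - f (z * t ^ m)‖ + ‖f (w * t ^ m) - f w - (m : ℝ) • T (σ z) v‖) +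
        ‖f (z * t ^ m) - f z - (m : ℝ) • T (σ z) v‖ := by
        gcongr
        exact norm_sub_le _ _
    _ ≤ _ := by linarith

end Vale.Agent.P188.H616

end
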