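import Vale.Agent.P188.R.G021

section

/-!
Generation of the ideal by contracted directions.
-/

namespace Vale.Agent.P188.H269

open Module
open scoped commutatorElement

universe u v

section cn

variable {V : Type v} [AddCommGroup V] [Module ℝ V]

/-- vectors contracted exponentially by `T` -/
def Cn (T : Module.End ℝ V) : Submodule ℝ V where
  carrier := {x | ∃ r < 0, x ∈ Gr T r}
  zero_mem' := ⟨-1, by norm_num, Submodule.zero_mem _⟩
  add_mem' := by
    rintro a b ⟨r, hr, ha⟩ ⟨s, hs, hb⟩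
    exact ⟨max r s, max_lt hr hs,
      Submodule.add_mem _ (Gr_mono (le_max_left _ _) ha) (Gr_mono (le_max_right _ _) hb)⟩
  smul_mem' := by
    rintro c a ⟨r, hr, ha⟩
    exact ⟨r, hr, Submodule.smul_mem _ c ha⟩

end cn

section gen

variable {G : Type u} [Group G]
variable {V : Type v} [LieRing V] [LieAlgebra ℝ V] [FiniteDimensional ℝ V]
variable {N : Subgroup G} [hNn : N.Normal] {ρ : G →* Module.End ℝ V}

/-- `t` separates the weights -/
def Sep (ρ : G →* Module.End ℝ V) (t : G) : Prop :=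
  (∀ b ∈ Wts ρ ⊤, b t = 0 → b = 0) ∧ ∀ b ∈ Wts ρ ⊤, ∀ b' ∈ Wts ρ ⊤, b t = b' t → b = b'

theorem LRep.exists_sep (H : LRep N ρ) : ∃ t : G, Sep ρ t := exists_sep_Wts H.comm ρ H.unipOn

omit hNn in
/-- eigenfunctionals killing the ideal have modulus one -/
theorem LRep.log_zero {t : G} (hs : Sep ρ t) {A : Submodule ℝ V} {l : V →ₗ[ℝ] ℂ} {χ : G → ℂ}
    (hl : EigOn ρ A l χ) (he : ∀ x ∈ eId ρ t, l x = 0) (g : G) : Real.log ‖χ g‖ = 0 := by
  obtain ⟨x, hx, hx0⟩ := hl.ne
  obtain ⟨y, hyA, hy, hly⟩ := hl.exists_comp t hx hx0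
  have h0 : Real.log ‖χ t‖ = 0 := by
    by_contra hne
    apply hx0
    rw [← hly]
    exact he y (Wt_le_eI hne hy)
  have h1 := hs.1 (fun g => Real.log ‖χ g‖) ⟨A, le_top, l, χ, hl, fun _ => rfl⟩ h0
  exact congrFun h1 g

/-- every contracted vector lies in the ideal -/
theorem LRep.Cn_le (H : LRep N ρ) {t : G} (hs : Sep ρ t) (g : G) :
    Cn (ρ g) ≤ (eId ρ t).toSubmodule := by
  have key : ∀ (n : ℕ) (A : Submodule ℝ V), finrank ℝ A = n → (∀ g, ∀ x ∈ A, ρ g x ∈ A) →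
      (eId ρ t).toSubmodule ≤ A → ∀ x ∈ A, ∀ r < 0, x ∈ Gr (ρ g) r → x ∈ eId ρ t := by
    intro n
    induction n using Nat.strong_induction_on with
    | _ n ih =>
    intro A hn hA heA x hx r hr hxr
    rcases heA.eq_or_lt with heq | hlt
    · rw [← heq] at hx; exact hx
    · obtain ⟨l, χ, hl, hl0⟩ := exists_eigOn H.comm ρ H.unipOn A _ hA (H.eId_inv t) hlt
      have hlx : l x = 0 := by
        by_contra hne
        have h1 := hl.log_le hx hxr hne
        rw [LRep.log_zero hs hl hl0] at h1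
        linarith
      refine ih _ (hn ▸ Submodule.finrank_lt_finrank_of_lt hl.ker_lt)
        (A ⊓ LinearMap.ker l) rfl hl.ker_inv ?_ x ⟨hx, hlx⟩ r hr hxr
      exact le_inf heA fun y hy => hl0 y hy
  rintro x ⟨r, hr, hxr⟩
  exact key _ ⊤ rfl (fun _ _ _ => trivial) le_top x trivial r hr hxr

/-- a non-neutral modulus of `t` seen on `V / [V, V]` is the modulus of an eigenfunctional -/
theorem LRep.exists_char (H : LRep N ρ) (t : G) {r : ℝ}
    (hr : ¬ Wt (ρ t) (ρ t⁻¹) r ≤ (⁅(⊤ : LieIdeal ℝ V), (⊤ : LieIdeal ℝ V)⁆ :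
      LieIdeal ℝ V).toSubmodule) :
    ∃ (l : V →ₗ[ℝ] ℂ) (χ : G → ℂ), EigOn ρ ⊤ l χ ∧ (∀ x y : V, l ⁅x, y⁆ = 0) ∧
      Real.log ‖χ t‖ = r := by
  classical
  set D : LieIdeal ℝ V := ⁅(⊤ : LieIdeal ℝ V), (⊤ : LieIdeal ℝ V)⁆ with hD
  have hDinv : ∀ g, ∀ x ∈ D.toSubmodule, ρ g x ∈ D.toSubmodule := fun g =>
    lie_inv (I := ⊤) (J := ⊤) (H.lie g) (fun x _ => LieSubmodule.mem_top _)
      (fun x _ => LieSubmodule.mem_top _)
  let Q := V ⧸ D.toSubmodule
  let σ : G →* Module.End ℝ Q :=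
    { toFun := fun g => D.toSubmodule.mapQ D.toSubmodule (ρ g) (hDinv g)
      map_one' := by
        apply Submodule.linearMap_qext
        ext x; simp
      map_mul' := by
        intro a b
        apply Submodule.linearMap_qext
        ext x; simp }
  have hσ : ∀ g x, σ g (D.toSubmodule.mkQ x) = D.toSubmodule.mkQ (ρ g x) := fun g x => rfl
  have hNtriv : ∀ n ∈ N, ∀ x, σ n x = x := by
    intro n hn x
    obtain ⟨x, rfl⟩ := D.toSubmodule.mkQ_surjective x
    rw [hσ, ← sub_eq_zero, ← map_sub]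
    exact (Submodule.Quotient.mk_eq_zero _).2 (H.unip n hn ⊤ x (LieSubmodule.mem_top x))
  have hσc : ∀ a b x, σ a (σ b x) = σ b (σ a x) := by
    intro a b x
    have h1 : a * b = b * a * ⁅a⁻¹, b⁻¹⁆ := by rw [commutatorElement_def]; group
    rw [← Module.End.mul_apply, ← map_mul, h1, map_mul σ (b * a), Module.End.mul_apply,
      hNtriv _ (H.comm _ _), map_mul, Module.End.mul_apply]
  have hU : UnipOn N σ := by
    refine ⟨fun j => if j = 0 then ⊤ else ⊥, 1, by simp, by simp, ?_⟩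
    intro n hn j x _
    rw [hNtriv n hn, sub_self]; exact Submodule.zero_mem _
  -- the sum of the other modulus spaces
  let p : ℝ → Submodule ℝ Q := fun s => if s = r then ⊥ else Wt (σ t) (σ t⁻¹) s
  have hp : ∀ s, p s ≤ Wt (σ t) (σ t⁻¹) s := by
    intro s
    by_cases hs : s = r
    · simp only [p, if_pos hs]; exact bot_le
    · simp only [p, if_neg hs]; exact le_rfl
  have hB : ∀ g, ∀ x ∈ (⨆ s, p s : Submodule ℝ Q), σ g x ∈ (⨆ s, p s : Submodule ℝ Q) := by
    intro g x hx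
    refine Submodule.iSup_induction p (motive := fun x => σ g x ∈ (⨆ s, p s : Submodule ℝ Q)) hx
      ?_ ?_ ?_
    · intro s z hz
      refine Submodule.mem_iSup_of_mem s ?_
      by_cases hs : s = r
      · simp only [p, if_pos hs] at hz ⊢
        rw [Submodule.mem_bot] at hz ⊢
        rw [hz, map_zero]
      · simp only [p, if_neg hs] at hz ⊢
        exact Wt_map (σ g) (fun y => hσc _ _ _) (fun y => hσc _ _ _) hz
    · rw [map_zero]; exact Submodule.zero_mem _
    · intro a b ha hb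
      rw [map_add]; exact Submodule.add_mem _ ha hb
  have hBt : (⨆ s, p s : Submodule ℝ Q) ≠ ⊤ := by
    intro htop
    apply hr
    intro y hy
    have h1 : D.toSubmodule.mkQ y ∈ Wt (σ t) (σ t⁻¹) r :=
      Wt_map D.toSubmodule.mkQ (fun _ => rfl) (fun _ => rfl) hy
    have h2 : D.toSubmodule.mkQ y ∈ p r :=
      Wt_inf_iSup (rho_inv_mul σ t) p hp h1 (by rw [htop]; trivial)
    simp only [p, if_true] at h2
    exact (Submodule.Quotient.mk_eq_zero _).1 ((Submodule.mem_bot ℝ).1 h2)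
  obtain ⟨l', χ, hl'0, hl'B, hχ⟩ := exists_eigenfunctional H.comm σ hU _ hB hBt
  have hne : ∃ z, l' z ≠ 0 := by
    by_contra hcon
    push Not at hcon
    exact hl'0 (LinearMap.ext hcon)
  have hEig' : EigOn σ ⊤ l' χ := by
    refine ⟨fun _ _ _ => trivial, ?_, fun g x _ => hχ g x⟩
    obtain ⟨z, hz⟩ := hne
    exact ⟨z, trivial, hz⟩
  refine ⟨l' ∘ₗ D.toSubmodule.mkQ, χ, ⟨fun _ _ _ => trivial, ?_, ?_⟩, ?_, ?_⟩
  · obtain ⟨z, hz⟩ := hne
    obtain ⟨z, rfl⟩ := D.toSubmodule.mkQ_surjective z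
    exact ⟨z, trivial, hz⟩
  · intro g x _
    exact hχ g (D.toSubmodule.mkQ x)
  · intro x y
    have h1 : D.toSubmodule.mkQ ⁅x, y⁆ = 0 := (Submodule.Quotient.mk_eq_zero _).2
      (LieSubmodule.lie_mem_lie (LieSubmodule.mem_top x) (LieSubmodule.mem_top y))
    rw [LinearMap.comp_apply, h1, map_zero]
  · obtain ⟨z, hz⟩ := hne
    obtain ⟨y, _, hy, hly⟩ := hEig'.exists_comp t (x := z) trivial hz
    by_contra hcon
    apply hz
    rw [← hly]
    refine hl'B y (Submodule.mem_iSup_of_mem (Real.log ‖χ t‖) ?_)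
    simp only [p, if_neg hcon]
    exact hy

/-- the subalgebra generated by the directions contracted by the inverses of the elements of `F` -/
def PF (ρ : G →* Module.End ℝ V) (F : Set G) : LieSubalgebra ℝ V :=
  LieSubalgebra.lieSpan ℝ V (⋃ g ∈ F, (Cn (ρ g⁻¹) : Set V))

theorem LRep.PF_le (H : LRep N ρ) {t : G} (hs : Sep ρ t) (F : Set G) :
    ∀ x ∈ PF ρ F, x ∈ eId ρ t := by
  let K : LieSubalgebra ℝ V :=
    { (eId ρ t).toSubmodule with lie_mem' := fun {x y} _ hy => (eId ρ t).lie_mem hy }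
  have h1 : PF ρ F ≤ K := by
    unfold PF
    rw [LieSubalgebra.lieSpan_le]
    intro x hx
    simp only [Set.mem_iUnion] at hx
    obtain ⟨g, _, hx⟩ := hx
    exact H.Cn_le hs g⁻¹ hx
  exact fun x hx => h1 hx

/-- the hypothesis on `F` -/
def Covers (ρ : G →* Module.End ℝ V) (F : Set G) : Prop :=
  ∀ (l : V →ₗ[ℝ] ℂ) (χ : G → ℂ), EigOn ρ ⊤ l χ → (∀ x y : V, l ⁅x, y⁆ = 0) →
    (∃ g, ‖χ g‖ ≠ 1) → ∃ g ∈ F, 1 < ‖χ g‖

theorem LRep.le_PF_sup (H : LRep N ρ) {t : G} (hs : Sep ρ t) {F : Set G} (hF : Covers ρ F) :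
    (eId ρ t).toSubmodule ≤ (PF ρ F).toSubmodule ⊔
      (⁅eId ρ t, eId ρ t⁆ : LieIdeal ℝ V).toSubmodule := by
  classical
  set e := eId ρ t with he
  set D : LieIdeal ℝ V := ⁅e, e⁆ with hD
  have h := rho_inv_mul ρ t
  have h' := rho_mul_inv ρ t
  have hDinv : ∀ g, ∀ x ∈ D.toSubmodule, ρ g x ∈ D.toSubmodule := fun g =>
    lie_inv (H.lie g) (H.eId_inv t g) (H.eId_inv t g)
  have key : ∀ (n : ℕ) (A : Submodule ℝ V), finrank ℝ A = n → (∀ g, ∀ x ∈ A, ρ g x ∈ A) →
      D.toSubmodule ≤ A → A ≤ e.toSubmodule → A ≤ (PF ρ F).toSubmodule ⊔ D.toSubmodule := by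
    intro n
    induction n using Nat.strong_induction_on with
    | _ n ih =>
    intro A hn hA hDA hAe
    rcases hDA.eq_or_lt with heq | hlt
    · rw [← heq]; exact le_sup_right
    · obtain ⟨l, χ, hl, hl0⟩ := exists_eigOn H.comm ρ H.unipOn A _ hA hDinv hlt
      have hIH := ih _ (hn ▸ Submodule.finrank_lt_finrank_of_lt hl.ker_lt)
        (A ⊓ LinearMap.ker l) rfl hl.ker_inv (le_inf hDA fun y hy => hl0 y hy)
        (inf_le_left.trans hAe)
      -- the modulus of `χ`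
      obtain ⟨x, hx, hx0⟩ := hl.ne
      obtain ⟨y, hyA, hy, hly⟩ := hl.exists_comp t hx hx0
      have hyD : y ∉ D := by
        intro hyD
        apply hx0
        rw [← hly]
        exact hl0 y hyD
      have hr0 : Real.log ‖χ t‖ ≠ 0 := by
        intro h0
        rw [h0] at hy
        exact hyD (neutral_mem h h' (H.lie t) (H.lie t⁻¹) (hAe hyA) hy)
      have hnot : ¬ Wt (ρ t) (ρ t⁻¹) (Real.log ‖χ t‖) ≤ (⁅(⊤ : LieIdeal ℝ V),
          (⊤ : LieIdeal ℝ V)⁆ : LieIdeal ℝ V).toSubmodule := by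
        intro hle
        exact hyD (Wt_le_derived h h' (H.lie t) (H.lie t⁻¹) H.nil hr0 hle hy)
      obtain ⟨l', χ', hl', hbr, hlog⟩ := H.exists_char t hnot
      have hbb : (fun g => Real.log ‖χ' g‖) = fun g => Real.log ‖χ g‖ :=
        hs.2 _ ⟨⊤, le_top, l', χ', hl', fun _ => rfl⟩ _ ⟨A, le_top, l, χ, hl, fun _ => rfl⟩ hlog
      have hχ't : ‖χ' t‖ ≠ 1 := by
        intro h1
        rw [h1, Real.log_one] at hlog
        exact hr0 hlog.symm
      obtain ⟨g, hgF, hg⟩ := hF l' χ' hl' hbr ⟨t, hχ't⟩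
      have hpos : 0 < Real.log ‖χ g‖ := by
        rw [← congrFun hbb g]
        exact Real.log_pos hg
      intro z hz
      by_cases hlz : l z = 0
      · exact hIH ⟨hz, hlz⟩
      · obtain ⟨w, hwA, hw, hlw⟩ := hl.exists_comp g hz hlz
        have h1 : w ∈ (PF ρ F).toSubmodule := by
          refine LieSubalgebra.subset_lieSpan ?_
          simp only [Set.mem_iUnion]
          exact ⟨g, hgF, -Real.log ‖χ g‖, by linarith, hw.2⟩
        have h2 : z - w ∈ A ⊓ LinearMap.ker l :=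
          ⟨A.sub_mem hz hwA, by
            change l (z - w) = 0
            rw [map_sub, hlw, sub_self]⟩
        have h3 : w + (z - w) ∈ (PF ρ F).toSubmodule ⊔ D.toSubmodule :=
          Submodule.add_mem _ (Submodule.mem_sup_left h1) (hIH h2)
        rwa [add_sub_cancel] at h3
  exact key _ e.toSubmodule rfl (fun g => H.eId_inv t g)
    (LieSubmodule.lie_le_right e e) le_rfl

/-- **Generation.** -/
theorem LRep.mem_PF_iff (H : LRep N ρ) {t : G} (hs : Sep ρ t) {F : Set G} (hF : Covers ρ F)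
    (x : V) : x ∈ PF ρ F ↔ x ∈ eId ρ t := by
  refine ⟨H.PF_le hs F x, ?_⟩
  set e := eId ρ t with he
  set P := PF ρ F with hP
  have hPe : ∀ x ∈ P, x ∈ e := H.PF_le hs F
  have h0 := H.le_PF_sup hs hF
  -- the descending series
  let C : ℕ → LieIdeal ℝ V := fun k => Nat.rec e (fun _ I => ⁅e, I⁆) k
  have hC0 : C 0 = e := rfl
  have hCs : ∀ k, C (k + 1) = ⁅e, C k⁆ := fun k => rfl
  have hClcs : ∀ k, C k ≤ LieModule.lowerCentralSeries ℝ V V k := by
    intro k
    induction k with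
    | zero => rw [LieModule.lowerCentralSeries_zero]; exact le_top
    | succ k ih =>
      rw [hCs, LieModule.lowerCentralSeries_succ]
      exact LieSubmodule.mono_lie le_top ih
  have hCe : ∀ k, C k ≤ e := by
    intro k
    cases k with
    | zero => exact le_rfl
    | succ k => rw [hCs]; exact LieSubmodule.lie_le_left _ _
  have key : ∀ k, e.toSubmodule ≤ P.toSubmodule ⊔ (C k).toSubmodule := by
    intro k
    induction k with
    | zero => rw [hC0]; exact le_sup_right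
    | succ k ih =>
      have h1 : (⁅e, e⁆ : LieIdeal ℝ V).toSubmodule ≤ P.toSubmodule ⊔ (C (k + 1)).toSubmodule := by
        rw [LieSubmodule.lieIdeal_oper_eq_linear_span', Submodule.span_le]
        rintro _ ⟨a, ha, b, hb, rfl⟩
        obtain ⟨p, hp, c, hc, rfl⟩ := Submodule.mem_sup.1 (ih ha)
        obtain ⟨p', hp', c', hc', rfl⟩ := Submodule.mem_sup.1 (ih hb)
        have e1 : ⁅p + c, p' + c'⁆ = ⁅p, p'⁆ + (⁅p, c'⁆ - ⁅p', c⁆ + ⁅c, c'⁆) := by
          rw [add_lie, lie_add, lie_add, ← lie_skew c p']; abel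
        rw [e1]
        refine Submodule.add_mem _ (Submodule.mem_sup_left (P.lie_mem hp hp'))
          (Submodule.mem_sup_right ?_)
        rw [hCs]
        exact add_mem (sub_mem (LieSubmodule.lie_mem_lie (hPe p hp) hc')
          (LieSubmodule.lie_mem_lie (hPe p' hp') hc))
          (LieSubmodule.lie_mem_lie (hCe k hc) hc')
      exact h0.trans (sup_le le_sup_left h1)
  obtain ⟨k, hk⟩ := H.nil.nilpotent ℝ
  intro hx
  have h6 := key k hx
  have h7 : C k = ⊥ := by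
    rw [eq_bot_iff, ← hk]; exact hClcs k
  rw [h7] at h6
  simpa using h6

end gen

end Vale.Agent.P188.H269

end

section

/-!
Adapted seminorms: subexponential growth modulo the ideal `eId`, and final packaging.
-/

namespace Vale.Agent.P188.H269

open Module
open scoped commutatorElement

universe u v

section semi

theorem seminorm_bound (p : Seminorm ℝ ℂ) : ∃ K : ℝ, 0 ≤ K ∧ ∀ z, p z ≤ K * ‖z‖ := by
  refine ⟨p 1 + p Complex.I, add_nonneg (apply_nonneg _ _) (apply_nonneg _ _), fun z => ?_⟩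
  have h1 : z = z.re • (1 : ℂ) + z.im • Complex.I := by
    simp [Complex.re_add_im]
  conv_lhs => rw [h1]
  refine (map_add_le_add p _ _).trans ?_
  rw [map_smul_eq_mul, map_smul_eq_mul, add_mul, Real.norm_eq_abs, Real.norm_eq_abs]
  apply add_le_add
  · rw [mul_comm]
    exact mul_le_mul_of_nonneg_left (Complex.abs_re_le_norm z) (apply_nonneg _ _)
  · rw [mul_comm]
    exact mul_le_mul_of_nonneg_left (Complex.abs_im_le_norm z) (apply_nonneg _ _)

variable {G : Type u} [Group G]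

/-- adapted seminorm for an isotypic subquotient -/
theorem exists_adapted {V : Type v} [AddCommGroup V] [Module ℝ V] [FiniteDimensional ℝ V]
    {N : Subgroup G} [hNn : N.Normal] (hcomm : ∀ a b : G, ⁅a, b⁆ ∈ N)
    (ρ : G →* Module.End ℝ V) (hU : UnipOn N ρ) (B : Submodule ℝ V)
    (hB : ∀ g, ∀ x ∈ B, ρ g x ∈ B) (b : G → ℝ)
    (hb : ∀ A l χ, EigOn ρ A l χ → (∀ x ∈ B, l x = 0) → ∀ g, Real.log ‖χ g‖ = b g)
    (S : Finset G) {ε : ℝ} (hε : 0 < ε) (A : Submodule ℝ V) (hA : ∀ g, ∀ x ∈ A, ρ g x ∈ A)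
    (hBA : B ≤ A) :
    ∃ q : Seminorm ℝ V, (∀ x ∈ A, q x = 0 ↔ x ∈ B) ∧
      ∀ g ∈ S, ∀ x ∈ A, q (ρ g x) ≤ Real.exp (b g + ε) * q x := by
  classical
  generalize hn : finrank ℝ A = n
  induction n using Nat.strong_induction_on generalizing A with
  | _ n ih =>
  rcases hBA.eq_or_lt with heq | hlt
  · refine ⟨0, fun x hx => ?_, fun g _ x _ => by simp⟩
    rw [heq]
    exact ⟨fun _ => hx, fun _ => rfl⟩
  · obtain ⟨l, χ, hl, hl0⟩ := exists_eigOn hcomm ρ hU A B hA hB hlt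
    obtain ⟨q', hq'0, hq'⟩ := ih _ (hn ▸ Submodule.finrank_lt_finrank_of_lt hl.ker_lt)
      (A ⊓ LinearMap.ker l) hl.ker_inv (le_inf hBA fun y hy => hl0 y hy) rfl
    -- a linear section
    obtain ⟨σ, hσA, hσ⟩ : ∃ σ : ℂ →ₗ[ℝ] V, (∀ x ∈ A, σ (l x) ∈ A) ∧
        ∀ x ∈ A, l (σ (l x)) = l x := by
      let lA : A →ₗ[ℝ] ℂ := l ∘ₗ A.subtype
      obtain ⟨s, hs⟩ := LinearMap.exists_rightInverse_of_surjective lA.rangeRestrict
        (LinearMap.range_rangeRestrict lA)
      obtain ⟨σ, hσ⟩ := LinearMap.exists_extend (A.subtype ∘ₗ s)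
      have hval : ∀ x (hx : x ∈ A), σ (l x) = (s ⟨l x, ⟨⟨x, hx⟩, rfl⟩⟩ : A) := by
        intro x hx
        exact congrArg (fun m : (LinearMap.range lA) →ₗ[ℝ] V => m ⟨l x, ⟨⟨x, hx⟩, rfl⟩⟩) hσ
      refine ⟨σ, ?_, ?_⟩
      · intro x hx
        rw [hval x hx]; exact Submodule.coe_mem _
      · intro x hx
        rw [hval x hx]
        have h1 := congrArg (fun m : (LinearMap.range lA) →ₗ[ℝ] (LinearMap.range lA) =>
          (m ⟨l x, ⟨⟨x, hx⟩, rfl⟩⟩ : ℂ)) hs
        exact h1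
    -- constants
    have hK : ∀ g : G, ∃ K : ℝ, 0 ≤ K ∧ ∀ z : ℂ,
        Real.exp (b g + ε) * q' (σ z) + q' (ρ g (σ z)) ≤ K * ‖z‖ := by
      intro g
      obtain ⟨K1, h1, hK1⟩ := seminorm_bound (q'.comp σ)
      obtain ⟨K2, h2, hK2⟩ := seminorm_bound (q'.comp (ρ g ∘ₗ σ))
      refine ⟨Real.exp (b g + ε) * K1 + K2, by positivity, fun z => ?_⟩
      rw [add_mul, mul_assoc]
      exact add_le_add (mul_le_mul_of_nonneg_left (hK1 z) (Real.exp_pos _).le) (hK2 z)
    choose K hK0 hK using hK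
    have hE : 0 < Real.exp ε - 1 := by
      have := Real.add_one_lt_exp hε.ne'
      linarith
    set M : ℝ := ∑ g ∈ S, K g / (Real.exp (b g) * (Real.exp ε - 1)) + 1 with hM
    have hterm : ∀ g, 0 ≤ K g / (Real.exp (b g) * (Real.exp ε - 1)) := fun g =>
      div_nonneg (hK0 g) (mul_nonneg (Real.exp_pos _).le hE.le)
    have hM0 : 0 < M := by
      have := Finset.sum_nonneg fun g (_ : g ∈ S) => hterm g
      linarith
    have hMg : ∀ g ∈ S, K g + M * Real.exp (b g) ≤ M * Real.exp (b g + ε) := by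
      intro g hg
      have h1 : K g / (Real.exp (b g) * (Real.exp ε - 1)) ≤ M := by
        have := Finset.single_le_sum (f := fun g => K g / (Real.exp (b g) * (Real.exp ε - 1)))
          (fun g _ => hterm g) hg
        linarith
      rw [div_le_iff₀ (mul_pos (Real.exp_pos _) hE)] at h1
      rw [Real.exp_add]
      nlinarith
    let M' : NNReal := ⟨M, hM0.le⟩
    let q : Seminorm ℝ V := q' + M' • (normSeminorm ℝ ℂ).comp l
    have hq : ∀ x, q x = q' x + M * ‖l x‖ := fun x => rfl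
    refine ⟨q, ?_, ?_⟩
    · intro x hx
      rw [hq]
      constructor
      · intro h0
        have h1 : 0 ≤ q' x := apply_nonneg _ _
        have h2 : 0 ≤ M * ‖l x‖ := by positivity
        have h3 : M * ‖l x‖ = 0 := by linarith
        have h4 : l x = 0 := by
          rcases mul_eq_zero.1 h3 with h5 | h5
          · exact absurd h5 hM0.ne'
          · exact norm_eq_zero.1 h5
        exact (hq'0 x ⟨hx, h4⟩).1 (by linarith)
      · intro hxB
        rw [(hq'0 x ⟨hx, hl0 x hxB⟩).2 hxB, hl0 x hxB]; simp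
    · intro g hg x hx
      rw [hq, hq]
      have ha : x - σ (l x) ∈ A ⊓ LinearMap.ker l :=
        ⟨A.sub_mem hx (hσA x hx), by
          change l (x - σ (l x)) = 0
          rw [map_sub, hσ x hx, sub_self]⟩
      have h1 : q' (ρ g x) ≤ Real.exp (b g + ε) * q' x + K g * ‖l x‖ := by
        have e1 : ρ g x = ρ g (x - σ (l x)) + ρ g (σ (l x)) := by rw [← map_add, sub_add_cancel]
        have h2 : q' (x - σ (l x)) ≤ q' x + q' (σ (l x)) := map_sub_le_add q' _ _
        calc q' (ρ g x) ≤ q' (ρ g (x - σ (l x))) + q' (ρ g (σ (l x))) := by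
              rw [e1]; exact map_add_le_add q' _ _
          _ ≤ Real.exp (b g + ε) * q' (x - σ (l x)) + q' (ρ g (σ (l x))) :=
              add_le_add (hq' g hg _ ha) le_rfl
          _ ≤ Real.exp (b g + ε) * (q' x + q' (σ (l x))) + q' (ρ g (σ (l x))) :=
              add_le_add (mul_le_mul_of_nonneg_left h2 (Real.exp_pos _).le) le_rfl
          _ = Real.exp (b g + ε) * q' x +
              (Real.exp (b g + ε) * q' (σ (l x)) + q' (ρ g (σ (l x)))) := by ring
          _ ≤ _ := add_le_add le_rfl (hK g (l x))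
      have h3 : ‖l (ρ g x)‖ = Real.exp (b g) * ‖l x‖ := by
        rw [hl.eig g x hx, norm_mul]
        congr 1
        rw [← hb A l χ hl hl0 g, Real.exp_log (norm_pos_iff.2 (hl.ne_zero g))]
      rw [h3]
      have h4 := mul_le_mul_of_nonneg_right (hMg g hg) (norm_nonneg (l x))
      nlinarith

end semi

section final

variable {G : Type u} [Group G]
variable {V : Type v} [LieRing V] [LieAlgebra ℝ V] [FiniteDimensional ℝ V]
variable {N : Subgroup G} [hNn : N.Normal] {ρ : G →* Module.End ℝ V}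

/-- **(E2)** the action on `V / e` is subexponential: adapted seminorms. -/
theorem LRep.exists_seminorm (H : LRep N ρ) {t : G} (hs : Sep ρ t) (S : Finset G) {ε : ℝ}
    (hε : 0 < ε) : ∃ q : Seminorm ℝ V, (∀ x, q x = 0 ↔ x ∈ eId ρ t) ∧
      ∀ g ∈ S, ∀ x, q (ρ g x) ≤ Real.exp ε * q x := by
  obtain ⟨q, h1, h2⟩ := exists_adapted H.comm ρ H.unipOn (eId ρ t).toSubmodule (H.eId_inv t)
    (fun _ => 0) (fun A l χ hl h0 g => LRep.log_zero hs hl h0 g) S hε ⊤ (fun _ _ _ => trivial)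
    le_top
  refine ⟨q, fun x => h1 x trivial, fun g hg x => ?_⟩
  have := h2 g hg x trivial
  rwa [zero_add] at this

/-- a separating element and its inverse generate -/
theorem covers_of_sep {t : G} (hs : Sep ρ t) : Covers ρ ({t, t⁻¹} : Set G) := by
  rintro l χ hl _ ⟨g, hg⟩
  have hb : (fun g => Real.log ‖χ g‖) ∈ Wts ρ ⊤ := ⟨⊤, le_top, l, χ, hl, fun _ => rfl⟩
  have h0 : Real.log ‖χ t‖ ≠ 0 := by
    intro h0
    have h1 := hs.1 _ hb h0
    have h2 : Real.log ‖χ g‖ = 0 := congrFun h1 g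
    apply hg
    have h3 := norm_pos_iff.2 (hl.ne_zero g)
    rw [← Real.exp_log h3, h2, Real.exp_zero]
  rcases lt_or_gt_of_ne h0 with h | h
  · refine ⟨t⁻¹, by simp, ?_⟩
    rw [hl.inv', norm_inv]
    have h3 := norm_pos_iff.2 (hl.ne_zero t)
    have h4 : ‖χ t‖ < 1 := by
      by_contra hcon
      push Not at hcon
      have := Real.log_nonneg hcon
      linarith
    exact (one_lt_inv₀ h3).2 h4
  · refine ⟨t, by simp, ?_⟩
    by_contra hcon
    push Not at hcon
    have := Real.log_nonpos (norm_nonneg _) hcon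
    linarith

/-- growth bounds for arbitrary seminorms -/
theorem Gr.seminorm {V : Type v} [AddCommGroup V] [Module ℝ V] [FiniteDimensional ℝ V]
    {T : Module.End ℝ V} {r : ℝ} {x : V} (hx : x ∈ Gr T r) (p : Seminorm ℝ V) {ε : ℝ}
    (hε : 0 < ε) : ∃ C : ℝ, 0 ≤ C ∧ ∀ n : ℕ, p ((T ^ n) x) ≤ C * Real.exp ((r + ε) * n) := by
  classical
  let b := Module.finBasis ℝ V
  obtain ⟨C, hC0, hC⟩ := Gr.bound_fin hx b.coord hε
  refine ⟨∑ i, C * p (b i), Finset.sum_nonneg fun i _ => mul_nonneg hC0 (apply_nonneg _ _),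
    fun n => ?_⟩
  conv_lhs => rw [← b.sum_repr ((T ^ n) x)]
  rw [Finset.sum_mul]
  refine (Finset.le_sum_of_subadditive p (map_zero p).le (map_add_le_add p) _ _).trans
    (Finset.sum_le_sum fun i _ => ?_)
  rw [map_smul_eq_mul, Real.norm_eq_abs]
  have h1 := hC i n
  rw [Basis.coord_apply] at h1
  calc |b.repr ((T ^ n) x) i| * p (b i) ≤ (C * Real.exp ((r + ε) * n)) * p (b i) :=
        mul_le_mul_of_nonneg_right h1 (apply_nonneg _ _)
    _ = _ := by ring

/-- contracted vectors, in a seminorm -/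
theorem Cn.seminorm {V : Type v} [AddCommGroup V] [Module ℝ V] [FiniteDimensional ℝ V]
    {T : Module.End ℝ V} {x : V} (hx : x ∈ Cn T) (p : Seminorm ℝ V) :
    ∃ C : ℝ, ∃ lam > 0, 0 ≤ C ∧ ∀ n : ℕ, p ((T ^ n) x) ≤ C * Real.exp (-(lam * n)) := by
  obtain ⟨r, hr, hxr⟩ := hx
  obtain ⟨C, hC0, hC⟩ := Gr.seminorm hxr p (ε := -r / 2) (by linarith)
  refine ⟨C, -r / 2, by linarith, hC0, fun n => (hC n).trans (le_of_eq ?_)⟩
  congr 2; ring

/-- **(L2), final form.** -/
theorem LRep.main (H : LRep N ρ) : ∃ e : LieIdeal ℝ V,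
    (∀ g, ∀ x ∈ e, ρ g x ∈ e) ∧
    (∀ g, ∀ x ∈ Cn (ρ g), x ∈ e) ∧
    (∃ t : G, Covers ρ ({t, t⁻¹} : Set G)) ∧
    (∀ F : Set G, Covers ρ F → ∀ x, x ∈ PF ρ F ↔ x ∈ e) ∧
    (∀ (S : Finset G) (ε : ℝ), 0 < ε → ∃ q : Seminorm ℝ V, (∀ x, q x = 0 ↔ x ∈ e) ∧
      ∀ g ∈ S, ∀ x, q (ρ g x) ≤ Real.exp ε * q x) := by
  obtain ⟨t, hs⟩ := H.exists_sep
  exact ⟨eId ρ t, H.eId_inv t, fun g x hx => H.Cn_le hs g hx, ⟨t, covers_of_sep hs⟩,
    fun F hF x => H.mem_PF_iff hs hF x, fun S ε hε => H.exists_seminorm hs S hε⟩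

end final

end Vale.Agent.P188.H269

end

section

/-!
The Cartan group, part 1: groups with a nilpotent exponential subgroup, abstractly.
-/

namespace Vale.Agent.P188.H269

open Module
open scoped commutatorElement

universe u v

section agree

/-- comparison of two automorphisms which agree modulo a subspace, general form -/
theorem mem_of_agree' {V : Type v} [AddCommGroup V] [Module ℝ V] [FiniteDimensional ℝ V]
    {T T' S S' : Module.End ℝ V} (h : T' * T = 1)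
    (A I : Submodule ℝ V) (hIT : ∀ x ∈ I, T x ∈ I) (hIT' : ∀ x ∈ I, T' x ∈ I)
    (hAS : ∀ x ∈ A, S x ∈ A) (hAS' : ∀ x ∈ A, S' x ∈ A)
    (hS : ∀ x ∈ A, S x - T x ∈ I) (hS' : ∀ x ∈ A, S' x - T' x ∈ I) {r0 : ℝ}
    (hI : ∀ x ∈ A, ∃ y ∈ Wt T T' r0, x - y ∈ I) {r : ℝ} (hr : r ≠ r0) {x : V} (hx : x ∈ A)
    (hxr : x ∈ Wt S S' r) : x ∈ I := by
  classical
  let q : Module.End ℝ (V ⧸ I) := I.mapQ I T hIT
  let q' : Module.End ℝ (V ⧸ I) := I.mapQ I T' hIT'
  have hq : q' * q = 1 := by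
    apply Submodule.linearMap_qext
    ext y
    have := congrArg (fun B : Module.End ℝ V => B y) h
    simp only [Module.End.mul_apply, Module.End.one_apply] at this
    simp [q, q', this]
  -- the class of `x` has modulus `r`
  have h1 : I.mkQ x ∈ Wt q q' r := by
    let f : A →ₗ[ℝ] V ⧸ I := I.mkQ ∘ₗ A.subtype
    have hf1 : f ⟨x, hx⟩ ∈ Gr q r := by
      refine Gr_map (T := S.restrict hAS) f ?_ (Gr_restrict A hAS hx hxr.1)
      intro y
      change I.mkQ (S y) = q (I.mkQ y)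
      have h2 : I.mkQ (S y) = I.mkQ (T y) := by
        rw [← sub_eq_zero, ← map_sub]
        exact (Submodule.Quotient.mk_eq_zero I).2 (hS y y.2)
      rw [h2]; rfl
    have hf2 : f ⟨x, hx⟩ ∈ Gr q' (-r) := by
      refine Gr_map (T := S'.restrict hAS') f ?_ (Gr_restrict A hAS' hx hxr.2)
      intro y
      change I.mkQ (S' y) = q' (I.mkQ y)
      have h2 : I.mkQ (S' y) = I.mkQ (T' y) := by
        rw [← sub_eq_zero, ← map_sub]
        exact (Submodule.Quotient.mk_eq_zero I).2 (hS' y y.2)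
      rw [h2]; rfl
    exact ⟨hf1, hf2⟩
  have h3 : I.mkQ x ∈ Wt q q' r0 := by
    obtain ⟨y, hy, hxy⟩ := hI x hx
    have h4 : I.mkQ x = I.mkQ y := by
      rw [← sub_eq_zero, ← map_sub]
      exact (Submodule.Quotient.mk_eq_zero I).2 hxy
    rw [h4]
    exact Wt_map I.mkQ (fun y => rfl) (fun y => rfl) hy
  have h5 : I.mkQ x = 0 := by
    rcases lt_or_gt_of_ne hr with hlt | hgt
    · exact indep_lt hq hlt h1.1 h3.2
    · exact indep_lt hq hgt h3.1 h1.2
  exact (Submodule.Quotient.mk_eq_zero I).1 h5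

theorem Wt_disjoint {V : Type v} [AddCommGroup V] [Module ℝ V] [FiniteDimensional ℝ V]
    {T T' : Module.End ℝ V} (h : T' * T = 1) {r s : ℝ} (hrs : r ≠ s) {x : V}
    (hx : x ∈ Wt T T' r) (hx' : x ∈ Wt T T' s) : x = 0 := by
  rcases lt_or_gt_of_ne hrs with hlt | hgt
  · exact indep_lt h hlt hx.1 hx'.2
  · exact indep_lt h hgt hx'.1 hx.2

end agree

section exps

variable {S : Type u} [Group S]
variable {V : Type v} [LieRing V] [LieAlgebra ℝ V] [FiniteDimensional ℝ V]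

/-- A group `S` with a normal subgroup `E '' V`, the exponential image of a nilpotent Lie algebra. -/
structure ExpS (ρ : S →* Module.End ℝ V) (E : V → S) : Prop where
  zero : E 0 = 1
  neg : ∀ v, E (-v) = (E v)⁻¹
  inj : Function.Injective E
  conj : ∀ s v, s * E v * s⁻¹ = E (ρ s v)
  mul_ideal : ∀ (I : LieIdeal ℝ V) (v w : V), w ∈ I →
    ∃ z ∈ (⁅(⊤ : LieIdeal ℝ V), I⁆ : LieIdeal ℝ V), E v * E w = E (v + w + z)
  mul_sub : ∀ (h : LieSubalgebra ℝ V) (v w : V), v ∈ h → w ∈ h → ∃ z ∈ h, E v * E w = E z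
  comm : ∀ a b : S, ∃ v, ⁅a, b⁆ = E v
  lie : ∀ s, ∀ x y : V, ρ s ⁅x, y⁆ = ⁅ρ s x, ρ s y⁆
  ad : ∀ (v : V) (U U' : Submodule ℝ V), U' ≤ U → (∀ x ∈ U, ⁅v, x⁆ ∈ U') →
    ∀ x ∈ U, ρ (E v) x - x ∈ U'
  nil : LieModule.IsNilpotent V V

variable {ρ : S →* Module.End ℝ V} {E : V → S}

/-- the normal subgroup -/
def ExpS.N (H : ExpS ρ E) : Subgroup S where
  carrier := Set.range E
  one_mem' := ⟨0, H.zero⟩
  mul_mem' := by
    rintro _ _ ⟨a, rfl⟩ ⟨b, rfl⟩
    obtain ⟨z, _, hz⟩ := H.mul_sub ⊤ a b (LieSubalgebra.mem_top a) (LieSubalgebra.mem_top b)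
    exact ⟨z, hz.symm⟩
  inv_mem' := by
    rintro _ ⟨a, rfl⟩
    exact ⟨-a, H.neg a⟩

theorem ExpS.mem_N (H : ExpS ρ E) {s : S} : s ∈ H.N ↔ ∃ v, E v = s := Iff.rfl

theorem ExpS.normal (H : ExpS ρ E) : H.N.Normal := by
  constructor
  rintro _ ⟨v, rfl⟩ s
  exact ⟨ρ s v, (H.conj s v).symm⟩

theorem ExpS.lrep (H : ExpS ρ E) : LRep H.N ρ where
  comm a b := by
    obtain ⟨v, hv⟩ := H.comm a b
    exact ⟨v, hv.symm⟩
  lie := H.lie
  unip := by
    rintro _ ⟨v, rfl⟩ I x hx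
    refine H.ad v I.toSubmodule (⁅(⊤ : LieIdeal ℝ V), I⁆ : LieIdeal ℝ V).toSubmodule
      (LieSubmodule.lie_le_right _ _) (fun y hy => ?_) x hx
    exact LieSubmodule.lie_mem_lie (LieSubmodule.mem_top v) hy
  nil := H.nil

theorem ExpS.conj_inv (H : ExpS ρ E) (s : S) (v : V) : s⁻¹ * E v * s = E (ρ s⁻¹ v) := by
  have := H.conj s⁻¹ v
  rwa [inv_inv] at this

/-- ideals give subgroups -/
theorem ExpS.mul_mem_ideal (H : ExpS ρ E) (I : LieIdeal ℝ V) {v w : V} (hv : v ∈ I) (hw : w ∈ I) :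
    ∃ z ∈ I, E v * E w = E z := by
  obtain ⟨z, hz, he⟩ := H.mul_sub (LieIdeal.toLieSubalgebra ℝ V I) v w hv hw
  exact ⟨z, hz, he⟩

/-- the iterated commutators of an ideal with `V` -/
def dn (I : LieIdeal ℝ V) : ℕ → LieIdeal ℝ V
  | 0 => I
  | k + 1 => ⁅(⊤ : LieIdeal ℝ V), dn I k⁆

omit [FiniteDimensional ℝ V] in
theorem dn_succ (I : LieIdeal ℝ V) (k : ℕ) : dn I (k + 1) = ⁅(⊤ : LieIdeal ℝ V), dn I k⁆ := rfl

omit [FiniteDimensional ℝ V] in
theorem dn_le_lcs (I : LieIdeal ℝ V) (k : ℕ) : dn I k ≤ LieModule.lowerCentralSeries ℝ V V k := by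
  induction k with
  | zero => rw [LieModule.lowerCentralSeries_zero]; exact le_top
  | succ k ih =>
    rw [dn_succ, LieModule.lowerCentralSeries_succ]
    exact LieSubmodule.mono_lie_right _ ih

omit [FiniteDimensional ℝ V] in
theorem dn_succ_le (I : LieIdeal ℝ V) (k : ℕ) : dn I (k + 1) ≤ dn I k :=
  LieSubmodule.lie_le_right _ _

omit [FiniteDimensional ℝ V] in
theorem dn_le (I : LieIdeal ℝ V) (k : ℕ) : dn I k ≤ I := by
  induction k with
  | zero => exact le_rfl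
  | succ k ih => exact (dn_succ_le I k).trans ih

omit [FiniteDimensional ℝ V] in
theorem exists_dn_eq_bot (hnil : LieModule.IsNilpotent V V) : ∃ k, ∀ I : LieIdeal ℝ V,
    dn I k = ⊥ := by
  obtain ⟨k, hk⟩ := hnil.nilpotent ℝ
  exact ⟨k, fun I => by rw [eq_bot_iff, ← hk]; exact dn_le_lcs I k⟩

theorem ExpS.dn_inv (H : ExpS ρ E) {I : LieIdeal ℝ V} (hI : ∀ s, ∀ x ∈ I, ρ s x ∈ I) (k : ℕ) :
    ∀ s, ∀ x ∈ dn I k, ρ s x ∈ dn I k := by
  induction k with
  | zero => exact hI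
  | succ k ih =>
    intro s
    rw [dn_succ]
    exact lie_inv (H.lie s) (fun _ _ => LieSubmodule.mem_top _) (ih s)

/-- elements congruent modulo an ideal -/
theorem ExpS.exists_right (H : ExpS ρ E) (I : LieIdeal ℝ V) (v u : V) (hu : u - v ∈ I) :
    ∃ y ∈ I, E u = E v * E y := by
  obtain ⟨K, hK⟩ := exists_dn_eq_bot H.nil
  have key : ∀ (j k : ℕ), j + k = K → ∀ v u : V, u - v ∈ dn I k →
      ∃ y ∈ dn I k, E u = E v * E y := by
    intro j
    induction j with
    | zero =>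
      intro k hk v u hu
      have hkK : k = K := by omega
      subst hkK
      rw [hK I, LieSubmodule.mem_bot, sub_eq_zero] at hu
      exact ⟨0, zero_mem _, by rw [hu, H.zero, mul_one]⟩
    | succ j ih =>
      intro k hk v u hu
      obtain ⟨z, hz, he⟩ := H.mul_ideal (dn I k) v (u - v) hu
      have h1 : u - (v + (u - v) + z) ∈ dn I (k + 1) := by
        have e1 : u - (v + (u - v) + z) = -z := by abel
        rw [e1, dn_succ]
        exact neg_mem hz
      obtain ⟨y, hy, hey⟩ := ih (k + 1) (by omega) _ _ h1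
      rw [← he, mul_assoc] at hey
      obtain ⟨y', hy', hey'⟩ := H.mul_mem_ideal (dn I k) hu (dn_succ_le I k hy)
      exact ⟨y', hy', by rw [hey, hey']⟩
  exact key K 0 (by omega) v u hu

theorem ExpS.exists_left (H : ExpS ρ E) (I : LieIdeal ℝ V) (v u : V) (hu : u - v ∈ I) :
    ∃ y ∈ I, E u = E y * E v := by
  obtain ⟨y, hy, he⟩ := H.exists_right I (-v) (-u) (by
    have : -u - -v = -(u - v) := by abel
    rw [this]; exact neg_mem hu)
  refine ⟨-y, neg_mem hy, ?_⟩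
  have h1 := congrArg (fun g : S => g⁻¹) he
  simp only [mul_inv_rev] at h1
  rwa [← H.neg, ← H.neg, ← H.neg, neg_neg, neg_neg] at h1

end exps

end Vale.Agent.P188.H269

end

section

/-!
The Cartan group, part 2: the group `C = {s | s t s⁻¹ ∈ t E(h)}`, `h` the neutral part of `t`.
-/

namespace Vale.Agent.P188.H269

open Module
open scoped commutatorElement

universe u v

section cartan

variable {S : Type u} [Group S]
variable {V : Type v} [LieRing V] [LieAlgebra ℝ V] [FiniteDimensional ℝ V]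
variable {ρ : S →* Module.End ℝ V} {E : V → S}

/-- modulus spaces of an element -/
def W (ρ : S →* Module.End ℝ V) (t : S) (r : ℝ) : Submodule ℝ V := Wt (ρ t) (ρ t⁻¹) r

theorem W_map (ρ : S →* Module.End ℝ V) (t s : S) {r : ℝ} {x : V} (hx : x ∈ W ρ t r) :
    ρ s x ∈ W ρ (s * t * s⁻¹) r := by
  refine Wt_map (ρ s) ?_ ?_ hx
  · intro y
    rw [← Module.End.mul_apply, ← Module.End.mul_apply, ← map_mul, ← map_mul]
    congr 2; group
  · intro y
    rw [← Module.End.mul_apply, ← Module.End.mul_apply, ← map_mul, ← map_mul]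
    congr 2; group

theorem W_self (ρ : S →* Module.End ℝ V) (t : S) {r : ℝ} {x : V} (hx : x ∈ W ρ t r) :
    ρ t x ∈ W ρ t r := Wt_self (rho_inv_mul ρ t) hx

theorem W_inv (ρ : S →* Module.End ℝ V) (t : S) {r : ℝ} {x : V} (hx : x ∈ W ρ t r) :
    ρ t⁻¹ x ∈ W ρ t r := by
  have h1 := Wt_self (T := ρ t⁻¹) (T' := ρ t) (rho_mul_inv ρ t) (Wt_symm hx)
  have h2 := Wt_symm h1
  rwa [neg_neg] at h2

theorem ExpS.lie_W (H : ExpS ρ E) (t : S) {r s : ℝ} {x y : V} (hx : x ∈ W ρ t r)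
    (hy : y ∈ W ρ t s) : ⁅x, y⁆ ∈ W ρ t (r + s) :=
  lie_mem_Wt (H.lie t) (H.lie t⁻¹) hx hy

/-- the neutral subalgebra -/
def ExpS.h (H : ExpS ρ E) (t : S) : LieSubalgebra ℝ V :=
  { W ρ t 0 with
    lie_mem' := by
      intro x y hx hy
      have := H.lie_W t (r := 0) (s := 0) hx hy
      rwa [add_zero] at this }

/-- multiplication of `t` by a neutral element does not change the modulus spaces -/
theorem ExpS.W_mul_le (H : ExpS ρ E) (t : S) {v : V} (hv : v ∈ H.h t) (r : ℝ) :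
    W ρ t r ≤ W ρ (t * E v) r := by
  classical
  set s : S := t * E v with hs
  let U : ℕ → Submodule ℝ V := fun k =>
    W ρ t r ⊓ (LieModule.lowerCentralSeries ℝ V V k).toSubmodule
  have hlcs : ∀ (g : S) (k : ℕ), ∀ x ∈ LieModule.lowerCentralSeries ℝ V V k,
      ρ g x ∈ LieModule.lowerCentralSeries ℝ V V k := by
    intro g k
    induction k with
    | zero => intro x _; rw [LieModule.lowerCentralSeries_zero]; exact LieSubmodule.mem_top _
    | succ k ih =>
      rw [LieModule.lowerCentralSeries_succ]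
      exact lie_inv (H.lie g) (fun x _ => LieSubmodule.mem_top _) ih
  have hUt : ∀ k, ∀ x ∈ U k, ρ t x ∈ U k := fun k x hx => ⟨W_self ρ t hx.1, hlcs t k x hx.2⟩
  have hUt' : ∀ k, ∀ x ∈ U k, ρ t⁻¹ x ∈ U k := fun k x hx => ⟨W_inv ρ t hx.1, hlcs t⁻¹ k x hx.2⟩
  have hUle : ∀ k, U (k + 1) ≤ U k := fun k =>
    inf_le_inf_left _ (by
      intro x hx
      have hx' : x ∈ LieModule.lowerCentralSeries ℝ V V (k + 1) := hx
      rw [LieModule.lowerCentralSeries_succ] at hx'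
      exact LieSubmodule.lie_le_right _ _ hx')
  have hUad : ∀ w ∈ H.h t, ∀ k, ∀ x ∈ U k, ρ (E w) x - x ∈ U (k + 1) := by
    intro w hw k x hx
    refine H.ad w (U k) (U (k + 1)) (hUle k) ?_ x hx
    intro y hy
    refine ⟨?_, ?_⟩
    · have := H.lie_W t (r := 0) (s := r) hw hy.1
      rwa [zero_add] at this
    · change ⁅w, y⁆ ∈ LieModule.lowerCentralSeries ℝ V V (k + 1)
      rw [LieModule.lowerCentralSeries_succ]
      exact LieSubmodule.lie_mem_lie (LieSubmodule.mem_top w) hy.2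
  have hUE : ∀ w ∈ H.h t, ∀ k, ∀ x ∈ U k, ρ (E w) x ∈ U k := by
    intro w hw k x hx
    have h1 := (U k).add_mem (hUle k (hUad w hw k x hx)) hx
    rwa [sub_add_cancel] at h1
  have hv' : -v ∈ H.h t := neg_mem hv
  have hs1 : ∀ x, ρ s x = ρ t (ρ (E v) x) := fun x => by
    rw [hs, map_mul, Module.End.mul_apply]
  have hs2 : ∀ x, ρ s⁻¹ x = ρ (E (-v)) (ρ t⁻¹ x) := fun x => by
    rw [hs, mul_inv_rev, map_mul, Module.End.mul_apply, H.neg]
  have hUs : ∀ k, ∀ x ∈ U k, ρ s x ∈ U k := fun k x hx => by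
    rw [hs1]; exact hUt k _ (hUE v hv k x hx)
  have hUs' : ∀ k, ∀ x ∈ U k, ρ s⁻¹ x ∈ U k := fun k x hx => by
    rw [hs2]; exact hUE _ hv' k _ (hUt' k x hx)
  obtain ⟨K, hK⟩ := H.nil.nilpotent ℝ
  have key : ∀ j k, j + k = K → U k ≤ W ρ s r := by
    intro j
    induction j with
    | zero =>
      intro k hk x hx
      have hkK : k = K := by omega
      subst hkK
      have h1 : x ∈ LieModule.lowerCentralSeries ℝ V V k := hx.2
      rw [hK, LieSubmodule.mem_bot] at h1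
      rw [h1]; exact Submodule.zero_mem _
    | succ j ih =>
      intro k hk x hx
      have hIH := ih (k + 1) (by omega)
      obtain ⟨f, hf, hfU, hsum⟩ := exists_decomp1 (rho_inv_mul ρ s) (rho_mul_inv ρ s) (U k)
        (hUs k) (hUs' k) hx
      rw [← hsum]
      refine Submodule.sum_mem _ fun r' _ => ?_
      by_cases hr' : r' = r
      · subst hr'; exact hf r'
      · have h1 : f r' ∈ U (k + 1) := by
          refine mem_of_agree' (rho_inv_mul ρ t) (U k) (U (k + 1)) (hUt (k + 1)) (hUt' (k + 1))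
            (hUs k) (hUs' k) ?_ ?_ (r0 := r) ?_ hr' (hfU r') (hf r')
          · intro y hy
            rw [hs1, ← map_sub]
            exact hUt (k + 1) _ (hUad v hv k y hy)
          · intro y hy
            rw [hs2]
            exact hUad _ hv' k _ (hUt' k y hy)
          · intro y hy
            exact ⟨y, hy.1, by rw [sub_self]; exact Submodule.zero_mem _⟩
        have h2 := Wt_disjoint (rho_inv_mul ρ s) hr' (hf r') (hIH h1)
        rw [h2]; exact Submodule.zero_mem _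
  intro x hx
  exact key K 0 (by omega) ⟨hx, by
    change x ∈ LieModule.lowerCentralSeries ℝ V V 0
    rw [LieModule.lowerCentralSeries_zero]; exact LieSubmodule.mem_top _⟩

/-- comparison of two decompositions -/
theorem W_eq_of_le (ρ : S →* Module.End ℝ V) (t s : S) (h : ∀ r, W ρ t r ≤ W ρ s r) (r : ℝ) :
    W ρ s r = W ρ t r := by
  refine le_antisymm ?_ (h r)
  intro x hx
  refine Wt_inf_iSup (rho_inv_mul ρ s) (fun r => W ρ t r) h hx ?_
  have := iSup_Wt_eq_top (rho_inv_mul ρ t) (rho_mul_inv ρ t)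
  change x ∈ ⨆ r, Wt (ρ t) (ρ t⁻¹) r
  rw [this]; trivial

theorem ExpS.W_mul (H : ExpS ρ E) (t : S) {v : V} (hv : v ∈ H.h t) (r : ℝ) :
    W ρ (t * E v) r = W ρ t r := W_eq_of_le ρ t _ (H.W_mul_le t hv) r

/-- the defining property of the Cartan group implies invariance of the modulus spaces -/
theorem ExpS.W_inv_of (H : ExpS ρ E) (t : S) {s : S} {v : V} (hv : v ∈ H.h t)
    (hs : s * t * s⁻¹ = t * E v) (r : ℝ) : ∀ x ∈ W ρ t r, ρ s x ∈ W ρ t r := by
  intro x hx
  have h1 := W_map ρ t s hx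
  rwa [hs, H.W_mul t hv] at h1

theorem inv_of_inv (ρ : S →* Module.End ℝ V) (U : Submodule ℝ V) (s : S)
    (h : ∀ x ∈ U, ρ s x ∈ U) : ∀ x ∈ U, ρ s⁻¹ x ∈ U := by
  intro x hx
  have hinj : Function.Injective ((ρ s).restrict h) := by
    intro a b hab
    have h1 : ρ s a = ρ s b := congrArg Subtype.val hab
    have h2 := congrArg (fun y => ρ s⁻¹ y) h1
    simp only [← Module.End.mul_apply, rho_inv_mul, Module.End.one_apply] at h2
    exact Subtype.ext h2
  have hsurj := LinearMap.surjective_of_injective hinj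
  obtain ⟨y, hy⟩ := hsurj ⟨x, hx⟩
  have h1 : ρ s y = x := congrArg Subtype.val hy
  rw [← h1, ← Module.End.mul_apply, rho_inv_mul, Module.End.one_apply]
  exact y.2

/-- the Cartan group of `t` -/
def ExpS.C (H : ExpS ρ E) (t : S) : Subgroup S where
  carrier := {s | ∃ v ∈ H.h t, s * t * s⁻¹ = t * E v}
  one_mem' := ⟨0, zero_mem _, by rw [H.zero]; group⟩
  mul_mem' := by
    rintro a b ⟨v, hv, ha⟩ ⟨w, hw, hb⟩
    have hw' : ρ a w ∈ H.h t := H.W_inv_of t hv ha 0 w hw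
    obtain ⟨z, hz, hez⟩ := H.mul_sub (H.h t) v (ρ a w) hv hw'
    refine ⟨z, hz, ?_⟩
    have e1 : a * b * t * (a * b)⁻¹ = a * (b * t * b⁻¹) * a⁻¹ := by group
    rw [e1, hb, ← hez, ← H.conj a w]
    have e2 : a * (t * E w) * a⁻¹ = (a * t * a⁻¹) * (a * E w * a⁻¹) := by group
    rw [e2, ha]; group
  inv_mem' := by
    rintro a ⟨v, hv, ha⟩
    have hv' : ρ a⁻¹ v ∈ H.h t := inv_of_inv ρ (W ρ t 0) a (H.W_inv_of t hv ha 0) v hv
    refine ⟨-(ρ a⁻¹ v), neg_mem hv', ?_⟩
    rw [H.neg, ← H.conj_inv]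
    have e1 : a * t = t * E v * a := by rw [← ha]; group
    have e2 : a⁻¹ * t * E v = t * a⁻¹ := by
      have : a⁻¹ * (t * E v * a) = t := by rw [← e1]; group
      calc a⁻¹ * t * E v = (a⁻¹ * (t * E v * a)) * a⁻¹ := by group
        _ = t * a⁻¹ := by rw [this]
    rw [inv_inv, mul_inv_rev, mul_inv_rev, inv_inv]
    have e3 : a⁻¹ * t = t * a⁻¹ * (E v)⁻¹ := by rw [← e2]; group
    rw [e3]; group

theorem ExpS.t_mem_C (H : ExpS ρ E) (t : S) : t ∈ H.C t :=
  ⟨0, zero_mem _, by rw [H.zero]; group⟩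

/-- the Cartan group preserves the modulus spaces -/
theorem ExpS.C_inv (H : ExpS ρ E) {t s : S} (hs : s ∈ H.C t) (r : ℝ) :
    ∀ x ∈ W ρ t r, ρ s x ∈ W ρ t r := by
  obtain ⟨v, hv, h⟩ := hs
  exact H.W_inv_of t hv h r

theorem ExpS.E_mem_C (H : ExpS ρ E) {t : S} {v : V} (hv : v ∈ H.h t) : E v ∈ H.C t := by
  have h1 : ρ t⁻¹ v ∈ H.h t := W_inv ρ t hv
  obtain ⟨z, hz, hez⟩ := H.mul_sub (H.h t) (ρ t⁻¹ v) (-v) h1 (neg_mem hv)
  refine ⟨z, hz, ?_⟩
  rw [← hez, ← H.conj_inv, H.neg]; group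

end cartan

end Vale.Agent.P188.H269

end
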