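import Vale.Agent.P188.R.G035

section

/-!
# LIN in the model, 1: the measure estimate with arbitrary sets of displacements

882's `rel_meas`, with the balls `{l ≤ r}` replaced by sets `W0 ⊆ W2 ⊆ W3` of displacements.
-/

open MeasureTheory Set Finset
open scoped ENNReal BigOperators

namespace Vale.Agent.P188.Z1

open _root_.P188.H882

section A

variable {S : Type*} [Group S] [MeasurableSpace S] {μ : Measure S} {ι : Type*} [Fintype ι]

/-- **Measure form of LIN**: for every `u ∈ W0`, most `x` satisfy `Rel x (x u)`. -/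
theorem rel_meas' [DecidableEq ι] {l : S → ℝ}
    {f : S → ℝ} {L L1 : ℝ} (hL : 0 ≤ L) (hL1 : 0 ≤ L1)
    (hf : ∀ x s, |f (x * s) - f x| ≤ L * (l s + 1)) {t : ι → S} {h : ι → S → ℝ}
    (hh : ∀ i x y, h i (x * y) = h i x + h i y) (ht : ∀ i j, h j (t i) = if i = j then 1 else 0)
    (hmp : ∀ w : S, MeasurePreserving (fun x : S => x * w) μ μ)
    {ρ ρ2 c : ℕ} (hρ : 2 ≤ ρ) {e0 τ τ2 τ3 : ℝ} (he0 : 0 ≤ e0) (hτ : 0 ≤ τ) (hτ2 : 0 ≤ τ2)
    (hτ3 : 0 ≤ τ3)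
    {Nt D Gd : Set S} (hDf : μ D ≠ ∞) (hGD : Gd ⊆ D)
    (hGd : ∀ x ∈ Gd, ∀ i, Aff f (t i) ρ e0 x) (hdq : ∀ x i, |dq f (t i) ρ x| ≤ L1)
    {ε0 δ θ : ℝ} (hε0 : 0 ≤ ε0) (hδ : 0 ≤ δ) (hθ : 0 ≤ θ)
    (hGm : μ.real (D \ Gd) ≤ ε0) {W0 W2 W3 : Set S} (h23 : W2 ⊆ W3) (h02 : W0 ⊆ W2)
    (hFol : ∀ w ∈ W3, μ.real {x ∈ D | x * w ∉ D} ≤ δ)
    (dec1 : ∀ i, ∀ u ∈ W2, ∃ us : List S, us.length ≤ c ∧ us.prod = u ∧
      (∀ v ∈ us, Mrg l Nt (t i) ρ τ v) ∧ ∀ ws, ws <+: us → ws.prod ∈ W3 ∧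
        ∀ m : ℤ, |m| ≤ (ρ : ℤ) → ∀ a, l a ≤ τ → ws.prod * t i ^ m * a ∈ W3)
    (dec2 : ∀ u ∈ W0, ∃ us : List S, us.length ≤ c ∧ us.prod = u ∧
      (∀ v ∈ us, Typed l t h ρ ρ2 τ2 Nt v) ∧ ∀ ws, ws <+: us → ws.prod ∈ W2)
    (hNt : ∀ v ∈ Nt, μ.real {x ∈ D | ¬ |f (x * v) - f x| ≤ τ3} ≤ θ)
    {ω : ℝ} (hω : ω = c * (3 * (4 * e0 + 2 * L * (τ + 1) + 2 * τ3) / ρ))
    (u : S) (hu : u ∈ W0) :
    μ.real {x ∈ D | ¬ Rel f t h ρ (c * (2 * e0 + 2 * ρ2 * ω + L * (τ2 + 1) + τ3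
        + Fintype.card ι * (τ2 * L1))) ω x (x * u)} ≤
      8 * (c + 1) ^ 2 * (Fintype.card ι + 1) * (ε0 + δ + θ) := by
  have hρ0 : (0:ℝ) < ρ := by positivity
  have hω0 : 0 ≤ ω := by rw [hω]; positivity
  set η : ℝ := δ + ε0 with hη
  have hη0 : 0 ≤ η := by positivity
  set ηN : ℝ := δ + θ with hηN
  have hηN0 : 0 ≤ ηN := by positivity
  set k : ℝ := (Fintype.card ι : ℝ) with hk
  have hk0 : 0 ≤ k := by positivity
  set η1 : ℝ := k * (c * (2 * η + 2 * ηN)) with hη1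
  have hη10 : 0 ≤ η1 := by positivity
  -- translates of the good set
  have hW : ∀ w ∈ W3, μ.real {x ∈ D | x * w ∉ Gd} ≤ η := fun w hw =>
    shift_meas' hDf hGD (hmp w) hGm (hFol w hw)
  -- neutral
  have hWN : ∀ w ∈ W3, ∀ v ∈ Nt, μ.real {x ∈ D | ¬ NFlat f τ3 x w v} ≤ ηN := by
    intro w hw v hv
    have h1 := shift_meas' (A := {x ∈ D | |f (x * v) - f x| ≤ τ3}) hDf (Set.sep_subset _ _) (hmp w)
      (a := θ) (δ := δ) (by
        refine le_trans (le_of_eq ?_) (hNt v hv)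
        congr 1
        ext x
        simp only [Set.mem_sdiff, Set.mem_ofPred_eq, not_and]
        exact ⟨fun h => ⟨h.1, h.2 h.1⟩, fun h => ⟨h.1, fun _ => h.2⟩⟩) (hFol w hw)
    refine (measureReal_mono ?_ (ne_top_of_le_ne_top hDf (measure_mono (Set.sep_subset _ _)))).trans h1
    rintro x ⟨hx, hxb⟩
    exact ⟨hx, fun hc => hxb hc.2⟩
  -- slopes
  have hW1 : ∀ w ∈ W2,
      μ.real {x ∈ D | ¬ ∀ i, |dq f (t i) ρ (x * w) - dq f (t i) ρ x| ≤ ω} ≤ η1 := by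
    intro w hw
    have h1 : ∀ i, μ.real {x ∈ D | ¬ |dq f (t i) ρ (x * w) - dq f (t i) ρ x| ≤ ω}
        ≤ c * (2 * η + 2 * ηN) := by
      intro i
      obtain ⟨us, hlen, hprod, hus, hpre⟩ := dec1 i w hw
      have hlenR : (us.length : ℝ) ≤ c := by exact_mod_cast hlen
      have h2 := slope_chain_meas (W := W3) hL hf hρ hDf (fun x hx => hGd x hx i)
        (fun w hw => hW w hw) (fun w hw => hWN w hw) us hus 1 (by
        intro ws hws
        rw [one_mul]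
        exact hpre ws hws)
      have hsub : {x ∈ D | ¬ |dq f (t i) ρ (x * w) - dq f (t i) ρ x| ≤ ω} ⊆
          {x ∈ D | ¬ |dq f (t i) ρ (x * 1 * us.prod) - dq f (t i) ρ (x * 1)|
            ≤ us.length * (3 * (4 * e0 + 2 * L * (τ + 1) + 2 * τ3) / ρ)} := by
        rintro x ⟨hx, hxb⟩
        refine ⟨hx, fun hch => hxb ?_⟩
        rw [mul_one, hprod] at hch
        refine hch.trans ?_
        rw [hω]
        exact mul_le_mul_of_nonneg_right hlenR (by positivity)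
      refine (measureReal_mono hsub (ne_top_of_le_ne_top hDf (measure_mono (Set.sep_subset _ _)))).trans
        (h2.trans ?_)
      exact mul_le_mul_of_nonneg_right hlenR (by positivity)
    have hsub : {x ∈ D | ¬ ∀ i, |dq f (t i) ρ (x * w) - dq f (t i) ρ x| ≤ ω} ⊆
        ⋃ i ∈ (Finset.univ : Finset ι), {x ∈ D | ¬ |dq f (t i) ρ (x * w) - dq f (t i) ρ x| ≤ ω} := by
      rintro x ⟨hx, hxb⟩
      push Not at hxb
      obtain ⟨i, hi⟩ := hxb
      simp only [Finset.mem_univ, Set.iUnion_true, Set.mem_iUnion]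
      exact ⟨i, hx, not_le.mpr hi⟩
    refine (measureReal_mono hsub (ne_top_of_le_ne_top hDf (measure_mono ?_))).trans ?_
    · intro x hx
      simp only [Finset.mem_univ, Set.iUnion_true, Set.mem_iUnion] at hx
      obtain ⟨i, hi⟩ := hx
      exact hi.1
    · refine (measureReal_biUnion_finset_le _ _).trans ?_
      refine (Finset.sum_le_sum fun i _ => h1 i).trans ?_
      rw [Finset.sum_const, nsmul_eq_mul, Finset.card_univ, hη1, hk]
  obtain ⟨us, hlen, hprod, hus, hpre⟩ := dec2 u hu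
  have hlenR : (us.length : ℝ) ≤ c := by exact_mod_cast hlen
  have h2 := step_chain_meas (μ := μ) (W := W2) (ρ := ρ) (ρ2 := ρ2) (η := η) (η1 := η1)
    (ηN := ηN) hL hL1 hf hh ht he0 hω0 hτ2 hτ3 hDf hGd hdq (by positivity)
    (fun w hw => hW w (h23 hw)) (fun w hw => hW1 w hw)
    (fun w hw => hWN w (h23 hw)) us 1 (by
        intro ws hws
        rw [one_mul]
        exact hpre ws hws) hus
  have h3 := hW1 u (h02 hu)
  set es := 2 * e0 + 2 * ρ2 * ω + L * (τ2 + 1) + τ3 + Fintype.card ι * (τ2 * L1) with hes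
  have hes0 : 0 ≤ es := by positivity
  have hsub : {x ∈ D | ¬ Rel f t h ρ (c * es) ω x (x * u)} ⊆
      {x ∈ D | ¬ |f (x * 1 * us.prod) - f (x * 1) - ∑ i, h i us.prod * dq f (t i) ρ x|
        ≤ us.length * es} ∪
      {x ∈ D | ¬ ∀ i, |dq f (t i) ρ (x * u) - dq f (t i) ρ x| ≤ ω} := by
    rintro x ⟨hx, hxb⟩
    by_contra hcon
    simp only [Set.mem_union, Set.mem_ofPred_eq, not_or, not_and, not_not] at hcon
    obtain ⟨c1, c2⟩ := hcon
    apply hxb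
    refine ⟨?_, c2 hx⟩
    have c1' := c1 hx
    rw [mul_one, hprod] at c1'
    have e1 : x⁻¹ * (x * u) = u := by group
    rw [e1]
    exact c1'.trans (mul_le_mul_of_nonneg_right hlenR hes0)
  refine (measureReal_mono hsub (ne_top_of_le_ne_top hDf (measure_mono ?_))).trans ?_
  · rintro x (h | h) <;> exact h.1
  · refine (measureReal_union_le _ _).trans ((add_le_add h2 h3).trans ?_)
    have h4 : (us.length : ℝ) * (2 * η + 2 * η1 + ηN) ≤ c * (2 * η + 2 * η1 + ηN) :=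
      mul_le_mul_of_nonneg_right hlenR (by positivity)
    have hc0 : (0:ℝ) ≤ c := by positivity
    set X := ε0 + δ + θ with hX
    have hX0 : 0 ≤ X := by positivity
    have hηX : η ≤ X := by rw [hη, hX]; linarith
    have hNX : ηN ≤ X := by rw [hηN, hX]; linarith
    have h1X : η1 ≤ k * (c * (4 * X)) := by
      rw [hη1]
      have : 2 * η + 2 * ηN ≤ 4 * X := by linarith
      gcongr
    calc _ ≤ c * (2 * η + 2 * η1 + ηN) + η1 := by linarith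
      _ ≤ c * (2 * X + 2 * (k * (c * (4 * X))) + X) + k * (c * (4 * X)) := by gcongr
      _ = (3 * c + (8 * c * c + 4 * c) * k) * X := by ring
      _ ≤ (8 * (c + 1) ^ 2 * (k + 1)) * X := by
          refine mul_le_mul_of_nonneg_right ?_ hX0
          nlinarith [mul_nonneg hc0 hk0, mul_nonneg (mul_nonneg hc0 hc0) hk0]
      _ = _ := by ring

end A

/-! ### coarse differentiation with prescribed scales -/

section Lin0

/-- **Coarse differentiation with a common scale**, the scale being chosen in a prescribed set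
of at least half of the indices. -/
theorem lin0'.{u} (p : ℕ) {L ε : ℝ} (hL0 : 0 < L) (hε : 0 < ε) :
    ∃ q J : ℕ, 0 < q ∧ 0 < J ∧ ∃ δ : ℝ, 0 < δ ∧ ∀ (n0 : ℕ), 0 < n0 →
    ∀ 𝒥 : Finset ℕ, 𝒥 ⊆ range J → J ≤ 2 * 𝒥.card →
    ∀ (A : Type) [Fintype A], Fintype.card A ≤ p →
    ∀ (S : A → Type u) [∀ a, Group (S a)] [∀ a, MeasurableSpace (S a)]
      (μ : ∀ a, Measure (S a)) (f : ∀ a, S a → ℝ) (t : ∀ a, S a) (D : ∀ a, Set (S a)),
      (∀ a (m : ℤ), MeasurePreserving (fun x => x * t a ^ m) (μ a) (μ a)) →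
      (∀ a, Measurable (f a)) → (∀ a x, |f a (x * t a) - f a x| ≤ L) →
      (∀ a, MeasurableSet (D a)) → (∀ a, μ a (D a) ≠ ∞) →
      (∀ a (m : ℤ), |m| ≤ ((2 * q) ^ J * n0 : ℕ) →
        (μ a).real {x ∈ D a | x * t a ^ m ∉ D a} ≤ δ * (μ a).real (D a)) →
      ∃ j ∈ 𝒥, ∀ a, (μ a).real {x ∈ D a | ∃ m : ℤ, |m| ≤ (q * ((2 * q) ^ j * n0) : ℕ) ∧
          ε * (q * ((2 * q) ^ j * n0) : ℕ) <
            |f a (x * t a ^ m) - f a x - m * dq (f a) (t a) (q * ((2 * q) ^ j * n0)) x|}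
        ≤ ε * (μ a).real (D a) := by
  classical
  obtain ⟨q, hq⟩ := exists_nat_gt (4 * L / ε)
  have hq0 : 0 < q := by
    have : (0:ℝ) < q := lt_trans (by positivity) hq
    exact_mod_cast this
  have hqR : (0:ℝ) < q := by exact_mod_cast hq0
  have hqL : 4 * L ≤ ε * q := by rw [div_lt_iff₀ hε] at hq; linarith
  set ω : ℝ := ε / 4 with hω
  set c : ℝ := ω ^ 2 / (2 * q : ℕ) with hc
  have hc0 : 0 < c := by rw [hc, hω]; positivity
  obtain ⟨J, hJ⟩ := exists_nat_gt (4 * p * L ^ 2 / (c * ε))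
  have hJ0 : 0 < J := by
    have : (0:ℝ) < J := lt_of_le_of_lt (by positivity) hJ
    exact_mod_cast this
  have hJR : (0:ℝ) < J := by exact_mod_cast hJ0
  have hJ' : 4 * p * L ^ 2 ≤ J * (c * ε) := by
    rw [div_lt_iff₀ (by positivity)] at hJ; exact hJ.le
  set δ : ℝ := c * ε / (8 * L ^ 2 * (p + 1)) with hδ
  have hδ0 : 0 < δ := by rw [hδ]; positivity
  refine ⟨q, J, hq0, hJ0, δ, hδ0, ?_⟩
  intro n0 hn0 𝒥 h𝒥 h𝒥c A _ hA S _ _ μ f t D hmp hf hL hD hDf hinv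
  set nn : ℕ → ℕ := fun j => (2 * q) ^ j * n0 with hnn
  have hnn0 : ∀ j, 0 < nn j := fun j => by positivity
  have hnns : ∀ j, 2 * q * nn j = nn (j + 1) := fun j => by simp only [hnn]; ring
  set Bad : ∀ (a : A) (_ : ℕ), Set (S a) := fun a j => {x ∈ D a | ∃ m : ℤ, |m| ≤ (q * nn j : ℕ) ∧
          ε * (q * nn j : ℕ) < |f a (x * t a ^ m) - f a x - m * dq (f a) (t a) (q * nn j) x|}
    with hBad
  set E : A → ℕ → ℝ := fun a j => ∫ x in D a, (dq (f a) (t a) (nn j) x) ^ 2 ∂(μ a) with hE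
  -- one scale
  have key : ∀ a, ∀ j < J, c * (μ a).real (Bad a j) ≤
      E a j - E a (j + 1) + 2 * L ^ 2 * δ * (μ a).real (D a) := by
    intro a j hj
    have h1 := int_vr_le (hD a) (hDf a) (hmp a) (hf a) (δ := δ) (hL a) (hnn0 j) hq0 (by
      intro m hm
      refine hinv a m (hm.trans ?_)
      rw [hnns j]
      have : nn (j+1) ≤ (2 * q) ^ J * n0 :=
        Nat.mul_le_mul_right _ (Nat.pow_le_pow_right (by omega) hj)
      exact_mod_cast this)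
    rw [hnns j] at h1
    refine le_trans ?_ h1
    have hmeas : Measurable (fun x => vr (f a) (t a) (nn j) (2 * q)
        (x * t a ^ (-((q * nn j : ℕ) : ℤ)))) :=
      (measurable_vr (hf a) fun m => (hmp a m).measurable).comp (hmp a _).measurable
    have h2 := markov_real (hD a) (hDf a) hmeas
      (fun x => vr_nonneg (f a) (t a) (hnn0 j) (by omega) _)
      (fun x => vr_le (hL a) (hnn0 j) (by omega) _) hc0
    rw [le_div_iff₀ hc0, mul_comm] at h2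
    refine le_trans (mul_le_mul_of_nonneg_left ?_ hc0.le) h2
    refine measureReal_mono ?_ (ne_top_of_le_ne_top (hDf a) (measure_mono (Set.sep_subset _ _)))
    rintro x ⟨hx, m, hm, hlt⟩
    refine ⟨hx, ?_⟩
    by_contra hcon
    have h3 := affine_of_vr hL0.le (hL a) (hnn0 j) hq0 (by positivity : 0 ≤ ω) x
      (not_lt.mp hcon) m hm
    have h4 : 2 * ((q * nn j : ℕ) : ℝ) * ω + 2 * (nn j : ℝ) * L ≤ ε * (q * nn j : ℕ) := by
      push_cast
      have hnr : (0:ℝ) < nn j := by exact_mod_cast hnn0 j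
      rw [hω]
      nlinarith
    linarith
  -- normalised quantities
  set d : A → ℝ := fun a => (μ a).real (D a) with hd
  have hd0 : ∀ a, 0 ≤ d a := fun a => measureReal_nonneg
  have hBd : ∀ a j, (μ a).real (Bad a j) ≤ d a := fun a j =>
    measureReal_mono (Set.sep_subset _ _) (hDf a)
  have hEbd : ∀ a j, 0 ≤ E a j ∧ E a j ≤ L ^ 2 * d a := by
    intro a j
    constructor
    · exact integral_nonneg fun x => sq_nonneg _
    · have h1 : ∀ x, (dq (f a) (t a) (nn j) x) ^ 2 ≤ L ^ 2 := fun x => by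
        rw [← sq_abs]
        exact pow_le_pow_left₀ (abs_nonneg _) (abs_dq_le (hL a) (hnn0 j) _) 2
      have hm : Measurable (dq (f a) (t a) (nn j)) := measurable_dq (hf a) (by
        simpa using (hmp a (nn j)).measurable)
      calc E a j ≤ ∫ x in D a, L ^ 2 ∂(μ a) := by
            refine setIntegral_mono ?_ ?_ h1
            · exact Measure.integrableOn_of_bounded (M := L ^ 2) (hDf a)
                (hm.pow_const 2).aestronglyMeasurable (Filter.Eventually.of_forall fun x => by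
                  rw [Real.norm_eq_abs, abs_of_nonneg (sq_nonneg _)]; exact h1 x)
            · exact (integrableOn_const_iff).mpr (Or.inr (hDf a).lt_top)
        _ = _ := by rw [setIntegral_const, smul_eq_mul, mul_comm]
  -- pigeonhole
  have hsum0 : ∑ j ∈ range J, ∑ a, c * ((μ a).real (Bad a j) / d a) ≤ J / 2 * (c * ε) := by
    have h1 : ∀ a, ∑ j ∈ range J, c * ((μ a).real (Bad a j) / d a) ≤
        L ^ 2 + J * (2 * L ^ 2 * δ) := by
      intro a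
      rcases (hd0 a).eq_or_lt with h0 | h0
      · rw [← h0]
        simp only [div_zero, mul_zero, Finset.sum_const_zero]
        positivity
      · have h2 : ∀ j ∈ range J, c * ((μ a).real (Bad a j) / d a) ≤
            (E a j / d a - E a (j + 1) / d a) + 2 * L ^ 2 * δ := by
          intro j hj
          have := key a j (Finset.mem_range.mp hj)
          rw [← sub_div, ← mul_div_assoc, div_le_iff₀ h0, add_mul, div_mul_cancel₀ _ h0.ne']
          exact this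
        refine (Finset.sum_le_sum h2).trans ?_
        rw [Finset.sum_add_distrib, Finset.sum_range_sub', Finset.sum_const, Finset.card_range,
          nsmul_eq_mul]
        have h3 : E a 0 / d a ≤ L ^ 2 := by rw [div_le_iff₀ h0]; exact (hEbd a 0).2
        have h4 : 0 ≤ E a J / d a := div_nonneg (hEbd a J).1 h0.le
        linarith
    rw [Finset.sum_comm]
    refine (Finset.sum_le_sum fun a _ => h1 a).trans ?_
    rw [Finset.sum_const, nsmul_eq_mul, Finset.card_univ]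
    have hAp : (Fintype.card A : ℝ) ≤ p := by exact_mod_cast hA
    have h5 : (Fintype.card A : ℝ) * (L ^ 2 + J * (2 * L ^ 2 * δ)) ≤
        p * (L ^ 2 + J * (2 * L ^ 2 * δ)) :=
      mul_le_mul_of_nonneg_right hAp (by positivity)
    refine h5.trans ?_
    have h6 : 2 * L ^ 2 * δ * p ≤ c * ε / 4 := by
      have hp : (p:ℝ) / (p + 1) ≤ 1 := by rw [div_le_one (by positivity)]; linarith
      have : 2 * L ^ 2 * δ * p = c * ε / 4 * ((p:ℝ) / (p + 1)) := by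
        rw [hδ]; field_simp; ring
      rw [this]
      have : 0 ≤ c * ε / 4 := by positivity
      nlinarith
    have h7 : (p:ℝ) * (L ^ 2 + J * (2 * L ^ 2 * δ)) = p * L ^ 2 + J * (2 * L ^ 2 * δ * p) := by ring
    rw [h7]
    have h8 : J * (2 * L ^ 2 * δ * p) ≤ J * (c * ε / 4) := mul_le_mul_of_nonneg_left h6 hJR.le
    nlinarith
  have hsum : ∑ j ∈ 𝒥, ∑ a, c * ((μ a).real (Bad a j) / d a) ≤ ∑ j ∈ 𝒥, c * ε := by
    refine (Finset.sum_le_sum_of_subset_of_nonneg h𝒥 fun j _ _ =>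
      Finset.sum_nonneg fun a _ => mul_nonneg hc0.le (div_nonneg measureReal_nonneg (hd0 a))).trans
      (hsum0.trans ?_)
    rw [Finset.sum_const, nsmul_eq_mul]
    refine mul_le_mul_of_nonneg_right ?_ (by positivity)
    have : (J : ℝ) ≤ 2 * 𝒥.card := by exact_mod_cast h𝒥c
    linarith
  have hne : 𝒥.Nonempty := by
    rw [← Finset.card_pos]; omega
  obtain ⟨j, hj, hjle⟩ := Finset.exists_le_of_sum_le hne hsum
  refine ⟨j, hj, fun a => ?_⟩
  have h9 : c * ((μ a).real (Bad a j) / d a) ≤ c * ε := by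
    refine le_trans ?_ hjle
    exact Finset.single_le_sum (f := fun a => c * ((μ a).real (Bad a j) / d a))
      (fun a _ => mul_nonneg hc0.le (div_nonneg measureReal_nonneg (hd0 a))) (Finset.mem_univ a)
  have h10 : (μ a).real (Bad a j) / d a ≤ ε := le_of_mul_le_mul_left h9 hc0
  rcases (hd0 a).eq_or_lt with h0 | h0
  · have := hBd a j
    rw [← h0] at this
    change (μ a).real (Bad a j) ≤ ε * d a
    rw [← h0]; simpa using this
  · rw [div_le_iff₀ h0] at h10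
    exact h10

end Lin0

end Vale.Agent.P188.Z1

end

section

/-!
# LIN in the model, 2: from the measure estimate to the pointwise form at a common scale
-/

open MeasureTheory Set Finset
open scoped ENNReal BigOperators

namespace Vale.Agent.P188.Z1

open _root_.P188.H882

universe u

variable {S : Type u} [Group S] [MeasurableSpace S] {μ : Measure S} {ι : Type} [Fintype ι]

/-- basic data for coarse differentiation -/
structure Base (μ : Measure S) (l : S → ℝ) (t : ι → S) (h : ι → S → ℝ) (C : ℝ) [DecidableEq ι] :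
    Prop where
  one_le_C : 1 ≤ C
  h_mul : ∀ i x y, h i (x * y) = h i x + h i y
  h_t : ∀ i j, h j (t i) = if i = j then 1 else 0
  h_meas : ∀ i, Measurable (h i)
  l_t : ∀ i, l (t i) ≤ C
  mp : ∀ w : S, MeasurePreserving (fun x : S => x * w) μ μ

/-- displacement sets at the scale `ρ` -/
structure Sc (μ : Measure S) (l : S → ℝ) (t : ι → S) (h : ι → S → ℝ) (C ε1 d : ℝ) (c ρ : ℕ)
    (Nt W0 W2 W3 Q : Set S) : Prop where
  h23 : W2 ⊆ W3
  h02 : W0 ⊆ W2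
  dec1 : ∀ i, ∀ u ∈ W2, ∃ us : List S, us.length ≤ c ∧ us.prod = u ∧
      (∀ v ∈ us, Mrg l Nt (t i) ρ (ε1 * ρ) v) ∧ ∀ ws, ws <+: us → ws.prod ∈ W3 ∧
        ∀ m : ℤ, |m| ≤ (ρ : ℤ) → ∀ a, l a ≤ ε1 * ρ → ws.prod * t i ^ m * a ∈ W3
  dec2 : ∀ u ∈ W0, ∃ us : List S, us.length ≤ c ∧ us.prod = u ∧
      (∀ v ∈ us, Typed l t h ρ ⌈C * (C * d * ρ)⌉₊ C Nt v) ∧ ∀ ws, ws <+: us → ws.prod ∈ W2
  Qm : MeasurableSet Q
  Q0 : μ Q ≠ 0
  Qf : μ Q ≠ ∞
  Qinv : ∀ q ∈ Q, q⁻¹ ∈ W0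
  Qh : ∀ q ∈ Q, ∀ i, |h i q| ≤ 2 * C ^ 2 * (d * ρ)

omit [Fintype ι] in
lemma Base.dqb [DecidableEq ι] {l : S → ℝ} {t : ι → S} {h : ι → S → ℝ} {C : ℝ}
    (B : Base μ l t h C) {L : ℝ} (hL : 0 ≤ L) {f : S → ℝ}
    (hf : ∀ x s, |f (x * s) - f x| ≤ L * (l s + 1)) {ρ : ℕ} (hρ : 0 < ρ) (x : S) (i : ι) :
    |dq f (t i) ρ x| ≤ L * (C + 1) := by
  refine abs_dq_le (L := L * (C + 1)) (fun y => ?_) hρ x
  refine (hf y (t i)).trans ?_
  have := B.l_t i
  exact mul_le_mul_of_nonneg_left (by linarith) hL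

/-- step 1: the measure estimate -/
lemma core1 [DecidableEq ι] {l : S → ℝ} {t : ι → S} {h : ι → S → ℝ} {C : ℝ}
    (B : Base μ l t h C) {L ε ε0 ε1 d ω : ℝ} {c : ℕ}
    (hL : 0 < L) {ρ : ℕ} (hρ : 2 ≤ ρ) (hε00 : 0 < ε0) (hε10 : 0 < ε1)
    (he3 : (32 * ((c : ℝ) + 1) ^ 2 * (Fintype.card ι + 1) * (Fintype.card ι + 2)) * ε0 ≤ ε)
    {Nt W0 W2 W3 Q : Set S} (hS : Sc μ l t h C ε1 d c ρ Nt W0 W2 W3 Q)
    (hω : ω = c * (3 * (4 * (ε0 * ρ) + 2 * L * (ε1 * ρ + 1) + 2 * (ε0 * ρ)) / ρ))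
    {f : S → ℝ} (hf : ∀ x s, |f (x * s) - f x| ≤ L * (l s + 1)) {D Gd : Set S}
    (hDf : μ D ≠ ∞)
    (hFol : ∀ w ∈ W3, μ.real {x ∈ D | x * w ∉ D} ≤ ε0 * μ.real D)
    (hNF : ∀ v ∈ Nt, μ.real {x ∈ D | ¬ |f (x * v) - f x| ≤ ε0 * ρ} ≤ ε0 * μ.real D)
    (hGD : Gd ⊆ D) (hGdA : ∀ x ∈ Gd, ∀ i, Aff f (t i) ρ (ε0 * ρ) x)
    (hGm : μ.real (D \ Gd) ≤ Fintype.card ι * (ε0 * μ.real D))
    (u : S) (hu : u ∈ W0) :
    μ.real {x ∈ D | ¬ Rel f t h ρ (c * (2 * (ε0 * ρ) + 2 * (⌈C * (C * d * ρ)⌉₊ : ℝ) * ω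
      + L * (C + 1) + ε0 * ρ + Fintype.card ι * (C * (L * (C + 1))))) ω x (x * u)} ≤
      (ε / 4) * μ.real D := by
  have hC := B.one_le_C
  have hC0 : 0 < C := by linarith
  have hρR : (0:ℝ) < ρ := by positivity
  have hD0 : 0 ≤ μ.real D := measureReal_nonneg
  have h1 := rel_meas' (S := S) (μ := μ) (D := D) (Gd := Gd) (Nt := Nt) (c := c)
      (W0 := W0) (W2 := W2) (W3 := W3)
      (ρ2 := ⌈C * (C * d * ρ)⌉₊) (τ := ε1 * ρ) (τ2 := C) (τ3 := ε0 * ρ)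
      (ε0 := Fintype.card ι * (ε0 * μ.real D)) (δ := ε0 * μ.real D) (θ := ε0 * μ.real D)
      hL.le (by positivity) hf B.h_mul B.h_t B.mp hρ
      (by positivity) (by positivity) hC0.le (by positivity) hDf
      hGD hGdA (B.dqb hL.le hf (by omega)) (by positivity)
      (by positivity) (by positivity) hGm hS.h23 hS.h02 hFol hS.dec1 hS.dec2 hNF hω u hu
  refine h1.trans ?_
  have e1 : 8 * ((c:ℝ) + 1) ^ 2 * (Fintype.card ι + 1) * (Fintype.card ι * (ε0 * μ.real D)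
      + ε0 * μ.real D + ε0 * μ.real D)
      = ((32 * ((c:ℝ) + 1) ^ 2 * (Fintype.card ι + 1) * (Fintype.card ι + 2)) * ε0) / 4 * μ.real D := by
    ring
  rw [e1]
  refine mul_le_mul_of_nonneg_right ?_ hD0
  linarith

variable [MeasurableMul₂ S] [MeasurableInv S]

/-- **one scale** -/
theorem one_scale' (ι : Type) [Fintype ι] [DecidableEq ι] (c : ℕ) {C L ε : ℝ} (hC : 1 ≤ C)
    (hL : 0 < L) (hε : 0 < ε) :
    ∃ ε1 : ℝ, 0 < ε1 ∧ ε1 ≤ 1 ∧ ∀ d : ℝ, 0 < d → d ≤ 1 → ∃ ε0 : ℝ, 0 < ε0 ∧ ∃ ρ0 : ℕ, ∀ ρ ≥ ρ0,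
      ∀ (S : Type u) [Group S] [MeasurableSpace S] [MeasurableMul₂ S] [MeasurableInv S]
        (μ : Measure S) [SFinite μ] (l : S → ℝ) (t : ι → S) (h : ι → S → ℝ),
      Base μ l t h C → ∀ Nt W0 W2 W3 Q : Set S, Sc μ l t h C ε1 d c ρ Nt W0 W2 W3 Q →
      ∀ f : S → ℝ, Measurable f → (∀ x s, |f (x * s) - f x| ≤ L * (l s + 1)) →
      ∀ D : Set S, MeasurableSet D → μ D ≠ ∞ →
      (∀ w ∈ W3, μ.real {x ∈ D | x * w ∉ D} ≤ ε0 * μ.real D) →
      (∀ v ∈ Nt, μ.real {x ∈ D | ¬ |f (x * v) - f x| ≤ ε0 * ρ} ≤ ε0 * μ.real D) →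
      (∀ i, μ.real {x ∈ D | ¬ Aff f (t i) ρ (ε0 * ρ) x} ≤ ε0 * μ.real D) →
      ∃ D0 ⊆ D, MeasurableSet D0 ∧ μ.real (D \ D0) ≤ ε * μ.real D ∧
        ∀ x ∈ D0, ∀ x' ∈ D0, μ.real {q ∈ Q | q * (x⁻¹ * x') ∉ Q} ≤ μ.real Q / 4 →
          Rel f t h ρ (ε * (d * ρ)) ε x x' := by
  have hC0 : 0 < C := by linarith
  have hk0 : (0:ℝ) ≤ Fintype.card ι := by positivity
  have hc0 : (0:ℝ) ≤ c := by positivity
  obtain ⟨wm, hwm⟩ : ∃ wm : ℝ, wm = ε / (100 * (c + 1) * (Fintype.card ι + 1) * C ^ 2) := ⟨_, rfl⟩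
  have hwm0 : 0 < wm := by rw [hwm]; positivity
  have hwm' : wm * (100 * (c + 1) * (Fintype.card ι + 1) * C ^ 2) = ε := by
    rw [hwm]; field_simp
  obtain ⟨ε1, hε1⟩ : ∃ ε1 : ℝ, ε1 = min (wm / (24 * (c + 1) * (L + 1))) 1 := ⟨_, rfl⟩
  have hε10 : 0 < ε1 := by rw [hε1]; exact lt_min (by positivity) one_pos
  have hε1a : 24 * (c + 1) * (L + 1) * ε1 ≤ wm := by
    have : ε1 ≤ wm / (24 * (c + 1) * (L + 1)) := by rw [hε1]; exact min_le_left _ _
    rwa [le_div_iff₀ (by positivity), mul_comm] at this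
  have hε1b : ε1 ≤ 1 := by rw [hε1]; exact min_le_right _ _
  refine ⟨ε1, hε10, hε1b, ?_⟩
  intro d hd0 hd1'
  obtain ⟨ε0, hε0⟩ : ∃ ε0 : ℝ, ε0 = min (min (wm / (48 * (c + 1))) (ε * d / (64 * (c + 1))))
    (ε / (32 * ((c : ℝ) + 1) ^ 2 * (Fintype.card ι + 1) * (Fintype.card ι + 2))) := ⟨_, rfl⟩
  have hε00 : 0 < ε0 := by
    rw [hε0]; exact lt_min (lt_min (by positivity) (by positivity)) (by positivity)
  have he1 : 48 * (c + 1) * ε0 ≤ wm := by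
    have : ε0 ≤ wm / (48 * (c + 1)) := by rw [hε0]; exact (min_le_left _ _).trans (min_le_left _ _)
    rwa [le_div_iff₀ (by positivity), mul_comm] at this
  have he2 : 64 * (c + 1) * ε0 ≤ ε * d := by
    have : ε0 ≤ ε * d / (64 * (c + 1)) := by
      rw [hε0]; exact (min_le_left _ _).trans (min_le_right _ _)
    rwa [le_div_iff₀ (by positivity), mul_comm] at this
  have he3 : (32 * ((c : ℝ) + 1) ^ 2 * (Fintype.card ι + 1) * (Fintype.card ι + 2)) * ε0 ≤ ε := by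
    have : ε0 ≤ ε / (32 * ((c : ℝ) + 1) ^ 2 * (Fintype.card ι + 1) * (Fintype.card ι + 2)) := by
      rw [hε0]; exact min_le_right _ _
    rwa [le_div_iff₀ (by positivity), mul_comm] at this
  clear hε0 hε1 hwm
  -- large scale thresholds
  obtain ⟨ρ3, hρ3⟩ := exists_nat_gt (24 * (c + 1) * (L + 1) / wm)
  obtain ⟨ρ4, hρ4⟩ := exists_nat_gt
    (16 * (c + 1) * (L * (C + 1) + Fintype.card ι * (C * (L * (C + 1))) + 1) / (ε * d))
  obtain ⟨ρ5, hρ5⟩ := exists_nat_gt (1 / d)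
  refine ⟨ε0, hε00, max (max ρ3 ρ4) (max ρ5 2), ?_⟩
  intro ρ hρ S _ _ _ _ μ _ l t h B Nt W0 W2 W3 Q hS f hfm hf D hD hDf hFol hNF hAff
  have hρc : ρ3 ≤ ρ := le_trans (by simp) hρ
  have hρd : ρ4 ≤ ρ := le_trans (by simp) hρ
  have hρe : ρ5 ≤ ρ := le_trans (by simp) hρ
  have hρf : 2 ≤ ρ := le_trans (by simp) hρ
  have t3 : 24 * (c + 1) * (L + 1) ≤ wm * ρ := by
    have h1 : 24 * (c + 1) * (L + 1) / wm < ρ := hρ3.trans_le (by exact_mod_cast hρc)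
    rw [div_lt_iff₀ hwm0] at h1; linarith
  have t4 : 16 * (c + 1) * (L * (C + 1) + Fintype.card ι * (C * (L * (C + 1))) + 1)
      ≤ ε * (d * ρ) := by
    have h1 : 16 * (c + 1) * (L * (C + 1) + Fintype.card ι * (C * (L * (C + 1))) + 1)
        / (ε * d) < ρ := hρ4.trans_le (by exact_mod_cast hρd)
    rw [div_lt_iff₀ (by positivity)] at h1; linarith
  have t5 : 1 ≤ d * ρ := by
    have h1 : 1 / d < ρ := hρ5.trans_le (by exact_mod_cast hρe)
    rw [div_lt_iff₀ hd0] at h1; linarith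
  have hρR : (0:ℝ) < ρ := by positivity
  obtain ⟨Gd, hGD, hGdm, hGdA, hGm⟩ := good_set hfm t ρ (ε0 * ρ) hD hDf hAff
  -- the slope tolerance
  obtain ⟨ω, hω⟩ : ∃ ω : ℝ, ω = c * (3 * (4 * (ε0 * ρ) + 2 * L * (ε1 * ρ + 1)
    + 2 * (ε0 * ρ)) / ρ) := ⟨_, rfl⟩
  have hωle : ω ≤ wm := by
    rw [hω]; exact omega_num hc0 hL hwm0 hε1a hε10.le hε00.le he1 hρR t3
  have hω0 : 0 ≤ ω := by rw [hω]; positivity
  have hD0 : 0 ≤ μ.real D := measureReal_nonneg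
  have hmain := fun q (hq : q ∈ Q) => core1 B hL hρf hε00 hε10 he3 hS hω
    hf hDf hFol hNF hGD hGdA hGm q⁻¹ (hS.Qinv q hq)
  obtain ⟨D0, hD0D, hD0m, hD0meas, hpts⟩ := nice_pts B.mp
    (measurableSet_rel hfm B.h_meas) hD hS.Qm hDf hS.Qf hS.Q0 (by positivity) hmain
  refine ⟨D0, hD0D, hD0m, by linarith, ?_⟩
  intro x hx x' hx' hxx'
  obtain ⟨q, hq, hqv, h1, h2⟩ := hpts x hx x' hx' hxx'
  have hH : ∀ i, |h i (q * (x⁻¹ * x'))| ≤ 2 * C ^ 2 * (d * ρ) := fun i => hS.Qh _ hqv i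
  have h3 := rel_of_common B.h_mul h1 h2 hH
  refine ⟨h3.1.trans ?_, fun i => (h3.2 i).trans ?_⟩
  · exact err_num hc0 hC hk0 hL (by positivity) hε hwm' hω0 hωle hd0 hρR he2 hε00.le t4 t5
      (Nat.ceil_lt_add_one (by positivity)).le le_rfl (by positivity)
  · have := two_wm_le hc0 hk0 hC hwm0 hwm'
    linarith

/-- the scales of coarse differentiation -/
def scl (q n0 j : ℕ) : ℕ := q * ((2 * q) ^ j * n0)

/-- **LIN core**: a common scale, chosen in a prescribed set of at least half of the indices. -/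
theorem lin_core (ι : Type) [Fintype ι] [DecidableEq ι] (p c : ℕ) {C L ε : ℝ} (hC : 1 ≤ C)
    (hL : 0 < L) (hε : 0 < ε) :
    ∃ ε1 : ℝ, 0 < ε1 ∧ ε1 ≤ 1 ∧ ∀ d : ℝ, 0 < d → d ≤ 1 → ∃ ε0 : ℝ, 0 < ε0 ∧
      ∃ q J ρ0 : ℕ, 0 < q ∧ 0 < J ∧ ∀ n0 ≥ ρ0, 0 < n0 →
      ∀ 𝒥 : Finset ℕ, 𝒥 ⊆ range J → J ≤ 2 * 𝒥.card →
      ∀ (S : Type u) [Group S] [MeasurableSpace S] [MeasurableMul₂ S] [MeasurableInv S]
        (μ : Measure S) [SFinite μ] (l : S → ℝ) (t : ι → S) (h : ι → S → ℝ),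
      Base μ l t h C → ∀ Nt W0 W2 W3 Q : ℕ → Set S,
      (∀ j ∈ 𝒥, Sc μ l t h C ε1 d c (scl q n0 j) (Nt j) (W0 j) (W2 j) (W3 j) (Q j)) →
      ∀ (A : Type) [Fintype A], Fintype.card A ≤ p →
      ∀ (f : A → S → ℝ) (D : A → Set S), (∀ α, Measurable (f α)) →
      (∀ α x s, |f α (x * s) - f α x| ≤ L * (l s + 1)) →
      (∀ α, MeasurableSet (D α)) → (∀ α, μ (D α) ≠ ∞) →
      (∀ α i (m : ℤ), |m| ≤ ((2 * q) ^ J * n0 : ℕ) →
        μ.real {x ∈ D α | x * t i ^ m ∉ D α} ≤ ε0 * μ.real (D α)) →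
      (∀ α, ∀ j ∈ 𝒥, ∀ w ∈ W3 j, μ.real {x ∈ D α | x * w ∉ D α} ≤ ε0 * μ.real (D α)) →
      (∀ α, ∀ j ∈ 𝒥, ∀ v ∈ Nt j,
        μ.real {x ∈ D α | ¬ |f α (x * v) - f α x| ≤ ε0 * (scl q n0 j : ℕ)} ≤
          ε0 * μ.real (D α)) →
      ∃ j ∈ 𝒥, ∀ α, ∃ D0 ⊆ D α, MeasurableSet D0 ∧ μ.real (D α \ D0) ≤ ε * μ.real (D α) ∧
        ∀ x ∈ D0, ∀ x' ∈ D0, μ.real {y ∈ Q j | y * (x⁻¹ * x') ∉ Q j} ≤ μ.real (Q j) / 4 →
          Rel (f α) t h (scl q n0 j) (ε * (d * (scl q n0 j : ℕ))) ε x x' := by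
  have hC0 : 0 < C := by linarith
  obtain ⟨ε1, hε10, hε11, H1⟩ := one_scale'.{u} ι c hC hL hε
  refine ⟨ε1, hε10, hε11, ?_⟩
  intro d hd0 hd1
  obtain ⟨ε0', hε00, ρ0, H2⟩ := H1 d hd0 hd1
  obtain ⟨q, J, hq, hJ, δ, hδ, hlin⟩ := lin0'.{u} (p * Fintype.card ι) (L := L * (C + 1))
    (ε := ε0') (by positivity) hε00
  refine ⟨min ε0' δ, lt_min hε00 hδ, q, J, ρ0, hq, hJ, ?_⟩
  intro n0 hn0 hn00 𝒥 h𝒥 h𝒥c S _ _ _ _ μ _ l t h B Nt W0 W2 W3 Q hS A _ hA f D hfm hf hD hDf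
    hFt hFol hNF
  obtain ⟨j, hj, hbad⟩ := hlin n0 hn00 𝒥 h𝒥 h𝒥c (A × ι) (by
      rw [Fintype.card_prod]; exact Nat.mul_le_mul_right _ hA) (fun _ => S) (fun _ => μ)
    (fun x => f x.1) (fun x => t x.2) (fun x => D x.1)
    (fun x m => B.mp _) (fun x => hfm _) (fun x y => by
      refine (hf x.1 y (t x.2)).trans ?_
      have := B.l_t x.2
      exact mul_le_mul_of_nonneg_left (by linarith) hL.le)
    (fun x => hD _) (fun x => hDf _) (fun x m hm => by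
      refine (hFt x.1 x.2 m hm).trans ?_
      exact mul_le_mul_of_nonneg_right (min_le_right _ _) measureReal_nonneg)
  have hρn0 : n0 ≤ scl q n0 j := by
    unfold scl
    have h1 : 1 ≤ (2 * q) ^ j := Nat.one_le_pow _ _ (by omega)
    calc n0 = 1 * (1 * n0) := by ring
      _ ≤ q * ((2 * q) ^ j * n0) := Nat.mul_le_mul hq (Nat.mul_le_mul_right _ h1)
  refine ⟨j, hj, fun α => ?_⟩
  refine H2 (scl q n0 j) (hn0.trans hρn0) S μ l t h B (Nt j) (W0 j) (W2 j) (W3 j) (Q j) (hS j hj)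
    (f α) (hfm α) (hf α) (D α) (hD α) (hDf α) ?_ ?_ ?_
  · intro w hw
    refine (hFol α j hj w hw).trans ?_
    exact mul_le_mul_of_nonneg_right (min_le_left _ _) measureReal_nonneg
  · intro v hv
    have h1 := hNF α j hj v hv
    refine (measureReal_mono ?_ (ne_top_of_le_ne_top (hDf α) (measure_mono (Set.sep_subset _ _)))).trans
      (h1.trans (mul_le_mul_of_nonneg_right (min_le_left _ _) measureReal_nonneg))
    rintro x ⟨hx, hxb⟩
    refine ⟨hx, fun h => hxb (h.trans ?_)⟩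
    exact mul_le_mul_of_nonneg_right (min_le_left _ _) (by positivity)
  · intro i
    have h1 := hbad (α, i)
    refine le_trans (le_of_eq ?_) h1
    congr 1
    ext x
    simp only [Set.mem_ofPred_eq, Aff, not_forall, not_le, scl]
    constructor
    · rintro ⟨hx, m, hm, h⟩; exact ⟨hx, m, hm, h⟩
    · rintro ⟨hx, m, hm, h⟩; exact ⟨hx, m, hm, h⟩

end Vale.Agent.P188.Z1

end
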