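import Vale.Agent.P188.R.G034

/-!
The rank bound: independent commuting elements of infinite order in a group coarsely equivalent
to a poly-`ℤ` group of length `n` number at most `n`.
-/

universe u v w

namespace Vale.Agent.P188

open Finsupp

set_option linter.unusedSectionVars false

section Cup

variable {H : Type u} [Group H]

/-- The torus chain. -/
noncomputable def tor : List H → Ch H
  | [] => single [1] 1
  | a :: L => pr (fun x => a • x) (tor L)

/-- Good lists: commuting elements with dual functions. -/
def Good (L : List (H × (H → ℤ))) : Prop :=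
  L.Pairwise (fun p q => p.1 * q.1 = q.1 * p.1 ∧ (∀ x, p.2 (q.1 • x) = p.2 x) ∧
    (∀ x, q.2 (p.1 • x) = q.2 x)) ∧ ∀ p ∈ L, ∀ x, p.2 (p.1 • x) = p.2 x + 1

end Cup

section Homotopy

variable {H : Type u} [Group H]

/-- Cone off a family of chains at the head of the list. -/
noncomputable def chd (w : List H → Ch H) : List H → Ch H
  | [] => 0
  | x :: t => cns x (w (x :: t))

/-- The homotopy between `s` and the identity, degree by degree. -/
noncomputable def kap (s : Ch H →ₗ[ℤ] Ch H) : ℕ → (Ch H →ₗ[ℤ] Ch H)
  | 0 => 0
  | q + 1 => Finsupp.linearCombination ℤ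
      (chd (fun l => s (single l 1) - single l 1 - kap s q (dl l)))

lemma kap_succ_single (s : Ch H →ₗ[ℤ] Ch H) (q : ℕ) (x : H) (t : List H) :
    kap s (q + 1) (single (x :: t) 1) =
      cns x (s (single (x :: t) 1) - single (x :: t) 1 - kap s q (dl (x :: t))) := by
  show Finsupp.linearCombination ℤ _ _ = _
  rw [Finsupp.linearCombination_single, one_smul]
  rfl

lemma kap_succ_single_nil (s : Ch H →ₗ[ℤ] Ch H) (q : ℕ) :
    kap s (q + 1) (single [] 1) = 0 := by
  show Finsupp.linearCombination ℤ _ _ = _
  rw [Finsupp.linearCombination_single, one_smul]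
  rfl

lemma kap_act {s : Ch H →ₗ[ℤ] Ch H} (hs : ∀ (g : H) (u : Ch H), s (act g u) = act g (s u))
    (q : ℕ) : ∀ (g : H) (u : Ch H), kap s q (act g u) = act g (kap s q u) := by
  induction q with
  | zero => intro g u; simp [kap]
  | succ q ih =>
    intro g u
    have : (kap s (q + 1) ∘ₗ act g : Ch H →ₗ[ℤ] Ch H) = act g ∘ₗ kap s (q + 1) := by
      apply lin_ext
      intro l
      rw [LinearMap.comp_apply, LinearMap.comp_apply]
      rcases l with _ | ⟨x, t⟩
      · rw [act_single, List.map_nil, kap_succ_single_nil, map_zero]
      · rw [act_single, List.map_cons, kap_succ_single, kap_succ_single, act_cns]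
        congr 1
        rw [map_sub, map_sub, ← hs, ← ih, act_single, List.map_cons]
        congr 2
        have := pf_dl (fun x => g • x) (x :: t)
        rw [List.map_cons] at this
        rw [← this]
        rfl
    exact LinearMap.congr_fun this u

lemma bd_kap {s : Ch H →ₗ[ℤ] Ch H} {Q : ℕ} (hs_nil : s (single [] 1) = single [] 1)
    (hs_bd : ∀ q ≤ Q, ∀ u ∈ Sp (Gr q : Set (List H)), bd (s u) = s (bd u)) :
    ∀ q ≤ Q, ∀ u ∈ Sp (Gr q : Set (List H)), bd (kap s q u) = s u - u - kap s (q - 1) (bd u) := by
  intro q
  induction q with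
  | zero =>
    intro _ u hu
    have := eq_of_Sp (L := s) (L' := LinearMap.id) (p := Gr 0) (u := u) (by
      intro l hl
      have : l = [] := List.length_eq_zero_iff.mp hl
      subst this
      simpa using hs_nil) hu
    rw [this, bd_of_Gr_zero hu]
    simp [kap]
  | succ q ih =>
    intro hq u hu
    have := eq_of_Sp (L := bd ∘ₗ kap s (q + 1)) (L' := s - LinearMap.id - kap s q ∘ₗ bd)
      (p := Gr (q + 1)) (u := u) (by
      intro l hl
      rcases l with _ | ⟨x, t⟩
      · simp [Gr] at hl
      · have hdl : dl (x :: t) ∈ Sp (Gr q : Set (List H)) := by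
          have := bd_mem_Gr (single_mem_Sp hl 1)
          simpa using this
        have e : bd (single (x :: t) (1 : ℤ)) = dl (x :: t) := by simp
        rw [LinearMap.comp_apply, kap_succ_single, bd_cns]
        have h1 : bd (s (single (x :: t) 1) - single (x :: t) 1 - kap s q (dl (x :: t))) = 0 := by
          rw [map_sub, map_sub, ih (by omega) _ hdl, hs_bd _ hq _ (single_mem_Sp hl 1), e, bd_dl,
            map_zero]
          abel
        rw [h1, map_zero, sub_zero]
        simp) hu
    simpa using this

end Homotopy

end Vale.Agent.P188
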