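import Vale.Agent.P188.R.G034
import Vale.Agent.P188.R.G045

section

/-!
Duality for poly-`ℤ` groups: preliminaries.
-/

universe u v w

namespace Vale.Agent.P188.H882

open Finsupp

section IM

variable {G : Type*} [Group G]

/-- The subgroup generated by the elements `g m - ω(g) m`. -/
def IM (ω : G →* ℤˣ) (M : Type*) [AddCommGroup M] [DistribMulAction G M] : AddSubgroup M :=
  AddSubgroup.closure {v | ∃ (g : G) (m : M), v = g • m - ((ω g : ℤˣ) : ℤ) • m}

variable {ω : G →* ℤˣ} {M : Type*} [AddCommGroup M] [DistribMulAction G M]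

lemma sub_mem_IM (g : G) (m : M) : g • m - ((ω g : ℤˣ) : ℤ) • m ∈ IM ω M :=
  AddSubgroup.subset_closure ⟨g, m, rfl⟩

lemma IM_le {K : AddSubgroup M} (h : ∀ (g : G) (m : M), g • m - ((ω g : ℤˣ) : ℤ) • m ∈ K) :
    IM ω M ≤ K := by
  apply (AddSubgroup.closure_le K).mpr
  rintro _ ⟨g, m, rfl⟩
  exact h g m

lemma smul_mem_IM (g : G) {m : M} (hm : m ∈ IM ω M) : g • m ∈ IM ω M := by
  have : IM ω M ≤ (IM ω M).comap (DistribSMul.toAddMonoidHom M g) := by
    apply IM_le
    intro h m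
    show g • (h • m - ((ω h : ℤˣ) : ℤ) • m) ∈ IM ω M
    have e : g • (h • m - ((ω h : ℤˣ) : ℤ) • m) =
        ((g * h) • m - ((ω (g * h) : ℤˣ) : ℤ) • m) -
          ((ω h : ℤˣ) : ℤ) • (g • m - ((ω g : ℤˣ) : ℤ) • m) := by
      have e1 : (((ω g : ℤˣ) : ℤ) * ((ω h : ℤˣ) : ℤ)) • m =
          ((ω h : ℤˣ) : ℤ) • ((ω g : ℤˣ) : ℤ) • m := by rw [smul_smul, mul_comm]
      rw [smul_sub, smul_sub, mul_smul, smul_comm g ((ω h : ℤˣ) : ℤ) m, map_mul, Units.val_mul, e1]
      abel
    rw [e]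
    exact AddSubgroup.sub_mem _ (sub_mem_IM _ _) (AddSubgroup.zsmul_mem _ (sub_mem_IM _ _) _)
  exact this hm

end IM

section Coc

variable {X : Type*} {M : Type*} [AddCommGroup M]

/-- Cocycles on lists of length `q`. -/
def Coc (q : ℕ) (c : Ch X →ₗ[ℤ] M) : Prop := ∀ u ∈ Sp (Gr (q + 1) : Set (List X)), c (bd u) = 0

/-- Equivariance. -/
def Eqv (G : Type*) [Group G] [MulAction G X] [DistribMulAction G M] (c : Ch X →ₗ[ℤ] M) : Prop :=
  ∀ (g : G) (u : Ch X), c (act g u) = g • c u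

lemma Coc.add {q : ℕ} {c c' : Ch X →ₗ[ℤ] M} (h : Coc q c) (h' : Coc q c') : Coc q (c + c') := by
  intro u hu
  rw [LinearMap.add_apply, h u hu, h' u hu, add_zero]

lemma Coc.sub {q : ℕ} {c c' : Ch X →ₗ[ℤ] M} (h : Coc q c) (h' : Coc q c') : Coc q (c - c') := by
  intro u hu
  rw [LinearMap.sub_apply, h u hu, h' u hu, sub_zero]

variable {G : Type*} [Group G] [MulAction G X] [DistribMulAction G M]

lemma Eqv.add {c c' : Ch X →ₗ[ℤ] M} (h : Eqv G c) (h' : Eqv G c') : Eqv G (c + c') := by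
  intro g u
  rw [LinearMap.add_apply, LinearMap.add_apply, h, h', smul_add]

lemma Eqv.sub {c c' : Ch X →ₗ[ℤ] M} (h : Eqv G c) (h' : Eqv G c') : Eqv G (c - c') := by
  intro g u
  rw [LinearMap.sub_apply, LinearMap.sub_apply, h, h', smul_sub]

/-- Restriction to lists of length `q`. -/
lemma exists_restrict {q : ℕ} {c : Ch X →ₗ[ℤ] M}
    (h : ∀ (g : G), ∀ u ∈ Sp (Gr q : Set (List X)), c (act g u) = g • c u) :
    Eqv G (c ∘ₗ flt q) ∧ ∀ u ∈ Sp (Gr q : Set (List X)), (c ∘ₗ flt q) u = c u := by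
  refine ⟨fun g u => ?_, fun u hu => ?_⟩
  · rw [LinearMap.comp_apply, LinearMap.comp_apply, flt_act, h g _ (flt_mem q u)]
  · rw [LinearMap.comp_apply, flt_eq hu]

end Coc

/-- Duality data for `G` acting on `X`. -/
structure DualAt (G : Type) [Group G] (ω : G →* ℤˣ) (X : Type) [MulAction G X] (n : ℕ)
    (c₀ : Ch X) : Prop where
  mem : c₀ ∈ Sp (Gr (n + 1) : Set (List X))
  inj : ∀ (M : Type) [AddCommGroup M] [DistribMulAction G M] (c : Ch X →ₗ[ℤ] M),
    Eqv G c → Coc (n + 1) c → c c₀ ∈ IM ω M →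
      ∃ b : Ch X →ₗ[ℤ] M, Eqv G b ∧ b (single [] 1) = 0 ∧
        ∀ u ∈ Sp (Gr (n + 1) : Set (List X)), b (bd u) = c u
  coc : ∀ (M : Type) [AddCommGroup M] [DistribMulAction G M] (b : Ch X →ₗ[ℤ] M),
    Eqv G b → b (single [] 1) = 0 → b (bd c₀) ∈ IM ω M
  surj : ∀ (M : Type) [AddCommGroup M] [DistribMulAction G M] (m : M),
    ∃ c : Ch X →ₗ[ℤ] M, Eqv G c ∧ Coc (n + 1) c ∧ c c₀ - m ∈ IM ω M

/-- Duality for `G` in dimension `n`. -/
def Dual (G : Type) [Group G] (n : ℕ) : Prop :=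
  ∀ (X : Type) [MulAction G X] [Nonempty X], (∀ (g : G) (x : X), g • x = x → g = 1) →
    ∃ (ω : G →* ℤˣ) (c₀ : Ch X), DualAt G ω X n c₀

lemma dl_pair {X : Type*} (x y : X) : dl [x, y] = single [y] 1 - single [x] 1 := by
  rw [dl_cons, dl_cons, dl_nil, map_zero, sub_zero, cns_single]

lemma dual_of_subsingleton (G : Type) [Group G] [Subsingleton G] : Dual G 0 := by
  intro X _ hX _
  obtain ⟨x₀⟩ := hX
  have hIM : ∀ (M : Type) [AddCommGroup M] [DistribMulAction G M], IM (1 : G →* ℤˣ) M ≤ ⊥ := by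
    intro M _ _
    apply IM_le
    intro g m
    have : g = 1 := Subsingleton.elim _ _
    subst this
    simp
  refine ⟨1, single [x₀] 1, ⟨single_mem_Sp (by simp [Gr]) 1, ?_, ?_, ?_⟩⟩
  · intro M _ _ c hc hcc h0
    have h0' : c (single [x₀] 1) = 0 := by simpa using hIM M h0
    refine ⟨0, fun g u => by simp, by simp, ?_⟩
    intro u hu
    have := eq_of_Sp (L := c) (L' := 0) (p := Gr (0 + 1)) (u := u) (by
      intro l hl
      obtain ⟨x, rfl⟩ := List.length_eq_one_iff.mp hl
      have h1 := hcc (single [x₀, x] 1) (single_mem_Sp (by simp [Gr]) 1)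
      rw [bd_single, one_smul, dl_pair, map_sub, h0', sub_zero] at h1
      rw [h1]; rfl) hu
    rw [this]; rfl
  · intro M _ _ b _ hb0
    rw [bd_single, one_smul, dl_cons, dl_nil, map_zero, sub_zero, hb0]
    exact AddSubgroup.zero_mem _
  · intro M _ _ m
    refine ⟨Finsupp.linearCombination ℤ (fun l => if l.length = 1 then m else 0), ?_, ?_, ?_⟩
    · intro g u
      have : g = 1 := Subsingleton.elim _ _
      subst this
      rw [act_one, one_smul]
    · intro u hu
      have := eq_of_Sp (L := (Finsupp.linearCombination ℤ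
        (fun l : List X => if l.length = 1 then m else 0)) ∘ₗ bd) (L' := 0) (p := Gr (0 + 1 + 1))
        (u := u) (by
        intro l hl
        obtain ⟨x, y, rfl⟩ := List.length_eq_two.mp hl
        rw [LinearMap.comp_apply, bd_single, one_smul, dl_pair, map_sub,
          Finsupp.linearCombination_single, Finsupp.linearCombination_single]
        simp) hu
      simpa using this
    · rw [Finsupp.linearCombination_single]
      simp

section RG

lemma md_mul {N : Type} [Group N] (g h : N) (x : N →₀ ℤ) :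
    Finsupp.mapDomain (fun y => g * h * y) x =
      Finsupp.mapDomain (fun y => g * y) (Finsupp.mapDomain (fun y => h * y) x) := by
  rw [← Finsupp.mapDomain_comp]
  congr 1
  funext y
  simp [mul_assoc]

lemma md_one {N : Type} [Group N] (x : N →₀ ℤ) : Finsupp.mapDomain (fun y => 1 * y) x = x := by
  simp only [one_mul]
  exact Finsupp.mapDomain_id

lemma fs_ext {N : Type} {A : Type*} [AddCommGroup A] {f g : (N →₀ ℤ) →+ A}
    (h : ∀ n : N, f (single n 1) = g (single n 1)) (x : N →₀ ℤ) : f x = g x := by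
  have : f = g := by
    apply Finsupp.addHom_ext (M := ℤ)
    intro n a
    have e : (single n a : N →₀ ℤ) = a • (single n 1 : N →₀ ℤ) := by simp
    rw [e, map_zsmul, map_zsmul, h n]
  rw [this]

/-- The group ring, as a module. -/
def RG (N : Type) := N →₀ ℤ

noncomputable instance (N : Type) : AddCommGroup (RG N) := inferInstanceAs (AddCommGroup (N →₀ ℤ))

noncomputable instance {N : Type} [Group N] : DistribMulAction N (RG N) where
  smul n x := Finsupp.mapDomain (fun y => n * y) (x : N →₀ ℤ)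
  one_smul x := md_one x
  mul_smul g h x := md_mul g h x
  smul_zero g := Finsupp.mapDomain_zero
  smul_add g x y := Finsupp.mapDomain_add

/-- Basis elements. -/
noncomputable def rgs {N : Type} (n : N) (a : ℤ) : RG N := (single n a : N →₀ ℤ)

lemma smul_rgs {N : Type} [Group N] (g n : N) (a : ℤ) : g • rgs n a = rgs (g * n) a :=
  Finsupp.mapDomain_single

/-- Additive maps out of the group ring. -/
noncomputable def rgl {N : Type} {A : Type*} [AddCommGroup A] (f : N → A) : RG N →+ A :=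
  (Finsupp.linearCombination ℤ f : (N →₀ ℤ) →ₗ[ℤ] A).toAddMonoidHom

lemma rgl_rgs {N : Type} {A : Type*} [AddCommGroup A] (f : N → A) (n : N) (a : ℤ) :
    rgl f (rgs n a) = a • f n :=
  Finsupp.linearCombination_single ℤ a n

lemma rg_ext {N : Type} {A : Type*} [AddCommGroup A] {f g : RG N →+ A}
    (h : ∀ n : N, f (rgs n 1) = g (rgs n 1)) (x : RG N) : f x = g x :=
  fs_ext (f := f) (g := g) h x

end RG

end Vale.Agent.P188.H882

end

section

/-!
Duality for poly-`ℤ` groups: the action of a normalizing element on the top class.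
-/

universe u v w

namespace Vale.Agent.P188.H882

open Finsupp

section Zw

variable {N : Type} [Group N]

/-- The action of `N` on `ℤ` through `ω`. -/
@[reducible] def wAct (ω : N →* ℤˣ) : DistribMulAction N ℤ where
  smul n m := ((ω n : ℤˣ) : ℤ) * m
  one_smul m := by
    show ((ω 1 : ℤˣ) : ℤ) * m = m
    rw [map_one, Units.val_one, one_mul]
  mul_smul g h m := by
    show ((ω (g * h) : ℤˣ) : ℤ) * m = ((ω g : ℤˣ) : ℤ) * (((ω h : ℤˣ) : ℤ) * m)
    rw [map_mul, Units.val_mul, mul_assoc]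
  smul_zero _ := mul_zero _
  smul_add _ _ _ := mul_add _ _ _

lemma IM_wAct (ω : N →* ℤˣ) : @IM N _ ω ℤ _ (wAct ω) ≤ ⊥ := by
  let _ := wAct ω
  apply IM_le
  intro g m
  show ((ω g : ℤˣ) : ℤ) * m - ((ω g : ℤˣ) : ℤ) • m = 0
  simp

end Zw

section Z

variable {N : Type} [Group N] {ω : N →* ℤˣ} {X : Type} [MulAction N X] {n : ℕ} {c₀ : Ch X}

lemma DualAt.exists_c1 (hD : DualAt N ω X n c₀) : ∃ c : Ch X →ₗ[ℤ] ℤ,
    (∀ (g : N) (u : Ch X), c (act g u) = ((ω g : ℤˣ) : ℤ) * c u) ∧ Coc (n + 1) c ∧ c c₀ = 1 := by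
  obtain ⟨c, hc, hcc, h1⟩ := @DualAt.surj N _ ω X _ n c₀ hD ℤ _ (wAct ω) 1
  have h2 : c c₀ - (1 : ℤ) = (0 : ℤ) := IM_wAct ω h1
  exact ⟨c, fun g u => hc g u, hcc, sub_eq_zero.mp h2⟩

lemma DualAt.coc_Z (hD : DualAt N ω X n c₀) (b : Ch X →ₗ[ℤ] ℤ)
    (hb : ∀ (g : N) (u : Ch X), b (act g u) = ((ω g : ℤˣ) : ℤ) * b u)
    (hb0 : b (single [] 1) = 0) : b (bd c₀) = 0 :=
  IM_wAct ω (@DualAt.coc N _ ω X _ n c₀ hD ℤ _ (wAct ω) b hb hb0)

lemma DualAt.inj_Z (hD : DualAt N ω X n c₀) (ω' : N →* ℤˣ) (c : Ch X →ₗ[ℤ] ℤ)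
    (hc : ∀ (g : N) (u : Ch X), c (act g u) = ((ω' g : ℤˣ) : ℤ) * c u) (hcc : Coc (n + 1) c)
    (g₀ : N) (m : ℤ) (h : c c₀ = ((ω' g₀ : ℤˣ) : ℤ) * m - ((ω g₀ : ℤˣ) : ℤ) * m) :
    ∃ b : Ch X →ₗ[ℤ] ℤ, (∀ (g : N) (u : Ch X), b (act g u) = ((ω' g : ℤˣ) : ℤ) * b u) ∧
      b (single [] 1) = 0 ∧ ∀ u ∈ Sp (Gr (n + 1) : Set (List X)), b (bd u) = c u := by
  have hmem : c c₀ ∈ @IM N _ ω ℤ _ (wAct ω') := by
    let _ := wAct ω'
    have h1 : g₀ • m - ((ω g₀ : ℤˣ) : ℤ) • m ∈ IM ω ℤ := sub_mem_IM (ω := ω) (M := ℤ) g₀ m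
    have e : c c₀ = g₀ • m - ((ω g₀ : ℤˣ) : ℤ) • m := h
    rw [e]
    exact h1
  obtain ⟨b, hb, hb0, hb1⟩ := @DualAt.inj N _ ω X _ n c₀ hD ℤ _ (wAct ω') c hc hcc hmem
  exact ⟨b, hb, hb0, hb1⟩

end Z

section Conj

variable {G : Type} [Group G] {N : Subgroup G} [N.Normal] {ω : N →* ℤˣ} {X : Type}
  [MulAction G X] {n : ℕ} {c₀ : Ch X}

omit [N.Normal] in
lemma actN (g : N) (u : Ch X) : act g u = act (g : G) u := rfl

lemma act_conj (s : G) (g : N) (u : Ch X) :
    act s (act g u) = act (MulAut.conjNormal s g) (act s u) := by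
  rw [actN, actN, ← act_mul, ← act_mul, MulAut.conjNormal_apply]
  congr 2
  group

lemma act_inv_act (s : G) (u : Ch X) : act s⁻¹ (act s u) = u := by
  rw [← act_mul, inv_mul_cancel, act_one]

lemma act_act_inv (s : G) (u : Ch X) : act s (act s⁻¹ u) = u := by
  rw [← act_mul, mul_inv_cancel, act_one]

/-- The orientation character is invariant under conjugation. -/
lemma DualAt.omega_conj (hD : DualAt N ω X n c₀) (t : G) (g : N) :
    ω (MulAut.conjNormal t g) = ω g := by
  by_contra hne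
  obtain ⟨c, hc, hcc, h1⟩ := hD.exists_c1
  let ω' : N →* ℤˣ := ω.comp (MulAut.conjNormal t : MulAut N).toMonoidHom
  have hω' : ∀ g, ω' g = ω (MulAut.conjNormal t g) := fun g => rfl
  have hne' : ω' g = - ω g := by
    rw [hω']
    exact Int.units_ne_iff_eq_neg.mp hne
  have hcc' : Coc (n + 1) (c ∘ₗ act t) := by
    intro u hu
    rw [LinearMap.comp_apply, ← bd_act, hcc _ (act_mem_Gr t hu)]
  have h2 : ∀ (g : N) (u : Ch X), ((2 * c (act t c₀)) • (c ∘ₗ act t)) (act g u) =
      ((ω' g : ℤˣ) : ℤ) * ((2 * c (act t c₀)) • (c ∘ₗ act t)) u := by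
    intro g u
    simp only [LinearMap.smul_apply, LinearMap.comp_apply, smul_eq_mul]
    rw [act_conj, hc, hω']
    ring
  -- the class of `2 c` twisted
  obtain ⟨b, hb, hb0, hb1⟩ := hD.inj_Z ω' ((2 : ℤ) • (c ∘ₗ act t)) (by
    intro g u
    simp only [LinearMap.smul_apply, LinearMap.comp_apply, smul_eq_mul]
    rw [act_conj, hc, hω']
    ring) (by
    intro u hu
    rw [LinearMap.smul_apply, hcc' u hu, smul_zero]) g (- ((ω g : ℤˣ) : ℤ) * c (act t c₀)) (by
    simp only [LinearMap.smul_apply, LinearMap.comp_apply, smul_eq_mul]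
    rw [hne', Units.val_neg]
    have : ((ω g : ℤˣ) : ℤ) * ((ω g : ℤˣ) : ℤ) = 1 := by
      rw [← Units.val_mul, Int.units_mul_self, Units.val_one]
    linear_combination (-2 * c (act t c₀)) * this)
  have h3 : (b ∘ₗ act t⁻¹) (bd c₀) = 0 := by
    apply hD.coc_Z
    · intro g u
      rw [LinearMap.comp_apply, LinearMap.comp_apply, act_conj, hb, hω', ← MulAut.mul_apply,
        ← map_mul, mul_inv_cancel, map_one, MulAut.one_apply]
    · rw [LinearMap.comp_apply, act_single, List.map_nil, hb0]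
  have h4 : b (bd (act t⁻¹ c₀)) = 2 * c c₀ := by
    rw [hb1 _ (act_mem_Gr _ hD.mem), LinearMap.smul_apply, LinearMap.comp_apply, act_act_inv,
      smul_eq_mul]
  rw [LinearMap.comp_apply, ← bd_act, h4, h1] at h3
  norm_num at h3

end Conj

section Eval

variable {N : Type} [Group N] {ω : N →* ℤˣ} {M : Type} [AddCommGroup M] [DistribMulAction N M]

/-- Evaluation of the group ring at an element. -/
noncomputable def evm (m : M) : RG N →+ M := rgl (fun g : N => g • m)

lemma evm_smul (m : M) (g : N) (x : RG N) : evm m (g • x) = g • evm m x := by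
  have := rg_ext (f := (evm m).comp (DistribSMul.toAddMonoidHom (RG N) g))
    (g := (DistribSMul.toAddMonoidHom M g).comp (evm m)) (by
    intro h
    simp only [AddMonoidHom.comp_apply, DistribSMul.toAddMonoidHom_apply]
    rw [smul_rgs, evm, rgl_rgs, rgl_rgs, one_smul, one_smul, mul_smul]) x
  simpa using this

/-- The twisted augmentation. -/
noncomputable def aug (ω : N →* ℤˣ) : RG N →+ ℤ := rgl (fun g : N => ((ω g : ℤˣ) : ℤ))

lemma aug_smul (g : N) (x : RG N) : aug ω (g • x) = ((ω g : ℤˣ) : ℤ) * aug ω x := by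
  have := rg_ext (f := (aug ω).comp (DistribSMul.toAddMonoidHom (RG N) g))
    (g := (AddMonoidHom.mulLeft ((ω g : ℤˣ) : ℤ)).comp (aug ω)) (by
    intro h
    simp only [AddMonoidHom.comp_apply, DistribSMul.toAddMonoidHom_apply]
    rw [smul_rgs, aug, rgl_rgs, rgl_rgs, one_smul, one_smul, map_mul, Units.val_mul]
    rfl) x
  simpa using this

lemma aug_IM {x : RG N} (hx : x ∈ IM ω (RG N)) : aug ω x = 0 := by
  have : IM ω (RG N) ≤ (aug ω).ker := by
    apply IM_le
    intro g m
    rw [AddMonoidHom.mem_ker, map_sub, aug_smul, map_zsmul, smul_eq_mul, sub_self]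
  exact this hx

lemma evm_sub_mem (m : M) (x : RG N) : evm m x - aug ω x • m ∈ IM ω M := by
  let K : AddSubgroup (RG N) :=
    (IM ω M).comap (evm m - ((zmultiplesHom M) m).comp (aug ω))
  have hK : ∀ x : RG N, x ∈ K := by
    have h1 : ∀ g : N, rgs g 1 ∈ K := by
      intro g
      show evm m (rgs g 1) - aug ω (rgs g 1) • m ∈ IM ω M
      rw [evm, aug, rgl_rgs, rgl_rgs, one_smul, one_smul]
      exact sub_mem_IM g m
    intro x
    have := rg_ext (f := QuotientAddGroup.mk' K) (g := 0) (by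
      intro g
      simpa using h1 g) x
    simpa using this
  exact hK x

lemma evm_IM (m : M) {x : RG N} (hx : x ∈ IM ω (RG N)) : evm m x ∈ IM ω M := by
  have : IM ω (RG N) ≤ (IM ω M).comap (evm m) := by
    apply IM_le
    intro g y
    show evm m (g • y - ((ω g : ℤˣ) : ℤ) • y) ∈ IM ω M
    rw [map_sub, evm_smul, map_zsmul]
    exact sub_mem_IM g _
  exact this hx

end Eval

section Top

variable {G : Type} [Group G] {N : Subgroup G} [N.Normal] {ω : N →* ℤˣ} {X : Type}
  [MulAction G X] {n : ℕ} {c₀ : Ch X}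

/-- The coboundary property for functionals equivariant up to conjugation. -/
lemma DualAt.coc_conj (hD : DualAt N ω X n c₀) (s : G) {M : Type} [AddCommGroup M]
    [DistribMulAction N M] (b : Ch X →ₗ[ℤ] M) (hb : Eqv N b) (hb0 : b (single [] 1) = 0) :
    b (bd (act s c₀)) ∈ IM ω M := by
  have h := @DualAt.coc N _ ω X _ n c₀ hD M _
    (DistribMulAction.compHom M (MulAut.conjNormal s : MulAut N).toMonoidHom) (b ∘ₗ act s) (by
    intro g u
    show b (act s (act g u)) = (MulAut.conjNormal s g) • b (act s u)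
    rw [act_conj, hb]) (by rw [LinearMap.comp_apply, act_single, List.map_nil, hb0])
  rw [bd_act]
  have hle : @IM N _ ω M _
      (DistribMulAction.compHom M (MulAut.conjNormal s : MulAut N).toMonoidHom) ≤ IM ω M := by
    apply (AddSubgroup.closure_le _).mpr
    rintro _ ⟨g, m, rfl⟩
    have := sub_mem_IM (ω := ω) (M := M) (MulAut.conjNormal s g) m
    rw [hD.omega_conj] at this
    exact this
  exact hle h

/-- The action of a normalizing element on the top class. -/
lemma DualAt.exists_eps (hD : DualAt N ω X n c₀) (s : G) : ∃ ε : ℤ,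
    ∀ (M : Type) [AddCommGroup M] [DistribMulAction N M] (c : Ch X →ₗ[ℤ] M),
      Eqv N c → Coc (n + 1) c → c (act s c₀) - ε • c c₀ ∈ IM ω M := by
  obtain ⟨γ, hγ, hγc, hγ1⟩ := hD.surj (RG N) (rgs 1 1)
  refine ⟨aug ω (γ (act s c₀)), ?_⟩
  intro M _ _ c hc hcc
  -- compare `c` with `evm m ∘ γ`
  let f : Ch X →ₗ[ℤ] M := ((evm (c c₀)).comp γ.toAddMonoidHom).toIntLinearMap
  have hf : ∀ u, f u = evm (c c₀) (γ u) := fun u => rfl
  have hfe : Eqv N f := by
    intro g u
    rw [hf, hf, hγ, evm_smul]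
  have hfc : Coc (n + 1) f := by
    intro u hu
    rw [hf, hγc u hu, map_zero]
  have h1 : (c - f) c₀ ∈ IM ω M := by
    rw [LinearMap.sub_apply, hf]
    have h2 := evm_IM (ω := ω) (c c₀) hγ1
    rw [map_sub] at h2
    have h3 : evm (c c₀) (rgs (1 : N) 1) = c c₀ := by
      rw [evm, rgl_rgs, one_smul, one_smul]
    rw [h3] at h2
    have := AddSubgroup.neg_mem _ h2
    rwa [neg_sub] at this
  obtain ⟨b, hb, hb0, hb1⟩ := hD.inj M (c - f) (hc.sub hfe) (hcc.sub hfc) h1
  have h4 : c (act s c₀) = f (act s c₀) + b (bd (act s c₀)) := by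
    rw [hb1 _ (act_mem_Gr s hD.mem), LinearMap.sub_apply]
    abel
  have h5 := hD.coc_conj s b hb hb0
  have h6 := evm_sub_mem (ω := ω) (c c₀) (γ (act s c₀))
  rw [← hf] at h6
  have := AddSubgroup.add_mem _ h6 h5
  rw [h4]
  have e : f (act s c₀) + b (bd (act s c₀)) - aug ω (γ (act s c₀)) • c c₀ =
    f (act s c₀) - aug ω (γ (act s c₀)) • c c₀ + b (bd (act s c₀)) := by abel
  rw [e]
  exact this

/-- The factor is a unit. -/
lemma DualAt.eps_unit (hD : DualAt N ω X n c₀) (s : G) : ∃ ε : ℤˣ,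
    ∀ (M : Type) [AddCommGroup M] [DistribMulAction N M] (c : Ch X →ₗ[ℤ] M),
      Eqv N c → Coc (n + 1) c → c (act s c₀) - (ε : ℤ) • c c₀ ∈ IM ω M := by
  obtain ⟨ε, hε⟩ := hD.exists_eps s
  obtain ⟨ε', hε'⟩ := hD.exists_eps s⁻¹
  obtain ⟨c, hc, hcc, h1⟩ := hD.exists_c1
  have a1 : c (act s c₀) = ε := by
    have := IM_wAct ω (@hε ℤ _ (wAct ω) c hc hcc)
    have h2 : c (act s c₀) - ε • c c₀ = 0 := this
    rw [h1, smul_eq_mul, mul_one] at h2
    linarith
  have a2 : (c ∘ₗ act s) (act s⁻¹ c₀) = ε' * (c ∘ₗ act s) c₀ := by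
    have := IM_wAct ω (@hε' ℤ _ (wAct ω) (c ∘ₗ act s) (by
      intro g u
      show c (act s (act g u)) = ((ω g : ℤˣ) : ℤ) * c (act s u)
      rw [act_conj, hc, hD.omega_conj]) (by
      intro u hu
      rw [LinearMap.comp_apply, ← bd_act, hcc _ (act_mem_Gr s hu)]))
    have h2 : (c ∘ₗ act s) (act s⁻¹ c₀) - ε' • (c ∘ₗ act s) c₀ = 0 := this
    rw [smul_eq_mul] at h2
    linarith
  rw [LinearMap.comp_apply, LinearMap.comp_apply, act_act_inv, h1, a1] at a2
  have hu : IsUnit ε := IsUnit.of_mul_eq_one ε' (by rw [mul_comm]; exact a2.symm)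
  obtain ⟨u, rfl⟩ := hu
  exact ⟨u, hε⟩

/-- The quotient of chains by the boundaries of chains of length `q`. -/
def QC (X : Type) (q : ℕ) : Type := Ch X ⧸ (Sp (Gr q : Set (List X))).map (bd (X := X))

noncomputable instance (X : Type) (q : ℕ) : AddCommGroup (QC X q) :=
  inferInstanceAs (AddCommGroup (Ch X ⧸ (Sp (Gr q : Set (List X))).map (bd (X := X))))

/-- The action on the quotient, as a linear map. -/
noncomputable def qact {G X : Type} [Group G] [MulAction G X] (q : ℕ) (g : G) :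
    (Ch X ⧸ (Sp (Gr q : Set (List X))).map (bd (X := X))) →ₗ[ℤ]
      (Ch X ⧸ (Sp (Gr q : Set (List X))).map (bd (X := X))) :=
  Submodule.mapQ _ _ (act g) (by
    rintro _ ⟨u, hu, rfl⟩
    exact ⟨act g u, act_mem_Gr g hu, bd_act g u⟩)

lemma qact_mk {G X : Type} [Group G] [MulAction G X] (q : ℕ) (g : G) (u : Ch X) :
    qact q g (Submodule.Quotient.mk u) = Submodule.Quotient.mk (act g u) := rfl

noncomputable instance (G X : Type) [Group G] [MulAction G X] (q : ℕ) :
    DistribMulAction G (QC X q) where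
  smul g x := qact q g x
  one_smul x := by
    obtain ⟨u, rfl⟩ := Submodule.Quotient.mk_surjective _ x
    show qact q 1 (Submodule.Quotient.mk u) = _
    rw [qact_mk, act_one]
  mul_smul g h x := by
    obtain ⟨u, rfl⟩ := Submodule.Quotient.mk_surjective _ x
    show qact q (g * h) (Submodule.Quotient.mk u) = qact q g (qact q h (Submodule.Quotient.mk u))
    rw [qact_mk, qact_mk, qact_mk, act_mul]
  smul_zero g := map_zero (qact q g)
  smul_add g x y := map_add (qact q g) x y

/-- The quotient map. -/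
noncomputable def qmk (X : Type) (q : ℕ) : Ch X →ₗ[ℤ] QC X q :=
  Submodule.mkQ ((Sp (Gr q : Set (List X))).map (bd (X := X)))

/-- Twisted relations in degree `q`. -/
noncomputable def RN {N : Type} [Group N] (ω : N →* ℤˣ) (X : Type) [MulAction N X] (q : ℕ) :
    AddSubgroup (Ch X) :=
  AddSubgroup.closure {v | ∃ (g : N), ∃ u ∈ Sp (Gr q : Set (List X)),
    v = act g u - ((ω g : ℤˣ) : ℤ) • u}

lemma DualAt.exists_w (hD : DualAt N ω X n c₀) (s : G) : ∃ ε : ℤˣ,
    (∀ (M : Type) [AddCommGroup M] [DistribMulAction N M] (c : Ch X →ₗ[ℤ] M),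
      Eqv N c → Coc (n + 1) c → c (act s c₀) - (ε : ℤ) • c c₀ ∈ IM ω M) ∧
    ∃ w ∈ Sp (Gr (n + 2) : Set (List X)),
      act s c₀ - (ε : ℤ) • c₀ - bd w ∈ RN ω X (n + 1) := by
  obtain ⟨ε, hε⟩ := hD.eps_unit s
  refine ⟨ε, hε, ?_⟩
  have h1 := hε (QC X (n + 2)) (qmk X (n + 2)) (fun g u => rfl) (by
    intro u hu
    exact (Submodule.Quotient.mk_eq_zero _).mpr ⟨u, hu, rfl⟩)
  let R : AddSubgroup (Ch X) :=
    AddSubgroup.closure {v | ∃ (g : N) (u : Ch X), v = act g u - ((ω g : ℤˣ) : ℤ) • u}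
  have hle : IM ω (QC X (n + 2)) ≤ R.map (qmk X (n + 2)).toAddMonoidHom := by
    apply IM_le
    intro g m
    obtain ⟨u, rfl⟩ := Submodule.Quotient.mk_surjective _ m
    refine ⟨act g u - ((ω g : ℤˣ) : ℤ) • u, AddSubgroup.subset_closure ⟨g, u, rfl⟩, ?_⟩
    show qmk X (n + 2) (act g u - ((ω g : ℤˣ) : ℤ) • u) = _
    rw [map_sub, map_smul]
    rfl
  obtain ⟨r, hr, e⟩ := hle h1
  have e1 : qmk X (n + 2) (act s c₀ - (ε : ℤ) • c₀ - r) = 0 := by
    have e' : qmk X (n + 2) r = qmk X (n + 2) (act s c₀) - (ε : ℤ) • qmk X (n + 2) c₀ := e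
    rw [map_sub, map_sub, map_smul, e', sub_self]
  obtain ⟨w, hw, e2⟩ := (Submodule.Quotient.mk_eq_zero _).mp e1
  refine ⟨w, hw, ?_⟩
  have hmem : act s c₀ - (ε : ℤ) • c₀ - bd w ∈ Sp (Gr (n + 1) : Set (List X)) :=
    Submodule.sub_mem _ (Submodule.sub_mem _ (act_mem_Gr s hD.mem)
      (Submodule.smul_mem _ _ hD.mem)) (bd_mem_Gr hw)
  have e3 : act s c₀ - (ε : ℤ) • c₀ - bd w = r := by
    rw [e2]; abel
  rw [e3] at hmem ⊢
  have hflt : R ≤ (RN ω X (n + 1)).comap (flt (n + 1)).toAddMonoidHom := by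
    apply (AddSubgroup.closure_le _).mpr
    rintro _ ⟨g, u, rfl⟩
    show flt (n + 1) (act g u - ((ω g : ℤˣ) : ℤ) • u) ∈ RN ω X (n + 1)
    rw [map_sub, map_smul, flt_act]
    exact AddSubgroup.subset_closure ⟨g, _, flt_mem _ u, rfl⟩
  have := hflt hr
  have h4 : flt (n + 1) r ∈ RN ω X (n + 1) := this
  rwa [flt_eq hmem] at h4

/-- Equivariant functionals send twisted relations to twisted relations. -/
lemma map_RN {N : Type} [Group N] {ω : N →* ℤˣ} {X : Type} [MulAction N X] {q : ℕ} {M : Type}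
    [AddCommGroup M] [DistribMulAction N M] {b : Ch X →ₗ[ℤ] M}
    (hb : ∀ (g : N), ∀ u ∈ Sp (Gr q : Set (List X)), b (act g u) = g • b u) {v : Ch X}
    (hv : v ∈ RN ω X q) : b v ∈ IM ω M := by
  have : RN ω X q ≤ (IM ω M).comap b.toAddMonoidHom := by
    apply (AddSubgroup.closure_le _).mpr
    rintro _ ⟨g, u, hu, rfl⟩
    show b (act g u - ((ω g : ℤˣ) : ℤ) • u) ∈ IM ω M
    rw [map_sub, map_smul, hb g u hu]
    exact sub_mem_IM g _
  exact this hv

end Top

end Vale.Agent.P188.H882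

end

section

/-!
Homology of groups with coefficients, in the language of list chains: the framework.
`CM X M = Ch X ⊗ M`, the boundary `bM`, the action `aM ρ g`, the relations `Rl ρ S`
(coinvariants of the unaugmented complex), and the lemmas behind the Wang sequence.
-/

universe u v w

namespace Vale.Agent.P188.H882

open Finsupp TensorProduct

/-- Chains with coefficients in `M`. -/
def CM (X : Type v) (M : Type w) [AddCommGroup M] := Ch X ⊗[ℤ] M

noncomputable instance (X : Type v) (M : Type w) [AddCommGroup M] : AddCommGroup (CM X M) :=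
  inferInstanceAs (AddCommGroup (Ch X ⊗[ℤ] M))

section Basic

variable {X : Type v} {M : Type w} [AddCommGroup M]

/-- Pure tensors. -/
noncomputable def tp (u : Ch X) (m : M) : CM X M := (u ⊗ₜ[ℤ] m : Ch X ⊗[ℤ] M)

lemma tp_add_left (u v : Ch X) (m : M) : tp (u + v) m = tp u m + tp v m :=
  TensorProduct.add_tmul u v m

lemma tp_add_right (u : Ch X) (m n : M) : tp u (m + n) = tp u m + tp u n :=
  TensorProduct.tmul_add u m n

@[simp] lemma tp_zero_left (m : M) : tp (0 : Ch X) m = 0 := TensorProduct.zero_tmul _ m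

@[simp] lemma tp_zero_right (u : Ch X) : tp u (0 : M) = 0 := TensorProduct.tmul_zero _ u

lemma tp_sub_left (u v : Ch X) (m : M) : tp (u - v) m = tp u m - tp v m := by
  rw [eq_sub_iff_add_eq, ← tp_add_left, sub_add_cancel]

lemma tp_sub_right (u : Ch X) (m n : M) : tp u (m - n) = tp u m - tp u n := by
  rw [eq_sub_iff_add_eq, ← tp_add_right, sub_add_cancel]

lemma tp_neg_left (u : Ch X) (m : M) : tp (-u) m = - tp u m := by
  rw [eq_neg_iff_add_eq_zero, ← tp_add_left, neg_add_cancel, tp_zero_left]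

lemma tp_smul_left (a : ℤ) (u : Ch X) (m : M) : tp (a • u) m = a • tp u m := by
  let f : Ch X →+ CM X M := ⟨⟨fun u => tp u m, tp_zero_left m⟩, fun u v => tp_add_left u v m⟩
  exact map_zsmul f a u

lemma tp_smul_right (a : ℤ) (u : Ch X) (m : M) : tp u (a • m) = a • tp u m := by
  let f : M →+ CM X M := ⟨⟨fun m => tp u m, tp_zero_right u⟩, fun m n => tp_add_right u m n⟩
  exact map_zsmul f a m

/-- Induction for `CM`. -/
lemma cm_ind {p : CM X M → Prop} (h0 : p 0) (h1 : ∀ u m, p (tp u m))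
    (h2 : ∀ x y, p x → p y → p (x + y)) (z : CM X M) : p z :=
  TensorProduct.induction_on (motive := p) z h0 h1 h2

/-- Additive maps on `CM` agree if they agree on pure tensors. -/
lemma cm_ext {A : Type*} [AddCommGroup A] {f g : CM X M →+ A}
    (h : ∀ (u : Ch X) (m : M), f (tp u m) = g (tp u m)) (z : CM X M) : f z = g z := by
  induction z using cm_ind with
  | h0 => rw [map_zero, map_zero]
  | h1 u m => exact h u m
  | h2 x y hx hy => rw [map_add, map_add, hx, hy]

/-- An additive map sends `CM` to `S` if it does so for pure tensors. -/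
lemma cm_mem {A : Type*} [AddCommGroup A] {f : CM X M →+ A} {S : AddSubgroup A}
    (h : ∀ (u : Ch X) (m : M), f (tp u m) ∈ S) (z : CM X M) : f z ∈ S := by
  induction z using cm_ind with
  | h0 => rw [map_zero]; exact S.zero_mem
  | h1 u m => exact h u m
  | h2 x y hx hy => rw [map_add]; exact S.add_mem hx hy

/-- The map on chains with coefficients induced by a map on chains. -/
noncomputable def tm {Y : Type*} (T : Ch X →ₗ[ℤ] Ch Y) : CM X M →+ CM Y M :=
  (LinearMap.rTensor M T).toAddMonoidHom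

@[simp] lemma tm_tp {Y : Type*} (T : Ch X →ₗ[ℤ] Ch Y) (u : Ch X) (m : M) :
    tm T (tp u m) = tp (T u) m := rfl

/-- Change of coefficients. -/
noncomputable def cm {M' : Type*} [AddCommGroup M'] (f : M →+ M') : CM X M →+ CM X M' :=
  (LinearMap.lTensor (Ch X) f.toIntLinearMap).toAddMonoidHom

@[simp] lemma cm_tp {M' : Type*} [AddCommGroup M'] (f : M →+ M') (u : Ch X) (m : M) :
    cm f (tp u m) = tp u (f m) := rfl

/-- The boundary with coefficients. -/
noncomputable def bM : CM X M →+ CM X M := tm bd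

@[simp] lemma bM_tp (u : Ch X) (m : M) : bM (tp u m) = tp (bd u) m := rfl

@[simp] lemma bM_bM (z : CM X M) : bM (bM z) = 0 := by
  have := cm_ext (f := bM.comp bM) (g := (0 : CM X M →+ CM X M)) (by intro u m; simp) z
  simpa using this

/-- The projection on length `q`. -/
noncomputable def fM (q : ℕ) : CM X M →+ CM X M := tm (flt q)

@[simp] lemma fM_tp (q : ℕ) (u : Ch X) (m : M) : fM q (tp u m) = tp (flt q u) m := rfl

/-- Chains with coefficients supported on lists of length `q`. -/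
noncomputable def DG (X : Type v) (M : Type w) [AddCommGroup M] (q : ℕ) : AddSubgroup (CM X M) :=
  (fM q).range

lemma fM_mem (q : ℕ) (z : CM X M) : fM q z ∈ DG X M q := ⟨z, rfl⟩

lemma fM_fM (q : ℕ) (z : CM X M) : fM q (fM q z) = fM q z := by
  have := cm_ext (f := (fM (X := X) (M := M) q).comp (fM q)) (g := fM q) (by
    intro u m
    simp only [AddMonoidHom.comp_apply, fM_tp]
    rw [flt_eq (flt_mem q u)]) z
  simpa using this

lemma mem_DG {q : ℕ} {z : CM X M} : z ∈ DG X M q ↔ fM q z = z := by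
  constructor
  · rintro ⟨w, rfl⟩
    exact fM_fM q w
  · intro h
    rw [← h]
    exact fM_mem q z

lemma tp_mem_DG {q : ℕ} {u : Ch X} (hu : u ∈ Sp (Gr q : Set (List X))) (m : M) :
    tp u m ∈ DG X M q := by
  rw [mem_DG, fM_tp, flt_eq hu]

/-- Additive maps agree on `DG q` if they agree on pure tensors of that length. -/
lemma dg_ext {A : Type*} [AddCommGroup A] {q : ℕ} {f g : CM X M →+ A}
    (h : ∀ (u : Ch X) (m : M), u ∈ Sp (Gr q : Set (List X)) → f (tp u m) = g (tp u m))
    {z : CM X M} (hz : z ∈ DG X M q) : f z = g z := by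
  rw [← mem_DG.mp hz]
  exact cm_ext (f := f.comp (fM q)) (g := g.comp (fM q)) (by
    intro u m
    simp only [AddMonoidHom.comp_apply, fM_tp]
    exact h _ _ (flt_mem q u)) z

/-- An additive map sends `DG q` to `S` if it does so for pure tensors of that length. -/
lemma dg_mem {A : Type*} [AddCommGroup A] {q : ℕ} {f : CM X M →+ A} {S : AddSubgroup A}
    (h : ∀ (u : Ch X) (m : M), u ∈ Sp (Gr q : Set (List X)) → f (tp u m) ∈ S)
    {z : CM X M} (hz : z ∈ DG X M q) : f z ∈ S := by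
  rw [← mem_DG.mp hz]
  exact cm_mem (f := f.comp (fM q)) (by
    intro u m
    simp only [AddMonoidHom.comp_apply, fM_tp]
    exact h _ _ (flt_mem q u)) z

lemma tm_mem {Y : Type*} {T : Ch X →ₗ[ℤ] Ch Y} {q q' : ℕ}
    (hT : ∀ u ∈ Sp (Gr q : Set (List X)), T u ∈ Sp (Gr q')) {z : CM X M} (hz : z ∈ DG X M q) :
    tm T z ∈ DG Y M q' :=
  dg_mem (fun u m hu => by rw [tm_tp]; exact tp_mem_DG (hT u hu) m) hz

lemma bM_mem {q : ℕ} {z : CM X M} (hz : z ∈ DG X M (q + 1)) : bM z ∈ DG X M q :=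
  tm_mem (fun _ hu => bd_mem_Gr hu) hz

lemma bM_zero {z : CM X M} (hz : z ∈ DG X M 0) : bM z = 0 := by
  have := dg_ext (f := bM) (g := (0 : CM X M →+ CM X M)) (fun u m hu => by
    rw [bM_tp, bd_of_Gr_zero hu]; simp) hz
  simpa using this

lemma fM_eq_zero {q q' : ℕ} (h : q' ≠ q) {z : CM X M} (hz : z ∈ DG X M q') : fM q z = 0 := by
  have := dg_ext (f := fM q) (g := (0 : CM X M →+ CM X M)) (fun u m hu => by
    rw [fM_tp, flt_eq_zero h hu]; simp) hz
  simpa using this

end Basic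

section Act

variable {P : Type u} [Group P] {X : Type v} [MulAction P X] {M : Type w} [AddCommGroup M]

/-- The diagonal action. -/
noncomputable def aM (ρ : P →* AddMonoid.End M) (g : P) : CM X M →+ CM X M :=
  (TensorProduct.map (act g) (AddMonoidHom.toIntLinearMap (ρ g))).toAddMonoidHom

@[simp] lemma aM_tp (ρ : P →* AddMonoid.End M) (g : P) (u : Ch X) (m : M) :
    aM ρ g (tp u m) = tp (act g u) (ρ g m) := rfl

variable (ρ : P →* AddMonoid.End M)

lemma aM_tm {T : Ch X →ₗ[ℤ] Ch X} {g : P} (h : ∀ u : Ch X, T (act g u) = act g (T u))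
    (z : CM X M) : tm T (aM ρ g z) = aM ρ g (tm T z) := by
  have := cm_ext (f := (tm T).comp (aM ρ g)) (g := (aM ρ g).comp (tm T)) (by
    intro u m; simp [h]) z
  simpa using this

lemma bM_aM (g : P) (z : CM X M) : bM (aM ρ g z) = aM ρ g (bM z) :=
  aM_tm ρ (fun u => bd_act g u) z

lemma fM_aM (g : P) (q : ℕ) (z : CM X M) : fM q (aM ρ g z) = aM ρ g (fM q z) :=
  aM_tm ρ (fun u => flt_act q g u) z

lemma aM_mul (g h : P) (z : CM X M) : aM ρ (g * h) z = aM ρ g (aM ρ h z) := by
  have := cm_ext (f := aM (X := X) ρ (g * h)) (g := (aM ρ g).comp (aM ρ h)) (by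
    intro u m; simp [act_mul]) z
  simpa using this

@[simp] lemma aM_one (z : CM X M) : aM ρ 1 z = z := by
  have := cm_ext (f := aM (X := X) ρ 1) (g := AddMonoidHom.id _) (by
    intro u m; simp [act_one]) z
  simpa using this

lemma aM_aM_inv (g : P) (z : CM X M) : aM ρ g (aM ρ g⁻¹ z) = z := by
  rw [← aM_mul, mul_inv_cancel, aM_one]

lemma aM_mem (g : P) {q : ℕ} {z : CM X M} (hz : z ∈ DG X M q) :
    aM ρ g z ∈ DG X M q :=
  dg_mem (fun u m hu => by rw [aM_tp]; exact tp_mem_DG (act_mem_Gr g hu) _) hz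

/-- The relations: `g u = u` for `g` in `S`, and everything on the empty list. -/
noncomputable def Rl (S : Subgroup P) : AddSubgroup (CM X M) :=
  AddSubgroup.closure {v | ∃ g ∈ S, ∃ u : CM X M, v = aM ρ g u - u} ⊔ DG X M 0

variable {ρ}

lemma sub_mem_Rl {S : Subgroup P} {g : P} (hg : g ∈ S) (u : CM X M) :
    aM ρ g u - u ∈ Rl (X := X) ρ S :=
  AddSubgroup.mem_sup_left (AddSubgroup.subset_closure ⟨g, hg, u, rfl⟩)

lemma DG_le_Rl (S : Subgroup P) : DG X M 0 ≤ Rl ρ S := le_sup_right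

/-- To map `Rl` into a subgroup. -/
lemma Rl_le {S : Subgroup P} {K : AddSubgroup (CM X M)}
    (h1 : ∀ g ∈ S, ∀ u : CM X M, aM ρ g u - u ∈ K) (h2 : DG X M 0 ≤ K) : Rl ρ S ≤ K := by
  apply sup_le _ h2
  apply (AddSubgroup.closure_le K).mpr
  rintro _ ⟨g, hg, u, rfl⟩
  exact h1 g hg u

lemma Rl_mono {S T : Subgroup P} (h : S ≤ T) : Rl (X := X) ρ S ≤ Rl ρ T :=
  Rl_le (fun _ hg u => sub_mem_Rl (h hg) u) (DG_le_Rl T)

/-- Relations are preserved by equivariant maps. -/
lemma tm_Rl {S : Subgroup P} {T : Ch X →ₗ[ℤ] Ch X}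
    (hT : ∀ g ∈ S, ∀ u : Ch X, T (act g u) = act g (T u))
    (hT0 : ∀ z ∈ DG X M 0, tm T z ∈ Rl ρ S) {z : CM X M}
    (hz : z ∈ Rl ρ S) : tm T z ∈ Rl ρ S := by
  have : Rl (X := X) ρ S ≤ (Rl ρ S).comap (tm T) := by
    apply Rl_le
    · intro g hg u
      show tm T (aM ρ g u - u) ∈ Rl ρ S
      rw [map_sub, aM_tm ρ (hT g hg)]
      exact sub_mem_Rl hg _
    · exact hT0
  exact this hz

lemma bM_Rl {S : Subgroup P} {z : CM X M} (hz : z ∈ Rl ρ S) : bM z ∈ Rl ρ S :=
  tm_Rl (fun g _ u => bd_act g u) (fun v hv => by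
    show bM v ∈ _
    rw [bM_zero hv]; exact AddSubgroup.zero_mem _) hz

lemma fM_Rl {S : Subgroup P} {z : CM X M} (q : ℕ) (hz : z ∈ Rl ρ S) : fM q z ∈ Rl ρ S :=
  tm_Rl (fun g _ u => flt_act q g u) (fun v hv => by
    show fM q v ∈ _
    by_cases hq : q = 0
    · subst hq
      exact DG_le_Rl S (fM_mem 0 v)
    · rw [fM_eq_zero (Ne.symm hq) hv]; exact AddSubgroup.zero_mem _) hz

/-- Relations are preserved by elements normalizing the subgroup. -/
lemma aM_Rl {S : Subgroup P} {p : P} (hp : ∀ g ∈ S, p * g * p⁻¹ ∈ S) {z : CM X M}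
    (hz : z ∈ Rl ρ S) : aM ρ p z ∈ Rl ρ S := by
  have : Rl (X := X) ρ S ≤ (Rl ρ S).comap (aM ρ p) := by
    apply Rl_le
    · intro g hg u
      show aM ρ p (aM ρ g u - u) ∈ Rl ρ S
      rw [map_sub, ← aM_mul]
      have e : p * g = (p * g * p⁻¹) * p := by group
      rw [e, aM_mul]
      exact sub_mem_Rl (hp g hg) _
    · intro v hv
      exact DG_le_Rl S (aM_mem ρ p hv)
  exact this hz

/-- Relations of a directed union. -/
lemma exists_finset_Rl {S : Subgroup P} {z : CM X M} (hz : z ∈ Rl ρ S) :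
    ∃ F : Finset P, (F : Set P) ⊆ S ∧ z ∈ Rl ρ (Subgroup.closure (F : Set P)) := by
  classical
  let K : AddSubgroup (CM X M) :=
    { carrier := {z | ∃ F : Finset P, (F : Set P) ⊆ S ∧ z ∈ Rl ρ (Subgroup.closure (F : Set P))}
      add_mem' := by
        rintro a b ⟨F, hF, ha⟩ ⟨F', hF', hb⟩
        refine ⟨F ∪ F', by simpa using ⟨hF, hF'⟩, ?_⟩
        apply AddSubgroup.add_mem
        · exact Rl_mono (Subgroup.closure_mono (by simp)) ha
        · exact Rl_mono (Subgroup.closure_mono (by simp)) hb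
      zero_mem' := ⟨∅, by simp, AddSubgroup.zero_mem _⟩
      neg_mem' := by
        rintro a ⟨F, hF, ha⟩
        exact ⟨F, hF, AddSubgroup.neg_mem _ ha⟩ }
  have : Rl (X := X) ρ S ≤ K := by
    apply Rl_le
    · intro g hg u
      exact ⟨{g}, by simpa using hg, sub_mem_Rl (Subgroup.subset_closure (by simp)) u⟩
    · intro v hv
      exact ⟨∅, by simp, DG_le_Rl _ hv⟩
  exact this hz

end Act

section Wang

variable {P : Type u} [Group P] {X : Type v} [MulAction P X] {M : Type w} [AddCommGroup M]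
variable {ρ : P →* AddMonoid.End M} {N B : Subgroup P} {t : P}

/-- `B = N ⋊ ⟨t⟩`. -/
structure ZExt (N B : Subgroup P) (t : P) : Prop where
  le : N ≤ B
  mem : t ∈ B
  conj : ∀ g ∈ N, t * g * t⁻¹ ∈ N
  conj' : ∀ g ∈ N, t⁻¹ * g * t ∈ N
  gen : ∀ b ∈ B, ∃ i : ℤ, b * t ^ i ∈ N
  free : ∀ i : ℤ, t ^ i ∈ N → i = 0

/-- (W0): the relations of `B` are those of `N` and those of `t`. -/
lemma W0 (h : ZExt N B t) {z : CM X M} (hz : z ∈ Rl ρ B) :
    ∃ r ∈ Rl ρ N, ∃ y : CM X M, z = r + (aM ρ t y - y) := by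
  let K : AddSubgroup (CM X M) := Rl ρ N ⊔ (aM (X := X) ρ t - AddMonoidHom.id _).range
  have key : ∀ y : CM X M, aM ρ t y - y ∈ K := fun y =>
    AddSubgroup.mem_sup_right ⟨y, by simp⟩
  let S' : Subgroup P :=
    { carrier := {g | ∀ u : CM X M, aM ρ g u - u ∈ K}
      mul_mem' := by
        intro a b ha hb u
        rw [aM_mul]
        have e : aM ρ a (aM ρ b u) - u = (aM ρ a (aM ρ b u) - aM ρ b u) + (aM ρ b u - u) := by
          abel
        rw [e]
        exact K.add_mem (ha _) (hb _)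
      one_mem' := by
        intro u
        rw [aM_one, sub_self]
        exact K.zero_mem
      inv_mem' := by
        intro a ha u
        have := ha (aM ρ a⁻¹ u)
        rw [aM_aM_inv] at this
        have e : aM ρ a⁻¹ u - u = - (u - aM ρ a⁻¹ u) := by abel
        rw [e]
        exact K.neg_mem this }
  have hN : N ≤ S' := fun g hg u => AddSubgroup.mem_sup_left (sub_mem_Rl hg u)
  have ht : t ∈ S' := key
  have hB : B ≤ S' := by
    intro b hb
    obtain ⟨i, hi⟩ := h.gen b hb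
    have := S'.mul_mem (hN hi) (S'.inv_mem (S'.zpow_mem ht i))
    simpa using this
  have : Rl (X := X) ρ B ≤ K :=
    Rl_le (fun g hg u => hB hg u) (fun v hv => AddSubgroup.mem_sup_left (DG_le_Rl N hv))
  obtain ⟨r, hr, y', ⟨y, rfl⟩, e⟩ := AddSubgroup.mem_sup.mp (this hz)
  exact ⟨r, hr, y, by rw [← e]; simp⟩

/-- (W0) in degree `q`. -/
lemma W0_deg (h : ZExt N B t) {q : ℕ} {z : CM X M} (hz : z ∈ Rl ρ B) (hq : z ∈ DG X M q) :
    ∃ r ∈ Rl ρ N, r ∈ DG X M q ∧ ∃ y ∈ DG X M q, z = r + (aM ρ t y - y) := by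
  obtain ⟨r, hr, y, e⟩ := W0 h hz
  refine ⟨fM q r, fM_Rl q hr, fM_mem q r, fM q y, fM_mem q y, ?_⟩
  rw [← mem_DG.mp hq, e, map_add, map_sub, fM_aM]

lemma ZExt.zpow_conj (h : ZExt N B t) (j : ℤ) : ∀ g ∈ N, t ^ j * g * (t ^ j)⁻¹ ∈ N := by
  intro g hg
  have key : ∀ k : ℕ, (∀ g ∈ N, t ^ k * g * (t ^ k)⁻¹ ∈ N) ∧
      (∀ g ∈ N, (t ^ k)⁻¹ * g * t ^ k ∈ N) := by
    intro k
    induction k with
    | zero => exact ⟨by simp, by simp⟩
    | succ k ih =>
      refine ⟨fun g hg => ?_, fun g hg => ?_⟩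
      · have := ih.1 _ (h.conj g hg)
        have e : t ^ (k + 1) * g * (t ^ (k + 1))⁻¹ = t ^ k * (t * g * t⁻¹) * (t ^ k)⁻¹ := by
          rw [pow_succ]; group
        rw [e]; exact this
      · have := ih.2 _ (h.conj' g hg)
        have e : (t ^ (k + 1))⁻¹ * g * t ^ (k + 1) = (t ^ k)⁻¹ * (t⁻¹ * g * t) * t ^ k := by
          rw [pow_succ']; group
        rw [e]; exact this
  rcases Int.eq_nat_or_neg j with ⟨k, rfl | rfl⟩
  · have := (key k).1 g hg
    simpa using this
  · have := (key k).2 g hg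
    simpa using this

/-- The height function of an extension by `ℤ`. -/
lemma exists_eta (h : ZExt N B t) (hfree : ∀ (g : P) (x : X), g • x = x → g = 1) :
    ∃ η : X → ℤ, (∀ g ∈ N, ∀ x, η (g • x) = η x) ∧ ∀ x, η (t • x) = η x + 1 := by
  classical
  let rep : X → X := fun x => (Quotient.mk'' x : MulAction.orbitRel.Quotient B X).out
  have hrep : ∀ x, ∃ g : P, g ∈ B ∧ g • rep x = x := by
    intro x
    have : MulAction.orbitRel B X (rep x) x := Quotient.exact' (Quotient.out_eq'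
        (Quotient.mk'' x : MulAction.orbitRel.Quotient B X))
    rw [MulAction.orbitRel_apply] at this
    obtain ⟨g, hg⟩ := this
    have hg' : (g : P) • x = rep x := hg
    exact ⟨(g : P)⁻¹, B.inv_mem g.2, by rw [← hg', inv_smul_smul]⟩
  choose γ hγB hγ using hrep
  have hrepeq : ∀ g ∈ B, ∀ x, rep (g • x) = rep x := by
    intro g hg x
    have : (Quotient.mk'' (g • x) : MulAction.orbitRel.Quotient B X) = Quotient.mk'' x := by
      apply Quotient.sound'
      rw [MulAction.orbitRel_apply]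
      exact ⟨⟨g, hg⟩, rfl⟩
    simp only [rep, this]
  have hγmul : ∀ g ∈ B, ∀ x, γ (g • x) = g * γ x := by
    intro g hg x
    have h2 : γ (g • x) • rep x = g • x := by rw [← hrepeq g hg x]; exact hγ _
    have h3 : (g * γ x)⁻¹ * γ (g • x) = 1 := by
      apply hfree _ (rep x)
      rw [mul_smul, h2, mul_inv_rev, mul_smul, inv_smul_smul]
      exact inv_smul_eq_iff.mpr (hγ x).symm
    exact (inv_mul_eq_one.mp h3).symm
  choose! i hi using h.gen
  -- uniqueness of the exponent
  have uniq : ∀ b ∈ B, ∀ j : ℤ, b * t ^ j ∈ N → i b = j := by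
    intro b hb j hj
    have := N.mul_mem (N.inv_mem (hi b hb)) hj
    have e : (b * t ^ i b)⁻¹ * (b * t ^ j) = t ^ (-(i b) + j) := by
      rw [zpow_add, zpow_neg]; group
    rw [e] at this
    have := h.free _ this
    omega
  refine ⟨fun x => - i (γ x), ?_, ?_⟩
  · intro g hg x
    simp only
    rw [hγmul g (h.le hg)]
    congr 1
    apply uniq _ (B.mul_mem (h.le hg) (hγB x))
    rw [mul_assoc]
    exact N.mul_mem hg (hi _ (hγB x))
  · intro x
    simp only
    rw [hγmul t h.mem]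
    have : i (t * γ x) = i (γ x) - 1 := by
      apply uniq _ (B.mul_mem h.mem (hγB x))
      have := h.conj _ (hi _ (hγB x))
      have e : t * γ x * t ^ (i (γ x) - 1) = t * (γ x * t ^ i (γ x)) * t⁻¹ := by
        rw [zpow_sub_one]; group
      rw [e]; exact this
    omega

/-- The projection on lists of height `i`. -/
noncomputable def hp {X : Type v} (η : X → ℤ) (i : ℤ) : Ch X →ₗ[ℤ] Ch X :=
  Finsupp.linearCombination ℤ (fun l => match l with
    | [] => 0
    | x :: s => if η x = i then single (x :: s) 1 else 0)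

lemma hp_nil {X : Type v} (η : X → ℤ) (i : ℤ) : hp η i (single [] 1) = 0 := by
  simp [hp, Finsupp.linearCombination_single]

lemma hp_cons {X : Type v} (η : X → ℤ) (i : ℤ) (x : X) (s : List X) :
    hp η i (single (x :: s) 1) = if η x = i then single (x :: s) 1 else 0 := by
  simp [hp, Finsupp.linearCombination_single]

lemma hp_act {η : X → ℤ} {g : P} {a : ℤ} (hg : ∀ x, η (g • x) = η x + a) (i : ℤ) (u : Ch X) :
    hp η (i + a) (act g u) = act g (hp η i u) := by
  have : (hp η (i + a) ∘ₗ act g : Ch X →ₗ[ℤ] Ch X) = act g ∘ₗ hp η i := by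
    apply lin_ext
    intro l
    rw [LinearMap.comp_apply, LinearMap.comp_apply, act_single]
    rcases l with _ | ⟨x, s⟩
    · rw [List.map_nil, hp_nil, hp_nil, map_zero]
    · rw [List.map_cons, hp_cons, hp_cons, hg]
      by_cases hx : η x = i
      · rw [if_pos (by rw [hx]), if_pos hx, act_single, List.map_cons]
      · rw [if_neg (fun h => hx (by linarith)), if_neg hx, map_zero]
  exact LinearMap.congr_fun this u

lemma hp_Gr_zero {X : Type v} (η : X → ℤ) (i : ℤ) {u : Ch X}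
    (hu : u ∈ Sp (Gr 0 : Set (List X))) : hp η i u = 0 := by
  have := eq_of_Sp (L := hp η i) (L' := 0) (p := Gr 0) (u := u) (by
    intro l hl
    have : l = [] := List.length_eq_zero_iff.mp hl
    subst this
    rw [hp_nil]; rfl) hu
  simpa using this

lemma hp_cons' {X : Type v} (η : X → ℤ) (i : ℤ) (x : X) (s : List X) (a : ℤ) :
    hp η i (single (x :: s) a) = if η x = i then single (x :: s) a else 0 := by
  have : single (x :: s) a = a • single (x :: s) (1 : ℤ) := by simp
  rw [this, map_smul, hp_cons]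
  split_ifs <;> simp

/-- The heights of a chain are bounded. -/
lemma exists_bound {X : Type v} {M : Type w} [AddCommGroup M] (η : X → ℤ) (z : CM X M) :
    ∃ m₀ : ℕ, ∀ m ≥ m₀, (∀ i : ℤ, i < -m → tm (hp η i) z = 0) ∧
      z - ∑ j ∈ Finset.range (2 * m + 1), tm (hp η (-m + j)) z ∈ DG X M 0 := by
  induction z using cm_ind with
  | h0 => exact ⟨0, fun m _ => ⟨fun i _ => map_zero _, by simp⟩⟩
  | h2 x y hx hy =>
    obtain ⟨m1, h1⟩ := hx
    obtain ⟨m2, h2⟩ := hy
    refine ⟨max m1 m2, fun m hm => ⟨fun i hi => ?_, ?_⟩⟩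
    · rw [map_add, (h1 m (le_trans (le_max_left _ _) hm)).1 i hi,
        (h2 m (le_trans (le_max_right _ _) hm)).1 i hi, add_zero]
    · have := AddSubgroup.add_mem _ (h1 m (le_trans (le_max_left _ _) hm)).2
        (h2 m (le_trans (le_max_right _ _) hm)).2
      simp only [map_add, Finset.sum_add_distrib]
      have e : ∀ a b c d : CM X M, a + b - (c + d) = a - c + (b - d) := by intros; abel
      rw [e]; exact this
  | h1 u m' =>
    induction u using Finsupp.induction_linear with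
    | zero =>
      refine ⟨0, fun m _ => ⟨fun i _ => by simp, by simp⟩⟩
    | add u v hu hv =>
      obtain ⟨m1, h1⟩ := hu
      obtain ⟨m2, h2⟩ := hv
      refine ⟨max m1 m2, fun m hm => ⟨fun i hi => ?_, ?_⟩⟩
      · rw [tp_add_left, map_add, (h1 m (le_trans (le_max_left _ _) hm)).1 i hi,
          (h2 m (le_trans (le_max_right _ _) hm)).1 i hi, add_zero]
      · have := AddSubgroup.add_mem _ (h1 m (le_trans (le_max_left _ _) hm)).2
          (h2 m (le_trans (le_max_right _ _) hm)).2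
        simp only [tp_add_left, map_add, Finset.sum_add_distrib]
        have e : ∀ a b c d : CM X M, a + b - (c + d) = a - c + (b - d) := by intros; abel
        rw [e]; exact this
    | single l a =>
      rcases l with _ | ⟨x, s⟩
      · have h0 : (single ([] : List X) a) ∈ Sp (Gr 0 : Set (List X)) :=
          single_mem_Sp (by simp [Gr]) a
        refine ⟨0, fun m _ => ⟨fun i _ => by rw [tm_tp, hp_Gr_zero η i h0, tp_zero_left], ?_⟩⟩
        have : ∑ j ∈ Finset.range (2 * m + 1), tm (hp η (-m + j)) (tp (single ([] : List X) a) m')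
            = 0 := by
          apply Finset.sum_eq_zero
          intro j _
          rw [tm_tp, hp_Gr_zero η _ h0, tp_zero_left]
        rw [this, sub_zero]
        exact tp_mem_DG h0 m'
      · refine ⟨(η x).natAbs, fun m hm => ⟨fun i hi => ?_, ?_⟩⟩
        · rw [tm_tp, hp_cons', if_neg (by omega), tp_zero_left]
        · have : ∑ j ∈ Finset.range (2 * m + 1), tm (hp η (-m + j)) (tp (single (x :: s) a) m')
              = tp (single (x :: s) a) m' := by
            rw [Finset.sum_eq_single (η x + m).toNat]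
            · rw [tm_tp, hp_cons', if_pos (by omega)]
            · intro j _ hj
              rw [tm_tp, hp_cons', if_neg (by omega), tp_zero_left]
            · intro hj
              exfalso
              apply hj
              rw [Finset.mem_range]
              omega
          rw [this, sub_self]
          exact AddSubgroup.zero_mem _

/-- (W1): the translation minus the identity is injective modulo the relations of `N`. -/
lemma W1 (h : ZExt N B t) (hfree : ∀ (g : P) (x : X), g • x = x → g = 1) {v : CM X M}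
    (hv : aM ρ t v - v ∈ Rl ρ N) : v ∈ Rl ρ N := by
  obtain ⟨η, hηN, hηt⟩ := exists_eta (X := X) h hfree
  have hN : ∀ i : ℤ, ∀ z ∈ Rl (X := X) ρ N, tm (hp η i) z ∈ Rl ρ N := by
    intro i z hz
    apply tm_Rl _ _ hz
    · intro g hg u
      have := hp_act (η := η) (g := g) (a := 0) (fun x => by rw [hηN g hg x, add_zero]) i u
      simpa using this
    · intro z hz
      have : tm (hp η i) z = 0 := by
        have := dg_ext (f := tm (hp η i)) (g := (0 : CM X M →+ CM X M)) (fun u m hu => by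
          rw [tm_tp, hp_Gr_zero η i hu]; simp) hz
        simpa using this
      rw [this]; exact AddSubgroup.zero_mem _
  have ht : ∀ (i : ℤ) (z : CM X M), tm (hp η (i + 1)) (aM ρ t z) = aM ρ t (tm (hp η i) z) := by
    intro i z
    have := cm_ext (f := (tm (hp η (i + 1))).comp (aM ρ t)) (g := (aM ρ t).comp (tm (hp η i))) (by
      intro u m; simp [hp_act hηt]) z
    simpa using this
  have hstep : ∀ i : ℤ, tm (hp η i) v ∈ Rl (X := X) ρ N → tm (hp η (i + 1)) v ∈ Rl ρ N := by
    intro i hi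
    have h1 := hN (i + 1) _ hv
    rw [map_sub, ht] at h1
    have h2 := aM_Rl h.conj hi
    have := AddSubgroup.sub_mem _ h2 h1
    simpa using this
  obtain ⟨m, hm⟩ := exists_bound η v
  obtain ⟨hm1, hm2⟩ := hm m le_rfl
  have hall : ∀ k : ℕ, tm (hp η (-m - 1 + k)) v ∈ Rl (X := X) ρ N := by
    intro k
    induction k with
    | zero =>
      rw [hm1 _ (by push_cast; omega)]; exact AddSubgroup.zero_mem _
    | succ k ih =>
      have := hstep _ ih
      have e : (-(m : ℤ) - 1 + (k : ℤ) + 1) = -m - 1 + ((k + 1 : ℕ) : ℤ) := by push_cast; ring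
      rw [e] at this; exact this
  have hsum : ∑ j ∈ Finset.range (2 * m + 1), tm (hp η (-m + j)) v ∈ Rl (X := X) ρ N := by
    apply AddSubgroup.sum_mem
    intro j _
    have := hall (j + 1)
    have e : (-(m : ℤ) - 1 + ((j + 1 : ℕ) : ℤ)) = -m + j := by push_cast; ring
    rw [e] at this; exact this
  have := AddSubgroup.add_mem _ (DG_le_Rl N hm2) hsum
  simpa using this

end Wang

end Vale.Agent.P188.H882

end

section

/-!
Duality for poly-`ℤ` groups: the extension step.
-/

universe u v w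

namespace Vale.Agent.P188.H882

open Finsupp

variable {G : Type} [Group G] {φ : G →* Multiplicative ℤ} {t : G}

/-- Extension of the orientation character. -/
lemma exists_omega (ht1 : ht φ t = 1) (ω : φ.ker →* ℤˣ)
    (hconj : ∀ (s : G) (g : φ.ker), ω (MulAut.conjNormal s g) = ω g) (ε : ℤˣ) :
    ∃ ωG : G →* ℤˣ, (∀ g : φ.ker, ωG g = ω g) ∧ ωG t = ε := by
  have hmem : ∀ x : G, x * t ^ (- ht φ x) ∈ φ.ker := by
    intro x
    rw [mem_ker_iff_ht, ht_mul, ht_zpow φ ht1]
    ring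
  let fN : G → φ.ker := fun x => ⟨x * t ^ (- ht φ x), hmem x⟩
  refine ⟨MonoidHom.mk' (fun g => ω (fN g) * ε ^ (ht φ g)) ?_, ?_, ?_⟩
  · intro a b
    have e1 : fN (a * b) = fN a * MulAut.conjNormal (t ^ ht φ a) (fN b) := by
      apply Subtype.ext
      rw [Subgroup.coe_mul, MulAut.conjNormal_apply]
      simp only [fN]
      rw [ht_mul, neg_add, zpow_add, zpow_neg, zpow_neg]
      have : (t ^ ht φ a)⁻¹ * (t ^ ht φ b)⁻¹ = (t ^ ht φ b)⁻¹ * (t ^ ht φ a)⁻¹ := by
        rw [← mul_inv_rev, ← mul_inv_rev, ← zpow_add, ← zpow_add, add_comm]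
      rw [this]
      group
    rw [e1, map_mul, hconj, ht_mul, zpow_add]
    exact mul_mul_mul_comm _ _ _ _
  · intro g
    have hg : ht φ (g : G) = 0 := (mem_ker_iff_ht φ (g : G)).mp g.2
    have e : fN g = g := by
      apply Subtype.ext
      simp [fN, hg]
    show ω (fN g) * ε ^ (ht φ (g : G)) = ω g
    rw [e, hg, zpow_zero, mul_one]
  · have e : fN t = 1 := by
      apply Subtype.ext
      simp [fN, ht1]
    show ω (fN t) * ε ^ (ht φ t) = ε
    rw [e, ht1, map_one, one_mul, zpow_one]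

variable {X : Type} [MulAction G X]

lemma twistN (g : G) {M : Type} [AddCommGroup M] [DistribMulAction G M] {b : Ch X →ₗ[ℤ] M}
    (hb : Eqv φ.ker b) (n : φ.ker) (u : Ch X) :
    g • b (act g⁻¹ (act n u)) = n • g • b (act g⁻¹ u) := by
  rw [act_conj, hb, Subgroup.smul_def, Subgroup.smul_def, MulAut.conjNormal_apply, ← mul_smul,
    ← mul_smul]
  congr 1
  group

/-- Solution of `f - t f = - e`. -/
lemma exists_tele (ht1 : ht φ t = 1) (hfree : ∀ (g : G) (x : X), g • x = x → g = 1)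
    {M : Type} [AddCommGroup M] [DistribMulAction G M] {e : Ch X →ₗ[ℤ] M} (he : Eqv φ.ker e) :
    ∃ f : Ch X →ₗ[ℤ] M, Eqv φ.ker f ∧ f (single [] 1) = 0 ∧
      ∀ q : ℕ, ∀ u ∈ Sp (Gr (q + 1) : Set (List X)), f u - t • f (act t⁻¹ u) = - e u := by
  obtain ⟨η, hη⟩ := exists_height φ (X := X) hfree
  let fl : List X → M := fun l => match l with
    | [] => 0
    | x :: s => tele t e (η x) (single (x :: s) 1)
  let f : Ch X →ₗ[ℤ] M := Finsupp.linearCombination ℤ fl
  have hf : ∀ l, f (single l 1) = fl l := by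
    intro l; simp [f, Finsupp.linearCombination_single]
  have htele : ∀ (i : ℤ) (n : φ.ker) (u : Ch X), tele t e i (act n u) = n • tele t e i u := by
    intro i n u
    unfold tele
    rw [smul_add, smul_neg, Finset.smul_sum, Finset.smul_sum]
    congr 1
    · congr 1
      apply Finset.sum_congr rfl
      intro j _
      exact twistN (t ^ j) he n u
    · apply Finset.sum_congr rfl
      intro j _
      have := twistN ((t ^ (j + 1))⁻¹) he n u
      rw [inv_inv] at this
      exact this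
  refine ⟨f, ?_, ?_, ?_⟩
  · intro n u
    have : (f ∘ₗ act n : Ch X →ₗ[ℤ] M) =
        (DistribSMul.toLinearMap ℤ M n) ∘ₗ f := by
      apply lin_ext
      intro l
      rw [LinearMap.comp_apply, LinearMap.comp_apply, DistribSMul.toLinearMap_apply, act_single,
        hf, hf]
      rcases l with _ | ⟨x, s⟩
      · simp [fl]
      · have h0 : η (n • x) = η x := by
          have := hη (n : G) x
          rw [(mem_ker_iff_ht φ (n : G)).mp n.2, zero_add] at this
          exact this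
        have h1 := htele (η x) n (single (x :: s) 1)
        rw [act_single] at h1
        simp only [fl, List.map_cons]
        rw [h0, ← h1, List.map_cons]
    exact LinearMap.congr_fun this u
  · rw [hf]
  · intro q u hu
    have := eq_of_Sp (L := f - (DistribSMul.toLinearMap ℤ M t) ∘ₗ f ∘ₗ act t⁻¹)
      (L' := - e) (p := Gr (q + 1)) (u := u) (by
      intro l hl
      rcases l with _ | ⟨x, s⟩
      · simp [Gr] at hl
      have h0 := hη t⁻¹ x
      rw [ht_inv, ht1] at h0
      have h1 := tele_step t e (η x) (single (x :: s) 1)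
      have e1 : (-1 : ℤ) + η x = η x - 1 := by ring
      rw [e1] at h0
      simp only [LinearMap.sub_apply, LinearMap.comp_apply, LinearMap.neg_apply,
        DistribSMul.toLinearMap_apply]
      rw [act_single] at h1 ⊢
      rw [hf, hf]
      simp only [fl, List.map_cons]
      rw [h0]
      exact h1) hu
    exact this

/-- Equivariance for the kernel and for `t` implies equivariance. -/
lemma eqv_of_t (ht1 : ht φ t = 1) {M : Type} [AddCommGroup M] [DistribMulAction G M]
    {b : Ch X →ₗ[ℤ] M} {q : ℕ}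
    (hN : ∀ (n : φ.ker), ∀ u ∈ Sp (Gr q : Set (List X)), b (act n u) = n • b u)
    (ht : ∀ u ∈ Sp (Gr q : Set (List X)), b (act t u) = t • b u) :
    ∀ (g : G), ∀ u ∈ Sp (Gr q : Set (List X)), b (act g u) = g • b u := by
  let K : Subgroup G :=
    { carrier := {g | ∀ u ∈ Sp (Gr q : Set (List X)), b (act g u) = g • b u}
      mul_mem' := by
        intro x y hx hy u hu
        rw [act_mul, hx _ (act_mem_Gr _ hu), hy u hu, mul_smul]
      one_mem' := by
        intro u _
        rw [act_one, one_smul]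
      inv_mem' := by
        intro a ha u hu
        have := ha (act a⁻¹ u) (act_mem_Gr _ hu)
        rw [act_act_inv] at this
        rw [this, inv_smul_smul] }
  intro g
  have htK : t ∈ K := ht
  have hmem : g * (t ^ (Vale.Agent.P188.ht φ g))⁻¹ ∈ φ.ker := by
    rw [mem_ker_iff_ht, ht_mul, ht_inv, ht_zpow φ ht1]
    ring
  have hnK : g * (t ^ (Vale.Agent.P188.ht φ g))⁻¹ ∈ K := by
    intro u hu
    exact hN ⟨_, hmem⟩ u hu
  have := K.mul_mem hnK (K.zpow_mem htK (Vale.Agent.P188.ht φ g))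
  have h2 : g ∈ K := by simpa using this
  exact h2

/-- The key computation: the value of a cocycle on the new top class. -/
lemma key_value {ω : φ.ker →* ℤˣ} {n : ℕ} {c₀ w : Ch X} {ε : ℤˣ} {ωG : G →* ℤˣ}
    (hωG : ∀ g : φ.ker, ωG g = ω g) (hωt : ωG t = ε)
    (hrel : act t⁻¹ c₀ - (ε : ℤ) • c₀ - bd w ∈ RN ω X (n + 1))
    {M : Type} [AddCommGroup M] [DistribMulAction G M] {b : Ch X →ₗ[ℤ] M}
    (hb : ∀ (g : φ.ker), ∀ u ∈ Sp (Gr (n + 1) : Set (List X)), b (act g u) = g • b u) :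
    t • b (bd w) - (t • b (act t⁻¹ c₀) - b c₀) ∈ IM ωG M := by
  have hle : IM ω M ≤ IM ωG M := by
    apply IM_le
    intro g m
    have := sub_mem_IM (ω := ωG) (M := M) (g : G) m
    rw [hωG] at this
    exact this
  have h1 := smul_mem_IM t (hle (map_RN hb hrel))
  rw [map_sub, map_sub, map_smul, smul_sub, smul_sub] at h1
  -- `c₀ - ε t c₀`
  have h2 := AddSubgroup.zsmul_mem _ (sub_mem_IM (ω := ωG) (M := M) t (b c₀)) (ε : ℤ)
  rw [hωt, smul_sub, smul_smul] at h2
  have e1 : (ε : ℤ) * (ε : ℤ) = 1 := by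
    rw [← Units.val_mul, Int.units_mul_self, Units.val_one]
  rw [e1, one_smul, smul_comm (ε : ℤ) t (b c₀)] at h2
  have h3 := AddSubgroup.neg_mem _ (AddSubgroup.add_mem _ h1 h2)
  convert h3 using 1
  abel

/-- Decomposition of the relations of `G`. -/
lemma IM_decomp (ht1 : ht φ t = 1) {ω : φ.ker →* ℤˣ} {ωG : G →* ℤˣ}
    (hωG : ∀ g : φ.ker, ωG g = ω g) {M : Type} [AddCommGroup M] [DistribMulAction G M] {x : M}
    (hx : x ∈ IM ωG M) : ∃ i ∈ IM ω M, ∃ m : M, x = i + (t • m - ((ωG t : ℤˣ) : ℤ) • m) := by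
  let L : M →+ M := DistribSMul.toAddMonoidHom M t - (zsmulAddGroupHom ((ωG t : ℤˣ) : ℤ))
  have hL : ∀ m, L m = t • m - ((ωG t : ℤˣ) : ℤ) • m := fun m => rfl
  let K : AddSubgroup M := IM ω M ⊔ L.range
  let S' : Subgroup G :=
    { carrier := {g | ∀ m : M, g • m - ((ωG g : ℤˣ) : ℤ) • m ∈ K}
      mul_mem' := by
        intro a b ha hb m
        have e : (a * b) • m - ((ωG (a * b) : ℤˣ) : ℤ) • m =
            (a • b • m - ((ωG a : ℤˣ) : ℤ) • b • m) +
              ((ωG a : ℤˣ) : ℤ) • (b • m - ((ωG b : ℤˣ) : ℤ) • m) := by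
          rw [mul_smul, map_mul, Units.val_mul, mul_smul, smul_sub]
          abel
        rw [e]
        exact K.add_mem (ha _) (K.zsmul_mem (hb _) _)
      one_mem' := by
        intro m
        rw [map_one, Units.val_one, one_smul, one_smul, sub_self]
        exact K.zero_mem
      inv_mem' := by
        intro a ha m
        have h1 := K.zsmul_mem (ha (a⁻¹ • m)) ((ωG a : ℤˣ) : ℤ)
        have e1 : ((ωG a : ℤˣ) : ℤ) * ((ωG a : ℤˣ) : ℤ) = 1 := by
          rw [← Units.val_mul, Int.units_mul_self, Units.val_one]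
        rw [smul_inv_smul, smul_sub, smul_smul, e1, one_smul] at h1
        have h2 := K.neg_mem h1
        rw [neg_sub] at h2
        have e2 : ωG a⁻¹ = ωG a := by
          rw [map_inv, Int.units_inv_eq_self]
        rw [e2]
        exact h2 }
  have hN : ∀ g : φ.ker, (g : G) ∈ S' := by
    intro g m
    rw [hωG]
    exact AddSubgroup.mem_sup_left (sub_mem_IM g m)
  have ht : t ∈ S' := fun m => AddSubgroup.mem_sup_right ⟨m, hL m⟩
  have hall : ∀ g : G, g ∈ S' := by
    intro g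
    have hmem : g * (t ^ (Vale.Agent.P188.ht φ g))⁻¹ ∈ φ.ker := by
      rw [mem_ker_iff_ht, ht_mul, ht_inv, ht_zpow φ ht1]
      ring
    have := S'.mul_mem (hN ⟨_, hmem⟩) (S'.zpow_mem ht (Vale.Agent.P188.ht φ g))
    simpa using this
  have hle : IM ωG M ≤ K := IM_le (fun g m => hall g m)
  obtain ⟨i, hi, y, ⟨m, rfl⟩, e⟩ := AddSubgroup.mem_sup.mp (hle hx)
  exact ⟨i, hi, m, by rw [← e, hL]⟩

/-- The relations of the kernel are stable under `G`. -/
lemma smul_IM_ker {ω : φ.ker →* ℤˣ}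
    (hconj : ∀ (s : G) (g : φ.ker), ω (MulAut.conjNormal s g) = ω g) {M : Type} [AddCommGroup M]
    [DistribMulAction G M] (s : G) {x : M} (hx : x ∈ IM ω M) : s • x ∈ IM ω M := by
  have : IM ω M ≤ (IM ω M).comap (DistribSMul.toAddMonoidHom M s) := by
    apply IM_le
    intro g m
    show s • (g • m - ((ω g : ℤˣ) : ℤ) • m) ∈ IM ω M
    have h1 := sub_mem_IM (ω := ω) (M := M) (MulAut.conjNormal s g) (s • m)
    rw [hconj] at h1
    have e : s • (g • m) = (MulAut.conjNormal s g) • s • m := by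
      rw [Subgroup.smul_def, Subgroup.smul_def, MulAut.conjNormal_apply, ← mul_smul, ← mul_smul]
      congr 1
      group
    rw [smul_sub, e, smul_comm s]
    exact h1
  exact this hx

/-- The extension step. -/
theorem dual_ext (hφ : Function.Surjective φ) {n : ℕ} (hN : Dual φ.ker n)
    (hV : Van φ.ker (n + 2)) : Dual G (n + 1) := by
  obtain ⟨t, htt⟩ := hφ (Multiplicative.ofAdd 1)
  have ht1 : ht φ t = 1 := by simp [ht, htt]
  intro X _ _ hfree
  have hfreeN : ∀ (g : φ.ker) (x : X), g • x = x → g = 1 := by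
    intro g x h
    exact Subtype.ext (hfree (g : G) x h)
  obtain ⟨ω, c₀, hD⟩ := hN X hfreeN
  obtain ⟨ε, hε, w, hw, hrel⟩ := hD.exists_w t⁻¹
  obtain ⟨ωG, hωG, hωt⟩ := exists_omega ht1 ω (fun s g => hD.omega_conj s g) ε
  have hle : ∀ (M : Type) [AddCommGroup M] [DistribMulAction G M], IM ω M ≤ IM ωG M := by
    intro M _ _
    apply IM_le
    intro g m
    have := sub_mem_IM (ω := ωG) (M := M) (g : G) m
    rw [hωG] at this
    exact this
  refine ⟨ωG, act t w, ⟨act_mem_Gr t hw, ?_, ?_, ?_⟩⟩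
  · -- injectivity
    intro M _ _ c hc hcc hmem
    have actN' : ∀ (g : φ.ker) (u : Ch X), c (act g u) = g • c u := fun g u => hc (g : G) u
    obtain ⟨b₀, hb₀, hb₀'⟩ := hV X hfreeN M c actN' hcc
    have hb₀e : Eqv φ.ker b₀ := hb₀
    -- the difference `t b t⁻¹ - b`
    let D : (Ch X →ₗ[ℤ] M) → (Ch X →ₗ[ℤ] M) := fun b =>
      (DistribSMul.toLinearMap ℤ M t) ∘ₗ b ∘ₗ act t⁻¹ - b
    have hD' : ∀ b u, D b u = t • b (act t⁻¹ u) - b u := fun b u => rfl
    have hDe : ∀ b, Eqv φ.ker b → Eqv φ.ker (D b) := by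
      intro b hb g u
      rw [hD', hD', twistN t hb, hb, smul_sub]
    have hec : Coc (n + 1) (D b₀) := by
      intro u hu
      rw [hD', ← bd_act, hb₀' _ (act_mem_Gr _ hu), hb₀' _ hu, hc, smul_inv_smul, sub_self]
    have hval : D b₀ c₀ ∈ IM ωG M := by
      have h := key_value (M := M) hωG hωt hrel (b := b₀) (fun g u _ => hb₀ g u)
      rw [hb₀' _ hw, ← hc] at h
      have h2 := AddSubgroup.sub_mem _ hmem h
      rw [hD']
      convert h2 using 1
      abel
    obtain ⟨i, hi, m, em⟩ := IM_decomp ht1 hωG hval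
    rw [hωt] at em
    obtain ⟨a, ha, hac, ham⟩ := hD.surj M (-((ε : ℤ) • m))
    have hε2 : (ε : ℤ) * (ε : ℤ) = 1 := by
      rw [← Units.val_mul, Int.units_mul_self, Units.val_one]
    have hsm : ∀ x ∈ IM ω M, t • x ∈ IM ω M :=
      fun x hx => smul_IM_ker (fun s g => hD.omega_conj s g) t hx
    have hval2 : D (b₀ + a) c₀ ∈ IM ω M := by
      have h2 := hε M a ha hac
      have h3 := AddSubgroup.zsmul_mem _ ham (ε : ℤ)
      have h4 := hsm _ (AddSubgroup.add_mem _ h2 h3)
      have h5 := AddSubgroup.sub_mem _ (AddSubgroup.add_mem _ hi h4) ham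
      have e1 : (ε : ℤ) • (a c₀ - -((ε : ℤ) • m)) = (ε : ℤ) • a c₀ + m := by
        rw [sub_neg_eq_add, smul_add, smul_smul, hε2, one_smul]
      rw [e1] at h5
      have e2 : D (b₀ + a) c₀ = D b₀ c₀ + (t • a (act t⁻¹ c₀) - a c₀) := by
        rw [hD', hD', LinearMap.add_apply, LinearMap.add_apply, smul_add]
        abel
      rw [e2, em]
      have e3 : a (act t⁻¹ c₀) - (ε : ℤ) • a c₀ + ((ε : ℤ) • a c₀ + m) = a (act t⁻¹ c₀) + m := by
        abel
      rw [e3, smul_add] at h5
      convert h5 using 1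
      abel
    have hac' : Coc (n + 1) (D (b₀ + a)) := by
      intro u hu
      rw [hD', LinearMap.add_apply, LinearMap.add_apply, ← bd_act, hac _ (act_mem_Gr _ hu),
        hac _ hu, add_zero, add_zero]
      have := hec u hu
      rwa [hD', ← bd_act] at this
    obtain ⟨g, hg, hg0, hg1⟩ := hD.inj M (D (b₀ + a)) (hDe _ (hb₀e.add ha)) hac' hval2
    obtain ⟨f, hf, hf0, hft⟩ := exists_tele ht1 hfree hg
    have hfb : ∀ v ∈ Sp (Gr (n + 1) : Set (List X)),
        f (bd v) - t • f (act t⁻¹ (bd v)) = - g (bd v) := by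
      intro v hv
      rcases n with _ | n
      · have h0 : ∀ L : Ch X →ₗ[ℤ] M, L (single [] 1) = 0 → ∀ z ∈ Sp (Gr 0 : Set (List X)),
            L z = 0 := by
          intro L hL z hz
          have := eq_of_Sp (L := L) (L' := 0) (p := Gr 0) (u := z) (by
            intro l hl
            have : l = [] := List.length_eq_zero_iff.mp hl
            subst this
            rw [hL]; rfl) hz
          simpa using this
        have hz := bd_mem_Gr hv
        rw [h0 f hf0 _ hz, h0 f hf0 _ (act_mem_Gr _ hz), h0 g hg0 _ hz, smul_zero, sub_zero,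
          neg_zero]
      · exact hft n (bd v) (bd_mem_Gr hv)
    let b₁ : Ch X →ₗ[ℤ] M := b₀ + a - f ∘ₗ bd
    have hb₁ : ∀ u, b₁ u = (b₀ + a) u - f (bd u) := fun u => rfl
    have hb₁N : ∀ (n' : φ.ker) (u : Ch X), b₁ (act n' u) = n' • b₁ u := by
      intro n' u
      rw [hb₁, hb₁, (hb₀e.add ha) n' u, actN n' u, bd_act, ← actN, hf, smul_sub]
    have hb₁t : ∀ u ∈ Sp (Gr (n + 1) : Set (List X)), b₁ (act t u) = t • b₁ u := by
      intro u hu
      have hv : act t u ∈ Sp (Gr (n + 1) : Set (List X)) := act_mem_Gr _ hu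
      have q1 := hg1 _ hv
      rw [hD', act_inv_act] at q1
      have q2 := hfb _ hv
      rw [bd_act, act_inv_act, ← bd_act, q1] at q2
      rw [hb₁, hb₁, smul_sub]
      rw [← sub_eq_zero]
      rw [← sub_eq_zero] at q2
      rw [← neg_eq_zero, ← q2]
      abel
    have hb₁G := eqv_of_t ht1 (fun n' u _ => hb₁N n' u) hb₁t
    obtain ⟨hE, hE'⟩ := exists_restrict hb₁G
    refine ⟨b₁ ∘ₗ flt (n + 1), hE, ?_, ?_⟩
    · rw [LinearMap.comp_apply, flt_single, if_neg (by simp), map_zero]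
    · intro u hu
      rw [hE' _ (bd_mem_Gr hu), hb₁, bd_bd, map_zero, sub_zero, LinearMap.add_apply, hb₀' _ hu,
        hac _ hu, add_zero]
  · -- coboundaries
    intro M _ _ b hb _
    have h := key_value (M := M) hωG hωt hrel (b := b) (fun g u _ => hb (g : G) u)
    rw [hb, smul_inv_smul, sub_self, sub_zero] at h
    rw [bd_act, hb]
    exact h
  · -- surjectivity
    intro M _ _ m
    obtain ⟨a, ha, hac, ham⟩ := hD.surj M m
    obtain ⟨f, hf, hf0, hft⟩ := exists_tele ht1 hfree ha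
    have hbd : ∀ u ∈ Sp (Gr (n + 1 + 1) : Set (List X)), ∀ g : G,
        (f ∘ₗ bd) (act g u) = g • (f ∘ₗ bd) u := by
      intro u hu g
      apply eqv_of_t (b := f ∘ₗ bd) (q := n + 1 + 1) ht1 _ _ g u hu
      · intro g u _
        rw [LinearMap.comp_apply, LinearMap.comp_apply, actN, bd_act, ← actN, hf]
      · intro u hu
        have h1 := hft n (bd (act t u)) (bd_mem_Gr (act_mem_Gr t hu))
        rw [hac _ (act_mem_Gr t hu), neg_zero, bd_act, act_inv_act] at h1
        rw [LinearMap.comp_apply, LinearMap.comp_apply, bd_act]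
        exact sub_eq_zero.mp h1
    obtain ⟨hE, hE'⟩ := exists_restrict (G := G) (c := f ∘ₗ bd) (q := n + 1 + 1)
      (fun g u hu => hbd u hu g)
    refine ⟨(f ∘ₗ bd) ∘ₗ flt (n + 1 + 1), hE, ?_, ?_⟩
    · intro u hu
      rw [hE' _ (bd_mem_Gr hu), LinearMap.comp_apply, bd_bd, map_zero]
    · rw [hE' _ (act_mem_Gr t hw), hbd w hw t, LinearMap.comp_apply]
      have h := key_value (M := M) hωG hωt hrel (b := f) (fun g u _ => hf g u)
      have h1 := hft n c₀ hD.mem
      have e : t • f (act t⁻¹ c₀) - f c₀ = a c₀ := by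
        rw [← neg_inj, neg_sub]; exact h1
      rw [e] at h
      have h2 := AddSubgroup.add_mem _ h (hle M ham)
      convert h2 using 1
      abel

/-- Duality for poly-`ℤ` groups. -/
theorem dual_of_PolyZ : ∀ (n : ℕ) (G : Type) [Group G], PolyZ n G → Dual G n
  | 0, G, _, h => by
    have : Subsingleton G := h
    exact dual_of_subsingleton G
  | n + 1, G, _, h => by
    obtain ⟨φ, hφ, h'⟩ := h
    exact dual_ext hφ (dual_of_PolyZ n φ.ker h') (Van_of_PolyZ n φ.ker h' _ le_rfl)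

end Vale.Agent.P188.H882

end

section

/-!
The Wang sequence of `B = N ⋊ ⟨t⟩` in the language of `HF`.
-/

universe u v w

namespace Vale.Agent.P188.H882

open Finsupp

variable {P : Type u} [Group P] {X : Type v} [MulAction P X] {M : Type w} [AddCommGroup M]

/-- A chain of length `q` is null for `S`: a boundary modulo the relations. -/
def Null (ρ : P →* AddMonoid.End M) (S : Subgroup P) (q : ℕ) (z : CM X M) : Prop :=
  ∃ w ∈ DG X M (q + 1), z - bM w ∈ Rl ρ S

/-- Vanishing of homology on lists of length `q`. -/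
def HVan (X : Type v) [MulAction P X] (ρ : P →* AddMonoid.End M) (S : Subgroup P) (q : ℕ) :
    Prop :=
  ∀ z ∈ DG X M q, bM z ∈ Rl ρ S → Null ρ S q z

variable {ρ : P →* AddMonoid.End M} {N B S : Subgroup P} {t : P} {q : ℕ}

lemma Null.add {z z' : CM X M} (h : Null ρ S q z) (h' : Null ρ S q z') : Null ρ S q (z + z') := by
  obtain ⟨w, hw, e⟩ := h
  obtain ⟨w', hw', e'⟩ := h'
  refine ⟨w + w', AddSubgroup.add_mem _ hw hw', ?_⟩
  have := AddSubgroup.add_mem _ e e'
  rw [map_add]
  have e2 : z + z' - (bM w + bM w') = z - bM w + (z' - bM w') := by abel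
  rw [e2]; exact this

lemma Null.neg {z : CM X M} (h : Null ρ S q z) : Null ρ S q (-z) := by
  obtain ⟨w, hw, e⟩ := h
  refine ⟨-w, AddSubgroup.neg_mem _ hw, ?_⟩
  have := AddSubgroup.neg_mem _ e
  rw [map_neg]
  have e2 : -z - -bM w = -(z - bM w) := by abel
  rw [e2]; exact this

lemma Null.sub {z z' : CM X M} (h : Null ρ S q z) (h' : Null ρ S q z') : Null ρ S q (z - z') := by
  rw [sub_eq_add_neg]
  exact h.add h'.neg

lemma Null.zero : Null ρ S q (0 : CM X M) :=
  ⟨0, AddSubgroup.zero_mem _, by rw [map_zero, sub_zero]; exact AddSubgroup.zero_mem _⟩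

lemma Null.zsmul {z : CM X M} (h : Null ρ S q z) (k : ℤ) : Null ρ S q (k • z) := by
  obtain ⟨w, hw, e⟩ := h
  refine ⟨k • w, AddSubgroup.zsmul_mem _ hw k, ?_⟩
  rw [map_zsmul, ← smul_sub]
  exact AddSubgroup.zsmul_mem _ e k

lemma Null.sum {ι : Type*} {s : Finset ι} {f : ι → CM X M} (h : ∀ i ∈ s, Null ρ S q (f i)) :
    Null ρ S q (∑ i ∈ s, f i) := by
  classical
  induction s using Finset.induction_on with
  | empty => simpa using Null.zero
  | insert a s ha ih =>
    rw [Finset.sum_insert ha]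
    exact (h a (by simp)).add (ih (fun i hi => h i (by simp [hi])))

lemma Null.mono {S T : Subgroup P} (hST : S ≤ T) {z : CM X M} (h : Null ρ S q z) :
    Null ρ T q z := by
  obtain ⟨w, hw, e⟩ := h
  exact ⟨w, hw, Rl_mono hST e⟩

lemma Null.of_mem {z : CM X M} (h : z ∈ Rl ρ S) : Null ρ S q z :=
  ⟨0, AddSubgroup.zero_mem _, by rw [map_zero, sub_zero]; exact h⟩

lemma Null.of_bM {w : CM X M} (hw : w ∈ DG X M (q + 1)) : Null ρ S q (bM w) :=
  ⟨w, hw, by rw [sub_self]; exact AddSubgroup.zero_mem _⟩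

/-- The action of a normalizing element preserves null chains. -/
lemma Null.act {p : P} (hp : ∀ g ∈ S, p * g * p⁻¹ ∈ S) {z : CM X M} (h : Null ρ S q z) :
    Null ρ S q (aM ρ p z) := by
  obtain ⟨w, hw, e⟩ := h
  refine ⟨aM ρ p w, aM_mem ρ p hw, ?_⟩
  rw [bM_aM, ← map_sub]
  exact aM_Rl hp e

/-- Elements of `S` act trivially modulo null chains. -/
lemma Null.act_sub {p : P} (hp : p ∈ S) (z : CM X M) : Null ρ S q (aM ρ p z - z) :=
  Null.of_mem (sub_mem_Rl hp z)

/-- Null chains have boundary in the relations. -/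
lemma Null.bM {z : CM X M} (h : Null ρ S q z) : bM z ∈ Rl ρ S := by
  obtain ⟨w, _, e⟩ := h
  have := bM_Rl e
  rwa [map_sub, bM_bM, sub_zero] at this

/-- Existence of the connecting class. -/
lemma delta_exists (h : ZExt N B t) (hfree : ∀ (g : P) (x : X), g • x = x → g = 1)
    {z : CM X M} (hz : z ∈ DG X M (q + 1)) (hb : H882.bM z ∈ Rl ρ B) :
    ∃ y ∈ DG X M q, H882.bM z - (aM ρ t y - y) ∈ Rl ρ N ∧ H882.bM y ∈ Rl ρ N := by
  obtain ⟨r, hr, hrq, y, hy, e⟩ := W0_deg h hb (bM_mem hz)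
  refine ⟨y, hy, ?_, ?_⟩
  · rw [e]
    have : r + (aM ρ t y - y) - (aM ρ t y - y) = r := by abel
    rw [this]; exact hr
  · apply W1 h hfree
    have h1 : H882.bM (H882.bM z) = H882.bM r + (aM ρ t (H882.bM y) - H882.bM y) := by
      rw [e, map_add, map_sub, bM_aM]
    rw [bM_bM] at h1
    have h2 : aM ρ t (H882.bM y) - H882.bM y = - H882.bM r := by
      rw [eq_neg_iff_add_eq_zero, add_comm]; exact h1.symm
    rw [h2]
    exact AddSubgroup.neg_mem _ (bM_Rl hr)

/-- Injectivity of the connecting map. -/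
lemma delta_inj (h : ZExt N B t) (hN : HVan X ρ N (q + 1)) {z y : CM X M}
    (hz : z ∈ DG X M (q + 1)) (hzy : H882.bM z - (aM ρ t y - y) ∈ Rl ρ N)
    (hy : Null ρ N q y) : Null ρ B (q + 1) z := by
  obtain ⟨w, hw, e⟩ := hy
  have h1 : H882.bM (z - (aM ρ t w - w)) ∈ Rl ρ N := by
    have h2 : aM ρ t (y - H882.bM w) - (y - H882.bM w) ∈ Rl (X := X) ρ N :=
      AddSubgroup.sub_mem _ (aM_Rl h.conj e) e
    have := AddSubgroup.add_mem _ hzy h2
    rw [map_sub, map_sub, bM_aM]
    rw [map_sub] at this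
    have e2 : H882.bM z - (aM ρ t (H882.bM w) - H882.bM w) = H882.bM z - (aM ρ t y - y) +
      (aM ρ t y - aM ρ t (H882.bM w) - (y - H882.bM w)) := by abel
    rw [e2]; exact this
  have h3 := hN _ (AddSubgroup.sub_mem _ hz (AddSubgroup.sub_mem _ (aM_mem ρ t hw) hw)) h1
  have h4 := (h3.mono h.le).add (Null.act_sub (q := q + 1) h.mem w)
  simpa using h4

/-- The connecting class of a null chain is null. -/
lemma delta_null (h : ZExt N B t) (hfree : ∀ (g : P) (x : X), g • x = x → g = 1)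
    {z y : CM X M} (hz : z ∈ DG X M (q + 1)) (hy : y ∈ DG X M q)
    (hzy : H882.bM z - (aM ρ t y - y) ∈ Rl ρ N)
    (hn : Null ρ B (q + 1) z) : Null ρ N q y := by
  obtain ⟨w, hw, e⟩ := hn
  obtain ⟨r, hr, hrq, x, hx, e2⟩ := W0_deg h e (AddSubgroup.sub_mem _ hz (bM_mem hw))
  refine ⟨x, hx, ?_⟩
  apply W1 h hfree
  have h1 : H882.bM z = H882.bM r + (aM ρ t (H882.bM x) - H882.bM x) := by
    have := congrArg H882.bM e2
    rwa [map_sub, bM_bM, sub_zero, map_add, map_sub, bM_aM] at this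
  rw [h1] at hzy
  have h2 := AddSubgroup.sub_mem _ (bM_Rl hr) hzy
  rw [map_sub]
  have e3 : aM ρ t y - aM ρ t (H882.bM x) - (y - H882.bM x) = H882.bM r -
    (H882.bM r + (aM ρ t (H882.bM x) - H882.bM x) - (aM ρ t y - y)) := by abel
  rw [e3]; exact h2

/-- The connecting class is compatible with the action. -/
lemma delta_conj (h : ZExt N B t) {p : P} (hp : ∀ g ∈ N, p * g * p⁻¹ ∈ N)
    (hpt : t⁻¹ * (p * t * p⁻¹) ∈ N) {z y : CM X M}
    (hzy : H882.bM z - (aM ρ t y - y) ∈ Rl ρ N) :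
    H882.bM (aM ρ p z) - (aM ρ t (aM ρ p y) - aM ρ p y) ∈ Rl ρ N := by
  have h1 := aM_Rl hp hzy
  rw [map_sub, map_sub, ← bM_aM] at h1
  -- `p t y = t n p y`
  have e : aM ρ p (aM ρ t y) = aM ρ t (aM ρ (t⁻¹ * (p * t * p⁻¹)) (aM ρ p y)) := by
    rw [← aM_mul, ← aM_mul, ← aM_mul]
    congr 2
    group
  rw [e] at h1
  have h2 := aM_Rl h.conj (sub_mem_Rl (ρ := ρ) hpt (aM ρ p y))
  rw [map_sub] at h2
  have h3 := AddSubgroup.add_mem _ h1 h2
  convert h3 using 1
  abel

lemma wang_van (h : ZExt N B t) (hfree : ∀ (g : P) (x : X), g • x = x → g = 1)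
    (h1 : HVan X ρ N (q + 1)) (h2 : HVan X ρ N q) : HVan X ρ B (q + 1) := by
  intro z hz hb
  obtain ⟨y, hy, e1, e2⟩ := delta_exists h hfree hz hb
  exact delta_inj h h1 hz e1 (h2 y hy e2)

/-- Homology commutes with directed unions. -/
lemma HVan.union {K : Subgroup P} (h : ∀ F : Finset P, (F : Set P) ⊆ K → ∃ B : Subgroup P,
    (F : Set P) ⊆ B ∧ B ≤ K ∧ HVan X ρ B q) : HVan X ρ K q := by
  intro z hz hb
  obtain ⟨F, hF, e⟩ := exists_finset_Rl hb
  obtain ⟨B, hFB, hBK, hB⟩ := h F hF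
  exact (hB z hz (Rl_mono ((Subgroup.closure_le B).mpr hFB) e)).mono hBK

lemma Null.exists_finset {K : Subgroup P} {z : CM X M} (h : Null ρ K q z) :
    ∃ F : Finset P, (F : Set P) ⊆ K ∧ Null ρ (Subgroup.closure (F : Set P)) q z := by
  obtain ⟨w, hw, e⟩ := h
  obtain ⟨F, hF, e⟩ := exists_finset_Rl e
  exact ⟨F, hF, w, hw, e⟩

end Vale.Agent.P188.H882

end
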