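import Vale.Agent.P188.R.G028
import Vale.Agent.P188.R.G027
import Vale.Agent.P188.R.G030

section

/-! P188, end game: the slab of the group `H`: counting, coarse connectivity, nets. -/

universe u v w

open Pointwise

namespace Vale.Agent.P188.H789

/-- The slab of width `R` of an additive function with values in `ℝ^k`. -/
def SH {H : Type u} {k : ℕ} (χ : H → Fin k → ℝ) (R : ℝ) : Set H := {x | ∀ i, |χ x i| ≤ R}

/-- The data of the end game: a coarse equivalence `F : H → G` and an additive function `χ` on `H`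
at bounded distance from `η ∘ F`. -/
structure Data {H : Type u} {G : Type v} [Group H] [Group G] {k : ℕ}
    (η : G →* Multiplicative (Fin k → ℤ)) (F : H → G) (F' : G → H) (χ : H → Fin k → ℝ)
    (C₀ : ℕ) : Prop where
  coarse : Coarse F
  coarse' : Coarse F'
  close : CloseId (F' ∘ F)
  close' : CloseId (F ∘ F')
  add : ∀ x y, χ (x * y) = χ x + χ y
  near : ∀ (x : H) (i : Fin k), |χ x i - ((Multiplicative.toAdd (η (F x)) i : ℤ) : ℝ)| ≤ C₀

section

variable {H : Type u} {G : Type v} [Group H] [Group G] {k : ℕ}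
  {η : G →* Multiplicative (Fin k → ℤ)} {F : H → G} {F' : G → H} {χ : H → Fin k → ℝ} {C₀ : ℕ}

theorem Data.one (h : Data η F F' χ C₀) (i : Fin k) : χ 1 i = 0 := by
  have := congrFun (h.add 1 1) i
  rw [mul_one, Pi.add_apply] at this
  linarith

theorem Data.mul (h : Data η F F' χ C₀) (x y : H) (i : Fin k) : χ (x * y) i = χ x i + χ y i :=
  congrFun (h.add x y) i

theorem Data.inv (h : Data η F F' χ C₀) (x : H) (i : Fin k) : χ x⁻¹ i = - χ x i := by
  have := h.mul x x⁻¹ i
  rw [mul_inv_cancel, h.one] at this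
  linarith

theorem SH_mono {H : Type u} {χ : H → Fin k → ℝ} {R R' : ℝ} (h : R ≤ R') : SH χ R ⊆ SH χ R' :=
  fun _ hx i => (hx i).trans h

theorem Data.mul_mem (h : Data η F F' χ C₀) {R R' : ℝ} {x y : H} (hx : x ∈ SH χ R)
    (hy : y ∈ SH χ R') : x * y ∈ SH χ (R + R') := by
  intro i
  rw [h.mul]
  exact (abs_add_le _ _).trans (add_le_add (hx i) (hy i))

theorem Data.inv_mem (h : Data η F F' χ C₀) {R : ℝ} {x : H} (hx : x ∈ SH χ R) :
    x⁻¹ ∈ SH χ R := by
  intro i
  rw [h.inv, abs_neg]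
  exact hx i

omit [Group H] in
theorem exists_SH_finite {S : Set H} (hS : S.Finite) (χ : H → Fin k → ℝ) :
    ∃ R : ℕ, S ⊆ SH χ R := by
  have h1 : ∀ x : H, ∃ R : ℕ, x ∈ SH χ R := by
    intro x
    obtain ⟨n, hn⟩ := exists_nat_ge (∑ i, |χ x i|)
    exact ⟨n, fun i => (Finset.single_le_sum (f := fun i => |χ x i|) (fun _ _ => abs_nonneg _)
      (Finset.mem_univ i)).trans hn⟩
  choose f hf using h1
  obtain ⟨M, hM⟩ := (hS.image f).bddAbove
  refine ⟨M, fun x hx => SH_mono ?_ (hf x)⟩
  exact_mod_cast hM ⟨x, hx, rfl⟩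

theorem Data.slab (h : Data η F F' χ C₀) {R : ℕ} {x : H} (hx : x ∈ SH χ (R : ℝ)) :
    F x ∈ Slab η (R + C₀) := by
  intro i
  by_cases hi : i < k
  · have h1 := hx ⟨i, hi⟩
    have h2 := h.near x ⟨i, hi⟩
    have h3 : |(cz η (F x) i : ℝ)| ≤ R + C₀ := by
      unfold cz
      rw [dif_pos hi]
      have e : ((Multiplicative.toAdd (η (F x)) ⟨i, hi⟩ : ℤ) : ℝ) =
        χ x ⟨i, hi⟩ - (χ x ⟨i, hi⟩ - ((Multiplicative.toAdd (η (F x)) ⟨i, hi⟩ : ℤ) : ℝ)) := by ring
      rw [e]
      exact (abs_sub _ _).trans (add_le_add h1 h2)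
    have h4 : (((cz η (F x) i).natAbs : ℕ) : ℝ) ≤ ((R + C₀ : ℕ) : ℝ) := by
      rw [Nat.cast_natAbs, Int.cast_abs]
      push_cast
      exact h3
    exact_mod_cast h4
  · unfold cz
    rw [dif_neg hi]
    simp

/-- Counting in the slab of `H`. -/
theorem Data.count (h : Data η F F' χ C₀) (hη : Function.Surjective η)
    {A : Set G} (hA : A.Finite)
    (hcl : Subgroup.closure A = η.ker) {C D : ℕ} (hgr : ∀ n, (Bl A n).ncard ≤ C * (n + 1) ^ D)
    {B : Set H} (hB : B.Finite) :
    ∃ C' : ℕ, 1 ≤ C' ∧ ∀ R m : ℕ, {x | PathTo (SH χ R) B m 1 x}.Finite ∧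
      {x | PathTo (SH χ R) B m 1 x}.ncard ≤ C' ^ (R + 1) * (m + 1) ^ D := by
  obtain ⟨B', hB', hF⟩ := h.coarse B hB
  obtain ⟨C₁, hC₁, h1⟩ := slab_count η hη hA hcl hgr hB'
  obtain ⟨E, hE, hEc⟩ := h.close
  obtain ⟨r, hr⟩ := exists_slab η (F 1)⁻¹
  refine ⟨C₁ ^ (C₀ + r + 1) * (E.ncard + 1), Nat.mul_pos (Nat.pow_pos hC₁) (by omega),
    fun R m => ?_⟩
  set T : Set G := {x | PathTo (Slab η (R + C₀ + r)) B' m 1 x} with hT
  have hTf := (h1 (R + C₀ + r) m).1
  let f : H → G × H := fun x => ((F 1)⁻¹ * F x, x⁻¹ * F' (F x))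
  have hmaps : ∀ x ∈ {x | PathTo (SH χ R) B m 1 x}, f x ∈ T ×ˢ E := by
    intro x hx
    refine ⟨?_, hEc x⟩
    have h2 := PathTo.map (P' := Slab η (R + C₀)) (B' := B') hx F (fun z hz => h.slab hz)
      (fun z w hzw => hF z w hzw)
    have h3 := h2.left (F 1)⁻¹ (P' := Slab η (R + C₀ + r)) (fun z hz => by
      have := mul_mem_Slab hr hz
      rwa [add_comm r] at this)
    rwa [inv_mul_cancel] at h3
  have hinj : Function.Injective f := by
    intro x y hxy
    simp only [f, Prod.mk.injEq] at hxy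
    have e1 : F x = F y := mul_left_cancel hxy.1
    have e2 := hxy.2
    rw [e1] at e2
    exact inv_injective (mul_right_cancel e2)
  have hfin : {x | PathTo (SH χ R) B m 1 x}.Finite :=
    Set.Finite.of_injOn hmaps hinj.injOn (hTf.prod hE)
  refine ⟨hfin, ?_⟩
  calc {x | PathTo (SH χ R) B m 1 x}.ncard ≤ (T ×ˢ E).ncard :=
        Set.ncard_le_ncard_of_injOn f hmaps hinj.injOn (hTf.prod hE)
    _ = T.ncard * E.ncard := Set.ncard_prod
    _ ≤ (C₁ ^ (R + C₀ + r + 1) * (m + 1) ^ D) * (E.ncard + 1) :=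
        Nat.mul_le_mul (h1 _ m).2 (by omega)
    _ ≤ (C₁ ^ ((C₀ + r + 1) * (R + 1)) * (m + 1) ^ D) * (E.ncard + 1) ^ (R + 1) :=
        Nat.mul_le_mul (Nat.mul_le_mul_right _ (Nat.pow_le_pow_right hC₁ (by nlinarith)))
          (Nat.le_self_pow (by omega) _)
    _ = (C₁ ^ (C₀ + r + 1) * (E.ncard + 1)) ^ (R + 1) * (m + 1) ^ D := by
        rw [mul_pow, pow_mul]; ring

/-- A finite net of the slab of `H`. -/
theorem exists_net {H : Type u} (χ : H → Fin k → ℝ) (R : ℝ) {c : ℝ} (hc : 0 < c) :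
    ∃ Φ : Set H, Φ.Finite ∧ Φ ⊆ SH χ R ∧ ∀ x ∈ SH χ R, ∃ s ∈ Φ, ∀ i, |χ x i - χ s i| ≤ c := by
  classical
  let g : H → Fin k → ℤ := fun x i => ⌊χ x i / c⌋
  have hfin : (g '' SH χ R).Finite := by
    refine (Set.Finite.subset (Fintype.piFinset fun _ : Fin k =>
      Finset.Icc (-⌈|R| / c⌉ - 1) (⌈|R| / c⌉)).finite_toSet ?_)
    rintro _ ⟨x, hx, rfl⟩
    simp only [Finset.mem_coe, Fintype.mem_piFinset, Finset.mem_Icc, g]
    intro i
    have h1 : |χ x i| ≤ |R| := (hx i).trans (le_abs_self R)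
    have h2 : χ x i / c ≤ |R| / c := div_le_div_of_nonneg_right ((le_abs_self _).trans h1) hc.le
    have h3 : -(|R| / c) ≤ χ x i / c := by
      rw [← neg_div]
      exact div_le_div_of_nonneg_right (by linarith [neg_abs_le (χ x i)]) hc.le
    constructor
    · rw [Int.le_floor]
      push_cast
      linarith [Int.le_ceil (|R| / c)]
    · have h4 : (⌊χ x i / c⌋ : ℝ) ≤ ⌈|R| / c⌉ :=
        (Int.floor_le _).trans (h2.trans (Int.le_ceil _))
      exact_mod_cast h4
  have : Finite ↥(g '' SH χ R) := hfin.to_subtype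
  have hch : ∀ v : ↥(g '' SH χ R), ∃ x : H, x ∈ SH χ R ∧ g x = v := fun v => v.2
  choose f hf1 hf2 using hch
  refine ⟨Set.range f, Set.finite_range f, ?_, fun x hx => ?_⟩
  · rintro _ ⟨v, rfl⟩
    exact hf1 v
  · refine ⟨f ⟨g x, x, hx, rfl⟩, ⟨_, rfl⟩, fun i => ?_⟩
    have h1 := congrFun (hf2 ⟨g x, x, hx, rfl⟩) i
    simp only [g] at h1
    set s := f ⟨g x, x, hx, rfl⟩ with hs
    have h2 : |χ s i / c - χ x i / c| < 1 := Int.abs_sub_lt_one_of_floor_eq_floor h1
    rw [← sub_div, abs_div, abs_of_pos hc, div_lt_one hc] at h2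
    rw [abs_sub_comm]
    exact h2.le

end

end Vale.Agent.P188.H789

end

section

/-! P188, end game: the Milnor step for elements with small `χ`. -/

universe u v w

open Pointwise Filter

namespace Vale.Agent.P188.H789

theorem exists_exp_gt (K a D : ℕ) : ∃ N : ℕ, K * (a * N + 1) ^ D < 2 ^ N := by
  have h := tendsto_pow_const_div_const_pow_of_one_lt D (r := (2 : ℝ)) (by norm_num)
  have h2 : ∀ᶠ N : ℕ in atTop, (N : ℝ) ^ D / 2 ^ N < 1 / (K * (a + 1) ^ D + 1) :=
    h.eventually (gt_mem_nhds (by positivity))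
  obtain ⟨N, hN, hN1⟩ := (h2.and (eventually_ge_atTop 1)).exists
  refine ⟨N, ?_⟩
  have h3 : ((K * (a * N + 1) ^ D : ℕ) : ℝ) < ((2 ^ N : ℕ) : ℝ) := by
    push_cast
    have hN1' : (1 : ℝ) ≤ N := by exact_mod_cast hN1
    rw [div_lt_div_iff₀ (by positivity) (by positivity)] at hN
    have h4 : ((a : ℝ) * N + 1) ^ D ≤ ((a + 1) * N) ^ D :=
      pow_le_pow_left₀ (by positivity) (by nlinarith) D
    calc (K : ℝ) * ((a : ℝ) * N + 1) ^ D ≤ K * ((a + 1) * N) ^ D :=
          mul_le_mul_of_nonneg_left h4 (Nat.cast_nonneg _)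
      _ = N ^ D * (K * (a + 1) ^ D) := by rw [mul_pow]; ring
      _ ≤ N ^ D * (K * (a + 1) ^ D + 1) :=
          mul_le_mul_of_nonneg_left (by linarith) (by positivity)
      _ < 1 * 2 ^ N := hN
      _ = 2 ^ N := one_mul _
  exact_mod_cast h3

section Words

variable {H : Type u} [Group H]

/-- The ordered products of the elements `y i`, `i < n`, with `e i = true`. -/
def wprod (y : ℕ → H) (e : ℕ → Bool) : ℕ → H
  | 0 => 1
  | n + 1 => wprod y e n * (if e n then y n else 1)

theorem wprod_mem (y : ℕ → H) (e : ℕ → Bool) (n : ℕ) :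
    wprod y e n ∈ Subgroup.closure {x | ∃ i < n, x = y i} := by
  induction n with
  | zero => exact Subgroup.one_mem _
  | succ n ih =>
    refine Subgroup.mul_mem _ (Subgroup.closure_mono ?_ ih) ?_
    · rintro x ⟨i, hi, rfl⟩
      exact ⟨i, by omega, rfl⟩
    · split_ifs
      · exact Subgroup.subset_closure ⟨n, by omega, rfl⟩
      · exact Subgroup.one_mem _

theorem wprod_inj (y : ℕ → H)
    (hy : ∀ n, y n ∉ Subgroup.closure {x | ∃ i < n, x = y i}) (e e' : ℕ → Bool) (n : ℕ)
    (h : wprod y e n = wprod y e' n) : ∀ i < n, e i = e' i := by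
  induction n with
  | zero => intro i hi; omega
  | succ n ih =>
    rw [wprod, wprod] at h
    have hn : e n = e' n := by
      by_contra hne
      have hcase : (e n = true ∧ e' n = false) ∨ (e n = false ∧ e' n = true) := by
        cases h1 : e n <;> cases h2 : e' n <;> simp_all
      rcases hcase with ⟨h1, h2⟩ | ⟨h1, h2⟩
      · rw [h1, h2] at h
        simp only [if_true, Bool.false_eq_true, if_false, mul_one] at h
        refine hy n ?_
        have : y n = (wprod y e n)⁻¹ * wprod y e' n := by rw [← h]; group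
        rw [this]
        exact Subgroup.mul_mem _ (Subgroup.inv_mem _ (wprod_mem y e n)) (wprod_mem y e' n)
      · rw [h1, h2] at h
        simp only [if_true, Bool.false_eq_true, if_false, mul_one] at h
        refine hy n ?_
        have : y n = (wprod y e' n)⁻¹ * wprod y e n := by rw [h]; group
        rw [this]
        exact Subgroup.mul_mem _ (Subgroup.inv_mem _ (wprod_mem y e' n)) (wprod_mem y e n)
    rw [hn] at h
    have h1 := mul_right_cancel h
    intro i hi
    by_cases hin : i = n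
    · rw [hin, hn]
    · exact ih h1 i (by omega)

end Words

section

variable {H : Type u} {G : Type v} [Group H] [Group G] {k : ℕ}
  {η : G →* Multiplicative (Fin k → ℤ)} {F : H → G} {F' : G → H} {χ : H → Fin k → ℝ} {C₀ : ℕ}

/-- Every element is the end of a path with steps in a symmetric generating set. -/
theorem exists_path_gen {S : Set H} (hS : Subgroup.closure S = ⊤) (χ : H → Fin k → ℝ) (g : H) :
    ∃ n r : ℕ, PathTo (SH χ r) (S ∪ S⁻¹ ∪ {1}) n 1 g := by
  obtain ⟨n, l, -, hl, hp⟩ := exists_mem_Bl (A := S) (x := g) (by rw [hS]; trivial)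
  obtain ⟨r, hr⟩ := exists_SH_finite
    (S := (fun j => (1 : H) * (l.take j).prod) '' Set.Iic l.length) ((Set.finite_Iic _).image _) χ
  refine ⟨l.length, r, ?_⟩
  have := PathTo.of_list (P := SH χ r) (B := S ∪ S⁻¹ ∪ {1}) l 1 (fun a ha => Or.inl (hl a ha))
    (fun j hj => hr ⟨j, hj, rfl⟩)
  rwa [hp, one_mul] at this

theorem Data.pow (h : Data η F F' χ C₀) (t : H) (n : ℕ) (i : Fin k) :
    χ (t ^ n) i = n * χ t i := by
  induction n with
  | zero => rw [pow_zero, h.one]; simp
  | succ n ih => rw [pow_succ, h.mul, ih]; push_cast; ring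

/-- The Milnor step: if `χ t` is small, the conjugates of `y ∈ ker χ` by the powers of `t`
generate a finitely generated group. -/
theorem Data.milnor (h : Data η F F' χ C₀) (hη : Function.Surjective η)
    {A : Set G} (hA : A.Finite)
    (hcl : Subgroup.closure A = η.ker) {C D : ℕ} (hgr : ∀ n, (Bl A n).ncard ≤ C * (n + 1) ^ D)
    {S : Set H} (hSf : S.Finite) (hS : Subgroup.closure S = ⊤) :
    ∃ c : ℝ, 0 < c ∧ ∀ t ∈ SH χ c, ∀ y : H, (∀ i, χ y i = 0) →
      ∃ n : ℕ, t ^ n * y * (t ^ n)⁻¹ ∈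
        Subgroup.closure {x | ∃ i < n, x = t ^ i * y * (t ^ i)⁻¹} := by
  classical
  set B : Set H := S ∪ S⁻¹ ∪ {1} with hB
  have hBf : B.Finite := (hSf.union hSf.inv).union (Set.finite_singleton 1)
  have h1B : (1 : H) ∈ B := Or.inr rfl
  obtain ⟨C', hC', hcount⟩ := h.count hη hA hcl hgr hBf
  -- `C' ≤ 2 ^ p`
  obtain ⟨p, hp1, hp⟩ : ∃ p : ℕ, 1 ≤ p ∧ C' ≤ 2 ^ p :=
    ⟨C', hC', Nat.lt_two_pow_self.le⟩
  refine ⟨1 / (2 * p), by positivity, fun t ht y hy => ?_⟩
  by_contra hcon
  push Not at hcon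
  set z : ℕ → H := fun i => t ^ i * y * (t ^ i)⁻¹ with hz
  have hzn : ∀ n, z n ∉ Subgroup.closure {x | ∃ i < n, x = z i} := hcon
  -- the two steps
  obtain ⟨n₁, r₁, hp₁⟩ := exists_path_gen hS χ t
  obtain ⟨n₂, r₂, hp₂⟩ := exists_path_gen hS χ (y * t)
  set ℓ := max n₁ n₂ with hℓ
  set r := max r₁ r₂ with hr
  have hq₁ : PathTo (SH χ (r : ℝ)) B ℓ 1 t :=
    (hp₁.mono (SH_mono (by exact_mod_cast le_max_left _ _)) subset_rfl).extend h1B (le_max_left _ _)
  have hq₂ : PathTo (SH χ (r : ℝ)) B ℓ 1 (y * t) :=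
    (hp₂.mono (SH_mono (by exact_mod_cast le_max_right _ _)) subset_rfl).extend h1B
      (le_max_right _ _)
  -- the points
  have hχz : ∀ e n i, χ (wprod z e n) i = 0 := by
    intro e n i
    induction n with
    | zero => exact h.one i
    | succ n ih =>
      rw [wprod, h.mul, ih]
      split_ifs
      · rw [hz]
        simp only [h.mul, h.inv, hy]
        ring
      · rw [h.one]; ring
  have hpt : ∀ (N : ℕ) (e : ℕ → Bool) (n : ℕ), n ≤ 2 * p * N →
      PathTo (SH χ ((N + r : ℕ) : ℝ)) B (n * ℓ) 1 (wprod z e n * t ^ n) := by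
    intro N e n
    induction n with
    | zero =>
      intro _
      rw [wprod, pow_zero, mul_one, Nat.zero_mul]
      exact PathTo.refl (fun i => by rw [h.one, abs_zero]; positivity)
    | succ n ih =>
      intro hn
      have h1 := ih (by omega)
      have hbase : wprod z e n * t ^ n ∈ SH χ (N : ℝ) := by
        intro i
        rw [h.mul, hχz, zero_add, h.pow, abs_mul, Nat.abs_cast]
        have h3 : |χ t i| ≤ 1 / (2 * p) := ht i
        have h4 : (n : ℝ) ≤ 2 * p * N := by exact_mod_cast (by omega : n ≤ 2 * p * N)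
        have hp0 : (0 : ℝ) < 2 * p := by positivity
        calc (n : ℝ) * |χ t i| ≤ (2 * p * N) * (1 / (2 * p)) :=
              mul_le_mul h4 h3 (abs_nonneg _) (by positivity)
          _ = N := by field_simp
      have hstep : ∀ w, PathTo (SH χ (r : ℝ)) B ℓ 1 w →
          PathTo (SH χ ((N + r : ℕ) : ℝ)) B ℓ (wprod z e n * t ^ n) (wprod z e n * t ^ n * w) := by
        intro w hw
        have := hw.left (wprod z e n * t ^ n) (P' := SH χ ((N + r : ℕ) : ℝ)) (fun x hx => by
          push_cast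
          exact h.mul_mem hbase hx)
        rwa [mul_one] at this
      have e1 : (n + 1) * ℓ = n * ℓ + ℓ := by ring
      rw [e1, wprod]
      split_ifs with he
      · have h5 := h1.trans (hstep _ hq₂)
        have e2 : wprod z e n * t ^ n * (y * t) = wprod z e n * z n * t ^ (n + 1) := by
          rw [hz, pow_succ]
          group
        rwa [e2] at h5
      · have h5 := h1.trans (hstep _ hq₁)
        have e2 : wprod z e n * t ^ n * t = wprod z e n * 1 * t ^ (n + 1) := by
          rw [mul_one, pow_succ, mul_assoc]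
        rwa [e2] at h5
  -- the counting
  obtain ⟨N, hN⟩ := exists_exp_gt (2 ^ (p * (r + 1))) (2 * p * ℓ) D
  set n := 2 * p * N with hn
  have hcard : 2 ^ n ≤ {x | PathTo (SH χ ((N + r : ℕ) : ℝ)) B (n * ℓ) 1 x}.ncard := by
    let f : (Fin n → Bool) → H := fun e =>
      wprod z (fun i => if h : i < n then e ⟨i, h⟩ else false) n * t ^ n
    have hinj : Function.Injective f := by
      intro e e' hee
      have h1 := mul_right_cancel hee
      have h2 := wprod_inj z hzn _ _ n h1
      funext i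
      have := h2 i i.2
      simpa using this
    have hsub : Set.range f ⊆ {x | PathTo (SH χ ((N + r : ℕ) : ℝ)) B (n * ℓ) 1 x} := by
      rintro _ ⟨e, rfl⟩
      exact hpt N _ n le_rfl
    have h1 : (Set.range f).ncard = 2 ^ n := by
      rw [Set.ncard_eq_toFinset_card', Set.toFinset_range, Finset.card_image_of_injective _ hinj]
      simp
    rw [← h1]
    exact Set.ncard_le_ncard hsub (hcount (N + r) (n * ℓ)).1
  have h1 := hcard.trans (hcount (N + r) (n * ℓ)).2
  have h2 : C' ^ (N + r + 1) ≤ 2 ^ (p * N) * 2 ^ (p * (r + 1)) := by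
    calc C' ^ (N + r + 1) ≤ (2 ^ p) ^ (N + r + 1) := Nat.pow_le_pow_left hp _
      _ = 2 ^ (p * N) * 2 ^ (p * (r + 1)) := by rw [← pow_mul, ← pow_add]; congr 1; ring
  have h3 : 2 ^ n ≤ 2 ^ (p * N) * (2 ^ (p * (r + 1)) * (2 * p * ℓ * N + 1) ^ D) := by
    calc 2 ^ n ≤ C' ^ (N + r + 1) * (n * ℓ + 1) ^ D := h1
      _ ≤ (2 ^ (p * N) * 2 ^ (p * (r + 1))) * (n * ℓ + 1) ^ D := Nat.mul_le_mul_right _ h2
      _ = 2 ^ (p * N) * (2 ^ (p * (r + 1)) * (2 * p * ℓ * N + 1) ^ D) := by
          rw [hn, mul_assoc]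
          congr 3
          ring
  have h4 : 2 ^ n < 2 ^ (p * N) * 2 ^ N :=
    h3.trans_lt (Nat.mul_lt_mul_of_pos_left hN (Nat.pow_pos (by norm_num)))
  have h5 : 2 ^ (p * N) * 2 ^ N ≤ 2 ^ n := by
    rw [← pow_add]
    refine Nat.pow_le_pow_right (by norm_num) ?_
    rw [hn]
    nlinarith
  omega

end

end Vale.Agent.P188.H789

end

section

/-! P188, abstract end game: an additive function `χ` on `H` such that the slabs have polynomial
growth and are connected up to a sublinear error. -/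

universe u v w

open Pointwise Filter

namespace Vale.Agent.P188.H789

section

variable {H : Type u} [Group H] {k : ℕ} {χ : H → Fin k → ℝ}

/-- `χ` is additive. -/
structure Addv (χ : H → Fin k → ℝ) : Prop where
  add : ∀ x y, χ (x * y) = χ x + χ y

theorem Addv.one (h : Addv χ) (i : Fin k) : χ 1 i = 0 := by
  have := congrFun (h.add 1 1) i
  rw [mul_one, Pi.add_apply] at this
  linarith

theorem Addv.mul (h : Addv χ) (x y : H) (i : Fin k) : χ (x * y) i = χ x i + χ y i :=
  congrFun (h.add x y) i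

theorem Addv.inv (h : Addv χ) (x : H) (i : Fin k) : χ x⁻¹ i = - χ x i := by
  have := h.mul x x⁻¹ i
  rw [mul_inv_cancel, h.one] at this
  linarith

theorem Addv.mul_mem (h : Addv χ) {R R' : ℝ} {x y : H} (hx : x ∈ SH χ R)
    (hy : y ∈ SH χ R') : x * y ∈ SH χ (R + R') := by
  intro i
  rw [h.mul]
  exact (abs_add_le _ _).trans (add_le_add (hx i) (hy i))

theorem Addv.inv_mem (h : Addv χ) {R : ℝ} {x : H} (hx : x ∈ SH χ R) :
    x⁻¹ ∈ SH χ R := by
  intro i
  rw [h.inv, abs_neg]
  exact hx i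

theorem Addv.pow (h : Addv χ) (t : H) (n : ℕ) (i : Fin k) :
    χ (t ^ n) i = n * χ t i := by
  induction n with
  | zero => rw [pow_zero, h.one]; simp
  | succ n ih => rw [pow_succ, h.mul, ih]; push_cast; ring

/-- The kernel of `χ`. -/
def Addv.ker (h : Addv χ) : Subgroup H where
  carrier := {x | ∀ i, χ x i = 0}
  one_mem' := h.one
  mul_mem' := by
    intro x y hx hy i
    rw [h.mul, hx i, hy i, add_zero]
  inv_mem' := by
    intro x hx i
    rw [h.inv, hx i, neg_zero]

theorem Addv.mem_ker (h : Addv χ) (x : H) : x ∈ h.ker ↔ ∀ i, χ x i = 0 := Iff.rfl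

theorem Addv.ker_normal (h : Addv χ) : h.ker.Normal := by
  constructor
  intro n hn g i
  rw [h.mul, h.mul, h.inv, (h.mem_ker n).mp hn i]
  ring

theorem Addv.comm_mem (h : Addv χ) (x y : H) : x * y * x⁻¹ * y⁻¹ ∈ h.ker := by
  intro i
  simp only [h.mul, h.inv]
  ring

/-- Polynomial growth of the slabs, with an exponential dependence on the width. -/
def SlabGrowth (χ : H → Fin k → ℝ) (S : Set H) (C D : ℕ) : Prop :=
  ∀ R m : ℕ, {x | PathTo (SH χ R) (S ∪ S⁻¹ ∪ {1}) m 1 x}.Finite ∧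
    {x | PathTo (SH χ R) (S ∪ S⁻¹ ∪ {1}) m 1 x}.ncard ≤ C ^ (R + 1) * (m + 1) ^ D

/-- The Milnor step: if `χ t` is small, the conjugates of `y ∈ ker χ` by the powers of `t`
generate a finitely generated group. -/
theorem Addv.milnor (h : Addv χ) {C' D : ℕ} (hC' : 1 ≤ C')
    {S : Set H} (hS : Subgroup.closure S = ⊤) (hcount : SlabGrowth χ S C' D) :
    ∃ c : ℝ, 0 < c ∧ ∀ t ∈ SH χ c, ∀ y : H, (∀ i, χ y i = 0) →
      ∃ n : ℕ, t ^ n * y * (t ^ n)⁻¹ ∈
        Subgroup.closure {x | ∃ i < n, x = t ^ i * y * (t ^ i)⁻¹} := by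
  classical
  set B : Set H := S ∪ S⁻¹ ∪ {1} with hB
  have h1B : (1 : H) ∈ B := Or.inr rfl
  -- `C' ≤ 2 ^ p`
  obtain ⟨p, hp1, hp⟩ : ∃ p : ℕ, 1 ≤ p ∧ C' ≤ 2 ^ p :=
    ⟨C', hC', Nat.lt_two_pow_self.le⟩
  refine ⟨1 / (2 * p), by positivity, fun t ht y hy => ?_⟩
  by_contra hcon
  push Not at hcon
  set z : ℕ → H := fun i => t ^ i * y * (t ^ i)⁻¹ with hz
  have hzn : ∀ n, z n ∉ Subgroup.closure {x | ∃ i < n, x = z i} := hcon
  -- the two steps
  obtain ⟨n₁, r₁, hp₁⟩ := exists_path_gen hS χ t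
  obtain ⟨n₂, r₂, hp₂⟩ := exists_path_gen hS χ (y * t)
  set ℓ := max n₁ n₂ with hℓ
  set r := max r₁ r₂ with hr
  have hq₁ : PathTo (SH χ (r : ℝ)) B ℓ 1 t :=
    (hp₁.mono (SH_mono (by exact_mod_cast le_max_left _ _)) subset_rfl).extend h1B (le_max_left _ _)
  have hq₂ : PathTo (SH χ (r : ℝ)) B ℓ 1 (y * t) :=
    (hp₂.mono (SH_mono (by exact_mod_cast le_max_right _ _)) subset_rfl).extend h1B
      (le_max_right _ _)
  -- the points
  have hχz : ∀ e n i, χ (wprod z e n) i = 0 := by
    intro e n i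
    induction n with
    | zero => exact h.one i
    | succ n ih =>
      rw [wprod, h.mul, ih]
      split_ifs
      · rw [hz]
        simp only [h.mul, h.inv, hy]
        ring
      · rw [h.one]; ring
  have hpt : ∀ (N : ℕ) (e : ℕ → Bool) (n : ℕ), n ≤ 2 * p * N →
      PathTo (SH χ ((N + r : ℕ) : ℝ)) B (n * ℓ) 1 (wprod z e n * t ^ n) := by
    intro N e n
    induction n with
    | zero =>
      intro _
      rw [wprod, pow_zero, mul_one, Nat.zero_mul]
      exact PathTo.refl (fun i => by rw [h.one, abs_zero]; positivity)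
    | succ n ih =>
      intro hn
      have h1 := ih (by omega)
      have hbase : wprod z e n * t ^ n ∈ SH χ (N : ℝ) := by
        intro i
        rw [h.mul, hχz, zero_add, h.pow, abs_mul, Nat.abs_cast]
        have h3 : |χ t i| ≤ 1 / (2 * p) := ht i
        have h4 : (n : ℝ) ≤ 2 * p * N := by exact_mod_cast (by omega : n ≤ 2 * p * N)
        have hp0 : (0 : ℝ) < 2 * p := by positivity
        calc (n : ℝ) * |χ t i| ≤ (2 * p * N) * (1 / (2 * p)) :=
              mul_le_mul h4 h3 (abs_nonneg _) (by positivity)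
          _ = N := by field_simp
      have hstep : ∀ w, PathTo (SH χ (r : ℝ)) B ℓ 1 w →
          PathTo (SH χ ((N + r : ℕ) : ℝ)) B ℓ (wprod z e n * t ^ n) (wprod z e n * t ^ n * w) := by
        intro w hw
        have := hw.left (wprod z e n * t ^ n) (P' := SH χ ((N + r : ℕ) : ℝ)) (fun x hx => by
          push_cast
          exact h.mul_mem hbase hx)
        rwa [mul_one] at this
      have e1 : (n + 1) * ℓ = n * ℓ + ℓ := by ring
      rw [e1, wprod]
      split_ifs with he
      · have h5 := h1.trans (hstep _ hq₂)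
        have e2 : wprod z e n * t ^ n * (y * t) = wprod z e n * z n * t ^ (n + 1) := by
          rw [hz, pow_succ]
          group
        rwa [e2] at h5
      · have h5 := h1.trans (hstep _ hq₁)
        have e2 : wprod z e n * t ^ n * t = wprod z e n * 1 * t ^ (n + 1) := by
          rw [mul_one, pow_succ, mul_assoc]
        rwa [e2] at h5
  -- the counting
  obtain ⟨N, hN⟩ := exists_exp_gt (2 ^ (p * (r + 1))) (2 * p * ℓ) D
  set n := 2 * p * N with hn
  have hcard : 2 ^ n ≤ {x | PathTo (SH χ ((N + r : ℕ) : ℝ)) B (n * ℓ) 1 x}.ncard := by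
    let f : (Fin n → Bool) → H := fun e =>
      wprod z (fun i => if h : i < n then e ⟨i, h⟩ else false) n * t ^ n
    have hinj : Function.Injective f := by
      intro e e' hee
      have h1 := mul_right_cancel hee
      have h2 := wprod_inj z hzn _ _ n h1
      funext i
      have := h2 i i.2
      simpa using this
    have hsub : Set.range f ⊆ {x | PathTo (SH χ ((N + r : ℕ) : ℝ)) B (n * ℓ) 1 x} := by
      rintro _ ⟨e, rfl⟩
      exact hpt N _ n le_rfl
    have h1 : (Set.range f).ncard = 2 ^ n := by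
      rw [Set.ncard_eq_toFinset_card', Set.toFinset_range, Finset.card_image_of_injective _ hinj]
      simp
    rw [← h1]
    exact Set.ncard_le_ncard hsub (hcount (N + r) (n * ℓ)).1
  have h1 := hcard.trans (hcount (N + r) (n * ℓ)).2
  have h2 : C' ^ (N + r + 1) ≤ 2 ^ (p * N) * 2 ^ (p * (r + 1)) := by
    calc C' ^ (N + r + 1) ≤ (2 ^ p) ^ (N + r + 1) := Nat.pow_le_pow_left hp _
      _ = 2 ^ (p * N) * 2 ^ (p * (r + 1)) := by rw [← pow_mul, ← pow_add]; congr 1; ring
  have h3 : 2 ^ n ≤ 2 ^ (p * N) * (2 ^ (p * (r + 1)) * (2 * p * ℓ * N + 1) ^ D) := by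
    calc 2 ^ n ≤ C' ^ (N + r + 1) * (n * ℓ + 1) ^ D := h1
      _ ≤ (2 ^ (p * N) * 2 ^ (p * (r + 1))) * (n * ℓ + 1) ^ D := Nat.mul_le_mul_right _ h2
      _ = 2 ^ (p * N) * (2 ^ (p * (r + 1)) * (2 * p * ℓ * N + 1) ^ D) := by
          rw [hn, mul_assoc]
          congr 3
          ring
  have h4 : 2 ^ n < 2 ^ (p * N) * 2 ^ N :=
    h3.trans_lt (Nat.mul_lt_mul_of_pos_left hN (Nat.pow_pos (by norm_num)))
  have h5 : 2 ^ (p * N) * 2 ^ N ≤ 2 ^ n := by
    rw [← pow_add]
    refine Nat.pow_le_pow_right (by norm_num) ?_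
    rw [hn]
    nlinarith
  omega

end

end Vale.Agent.P188.H789

end

section

/-! P188, abstract end game. -/

universe u v w

open Pointwise Filter

namespace Vale.Agent.P188.H789

section

variable {H : Type u} [Group H] {k : ℕ} {χ : H → Fin k → ℝ}

/-- The slabs are connected up to a sublinear error. -/
def SubConn (χ : H → Fin k → ℝ) (S : Set H) : Prop :=
  ∀ q : ℕ, 0 < q → ∃ C : ℕ, ∀ n : ℕ, ∀ x ∈ Bl S n, x ∈ SH χ 1 →
    ∃ m, PathTo (SH χ ((n / q + C : ℕ) : ℝ)) (S ∪ S⁻¹ ∪ {1}) m 1 x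

theorem zpow_mem_Bl {S : Set H} {s : H} (hs : s ∈ S) (z : ℤ) : s ^ z ∈ Bl S z.natAbs := by
  have h1 : ∀ n : ℕ, s ^ n ∈ Bl S n := by
    intro n
    induction n with
    | zero => simpa using one_mem_Bl S 0
    | succ n ih => rw [pow_succ]; exact mul_mem_Bl ih (mem_Bl_one hs)
  obtain ⟨j, rfl | rfl⟩ := z.eq_nat_or_neg
  · simpa using h1 j
  · simpa using inv_mem_Bl (h1 j)

theorem Addv.zpow (h : Addv χ) (t : H) (z : ℤ) : χ (t ^ z) = (z : ℝ) • χ t := by
  obtain ⟨j, rfl | rfl⟩ := z.eq_nat_or_neg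
  · ext i
    rw [zpow_natCast, h.pow, Pi.smul_apply, smul_eq_mul]
    simp
  · ext i
    rw [zpow_neg, zpow_natCast, h.inv, h.pow, Pi.smul_apply, smul_eq_mul]
    simp

theorem Addv.one' (h : Addv χ) : χ 1 = 0 := funext h.one

/-- Coarse approximation of the values of `χ` by short elements. -/
theorem Addv.coarse_approx (h : Addv χ) {S : Set H} (hSf : S.Finite)
    (hS : Subgroup.closure S = ⊤) :
    ∃ C M : ℕ, ∀ R : ℕ, ∀ p ∈ SH χ (R : ℝ), ∃ s ∈ Bl S (C * (R + 1)),
      p * s⁻¹ ∈ SH χ (M : ℝ) := by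
  classical
  obtain ⟨b, hbS, hbspan, hbli⟩ := exists_linearIndependent ℝ (χ '' S)
  have hbf : b.Finite := (hSf.image χ).subset hbS
  have : Fintype b := hbf.fintype
  -- all values are in the span
  have hmem : ∀ p : H, χ p ∈ Submodule.span ℝ (Set.range ((↑) : b → Fin k → ℝ)) := by
    intro p
    rw [Subtype.range_coe, hbspan]
    have hp : p ∈ Subgroup.closure S := by rw [hS]; trivial
    induction hp using Subgroup.closure_induction with
    | mem x hx => exact Submodule.subset_span ⟨x, hx, rfl⟩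
    | one => rw [h.one']; exact Submodule.zero_mem _
    | mul x y _ _ hx hy => rw [h.add]; exact Submodule.add_mem _ hx hy
    | inv x _ hx =>
      have : χ x⁻¹ = - χ x := funext fun i => h.inv x i
      rw [this]
      exact Submodule.neg_mem _ hx
  let B := Module.Basis.span hbli
  let f := (B.equivFun : Submodule.span ℝ (Set.range ((↑) : b → Fin k → ℝ)) →ₗ[ℝ] (b → ℝ))
  let f' := LinearMap.toContinuousLinearMap f
  obtain ⟨Cf, hCf⟩ := exists_nat_ge ‖f'‖
  -- lifts of the basis
  have hlift : ∀ j : b, ∃ s ∈ S, χ s = j := fun j => hbS j.2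
  choose g hgS hgχ using hlift
  obtain ⟨M, hM⟩ := exists_nat_ge (∑ j : b, ‖(j : Fin k → ℝ)‖)
  set N := (Finset.univ : Finset b).card with hN
  refine ⟨N * (Cf + 1), M, fun R p hp => ?_⟩
  set v : Submodule.span ℝ (Set.range ((↑) : b → Fin k → ℝ)) := ⟨χ p, hmem p⟩ with hv
  have hvn : ‖v‖ ≤ R := by
    show ‖χ p‖ ≤ R
    rw [pi_norm_le_iff_of_nonneg (Nat.cast_nonneg R)]
    intro i
    exact hp i
  have hcoef : ∀ j : b, |B.equivFun v j| ≤ Cf * R := by
    intro j
    have h1 : ‖f' v‖ ≤ ‖f'‖ * ‖v‖ := f'.le_opNorm v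
    have h2 : |B.equivFun v j| ≤ ‖f' v‖ := norm_le_pi_norm (f' v) j
    calc |B.equivFun v j| ≤ ‖f'‖ * ‖v‖ := h2.trans h1
      _ ≤ Cf * R := mul_le_mul hCf hvn (norm_nonneg _) (Nat.cast_nonneg _)
  have hsum : χ p = ∑ j : b, B.equivFun v j • (j : Fin k → ℝ) := by
    have h1 := B.sum_equivFun v
    have h2 := congrArg (Subtype.val) h1
    refine h2.symm.trans ?_
    simp only [Submodule.coe_sum, Submodule.coe_smul]
    refine Finset.sum_congr rfl fun j _ => ?_
    congr 1
    exact congrArg Subtype.val (Module.Basis.span_apply hbli j)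
  -- the product
  let m : b → ℤ := fun j => ⌊B.equivFun v j⌋
  have hprod : ∀ l : List b, ∃ s ∈ Bl S ((l.map fun j => (m j).natAbs).sum),
      χ s = (l.map fun j => ((m j : ℤ) : ℝ) • (j : Fin k → ℝ)).sum := by
    intro l
    induction l with
    | nil => exact ⟨1, one_mem_Bl _ _, by simpa using h.one'⟩
    | cons j l ih =>
      obtain ⟨s, hs1, hs2⟩ := ih
      refine ⟨g j ^ m j * s, ?_, ?_⟩
      · rw [List.map_cons, List.sum_cons]
        exact mul_mem_Bl (zpow_mem_Bl (hgS j) _) hs1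
      · rw [h.add, hs2, h.zpow, hgχ, List.map_cons, List.sum_cons]
  obtain ⟨s, hs1, hs2⟩ := hprod (Finset.univ : Finset b).toList
  have hmj : ∀ j : b, (m j).natAbs ≤ (Cf + 1) * (R + 1) := by
    intro j
    have h1 := hcoef j
    rw [abs_le] at h1
    have h2 : (m j : ℝ) ≤ B.equivFun v j := Int.floor_le _
    have h3 : B.equivFun v j < m j + 1 := Int.lt_floor_add_one _
    have h4 : (|m j| : ℤ) ≤ ((Cf + 1) * (R + 1) : ℕ) := by
      rw [abs_le]
      have h5 : (-(((Cf + 1) * (R + 1) : ℕ) : ℝ)) ≤ m j := by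
        push_cast
        nlinarith [Nat.cast_nonneg (α := ℝ) Cf, Nat.cast_nonneg (α := ℝ) R]
      have h6 : (m j : ℝ) ≤ (((Cf + 1) * (R + 1) : ℕ) : ℝ) := by
        push_cast
        nlinarith [Nat.cast_nonneg (α := ℝ) Cf, Nat.cast_nonneg (α := ℝ) R]
      constructor
      · exact_mod_cast h5
      · exact_mod_cast h6
    rw [Int.abs_eq_natAbs] at h4
    exact_mod_cast h4
  refine ⟨s, Bl_mono ?_ hs1, ?_⟩
  · have h1 : ∀ l : List b, (l.map fun j => (m j).natAbs).sum ≤
        l.length * ((Cf + 1) * (R + 1)) := by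
      intro l
      induction l with
      | nil => simp
      | cons j l ih =>
        rw [List.map_cons, List.sum_cons, List.length_cons]
        have := hmj j
        have e : (l.length + 1) * ((Cf + 1) * (R + 1)) =
          l.length * ((Cf + 1) * (R + 1)) + (Cf + 1) * (R + 1) := by ring
        omega
    have h2 := h1 (Finset.univ : Finset b).toList
    rw [Finset.length_toList, ← hN] at h2
    refine h2.trans (le_of_eq ?_)
    ring
  · intro i
    have h1 : χ s = ∑ j : b, ((m j : ℤ) : ℝ) • (j : Fin k → ℝ) := by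
      rw [hs2, Finset.sum_map_toList]
    have h2 : χ (p * s⁻¹) i = ∑ j : b, (B.equivFun v j - (m j : ℝ)) * (j : Fin k → ℝ) i := by
      rw [h.mul, h.inv, hsum, h1]
      simp only [Finset.sum_apply, Pi.smul_apply, smul_eq_mul, sub_mul, Finset.sum_sub_distrib]
      ring
    rw [h2]
    refine (Finset.abs_sum_le_sum_abs _ _).trans (le_trans ?_ hM)
    refine Finset.sum_le_sum fun j _ => ?_
    rw [abs_mul]
    have h3 : |B.equivFun v j - (m j : ℝ)| ≤ 1 := by
      rw [abs_of_nonneg (sub_nonneg.mpr (Int.floor_le _))]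
      linarith [Int.lt_floor_add_one (B.equivFun v j)]
    calc |B.equivFun v j - (m j : ℝ)| * |(j : Fin k → ℝ) i| ≤ 1 * ‖(j : Fin k → ℝ)‖ :=
          mul_le_mul h3 (norm_le_pi_norm (j : Fin k → ℝ) i) (abs_nonneg _) zero_le_one
      _ = _ := one_mul _

/-- Approximation of the values of `χ` by short elements. -/
theorem Addv.approx (h : Addv χ) {S : Set H} (hSf : S.Finite)
    (hS : Subgroup.closure S = ⊤) {c : ℝ} (hc : 0 < c) :
    ∃ C : ℕ, ∀ R : ℕ, ∀ p ∈ SH χ (R : ℝ), ∃ s ∈ Bl S (C * (R + 1)),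
      p * s⁻¹ ∈ SH χ c := by
  obtain ⟨C, M, h1⟩ := h.coarse_approx hSf hS
  obtain ⟨Φ, hΦf, -, hΦ⟩ := exists_net χ (M : ℝ) hc
  obtain ⟨L, hL⟩ := exists_Bl_of_finite (A := S) hΦf (fun x _ => by rw [hS]; trivial)
  refine ⟨L + C, fun R p hp => ?_⟩
  obtain ⟨s, hs1, hs2⟩ := h1 R p hp
  obtain ⟨s', hs'1, hs'2⟩ := hΦ _ hs2
  refine ⟨s' * s, Bl_mono ?_ (mul_mem_Bl (hL hs'1) hs1), fun i => ?_⟩
  · nlinarith
  · have := hs'2 i
    rw [h.mul, h.inv] at this
    rw [h.mul, h.inv, h.mul]
    convert this using 2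
    ring

/-- The abstract end game. -/
theorem Addv.endgame (h : Addv χ) {C D : ℕ} (hC : 1 ≤ C) {S : Set H} (hSf : S.Finite)
    (hS : Subgroup.closure S = ⊤) (hcount : SlabGrowth χ S C D) (hconn : SubConn χ S) :
    ∃ Y : Set H, Y.Finite ∧ Subgroup.closure Y = h.ker ∧
      ∃ C' D' : ℕ, ∀ n, (Bl Y n).ncard ≤ C' * (n + 1) ^ D' := by
  classical
  obtain ⟨c₀, hc₀, hmil⟩ := h.milnor hC hS hcount
  set c := min c₀ 1 with hc
  have hcpos : 0 < c := lt_min hc₀ one_pos
  obtain ⟨C₁, hC₁⟩ := h.approx hSf hS (half_pos hcpos)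
  obtain ⟨Φ, hΦf, hΦR, hΦ⟩ := exists_net χ c (half_pos hcpos)
  obtain ⟨L, hL⟩ := exists_Bl_of_finite (A := S) hΦf (fun x _ => by rw [hS]; trivial)
  obtain ⟨C₂, hC₂⟩ := hconn (8 * (C₁ + 1)) (by omega)
  -- short small elements
  let U : ℕ → Set H := fun n => Bl S n ∩ SH χ c
  set n₀ := 4 * (2 * (C₁ + 1) * (C₂ + 2) + 1) + 4 * L + 1 with hn₀
  have hUgen : ∀ n, U n ⊆ Subgroup.closure (U n₀) := by
    intro n
    induction n using Nat.strong_induction_on with
    | _ n ih =>
      by_cases hn : n ≤ n₀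
      · intro x hx
        exact Subgroup.subset_closure ⟨Bl_mono hn hx.1, hx.2⟩
      · rintro x ⟨hxn, hxc⟩
        push Not at hn
        set R := n / (8 * (C₁ + 1)) + C₂ with hR
        obtain ⟨m, p, h0, h1, h2, h3⟩ := hC₂ n x hxn
          (SH_mono (min_le_right _ _) hxc)
        -- corrections
        have hch : ∀ z : H, ∃ s : H, z ∈ SH χ (R : ℝ) → s ∈ Bl S (C₁ * (R + 1)) ∧
            z * s⁻¹ ∈ SH χ (c / 2) := by
          intro z
          by_cases hz : z ∈ SH χ (R : ℝ)
          · obtain ⟨s, hs1, hs2⟩ := hC₁ R z hz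
            exact ⟨s, fun _ => ⟨hs1, hs2⟩⟩
          · exact ⟨1, fun h => absurd h hz⟩
        choose s hs using hch
        set n' := 2 * C₁ * (R + 1) + 1 with hn'
        have hn'n : n' + L < n := by
          have e1 : n / (8 * (C₁ + 1)) * (8 * (C₁ + 1)) ≤ n := Nat.div_mul_le_self _ _
          have e2 : 2 * C₁ * (R + 1) ≤ 2 * (C₁ + 1) * (n / (8 * (C₁ + 1))) +
              2 * (C₁ + 1) * (C₂ + 1) := by
            rw [hR]
            nlinarith [Nat.zero_le (n / (8 * (C₁ + 1)))]
          have e3 : 4 * (2 * (C₁ + 1) * (n / (8 * (C₁ + 1)))) ≤ n := by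
            calc 4 * (2 * (C₁ + 1) * (n / (8 * (C₁ + 1)))) =
                n / (8 * (C₁ + 1)) * (8 * (C₁ + 1)) := by ring
              _ ≤ n := e1
          have e4 : 2 * (C₁ + 1) * (C₂ + 2) = 2 * (C₁ + 1) * (C₂ + 1) + 2 * (C₁ + 1) := by ring
          omega
        have hsmall : ∀ i < m, s (p i) * ((p i)⁻¹ * p (i + 1)) * (s (p (i + 1)))⁻¹ ∈ U n' := by
          intro i hi
          have a1 := hs _ (h2 i (by omega))
          have a2 := hs _ (h2 (i + 1) (by omega))
          have hb : (p i)⁻¹ * p (i + 1) ∈ Bl S 1 := by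
            rcases h3 i hi with hb | hb
            · exact mem_Bl_one' hb
            · rw [Set.mem_singleton_iff] at hb
              rw [hb]
              exact one_mem_Bl _ _
          refine ⟨Bl_mono (le_of_eq ?_) (mul_mem_Bl (mul_mem_Bl a1.1 hb) (inv_mem_Bl a2.1)), ?_⟩
          · rw [hn']; ring
          · intro j
            have b1 := a1.2 j
            have b2 := a2.2 j
            simp only [h.mul, h.inv] at b1 b2 ⊢
            have e2 : χ (s (p i)) j + (-χ (p i) j + χ (p (i + 1)) j) + -χ (s (p (i + 1))) j =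
              -(χ (p i) j + -χ (s (p i)) j) + (χ (p (i + 1)) j + -χ (s (p (i + 1))) j) := by ring
            rw [e2]
            refine (abs_add_le _ _).trans ?_
            rw [abs_neg]
            linarith
        have hstart : (1 : H) * (s 1)⁻¹ ∈ U n' := by
          have hp0 : (1 : H) ∈ SH χ (R : ℝ) := h0 ▸ h2 0 (Nat.zero_le _)
          have a1 := hs 1 hp0
          refine ⟨Bl_mono ?_ (mul_mem_Bl (one_mem_Bl S 0) (inv_mem_Bl a1.1)), ?_⟩
          · rw [hn']
            nlinarith [Nat.zero_le (C₁ * (R + 1))]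
          · exact SH_mono (by linarith) a1.2
        have key : ∀ i ≤ m, p i * (s (p i))⁻¹ ∈ Subgroup.closure (U n₀) := by
          intro i
          induction i with
          | zero =>
            intro _
            rw [h0]
            exact ih n' (by omega) hstart
          | succ i ihi =>
            intro hi
            have e : p (i + 1) * (s (p (i + 1)))⁻¹ = p i * (s (p i))⁻¹ *
                (s (p i) * ((p i)⁻¹ * p (i + 1)) * (s (p (i + 1)))⁻¹) := by group
            rw [e]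
            exact Subgroup.mul_mem _ (ihi (by omega)) (ih n' (by omega) (hsmall i (by omega)))
        have hend := key m le_rfl
        rw [h1] at hend
        -- the last correction
        have hxR : x ∈ SH χ (R : ℝ) := h1 ▸ h2 m le_rfl
        have a1 := hs x hxR
        obtain ⟨w, hwΦ, hw⟩ := hΦ x hxc
        have hw1 : w ∈ Subgroup.closure (U n₀) :=
          Subgroup.subset_closure ⟨Bl_mono (by omega) (hL hwΦ), hΦR hwΦ⟩
        have hsw : s x * w⁻¹ ∈ U (n' + L) := by
          refine ⟨Bl_mono ?_ (mul_mem_Bl a1.1 (inv_mem_Bl (hL hwΦ))), ?_⟩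
          · rw [hn']
            nlinarith [Nat.zero_le (C₁ * (R + 1))]
          · intro j
            have b1 := a1.2 j
            have b2 := hw j
            simp only [h.mul, h.inv] at b1 b2 ⊢
            have e2 : χ (s x) j + -χ w j = -(χ x j + -χ (s x) j) + (χ x j - χ w j) := by ring
            rw [e2]
            refine (abs_add_le _ _).trans ?_
            rw [abs_neg]
            linarith
        have e : x = (x * (s x)⁻¹) * (s x * w⁻¹) * w := by group
        rw [e]
        exact Subgroup.mul_mem _ (Subgroup.mul_mem _ hend (ih _ hn'n hsw)) hw1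
  have hUf : (U n₀).Finite := (Bl_finite hSf n₀).inter_of_left _
  have hKU : h.ker ≤ Subgroup.closure (U n₀) := by
    intro x hx
    obtain ⟨n, hn⟩ := exists_Bl_of_finite (A := S) (Set.finite_singleton x)
      (fun y _ => by rw [hS]; trivial)
    refine hUgen n ⟨hn rfl, fun i => ?_⟩
    rw [(h.mem_ker x).mp hx i, abs_zero]
    exact hcpos.le
  have hMil : ∀ t ∈ U n₀, Mil h.ker t ∧ Mil h.ker t⁻¹ := by
    intro t ht
    have h1 : t ∈ SH χ c₀ := SH_mono (min_le_left _ _) ht.2
    exact ⟨fun y hy => hmil t h1 y hy, fun y hy => hmil t⁻¹ (h.inv_mem h1) y hy⟩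
  obtain ⟨T, hT⟩ := fg_of_mil h.ker_normal hUf hMil h.comm_mem hKU
  refine ⟨T, T.finite_toSet, hT, ?_⟩
  -- growth
  have h1B : (1 : H) ∈ S ∪ S⁻¹ ∪ {1} := Or.inr rfl
  obtain ⟨ℓ, r, hpath⟩ : ∃ ℓ r : ℕ, ∀ y ∈ (T : Set H) ∪ (T : Set H)⁻¹ ∪ {1},
      PathTo (SH χ (r : ℝ)) (S ∪ S⁻¹ ∪ {1}) ℓ 1 y := by
    have hfin : ((T : Set H) ∪ (T : Set H)⁻¹ ∪ {1}).Finite :=
      (T.finite_toSet.union T.finite_toSet.inv).union (Set.finite_singleton 1)
    refine Set.Finite.induction_on _ hfin ⟨0, 0, fun y hy => absurd hy (Set.notMem_empty y)⟩ ?_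
    rintro a s' - - ⟨ℓ, r, hs'⟩
    obtain ⟨n₁, r₁, hp₁⟩ := exists_path_gen hS χ a
    refine ⟨max ℓ n₁, max r r₁, ?_⟩
    rintro y (rfl | hy)
    · exact (hp₁.mono (SH_mono (by exact_mod_cast le_max_right _ _)) subset_rfl).extend h1B
        (le_max_right _ _)
    · exact ((hs' y hy).mono (SH_mono (by exact_mod_cast le_max_left _ _)) subset_rfl).extend h1B
        (le_max_left _ _)
  refine ⟨C ^ (r + 1) * (ℓ + 1) ^ D, D, fun n => ?_⟩
  have hsub : Bl (T : Set H) n ⊆ {x | PathTo (SH χ (r : ℝ)) (S ∪ S⁻¹ ∪ {1}) (n * ℓ) 1 x} := by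
    rintro x ⟨l, hl1, hl2, rfl⟩
    have key : ∀ (l : List H), (∀ a ∈ l, a ∈ (T : Set H) ∪ (T : Set H)⁻¹ ∪ {1}) →
        ∀ y ∈ h.ker, PathTo (SH χ (r : ℝ)) (S ∪ S⁻¹ ∪ {1}) (l.length * ℓ) y (y * l.prod) := by
      intro l
      induction l with
      | nil =>
        intro _ y hy
        rw [List.length_nil, Nat.zero_mul, List.prod_nil, mul_one]
        refine PathTo.refl fun i => ?_
        rw [(h.mem_ker y).mp hy i, abs_zero]
        positivity
      | cons a l ih =>
        intro hal y hy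
        have ha := hal a List.mem_cons_self
        have hak : a ∈ h.ker := by
          rw [← hT]
          rcases ha with (ha | ha) | ha
          · exact Subgroup.subset_closure ha
          · simpa using Subgroup.inv_mem _ (Subgroup.subset_closure ha)
          · rw [Set.mem_singleton_iff] at ha
            rw [ha]
            exact Subgroup.one_mem _
        have h2 := ih (fun b hb => hal b (List.mem_cons_of_mem _ hb)) (y * a)
          (h.ker.mul_mem hy hak)
        have h3 : PathTo (SH χ (r : ℝ)) (S ∪ S⁻¹ ∪ {1}) ℓ y (y * a) := by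
          have := (hpath a ha).left y (P' := SH χ (r : ℝ)) (fun x hx => by
            intro i
            rw [h.mul, (h.mem_ker y).mp hy i, zero_add]
            exact hx i)
          rwa [mul_one] at this
        have h4 := h3.trans h2
        rw [List.length_cons, List.prod_cons, ← mul_assoc]
        have e : (l.length + 1) * ℓ = ℓ + l.length * ℓ := by ring
        rw [e]
        exact h4
    have h2 := key l (fun a ha => Or.inl (hl2 a ha)) 1 h.ker.one_mem
    rw [one_mul] at h2
    exact h2.extend h1B (Nat.mul_le_mul_right _ hl1)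
  refine (Set.ncard_le_ncard hsub (hcount r (n * ℓ)).1).trans ((hcount r (n * ℓ)).2.trans ?_)
  calc C ^ (r + 1) * (n * ℓ + 1) ^ D ≤ C ^ (r + 1) * ((ℓ + 1) * (n + 1)) ^ D := by
        refine Nat.mul_le_mul_left _ (Nat.pow_le_pow_left ?_ _)
        nlinarith
    _ = C ^ (r + 1) * (ℓ + 1) ^ D * (n + 1) ^ D := by rw [mul_pow]; ring

end

end Vale.Agent.P188.H789

end

section

/-!
# First exit

`μ` a right invariant mean on `H`, `ψ : H → ℝ^k` Lipschitz, `χ x` the mean of `ψ (h x) - ψ h`.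
Comparison of the increments of `ψ` along the translates `h g y_i` of a path `y_i`, as long as the
increments of `ψ` along `g y_i` are bounded by `R`, gives: if `χ` is bounded by `R / 4` along the
path, then the increments of `ψ` along `g y_i` are bounded by `R`.
-/

universe u v w

open Pointwise

namespace Vale.Agent.P188.H789

variable {H : Type u} [Group H] {k : ℕ}

/-- The mean of a set. -/
noncomputable def mset {X : Type u} (μ : (X → ℝ) → ℝ) (s : Set X) : ℝ :=
  μ (s.indicator fun _ => 1)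

/-- Comparison of the increments of `ψ` along `g y_i` and `h g y_i`, for all `h` outside a set
of small mean, as long as the increments of `ψ` along `g y_i` are bounded by `R`. -/
def GoodAt (μ : (H → ℝ) → ℝ) (ψ : H → Fin k → ℝ) (R : ℝ) (m : ℕ) (y : ℕ → H) (g : H) : Prop :=
  ∃ Bad : Set H, m * mset μ Bad ≤ 1 ∧ ∀ h ∉ Bad, ∀ j ≤ m,
    (∀ i ≤ j, ∀ a, |ψ (g * y i) a - ψ g a| ≤ R) →
    ∀ a, |(ψ (h * (g * y j)) a - ψ (h * g) a) - (ψ (g * y j) a - ψ g a)| ≤ R / 4

/-- Comparison along paths of length at most `exp (c R)` with steps in `B`, for most base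
points. -/
def Cmp (μ : (H → ℝ) → ℝ) (ψ : H → Fin k → ℝ) (B : Set H) : Prop :=
  ∃ c : ℝ, 0 < c ∧ ∃ R₀ : ℝ, ∀ R : ℝ, R₀ ≤ R → ∀ m : ℕ, (m : ℝ) ≤ Real.exp (c * R) →
    ∀ y : ℕ → H, y 0 = 1 → (∀ i < m, (y i)⁻¹ * y (i + 1) ∈ B) →
      mset μ {g | ¬ GoodAt μ ψ R m y g} ≤ 1 / 2

theorem Bdd.indicator {X : Type u} (s : Set X) : Bdd (s.indicator fun _ => (1 : ℝ)) := by
  classical
  refine ⟨1, fun x => ?_⟩
  rw [Set.indicator_apply]
  split_ifs <;> simp

theorem mset_nonneg {X : Type u} {μ : (X → ℝ) → ℝ} (hμ : IsMean μ) (s : Set X) :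
    0 ≤ mset μ s :=
  hμ.nonneg _ (Bdd.indicator s) fun x => Set.indicator_nonneg (fun _ _ => zero_le_one) x

theorem bdd_of_step {ψ : H → Fin k → ℝ} {B : Set H} {L : ℝ}
    (hL : ∀ x, ∀ s ∈ B, ∀ a, |ψ (x * s) a - ψ x a| ≤ L) {m : ℕ} {y : ℕ → H}
    (hy : ∀ i < m, (y i)⁻¹ * y (i + 1) ∈ B) (h : H) (a : Fin k) :
    ∀ j ≤ m, |ψ (h * y j) a - ψ (h * y 0) a| ≤ L * j := by
  intro j
  induction j with
  | zero => intro _; simp
  | succ j ih =>
    intro hj
    have h1 := ih (by omega)
    have h2 := hL (h * y j) _ (hy j (by omega)) a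
    rw [mul_assoc h (y j), mul_inv_cancel_left] at h2
    have h3 : ψ (h * y (j + 1)) a - ψ (h * y 0) a =
        (ψ (h * y (j + 1)) a - ψ (h * y j) a) + (ψ (h * y j) a - ψ (h * y 0) a) := by ring
    rw [h3]
    refine (abs_add_le _ _).trans ?_
    push_cast
    linarith

/-- **First exit** at a good base point. -/
theorem exit_bound {μ : (H → ℝ) → ℝ} (hμ : IsMean μ)
    (hinv : ∀ (g : H) f, Bdd f → μ (fun x => f (x * g)) = μ f)
    {ψ χ : H → Fin k → ℝ} {B : Set H} {L : ℝ} (hL0 : 0 ≤ L)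
    (hL : ∀ x, ∀ s ∈ B, ∀ a, |ψ (x * s) a - ψ x a| ≤ L)
    (hχ : ∀ x a, χ x a = μ (fun h => ψ (h * x) a - ψ h a))
    {R : ℝ} (hR : 8 * L ≤ R) {m : ℕ} {y : ℕ → H} (hy0 : y 0 = 1)
    (hy : ∀ i < m, (y i)⁻¹ * y (i + 1) ∈ B) (hχy : ∀ j ≤ m, ∀ a, |χ (y j) a| ≤ R / 4)
    {g : H} (hg : GoodAt μ ψ R m y g) :
    ∀ j ≤ m, ∀ a, |ψ (g * y j) a - ψ g a| ≤ R := by
  classical
  obtain ⟨Bad, hBad, hcmp⟩ := hg
  have key : ∀ j ≤ m, ∀ i ≤ j, ∀ a, |ψ (g * y i) a - ψ g a| ≤ R := by
    intro j
    induction j with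
    | zero =>
      intro _ i hi a
      have : i = 0 := by omega
      rw [this, hy0, mul_one, sub_self, abs_zero]
      linarith
    | succ j ih =>
      intro hj i hi a
      have hP := ih (by omega)
      rcases Nat.lt_or_ge i (j + 1) with hlt | hge
      · exact hP i (by omega) a
      have hij : i = j + 1 := by omega
      rw [hij]
      -- bounds for all `h`
      have hbd : ∀ (h : H) (a : Fin k), |ψ (h * y j) a - ψ h a| ≤ L * m := by
        intro h a
        have h1 := bdd_of_step hL hy h a j (by omega)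
        rw [hy0, mul_one] at h1
        refine h1.trans (mul_le_mul_of_nonneg_left ?_ hL0)
        exact_mod_cast (by omega : j ≤ m)
      -- the mean
      have hf : Bdd (fun h => ψ (h * y j) a - ψ h a) := ⟨L * m, fun h => hbd h a⟩
      have e1 : χ (y j) a = μ (fun h => ψ (h * (g * y j)) a - ψ (h * g) a) := by
        rw [hχ, ← hinv g _ hf]
        simp only [mul_assoc]
      set c₀ : ℝ := ψ (g * y j) a - ψ g a with hc₀
      have hf2 : Bdd (fun h => ψ (h * (g * y j)) a - ψ (h * g) a) := by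
        refine ⟨L * m, fun h => ?_⟩
        have h1 := hbd (h * g) a
        rw [mul_assoc] at h1
        exact h1
      have hc₀b : |c₀| ≤ L * m := hbd g a
      -- pointwise bounds
      have hup : ∀ h, ψ (h * (g * y j)) a - ψ (h * g) a ≤
          (fun h => (c₀ + R / 4) + (2 * L * m) * (Bad.indicator (fun _ => (1 : ℝ)) h)) h := by
        intro h
        simp only
        by_cases hB : h ∈ Bad
        · rw [Set.indicator_of_mem hB]
          have h1 := hbd (h * g) a
          rw [mul_assoc] at h1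
          have h2 := (abs_le.mp h1).2
          have h3 := (abs_le.mp hc₀b).1
          linarith
        · rw [Set.indicator_of_notMem hB]
          have h1 := (abs_le.mp (hcmp h hB j (by omega) hP a)).2
          linarith
      have hlo : ∀ h, (fun h => (c₀ - R / 4) + (-(2 * L * m)) *
          (Bad.indicator (fun _ => (1 : ℝ)) h)) h ≤ ψ (h * (g * y j)) a - ψ (h * g) a := by
        intro h
        simp only
        by_cases hB : h ∈ Bad
        · rw [Set.indicator_of_mem hB]
          have h1 := hbd (h * g) a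
          rw [mul_assoc] at h1
          have h2 := (abs_le.mp h1).1
          have h3 := (abs_le.mp hc₀b).2
          linarith
        · rw [Set.indicator_of_notMem hB]
          have h1 := (abs_le.mp (hcmp h hB j (by omega) hP a)).1
          linarith
      have hind := Bdd.indicator Bad
      have hmean : ∀ (u v : ℝ), μ (fun h => u + v * (Bad.indicator (fun _ => (1 : ℝ)) h)) =
          u + v * mset μ Bad := by
        intro u v
        have h1 := hμ.add (fun _ => u) (fun h => v * (Bad.indicator (fun _ => (1 : ℝ)) h))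
          (Bdd.const u) (hind.const_mul v)
        have h2 := hμ.smul v _ hind
        rw [hμ.const, h2] at h1
        exact h1
      have hbdd : ∀ (u v : ℝ), Bdd (fun h => u + v * (Bad.indicator (fun _ => (1 : ℝ)) h)) :=
        fun u v => (Bdd.const u).add (hind.const_mul v)
      have m1 := hμ.le hf2 (hbdd _ _) hup
      have m2 := hμ.le (hbdd _ _) hf2 hlo
      rw [hmean] at m1 m2
      rw [← e1] at m1 m2
      have h5 : 2 * L * m * mset μ Bad ≤ 2 * L := by
        have : 2 * L * m * mset μ Bad = 2 * L * (m * mset μ Bad) := by ring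
        rw [this]
        nlinarith
      have h6 := hχy j (by omega) a
      have h7 : |c₀| ≤ 3 * R / 4 := by
        rw [abs_le] at h6 ⊢
        constructor
        · nlinarith [h6.1, h6.2]
        · nlinarith [h6.1, h6.2]
      have h8 := hL (g * y j) _ (hy j (by omega)) a
      rw [mul_assoc g (y j), mul_inv_cancel_left] at h8
      have h9 : ψ (g * y (j + 1)) a - ψ g a =
          (ψ (g * y (j + 1)) a - ψ (g * y j) a) + c₀ := by rw [hc₀]; ring
      rw [h9]
      refine (abs_add_le _ _).trans ?_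
      linarith
  exact fun j hj a => key j hj j le_rfl a

end Vale.Agent.P188.H789

end

section

/-!
# Transport of means to `H`, exponentially dense good elements

`F : H → G` a coarse equivalence.  A right invariant mean on `G` gives a right invariant mean `ν`
on `H` with `ν (F⁻¹ B) ≤ C μ (B)`; the good points of the `G`-set `H × G` give good elements of
`H`.
-/

set_option linter.unusedSectionVars false

universe u v w

namespace Vale.Agent.P188.H382

open Finset Vale.Agent.P188 Vale.Agent.P188.H789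

lemma bdd_ite' {X : Type u} (p : X → Prop) [DecidablePred p] :
    Bdd (fun z => if p z then (0 : ℝ) else 1) :=
  ⟨1, fun z => by dsimp only; split_ifs <;> simp⟩

/-- Transport of a right invariant mean, with control of the preimages. -/
theorem exists_transport {H : Type u} {G : Type v} [Group H] [Group G] (F : H → G) (F' : G → H)
    (hF : Coarse F) (hFF : CloseId (F' ∘ F)) (hFF' : CloseId (F ∘ F'))
    {μ : (G → ℝ) → ℝ} (hμ : IsMean μ)
    (hinv : ∀ (g : G) f, Bdd f → μ (fun x => f (x * g)) = μ f) :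
    ∃ (ν : (H → ℝ) → ℝ) (C : ℝ), IsMean ν ∧
      (∀ (g : H) f, Bdd f → ν (fun x => f (x * g)) = ν f) ∧ 0 < C ∧
      ∀ u : G → ℝ, Bdd u → (∀ y, 0 ≤ u y) → ν (fun x => u (F x)) ≤ C * μ u := by
  classical
  obtain ⟨E, hE, hE'⟩ := hFF
  obtain ⟨E₂, hE₂, hE₂'⟩ := hFF'
  -- finite fibres
  have hsub : ∀ y : G, {x : H | F x = y} ⊆ (fun e => F' y * e⁻¹) '' E := by
    intro y x hx
    refine ⟨x⁻¹ * F' (F x), hE' x, ?_⟩
    have : F x = y := hx
    simp only [this]
    group
  have hfin : ∀ y : G, {x : H | F x = y}.Finite := fun y => (hE.image _).subset (hsub y)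
  let fib : G → Finset H := fun y => (hfin y).toFinset
  have hfib : ∀ y x, x ∈ fib y ↔ F x = y := by
    intro y x
    simp [fib]
  have hcard : ∀ y, (fib y).card ≤ hE.toFinset.card := by
    intro y
    have : fib y ⊆ hE.toFinset.image (fun e => F' y * e⁻¹) := by
      intro x hx
      rw [hfib] at hx
      obtain ⟨e, he, rfl⟩ := hsub y hx
      exact Finset.mem_image.mpr ⟨e, by simpa using he, rfl⟩
    exact (Finset.card_le_card this).trans Finset.card_image_le
  let ps : (H → ℝ) → G → ℝ := fun f y => ∑ x ∈ fib y, f x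
  have hps : ∀ f, Bdd f → Bdd (ps f) := by
    rintro f ⟨M, hM⟩
    refine ⟨hE.toFinset.card * M, fun y => ?_⟩
    have hM0 : 0 ≤ M := (abs_nonneg _).trans (hM 1)
    calc |ps f y| ≤ ∑ x ∈ fib y, |f x| := Finset.abs_sum_le_sum_abs _ _
      _ ≤ ∑ _x ∈ fib y, M := Finset.sum_le_sum (fun x _ => hM x)
      _ = (fib y).card * M := by simp
      _ ≤ hE.toFinset.card * M := by
          apply mul_le_mul_of_nonneg_right _ hM0
          exact_mod_cast hcard y
  have hps_add : ∀ f g, ps (f + g) = ps f + ps g := by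
    intro f g
    funext y
    simp [ps, Finset.sum_add_distrib]
  have hps_smul : ∀ (a : ℝ) f, ps (fun x => a * f x) = fun y => a * ps f y := by
    intro a f
    funext y
    simp [ps, Finset.mul_sum]
  -- positivity of the total mass
  have hpos : 0 < μ (ps (fun _ => 1)) := by
    have h1 : ∀ y : G, 1 ≤ ∑ e ∈ hE₂.toFinset, ps (fun _ => 1) (y * e) := by
      intro y
      have he : y⁻¹ * F (F' y) ∈ hE₂.toFinset := by simpa using hE₂' y
      have h2 : (1 : ℝ) ≤ ps (fun _ => 1) (y * (y⁻¹ * F (F' y))) := by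
        have : F' y ∈ fib (y * (y⁻¹ * F (F' y))) := by rw [hfib]; group
        have hc : 1 ≤ (fib (y * (y⁻¹ * F (F' y)))).card := Finset.card_pos.mpr ⟨_, this⟩
        simp only [ps, Finset.sum_const, nsmul_eq_mul, mul_one]
        exact_mod_cast hc
      refine h2.trans ?_
      apply Finset.single_le_sum (f := fun e => ps (fun _ => 1) (y * e)) _ he
      intro e _
      exact Finset.sum_nonneg (fun _ _ => zero_le_one)
    have hb1 : Bdd (ps (fun _ => 1)) := hps _ (Bdd.const 1)
    obtain ⟨hb2, hs⟩ := hμ.sum hE₂.toFinset (fun e y => ps (fun _ => 1) (y * e))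
      (fun e _ => hb1.comp _)
    have h3 := hμ.le (Bdd.const 1) hb2 h1
    rw [hμ.one, hs] at h3
    have h4 : ∑ e ∈ hE₂.toFinset, μ (fun y => ps (fun _ => 1) (y * e)) =
        hE₂.toFinset.card * μ (ps (fun _ => 1)) := by
      rw [Finset.sum_congr rfl (fun e _ => hinv e _ hb1)]
      simp
    rw [h4] at h3
    by_contra hneg
    have : (hE₂.toFinset.card : ℝ) * μ (ps (fun _ => 1)) ≤ 0 :=
      mul_nonpos_of_nonneg_of_nonpos (Nat.cast_nonneg _) (not_lt.mp hneg)
    linarith
  set c := μ (ps (fun _ => 1)) with hcdef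
  refine ⟨fun f => μ (ps f) / c, (hE.toFinset.card + 1) / c, ⟨?_, ?_, ?_, ?_⟩, ?_, by positivity,
    ?_⟩
  · intro f g hf hg
    simp only [hps_add]
    rw [hμ.add _ _ (hps f hf) (hps g hg), add_div]
  · intro a f hf
    simp only [hps_smul]
    rw [hμ.smul _ _ (hps f hf), mul_div_assoc]
  · intro f hf h
    apply div_nonneg _ hpos.le
    exact hμ.nonneg _ (hps f hf) (fun y => Finset.sum_nonneg (fun x _ => h x))
  · exact div_self hpos.ne'
  · intro g f hf
    simp only
    congr 1
    obtain ⟨U, hU, hU'⟩ := hF {g⁻¹} (Set.finite_singleton _)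
    have hu : ∀ x : H, (F (x * g))⁻¹ * F x ∈ hU.toFinset := by
      intro x
      have := hU' (x * g) x (by simp)
      simpa using this
    let fu : G → H → ℝ := fun u x => if (F x)⁻¹ * F (x * g⁻¹) = u then f x else 0
    have hfu : ∀ u, Bdd (fu u) := by
      obtain ⟨M, hM⟩ := hf
      have hM0 : 0 ≤ M := (abs_nonneg _).trans (hM 1)
      intro u
      refine ⟨M, fun x => ?_⟩
      simp only [fu]
      split_ifs
      · exact hM x
      · simpa using hM0
    have e1 : ps (fun x => f (x * g)) = fun y => ∑ u ∈ hU.toFinset, ps (fu u) (y * u⁻¹) := by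
      funext y
      have s1 : ps (fun x => f (x * g)) y = ∑ u ∈ hU.toFinset,
          ∑ x ∈ fib y with (F (x * g))⁻¹ * F x = u, f (x * g) := by
        rw [Finset.sum_fiberwise_of_maps_to (fun x _ => hu x)]
      rw [s1]
      apply Finset.sum_congr rfl
      intro u _
      simp only [ps, fu]
      rw [← Finset.sum_filter]
      apply Finset.sum_nbij' (fun x => x * g) (fun x => x * g⁻¹)
      · intro x hx
        rw [Finset.mem_filter, hfib] at hx ⊢
        obtain ⟨h1, h2⟩ := hx
        constructor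
        · rw [← h1, ← h2]; group
        · rw [mul_inv_cancel_right]; exact h2
      · intro x hx
        rw [Finset.mem_filter, hfib] at hx ⊢
        obtain ⟨h1, h2⟩ := hx
        constructor
        · calc F (x * g⁻¹) = F x * ((F x)⁻¹ * F (x * g⁻¹)) := by group
            _ = y := by rw [h2, h1]; group
        · rw [inv_mul_cancel_right]; exact h2
      · intro x _; simp
      · intro x _; simp
      · intro x _; rfl
    have e2 : ps f = fun y => ∑ u ∈ hU.toFinset, ps (fu u) y := by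
      funext y
      simp only [ps]
      rw [Finset.sum_comm]
      apply Finset.sum_congr rfl
      intro x _
      simp only [fu]
      rw [Finset.sum_ite_eq, if_pos]
      have := hu (x * g⁻¹)
      rwa [inv_mul_cancel_right] at this
    obtain ⟨_, s1⟩ := hμ.sum hU.toFinset (fun u y => ps (fu u) (y * u⁻¹))
      (fun u _ => (hps _ (hfu u)).comp _)
    obtain ⟨_, s2⟩ := hμ.sum hU.toFinset (fun u y => ps (fu u) y)
      (fun u _ => hps _ (hfu u))
    rw [e1, s1]
    conv_rhs => rw [e2]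
    rw [s2]
    apply Finset.sum_congr rfl
    intro u _
    exact hinv u⁻¹ _ (hps _ (hfu u))
  · intro w hw hw0
    have h1 : ps (fun x => w (F x)) = fun y => (fib y).card * w y := by
      funext y
      have : ∀ x ∈ fib y, w (F x) = w y := fun x hx => by rw [(hfib y x).1 hx]
      show ∑ x ∈ fib y, w (F x) = _
      rw [Finset.sum_congr rfl this, Finset.sum_const, nsmul_eq_mul]
    have h2 : μ (ps (fun x => w (F x))) ≤ (hE.toFinset.card + 1) * μ w := by
      rw [← hμ.smul _ _ hw]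
      refine hμ.le (hps _ (hw.comp F)) (hw.const_mul _) fun y => ?_
      rw [h1]
      refine mul_le_mul_of_nonneg_right ?_ (hw0 y)
      have : ((fib y).card : ℝ) ≤ hE.toFinset.card := by exact_mod_cast hcard y
      linarith
    show μ (ps (fun x => w (F x))) / c ≤ _
    rw [div_mul_eq_mul_div]
    exact div_le_div_of_nonneg_right h2 hpos.le

section

variable {H : Type u} {G : Type v} [Group H] [Group G]

/-- `G` acts on the second coordinate of `H × G`. -/
def prodAct (H : Type u) (G : Type v) [Group G] : RAct G (H × G) where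
  act z g := (z.1, z.2 * g)
  one z := by rw [mul_one]
  mul z s t := by rw [mul_assoc]

/-- The mean on `H × G`. -/
def prodMean (ν : (H → ℝ) → ℝ) (μ : (G → ℝ) → ℝ) (u : H × G → ℝ) : ℝ :=
  μ fun z => ν fun h => u (h, z)

theorem invMean_prod {ν : (H → ℝ) → ℝ} (hν : IsMean ν) {μ : (G → ℝ) → ℝ} (hμ : IsMean μ)
    (hinv : ∀ (g : G) f, Bdd f → μ (fun x => f (x * g)) = μ f) :
    InvMean (prodAct H G) (prodMean ν μ) where
  mean := isMean_prod hν hμ
  inv s f hf := by
    obtain ⟨M, hM⟩ := hf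
    exact hinv s (fun z => ν fun h => f (h, z)) ⟨M, fun z => hν.abs_le fun h => hM (h, z)⟩

open Classical in
/-- Elements `x` of `H` such that `P (h, F x)` holds for most `h`. -/
def Gd (ν : (H → ℝ) → ℝ) (F : H → G) (P : H × G → Prop) (δ : ℝ) : Set H :=
  {x | ν (fun h => if P (h, F x) then 0 else 1) ≤ δ}

open Classical in
theorem mean_not_Gd {ν : (H → ℝ) → ℝ} (hν : IsMean ν) {μ : (G → ℝ) → ℝ} (hμ : IsMean μ)
    {F : H → G} {C : ℝ} (hC : 0 < C)
    (htr : ∀ u : G → ℝ, Bdd u → (∀ y, 0 ≤ u y) → ν (fun x => u (F x)) ≤ C * μ u)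
    (P : H × G → Prop) {δ : ℝ} (hδ : 0 < δ)
    (hP : prodMean ν μ (fun z => if P z then 0 else 1) ≤ δ ^ 2) :
    ν (fun x => if x ∈ Gd ν F P δ then 0 else 1) ≤ C * δ := by
  set u : G → ℝ := fun g => δ⁻¹ * ν (fun h => if P (h, g) then 0 else 1) with hu
  have hb1 : Bdd (fun g : G => ν (fun h => if P (h, g) then (0 : ℝ) else 1)) :=
    ⟨1, fun g => hν.abs_le fun h => by split_ifs <;> simp⟩
  have h0 : ∀ g : G, 0 ≤ ν (fun h => if P (h, g) then (0 : ℝ) else 1) := fun g =>
    hν.nonneg _ ⟨1, fun h => by dsimp only; split_ifs <;> simp⟩ fun h => by split_ifs <;> simp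
  have hub : Bdd u := hb1.const_mul _
  have hu0 : ∀ g, 0 ≤ u g := fun g => mul_nonneg (inv_nonneg.2 hδ.le) (h0 g)
  have h1 : ∀ x, (if x ∈ Gd ν F P δ then (0 : ℝ) else 1) ≤ u (F x) := by
    intro x
    split_ifs with h
    · exact hu0 _
    · have : δ < ν (fun h => if P (h, F x) then 0 else 1) := not_le.1 h
      rw [hu]
      simp only
      rw [le_inv_mul_iff₀ hδ, mul_one]
      exact this.le
  calc ν (fun x => if x ∈ Gd ν F P δ then 0 else 1) ≤ ν (fun x => u (F x)) :=
        hν.le ⟨1, fun x => by dsimp only; split_ifs <;> simp⟩ (hub.comp F) h1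
    _ ≤ C * μ u := htr u hub hu0
    _ ≤ C * δ := by
        refine mul_le_mul_of_nonneg_left ?_ hC.le
        rw [hu, hμ.smul _ _ hb1, inv_mul_le_iff₀ hδ, ← sq]
        exact hP

variable {k : ℕ}

end

end Vale.Agent.P188.H382

end
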