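import Vale.Agent.P188.R.G039
import Mathlib.LinearAlgebra.Matrix.AbsoluteValue

section

/-!
The Cartan group, part 3: `S = E(e) C` and `C ∩ E(V) = E(h)`.
-/

namespace Vale.Agent.P188.H269

open Module
open scoped commutatorElement

universe u v

section cartan

variable {S : Type u} [Group S]
variable {V : Type v} [LieRing V] [LieAlgebra ℝ V] [FiniteDimensional ℝ V]
variable {ρ : S →* Module.End ℝ V} {E : V → S}

/-- fixed vectors are neutral -/
theorem mem_W_zero_of_fixed (ρ : S →* Module.End ℝ V) (t : S) {x : V} (hx : ρ t⁻¹ x = x) :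
    x ∈ W ρ t 0 := by
  have hx' : ρ t x = x := by
    have := congrArg (fun y => ρ t y) hx
    simp only [← Module.End.mul_apply, rho_mul_inv, Module.End.one_apply] at this
    exact this.symm
  have key : ∀ T : Module.End ℝ V, T x = x → x ∈ Gr T 0 := by
    intro T hT φ ε hε
    have hn : ∀ n : ℕ, (T ^ n) x = x := by
      intro n
      induction n with
      | zero => simp
      | succ n ih => rw [pow_succ, Module.End.mul_apply, hT, ih]
    refine ⟨|φ x|, fun n => ?_⟩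
    rw [hn]
    refine le_mul_of_one_le_right (abs_nonneg _) (Real.one_le_exp ?_)
    have : (0 : ℝ) ≤ n := Nat.cast_nonneg n
    positivity
  exact ⟨key _ hx', by rw [neg_zero]; exact key _ hx⟩

/-- solving `w - t⁻¹ w = y` for non-neutral `y` in an invariant subspace -/
theorem exists_solve (ρ : S →* Module.End ℝ V) (t : S) (A : Submodule ℝ V)
    (hA : ∀ x ∈ A, ρ t x ∈ A) (hA' : ∀ x ∈ A, ρ t⁻¹ x ∈ A) {y : V} (hy : y ∈ A) :
    ∃ y0 ∈ A, y0 ∈ W ρ t 0 ∧ ∃ w ∈ A, w - ρ t⁻¹ w = y - y0 := by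
  classical
  obtain ⟨f, hf, hfA, hsum⟩ := exists_decomp1 (rho_inv_mul ρ t) (rho_mul_inv ρ t) A hA hA' hy
  -- solve on each modulus space
  have hsolve : ∀ r : ℝ, r ≠ 0 → ∃ w ∈ A, w - ρ t⁻¹ w = f r := by
    intro r hr
    let U : Submodule ℝ V := A ⊓ W ρ t r
    have hU : ∀ x ∈ U, (LinearMap.id - ρ t⁻¹ : Module.End ℝ V) x ∈ U := by
      intro x hx
      rw [LinearMap.sub_apply, LinearMap.id_apply]
      exact ⟨A.sub_mem hx.1 (hA' x hx.1), Submodule.sub_mem _ hx.2 (W_inv ρ t hx.2)⟩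
    have hinj : Function.Injective ((LinearMap.id - ρ t⁻¹ : Module.End ℝ V).restrict hU) := by
      rw [← LinearMap.ker_eq_bot, LinearMap.ker_eq_bot']
      intro x hx
      have h1 : (x : V) - ρ t⁻¹ x = 0 := congrArg Subtype.val hx
      have h2 : ρ t⁻¹ (x : V) = x := (sub_eq_zero.1 h1).symm
      have h3 := mem_W_zero_of_fixed ρ t h2
      exact Subtype.ext (Wt_disjoint (rho_inv_mul ρ t) hr x.2.2 h3)
    obtain ⟨w, hw⟩ := LinearMap.surjective_of_injective hinj ⟨f r, hfA r, hf r⟩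
    exact ⟨w, w.2.1, congrArg Subtype.val hw⟩
  have hsolve' : ∀ r : ℝ, ∃ w ∈ A, r ≠ 0 → w - ρ t⁻¹ w = f r := by
    intro r
    by_cases hr : r = 0
    · exact ⟨0, A.zero_mem, fun h => absurd hr h⟩
    · obtain ⟨w, hw, h⟩ := hsolve r hr
      exact ⟨w, hw, fun _ => h⟩
  choose w hw hw' using hsolve'
  refine ⟨f 0, hfA 0, hf 0, ∑ r ∈ f.support.erase 0, w r, Submodule.sum_mem _ fun r _ => hw r, ?_⟩
  rw [map_sum, ← Finset.sum_sub_distrib]
  have h1 : ∑ r ∈ f.support.erase 0, (w r - ρ t⁻¹ (w r)) = ∑ r ∈ f.support.erase 0, f r :=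
    Finset.sum_congr rfl fun r hr => hw' r (Finset.ne_of_mem_erase hr)
  rw [h1, ← hsum, Finsupp.sum]
  by_cases h0 : (0 : ℝ) ∈ f.support
  · rw [← Finset.add_sum_erase _ _ h0]; abel
  · rw [Finset.erase_eq_of_notMem h0, Finsupp.notMem_support_iff.1 h0, sub_zero]

/-- `V = h + e` -/
theorem exists_neutral_add (ρ : S →* Module.End ℝ V) (t : S) (x : V) :
    ∃ x0 ∈ W ρ t 0, x - x0 ∈ eId ρ t := by
  classical
  obtain ⟨f, hf, _, hsum⟩ := exists_decomp1 (rho_inv_mul ρ t) (rho_mul_inv ρ t) ⊤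
    (fun _ _ => trivial) (fun _ _ => trivial) (Submodule.mem_top : x ∈ (⊤ : Submodule ℝ V))
  refine ⟨f 0, hf 0, ?_⟩
  have h1 : x - f 0 = ∑ r ∈ f.support.erase 0, f r := by
    rw [← hsum, Finsupp.sum]
    by_cases h0 : (0 : ℝ) ∈ f.support
    · rw [← Finset.add_sum_erase _ _ h0]; abel
    · rw [Finset.erase_eq_of_notMem h0, Finsupp.notMem_support_iff.1 h0, sub_zero]
  rw [h1]
  change _ ∈ (eId ρ t).toSubmodule
  exact Submodule.sum_mem _ fun r hr => Wt_le_eI (Finset.ne_of_mem_erase hr) (hf r)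

/-- **`S = E(e) C`.** -/
theorem ExpS.exists_mul_mem_C (H : ExpS ρ E) (t s : S) : ∃ x ∈ eId ρ t, E x * s ∈ H.C t := by
  classical
  set e := eId ρ t with he
  have heinv : ∀ g, ∀ x ∈ e, ρ g x ∈ e := H.lrep.eId_inv t
  have key : ∀ k : ℕ, ∃ x ∈ e, ∃ v ∈ H.h t, ∃ y ∈ dn e k,
      (E x * s) * t * (E x * s)⁻¹ = t * E v * E y := by
    intro k
    induction k with
    | zero =>
      obtain ⟨u, hu⟩ := H.comm t⁻¹ s
      obtain ⟨v, hv, hvu⟩ := exists_neutral_add ρ t u
      obtain ⟨y, hy, hey⟩ := H.exists_right e v u hvu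
      refine ⟨0, zero_mem _, v, hv, y, hy, ?_⟩
      rw [H.zero, mul_assoc t, ← hey, ← hu, commutatorElement_def]; group
    | succ k ih =>
      obtain ⟨x, hx, v, hv, y, hy, hxy⟩ := ih
      have hdinv := H.dn_inv heinv k
      obtain ⟨y0, hy0, hy0h, w, hw, hwy⟩ := exists_solve ρ t (dn e k).toSubmodule
        (hdinv t) (hdinv t⁻¹) hy
      -- the conjugated factor
      set a : V := ρ (E (-v)) (ρ t⁻¹ w) with ha
      have hta : ρ t⁻¹ w ∈ dn e k := hdinv t⁻¹ w hw
      have ha1 : a - ρ t⁻¹ w ∈ dn e (k + 1) := by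
        rw [dn_succ]
        exact H.lrep.unip (E (-v)) ⟨-v, rfl⟩ (dn e k) _ hta
      have ha2 : a ∈ dn e k := by
        have := add_mem (dn_succ_le e k ha1) hta
        rwa [sub_add_cancel] at this
      -- product of the three factors
      obtain ⟨z1, hz1, he1⟩ := H.mul_ideal (dn e k) a y hy
      have hz1' : z1 ∈ dn e (k + 1) := hz1
      obtain ⟨z2, hz2, he2⟩ := H.mul_ideal (dn e k) (a + y + z1) (-w) (neg_mem hw)
      have hz2' : z2 ∈ dn e (k + 1) := hz2
      have h3 : (a + y + z1 + -w + z2) - y0 ∈ dn e (k + 1) := by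
        have e1 : (a + y + z1 + -w + z2) - y0 =
            (a - ρ t⁻¹ w) + (z1 + z2) + ((y - y0) - (w - ρ t⁻¹ w)) := by abel
        rw [e1, hwy, sub_self, add_zero]
        exact add_mem ha1 (add_mem hz1' hz2')
      obtain ⟨y', hy', hey'⟩ := H.exists_right (dn e (k + 1)) y0 _ h3
      obtain ⟨v', hv', hev'⟩ := H.mul_sub (H.h t) v y0 hv hy0h
      obtain ⟨x', hx', hex'⟩ := H.mul_mem_ideal e (dn_le e k hw) hx
      refine ⟨x', hx', v', hv', y', hy', ?_⟩
      have e4 : (E w * E x * s) * t * (E w * E x * s)⁻¹ =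
          E w * ((E x * s) * t * (E x * s)⁻¹) * (E w)⁻¹ := by group
      rw [← hex', e4, hxy, ← hev']
      have e5 : E w * (t * E v * E y) * (E w)⁻¹ =
          t * E v * (((t * E v)⁻¹ * E w * (t * E v)) * E y * (E w)⁻¹) := by group
      have e6 : (t * E v)⁻¹ * E w * (t * E v) = E a := by
        rw [H.conj_inv, mul_inv_rev, map_mul, Module.End.mul_apply, ← H.neg]
      rw [e5, e6, he1, ← H.neg, he2, hey']
      group
  obtain ⟨k, hk⟩ := exists_dn_eq_bot H.nil
  obtain ⟨x, hx, v, hv, y, hy, hxy⟩ := key k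
  rw [hk e, LieSubmodule.mem_bot] at hy
  subst hy
  rw [H.zero, mul_one] at hxy
  exact ⟨x, hx, v, hv, hxy⟩

/-- **`C ∩ E(V) = E(h)`.** -/
theorem ExpS.E_mem_C_iff (H : ExpS ρ E) (t : S) (x : V) : E x ∈ H.C t ↔ x ∈ H.h t := by
  classical
  refine ⟨fun hx => ?_, fun hx => H.E_mem_C hx⟩
  have htop : ∀ g, ∀ x ∈ (⊤ : LieIdeal ℝ V), ρ g x ∈ (⊤ : LieIdeal ℝ V) :=
    fun _ _ _ => LieSubmodule.mem_top _
  have key : ∀ k : ℕ, ∃ n ∈ H.h t, ∃ y ∈ dn (⊤ : LieIdeal ℝ V) k, E x = E y * E n := by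
    intro k
    induction k with
    | zero => exact ⟨0, zero_mem _, x, LieSubmodule.mem_top _, by rw [H.zero, mul_one]⟩
    | succ k ih =>
      obtain ⟨n, hn, y, hy, hxy⟩ := ih
      set I : LieIdeal ℝ V := dn (⊤ : LieIdeal ℝ V) k with hI
      have hIinv := H.dn_inv htop k
      have hI'inv := H.dn_inv htop (k + 1)
      have hyC : E y ∈ H.C t := by
        have h1 : E y = E x * (E n)⁻¹ := by rw [hxy]; group
        rw [h1]
        exact (H.C t).mul_mem hx ((H.C t).inv_mem (H.E_mem_C hn))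
      obtain ⟨v, hv, hvy⟩ := hyC
      -- `t⁻¹ E(y) t E(-y) = E v`
      obtain ⟨z, hz, hez⟩ := H.mul_ideal I (ρ t⁻¹ y) (-y) (neg_mem hy)
      have hz' : z ∈ dn (⊤ : LieIdeal ℝ V) (k + 1) := hz
      have h2 : v = ρ t⁻¹ y + -y + z := by
        apply H.inj
        rw [← hez, ← H.conj_inv, H.neg]
        have : E v = t⁻¹ * (E y * t * (E y)⁻¹) := by rw [hvy]; group
        rw [this]; group
      -- decompose `y`
      obtain ⟨f, hf, hfI, hsum⟩ := exists_decomp1 (rho_inv_mul ρ t) (rho_mul_inv ρ t)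
        I.toSubmodule (hIinv t) (hIinv t⁻¹) hy
      obtain ⟨g, hg, hgI, hgsum⟩ := exists_decomp1 (rho_inv_mul ρ t) (rho_mul_inv ρ t)
        (dn (⊤ : LieIdeal ℝ V) (k + 1)).toSubmodule (hI'inv t) (hI'inv t⁻¹) hz'
      -- components
      have hcomp : ∀ r : ℝ, r ≠ 0 → f r ∈ dn (⊤ : LieIdeal ℝ V) (k + 1) := by
        intro r hr
        -- `t⁻¹ f r - f r + g r = 0`
        let F : ℝ →₀ V := f.mapRange (ρ t⁻¹) (map_zero _) - f + g - Finsupp.single 0 v
        have hF : ∀ s, F s ∈ Wt (ρ t) (ρ t⁻¹) s := by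
          intro s
          simp only [F, Finsupp.sub_apply, Finsupp.add_apply, Finsupp.mapRange_apply]
          refine Submodule.sub_mem _ (Submodule.add_mem _ (Submodule.sub_mem _ ?_ (hf s)) (hg s)) ?_
          · exact W_inv ρ t (hf s)
          · by_cases hs : s = 0
            · subst hs; rw [Finsupp.single_eq_same]; exact hv
            · rw [Finsupp.single_eq_of_ne hs]; exact Submodule.zero_mem _
        have hFsum : (F.sum fun _ y => y) = 0 := by
          have hs1 : ((f.mapRange (ρ t⁻¹) (map_zero _)).sum fun _ y => y) = ρ t⁻¹ y := by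
            rw [Finsupp.sum_mapRange_index (by intros; rfl), ← hsum, Finsupp.sum, Finsupp.sum,
              map_sum]
          simp only [F]
          rw [Finsupp.sum_sub_index (by intros; rfl), Finsupp.sum_add_index' (by intros; rfl)
            (by intros; rfl), Finsupp.sum_sub_index (by intros; rfl), hs1, hsum, hgsum,
            Finsupp.sum_single_index rfl, h2]
          abel
        have hF0 := Wt_finsupp_eq_zero (rho_inv_mul ρ t) F hF hFsum
        have hFr : F r = 0 := by rw [hF0]; rfl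
        simp only [F, Finsupp.sub_apply, Finsupp.add_apply, Finsupp.mapRange_apply] at hFr
        rw [Finsupp.single_eq_of_ne hr, sub_zero] at hFr
        have h3 : f r - ρ t⁻¹ (f r) = g r := by
          have : ρ t⁻¹ (f r) - f r + g r = 0 := hFr
          have h4 : g r = -(ρ t⁻¹ (f r) - f r) := eq_neg_of_add_eq_zero_right this
          rw [h4]; abel
        -- solve inside the smaller ideal
        obtain ⟨y0, hy0, hy0h, w, hw, hwy⟩ := exists_solve ρ t
          (dn (⊤ : LieIdeal ℝ V) (k + 1)).toSubmodule (hI'inv t) (hI'inv t⁻¹) (hgI r)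
        -- use the component of modulus `r` of `w`
        obtain ⟨f', hf', hfI', hsum'⟩ := exists_decomp1 (rho_inv_mul ρ t) (rho_mul_inv ρ t)
          (dn (⊤ : LieIdeal ℝ V) (k + 1)).toSubmodule (hI'inv t) (hI'inv t⁻¹) hw
        let F' : ℝ →₀ V := f' - f'.mapRange (ρ t⁻¹) (map_zero _) - Finsupp.single r (g r) +
          Finsupp.single 0 y0
        have hF' : ∀ s, F' s ∈ Wt (ρ t) (ρ t⁻¹) s := by
          intro s
          simp only [F', Finsupp.sub_apply, Finsupp.add_apply, Finsupp.mapRange_apply]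
          refine Submodule.add_mem _ (Submodule.sub_mem _ (Submodule.sub_mem _ (hf' s)
            (W_inv ρ t (hf' s))) ?_) ?_
          · by_cases hs : s = r
            · subst hs; rw [Finsupp.single_eq_same]; exact hg s
            · rw [Finsupp.single_eq_of_ne hs]; exact Submodule.zero_mem _
          · by_cases hs : s = 0
            · subst hs; rw [Finsupp.single_eq_same]; exact hy0h
            · rw [Finsupp.single_eq_of_ne hs]; exact Submodule.zero_mem _
        have hFsum' : (F'.sum fun _ y => y) = 0 := by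
          have hs1 : ((f'.mapRange (ρ t⁻¹) (map_zero _)).sum fun _ y => y) = ρ t⁻¹ w := by
            rw [Finsupp.sum_mapRange_index (by intros; rfl), ← hsum', Finsupp.sum, Finsupp.sum,
              map_sum]
          simp only [F']
          rw [Finsupp.sum_add_index' (by intros; rfl) (by intros; rfl),
            Finsupp.sum_sub_index (by intros; rfl), Finsupp.sum_sub_index (by intros; rfl), hs1,
            hsum', Finsupp.sum_single_index rfl, Finsupp.sum_single_index rfl, hwy]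
          abel
        have hF0' := Wt_finsupp_eq_zero (rho_inv_mul ρ t) F' hF' hFsum'
        have hFr' : F' r = 0 := by rw [hF0']; rfl
        simp only [F', Finsupp.sub_apply, Finsupp.add_apply, Finsupp.mapRange_apply,
          Finsupp.single_eq_same] at hFr'
        rw [Finsupp.single_eq_of_ne hr, add_zero] at hFr'
        have h5 : f' r - ρ t⁻¹ (f' r) = f r - ρ t⁻¹ (f r) := by
          rw [h3]; exact sub_eq_zero.1 hFr'
        have h6 : ρ t⁻¹ (f r - f' r) = f r - f' r := by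
          rw [map_sub]
          have : f' r = f r - ρ t⁻¹ (f r) + ρ t⁻¹ (f' r) := by rw [← h5]; abel
          conv_rhs => rw [this]
          abel
        have h7 : f r - f' r = 0 := Wt_disjoint (rho_inv_mul ρ t) hr
          (Submodule.sub_mem _ (hf r) (hf' r)) (mem_W_zero_of_fixed ρ t h6)
        rw [sub_eq_zero.1 h7]
        exact hfI' r
      -- conclude
      have h8 : y - f 0 ∈ dn (⊤ : LieIdeal ℝ V) (k + 1) := by
        have h1 : y - f 0 = ∑ r ∈ f.support.erase 0, f r := by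
          rw [← hsum, Finsupp.sum]
          by_cases h0 : (0 : ℝ) ∈ f.support
          · rw [← Finset.add_sum_erase _ _ h0]; abel
          · rw [Finset.erase_eq_of_notMem h0, Finsupp.notMem_support_iff.1 h0, sub_zero]
        rw [h1]
        change _ ∈ (dn (⊤ : LieIdeal ℝ V) (k + 1)).toSubmodule
        exact Submodule.sum_mem _ fun r hr => hcomp r (Finset.ne_of_mem_erase hr)
      obtain ⟨y', hy', hey'⟩ := H.exists_left _ (f 0) y h8
      obtain ⟨n', hn', hen'⟩ := H.mul_sub (H.h t) (f 0) n (hf 0) hn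
      refine ⟨n', hn', y', hy', ?_⟩
      rw [hxy, hey', mul_assoc, hen']
  obtain ⟨k, hk⟩ := exists_dn_eq_bot H.nil
  obtain ⟨n, hn, y, hy, hxy⟩ := key k
  rw [hk, LieSubmodule.mem_bot] at hy
  rw [hy, H.zero, one_mul] at hxy
  rw [H.inj hxy]
  exact hn

end cartan

end Vale.Agent.P188.H269

end

section

/-!
The Cartan group, part 4: weights of the Cartan group on the modulus spaces.
-/

namespace Vale.Agent.P188.H269

open Module
open scoped commutatorElement

universe u v w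

section restrict

/-- weights of a subgroup are restrictions of weights -/
theorem exists_weight_restrict {G : Type u} [Group G] {G' : Type w} [Group G']
    {V : Type v} [AddCommGroup V] [Module ℝ V] [FiniteDimensional ℝ V]
    {N : Subgroup G} [hNn : N.Normal] (hcomm : ∀ a b : G, ⁅a, b⁆ ∈ N)
    (ρ : G →* Module.End ℝ V) (hU : UnipOn N ρ) (σ : G' →* G)
    (D : Submodule ℝ V) (hD : ∀ g, ∀ x ∈ D, ρ g x ∈ D) {A : Submodule ℝ V} (hAD : A ≤ D)
    {l : V →ₗ[ℝ] ℂ} {χ : G' → ℂ} (h : EigOn (ρ.comp σ) A l χ) :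
    ∃ b ∈ Wts ρ D, ∀ g, Real.log ‖χ g‖ = b (σ g) := by
  classical
  generalize hn : finrank ℝ D = n
  induction n using Nat.strong_induction_on generalizing D A with
  | _ n ih =>
  by_cases hD0 : D = ⊥
  · obtain ⟨x, hx, hx0⟩ := h.ne
    have h1 : x ∈ D := hAD hx
    rw [hD0, Submodule.mem_bot] at h1
    rw [h1, map_zero] at hx0
    exact absurd rfl hx0
  · obtain ⟨l0, χ0, h0, _⟩ := exists_eigOn hcomm ρ hU D ⊥ hD (by
      intro g x hx
      rw [Submodule.mem_bot] at hx ⊢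
      rw [hx, map_zero]) (bot_lt_iff_ne_bot.2 hD0)
    by_cases hcase : ∃ x ∈ A ⊓ (D ⊓ LinearMap.ker l0), l x ≠ 0
    · have h' : EigOn (ρ.comp σ) (A ⊓ (D ⊓ LinearMap.ker l0)) l χ := by
        refine ⟨?_, hcase, ?_⟩
        · intro g x hx
          exact ⟨h.inv g x hx.1, h0.ker_inv (σ g) x hx.2⟩
        · intro g x hx
          exact h.eig g x hx.1
      obtain ⟨b, ⟨A', hA', l', χ', hE, hb'⟩, hb⟩ := ih _
        (hn ▸ Submodule.finrank_lt_finrank_of_lt h0.ker_lt) (D ⊓ LinearMap.ker l0) h0.ker_inv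
        inf_le_right h' rfl
      exact ⟨b, ⟨A', hA'.trans inf_le_left, l', χ', hE, hb'⟩, hb⟩
    · push Not at hcase
      refine ⟨fun g => Real.log ‖χ0 g‖, ⟨D, le_rfl, l0, χ0, h0, fun _ => rfl⟩, fun g => ?_⟩
      obtain ⟨x, hx, hx0⟩ := h.ne
      obtain ⟨y, hyA, hy, hly⟩ := h.exists_comp g hx hx0
      have hl0y : l0 y ≠ 0 := by
        intro hcon
        apply hx0
        rw [← hly]
        exact hcase y ⟨hyA, hAD hyA, hcon⟩
      have hy' : y ∈ Wt (ρ (σ g)) (ρ (σ g)⁻¹) (Real.log ‖χ g‖) := by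
        have := hy
        simp only [MonoidHom.comp_apply, map_inv] at this
        exact this
      exact (h0.log_eq (hAD hyA) hy' hl0y).symm

/-- adapted seminorms, with the hypothesis on weights only inside `A` -/
theorem exists_adapted' {G : Type u} [Group G] {V : Type v} [AddCommGroup V] [Module ℝ V]
    [FiniteDimensional ℝ V]
    {N : Subgroup G} [hNn : N.Normal] (hcomm : ∀ a b : G, ⁅a, b⁆ ∈ N)
    (ρ : G →* Module.End ℝ V) (hU : UnipOn N ρ) (b : G → ℝ)
    (S : Finset G) {ε : ℝ} (hε : 0 < ε) (A : Submodule ℝ V) (hA : ∀ g, ∀ x ∈ A, ρ g x ∈ A)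
    (hb : ∀ A' ≤ A, ∀ l χ, EigOn ρ A' l χ → ∀ g, Real.log ‖χ g‖ = b g) :
    ∃ q : Seminorm ℝ V, (∀ x ∈ A, q x = 0 ↔ x = 0) ∧
      ∀ g ∈ S, ∀ x ∈ A, q (ρ g x) ≤ Real.exp (b g + ε) * q x := by
  classical
  generalize hn : finrank ℝ A = n
  induction n using Nat.strong_induction_on generalizing A with
  | _ n ih =>
  rcases (bot_le : (⊥ : Submodule ℝ V) ≤ A).eq_or_lt with heq | hlt
  · refine ⟨0, fun x hx => ?_, fun g _ x _ => by simp⟩
    rw [← heq, Submodule.mem_bot] at hx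
    exact ⟨fun _ => hx, fun _ => rfl⟩
  · obtain ⟨l, χ, hl, _⟩ := exists_eigOn hcomm ρ hU A ⊥ hA (by
      intro g x hx
      rw [Submodule.mem_bot] at hx ⊢
      rw [hx, map_zero]) hlt
    obtain ⟨q', hq'0, hq'⟩ := ih _ (hn ▸ Submodule.finrank_lt_finrank_of_lt hl.ker_lt)
      (A ⊓ LinearMap.ker l) hl.ker_inv
      (fun A' hA' l' χ' h' => hb A' (hA'.trans inf_le_left) l' χ' h') rfl
    -- a linear section
    obtain ⟨σ, hσA, hσ⟩ : ∃ σ : ℂ →ₗ[ℝ] V, (∀ x ∈ A, σ (l x) ∈ A) ∧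
        ∀ x ∈ A, l (σ (l x)) = l x := by
      let lA : A →ₗ[ℝ] ℂ := l ∘ₗ A.subtype
      obtain ⟨s, hs⟩ := LinearMap.exists_rightInverse_of_surjective lA.rangeRestrict
        (LinearMap.range_rangeRestrict lA)
      obtain ⟨σ, hσ⟩ := LinearMap.exists_extend (A.subtype ∘ₗ s)
      have hval : ∀ x (hx : x ∈ A), σ (l x) = (s ⟨l x, ⟨⟨x, hx⟩, rfl⟩⟩ : A) := by
        intro x hx
        exact congrArg (fun m : (LinearMap.range lA) →ₗ[ℝ] V => m ⟨l x, ⟨⟨x, hx⟩, rfl⟩⟩) hσ
      refine ⟨σ, ?_, ?_⟩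
      · intro x hx
        rw [hval x hx]; exact Submodule.coe_mem _
      · intro x hx
        rw [hval x hx]
        have h1 := congrArg (fun m : (LinearMap.range lA) →ₗ[ℝ] (LinearMap.range lA) =>
          (m ⟨l x, ⟨⟨x, hx⟩, rfl⟩⟩ : ℂ)) hs
        exact h1
    -- constants
    have hK : ∀ g : G, ∃ K : ℝ, 0 ≤ K ∧ ∀ z : ℂ,
        Real.exp (b g + ε) * q' (σ z) + q' (ρ g (σ z)) ≤ K * ‖z‖ := by
      intro g
      obtain ⟨K1, h1, hK1⟩ := seminorm_bound (q'.comp σ)
      obtain ⟨K2, h2, hK2⟩ := seminorm_bound (q'.comp (ρ g ∘ₗ σ))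
      refine ⟨Real.exp (b g + ε) * K1 + K2, by positivity, fun z => ?_⟩
      rw [add_mul, mul_assoc]
      exact add_le_add (mul_le_mul_of_nonneg_left (hK1 z) (Real.exp_pos _).le) (hK2 z)
    choose K hK0 hK using hK
    have hE : 0 < Real.exp ε - 1 := by
      have := Real.add_one_lt_exp hε.ne'
      linarith
    set M : ℝ := ∑ g ∈ S, K g / (Real.exp (b g) * (Real.exp ε - 1)) + 1 with hM
    have hterm : ∀ g, 0 ≤ K g / (Real.exp (b g) * (Real.exp ε - 1)) := fun g =>
      div_nonneg (hK0 g) (mul_nonneg (Real.exp_pos _).le hE.le)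
    have hM0 : 0 < M := by
      have := Finset.sum_nonneg fun g (_ : g ∈ S) => hterm g
      linarith
    have hMg : ∀ g ∈ S, K g + M * Real.exp (b g) ≤ M * Real.exp (b g + ε) := by
      intro g hg
      have h1 : K g / (Real.exp (b g) * (Real.exp ε - 1)) ≤ M := by
        have := Finset.single_le_sum (f := fun g => K g / (Real.exp (b g) * (Real.exp ε - 1)))
          (fun g _ => hterm g) hg
        linarith
      rw [div_le_iff₀ (mul_pos (Real.exp_pos _) hE)] at h1
      rw [Real.exp_add]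
      nlinarith
    let M' : NNReal := ⟨M, hM0.le⟩
    let q : Seminorm ℝ V := q' + M' • (normSeminorm ℝ ℂ).comp l
    have hq : ∀ x, q x = q' x + M * ‖l x‖ := fun x => rfl
    refine ⟨q, ?_, ?_⟩
    · intro x hx
      rw [hq]
      constructor
      · intro h0
        have h1 : 0 ≤ q' x := apply_nonneg _ _
        have h2 : 0 ≤ M * ‖l x‖ := by positivity
        have h3 : M * ‖l x‖ = 0 := by linarith
        have h4 : l x = 0 := by
          rcases mul_eq_zero.1 h3 with h5 | h5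
          · exact absurd h5 hM0.ne'
          · exact norm_eq_zero.1 h5
        exact (hq'0 x ⟨hx, h4⟩).1 (by linarith)
      · intro hx0
        rw [hx0, map_zero, map_zero, norm_zero, mul_zero, add_zero]
    · intro g hg x hx
      rw [hq, hq]
      have ha : x - σ (l x) ∈ A ⊓ LinearMap.ker l :=
        ⟨A.sub_mem hx (hσA x hx), by
          change l (x - σ (l x)) = 0
          rw [map_sub, hσ x hx, sub_self]⟩
      have h1 : q' (ρ g x) ≤ Real.exp (b g + ε) * q' x + K g * ‖l x‖ := by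
        have e1 : ρ g x = ρ g (x - σ (l x)) + ρ g (σ (l x)) := by rw [← map_add, sub_add_cancel]
        have h2 : q' (x - σ (l x)) ≤ q' x + q' (σ (l x)) := map_sub_le_add q' _ _
        calc q' (ρ g x) ≤ q' (ρ g (x - σ (l x))) + q' (ρ g (σ (l x))) := by
              rw [e1]; exact map_add_le_add q' _ _
          _ ≤ Real.exp (b g + ε) * q' (x - σ (l x)) + q' (ρ g (σ (l x))) :=
              add_le_add (hq' g hg _ ha) le_rfl
          _ ≤ Real.exp (b g + ε) * (q' x + q' (σ (l x))) + q' (ρ g (σ (l x))) :=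
              add_le_add (mul_le_mul_of_nonneg_left h2 (Real.exp_pos _).le) le_rfl
          _ = Real.exp (b g + ε) * q' x +
              (Real.exp (b g + ε) * q' (σ (l x)) + q' (ρ g (σ (l x)))) := by ring
          _ ≤ _ := add_le_add le_rfl (hK g (l x))
      have h3 : ‖l (ρ g x)‖ = Real.exp (b g) * ‖l x‖ := by
        rw [hl.eig g x hx, norm_mul]
        congr 1
        rw [← hb A le_rfl l χ hl g, Real.exp_log (norm_pos_iff.2 (hl.ne_zero g))]
      rw [h3]
      have h4 := mul_le_mul_of_nonneg_right (hMg g hg) (norm_nonneg (l x))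
      nlinarith

/-- an isotypic invariant subspace is contained in the modulus space of every element -/
theorem le_W_of_isotypic {G : Type u} [Group G] {V : Type v} [AddCommGroup V] [Module ℝ V]
    [FiniteDimensional ℝ V]
    {N : Subgroup G} [hNn : N.Normal] (hcomm : ∀ a b : G, ⁅a, b⁆ ∈ N)
    (ρ : G →* Module.End ℝ V) (hU : UnipOn N ρ) (b : G → ℝ)
    (A : Submodule ℝ V) (hA : ∀ g, ∀ x ∈ A, ρ g x ∈ A)
    (hb : ∀ A' ≤ A, ∀ l χ, EigOn ρ A' l χ → ∀ g, Real.log ‖χ g‖ = b g) (g : G) :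
    A ≤ Wt (ρ g) (ρ g⁻¹) (b g) := by
  classical
  generalize hn : finrank ℝ A = n
  induction n using Nat.strong_induction_on generalizing A with
  | _ n ih =>
  rcases (bot_le : (⊥ : Submodule ℝ V) ≤ A).eq_or_lt with heq | hlt
  · rw [← heq]; exact bot_le
  · obtain ⟨l, χ, hl, _⟩ := exists_eigOn hcomm ρ hU A ⊥ hA (by
      intro g x hx
      rw [Submodule.mem_bot] at hx ⊢
      rw [hx, map_zero]) hlt
    have hIH := ih _ (hn ▸ Submodule.finrank_lt_finrank_of_lt hl.ker_lt)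
      (A ⊓ LinearMap.ker l) hl.ker_inv
      (fun A' hA' l' χ' h' => hb A' (hA'.trans inf_le_left) l' χ' h') rfl
    intro x hx
    obtain ⟨f, hf, hfA, hsum⟩ := exists_decomp ρ A hA g hx
    rw [← hsum]
    refine Submodule.sum_mem _ fun s _ => ?_
    by_cases hs : s = b g
    · rw [← hs]; exact hf s
    · have hl0 : l (f s) = 0 := by
        by_contra hne
        have h1 := hl.log_eq (hfA s) (hf s) hne
        rw [hb A le_rfl l χ hl g] at h1
        exact hs h1.symm
      have h2 := hIH ⟨hfA s, hl0⟩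
      have h3 := Wt_disjoint (rho_inv_mul ρ g) hs (hf s) h2
      rw [h3]; exact Submodule.zero_mem _

end restrict

section cartan

variable {S : Type u} [Group S]
variable {V : Type v} [LieRing V] [LieAlgebra ℝ V] [FiniteDimensional ℝ V]
variable {ρ : S →* Module.End ℝ V} {E : V → S}

/-- the representation of the Cartan group -/
def ExpS.ρC (H : ExpS ρ E) (t : S) : H.C t →* Module.End ℝ V := ρ.comp (H.C t).subtype

theorem ExpS.ρC_apply (H : ExpS ρ E) (t : S) (c : H.C t) : H.ρC t c = ρ (c : S) := rfl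

theorem ExpS.NC_normal (H : ExpS ρ E) (t : S) : (H.N.comap (H.C t).subtype).Normal := by
  have := H.normal
  infer_instance

theorem ExpS.NC_comm (H : ExpS ρ E) (t : S) (a b : H.C t) :
    ⁅a, b⁆ ∈ H.N.comap (H.C t).subtype := by
  have := H.lrep.comm (a : S) (b : S)
  rw [Subgroup.mem_comap]
  rw [map_commutatorElement]
  exact this

theorem ExpS.NC_unip (H : ExpS ρ E) (t : S) : UnipOn (H.N.comap (H.C t).subtype) (H.ρC t) := by
  obtain ⟨U, d, h0, hd, h⟩ := H.lrep.unipOn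
  exact ⟨U, d, h0, hd, fun n hn j x hx => h (n : S) hn j x hx⟩

theorem ExpS.WC_inv (H : ExpS ρ E) (t : S) (r : ℝ) :
    ∀ c : H.C t, ∀ x ∈ W ρ t r, H.ρC t c x ∈ W ρ t r := fun c x hx => H.C_inv c.2 r x hx

/-- all weights of `C` on a modulus space are equal -/
theorem ExpS.weight_eq (H : ExpS ρ E) {t : S} (hs : Sep ρ t) {b : S → ℝ} (hb : b ∈ Wts ρ ⊤)
    {A : Submodule ℝ V} (hA : A ≤ W ρ t (b t)) {l : V →ₗ[ℝ] ℂ} {χ : H.C t → ℂ}
    (h : EigOn (H.ρC t) A l χ) (c : H.C t) : Real.log ‖χ c‖ = b c := by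
  have := H.normal
  obtain ⟨b', hb', hlog⟩ := exists_weight_restrict H.lrep.comm ρ H.lrep.unipOn
    (H.C t).subtype ⊤ (fun _ _ _ => trivial) le_top h
  have h1 : Real.log ‖χ ⟨t, H.t_mem_C t⟩‖ = b t := by
    obtain ⟨x, hx, hx0⟩ := h.ne
    refine h.log_eq hx ?_ hx0
    exact hA hx
  have h2 := hlog ⟨t, H.t_mem_C t⟩
  rw [h1] at h2
  have h3 : b = b' := hs.2 b hb b' hb' h2
  rw [hlog c, ← h3]; rfl

/-- every nonzero modulus space belongs to a weight -/
theorem ExpS.exists_weight (H : ExpS ρ E) (t : S) {r : ℝ} (hr : W ρ t r ≠ ⊥) :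
    ∃ b ∈ Wts ρ ⊤, b t = r := by
  have := H.normal
  have := H.NC_normal t
  obtain ⟨l, χ, hl, _⟩ := exists_eigOn (H.NC_comm t) (H.ρC t) (H.NC_unip t) (W ρ t r) ⊥
    (H.WC_inv t r) (by
      intro g x hx
      rw [Submodule.mem_bot] at hx ⊢
      rw [hx, map_zero]) (bot_lt_iff_ne_bot.2 hr)
  obtain ⟨b', hb', hlog⟩ := exists_weight_restrict H.lrep.comm ρ H.lrep.unipOn
    (H.C t).subtype ⊤ (fun _ _ _ => trivial) le_top hl
  refine ⟨b', hb', ?_⟩
  have h1 : Real.log ‖χ ⟨t, H.t_mem_C t⟩‖ = r := by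
    obtain ⟨x, hx, hx0⟩ := hl.ne
    exact hl.log_eq hx hx hx0
  rw [← h1, hlog]; rfl

/-- adapted seminorms for the Cartan group on the modulus spaces -/
theorem ExpS.exists_seminorm (H : ExpS ρ E) {t : S} (hs : Sep ρ t) {b : S → ℝ}
    (hb : b ∈ Wts ρ ⊤) (Sg : Finset (H.C t)) {ε : ℝ} (hε : 0 < ε) :
    ∃ q : Seminorm ℝ V, (∀ x ∈ W ρ t (b t), q x = 0 ↔ x = 0) ∧
      ∀ c ∈ Sg, ∀ x ∈ W ρ t (b t), q (ρ (c : S) x) ≤ Real.exp (b c + ε) * q x := by
  have := H.NC_normal t
  exact exists_adapted' (H.NC_comm t) (H.ρC t) (H.NC_unip t) (fun c => b c) Sg hε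
    (W ρ t (b t)) (H.WC_inv t _) (fun A' hA' l χ h c => H.weight_eq hs hb hA' h c)

/-- the modulus spaces of `t` are contained in those of the elements of the Cartan group -/
theorem ExpS.W_le (H : ExpS ρ E) {t : S} (hs : Sep ρ t) {b : S → ℝ} (hb : b ∈ Wts ρ ⊤)
    {c : S} (hc : c ∈ H.C t) : W ρ t (b t) ≤ W ρ c (b c) := by
  have := H.NC_normal t
  have h1 := le_W_of_isotypic (H.NC_comm t) (H.ρC t) (H.NC_unip t) (fun c => b c)
    (W ρ t (b t)) (H.WC_inv t _) (fun A' hA' l χ h c => H.weight_eq hs hb hA' h c) ⟨c, hc⟩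
  exact h1

/-- commutators in the Cartan group are neutral -/
theorem ExpS.comm_mem (H : ExpS ρ E) {t a b : S} (ha : a ∈ H.C t) (hb : b ∈ H.C t) :
    ∃ v ∈ H.h t, ⁅a, b⁆ = E v := by
  obtain ⟨v, hv⟩ := H.comm a b
  refine ⟨v, ?_, hv⟩
  rw [← H.E_mem_C_iff t, ← hv, commutatorElement_def]
  exact (H.C t).mul_mem ((H.C t).mul_mem ((H.C t).mul_mem ha hb) ((H.C t).inv_mem ha))
    ((H.C t).inv_mem hb)

end cartan

end Vale.Agent.P188.H269

end

section

/-!
P188, Z1, RM-b: weights of the Cartan group, generation of the ideal by the generating weights,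
determinants.
-/

set_option linter.all false

universe u v w

namespace Vale.Agent.P188.H953

open Module
open scoped commutatorElement
open Vale.Agent.P188.H269

/-! ### generation -/

/-- a nilpotency argument: a subalgebra generating an ideal modulo its derived ideal -/
theorem le_of_sup_derived {V : Type v} [LieRing V] [LieAlgebra ℝ V]
    (hnil : LieModule.IsNilpotent V V) (e : LieIdeal ℝ V) (P : LieSubalgebra ℝ V)
    (hPe : ∀ x ∈ P, x ∈ e)
    (h0 : e.toSubmodule ≤ P.toSubmodule ⊔ (⁅e, e⁆ : LieIdeal ℝ V).toSubmodule) :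
    ∀ x ∈ e, x ∈ P := by
  intro x hx
  let C : ℕ → LieIdeal ℝ V := fun k => Nat.rec e (fun _ I => ⁅e, I⁆) k
  have hC0 : C 0 = e := rfl
  have hCs : ∀ k, C (k + 1) = ⁅e, C k⁆ := fun k => rfl
  have hClcs : ∀ k, C k ≤ LieModule.lowerCentralSeries ℝ V V k := by
    intro k
    induction k with
    | zero => rw [LieModule.lowerCentralSeries_zero]; exact le_top
    | succ k ih =>
      rw [hCs, LieModule.lowerCentralSeries_succ]
      exact LieSubmodule.mono_lie le_top ih
  have hCe : ∀ k, C k ≤ e := by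
    intro k
    cases k with
    | zero => exact le_rfl
    | succ k => rw [hCs]; exact LieSubmodule.lie_le_left _ _
  have key : ∀ k, e.toSubmodule ≤ P.toSubmodule ⊔ (C k).toSubmodule := by
    intro k
    induction k with
    | zero => rw [hC0]; exact le_sup_right
    | succ k ih =>
      have h1 : (⁅e, e⁆ : LieIdeal ℝ V).toSubmodule ≤ P.toSubmodule ⊔ (C (k + 1)).toSubmodule := by
        rw [LieSubmodule.lieIdeal_oper_eq_linear_span', Submodule.span_le]
        rintro _ ⟨a, ha, b, hb, rfl⟩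
        obtain ⟨p, hp, c, hc, rfl⟩ := Submodule.mem_sup.1 (ih ha)
        obtain ⟨p', hp', c', hc', rfl⟩ := Submodule.mem_sup.1 (ih hb)
        have e1 : ⁅p + c, p' + c'⁆ = ⁅p, p'⁆ + (⁅p, c'⁆ - ⁅p', c⁆ + ⁅c, c'⁆) := by
          rw [add_lie, lie_add, lie_add, ← lie_skew c p']; abel
        rw [e1]
        refine Submodule.add_mem _ (Submodule.mem_sup_left (P.lie_mem hp hp'))
          (Submodule.mem_sup_right ?_)
        rw [hCs]
        exact add_mem (sub_mem (LieSubmodule.lie_mem_lie (hPe p hp) hc')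
          (LieSubmodule.lie_mem_lie (hPe p' hp') hc))
          (LieSubmodule.lie_mem_lie (hCe k hc) hc')
      exact h0.trans (sup_le le_sup_left h1)
  obtain ⟨k, hk⟩ := hnil.nilpotent ℝ
  have h6 := key k hx
  have h7 : C k = ⊥ := by
    rw [eq_bot_iff, ← hk]; exact hClcs k
  rw [h7] at h6
  simpa using h6

section gen

variable {G : Type u} [Group G]

/-- unipotent elements have trivial characters -/
theorem eig_eq_one {V : Type v} [AddCommGroup V] [Module ℝ V] {N : Subgroup G}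
    {ρ : G →* Module.End ℝ V} (hU : UnipOn N ρ) {A : Submodule ℝ V} {l : V →ₗ[ℝ] ℂ} {χ : G → ℂ}
    (h : EigOn ρ A l χ) {g : G} (hg : g ∈ N) : χ g = 1 := by
  obtain ⟨F, d, hF0, hFd, hF⟩ := hU
  obtain ⟨x, hx, hx0⟩ := h.ne
  have key : ∀ j : ℕ, ((ρ g - 1) ^ j) x ∈ A ∧ ((ρ g - 1) ^ j) x ∈ F j ∧
      l (((ρ g - 1) ^ j) x) = (χ g - 1) ^ j * l x := by
    intro j
    induction j with
    | zero => simp [hx, hF0]
    | succ j ih =>
      obtain ⟨h1, h2, h3⟩ := ih
      have e1 : ((ρ g - 1) ^ (j + 1)) x = ρ g (((ρ g - 1) ^ j) x) - ((ρ g - 1) ^ j) x := by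
        rw [pow_succ', Module.End.mul_apply, LinearMap.sub_apply, Module.End.one_apply]
      rw [e1]
      refine ⟨A.sub_mem (h.inv g _ h1) h1, hF g hg j _ h2, ?_⟩
      rw [map_sub, h.eig g _ h1, h3]
      ring
  obtain ⟨_, h2, h3⟩ := key d
  rw [hFd, Submodule.mem_bot] at h2
  rw [h2, map_zero] at h3
  rcases mul_eq_zero.1 h3.symm with h4 | h4
  · by_contra hcon
    exact pow_ne_zero d (sub_ne_zero.2 hcon) h4
  · exact absurd h4 hx0

theorem wts_eq_zero {V : Type v} [AddCommGroup V] [Module ℝ V] {N : Subgroup G}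
    {ρ : G →* Module.End ℝ V} (hU : UnipOn N ρ) {D : Submodule ℝ V} {b : G → ℝ}
    (hb : b ∈ Wts ρ D) {g : G} (hg : g ∈ N) : b g = 0 := by
  obtain ⟨A, _, l, χ, h, hb⟩ := hb
  rw [hb, eig_eq_one hU h hg, norm_one, Real.log_one]

theorem wts_mul {V : Type v} [AddCommGroup V] [Module ℝ V]
    {ρ : G →* Module.End ℝ V} {D : Submodule ℝ V} {b : G → ℝ}
    (hb : b ∈ Wts ρ D) (g k : G) : b (g * k) = b g + b k := by
  obtain ⟨A, _, l, χ, h, hb⟩ := hb
  rw [hb, hb, hb, h.log_mul]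

variable {V : Type v} [LieRing V] [LieAlgebra ℝ V] [FiniteDimensional ℝ V]
variable {N : Subgroup G} [hNn : N.Normal] {ρ : G →* Module.End ℝ V}

/-- the generating weights: nonzero weights of eigenfunctionals which kill all brackets -/
def GW (ρ : G →* Module.End ℝ V) : Set (G → ℝ) :=
  {b | b ≠ 0 ∧ ∃ (l : V →ₗ[ℝ] ℂ) (χ : G → ℂ), EigOn ρ ⊤ l χ ∧ (∀ x y : V, l ⁅x, y⁆ = 0) ∧
    ∀ g, b g = Real.log ‖χ g‖}

theorem GW_sub {b : G → ℝ} (hb : b ∈ GW ρ) : b ∈ Wts ρ ⊤ := by
  obtain ⟨_, l, χ, h, _, hb⟩ := hb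
  exact ⟨⊤, le_rfl, l, χ, h, hb⟩

/-- the subalgebra generated by the weight spaces of the generating weights -/
def PG (ρ : G →* Module.End ℝ V) (t : G) : LieSubalgebra ℝ V :=
  LieSubalgebra.lieSpan ℝ V (⋃ b ∈ GW ρ, (W ρ t (b t) : Set V))

theorem W_le_PG (t : G) {b : G → ℝ} (hb : b ∈ GW ρ) {x : V} (hx : x ∈ W ρ t (b t)) :
    x ∈ PG ρ t := by
  refine LieSubalgebra.subset_lieSpan ?_
  simp only [Set.mem_iUnion]
  exact ⟨b, hb, hx⟩

theorem PG_le {t : G} (hs : Sep ρ t) {x : V} (hx : x ∈ PG ρ t) : x ∈ eId ρ t := by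
  let K : LieSubalgebra ℝ V :=
    { (eId ρ t).toSubmodule with lie_mem' := fun {x y} _ hy => (eId ρ t).lie_mem hy }
  have h1 : PG ρ t ≤ K := by
    unfold PG
    rw [LieSubalgebra.lieSpan_le]
    intro x hx
    simp only [Set.mem_iUnion] at hx
    obtain ⟨b, hb, hx⟩ := hx
    exact Wt_le_eI (fun h0 => hb.1 (hs.1 b (GW_sub hb) h0)) hx
  exact h1 hx

/-- **the ideal is generated by the weight spaces of the generating weights** -/
theorem mem_PG_iff (H : LRep N ρ) {t : G} (hs : Sep ρ t) (x : V) :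
    x ∈ PG ρ t ↔ x ∈ eId ρ t := by
  refine ⟨PG_le hs, fun hx => ?_⟩
  refine le_of_sup_derived H.nil (eId ρ t) (PG ρ t) (fun x hx => PG_le hs hx) ?_ x hx
  have h := rho_inv_mul ρ t
  have h' := rho_mul_inv ρ t
  refine (eI_le h h' (H.lie t) (H.lie t⁻¹)).trans (sup_le ?_ le_sup_right)
  refine iSup_le ?_
  rintro ⟨r, hr⟩
  by_cases hle : Wt (ρ t) (ρ t⁻¹) r ≤ (⁅(⊤ : LieIdeal ℝ V), (⊤ : LieIdeal ℝ V)⁆ :
      LieIdeal ℝ V).toSubmodule
  · exact (Wt_le_derived h h' (H.lie t) (H.lie t⁻¹) H.nil hr hle).trans le_sup_right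
  · obtain ⟨l, χ, hl, hbr, hlog⟩ := H.exists_char t hle
    refine le_trans ?_ le_sup_left
    intro x hx
    refine W_le_PG t (b := fun g => Real.log ‖χ g‖) ⟨?_, l, χ, hl, hbr, fun g => rfl⟩ ?_
    · intro h0
      exact hr (hlog ▸ congrFun h0 t)
    · change x ∈ W ρ t (Real.log ‖χ t‖)
      rw [hlog]
      exact hx

end gen

section cartan

variable {S : Type u} [Group S]
variable {V : Type v} [LieRing V] [LieAlgebra ℝ V] [FiniteDimensional ℝ V]
variable {ρ : S →* Module.End ℝ V} {E : V → S}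

/-- brackets of weight spaces -/
theorem lie_wt (H : ExpS ρ E) {t : S} (hs : Sep ρ t) {b b' : S → ℝ} (hb : b ∈ Wts ρ ⊤)
    (hb' : b' ∈ Wts ρ ⊤) {x y : V} (hx : x ∈ W ρ t (b t)) (hy : y ∈ W ρ t (b' t))
    (hne : ⁅x, y⁆ ≠ 0) : b + b' ∈ Wts ρ ⊤ := by
  have := H.normal
  have h1 := H.lie_W t hx hy
  obtain ⟨b'', hb'', ht⟩ := H.exists_weight t (r := b t + b' t) (by
    intro h0
    rw [h0, Submodule.mem_bot] at h1
    exact hne h1)
  rw [← ht] at h1
  have hU := H.lrep.unipOn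
  have hC : ∀ c ∈ H.C t, b'' c = b c + b' c := by
    intro c hc
    by_contra hcon
    have h2 : ⁅x, y⁆ ∈ W ρ c (b c + b' c) := H.lie_W c (H.W_le hs hb hc hx) (H.W_le hs hb' hc hy)
    have h3 : ⁅x, y⁆ ∈ W ρ c (b'' c) := H.W_le hs hb'' hc h1
    exact hne (Wt_disjoint (rho_inv_mul ρ c) hcon h3 h2)
  have h2 : b'' = b + b' := by
    funext s
    obtain ⟨z, _, hz⟩ := H.exists_mul_mem_C t s
    have h3 := hC _ hz
    have hzN : E z ∈ H.N := ⟨z, rfl⟩
    rw [wts_mul hb'', wts_mul hb, wts_mul hb', wts_eq_zero hU hb'' hzN, wts_eq_zero hU hb hzN,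
      wts_eq_zero hU hb' hzN, zero_add, zero_add, zero_add] at h3
    exact h3
  rw [← h2]
  exact hb''

/-- the weight spaces of a submonoid of weights span a subalgebra -/
def subM (H : ExpS ρ E) {t : S} (hs : Sep ρ t) (M : AddSubmonoid (S → ℝ)) : LieSubalgebra ℝ V :=
  { (⨆ b : {b : S → ℝ // b ∈ Wts ρ ⊤ ∧ b ∈ M}, W ρ t (b.1 t) : Submodule ℝ V) with
    lie_mem' := by
      intro x y hx hy
      change x ∈ (⨆ b : {b : S → ℝ // b ∈ Wts ρ ⊤ ∧ b ∈ M}, W ρ t (b.1 t) : Submodule ℝ V) at hx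
      change y ∈ (⨆ b : {b : S → ℝ // b ∈ Wts ρ ⊤ ∧ b ∈ M}, W ρ t (b.1 t) : Submodule ℝ V) at hy
      change ⁅x, y⁆ ∈ (⨆ b : {b : S → ℝ // b ∈ Wts ρ ⊤ ∧ b ∈ M}, W ρ t (b.1 t) : Submodule ℝ V)
      induction hx using Submodule.iSup_induction' with
      | zero => rw [zero_lie]; exact zero_mem _
      | add a a' _ _ ha ha' => rw [add_lie]; exact add_mem ha ha'
      | mem b a ha =>
        induction hy using Submodule.iSup_induction' with
        | zero => rw [lie_zero]; exact zero_mem _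
        | add c c' _ _ hc hc' => rw [lie_add]; exact add_mem hc hc'
        | mem b' c hc =>
          by_cases h0 : ⁅a, c⁆ = 0
          · rw [h0]; exact zero_mem _
          · exact Submodule.mem_iSup_of_mem
              ⟨b.1 + b'.1, lie_wt H hs b.2.1 b'.2.1 ha hc h0, M.add_mem b.2.2 b'.2.2⟩
              (H.lie_W t ha hc) }

theorem mem_subM (H : ExpS ρ E) {t : S} (hs : Sep ρ t) (M : AddSubmonoid (S → ℝ)) {x : V} :
    x ∈ subM H hs M ↔
      x ∈ (⨆ b : {b : S → ℝ // b ∈ Wts ρ ⊤ ∧ b ∈ M}, W ρ t (b.1 t) : Submodule ℝ V) := Iff.rfl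

/-- nonzero weights have nonzero weight spaces -/
theorem exists_ne (H : ExpS ρ E) (t : S) {b : S → ℝ} (hb : b ∈ Wts ρ ⊤) :
    ∃ x ∈ W ρ t (b t), x ≠ 0 := by
  obtain ⟨A, _, l, χ, h, hb⟩ := hb
  obtain ⟨x, hx, hx0⟩ := h.ne
  obtain ⟨y, _, hy, hly⟩ := h.exists_comp t hx hx0
  refine ⟨y, by rw [hb]; exact hy, fun h0 => ?_⟩
  rw [h0, map_zero] at hly
  exact hx0 hly.symm

open Classical in
/-- **every nonzero weight is a sum of generating weights** -/
theorem mem_closure_GW (H : ExpS ρ E) {t : S} (hs : Sep ρ t) {b : S → ℝ} (hb : b ∈ Wts ρ ⊤)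
    (hb0 : b ≠ 0) : b ∈ AddSubmonoid.closure (GW ρ) := by
  have := H.normal
  obtain ⟨x, hx, hx0⟩ := exists_ne H t hb
  have h1 : x ∈ eId ρ t := Wt_le_eI (fun h0 => hb0 (hs.1 b hb h0)) hx
  rw [← mem_PG_iff H.lrep hs] at h1
  have h2 : PG ρ t ≤ subM H hs (AddSubmonoid.closure (GW ρ)) := by
    unfold PG
    rw [LieSubalgebra.lieSpan_le]
    intro y hy
    simp only [Set.mem_iUnion] at hy
    obtain ⟨b', hb', hy⟩ := hy
    exact Submodule.mem_iSup_of_mem ⟨b', GW_sub hb', AddSubmonoid.subset_closure hb'⟩ hy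
  have h3 := (mem_subM H hs _).1 (h2 h1)
  let p : ℝ → Submodule ℝ V := fun r =>
    if ∃ b' ∈ Wts ρ ⊤, b' ∈ AddSubmonoid.closure (GW ρ) ∧ b' t = r then W ρ t r else ⊥
  have h4 : x ∈ ⨆ r, p r := by
    refine (iSup_le ?_ : (⨆ b : {b : S → ℝ // b ∈ Wts ρ ⊤ ∧ b ∈ AddSubmonoid.closure (GW ρ)},
      W ρ t (b.1 t)) ≤ ⨆ r, p r) h3
    rintro ⟨b', hb'1, hb'2⟩
    refine le_trans (le_of_eq ?_) (le_iSup p (b' t))
    simp only [p]
    rw [if_pos ⟨b', hb'1, hb'2, rfl⟩]
  have h5 : x ∈ p (b t) := Wt_inf_iSup (rho_inv_mul ρ t) p (fun s => by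
    simp only [p]
    split_ifs
    · exact le_rfl
    · exact bot_le) hx h4
  simp only [p] at h5
  split_ifs at h5 with hcond
  · obtain ⟨b', hb'1, hb'2, hb't⟩ := hcond
    rw [← hs.2 b' hb'1 b hb hb't]
    exact hb'2
  · exact absurd ((Submodule.mem_bot ℝ).1 h5) hx0

end cartan

end Vale.Agent.P188.H953

end

section

/-!
P188, Z1, RM-b: determinants of the elements of the Cartan group.
-/

set_option linter.all false

universe u v w

namespace Vale.Agent.P188.H953

open Module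
open scoped commutatorElement
open Vale.Agent.P188.H269

/-! ### linear algebra -/

theorem det_blockDiagonal' {ι : Type*} [Fintype ι] [LinearOrder ι] {κ : ι → Type*}
    [∀ i, Fintype (κ i)] [∀ i, DecidableEq (κ i)] (M : ∀ i, Matrix (κ i) (κ i) ℝ) :
    (Matrix.blockDiagonal' M).det = ∏ i, (M i).det := by
  have h : Matrix.BlockTriangular (Matrix.blockDiagonal' M) (Sigma.fst : (Σ i, κ i) → ι) := by
    rintro ⟨i, a⟩ ⟨j, b⟩ hij
    rw [Matrix.blockDiagonal'_apply_ne]
    exact ne_of_gt hij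
  rw [h.det_fintype]
  refine Finset.prod_congr rfl fun k _ => ?_
  rw [← Matrix.det_submatrix_equiv_self (Equiv.sigmaSubtype k).symm]
  congr 1
  ext a b
  simp [Matrix.toSquareBlock_def, Equiv.sigmaSubtype]

theorem det_eq_prod {V : Type*} [AddCommGroup V] [Module ℝ V] [FiniteDimensional ℝ V]
    {ι : Type*} [Fintype ι] [LinearOrder ι] {A : ι → Submodule ℝ V}
    (h : DirectSum.IsInternal A) {T : Module.End ℝ V} (hT : ∀ i, ∀ x ∈ A i, T x ∈ A i) :
    LinearMap.det T = ∏ i, LinearMap.det (T.restrict (hT i)) := by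
  classical
  let b : (i : ι) → Basis _ ℝ (A i) := fun i ↦ Module.Free.chooseBasis ℝ (A i)
  rw [← LinearMap.det_toMatrix (h.collectedBasis b),
    LinearMap.toMatrix_directSum_collectedBasis_eq_blockDiagonal' h h b b hT,
    det_blockDiagonal']
  refine Finset.prod_congr rfl fun i _ => ?_
  rw [LinearMap.det_toMatrix]

/-- growth of the determinant -/
theorem log_det_le {V : Type*} [AddCommGroup V] [Module ℝ V] [FiniteDimensional ℝ V]
    {T : Module.End ℝ V} {r : ℝ} (h : ∀ x, x ∈ Gr T r) (hT : LinearMap.det T ≠ 0) :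
    Real.log |LinearMap.det T| ≤ r * finrank ℝ V := by
  refine le_of_exp_bound (a := 1) one_pos fun ε hε => ?_
  let b := finBasis ℝ V
  have hε' : 0 < ε / (finrank ℝ V + 1) := by positivity
  choose C hC0 hC using fun j => Gr.bound_fin (h (b j)) (fun i => b.coord i) hε'
  refine ⟨(finrank ℝ V).factorial * (∑ j, C j) ^ finrank ℝ V, fun n => ?_⟩
  have h1 : ∀ i j, |(LinearMap.toMatrix b b (T ^ n)) i j| ≤
      (∑ j, C j) * Real.exp ((r + ε / (finrank ℝ V + 1)) * n) := by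
    intro i j
    rw [LinearMap.toMatrix_apply]
    refine (hC j i n).trans ?_
    refine mul_le_mul_of_nonneg_right ?_ (Real.exp_pos _).le
    exact Finset.single_le_sum (f := C) (fun j _ => hC0 j) (Finset.mem_univ j)
  have h2 := Matrix.det_le (abv := AbsoluteValue.abs) (A := LinearMap.toMatrix b b (T ^ n)) h1
  rw [LinearMap.det_toMatrix, Fintype.card_fin, nsmul_eq_mul, map_pow, AbsoluteValue.abs_apply,
    abs_pow, mul_pow, ← Real.exp_nat_mul] at h2
  have h3 : Real.exp (Real.log |LinearMap.det T| * n) = |LinearMap.det T| ^ n := by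
    rw [mul_comm, Real.exp_nat_mul, Real.exp_log (abs_pos.2 hT)]
  rw [one_mul, h3]
  refine h2.trans ?_
  rw [← mul_assoc]
  refine mul_le_mul_of_nonneg_left (Real.exp_le_exp.2 ?_)
    (mul_nonneg (Nat.cast_nonneg _) (pow_nonneg (Finset.sum_nonneg fun j _ => hC0 j) _))
  have h4 : (finrank ℝ V : ℝ) * (ε / (finrank ℝ V + 1)) ≤ ε := by
    rw [mul_div_assoc', div_le_iff₀ (by positivity)]
    nlinarith
  have h5 : (0 : ℝ) ≤ n := Nat.cast_nonneg n
  nlinarith

theorem iSupIndep_Wt {V : Type*} [AddCommGroup V] [Module ℝ V] [FiniteDimensional ℝ V]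
    {T T' : Module.End ℝ V} (h : T' * T = 1) : iSupIndep (Wt T T') := by
  classical
  intro r
  rw [Submodule.disjoint_def]
  intro x hx hx'
  let p : ℝ → Submodule ℝ V := fun s => if s = r then ⊥ else Wt T T' s
  have h1 : x ∈ ⨆ s, p s := by
    refine (iSup₂_le ?_ : (⨆ (j : ℝ) (_ : j ≠ r), Wt T T' j) ≤ ⨆ s, p s) hx'
    intro j hj
    refine le_trans (le_of_eq ?_) (le_iSup p j)
    simp only [p, if_neg hj]
  have h2 := Wt_inf_iSup h p (fun s => by
    simp only [p]
    split_ifs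
    · exact bot_le
    · exact le_rfl) hx h1
  simp only [p, if_pos] at h2
  exact (Submodule.mem_bot ℝ).1 h2

section cartan

variable {S : Type u} [Group S]
variable {V : Type v} [LieRing V] [LieAlgebra ℝ V] [FiniteDimensional ℝ V]
variable {ρ : S →* Module.End ℝ V} {E : V → S}

theorem iSup_W (ρ : S →* Module.End ℝ V) (t : S) : ⨆ r, W ρ t r = ⊤ :=
  iSup_Wt_eq_top (rho_inv_mul ρ t) (rho_mul_inv ρ t)

theorem indep_W (ρ : S →* Module.End ℝ V) (t : S) : iSupIndep (W ρ t) :=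
  iSupIndep_Wt (rho_inv_mul ρ t)

theorem finite_W (ρ : S →* Module.End ℝ V) (t : S) : {r | W ρ t r ≠ ⊥}.Finite :=
  WellFoundedGT.finite_ne_bot_of_iSupIndep (indep_W ρ t)

theorem internal_W (ρ : S →* Module.End ℝ V) (t : S) :
    DirectSum.IsInternal fun r : {r : ℝ // W ρ t r ≠ ⊥} => W ρ t r.1 := by
  refine DirectSum.isInternal_ne_bot_iff.mpr ?_
  exact DirectSum.isInternal_submodule_of_iSupIndep_of_iSup_eq_top (indep_W ρ t) (iSup_W ρ t)

/-- the determinant of an element of the Cartan group on a weight space -/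
theorem log_det_W (H : ExpS ρ E) {t : S} (hs : Sep ρ t) {b : S → ℝ} (hb : b ∈ Wts ρ ⊤) {c : S}
    (hc : c ∈ H.C t) :
    LinearMap.det ((ρ c).restrict (H.C_inv hc (b t))) ≠ 0 ∧
    Real.log |LinearMap.det ((ρ c).restrict (H.C_inv hc (b t)))| =
      b c * finrank ℝ (W ρ t (b t)) := by
  have hc' : c⁻¹ ∈ H.C t := (H.C t).inv_mem hc
  set T := (ρ c).restrict (H.C_inv hc (b t)) with hT
  set T' := (ρ c⁻¹).restrict (H.C_inv hc' (b t)) with hT'
  have h1 : T' * T = 1 := by
    ext x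
    change ((ρ c⁻¹) ((ρ c) (x : V)) : V) = x
    have := congrArg (fun f : Module.End ℝ V => f (x : V)) (rho_inv_mul ρ c)
    exact this
  have h2 : LinearMap.det T' * LinearMap.det T = 1 := by
    rw [← map_mul, h1, map_one]
  have hT0 : LinearMap.det T ≠ 0 := fun h => by
    rw [h, mul_zero] at h2; exact zero_ne_one h2
  have hT'0 : LinearMap.det T' ≠ 0 := fun h => by
    rw [h, zero_mul] at h2; exact zero_ne_one h2
  refine ⟨hT0, ?_⟩
  have h3 : Real.log |LinearMap.det T| ≤ b c * finrank ℝ (W ρ t (b t)) := by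
    refine log_det_le (fun x => ?_) hT0
    exact Gr_restrict _ (H.C_inv hc (b t)) x.2 (H.W_le hs hb hc x.2).1
  have h4 : Real.log |LinearMap.det T'| ≤ b c⁻¹ * finrank ℝ (W ρ t (b t)) := by
    refine log_det_le (fun x => ?_) hT'0
    exact Gr_restrict _ (H.C_inv hc' (b t)) x.2 (H.W_le hs hb hc' x.2).1
  have h5 : Real.log |LinearMap.det T'| + Real.log |LinearMap.det T| = 0 := by
    rw [← Real.log_mul (abs_pos.2 hT'0).ne' (abs_pos.2 hT0).ne', ← abs_mul, h2, abs_one,
      Real.log_one]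
  have h6 : b c⁻¹ = - b c := by
    have h7 := wts_mul hb c⁻¹ c
    have h8 := wts_mul hb 1 1
    rw [inv_mul_cancel] at h7
    rw [mul_one] at h8
    linarith
  rw [h6] at h4
  linarith

theorem log_det_W' (H : ExpS ρ E) {t : S} (hs : Sep ρ t) {b : S → ℝ} (hb : b ∈ Wts ρ ⊤) {c : S}
    (hc : c ∈ H.C t) {r : ℝ} (hr : b t = r) :
    LinearMap.det ((ρ c).restrict (H.C_inv hc r)) ≠ 0 ∧
    Real.log |LinearMap.det ((ρ c).restrict (H.C_inv hc r))| =
      b c * finrank ℝ (W ρ t r) := by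
  subst hr
  exact log_det_W H hs hb hc

theorem log_det_sum (H : ExpS ρ E) {t : S} (hs : Sep ρ t) [Fintype {r : ℝ // W ρ t r ≠ ⊥}]
    (β : {r : ℝ // W ρ t r ≠ ⊥} → S → ℝ) (hβ : ∀ i, β i ∈ Wts ρ ⊤) (hβt : ∀ i, β i t = i.1)
    {c : S} (hc : c ∈ H.C t) : Real.log |LinearMap.det (ρ c)| =
        ∑ i : {r : ℝ // W ρ t r ≠ ⊥}, β i c * finrank ℝ (W ρ t i.1) := by
  have h1 := det_eq_prod (internal_W ρ t) (T := ρ c) (fun i => H.C_inv hc i.1)
  rw [h1, Finset.abs_prod, Real.log_prod (fun i _ =>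
    (abs_pos.2 (log_det_W' H hs (hβ i) hc (hβt i)).1).ne')]
  exact Finset.sum_congr rfl fun i _ => (log_det_W' H hs (hβ i) hc (hβt i)).2

open Classical in
/-- **unimodularity relation of the generating weights** -/
theorem exists_mult (H : ExpS ρ E) {t : S} (hs : Sep ρ t) (G₀ : Finset (S → ℝ))
    (hG : (G₀ : Set (S → ℝ)) = GW ρ) :
    ∃ m : (S → ℝ) → ℕ, (∀ b ∈ G₀, 0 < m b) ∧
      ∀ c ∈ H.C t, ∑ b ∈ G₀, (m b : ℝ) * b c = Real.log |LinearMap.det (ρ c)| := by
  haveI := H.normal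
  haveI : Fintype {r : ℝ // W ρ t r ≠ ⊥} := (finite_W ρ t).fintype
  choose β hβ hβt using fun i : {r : ℝ // W ρ t r ≠ ⊥} => H.exists_weight t i.2
  have hn : ∀ i, ∃ f : (S → ℝ) → ℕ, (∑ b ∈ G₀, f b • b = β i) ∧ (β i ∈ G₀ → 0 < f (β i)) := by
    intro i
    by_cases h1 : β i ∈ G₀
    · refine ⟨fun b => if b = β i then 1 else 0, ?_, fun _ => by simp⟩
      rw [Finset.sum_eq_single_of_mem (β i) h1]
      · simp
      · intro b _ hb
        simp [hb]
    · by_cases h0 : β i = 0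
      · refine ⟨fun _ => 0, ?_, fun h => absurd h h1⟩
        rw [h0]; simp
      · have h2 := mem_closure_GW H hs (hβ i) h0
        rw [← hG, AddSubmonoid.mem_closure_finset] at h2
        obtain ⟨f, _, hf⟩ := h2
        exact ⟨f, hf, fun h => absurd h h1⟩
  choose f hf hf0 using hn
  refine ⟨fun b => ∑ i : {r : ℝ // W ρ t r ≠ ⊥}, finrank ℝ (W ρ t i.1) * f i b, ?_, ?_⟩
  · intro b hb
    have hbG : b ∈ GW ρ := by rw [← hG]; exact hb
    have h1 : W ρ t (b t) ≠ ⊥ := by
      obtain ⟨x, hx, hx0⟩ := exists_ne H t (GW_sub hbG)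
      intro h0
      rw [h0, Submodule.mem_bot] at hx
      exact hx0 hx
    obtain ⟨i, hi⟩ : ∃ i : {r : ℝ // W ρ t r ≠ ⊥}, i.1 = b t := ⟨⟨b t, h1⟩, rfl⟩
    have h2 : β i = b := hs.2 _ (hβ _) _ (GW_sub hbG) ((hβt i).trans hi)
    have h3 : 0 < f i b := by
      have := hf0 i (by rw [h2]; exact hb)
      rwa [h2] at this
    have h4 : 0 < finrank ℝ (W ρ t i.1) := by
      have : Nontrivial (W ρ t i.1) := Submodule.nontrivial_iff_ne_bot.2 i.2
      exact finrank_pos
    exact Finset.sum_pos' (fun i _ => Nat.zero_le _) ⟨i, Finset.mem_univ i, Nat.mul_pos h4 h3⟩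
  · intro c hc
    rw [log_det_sum H hs β hβ hβt hc]
    push_cast
    have h4 : ∀ i : {r : ℝ // W ρ t r ≠ ⊥}, β i c = ∑ b ∈ G₀, (f i b : ℝ) * b c := by
      intro i
      conv_lhs => rw [← hf i]
      rw [Finset.sum_apply]
      refine Finset.sum_congr rfl fun b _ => ?_
      rw [Pi.smul_apply, nsmul_eq_mul]
    simp_rw [h4, Finset.sum_mul]
    rw [Finset.sum_comm]
    refine Finset.sum_congr rfl fun i _ => Finset.sum_congr rfl fun b _ => ?_
    ring

end cartan

end Vale.Agent.P188.H953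

end
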