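import Vale.Agent.P188.R.G055

section

/-!
Matching boxes in the group `S`: hypothesis of `H382.good_close`.
-/

open Finset Filter Topology Pointwise

universe u v

namespace Vale.Agent.P188.H615

open Vale.Agent.P188.H796

section hypbox

variable {Γ : Type u} [Group Γ] {N : Subgroup Γ} [hN : N.Normal] {d n : ℕ} (D : MB N d n)

/-- the ball of `S` of radius `R` is covered by `e^{εR}` pieces `p * exp e * (bounded)`, with
lengths controlled independently of `ε` -/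
def Pieces (l : D.S → ℕ) (e : LieIdeal ℝ D.R.V) : Prop :=
  ∃ C : ℕ, ∀ ε : ℝ, 0 < ε → ∃ Cε : ℝ, ∀ R : ℕ, ∃ P : Finset D.S,
    (P.card : ℝ) ≤ Cε * Real.exp (ε * R) ∧ (∀ p ∈ P, l p ≤ C * (R + 1)) ∧
    ∀ s : D.S, l s ≤ R → ∃ p ∈ P, ∃ X ∈ e, ∃ b : D.S, s = p * D.ex X * b ∧ l b ≤ C

/-- the metric facts about `S` -/
structure Met (l : D.S → ℕ) (e : LieIdeal ℝ D.R.V) : Prop where
  sub : SubN l
  inv : ∀ s : D.S, ∀ X ∈ e, D.Ad s X ∈ e
  up : ∃ C : ℝ, 0 ≤ C ∧ ∀ X ∈ e, (l (D.ex X) : ℝ) ≤ C * (1 + Real.log (1 + ‖(X : D.Alg)‖))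
  low : ∃ C : ℝ, 0 ≤ C ∧ ∀ X ∈ e, Real.log (1 + ‖(X : D.Alg)‖) ≤ C * (1 + l (D.ex X))
  ad : ∀ k : ℕ, ∃ r : ℝ, 1 ≤ r ∧ ∀ s : D.S, l s ≤ k → ∀ v : D.R.V,
    ‖((D.Ad s v : D.R.V) : D.Alg)‖ ≤ r * ‖(v : D.Alg)‖

variable {D}

theorem gam_inv {e : LieIdeal ℝ D.R.V} (s : D.S) (hs : ∀ X ∈ e, D.Ad s X ∈ e) (i : ℕ) :
    ∀ X ∈ gam D.R e.toSubmodule i, D.Ad s X ∈ gam D.R e.toSubmodule i := by
  induction i with
  | zero => exact hs
  | succ i ih =>
    intro X hX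
    rw [gam] at hX
    induction hX using Submodule.span_induction with
    | mem x hx =>
      obtain ⟨a, ha, b, hb, rfl⟩ := hx
      rw [D.Ad_lie]
      exact lie_mem_gam (hs a ha) (ih b hb)
    | zero => rw [map_zero]; exact Submodule.zero_mem _
    | add a b _ _ ha hb => rw [map_add]; exact Submodule.add_mem _ ha hb
    | smul t a _ ha => rw [map_smul]; exact Submodule.smul_mem _ t ha

theorem Ad_hb {e : LieIdeal ℝ D.R.V} (s : D.S) (hs : ∀ X ∈ e, D.Ad s X ∈ e) {r ρ : ℝ} (hr : 0 < r)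
    (hn : ∀ v : D.R.V, ‖((D.Ad s v : D.R.V) : D.Alg)‖ ≤ r * ‖(v : D.Alg)‖) {X : D.R.V}
    (hX : X ∈ hb D.R e.toSubmodule ρ) : D.Ad s X ∈ r • hb D.R e.toSubmodule ρ := by
  obtain ⟨x, hx, rfl⟩ := hX
  refine ⟨∑ i : Fin D.R.m, ρ ^ ((i : ℕ) + 1) • (r⁻¹ • D.Ad s (x i)), ⟨_, fun i => ⟨?_, ?_⟩, rfl⟩, ?_⟩
  · exact Submodule.smul_mem _ _ (gam_inv s hs i _ (hx i).1)
  · rw [Submodule.coe_smul, norm_smul, Real.norm_of_nonneg (by positivity), inv_mul_le_iff₀ hr]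
    exact (hn _).trans (mul_le_mul_of_nonneg_left (hx i).2 hr.le)
  · simp only
    rw [smul_sum, map_sum]
    refine sum_congr rfl fun i _ => ?_
    rw [smul_comm r, smul_inv_smul₀ hr.ne', map_smul]

/-- conjugation by an element of `S` on the real group -/
noncomputable def cj (s : D.S) (k : D.R.NR) : D.R.NR := D.R.Ex (D.Ad s (D.R.Lo k))

theorem inN_cj (s : D.S) (k : D.R.NR) : D.inN (cj s k) = s * D.inN k * s⁻¹ := by
  have h := D.ex_Ad s (D.R.Lo k)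
  rw [MB.ex, MB.ex, D.R.Ex_Lo] at h
  exact h

theorem cj_mul (s : D.S) (k k' : D.R.NR) : cj s (k * k') = cj s k * cj s k' := by
  apply D.P.inK_injective
  rw [map_mul]
  change D.inN (cj s (k * k')) = D.inN (cj s k) * D.inN (cj s k')
  rw [inN_cj, inN_cj, inN_cj, map_mul]
  group

theorem cj_cj (s t : D.S) (k : D.R.NR) : cj s (cj t k) = cj (s * t) k := by
  rw [cj, cj, cj, D.R.Lo_Ex, map_mul]; rfl

theorem cj_one (k : D.R.NR) : cj (1 : D.S) k = k := by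
  rw [cj, map_one]; exact D.R.Ex_Lo k

theorem cj_inv (s : D.S) (k : D.R.NR) : cj s k⁻¹ = (cj s k)⁻¹ := by
  rw [eq_inv_iff_mul_eq_one, ← cj_mul, inv_mul_cancel, cj, Lo_one, map_zero, D.R.Ex_zero]

theorem Lo_cj (s : D.S) (k : D.R.NR) : D.R.Lo (cj s k) = D.Ad s (D.R.Lo k) := D.R.Lo_Ex _

/-- elements of exponentially large homogeneous boxes have linear length -/
theorem len_hb {l : D.S → ℕ} {e : LieIdeal ℝ D.R.V} {Cu : ℝ} (hCu : 0 ≤ Cu)
    (hup : ∀ X ∈ e, (l (D.ex X) : ℝ) ≤ Cu * (1 + Real.log (1 + ‖(X : D.Alg)‖)))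
    {D' K0 : ℝ} (hD : 1 ≤ D') (hK0 : 0 ≤ K0) : ∃ C3 : ℕ, ∀ R : ℕ, ∀ x : D.R.NR,
      x ∈ EK D.R (D' • hb D.R e.toSubmodule (Real.exp (K0 * (R + 1)))) →
      l (D.inN x) ≤ C3 * (R + 1) := by
  have he : ∀ x ∈ e.toSubmodule, ∀ y ∈ e.toSubmodule, ⁅x, y⁆ ∈ e.toSubmodule :=
    fun x _ y hy => e.lie_mem hy
  have hD0 : 0 ≤ D' := by linarith
  have hm0 : (0 : ℝ) < D.R.m := by exact_mod_cast D.R.hm0
  set c : ℝ := Real.log (1 + D' * D.R.m) with hc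
  have hlogn : 0 ≤ c := log_one_add_nonneg (by positivity)
  refine ⟨⌈Cu * (1 + (c + D.R.m * K0))⌉₊, fun R x hx => ?_⟩
  set ρ := Real.exp (K0 * (R + 1)) with hρ
  have hρ1 : 1 ≤ ρ := Real.one_le_exp (by positivity)
  obtain ⟨w, hw, hw2⟩ := hx
  simp only at hw2
  have h1 : D.R.Lo x ∈ e := by rw [← hw2]; exact e.smul_mem _ (hb_le he hw)
  have h2 := hup _ h1
  rw [MB.ex, D.R.Ex_Lo] at h2
  have h3 : ‖((D.R.Lo x : D.R.V) : D.Alg)‖ ≤ D' * (D.R.m * ρ ^ D.R.m) := by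
    rw [← hw2, Submodule.coe_smul, norm_smul, Real.norm_of_nonneg hD0]
    exact mul_le_mul_of_nonneg_left (norm_hb_le hρ1 hw) hD0
  have h5 : 1 + ‖((D.R.Lo x : D.R.V) : D.Alg)‖ ≤ (1 + D' * D.R.m) * ρ ^ D.R.m := by
    have : 1 ≤ ρ ^ D.R.m := one_le_pow₀ hρ1
    linarith
  have h4 : Real.log (1 + ‖((D.R.Lo x : D.R.V) : D.Alg)‖) ≤ c + D.R.m * (K0 * (R + 1)) := by
    refine (Real.log_le_log (by positivity) h5).trans ?_
    rw [Real.log_mul (by positivity) (by positivity), Real.log_pow, hρ, Real.log_exp]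
  have h6 : (l (D.inN x) : ℝ) ≤ Cu * (1 + (c + D.R.m * K0)) * (R + 1) := by
    refine h2.trans ?_
    rw [mul_assoc]
    refine mul_le_mul_of_nonneg_left ?_ hCu
    have : (0 : ℝ) ≤ R := Nat.cast_nonneg R
    nlinarith
  have h7 : Cu * (1 + (c + D.R.m * K0)) * (R + 1) ≤
      ((⌈Cu * (1 + (c + D.R.m * K0))⌉₊ * (R + 1) : ℕ) : ℝ) := by
    push_cast
    exact mul_le_mul_of_nonneg_right (Nat.le_ceil _) (by positivity)
  exact_mod_cast h6.trans h7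

/-- the pure part of an element of a ball is in an exponentially large box -/
theorem mem_hb_of_len {l : D.S → ℕ} {e : LieIdeal ℝ D.R.V} (hsub : SubN l) {Cl : ℝ} (hCl : 0 ≤ Cl)
    (hlow : ∀ X ∈ e, Real.log (1 + ‖(X : D.Alg)‖) ≤ Cl * (1 + l (D.ex X))) (CP : ℕ) :
    ∀ (R : ℕ) (s p b : D.S) (X : D.R.V), X ∈ e → l s ≤ R → l p ≤ CP * (R + 1) → l b ≤ CP →
      s = p * D.ex X * b →
      X ∈ hb D.R e.toSubmodule (Real.exp (Cl * (1 + (2 * CP + 1)) * (R + 1))) := by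
  intro R s p b X hX hs hp hb' hsb
  have h1 : D.ex X = p⁻¹ * s * b⁻¹ := by rw [hsb]; group
  have h2 : l (D.ex X) ≤ CP * (R + 1) + R + CP := by
    rw [h1]
    refine (hsub.mul _ _).trans ?_
    rw [hsub.inv]
    refine add_le_add ((hsub.mul _ _).trans ?_) hb'
    rw [hsub.inv]
    exact add_le_add hp hs
  have h3 := hlow X hX
  have h4 : (l (D.ex X) : ℝ) ≤ CP * (R + 1) + R + CP := by exact_mod_cast h2
  have hR : (0 : ℝ) ≤ R := Nat.cast_nonneg R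
  have hCPn : (0 : ℝ) ≤ CP := Nat.cast_nonneg CP
  have h5 : Real.log (1 + ‖(X : D.Alg)‖) ≤ Cl * (1 + (2 * CP + 1)) * (R + 1) := by
    refine h3.trans ?_
    rw [mul_assoc]
    refine mul_le_mul_of_nonneg_left ?_ hCl
    nlinarith
  refine ball_le_hb (Real.exp_pos _) hX ?_
  have h6 : 1 + ‖(X : D.Alg)‖ ≤ Real.exp (Cl * (1 + (2 * CP + 1)) * (R + 1)) := by
    rw [← Real.exp_log (show 0 < 1 + ‖(X : D.Alg)‖ by positivity)]
    exact Real.exp_le_exp.2 h5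
  linarith

open Classical in
/-- the matching map -/
theorem match_aux {l : D.S → ℕ} {e : LieIdeal ℝ D.R.V} (hM : Met D l e) {Cu : ℝ} (hCu : 0 ≤ Cu)
    (hup : ∀ X ∈ e, (l (D.ex X) : ℝ) ≤ Cu * (1 + Real.log (1 + ‖(X : D.Alg)‖)))
    {r ρ D' : ℝ} (hr1 : 1 ≤ r) {M CP : ℕ}
    (hD' : ∀ x ∈ EK D.R (r • hb D.R e.toSubmodule ρ), ∀ y ∈ EK D.R (r • hb D.R e.toSubmodule ρ),
      x * y ∈ EK D.R (D' • hb D.R e.toSubmodule ρ))
    {X1 X2 : Finset D.R.NR} (hX1 : ∀ x ∈ X1, x ∈ EK D.R (hb D.R e.toSubmodule ρ))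
    (hX2c : ∀ t ∈ EK D.R (D' • hb D.R e.toSubmodule ρ), ∃ x ∈ X2,
      x⁻¹ * t ∈ EK D.R (bl D.R e.toSubmodule))
    (hX1f : ∀ y : D.R.NR, (X1.filter fun x => y⁻¹ * x ∈ EK D.R (r • bl D.R e.toSubmodule)).card ≤ M)
    (s p b : D.S) (X : D.R.V) (hX : X ∈ hb D.R e.toSubmodule ρ) (hb' : l b ≤ CP)
    (hsb : s = p * D.ex X * b)
    (hr : ∀ s : D.S, l s ≤ CP → ∀ v : D.R.V, ‖((D.Ad s v : D.R.V) : D.Alg)‖ ≤ r * ‖(v : D.Alg)‖) :
    ∃ Φ : D.R.NR → D.R.NR, (∀ x ∈ X1, Φ x ∈ X2) ∧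
        (∀ y ∈ X2, (X1.filter fun x => Φ x = y).card ≤ M) ∧
        ∀ x ∈ X1, l ((s * D.inN x)⁻¹ * (p * D.inN (Φ x))) ≤
          CP + ⌈Cu * (1 + Real.log (1 + 1))⌉₊ := by
  have hr0 : 0 < r := by linarith
  have hsub := hM.sub
  have hbr := hr b hb'
  -- the matching elements
  set w : D.R.NR → D.R.NR := fun x => D.R.Ex X * cj b x with hw
  have hwm : ∀ x ∈ X1, w x ∈ EK D.R (D' • hb D.R e.toSubmodule ρ) := by
    intro x hx
    refine hD' _ ?_ _ ?_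
    · rw [mem_EK, D.R.Lo_Ex]
      have h1 : X ∈ (1 : ℝ) • hb D.R e.toSubmodule ρ := by rw [one_smul]; exact hX
      exact (csv_hb ρ).mem_mono zero_le_one hr1 h1
    · rw [mem_EK, Lo_cj]
      exact Ad_hb b (hM.inv b) hr0 hbr (hX1 x hx)
  have hΦ : ∀ x, ∃ y, x ∈ X1 → y ∈ X2 ∧ y⁻¹ * w x ∈ EK D.R (bl D.R e.toSubmodule) := by
    intro x
    by_cases hx : x ∈ X1
    · obtain ⟨y, hy, h⟩ := hX2c _ (hwm x hx)
      exact ⟨y, fun _ => ⟨hy, h⟩⟩
    · exact ⟨1, fun h => absurd h hx⟩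
  choose Φ hΦ using hΦ
  refine ⟨Φ, fun x hx => (hΦ x hx).1, ?_, ?_⟩
  · intro y _
    refine le_trans (Finset.card_le_card ?_) (hX1f (cj b⁻¹ ((D.R.Ex X)⁻¹ * y)))
    intro x hx
    rw [Finset.mem_filter] at hx ⊢
    refine ⟨hx.1, ?_⟩
    have h1 := (hΦ x hx.1).2
    rw [hx.2] at h1
    have h2 : (cj b⁻¹ ((D.R.Ex X)⁻¹ * y))⁻¹ * x = cj b⁻¹ (y⁻¹ * w x) := by
      rw [hw]
      simp only
      rw [← cj_inv, ← mul_assoc, cj_mul b⁻¹ (y⁻¹ * D.R.Ex X), cj_cj, inv_mul_cancel, cj_one,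
        mul_inv_rev, inv_inv]
    rw [h2, mem_EK, Lo_cj, mem_smul_bl hr0.le]
    refine ⟨hM.inv _ _ h1.1, ?_⟩
    have h3 := hr b⁻¹ (by rw [hsub.inv]; exact hb') (D.R.Lo (y⁻¹ * w x))
    refine h3.trans ?_
    calc r * _ ≤ r * 1 := mul_le_mul_of_nonneg_left h1.2 hr0.le
      _ = r := mul_one r
  · intro x hx
    have h1 := (hΦ x hx).2
    have h2 : (s * D.inN x)⁻¹ * (p * D.inN (Φ x)) = b⁻¹ * (D.inN ((Φ x)⁻¹ * w x))⁻¹ := by
      rw [hw]
      simp only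
      rw [map_mul, map_mul, inN_cj, map_inv, hsb, MB.ex]
      group
    rw [h2]
    have h3 : l (D.inN ((Φ x)⁻¹ * w x)) ≤ ⌈Cu * (1 + Real.log (1 + 1))⌉₊ := by
      have h4 := hup _ h1.1
      rw [MB.ex, D.R.Ex_Lo] at h4
      have h5 : Real.log (1 + ‖((D.R.Lo ((Φ x)⁻¹ * w x) : D.R.V) : D.Alg)‖) ≤
          Real.log (1 + 1) := Real.log_le_log (by positivity) (by linarith [h1.2])
      have h6 : (l (D.inN ((Φ x)⁻¹ * w x)) : ℝ) ≤ Cu * (1 + Real.log (1 + 1)) :=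
        h4.trans (mul_le_mul_of_nonneg_left (by linarith) hCu)
      exact_mod_cast h6.trans (Nat.le_ceil _)
    refine (hsub.mul _ _).trans ?_
    rw [hsub.inv, hsub.inv]
    exact add_le_add hb' h3

end hypbox

end Vale.Agent.P188.H615

end

section

/-!
Seminorms on `V` vanishing exactly on an ideal; natural boxes of seminorm balls.
-/

open Finset Filter Topology Pointwise

universe u v w

namespace Vale.Agent.P188.H615

open Vale.Agent.P188.H796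

section lin

/-- coordinates modulo a subspace -/
theorem exists_coord {V : Type v} [AddCommGroup V] [Module ℝ V] [FiniteDimensional ℝ V]
    (e : Submodule ℝ V) : ∃ (r : ℕ) (φ : V →ₗ[ℝ] (Fin r → ℝ)) (σ : (Fin r → ℝ) →ₗ[ℝ] V),
      (∀ x, φ x = 0 ↔ x ∈ e) ∧ ∀ y, φ (σ y) = y := by
  let b := Module.finBasis ℝ (V ⧸ e)
  let φ : V →ₗ[ℝ] (Fin (Module.finrank ℝ (V ⧸ e)) → ℝ) := b.equivFun.toLinearMap ∘ₗ e.mkQ
  have hφ : Function.Surjective φ := b.equivFun.surjective.comp e.mkQ_surjective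
  obtain ⟨σ, hσ⟩ := LinearMap.exists_rightInverse_of_surjective φ (LinearMap.range_eq_top.2 hφ)
  refine ⟨_, φ, σ, fun x => ?_, fun y => LinearMap.congr_fun hσ y⟩
  change b.equivFun (e.mkQ x) = 0 ↔ _
  rw [LinearEquiv.map_eq_zero_iff, Submodule.mkQ_apply, Submodule.Quotient.mk_eq_zero]

theorem sem_le {r : ℕ} (q : Seminorm ℝ (Fin r → ℝ)) : ∃ C : ℝ, 0 ≤ C ∧ ∀ y, q y ≤ C * ‖y‖ := by
  classical
  refine ⟨∑ i, q (Pi.single i 1), Finset.sum_nonneg fun i _ => apply_nonneg _ _, fun y => ?_⟩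
  have h1 : y = ∑ i, y i • (Pi.single i (1 : ℝ) : Fin r → ℝ) := by
    ext j
    simp [Finset.sum_apply, Pi.single_apply]
  conv_lhs => rw [h1]
  rw [Finset.sum_mul]
  refine (Finset.le_sum_of_subadditive q (map_zero q).le (map_add_le_add q) _ _).trans
    (Finset.sum_le_sum fun i _ => ?_)
  rw [map_smul_eq_mul, mul_comm]
  exact mul_le_mul_of_nonneg_left (norm_le_pi_norm y i) (apply_nonneg _ _)

theorem sem_ge {r : ℕ} (q : Seminorm ℝ (Fin r → ℝ)) (hq : ∀ y, q y = 0 → y = 0) :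
    ∃ C : ℝ, 0 ≤ C ∧ ∀ y, ‖y‖ ≤ C * q y := by
  obtain ⟨C, hC, h⟩ := sem_le q
  have hcont : Continuous q := by
    refine (LipschitzWith.of_dist_le_mul (K := ⟨C, hC⟩) fun x y => ?_).continuous
    rw [Real.dist_eq, dist_eq_norm]
    exact (abs_sub_map_le_sub q x y).trans (h _)
  rcases Nat.eq_zero_or_pos r with hr | hr
  · subst hr
    exact ⟨0, le_rfl, fun y => by rw [Subsingleton.elim y 0]; simp⟩
  · obtain ⟨y0, hy0, hmin⟩ := (isCompact_sphere (0 : Fin r → ℝ) 1).exists_isMinOn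
      ⟨Pi.single (⟨0, hr⟩ : Fin r) (1 : ℝ), by
        rw [mem_sphere_zero_iff_norm, Pi.norm_single, norm_one]⟩ hcont.continuousOn
    have hy1 : ‖y0‖ = 1 := by simpa using hy0
    have hpos : 0 < q y0 := by
      refine lt_of_le_of_ne (apply_nonneg _ _) fun h0 => ?_
      have := hq y0 h0.symm
      rw [this, norm_zero] at hy1
      exact zero_ne_one hy1
    refine ⟨(q y0)⁻¹, by positivity, fun y => ?_⟩
    by_cases hy : y = 0
    · rw [hy]; simp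
    · have hn : 0 < ‖y‖ := norm_pos_iff.2 hy
      have h1 : (‖y‖⁻¹ • y) ∈ Metric.sphere (0 : Fin r → ℝ) 1 := by
        rw [mem_sphere_zero_iff_norm, norm_smul, norm_inv, norm_norm, inv_mul_cancel₀ hn.ne']
      have h2 : q y0 ≤ q (‖y‖⁻¹ • y) := hmin h1
      rw [map_smul_eq_mul, norm_inv, norm_norm, ← div_eq_inv_mul, le_div_iff₀ hn] at h2
      rw [inv_mul_eq_div, le_div_iff₀ hpos]
      linarith

/-- a seminorm vanishing exactly on `e` is equivalent to the norm of the coordinates -/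
theorem sem_coord {V : Type v} [AddCommGroup V] [Module ℝ V] {e : Submodule ℝ V} {r : ℕ}
    {φ : V →ₗ[ℝ] (Fin r → ℝ)} {σ : (Fin r → ℝ) →ₗ[ℝ] V} (hφ : ∀ x, φ x = 0 ↔ x ∈ e)
    (hσ : ∀ y, φ (σ y) = y) (q : Seminorm ℝ V) (hq : ∀ x, q x = 0 ↔ x ∈ e) :
    ∃ C : ℝ, 1 ≤ C ∧ (∀ x, q x ≤ C * ‖φ x‖) ∧ ∀ x, ‖φ x‖ ≤ C * q x := by
  have key : ∀ x, q x = q (σ (φ x)) := by
    intro x
    have h1 : q (x - σ (φ x)) = 0 := by
      rw [hq, ← hφ, map_sub, hσ, sub_self]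
    have h2 := abs_sub_map_le_sub q x (σ (φ x))
    rw [h1] at h2
    exact sub_eq_zero.1 (abs_nonpos_iff.1 h2)
  obtain ⟨C1, h1, hC1⟩ := sem_le (q.comp σ)
  obtain ⟨C2, h2, hC2⟩ := sem_ge (q.comp σ) (fun y hy => by
    have hy' : q (σ y) = 0 := hy
    rw [hq, ← hφ, hσ] at hy'
    exact hy')
  refine ⟨max 1 (max C1 C2), le_max_left _ _, fun x => ?_, fun x => ?_⟩
  · rw [key]
    refine (hC1 (φ x)).trans (mul_le_mul_of_nonneg_right ?_ (norm_nonneg _))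
    exact (le_max_left _ _).trans (le_max_right _ _)
  · rw [key]
    refine (hC2 (φ x)).trans (mul_le_mul_of_nonneg_right ?_ (apply_nonneg _ _))
    exact (le_max_right _ _).trans (le_max_right _ _)

end lin

section nbq

variable {N : Type u} [Group N] {d n : ℕ} {D : MB N d n} {A : Type v} [NormedRing A]
  [NormedAlgebra ℝ A] [FiniteDimensional ℝ A] {R : RD D A}

/-- balls of seminorms are convex symmetric -/
theorem csy_ball (q : Seminorm ℝ R.V) {ρ : ℝ} (hρ : 0 ≤ ρ) : CSy {v : R.V | q v ≤ ρ} where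
  conv := by
    intro x hx y hy a b ha hb hab
    have hx' : q x ≤ ρ := hx
    have hy' : q y ≤ ρ := hy
    change q (a • x + b • y) ≤ ρ
    refine (map_add_le_add q _ _).trans ?_
    rw [map_smul_eq_mul, map_smul_eq_mul, Real.norm_of_nonneg ha, Real.norm_of_nonneg hb]
    nlinarith
  zero := by
    change q 0 ≤ ρ
    rw [map_zero]; exact hρ
  neg := by
    intro x hx
    change q (-x) ≤ ρ
    rw [map_neg_eq_map]; exact hx

/-- the bracket is bounded for a seminorm vanishing exactly on an ideal -/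
theorem sem_lie {e : LieIdeal ℝ R.V} (q : Seminorm ℝ R.V) (hq : ∀ x, q x = 0 ↔ x ∈ e) :
    ∃ C : ℝ, 1 ≤ C ∧ ∀ x y : R.V, q ⁅x, y⁆ ≤ C * (q x * q y) := by
  obtain ⟨r, φ, σ, hφ, hσ⟩ := exists_coord e.toSubmodule
  obtain ⟨C, hC1, hC, hC'⟩ := sem_coord hφ hσ q hq
  have key : ∀ x, q x = q (σ (φ x)) := by
    intro x
    have h1 : q (x - σ (φ x)) = 0 := by
      rw [hq]
      exact (hφ _).1 (by rw [map_sub, hσ, sub_self])
    have h2 := abs_sub_map_le_sub q x (σ (φ x))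
    rw [h1] at h2
    exact sub_eq_zero.1 (abs_nonpos_iff.1 h2)
  have hmod : ∀ x, x - σ (φ x) ∈ e := by
    intro x
    exact (hφ _).1 (by rw [map_sub, hσ, sub_self])
  -- the bracket only depends on the classes
  have hbr : ∀ x y, q ⁅x, y⁆ = q ⁅σ (φ x), σ (φ y)⁆ := by
    intro x y
    have h1 : ⁅x, y⁆ - ⁅σ (φ x), σ (φ y)⁆ ∈ e := by
      have e1 : ⁅x, y⁆ - ⁅σ (φ x), σ (φ y)⁆ = ⁅x - σ (φ x), y⁆ + ⁅σ (φ x), y - σ (φ y)⁆ := by
        rw [sub_lie, lie_sub]; abel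
      rw [e1]
      refine e.add_mem ?_ (e.lie_mem (hmod y))
      have h2 : ⁅y, x - σ (φ x)⁆ ∈ e := e.lie_mem (hmod x)
      rw [← lie_skew]
      exact e.neg_mem h2
    have h2 := abs_sub_map_le_sub q ⁅x, y⁆ ⁅σ (φ x), σ (φ y)⁆
    rw [(hq _).2 h1] at h2
    exact sub_eq_zero.1 (abs_nonpos_iff.1 h2)
  let b : Fin r → (Fin r → ℝ) := fun i => Pi.single i 1
  set K : ℝ := ∑ i, ∑ j, q ⁅σ (b i), σ (b j)⁆ with hK
  have hK0 : 0 ≤ K := Finset.sum_nonneg fun i _ => Finset.sum_nonneg fun j _ => apply_nonneg _ _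
  have hdec : ∀ y : Fin r → ℝ, y = ∑ i, y i • b i := by
    intro y
    ext j
    simp [b, Finset.sum_apply, Pi.single_apply]
  have hb2 : ∀ y z : Fin r → ℝ, q ⁅σ y, σ z⁆ ≤ K * (‖y‖ * ‖z‖) := by
    intro y z
    have h1 : ⁅σ y, σ z⁆ = ∑ i, ∑ j, (y i * z j) • ⁅σ (b i), σ (b j)⁆ := by
      conv_lhs => rw [hdec y, hdec z]
      rw [map_sum, map_sum, sum_lie_sum]
      refine Finset.sum_congr rfl fun i _ => Finset.sum_congr rfl fun j _ => ?_
      rw [map_smul, map_smul, smul_lie, lie_smul, smul_smul]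
    rw [h1]
    refine (Finset.le_sum_of_subadditive q (map_zero q).le (map_add_le_add q) _ _).trans ?_
    rw [hK, Finset.sum_mul]
    refine Finset.sum_le_sum fun i _ => ?_
    refine (Finset.le_sum_of_subadditive q (map_zero q).le (map_add_le_add q) _ _).trans ?_
    rw [Finset.sum_mul]
    refine Finset.sum_le_sum fun j _ => ?_
    rw [map_smul_eq_mul, norm_mul, mul_comm]
    refine mul_le_mul_of_nonneg_left ?_ (apply_nonneg _ _)
    exact mul_le_mul (norm_le_pi_norm y i) (norm_le_pi_norm z j) (norm_nonneg _) (norm_nonneg _)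
  refine ⟨max 1 (K * (C * C)), le_max_left _ _, fun x y => ?_⟩
  rw [hbr]
  calc q ⁅σ (φ x), σ (φ y)⁆ ≤ K * (‖φ x‖ * ‖φ y‖) := hb2 _ _
    _ ≤ K * ((C * q x) * (C * q y)) := by
        refine mul_le_mul_of_nonneg_left ?_ hK0
        exact mul_le_mul (hC' x) (hC' y) (norm_nonneg _)
          (mul_nonneg (by linarith) (apply_nonneg _ _))
    _ = (K * (C * C)) * (q x * q y) := by ring
    _ ≤ _ := mul_le_mul_of_nonneg_right (le_max_right _ _)
        (mul_nonneg (apply_nonneg _ _) (apply_nonneg _ _))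

/-- size of the natural box of a seminorm ball -/
theorem q_nb_le (q : Seminorm ℝ R.V) {C : ℝ} (hC1 : 1 ≤ C)
    (hC : ∀ x y : R.V, q ⁅x, y⁆ ≤ C * (q x * q y)) {ρ : ℝ} (hρ : 1 ≤ ρ) {X : R.V}
    (hX : X ∈ nb {v : R.V | q v ≤ ρ}) : q X ≤ R.m * (C ^ R.m * ρ ^ R.m) := by
  have h1 : ∀ j, ∀ x ∈ nbk {v : R.V | q v ≤ ρ} j, q x ≤ C ^ j * ρ ^ (j + 1) := by
    intro j
    induction j with
    | zero =>
      intro x hx
      have : q x ≤ ρ := hx
      simpa using this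
    | succ j ih =>
      intro x hx
      have h2 : Convex ℝ {x : R.V | q x ≤ C ^ (j + 1) * ρ ^ (j + 1 + 1)} :=
        (csy_ball q (by positivity)).conv
      refine convexHull_min ?_ h2 hx
      rintro _ ⟨a, ha, b, hb, rfl⟩
      have ha' : q a ≤ ρ := ha
      have h3 := ih b hb
      change q ⁅a, b⁆ ≤ C ^ (j + 1) * ρ ^ (j + 1 + 1)
      refine (hC a b).trans ?_
      calc C * (q a * q b) ≤ C * (ρ * (C ^ j * ρ ^ (j + 1))) := by
            refine mul_le_mul_of_nonneg_left ?_ (by linarith)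
            exact mul_le_mul ha' h3 (apply_nonneg _ _) (by linarith)
        _ = _ := by ring
  obtain ⟨x, hx, rfl⟩ := hX
  refine (Finset.le_sum_of_subadditive q (map_zero q).le (map_add_le_add q) _ _).trans ?_
  have h2 : ∀ i ∈ (univ : Finset (Fin R.m)), q (x i) ≤ C ^ R.m * ρ ^ R.m := by
    intro i _
    refine (h1 i _ (hx i)).trans ?_
    refine mul_le_mul (pow_le_pow_right₀ hC1 i.2.le) (pow_le_pow_right₀ hρ i.2) (by positivity)
      (by positivity)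
  refine (Finset.sum_le_sum h2).trans ?_
  rw [sum_const, nsmul_eq_mul, card_univ, Fintype.card_fin]

theorem smul_ball (q : Seminorm ℝ R.V) {c ρ : ℝ} (hc : 0 < c) {v : R.V} (hv : q v ≤ c * ρ) :
    v ∈ c • {v : R.V | q v ≤ ρ} := by
  refine ⟨c⁻¹ • v, ?_, by simp only; rw [smul_inv_smul₀ hc.ne']⟩
  change q (c⁻¹ • v) ≤ ρ
  rw [map_smul_eq_mul, norm_inv, Real.norm_of_nonneg hc.le, inv_mul_le_iff₀ hc]
  exact hv

/-- products of boundedly many letters from a ball are in an exponential of a box -/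
theorem prod_letters {C2 : ℝ} (hC2 : 0 ≤ C2) {K : Set R.V} {C0 : ℝ} (hK : CSV R K C0)
    (H : ∀ c : ℝ, 0 ≤ c → c ≤ 1 → ∀ x ∈ EK R K, ∀ y ∈ EK R (c • K),
      R.Lo (x * y) - R.Lo x ∈ (C2 * c) • K) {a : ℝ} (ha : 0 ≤ a) (ha1 : a ≤ 1) (r : ℕ)
    (hr : C2 * a * r ≤ 1) : ∀ x ∈ (EK R (a • K)) ^ r, R.Lo x ∈ (C2 * a * r) • K := by
  induction r with
  | zero =>
    intro x hx
    rw [pow_zero, Set.mem_one] at hx
    rw [hx, Lo_one]
    exact ⟨0, hK.zero, by simp⟩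
  | succ r ih =>
    intro x hx
    rw [pow_succ] at hx
    obtain ⟨y, hy, z, hz, rfl⟩ := hx
    have hr' : C2 * a * r ≤ 1 := by
      refine le_trans ?_ hr
      refine mul_le_mul_of_nonneg_left ?_ (by positivity)
      push_cast; linarith
    have h1 := ih hr' y hy
    have h2 := H a ha ha1 y (hK.mem_of_smul (by positivity) hr' h1) z hz
    have h3 := hK.mem_add (by positivity) (by positivity) h2 h1
    simp only
    rw [sub_add_cancel] at h3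
    have h4 : C2 * a + C2 * a * r = C2 * a * ((r + 1 : ℕ) : ℝ) := by push_cast; ring
    rwa [h4] at h3

end nbq

end Vale.Agent.P188.H615

end
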