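import Vale.Agent.P188.R.G028

section

/-! P188, block PSI: digits. Following a longer segment in a direction in which a crossed
homomorphism expands multiplies the number of end points by an exponential factor. -/

universe u v w

open Finset

namespace Vale.Agent.P188.H530

open Vale.Agent.P188.H789 (Bl PathTo Bl_mono mul_mem_Bl mem_Bl_one one_mem_Bl)

/-- Sums of a lacunary sequence over different index sets are far apart. -/
theorem lacunary {z : ℕ → ℂ} {Q : ℕ} (h : ∀ i, i + 1 < Q → 3 * ‖z i‖ ≤ ‖z (i + 1)‖)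
    {S S' : Finset ℕ} (hS : S ⊆ range Q) (hS' : S' ⊆ range Q) (hne : S ≠ S') :
    ‖z 0‖ / 2 ≤ ‖(∑ i ∈ S, z i) - ∑ i ∈ S', z i‖ := by
  classical
  have hmono : ∀ i, i < Q → ‖z 0‖ ≤ ‖z i‖ := by
    intro i
    induction i with
    | zero => intro _; exact le_rfl
    | succ i ih =>
      intro hi
      have h1 := ih (by omega)
      have h2 := h i hi
      have := norm_nonneg (z i)
      linarith
  have hsum : ∀ t, t < Q → ∑ i ∈ range t, ‖z i‖ ≤ ‖z t‖ / 2 := by
    intro t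
    induction t with
    | zero => intro _; rw [Finset.range_zero, Finset.sum_empty]; positivity
    | succ t ih =>
      intro ht
      rw [Finset.sum_range_succ]
      have h1 := ih (by omega)
      have h2 := h t ht
      linarith
  have hΔ : (symmDiff S S').Nonempty := by
    rw [Finset.nonempty_iff_ne_empty]
    intro h0
    exact hne (Finset.symmDiff_eq_empty.mp h0)
  obtain ⟨t, ht, htmax⟩ := Finset.exists_max_image (symmDiff S S') (fun i => i) hΔ
  have htQ : t < Q := by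
    rw [Finset.mem_symmDiff] at ht
    rcases ht with ht | ht
    · exact Finset.mem_range.mp (hS ht.1)
    · exact Finset.mem_range.mp (hS' ht.1)
  -- the coefficient function
  let f : ℕ → ℂ := fun i => (if i ∈ S then z i else 0) - (if i ∈ S' then z i else 0)
  have hf : (∑ i ∈ S, z i) - ∑ i ∈ S', z i = ∑ i ∈ range Q, f i := by
    simp only [f, Finset.sum_sub_distrib, Finset.sum_ite_mem]
    rw [Finset.inter_eq_right.mpr hS, Finset.inter_eq_right.mpr hS']
  have hf0 : ∀ i, t < i → f i = 0 := by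
    intro i hi
    have hni : i ∉ symmDiff S S' := fun hm => absurd (htmax i hm) (by simpa using hi)
    rw [Finset.mem_symmDiff] at hni
    simp only [f]
    by_cases h1 : i ∈ S <;> by_cases h2 : i ∈ S' <;> simp_all
  have hft : ‖f t‖ = ‖z t‖ := by
    rw [Finset.mem_symmDiff] at ht
    simp only [f]
    rcases ht with ht | ht
    · rw [if_pos ht.1, if_neg ht.2, sub_zero]
    · rw [if_neg ht.2, if_pos ht.1, zero_sub, norm_neg]
  have hfi : ∀ i, ‖f i‖ ≤ ‖z i‖ := by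
    intro i
    simp only [f]
    split_ifs <;> simp
  have hsplit : ∑ i ∈ range Q, f i = ∑ i ∈ range (t + 1), f i := by
    symm
    refine Finset.sum_subset (Finset.range_mono (by omega)) fun i _ hi => ?_
    exact hf0 i (by simpa using hi)
  rw [hf, hsplit, Finset.sum_range_succ]
  have h1 : ‖∑ i ∈ range t, f i‖ ≤ ‖z t‖ / 2 :=
    (norm_sum_le _ _).trans ((Finset.sum_le_sum fun i _ => hfi i).trans (hsum t htQ))
  have h2 : ‖f t‖ ≤ ‖∑ i ∈ range t, f i + f t‖ + ‖∑ i ∈ range t, f i‖ := by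
    have := norm_sub_le (∑ i ∈ range t, f i + f t) (∑ i ∈ range t, f i)
    rwa [add_sub_cancel_left] at this
  have h3 := hmono t htQ
  rw [hft] at h2
  linarith

section

variable {G : Type u} [Group G] {E : Type v} [NormedAddCommGroup E] [NormedSpace ℝ E]

/-- From every element near `v` one can step near every close point `w`. -/
def SegStep (θ : G → E) (B : Set G) (r₀ : ℝ) : Prop :=
  ∀ (v w : E) (g : G), ‖w - v‖ ≤ 1 → ‖θ g - v‖ ≤ r₀ → ∃ b ∈ B, ‖θ (g * b) - w‖ ≤ r₀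

theorem exists_follow {θ : G → E} {B : Set G} {r₀ : ℝ} (hB : SegStep θ B r₀) (V : ℕ → E)
    (hV : ∀ i, ‖V (i + 1) - V i‖ ≤ 1) (g : G) (hg : ‖θ g - V 0‖ ≤ r₀) :
    ∃ p : ℕ → G, p 0 = g ∧ (∀ i, (p i)⁻¹ * p (i + 1) ∈ B) ∧ ∀ i, ‖θ (p i) - V i‖ ≤ r₀ := by
  have step : ∀ (i : ℕ) (x : G), ∃ y : G, ‖θ x - V i‖ ≤ r₀ →
      (x⁻¹ * y ∈ B ∧ ‖θ y - V (i + 1)‖ ≤ r₀) := by
    intro i x
    by_cases hx : ‖θ x - V i‖ ≤ r₀
    · obtain ⟨b, hb, hb'⟩ := hB (V i) (V (i + 1)) x (hV i) hx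
      exact ⟨x * b, fun _ => ⟨by rwa [inv_mul_cancel_left], hb'⟩⟩
    · exact ⟨x, fun h => absurd h hx⟩
  choose f hf using step
  let p : ℕ → G := fun i => Nat.rec g (fun i x => f i x) i
  have hp0 : p 0 = g := rfl
  have hps : ∀ i, p (i + 1) = f i (p i) := fun i => rfl
  have hnear : ∀ i, ‖θ (p i) - V i‖ ≤ r₀ := by
    intro i
    induction i with
    | zero => rw [hp0]; exact hg
    | succ i ih => rw [hps]; exact (hf i (p i) ih).2
  exact ⟨p, hp0, fun i => by rw [hps]; exact (hf i (p i) (hnear i)).1, hnear⟩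

/-- Following the segment `[0, Y]` in `M ≥ ‖Y‖` steps. -/
theorem exists_segment {θ : G → E} {B : Set G} {r₀ : ℝ} (hr₀ : 0 ≤ r₀) (hθ1 : θ 1 = 0)
    (hB : SegStep θ B r₀) (Y : E) {M : ℕ} (hM : ‖Y‖ ≤ M) :
    ∃ p : ℕ → G, p 0 = 1 ∧ (∀ i, (p i)⁻¹ * p (i + 1) ∈ B) ∧
      ∀ i, ∃ t : ℝ, 0 ≤ t ∧ t ≤ 1 ∧ ‖θ (p i) - t • Y‖ ≤ r₀ ∧ (M ≤ i → t • Y = Y) := by
  have hV : ∀ i : ℕ, ‖((min (i + 1) M : ℕ) / (M : ℝ)) • Y - ((min i M : ℕ) / (M : ℝ)) • Y‖ ≤ 1 := by
    intro i
    rw [← sub_smul, norm_smul]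
    rcases Nat.eq_zero_or_pos M with rfl | hMpos
    · simp
    · have hM' : (0 : ℝ) < M := by exact_mod_cast hMpos
      rw [← sub_div, norm_div, Real.norm_of_nonneg hM'.le]
      have h1 : ‖((min (i + 1) M : ℕ) : ℝ) - ((min i M : ℕ) : ℝ)‖ ≤ 1 := by
        rw [Real.norm_eq_abs, abs_le]
        rcases le_total (i + 1) M with h | h
        · rw [min_eq_left h, min_eq_left (by omega)]
          push_cast
          constructor <;> linarith
        · rcases le_total i M with h' | h'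
          · rw [min_eq_right h, min_eq_left h']
            have a1 : (M : ℝ) ≤ i + 1 := by exact_mod_cast h
            have a2 : (i : ℝ) ≤ M := by exact_mod_cast h'
            constructor <;> linarith
          · rw [min_eq_right h, min_eq_right h']
            constructor <;> linarith
      rw [div_mul_eq_mul_div, div_le_one hM']
      calc ‖((min (i + 1) M : ℕ) : ℝ) - ((min i M : ℕ) : ℝ)‖ * ‖Y‖ ≤ 1 * M := by gcongr
        _ = M := one_mul _
  obtain ⟨p, h0, h1, h2⟩ := exists_follow hB (fun i => ((min i M : ℕ) / (M : ℝ)) • Y) hV 1 (by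
    simp [hθ1, hr₀])
  refine ⟨p, h0, h1, fun i => ⟨(min i M : ℕ) / (M : ℝ), by positivity, ?_, h2 i, ?_⟩⟩
  · rcases Nat.eq_zero_or_pos M with rfl | hMpos
    · simp
    · have hM' : (0 : ℝ) < M := by exact_mod_cast hMpos
      rw [div_le_one hM']
      exact_mod_cast min_le_right _ _
  · intro hi
    rw [min_eq_right hi]
    rcases Nat.eq_zero_or_pos M with rfl | hMpos
    · have : Y = 0 := by
        rw [Nat.cast_zero] at hM
        exact norm_le_zero_iff.mp hM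
      simp [this]
    · have hM' : (M : ℝ) ≠ 0 := by exact_mod_cast hMpos.ne'
      rw [div_self hM', one_smul]

end

/-- A crossed homomorphism with values in `ℂ` whose multiplier has modulus `exp (b (θ g))`. -/
structure Crossed {G : Type u} [Group G] {E : Type v} [NormedAddCommGroup E] [NormedSpace ℝ E]
    (θ : G → E) (b : E →L[ℝ] ℝ) where
  /-- the crossed homomorphism -/
  D : G → ℂ
  /-- the multiplier -/
  ρ : G → ℂ
  D_mul : ∀ x y, D (x * y) = D x + ρ x * D y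
  ρ_mul : ∀ x y, ρ (x * y) = ρ x * ρ y
  norm_ρ : ∀ x, ‖ρ x‖ = Real.exp (b (θ x))
  ρ_ker : ∀ x, θ x = 0 → ρ x = 1
  /-- an element of the kernel -/
  u : G
  θ_u : θ u = 0
  D_u : D u ≠ 0

namespace Crossed

variable {G : Type u} [Group G] {E : Type v} [NormedAddCommGroup E] [NormedSpace ℝ E]
  {θ : G → E} {b : E →L[ℝ] ℝ}

theorem ρ_ne (c : Crossed θ b) (x : G) : c.ρ x ≠ 0 := by
  intro h
  have := c.norm_ρ x
  rw [h, norm_zero] at this
  exact (Real.exp_pos _).ne this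

theorem ρ_one (c : Crossed θ b) : c.ρ 1 = 1 := by
  have := c.ρ_mul 1 1
  rw [mul_one] at this
  have h2 := c.ρ_ne 1
  field_simp at this
  exact this.symm

theorem D_one (c : Crossed θ b) : c.D 1 = 0 := by
  have := c.D_mul 1 1
  rw [mul_one, c.ρ_one, one_mul] at this
  simpa using this

theorem ρ_eq (c : Crossed θ b) (hθ : ∀ x y, θ (x * y) = θ x + θ y) {x y : G}
    (h : θ x = θ y) : c.ρ x = c.ρ y := by
  have h1 : θ (x⁻¹ * y) = 0 := by rw [hθ, add_inv hθ, h]; simp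
  have h2 := c.ρ_mul x (x⁻¹ * y)
  rw [mul_inv_cancel_left, c.ρ_ker _ h1, mul_one] at h2
  exact h2.symm

/-- The crossed homomorphism along a path. -/
theorem norm_D_path (c : Crossed θ b) {P B : Set G} {D₁ K : ℝ} (hD₁ : 0 ≤ D₁)
    (hB : ∀ x ∈ B, ‖c.D x‖ ≤ D₁) (hK : 0 ≤ K) (hP : ∀ x ∈ P, ‖c.ρ x‖ ≤ K) {m : ℕ} {x : G}
    (hx : PathTo P B m 1 x) : ‖c.D x‖ ≤ m * (D₁ * K) := by
  obtain ⟨p, h0, h1, h2, h3⟩ := hx
  have key : ∀ i ≤ m, ‖c.D (p i)‖ ≤ i * (D₁ * K) := by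
    intro i
    induction i with
    | zero => intro _; rw [h0, c.D_one]; simp
    | succ i ih =>
      intro hi
      have h4 := ih (by omega)
      have h5 := c.D_mul (p i) ((p i)⁻¹ * p (i + 1))
      rw [mul_inv_cancel_left] at h5
      rw [h5]
      refine (norm_add_le _ _).trans ?_
      rw [norm_mul]
      have h6 := hP _ (h2 i (by omega))
      have h7 := hB _ (h3 i (by omega))
      have h8 : ‖c.ρ (p i)‖ * ‖c.D ((p i)⁻¹ * p (i + 1))‖ ≤ K * D₁ := by gcongr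
      push_cast
      nlinarith
  have := key m le_rfl
  rwa [h1] at this

end Crossed

end Vale.Agent.P188.H530

end

section

/-! P188, block PSI: transfer of the number of end points by a map which is affine on most
points. -/

universe u v w w'

open Finset

namespace Vale.Agent.P188.H530

open Vale.Agent.P188.H789 (Bl PathTo Bl_mono mul_mem_Bl mem_Bl_one one_mem_Bl)

theorem path_mem_Bl {G : Type u} [Group G] {B : Set G} {p : ℕ → G} {m : ℕ} (h0 : p 0 = 1)
    (hp : ∀ i < m, (p i)⁻¹ * p (i + 1) ∈ B) (i : ℕ) (hi : i ≤ m) : p i ∈ Bl B m := by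
  have key : ∀ i ≤ m, p i ∈ Bl B i := by
    intro i
    induction i with
    | zero => intro _; rw [h0]; exact one_mem_Bl _ _
    | succ i ih =>
      intro hi
      have h1 := mul_mem_Bl (ih (by omega)) (mem_Bl_one (hp i (by omega)))
      rwa [mul_inv_cancel_left] at h1
  exact Bl_mono hi (key i hi)

variable {G : Type u} [Group G] {G' : Type v} [Group G']
  {E : Type w} [NormedAddCommGroup E] [NormedSpace ℝ E]
  {E' : Type w'} [NormedAddCommGroup E'] [NormedSpace ℝ E']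

end Vale.Agent.P188.H530

end

section

/-!
# P188, block NEU, part 1: the abstract model and the displacement lemmas

`NM` lists the facts on the real group `S`, the exponential radical `E`, the Cartan words `CW n`
and the lattice `Γ` which are used in the comparison along paths with bounded heights (`NEU`).
-/

set_option linter.all false

universe u v w

open Real

namespace Vale.Agent.P188.H754

open Vale.Agent.P188.H530 (Crossed)

/-- the abstract model for `NEU` -/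
structure NM (S : Type u) (Γ : Type v) (Ht : Type w) [Group S] [Group Γ]
    [NormedAddCommGroup Ht] [NormedSpace ℝ Ht] where
  C0 : ℝ
  one_le_C0 : 1 ≤ C0
  -- length
  l : S → ℝ
  l_nonneg : ∀ x, 0 ≤ l x
  l_one : l 1 = 0
  l_inv : ∀ x, l x⁻¹ = l x
  l_mul : ∀ x y, l (x * y) ≤ l x + l y
  l_path : ∀ x, ∃ (n : ℕ) (p : ℕ → S), (n : ℝ) ≤ C0 * (l x + 1) ∧ p 0 = 1 ∧ p n = x ∧
    (∀ i < n, l ((p i)⁻¹ * p (i + 1)) ≤ C0) ∧ ∀ i ≤ n, l (p i) ≤ C0 * (l x + 1)
  -- heights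
  θ : S → Ht
  θ_mul : ∀ x y, θ (x * y) = θ x + θ y
  θ_le : ∀ x, ‖θ x‖ ≤ C0 * l x
  -- the exponential radical
  E : Subgroup S
  E_normal : E.Normal
  θ_E : ∀ e ∈ E, θ e = 0
  E_prod : ∀ (L : ℝ) (es : List S), 0 ≤ L → (∀ e ∈ es, e ∈ E ∧ l e ≤ L) →
    l es.prod ≤ C0 * (L + log (es.length + 1) + 1)
  -- Cartan words
  CW : ℕ → Set S
  CW_mul : ∀ m n, ∀ c ∈ CW m, ∀ d ∈ CW n, c * d ∈ CW (m + n)
  CW_inv : ∀ n, ∀ c ∈ CW n, c⁻¹ ∈ CW n
  CW_mono : ∀ m n, m ≤ n → CW m ⊆ CW n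
  CW_l : ∀ n : ℕ, ∀ c ∈ CW n, l c ≤ C0 * n
  dec : ∀ s, ∃ e ∈ E, ∃ c ∈ CW ⌈C0 * l s⌉₊, s = e * c
  con : ∀ n : ℕ, ∀ c ∈ CW n, ∀ e ∈ E, l (c * e * c⁻¹) ≤ C0 * (l e + ‖θ c‖ + log (n + 1) + 1)
  cpath : ∀ n : ℕ, ∀ c ∈ CW n, ∃ (m : ℕ) (p : ℕ → S), (m : ℝ) ≤ C0 * ((n : ℝ) + 1) ^ C0 ∧
    p 0 = 1 ∧ p m = c ∧ (∀ i < m, l ((p i)⁻¹ * p (i + 1)) ≤ C0) ∧
    ∀ i ≤ m, l (p i) ≤ C0 * (n + 1) ∧ ‖θ (p i)‖ ≤ C0 * (‖θ c‖ + 1)
  sec : ∀ s, ∃ t ∈ CW ⌈C0 * (‖θ s‖ + 1)⌉₊, θ t = θ s
  -- the lattice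
  inG : Γ →* S
  fl : S → Γ
  fl_mul : ∀ g z, fl (inG g * z) = g * fl z
  fl_close : ∀ z, l ((inG (fl z))⁻¹ * z) ≤ C0
  seg : ∀ u : Ht, ∃ (n : ℕ) (g : ℕ → Γ), (n : ℝ) ≤ C0 * (‖u‖ + 1) ∧ g 0 = 1 ∧
    (∀ i < n, l (inG ((g i)⁻¹ * g (i + 1))) ≤ C0) ∧
    (∀ i ≤ n, ∃ s ∈ Set.Icc (0 : ℝ) 1, ‖θ (inG (g i)) - s • u‖ ≤ C0) ∧
    ‖θ (inG (g n)) - u‖ ≤ C0
  -- the generating weights
  Φ : Finset (Ht →L[ℝ] ℝ)
  Φ_ne : ∀ b ∈ Φ, b ≠ 0
  cr : ∀ b : Φ, Crossed (fun g => θ (inG g)) (b : Ht →L[ℝ] ℝ)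
  cr_le : ∀ (b : Φ) (L : ℝ), ∃ A : ℝ, ∀ g, l (inG g) ≤ L → ‖(cr b).D g‖ ≤ A
  hw : (Ht →L[ℝ] ℝ) → ℝ
  hw_pos : ∀ b ∈ Φ, 0 < hw b
  hw_sum : ∀ v, ∑ b ∈ Φ, hw b * b v = 0
  Φ_norm : ∀ v (r : ℝ), 0 ≤ r → (∀ b ∈ Φ, |b v| ≤ r) → ‖v‖ ≤ C0 * r

namespace NM

variable {S : Type u} {Γ : Type v} {Ht : Type w} [Group S] [Group Γ]
  [NormedAddCommGroup Ht] [NormedSpace ℝ Ht] (M : NM S Γ Ht)

theorem C0_pos : 0 < M.C0 := lt_of_lt_of_le one_pos M.one_le_C0

theorem θ_one : M.θ 1 = 0 := by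
  have := M.θ_mul 1 1
  rw [mul_one] at this
  simpa using this

/-- Quasi-isometries -/
structure QI (K : ℝ) (F F' : Γ → Γ) : Prop where
  lip : ∀ g y, M.l (M.inG ((F g)⁻¹ * F (g * y))) ≤ K * (M.l (M.inG y) + 1)
  lip' : ∀ g y, M.l (M.inG ((F' g)⁻¹ * F' (g * y))) ≤ K * (M.l (M.inG y) + 1)
  inv : ∀ g, M.l (M.inG (g⁻¹ * F' (F g))) ≤ K
  inv' : ∀ g, M.l (M.inG (g⁻¹ * F (F' g))) ≤ K

variable {M}

theorem QI.symm {K : ℝ} {F F' : Γ → Γ} (h : M.QI K F F') : M.QI K F' F :=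
  ⟨h.lip', h.lip, h.inv', h.inv⟩

variable (M)

/-- the map on `S` -/
def Ψ (F : Γ → Γ) (z : S) : Γ := F (M.fl z)

/-- the heights of the images -/
def f (F : Γ → Γ) (z : S) : Ht := M.θ (M.inG (F (M.fl z)))

variable {M}

variable (M)

end NM

end Vale.Agent.P188.H754

end

section

/-! P188, block PSI: the digit construction. -/

universe u v w

open Finset

namespace Vale.Agent.P188.H530

open Vale.Agent.P188.H789 (Bl PathTo Bl_mono mul_mem_Bl mem_Bl_one one_mem_Bl)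

variable {G : Type u} [Group G] {E : Type v} [NormedAddCommGroup E] [NormedSpace ℝ E]
  {θ : G → E} {b : E →L[ℝ] ℝ}

/-- The path `h` with the element `u` inserted at the times of `J`. -/
def ins (u : G) (h : ℕ → G) (J : Finset ℕ) : ℕ → G
  | 0 => 1
  | j + 1 => ins u h J j * (if j ∈ J then u else 1) * ((h j)⁻¹ * h (j + 1))

theorem θ_ins (hθ : ∀ x y, θ (x * y) = θ x + θ y) {u : G} (hu : θ u = 0) {h : ℕ → G}
    (h0 : h 0 = 1) (J : Finset ℕ) (j : ℕ) : θ (ins u h J j) = θ (h j) := by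
  induction j with
  | zero => rw [h0]; rfl
  | succ j ih =>
    rw [ins, hθ, hθ, ih, hθ, add_inv hθ]
    have : θ (if j ∈ J then u else 1) = 0 := by
      split_ifs
      exacts [hu, add_one hθ]
    rw [this]
    abel

theorem D_ins (c : Crossed θ b) (hθ : ∀ x y, θ (x * y) = θ x + θ y) {h : ℕ → G}
    (h0 : h 0 = 1) (J : Finset ℕ) (j : ℕ) :
    c.D (ins c.u h J j) = c.D (h j) + c.D c.u * ∑ i ∈ (range j).filter (· ∈ J), c.ρ (h i) := by
  induction j with
  | zero => simp [ins, h0, c.D_one]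
  | succ j ih =>
    have h1 : c.ρ (ins c.u h J j) = c.ρ (h j) := c.ρ_eq hθ (θ_ins hθ c.θ_u h0 J j)
    have h2 : c.D (h (j + 1)) = c.D (h j) + c.ρ (h j) * c.D ((h j)⁻¹ * h (j + 1)) := by
      rw [← c.D_mul, mul_inv_cancel_left]
    rw [ins, c.D_mul, c.D_mul, c.ρ_mul, h1, ih, h2, Finset.range_add_one, Finset.filter_insert]
    by_cases hj : j ∈ J
    · rw [if_pos hj, if_pos hj, Finset.sum_insert (by simp), c.ρ_ker _ c.θ_u]
      ring
    · rw [if_neg hj, if_neg hj, c.D_one, c.ρ_one]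
      ring

theorem path_ins {P B : Set G} (c : Crossed θ b) (hθ : ∀ x y, θ (x * y) = θ x + θ y)
    {h : ℕ → G} (h0 : h 0 = 1) (hB : ∀ i, (h i)⁻¹ * h (i + 1) ∈ B) (hu : c.u ∈ B)
    (h1 : (1 : G) ∈ B) {z : G} (J : Finset ℕ)
    (hP : ∀ (y : G) (j : ℕ), θ y = θ z + θ (h j) → y ∈ P) (j : ℕ) :
    PathTo P B (2 * j) z (z * ins c.u h J j) := by
  induction j with
  | zero =>
    rw [ins, mul_one]
    refine PathTo.refl (hP z 0 ?_)
    rw [h0, add_one hθ, add_zero]
  | succ j ih =>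
    have e : 2 * (j + 1) = 2 * j + (1 + 1) := by ring
    rw [e]
    refine ih.trans (PathTo.trans (y := z * (ins c.u h J j * (if j ∈ J then c.u else 1))) ?_ ?_)
    · refine PathTo.step (hP _ j ?_) (hP _ j ?_) ?_
      · rw [hθ, θ_ins hθ c.θ_u h0]
      · rw [hθ, hθ, θ_ins hθ c.θ_u h0]
        have : θ (if j ∈ J then c.u else 1) = 0 := by
          split_ifs
          exacts [c.θ_u, add_one hθ]
        rw [this, add_zero]
      · have e : (z * ins c.u h J j)⁻¹ * (z * (ins c.u h J j * (if j ∈ J then c.u else 1))) =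
            (if j ∈ J then c.u else 1) := by group
        rw [e]
        split_ifs
        exacts [hu, h1]
    · refine PathTo.step (hP _ j ?_) (hP _ (j + 1) ?_) ?_
      · rw [hθ, hθ, θ_ins hθ c.θ_u h0]
        have : θ (if j ∈ J then c.u else 1) = 0 := by
          split_ifs
          exacts [c.θ_u, add_one hθ]
        rw [this, add_zero]
      · rw [hθ, θ_ins hθ c.θ_u h0]
      · rw [ins]
        have e : (z * (ins c.u h J j * (if j ∈ J then c.u else 1)))⁻¹ *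
            (z * (ins c.u h J j * (if j ∈ J then c.u else 1) * ((h j)⁻¹ * h (j + 1)))) =
            (h j)⁻¹ * h (j + 1) := by group
        rw [e]
        exact hB j

/-- Times at which a slowly varying function passes given levels. -/
theorem exists_levels {a : ℕ → ℝ} {s c₀ q₀ : ℝ} (ha0 : a 0 = 0) (hs : ∀ i, a (i + 1) ≤ a i + s)
    (hc₀ : 0 < c₀) (hq₀ : s < q₀) (hs0 : 0 ≤ s) {M Q : ℕ} (hQ : c₀ + Q * q₀ ≤ a M) :
    ∃ j : ℕ → ℕ, (∀ i ≤ Q, j i ≤ M) ∧ (∀ i ≤ Q, c₀ + i * q₀ ≤ a (j i) ∧ a (j i) ≤ c₀ + i * q₀ + s) ∧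
      ∀ i < Q, j i < j (i + 1) := by
  classical
  have hex : ∀ i : ℕ, i ≤ Q → ∃ n, c₀ + i * q₀ ≤ a n := by
    intro i hi
    refine ⟨M, le_trans ?_ hQ⟩
    have : (i : ℝ) ≤ Q := by exact_mod_cast hi
    have hq : 0 ≤ q₀ := by linarith
    nlinarith
  have hex' : ∀ i : ℕ, ∃ n, i ≤ Q → (c₀ + i * q₀ ≤ a n ∧ ∀ m < n, ¬ c₀ + i * q₀ ≤ a m) := by
    intro i
    by_cases hi : i ≤ Q
    · exact ⟨Nat.find (hex i hi), fun _ => ⟨Nat.find_spec (hex i hi), fun m hm =>
        Nat.find_min (hex i hi) hm⟩⟩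
    · exact ⟨0, fun h => absurd h hi⟩
  choose j hj using hex'
  have hup : ∀ i ≤ Q, a (j i) ≤ c₀ + i * q₀ + s := by
    intro i hi
    obtain ⟨h1, h2⟩ := hj i hi
    have hpos : 0 < j i := by
      by_contra h
      have h0 : j i = 0 := by omega
      rw [h0, ha0] at h1
      have : (0 : ℝ) ≤ i * q₀ := mul_nonneg (Nat.cast_nonneg _) (by linarith)
      linarith
    have h3 := h2 (j i - 1) (by omega)
    have h4 := hs (j i - 1)
    rw [Nat.sub_add_cancel hpos] at h4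
    push Not at h3
    linarith
  refine ⟨j, fun i hi => ?_, fun i hi => ⟨(hj i hi).1, hup i hi⟩, fun i hi => ?_⟩
  · by_contra h
    push Not at h
    refine (hj i hi).2 M h (le_trans ?_ hQ)
    have : (i : ℝ) ≤ Q := by exact_mod_cast hi
    nlinarith
  · by_contra h
    push Not at h
    have h1 := (hj (i + 1) (by omega)).1
    have h2 := hup i (by omega)
    push_cast at h1
    rcases Nat.lt_or_eq_of_le h with h3 | h3
    · refine (hj i (by omega)).2 _ h3 ?_
      nlinarith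
    · rw [h3] at h1
      nlinarith

end Vale.Agent.P188.H530

end

section

/-! P188, block PSI: transfer of the number of end points, for an orbit map. -/

universe u v w w'

open Finset

namespace Vale.Agent.P188.H530

open Vale.Agent.P188.H789 (Bl PathTo Bl_mono mul_mem_Bl mem_Bl_one one_mem_Bl)

variable {G : Type u} [Group G] {G' : Type v} [Group G']
  {E : Type w} [NormedAddCommGroup E] [NormedSpace ℝ E]
  {E' : Type w'} [NormedAddCommGroup E'] [NormedSpace ℝ E']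

open Classical in
/-- The number of bad times, summed over the end points. -/
noncomputable def badSumP (good : G → Prop) (π : G → ℕ → G) (U : Finset G) (m : ℕ) : ℕ :=
  ∑ u ∈ U, ((range (m + 1)).filter fun i => ¬ good (π u i)).card

open Classical in
theorem card_good_endsP (good : G → Prop) (π : G → ℕ → G) (U : Finset G) (m q : ℕ)
    (h : 2 * badSumP good π U m ≤ (q + 1) * U.card) :
    U.card ≤ 2 * (U.filter fun u =>
      ((range (m + 1)).filter fun i => ¬ good (π u i)).card ≤ q).card := by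
  set W := U.filter fun u => ((range (m + 1)).filter fun i => ¬ good (π u i)).card ≤ q with hW
  set V := U.filter fun u => ¬ ((range (m + 1)).filter fun i => ¬ good (π u i)).card ≤ q with hV
  have h1 : W.card + V.card = U.card := Finset.card_filter_add_card_filter_not _
  have h2 : V.card * (q + 1) ≤ badSumP good π U m := by
    unfold badSumP
    calc V.card * (q + 1) = ∑ _u ∈ V, (q + 1) := by rw [Finset.sum_const, smul_eq_mul]
      _ ≤ ∑ u ∈ V, ((range (m + 1)).filter fun i => ¬ good (π u i)).card := by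
          refine Finset.sum_le_sum fun u hu => ?_
          have := (Finset.mem_filter.mp hu).2
          omega
      _ ≤ _ := Finset.sum_le_sum_of_subset (Finset.filter_subset _ _)
  have h3 : 2 * V.card * (q + 1) ≤ U.card * (q + 1) := by
    calc 2 * V.card * (q + 1) = 2 * (V.card * (q + 1)) := by ring
      _ ≤ 2 * badSumP good π U m := Nat.mul_le_mul_left _ h2
      _ ≤ (q + 1) * U.card := h
      _ = _ := by ring
  have h4 : 2 * V.card ≤ U.card := Nat.le_of_mul_le_mul_right h3 (by omega)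
  omega

open Classical in
/-- Transfer of end points for an orbit map `Φ`. -/
theorem transferP {θ : G → E} {θ' : G' → E'} (hθ : ∀ x y, θ (x * y) = θ x + θ y)
    (hθ' : ∀ x y, θ' (x * y) = θ' x + θ' y) {B : Set G} {B' : Set G'} {ℓ ℓ' : ℝ}
    (hℓ0 : 0 ≤ ℓ) (hℓ0' : 0 ≤ ℓ') (hℓ : ∀ a ∈ B, ‖θ a‖ ≤ ℓ) (hℓ' : ∀ a ∈ B', ‖θ' a‖ ≤ ℓ')
    {Φ : G → G'} (hΦ : ∀ g, ∀ b ∈ B, (Φ g)⁻¹ * Φ (g * b) ∈ B') {c : ℕ}
    (hc : ∀ y, {x | Φ x = y}.Finite ∧ {x | Φ x = y}.ncard ≤ c)
    (good : G → Prop) (T : E →L[ℝ] E') {δ : ℝ} {m q : ℕ} {w : E} {r : ℝ}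
    (hlin : ∀ g, good g → g ∈ Bl B m → ‖θ' (Φ g) - θ' (Φ 1) - T (θ g)‖ ≤ δ)
    (hfin : (Ends θ B m w r).Finite)
    (hfin' : (Ends θ' B' m (T w) (δ + (ℓ' + ‖T‖ * ℓ) * q + ‖T‖ * r)).Finite)
    (π : G → ℕ → G)
    (hπ : ∀ u ∈ Ends θ B m w r, π u 0 = 1 ∧ π u m = u ∧ (∀ i ≤ m, π u i ∈ Near θ w r) ∧
      ∀ i < m, (π u i)⁻¹ * π u (i + 1) ∈ B)
    (hq : q ≤ m)
    (hgood : 2 * badSumP good π hfin.toFinset m ≤ (q + 1) * hfin.toFinset.card) :
    (Ends θ B m w r).ncard ≤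
      2 * c * (Ends θ' B' m (T w) (δ + (ℓ' + ‖T‖ * ℓ) * q + ‖T‖ * r)).ncard := by
  set U := hfin.toFinset with hU
  have h1 := card_good_endsP good π U m q hgood
  set W := U.filter fun u => ((range (m + 1)).filter fun i => ¬ good (π u i)).card ≤ q with hW
  have hmaps : ∀ u ∈ W, (Φ 1)⁻¹ * Φ u ∈ hfin'.toFinset := by
    intro u hu
    rw [hW, Finset.mem_filter, hU, Set.Finite.mem_toFinset] at hu
    obtain ⟨huE, hubad⟩ := hu
    obtain ⟨k0, k1, k2, k3⟩ := hπ u huE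
    rw [Set.Finite.mem_toFinset]
    have hstep : ∀ i < m, (Φ (π u i))⁻¹ * Φ (π u (i + 1)) ∈ B' := by
      intro i hi
      have h2 := hΦ (π u i) _ (k3 i hi)
      rwa [mul_inv_cancel_left] at h2
    refine ⟨fun j => (Φ 1)⁻¹ * Φ (π u j), ?_, ?_, ?_, ?_⟩
    · simp only [k0]
      exact inv_mul_cancel _
    · simp only [k1]
    · intro j hj
      obtain ⟨i, hi, hgd, hij, hji⟩ := exists_good (fun i => ¬ good (π u i)) hq hubad j hj
      have hgd' : good (π u i) := by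
        by_contra hcon
        exact hgd hcon
      have h3 := hlin _ hgd' (path_mem_Bl k0 k3 i hi)
      obtain ⟨s, hs0, hs1, hs⟩ := k2 j hj
      refine ⟨s, hs0, hs1, ?_⟩
      simp only
      rw [hθ', add_inv hθ']
      have hpathF : ‖θ' (Φ (π u j)) - θ' (Φ (π u i))‖ ≤ q * ℓ' := by
        rcases le_total i j with h | h
        · refine (norm_path_le hθ' hℓ' (p := fun j => Φ (π u j)) hstep h hj).trans ?_
          have : ((j - i : ℕ) : ℝ) ≤ q := by exact_mod_cast (by omega : j - i ≤ q)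
          gcongr
        · rw [norm_sub_rev]
          refine (norm_path_le hθ' hℓ' (p := fun j => Φ (π u j)) hstep h hi).trans ?_
          have : ((i - j : ℕ) : ℝ) ≤ q := by exact_mod_cast (by omega : i - j ≤ q)
          gcongr
      have hpathθ : ‖θ (π u i) - θ (π u j)‖ ≤ q * ℓ := by
        rcases le_total i j with h | h
        · rw [norm_sub_rev]
          refine (norm_path_le hθ hℓ (p := π u) k3 h hj).trans ?_
          have : ((j - i : ℕ) : ℝ) ≤ q := by exact_mod_cast (by omega : j - i ≤ q)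
          gcongr
        · refine (norm_path_le hθ hℓ (p := π u) k3 h hi).trans ?_
          have : ((i - j : ℕ) : ℝ) ≤ q := by exact_mod_cast (by omega : i - j ≤ q)
          gcongr
      have e : -θ' (Φ 1) + θ' (Φ (π u j)) - s • T w =
          (θ' (Φ (π u j)) - θ' (Φ (π u i))) +
          (θ' (Φ (π u i)) - θ' (Φ 1) - T (θ (π u i))) +
          T (θ (π u i) - θ (π u j)) + T (θ (π u j) - s • w) := by
        rw [map_sub, map_sub, map_smul]
        abel
      rw [e]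
      have n1 : ‖T (θ (π u i) - θ (π u j))‖ ≤ ‖T‖ * (q * ℓ) :=
        (T.le_opNorm _).trans (by gcongr)
      have n2 : ‖T (θ (π u j) - s • w)‖ ≤ ‖T‖ * r :=
        (T.le_opNorm _).trans (by gcongr)
      refine (norm_add_le _ _).trans ?_
      refine (add_le_add (norm_add_le _ _) le_rfl).trans ?_
      refine (add_le_add (add_le_add (norm_add_le _ _) le_rfl) le_rfl).trans ?_
      nlinarith
    · intro i hi
      simp only
      have e : ((Φ 1)⁻¹ * Φ (π u i))⁻¹ * ((Φ 1)⁻¹ * Φ (π u (i + 1))) =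
          (Φ (π u i))⁻¹ * Φ (π u (i + 1)) := by group
      rw [e]
      exact hstep i hi
  have hcard : W.card ≤ c * hfin'.toFinset.card := by
    refine Finset.card_le_mul_card_image_of_maps_to hmaps c ?_
    intro y _
    have hy := hc (Φ 1 * y)
    rw [← Set.ncard_coe_finset]
    refine le_trans ?_ hy.2
    refine Set.ncard_le_ncard_of_injOn (fun u => u) ?_ ?_ hy.1
    · intro u hu
      rw [Finset.mem_coe, Finset.mem_filter] at hu
      simp only [Set.mem_setOf_eq]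
      rw [← hu.2, mul_inv_cancel_left]
    · intro u _ v _ h
      exact h
  rw [Set.ncard_eq_toFinset_card _ hfin, Set.ncard_eq_toFinset_card _ hfin']
  calc U.card ≤ 2 * W.card := h1
    _ ≤ 2 * (c * hfin'.toFinset.card) := Nat.mul_le_mul_left _ hcard
    _ = _ := by ring

end Vale.Agent.P188.H530

end
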