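import Vale.Agent.P188.R.G044

section

/-!
Definitions and statements of the blocks QA6, QA7, QA8 (route A of P188).
-/

universe u v w

namespace Vale.Agent.P188.H882

open Finsupp Pointwise

section Defs

variable {P : Type u} [Group P]

/-- `B` has a series of length `h` with infinite cyclic factors, all of whose terms are
normalized by the elements of `S`, which act trivially on the factors. -/
def CS (S : Set P) : ℕ → Subgroup P → Prop
  | 0, B => B = ⊥
  | h + 1, B => ∃ (N : Subgroup P) (t : P), ZExt N B t ∧ CS S h N ∧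
      ∀ p ∈ S, (∀ g ∈ N, p * g * p⁻¹ ∈ N) ∧ t⁻¹ * (p * t * p⁻¹) ∈ N

/-- `B` is obtained from `K` by `l` extensions by `ℤ`. -/
def ZC (K : Subgroup P) : ℕ → Subgroup P → Prop
  | 0, B => B = K
  | l + 1, B => ∃ (N : Subgroup P) (t : P), ZExt N B t ∧ ZC K l N

/-- `e` is a fundamental class of `B` in degree `h` (lists of length `h + 1`). -/
structure Fund (X : Type v) [MulAction P X] (S : Set P) (B : Subgroup P) (h : ℕ) (e : Ch X) :
    Prop where
  mem : e ∈ Sp (Gr (h + 1) : Set (List X))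
  cyc : bM (tp e (1 : ℤ)) ∈ Rl (X := X) (M := ℤ) (1 : P →* AddMonoid.End ℤ) B
  ori : ∀ p ∈ S, Null (X := X) (M := ℤ) (1 : P →* AddMonoid.End ℤ) B (h + 1)
    (aM 1 p (tp e (1 : ℤ)) - tp e 1)
  gen : ∀ (M : Type) [AddCommGroup M] (ρ : P →* AddMonoid.End M), (∀ b ∈ B, ρ b = 1) →
    ∀ z ∈ DG X M (h + 1), bM z ∈ Rl ρ B → ∃ m : M, Null ρ B (h + 1) (z - tp e m)
  inj : ∀ (M : Type) [AddCommGroup M] (ρ : P →* AddMonoid.End M), (∀ b ∈ B, ρ b = 1) →
    ∀ m : M, Null ρ B (h + 1) (tp e m) → m = 0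
  van : ∀ (M : Type) [AddCommGroup M] (ρ : P →* AddMonoid.End M), ∀ q ≥ h + 2, HVan X ρ B q

end Defs

/-- (QA6a.1) existence of fundamental classes. -/
def QA6a_fund : Prop :=
  ∀ (P X : Type) [Group P] [MulAction P X] [Nonempty X],
    (∀ (g : P) (x : X), g • x = x → g = 1) →
    ∀ (S : Set P) (h : ℕ) (B : Subgroup P), (B : Set P) ⊆ S → CS S h B →
      ∃ e : Ch X, Fund X S B h e

/-- (QA6a.2) the index formula, and monotonicity of the length. -/
def QA6a_index : Prop :=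
  ∀ (P X : Type) [Group P] [MulAction P X] [Nonempty X],
    (∀ (g : P) (x : X), g • x = x → g = 1) →
    ∀ (h h' : ℕ) (L B : Subgroup P), L ≤ B → CS (B : Set P) h B → CS (L : Set P) h' L →
      h' ≤ h ∧ (h' = h → ∀ e e' : Ch X, Fund X (L : Set P) L h e → Fund X (B : Set P) B h e' →
        ∃ k : ℤ, k ≠ 0 ∧ Null (X := X) (M := ℤ) (1 : P →* AddMonoid.End ℤ) B (h + 1)
          (tp e (1 : ℤ) - tp e' k) ∧ (k.natAbs = 1 → L = B))

/-- (QA6b) top homology of `B = K.ℤ^l`, as a relation `Ov` between cycles of `B` (lists of length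
`d + l`) and invariant cycles of `K` (lists of length `d`), `d ≥ 1`. -/
def QA6b_top : Prop :=
  ∀ (P X : Type) [Group P] [MulAction P X],
    (∀ (g : P) (x : X), g • x = x → g = 1) →
    ∀ (K : Subgroup P), (∀ a b : P, a * b * a⁻¹ * b⁻¹ ∈ K) → ∀ (l : ℕ), ZC K l ⊤ →
    ∀ (d : ℕ) (M : Type) [AddCommGroup M] (ρ : P →* AddMonoid.End M),
      (∀ q ≥ d + 1, HVan X ρ K q) →
      (∀ q ≥ d + l + 1, HVan X ρ (⊤ : Subgroup P) q) ∧
      ∃ Ov : CM X M → CM X M → Prop,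
        (∀ z y z' y', Ov z y → Ov z' y' → Ov (z - z') (y - y')) ∧
        (∀ z y, Ov z y → (Null ρ ⊤ (d + l) z ↔ Null ρ K d y)) ∧
        (∀ z ∈ DG X M (d + l), bM z ∈ Rl ρ (⊤ : Subgroup P) → ∃ y ∈ DG X M d, bM y ∈ Rl ρ K ∧
          (∀ p : P, Null ρ K d (aM ρ p y - y)) ∧ Ov z y) ∧
        (∀ y ∈ DG X M d, bM y ∈ Rl ρ K → (∀ p : P, Null ρ K d (aM ρ p y - y)) →
          ∃ z ∈ DG X M (d + l), bM z ∈ Rl ρ (⊤ : Subgroup P) ∧ Ov z y)

/-- (QA6) the algebraic end: `K` is finitely generated. -/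
def QA6 : Prop :=
  ∀ (P : Type) [Group P] (K : Subgroup P), (∀ a b : P, a * b * a⁻¹ * b⁻¹ ∈ K) →
    ∀ (l : ℕ), ZC K l ⊤ →
    ∀ (hmax : ℕ), (∀ B : Subgroup P, B ≤ K → B.FG → ∃ h ≤ hmax, CS (B : Set P) h B) →
    ∀ (n : ℕ), (∀ (M : Type) [AddCommGroup M] (ρ : P →* AddMonoid.End M), ∀ q ≥ n + 2,
      ∃ m : ℤ, m ≠ 0 ∧ ∀ z ∈ DG P M q, bM z ∈ Rl ρ (⊤ : Subgroup P) → Null ρ ⊤ q (m • z)) →
    ∀ c : Ch P →ₗ[ℤ] ℤ, (∀ (g : P) (u : Ch P), c (act g u) = c u) →
      (∀ u ∈ Sp (Gr (n + 2) : Set (List P)), c (bd u) = 0) →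
      ∀ z ∈ Sp (Gr (n + 1) : Set (List P)),
        bM (tp z (1 : ℤ)) ∈ Rl (X := P) (M := ℤ) (1 : P →* AddMonoid.End ℤ) (⊤ : Subgroup P) →
        c z ≠ 0 → K.FG

/-- Growth of a finitely generated subgroup is at most polynomial of degree `D`. -/
def GrowthLE {H : Type*} [Group H] (B : Subgroup H) (D : ℕ) : Prop :=
  ∃ T : Finset H, (1 : H) ∈ T ∧ Subgroup.closure (T : Set H) = B ∧
    ∃ C : ℕ, ∀ k : ℕ, Nat.card ((T : Set H) ^ k : Set H) ≤ C * (k + 1) ^ D

/-- (QA7) the structure of `K`: a locally (virtually nilpotent) group with bounded torsion has a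
characteristic subgroup `C` of finite index and a finite characteristic subgroup `T ≤ C` such
that all finitely generated subgroups of `C / T` are torsion free nilpotent. -/
def QA7 : Prop :=
  ∀ (K : Type) [Group K] (m D : ℕ), 0 < m → (∀ F : Subgroup K, Finite F → Nat.card F ∣ m) →
    (∀ B : Subgroup K, B.FG → GrowthLE B D) →
    ∃ (C T : Subgroup K) (_ : C.Characteristic) (_ : T.Characteristic), C.FiniteIndex ∧
      T ≤ C ∧ Finite T ∧ ∃ hmax : ℕ, ∀ B : Subgroup (K ⧸ T), B ≤ C.map (QuotientGroup.mk' T) →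
        B.FG → ∃ h ≤ hmax, CS (B : Set (K ⧸ T)) h B

/-- (QA8) if `K` is normal in `P` and `P / K` is an extension of a finite group by a finitely
generated free abelian group then a subgroup of finite index is `K.ℤ^l`. -/
def QA8 : Prop :=
  ∀ (P : Type) [Group P] (K K' : Subgroup P) [K.Normal] [K'.Normal], K ≤ K' →
    (K.subgroupOf K').FiniteIndex → ∀ (k : ℕ) (f : P →* Multiplicative (Fin k → ℤ)),
      f.ker = K' →
      ∃ (l : ℕ) (P₀ : Subgroup P), P₀.FiniteIndex ∧ P₀ ⊓ K' = K ∧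
        (∀ a b : P₀, a * b * a⁻¹ * b⁻¹ ∈ K.subgroupOf P₀) ∧ ZC (K.subgroupOf P₀) l ⊤

end Vale.Agent.P188.H882

end

section

/-!
Functionals of finite support on controlled lists, and local maps of chains.
-/

universe u v w

namespace Vale.Agent.P188.H882

open Finsupp Pointwise

lemma finite_lists {α : Type*} {F : Set α} (hF : F.Finite) (q : ℕ) :
    {l : List α | l.length = q ∧ ∀ x ∈ l, x ∈ F}.Finite := by
  classical
  have : Finite F := hF
  apply ((List.finite_length_eq F q).image (List.map Subtype.val)).subset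
  rintro l ⟨h1, h2⟩
  refine ⟨l.pmap Subtype.mk h2, by simpa using h1, ?_⟩
  rw [List.map_pmap]
  simp

section FS

variable {H : Type*} [Group H]

/-- Functionals on lists of length `q` with finite support on controlled lists. -/
structure FS (q : ℕ) (c : Ch H →ₗ[ℤ] ℤ) : Prop where
  nil : c (single [] 1) = 0
  fin : ∀ A : Set H, A.Finite → {l : List H | l ∈ Ctl A ∩ Gr q ∧ c (single l 1) ≠ 0}.Finite

lemma FS.add {q : ℕ} {c c' : Ch H →ₗ[ℤ] ℤ} (h : FS q c) (h' : FS q c') : FS q (c + c') := by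
  refine ⟨by rw [LinearMap.add_apply, h.nil, h'.nil, add_zero], fun A hA => ?_⟩
  apply ((h.fin A hA).union (h'.fin A hA)).subset
  rintro l ⟨hl, hne⟩
  by_cases h0 : c (single l 1) = 0
  · refine Or.inr ⟨hl, fun h1 => hne ?_⟩
    rw [LinearMap.add_apply, h0, h1, add_zero]
  · exact Or.inl ⟨hl, h0⟩

lemma FS.smul {q : ℕ} {c : Ch H →ₗ[ℤ] ℤ} (h : FS q c) (a : ℤ) : FS q (a • c) := by
  refine ⟨by rw [LinearMap.smul_apply, h.nil, smul_zero], fun A hA => ?_⟩
  apply (h.fin A hA).subset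
  rintro l ⟨hl, hne⟩
  refine ⟨hl, fun h1 => hne ?_⟩
  rw [LinearMap.smul_apply, h1, smul_zero]

lemma FS.neg {q : ℕ} {c : Ch H →ₗ[ℤ] ℤ} (h : FS q c) : FS q (-c) := by
  have := h.smul (-1)
  simpa using this

lemma FS.sub {q : ℕ} {c c' : Ch H →ₗ[ℤ] ℤ} (h : FS q c) (h' : FS q c') : FS q (c - c') := by
  rw [sub_eq_add_neg]
  exact h.add h'.neg

lemma FS.zero {q : ℕ} : FS (H := H) q 0 :=
  ⟨rfl, fun A _ => by
    apply Set.Finite.subset (Set.finite_empty)
    rintro l ⟨_, h⟩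
    exact absurd rfl h⟩

end FS

section Loc

variable {H : Type*} [Group H] {G : Type*} [Group G] {K : Type*} [Group K]

/-- Local maps between chains. -/
structure Loc (q q' : ℕ) (T : Ch H →ₗ[ℤ] Ch G) : Prop where
  nil : ∀ c : Ch G →ₗ[ℤ] ℤ, c (single [] 1) = 0 → c (T (single [] 1)) = 0
  ctl : ∀ A : Set H, A.Finite → ∃ B : Set G, B.Finite ∧
    ∀ l ∈ Ctl A ∩ Gr q, T (single l 1) ∈ Sp (Ctl B ∩ Gr q')
  prp : ∀ A : Set H, A.Finite → ∀ y : G,
    {l : List H | l ∈ Ctl A ∩ Gr q ∧ ∃ l', T (single l 1) l' ≠ 0 ∧ y ∈ l'}.Finite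

lemma Loc.mem {q q' : ℕ} {T : Ch H →ₗ[ℤ] Ch G} (hT : Loc q q' T) {A : Set H} (hA : A.Finite) :
    ∃ B : Set G, B.Finite ∧ ∀ u ∈ Sp (Ctl A ∩ Gr q), T u ∈ Sp (Ctl B ∩ Gr q') := by
  obtain ⟨B, hB, h⟩ := hT.ctl A hA
  exact ⟨B, hB, fun u hu => map_mem_of_Sp h hu⟩

lemma exists_of_apply_ne {X : Type*} {c : Ch X →ₗ[ℤ] ℤ} {u : Ch X} (h : c u ≠ 0) :
    ∃ l, u l ≠ 0 ∧ c (single l 1) ≠ 0 := by
  by_contra hcon
  push Not at hcon
  apply h
  have hu : u ∈ Sp {l | u l ≠ 0} := by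
    rw [mem_Sp]; exact fun l hl => hl
  have := eq_of_Sp (L := c) (L' := 0) (fun l hl => by rw [hcon l hl]; rfl) hu
  simpa using this

lemma FS.comp {q q' : ℕ} {c : Ch G →ₗ[ℤ] ℤ} (hc : FS q' c) {T : Ch H →ₗ[ℤ] Ch G}
    (hT : Loc q q' T) : FS q (c ∘ₗ T) := by
  refine ⟨hT.nil c hc.nil, fun A hA => ?_⟩
  obtain ⟨B, hB, hTB⟩ := hT.ctl A hA
  have hS := hc.fin B hB
  have hY : {y : G | ∃ l ∈ {l : List G | l ∈ Ctl B ∩ Gr q' ∧ c (single l 1) ≠ 0}, y ∈ l}.Finite := by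
    have : {y : G | ∃ l ∈ {l : List G | l ∈ Ctl B ∩ Gr q' ∧ c (single l 1) ≠ 0}, y ∈ l} =
        ⋃ l ∈ {l : List G | l ∈ Ctl B ∩ Gr q' ∧ c (single l 1) ≠ 0}, {y | y ∈ l} := by
      ext y; simp
    rw [this]
    exact hS.biUnion (fun l _ => List.finite_toSet l)
  apply (hY.biUnion (fun y _ => hT.prp A hA y)).subset
  rintro l ⟨hl, hne⟩
  obtain ⟨l', h1, h2⟩ := exists_of_apply_ne (c := c) (u := T (single l 1)) hne
  have hl' : l' ≠ [] := by
    rintro rfl
    exact h2 hc.nil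
  obtain ⟨y, hy⟩ := List.exists_mem_of_ne_nil l' hl'
  have h3 : l' ∈ Ctl B ∩ Gr q' := (mem_Sp.mp (hTB l hl)) l' h1
  rw [Set.mem_iUnion₂]
  exact ⟨y, ⟨l', ⟨h3, h2⟩, hy⟩, hl, l', h1, hy⟩

lemma finite_ctl {A : Set H} (hA : A.Finite) (q : ℕ) {F : Set H} (hF : F.Finite) :
    {l : List H | l ∈ Ctl A ∩ Gr q ∧ ∃ x ∈ l, x ∈ F}.Finite := by
  apply (finite_lists (hF.mul hA) q).subset
  rintro l ⟨⟨h1, h2⟩, x, hx, hxF⟩
  refine ⟨h2, fun y hy => ?_⟩
  exact ⟨x, hxF, _, h1 x hx y hy, by simp⟩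

/-- The boundary is local. -/
lemma loc_bd (q : ℕ) : Loc (H := H) (q + 1) q bd := by
  refine ⟨fun c _ => by simp, fun A hA => ⟨A, hA, fun l hl => ?_⟩, fun A hA y => ?_⟩
  · exact bd_mem (SubC_Ctl A) (single_mem_Sp hl 1)
  · apply (finite_ctl hA (q + 1) (Set.finite_singleton y)).subset
    rintro l ⟨hl, l', h1, h2⟩
    refine ⟨hl, y, ?_, rfl⟩
    rw [bd_single, one_smul] at h1
    exact ((mem_Sp.mp (dl_mem l)) l' h1).1 h2

/-- Push-forward along coarse maps with finite fibres is local. -/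
lemma loc_pf {F : H → G} (hF : Coarse F) (hfib : ∀ y, {x | F x = y}.Finite) (q : ℕ) :
    Loc q q (pf F) := by
  refine ⟨fun c hc => by simpa using hc, fun A hA => ?_, fun A hA y => ?_⟩
  · obtain ⟨B, hB, h⟩ := hF A hA
    refine ⟨B, hB, fun l hl => ?_⟩
    rw [pf_single]
    apply single_mem_Sp
    refine ⟨?_, by simpa [Gr] using hl.2⟩
    intro x hx y hy
    rw [List.mem_map] at hx hy
    obtain ⟨x', hx', rfl⟩ := hx
    obtain ⟨y', hy', rfl⟩ := hy
    exact h _ _ (hl.1 x' hx' y' hy')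
  · apply (finite_ctl hA q (hfib y)).subset
    rintro l ⟨hl, l', h1, h2⟩
    refine ⟨hl, ?_⟩
    rw [pf_single] at h1
    have : l' = l.map F := by
      by_contra hne
      exact h1 (Finsupp.single_eq_of_ne hne)
    rw [this, List.mem_map] at h2
    obtain ⟨x, hx, hxy⟩ := h2
    exact ⟨x, hx, hxy⟩

/-- The prism is local. -/
lemma loc_pr {f : H → H} (hf : CloseId f) (q : ℕ) : Loc q (q + 1) (pr f) := by
  obtain ⟨E, hE, hfE⟩ := hf
  refine ⟨fun c _ => by simp [prl], fun A hA => ⟨prCtl A E, prCtl_finite hA hE, fun l hl => ?_⟩,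
    fun A hA y => ?_⟩
  · rw [pr_single, one_smul]
    apply Sp_mono _ (prl_mem f l)
    rintro l' ⟨h1, h2⟩
    refine ⟨prCtl_spec hl.1 (fun x _ => hfE x) h1, ?_⟩
    have := hl.2
    rw [mem_Gr] at this ⊢
    omega
  · apply (finite_ctl hA q (((Set.finite_singleton y).mul hE.inv).union
      (Set.finite_singleton y))).subset
    rintro l ⟨hl, l', h1, h2⟩
    refine ⟨hl, ?_⟩
    rw [pr_single, one_smul] at h1
    have h3 := ((mem_Sp.mp (prl_mem f l)) l' h1).1 h2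
    rw [List.mem_append, List.mem_map] at h3
    rcases h3 with h | ⟨x, hx, hxy⟩
    · exact ⟨y, h, Or.inr rfl⟩
    · refine ⟨x, hx, Or.inl ⟨y, rfl, (x⁻¹ * f x)⁻¹, Set.inv_mem_inv.mpr (hfE x), ?_⟩⟩
      rw [← hxy]
      simp

/-- The translates of finitely many lists. -/
lemma exists_orbit_reps {A : Set H} (hA : A.Finite) (q : ℕ) :
    ∃ L : Set (List H), L.Finite ∧ L ⊆ Ctl A ∩ Gr q ∧ ∀ l ∈ Ctl A ∩ Gr q, ∃ (g : H), ∃ l₀ ∈ L,
      l = l₀.map (fun x => g • x) := by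
  refine ⟨{l | l ∈ Ctl A ∩ Gr q ∧ l.length = q ∧ ∀ x ∈ l, x ∈ A}, ?_, ?_, ?_⟩
  · apply (finite_lists hA q).subset
    rintro l ⟨_, h⟩
    exact h
  · rintro l ⟨h, _⟩
    exact h
  · rintro l hl
    rcases l with _ | ⟨x, s⟩
    · exact ⟨1, [], ⟨hl, hl.2, by simp⟩, by simp⟩
    · refine ⟨x, (x :: s).map (fun y => x⁻¹ • y), ⟨⟨?_, ?_⟩, ?_, ?_⟩, ?_⟩
      · exact Ctl_map_mul x⁻¹ hl.1
      · simpa [Gr] using hl.2
      · simpa [Gr] using hl.2
      · intro y hy
        rw [List.mem_map] at hy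
        obtain ⟨y', hy', rfl⟩ := hy
        exact hl.1 x (by simp) y' hy'
      · rw [List.map_map]
        conv_lhs => rw [← List.map_id (x :: s)]
        apply List.map_congr_left
        intro y _
        simp

/-- Equivariant maps are local. -/
lemma loc_equiv {T : Ch H →ₗ[ℤ] Ch H} {q q' : ℕ} (hT : ∀ (g : H) (u : Ch H), T (act g u) = act g (T u))
    (hq : ∀ u ∈ Sp (Gr q : Set (List H)), T u ∈ Sp (Gr q'))
    (hnil : ∀ c : Ch H →ₗ[ℤ] ℤ, c (single [] 1) = 0 → c (T (single [] 1)) = 0) : Loc q q' T := by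
  classical
  refine ⟨hnil, fun A hA => ?_, fun A hA y => ?_⟩
  · obtain ⟨L, hL, hLA, hrep⟩ := exists_orbit_reps hA q
    let V : Set H := ⋃ l ∈ L, ⋃ l' ∈ (T (single l 1)).support, {x | x ∈ l'}
    have hV : V.Finite := hL.biUnion (fun l _ =>
      (Finset.finite_toSet _).biUnion (fun l' _ => List.finite_toSet l'))
    refine ⟨V⁻¹ * V, hV.inv.mul hV, fun l hl => ?_⟩
    obtain ⟨g, l₀, hl₀, rfl⟩ := hrep l hl
    have e : single (l₀.map (fun x => g • x)) (1 : ℤ) = act g (single l₀ 1) := by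
      rw [act_single]
    rw [e, hT]
    apply act_ctl g
    apply Sp_inter _ (hq _ (single_mem_Sp (hLA hl₀).2 1))
    rw [mem_Sp]
    intro l' hl' x hx y hy
    have key : ∀ z ∈ l', z ∈ V := by
      intro z hz
      simp only [V, Set.mem_iUnion]
      exact ⟨l₀, hl₀, l', by simpa using hl', hz⟩
    exact ⟨x⁻¹, Set.inv_mem_inv.mpr (key x hx), y, key y hy, rfl⟩
  · obtain ⟨L, hL, hLA, hrep⟩ := exists_orbit_reps hA q
    let V : Set H := ⋃ l ∈ L, ⋃ l' ∈ (T (single l 1)).support, {x | x ∈ l'}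
    have hV : V.Finite := hL.biUnion (fun l _ =>
      (Finset.finite_toSet _).biUnion (fun l' _ => List.finite_toSet l'))
    let Gs : Set H := (fun v => y * v⁻¹) '' V
    have hG : Gs.Finite := hV.image _
    apply (hG.biUnion (fun g _ => hL.image (List.map (fun x => g • x)))).subset
    rintro l ⟨hl, l', h1, h2⟩
    obtain ⟨g, l₀, hl₀, rfl⟩ := hrep l hl
    have e : single (l₀.map (fun x => g • x)) (1 : ℤ) = act g (single l₀ 1) := by
      rw [act_single]
    rw [e, hT] at h1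
    -- `l' = g • l''`
    have h3 : ∃ l'', T (single l₀ 1) l'' ≠ 0 ∧ l' = l''.map (fun x => g • x) := by
      have hmem : act g (T (single l₀ 1)) ∈ Sp {l' | ∃ l'', T (single l₀ 1) l'' ≠ 0 ∧
          l' = l''.map (fun x => g • x)} := by
        apply pf_mem (p := {l'' | T (single l₀ 1) l'' ≠ 0})
        · intro l'' hl''
          exact ⟨l'', hl'', rfl⟩
        · rw [mem_Sp]; exact fun _ h => h
      exact (mem_Sp.mp hmem) l' h1
    obtain ⟨l'', h4, rfl⟩ := h3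
    rw [List.mem_map] at h2
    obtain ⟨v, hv, hvy⟩ := h2
    rw [Set.mem_iUnion₂]
    refine ⟨g, ⟨v, ?_, ?_⟩, l₀, hl₀, rfl⟩
    · simp only [V, Set.mem_iUnion]
      exact ⟨l₀, hl₀, l'', by simpa using h4, hv⟩
    · simp only
      rw [← hvy]
      simp

omit [Group G] in
lemma fib_of_closeId {F : H → G} {F' : G → H} (h : CloseId (F' ∘ F)) (y : G) :
    {x | F x = y}.Finite := by
  obtain ⟨E, hE, hF⟩ := h
  apply ((Set.finite_singleton (F' y)).mul hE.inv).subset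
  intro x hx
  have hx' : F x = y := hx
  refine ⟨F' y, rfl, (x⁻¹ * F' y)⁻¹, ?_, by simp⟩
  have := hF x
  rw [Function.comp_apply, hx'] at this
  exact Set.inv_mem_inv.mpr this

lemma coarse_mul (g : H) : Coarse (fun x : H => g • x) := by
  intro A hA
  refine ⟨A, hA, fun x y h => ?_⟩
  have : (g • x)⁻¹ * (g • y) = x⁻¹ * y := by
    simp [mul_assoc]
  rw [this]
  exact h

lemma loc_act (g : H) (q : ℕ) : Loc (H := H) (G := H) q q (act g) := by
  apply loc_pf (coarse_mul g)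
  intro y
  apply (Set.finite_singleton (g⁻¹ * y)).subset
  intro x hx
  have hx' : g * x = y := hx
  show x = g⁻¹ * y
  rw [← hx']; simp

end Loc

end Vale.Agent.P188.H882

end

section

/-!
Block QA8 of P188 (route A).
-/

namespace Vale.Agent.P188.H235

open Vale.Agent.P188.H882

section Transfer

variable {G G' : Type*} [Group G] [Group G']

lemma ZExt_comap (φ : G' →* G) {N B : Subgroup G} {t : G}
    (h : ZExt N B t) (hB : B ≤ φ.range) : ∃ t' : G', ZExt (N.comap φ) (B.comap φ) t' := by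
  obtain ⟨t', ht'⟩ := hB h.mem
  refine ⟨t', ⟨Subgroup.comap_mono h.le, ?_, ?_, ?_, ?_, ?_⟩⟩
  · simpa [Subgroup.mem_comap, ht'] using h.mem
  · intro g hg
    have := h.conj (φ g) hg
    simpa [Subgroup.mem_comap, ht'] using this
  · intro g hg
    have := h.conj' (φ g) hg
    simpa [Subgroup.mem_comap, ht'] using this
  · intro b hb
    obtain ⟨i, hi⟩ := h.gen (φ b) hb
    exact ⟨i, by simpa [Subgroup.mem_comap, ht'] using hi⟩
  · intro i hi
    exact h.free i (by simpa [Subgroup.mem_comap, ht'] using hi)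

lemma ZC_comap (φ : G' →* G) {K : Subgroup G} :
    ∀ (l : ℕ) {B : Subgroup G}, ZC K l B → B ≤ φ.range → ZC (K.comap φ) l (B.comap φ)
  | 0, B, h, _ => by
    have h' : B = K := h
    subst h'
    exact rfl
  | l + 1, B, h, hB => by
    obtain ⟨N, t, hZ, hN⟩ := h
    obtain ⟨t', ht'⟩ := ZExt_comap φ hZ hB
    exact ⟨N.comap φ, t', ht', ZC_comap φ l hN (hZ.le.trans hB)⟩

lemma ZExt_map (φ : G →* G') (hφ : Function.Injective φ) {N B : Subgroup G} {t : G}
    (h : ZExt N B t) : ZExt (N.map φ) (B.map φ) (φ t) := by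
  refine ⟨Subgroup.map_mono h.le, ⟨t, h.mem, rfl⟩, ?_, ?_, ?_, ?_⟩
  · rintro _ ⟨g, hg, rfl⟩
    exact ⟨t * g * t⁻¹, h.conj g hg, by simp⟩
  · rintro _ ⟨g, hg, rfl⟩
    exact ⟨t⁻¹ * g * t, h.conj' g hg, by simp⟩
  · rintro _ ⟨b, hb, rfl⟩
    obtain ⟨i, hi⟩ := h.gen b hb
    exact ⟨i, ⟨b * t ^ i, hi, by simp⟩⟩
  · rintro i ⟨x, hx, hxi⟩
    refine h.free i ?_
    have : x = t ^ i := hφ (by rw [hxi, map_zpow])
    rwa [this] at hx

lemma ZC_map (φ : G →* G') (hφ : Function.Injective φ) {K : Subgroup G} :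
    ∀ (l : ℕ) {B : Subgroup G}, ZC K l B → ZC (K.map φ) l (B.map φ)
  | 0, B, h => by
    have h' : B = K := h
    subst h'
    exact rfl
  | l + 1, B, h => by
    obtain ⟨N, t, hZ, hN⟩ := h
    exact ⟨N.map φ, φ t, ZExt_map φ hφ hZ, ZC_map φ hφ l hN⟩

lemma ZC_le {K : Subgroup G} : ∀ (l : ℕ) {B : Subgroup G}, ZC K l B → K ≤ B
  | 0, B, h => by
    have h' : B = K := h
    subst h'
    exact le_rfl
  | l + 1, B, h => by
    obtain ⟨N, t, hZ, hN⟩ := h
    exact (ZC_le l hN).trans hZ.le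

end Transfer

section Core

variable {G : Type*} [Group G]

/-- elements central modulo `K`. -/
def Zc (K : Subgroup G) [K.Normal] : Subgroup G :=
  (Subgroup.center (G ⧸ K)).comap (QuotientGroup.mk' K)

lemma mem_Zc {K : Subgroup G} [K.Normal] {z : G} :
    z ∈ Zc K ↔ ∀ q : G, q * z * q⁻¹ * z⁻¹ ∈ K := by
  unfold Zc
  rw [Subgroup.mem_comap, Subgroup.mem_center_iff]
  constructor
  · intro h q
    have h1 := h (q : G ⧸ K)
    rw [← QuotientGroup.eq_one_iff]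
    have h2 : ((q * z * q⁻¹ * z⁻¹ : G) : G ⧸ K) =
        (q : G ⧸ K) * (z : G ⧸ K) * (q : G ⧸ K)⁻¹ * (z : G ⧸ K)⁻¹ := rfl
    rw [h2]
    have h3 : (q : G ⧸ K) * (z : G ⧸ K) = (z : G ⧸ K) * (q : G ⧸ K) := h1
    rw [h3]
    group
  · intro h g
    obtain ⟨q, rfl⟩ := QuotientGroup.mk_surjective g
    have h1 := h q
    rw [← QuotientGroup.eq_one_iff] at h1
    have h2 : ((q * z * q⁻¹ * z⁻¹ : G) : G ⧸ K) =
        (q : G ⧸ K) * (z : G ⧸ K) * (q : G ⧸ K)⁻¹ * (z : G ⧸ K)⁻¹ := rfl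
    rw [h2] at h1
    show (q : G ⧸ K) * (z : G ⧸ K) = (z : G ⧸ K) * (q : G ⧸ K)
    have h3 : (q : G ⧸ K) * (z : G ⧸ K) * (q : G ⧸ K)⁻¹ = (z : G ⧸ K) := by
      rwa [mul_inv_eq_one] at h1
    rwa [mul_inv_eq_iff_eq_mul] at h3

lemma normal_of_le_Zc {K : Subgroup G} [K.Normal] {B : Subgroup G} (h1 : K ≤ B)
    (h2 : B ≤ Zc K) : B.Normal := by
  refine ⟨fun n hn g => ?_⟩
  have h3 := (mem_Zc.1 (h2 hn)) g
  have h4 : g * n * g⁻¹ = (g * n * g⁻¹ * n⁻¹) * n := by group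
  rw [h4]
  exact B.mul_mem (h1 h3) hn

lemma pow_mem_Zc {K K' : Subgroup G} [K.Normal]
    (H1 : ∀ p x, x ∈ K' → p * x * p⁻¹ * x⁻¹ ∈ K) (H2 : ∀ p q : G, p * q * p⁻¹ * q⁻¹ ∈ K')
    {e : ℕ} (H3 : ∀ x ∈ K', x ^ e ∈ K) (p : G) : p ^ e ∈ Zc K := by
  rw [mem_Zc]
  intro q
  rw [← QuotientGroup.eq_one_iff]
  set a : G ⧸ K := (q : G ⧸ K) with ha
  set b : G ⧸ K := (p : G ⧸ K) with hb
  have h0 : ((q * p ^ e * q⁻¹ * (p ^ e)⁻¹ : G) : G ⧸ K) = a * b ^ e * a⁻¹ * (b ^ e)⁻¹ := rfl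
  rw [h0]
  set c : G ⧸ K := a * b * a⁻¹ * b⁻¹ with hc
  have hc' : c = ((q * p * q⁻¹ * p⁻¹ : G) : G ⧸ K) := rfl
  have hcK : q * p * q⁻¹ * p⁻¹ ∈ K' := H2 q p
  have hce : c ^ e = 1 := by
    rw [hc']
    have := H3 _ hcK
    rw [← QuotientGroup.eq_one_iff] at this
    exact this
  have hcb : Commute c b := by
    have h := H1 p _ hcK
    rw [← QuotientGroup.eq_one_iff] at h
    have h2 : b * c * b⁻¹ * c⁻¹ = 1 := h
    have h3 : b * c * b⁻¹ = c := by rwa [mul_inv_eq_one] at h2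
    rw [mul_inv_eq_iff_eq_mul] at h3
    exact h3.symm
  have h5 : a * b * a⁻¹ = c * b := by rw [hc]; group
  have h6 : a * b ^ e * a⁻¹ = (c * b) ^ e := by
    rw [← h5, conj_pow]
  rw [h6, hcb.mul_pow, hce]
  simp

theorem core {K K' : Subgroup G} [K.Normal] (hK : K ≤ K')
    (H0 : K.relIndex K' ≠ 0)
    (H1 : ∀ p x, x ∈ K' → p * x * p⁻¹ * x⁻¹ ∈ K) (H2 : ∀ p q : G, p * q * p⁻¹ * q⁻¹ ∈ K')
    {e : ℕ} (he : e ≠ 0) (H3 : ∀ x ∈ K', x ^ e ∈ K) :
    ∀ (k : ℕ) (f : G →* Multiplicative (Fin k → ℤ)) (B : Subgroup G), B ⊓ f.ker = K' →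
      ∃ (l : ℕ) (B₀ : Subgroup G), B₀ ≤ B ∧ B₀ ≤ Zc K ∧ B₀ ⊓ K' = K ∧ B₀.relIndex B ≠ 0 ∧
        ZC K l B₀ := by
  intro k
  induction k with
  | zero =>
    intro f B hB
    have hker : f.ker = ⊤ := by
      rw [eq_top_iff]
      intro x _
      rw [MonoidHom.mem_ker]
      exact Subsingleton.elim _ _
    rw [hker, inf_top_eq] at hB
    subst hB
    refine ⟨0, K, hK, ?_, inf_eq_left.2 hK, H0, rfl⟩
    intro x hx
    rw [mem_Zc]
    intro q
    exact H1 q x (hK hx)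
  | succ k ih =>
    intro f B hB
    -- last coordinate and the rest
    let g : G →* Multiplicative ℤ :=
      (AddMonoidHom.toMultiplicative (Pi.evalAddMonoidHom (fun _ : Fin (k + 1) => ℤ) 0)).comp f
    let r : (Fin (k + 1) → ℤ) →+ (Fin k → ℤ) :=
      { toFun := fun v i => v i.succ, map_zero' := rfl, map_add' := fun _ _ => rfl }
    let f' : G →* Multiplicative (Fin k → ℤ) := (AddMonoidHom.toMultiplicative r).comp f
    have hker : g.ker ⊓ f'.ker = f.ker := by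
      ext x
      rw [Subgroup.mem_inf, MonoidHom.mem_ker, MonoidHom.mem_ker, MonoidHom.mem_ker]
      constructor
      · rintro ⟨h1, h2⟩
        have h1' : (f x).toAdd 0 = 0 := h1
        have h2' : (fun i : Fin k => (f x).toAdd i.succ) = 0 := h2
        have : (f x).toAdd = 0 := by
          funext i
          refine Fin.cases h1' (fun j => ?_) i
          exact congrFun h2' j
        exact this
      · intro h
        have h' : (f x).toAdd = 0 := h
        refine ⟨?_, ?_⟩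
        · show (f x).toAdd 0 = 0
          rw [h']; rfl
        · show (fun i : Fin k => (f x).toAdd i.succ) = 0
          rw [h']; rfl
    set N : Subgroup G := B ⊓ g.ker with hN
    have hNK : N ⊓ f'.ker = K' := by rw [hN, inf_assoc, hker, hB]
    obtain ⟨l, N₀, hN₀N, hN₀Z, hN₀K, hN₀i, hN₀C⟩ := ih f' N hNK
    have hKN₀ : K ≤ N₀ := ZC_le l hN₀C
    have hK'N : K' ≤ N := hNK ▸ inf_le_left
    -- generator of the image
    obtain ⟨y, hy⟩ : ∃ y : Multiplicative ℤ, B.map g = Subgroup.zpowers y := by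
      have hc : IsCyclic (B.map g) := inferInstance
      obtain ⟨y, hy⟩ := (Subgroup.isCyclic_iff_exists_zpowers_eq_top (B.map g)).1 hc
      exact ⟨y, hy.symm⟩
    obtain ⟨t, htB, hty⟩ : y ∈ B.map g := by rw [hy]; exact Subgroup.mem_zpowers y
    by_cases hy1 : y = 1
    · have hBN : N = B := by
        rw [hN, inf_eq_left]
        intro b hb
        have : g b ∈ B.map g := ⟨b, hb, rfl⟩
        rw [hy, hy1, Subgroup.zpowers_one_eq_bot, Subgroup.mem_bot] at this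
        exact this
      exact ⟨l, N₀, hN₀N.trans inf_le_left, hN₀Z, hN₀K, by rw [← hBN]; exact hN₀i, hN₀C⟩
    have hfree : ∀ i : ℤ, (g t) ^ i = 1 → i = 0 := by
      intro i hi
      rw [hty] at hi
      by_contra hne
      apply hy1
      have h1 : i * y.toAdd = 0 := by
        have := congrArg Multiplicative.toAdd hi
        simpa using this
      rcases mul_eq_zero.1 h1 with h | h
      · exact absurd h hne
      · exact h
    set s : G := t ^ e with hs
    have hsZ : s ∈ Zc K := pow_mem_Zc H1 H2 H3 t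
    have hsfree : ∀ i : ℤ, g (s ^ i) = 1 → i = 0 := by
      intro i hi
      have h1 : (g t) ^ ((e : ℤ) * i) = 1 := by
        rw [zpow_mul, zpow_natCast, ← map_pow, ← map_zpow]
        exact hi
      have h2 := hfree _ h1
      rcases mul_eq_zero.1 h2 with h | h
      · exact absurd (by exact_mod_cast h) he
      · exact h
    have hN₀n : N₀.Normal := normal_of_le_Zc hKN₀ hN₀Z
    set B₀ : Subgroup G := N₀ ⊔ Subgroup.zpowers s with hB₀
    have hmem : ∀ b ∈ B₀, ∃ i : ℤ, b * s ^ i ∈ N₀ := by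
      intro b hb
      rw [hB₀, Subgroup.mem_sup_of_normal_left] at hb
      obtain ⟨n, hn, w, ⟨i, rfl⟩, rfl⟩ := hb
      refine ⟨-i, ?_⟩
      simpa [mul_assoc] using hn
    have hB₀Z : B₀ ≤ Zc K := sup_le hN₀Z (by rw [Subgroup.zpowers_le]; exact hsZ)
    have hB₀B : B₀ ≤ B := sup_le (hN₀N.trans inf_le_left)
      (by rw [Subgroup.zpowers_le]; exact B.pow_mem htB e)
    have hKB₀ : K ≤ B₀ := hKN₀.trans le_sup_left
    have hB₀n : B₀.Normal := normal_of_le_Zc hKB₀ hB₀Z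
    have hZE : ZExt N₀ B₀ s := by
      refine ⟨le_sup_left, ?_, ?_, ?_, hmem, ?_⟩
      · exact (le_sup_right : Subgroup.zpowers s ≤ B₀) (Subgroup.mem_zpowers s)
      · intro x hx
        exact hN₀n.conj_mem x hx s
      · intro x hx
        simpa using hN₀n.conj_mem x hx s⁻¹
      · intro i hi
        exact hsfree i (hN₀N hi).2
    refine ⟨l + 1, B₀, hB₀B, hB₀Z, ?_, ?_, ⟨N₀, s, hZE, hN₀C⟩⟩
    · apply le_antisymm
      · rintro x ⟨hx1, hx2⟩
        obtain ⟨i, hi⟩ := hmem x hx1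
        have hxg : g x = 1 := (hK'N hx2).2
        have h1 : g (x * s ^ i) = 1 := (hN₀N hi).2
        rw [map_mul, hxg, one_mul] at h1
        have h2 := hsfree i h1
        rw [h2, zpow_zero, mul_one] at hi
        rw [← hN₀K]
        exact ⟨hi, hx2⟩
      · exact le_inf hKB₀ hK
    · -- the index
      have hi1 : B₀.relIndex N ≠ 0 := by
        intro h0
        exact hN₀i (Nat.eq_zero_of_zero_dvd (h0 ▸ Subgroup.relIndex_dvd_of_le_left N
          (le_sup_left : N₀ ≤ B₀)))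
      have hi2 : B₀.relIndex (B₀ ⊔ N) ≠ 0 := by
        rw [Subgroup.relIndex_sup_left]
        exact hi1
      have hi3 : (B₀ ⊔ N).relIndex B ≠ 0 := by
        set Z1 : Subgroup (Multiplicative ℤ) := Subgroup.zpowers (g s) with hZ1
        have hfin : Z1.index ≠ 0 := by
          have hne : (g s).toAdd ≠ 0 := by
            intro h0
            have : g (s ^ (1 : ℤ)) = 1 := by
              rw [zpow_one]
              exact h0
            exact one_ne_zero (hsfree 1 this)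
          have : Z1.index = (g s).toAdd.natAbs := by
            have h1 : Z1 = AddSubgroup.toSubgroup (AddSubgroup.zmultiples (g s).toAdd) := by
              rw [hZ1]
              ext z
              simp only [Subgroup.mem_zpowers_iff]
              constructor
              · rintro ⟨i, hi⟩
                exact ⟨i, by rw [← hi]; rfl⟩
              · rintro ⟨i, hi⟩
                exact ⟨i, hi⟩
            rw [h1]
            exact Int.index_zmultiples _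
          rw [this]
          exact Int.natAbs_ne_zero.2 hne
        have hle : B ⊓ Z1.comap g ≤ B₀ ⊔ N := by
          rintro x ⟨hxB, hxZ⟩
          obtain ⟨i, hi⟩ := hxZ
          have h1 : x * s ^ (-i) ∈ N := by
            refine ⟨B.mul_mem hxB (B.zpow_mem (B.pow_mem htB e) _), ?_⟩
            show g (x * s ^ (-i)) = 1
            rw [map_mul, map_zpow, ← show (g s) ^ i = g x from hi]
            simp
          have h2 : x = x * s ^ (-i) * s ^ i := by simp [mul_assoc]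
          rw [h2]
          exact Subgroup.mul_mem _ ((le_sup_right : N ≤ B₀ ⊔ N) h1)
            ((le_sup_left : B₀ ≤ B₀ ⊔ N) ((le_sup_right : Subgroup.zpowers s ≤ B₀)
              (Subgroup.zpow_mem _ (Subgroup.mem_zpowers s) i)))
        have hr : (B ⊓ Z1.comap g).relIndex B ≠ 0 := by
          rw [Subgroup.inf_relIndex_left]
          intro h0
          apply hfin
          have h4 := Subgroup.relIndex_comap (H := Z1) g B
          rw [h0] at h4
          exact Nat.eq_zero_of_zero_dvd (h4 ▸ Subgroup.relIndex_dvd_index_of_normal Z1 (B.map g))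
        intro h0
        exact hr (Nat.eq_zero_of_zero_dvd (h0 ▸ Subgroup.relIndex_dvd_of_le_left B hle))
      exact Subgroup.relIndex_ne_zero_trans hi2 hi3

end Core

theorem qa8 : QA8 := by
  intro P _ K K' _ _ hKK' hfin k f hf
  -- the centralizer of `K' / K` modulo `K`
  let F : Subgroup (P ⧸ K) := K'.map (QuotientGroup.mk' K)
  have hFn : F.Normal := Subgroup.Normal.map inferInstance _ (QuotientGroup.mk'_surjective K)
  have hFfin : Finite F := by
    have h1 : Finite (K' ⧸ K.subgroupOf K') := Subgroup.finite_quotient_of_finiteIndex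
    let φ : K' ⧸ K.subgroupOf K' → F := Quotient.lift (fun x : K' =>
      (⟨((x : P) : P ⧸ K), ⟨x, x.2, rfl⟩⟩ : F)) (by
        intro a b hab
        have hab' : a⁻¹ * b ∈ K.subgroupOf K' := QuotientGroup.leftRel_apply.1 hab
        apply Subtype.ext
        exact QuotientGroup.eq.2 hab')
    apply Finite.of_surjective φ
    rintro ⟨_, x, hx, rfl⟩
    exact ⟨Quotient.mk _ (⟨x, hx⟩ : K'), rfl⟩
  let ψ : P →* MulAut F := (MulAut.conjNormal (H := F)).comp (QuotientGroup.mk' K)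
  have hMA : Finite (MulAut F) := inferInstance
  set C : Subgroup P := ψ.ker with hC
  have hCfin : C.FiniteIndex := by
    rw [hC]
    infer_instance
  have hCmem : ∀ p ∈ C, ∀ x ∈ K', p * x * p⁻¹ * x⁻¹ ∈ K := by
    intro p hp x hx
    have h1 : ψ p = 1 := hp
    have h2 := congrArg (fun (a : MulAut F) => ((a ⟨((x : P) : P ⧸ K), ⟨x, hx, rfl⟩⟩ : F) : P ⧸ K)) h1
    have h3 : ((p : P ⧸ K)) * (x : P ⧸ K) * (p : P ⧸ K)⁻¹ = (x : P ⧸ K) := h2
    rw [← QuotientGroup.eq_one_iff]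
    show ((p : P ⧸ K)) * (x : P ⧸ K) * (p : P ⧸ K)⁻¹ * (x : P ⧸ K)⁻¹ = 1
    rw [h3, mul_inv_cancel]
  have hKC : K ≤ C := by
    intro p hp
    show ψ p = 1
    have : (p : P ⧸ K) = 1 := (QuotientGroup.eq_one_iff p).2 hp
    show MulAut.conjNormal (H := F) (p : P ⧸ K) = 1
    rw [this, map_one]
  -- the data in `C`
  set K₁ : Subgroup C := K.subgroupOf C with hK₁
  set K₁' : Subgroup C := K'.subgroupOf C with hK₁'
  set f₁ : C →* Multiplicative (Fin k → ℤ) := f.comp C.subtype with hf₁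
  have hK₁n : K₁.Normal := inferInstance
  have hle : K₁ ≤ K₁' := fun x hx => hKK' hx
  have H0 : K₁.relIndex K₁' ≠ 0 := by
    have h1 : K.relIndex K' ≠ 0 := hfin.index_ne_zero
    have h2 : K₁.relIndex K₁' = K.relIndex (K₁'.map C.subtype) := by
      rw [hK₁]
      exact Subgroup.relIndex_comap (H := K) C.subtype K₁'
    rw [h2]
    have h3 : K₁'.map C.subtype ≤ K' := by
      rintro _ ⟨x, hx, rfl⟩
      exact hx
    exact fun h0 => h1 (Subgroup.relIndex_eq_zero_of_le_right h3 h0)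
  have H1 : ∀ p x : C, x ∈ K₁' → p * x * p⁻¹ * x⁻¹ ∈ K₁ := by
    intro p x hx
    exact hCmem p p.2 x hx
  have hkerf : f₁.ker = K₁' := by
    ext x
    rw [MonoidHom.mem_ker]
    show f x = 1 ↔ (x : P) ∈ K'
    rw [← hf, MonoidHom.mem_ker]
  have H2 : ∀ p q : C, p * q * p⁻¹ * q⁻¹ ∈ K₁' := by
    intro p q
    rw [← hkerf, MonoidHom.mem_ker]
    simp only [map_mul, map_inv]
    rw [mul_comm (f₁ p) (f₁ q)]
    group
  obtain ⟨e, he, H3⟩ : ∃ e : ℕ, e ≠ 0 ∧ ∀ x ∈ K₁', x ^ e ∈ K₁ := by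
    refine ⟨Nat.card F, Nat.card_pos.ne', ?_⟩
    intro x hx
    have h1 : (⟨((x : P) : P ⧸ K), ⟨x, hx, rfl⟩⟩ : F) ^ Nat.card F = 1 := pow_card_eq_one'
    have h2 := congrArg (Subtype.val) h1
    have h3 : (((x : P) ^ Nat.card F : P) : P ⧸ K) = 1 := h2
    rw [QuotientGroup.eq_one_iff] at h3
    exact h3
  obtain ⟨l, B₀, -, hBZ, hBK, hBi, hBC⟩ := core hle H0 H1 H2 he H3 k f₁ ⊤
    (by rw [top_inf_eq, hkerf])
  have hKmap : K₁.map C.subtype = K := by
    rw [hK₁, Subgroup.subgroupOf_map_subtype, inf_eq_left.2 hKC]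
  refine ⟨l, B₀.map C.subtype, ?_, ?_, ?_, ?_⟩
  · refine ⟨?_⟩
    rw [Subgroup.index_map_subtype]
    refine mul_ne_zero ?_ hCfin.index_ne_zero
    rwa [Subgroup.relIndex_top_right] at hBi
  · apply le_antisymm
    · rintro _ ⟨⟨x, hx, rfl⟩, hx2⟩
      have : x ∈ B₀ ⊓ K₁' := ⟨hx, hx2⟩
      rw [hBK] at this
      exact this
    · intro x hx
      refine ⟨⟨⟨x, hKC hx⟩, ?_, rfl⟩, hKK' hx⟩
      have : (⟨x, hKC hx⟩ : C) ∈ K₁ := hx
      rw [← hBK] at this
      exact this.1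
  · rintro ⟨_, a, ha, rfl⟩ ⟨_, b, hb, rfl⟩
    have h1 := mem_Zc.1 (hBZ hb) a
    exact h1
  · have h1 := ZC_map C.subtype C.subtype_injective l hBC
    rw [hKmap] at h1
    have h2 := ZC_comap (B₀.map C.subtype).subtype l h1
      (by rw [Subgroup.range_subtype])
    have h3 : (B₀.map C.subtype).comap (B₀.map C.subtype).subtype = ⊤ := by
      rw [eq_top_iff]
      intro x _
      exact x.2
    rw [h3] at h2
    exact h2

end Vale.Agent.P188.H235

end

section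

/-!
Existence of fundamental classes of poly-infinite-cyclic groups with central factors (QA6a_fund).
-/

universe u v w

namespace Vale.Agent.P188.H882

open Finsupp TensorProduct

section Aux

variable {X : Type v} {M : Type w} [AddCommGroup M]

lemma cns_mem_Gr (x : X) {q : ℕ} {u : Ch X} (hu : u ∈ Sp (Gr q : Set (List X))) :
    cns x u ∈ Sp (Gr (q + 1) : Set (List X)) :=
  cns_mem (fun l hl => by rw [mem_Gr] at hl ⊢; simp [hl]) hu

lemma bM_cns (x : X) (z : CM X M) : bM (tm (cns x) z) = z - tm (cns x) (bM z) := by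
  have := cm_ext (f := bM.comp (tm (M := M) (cns x)))
    (g := AddMonoidHom.id _ - (tm (cns x)).comp bM) (by
      intro u m
      simp only [AddMonoidHom.comp_apply, tm_tp, bM_tp, AddMonoidHom.sub_apply,
        AddMonoidHom.id_apply]
      rw [bd_cns, tp_sub_left]) z
  simpa using this

lemma cns_mem_DG (x : X) {q : ℕ} {z : CM X M} (hz : z ∈ DG X M q) :
    tm (cns x) z ∈ DG X M (q + 1) :=
  tm_mem (fun _ hu => cns_mem_Gr x hu) hz

/-- Augmentation: the coefficient of the empty list. -/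
noncomputable def eps : CM X M →+ M :=
  ((TensorProduct.lid ℤ M).toLinearMap ∘ₗ
    LinearMap.rTensor M (Finsupp.lapply ([] : List X))).toAddMonoidHom

@[simp] lemma eps_tp (u : Ch X) (m : M) : eps (tp u m) = u [] • m := by
  show (TensorProduct.lid ℤ M) (LinearMap.rTensor M (Finsupp.lapply ([] : List X)) (u ⊗ₜ m)) = _
  rw [LinearMap.rTensor_tmul, TensorProduct.lid_tmul]
  rfl

lemma eq_of_DG_zero {z : CM X M} (hz : z ∈ DG X M 0) : z = tp (single [] 1) (eps z) := by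
  let f : CM X M →+ CM X M :=
    ⟨⟨fun z => tp (single [] 1) (eps z), by simp⟩, fun a b => by
      show tp _ (eps (a + b)) = _
      rw [map_add, tp_add_right]⟩
  have := dg_ext (f := AddMonoidHom.id _) (g := f) (fun u m hu => by
    show tp u m = tp (single [] 1) (eps (tp u m))
    have h0 : u = single [] (u []) := by
      ext l
      by_cases hl : l = []
      · subst hl; simp
      · rw [single_eq_of_ne hl]
        by_contra h
        have := mem_Sp.mp hu l h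
        rw [mem_Gr] at this
        exact hl (List.length_eq_zero_iff.mp this)
    rw [eps_tp, tp_smul_right, ← tp_smul_left, smul_single, smul_eq_mul, mul_one, ← h0]) hz
  exact this

/-- Integral chains with coefficients are chains. -/
lemma exists_tp_one (z : CM X ℤ) : ∃ u : Ch X, z = tp u 1 := by
  induction z using cm_ind with
  | h0 => exact ⟨0, by simp⟩
  | h1 u m =>
    refine ⟨m • u, ?_⟩
    rw [tp_smul_left, ← tp_smul_right]
    simp
  | h2 x y hx hy =>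
    obtain ⟨u, rfl⟩ := hx
    obtain ⟨v, rfl⟩ := hy
    exact ⟨u + v, (tp_add_left u v 1).symm⟩

lemma exists_tp_one_DG {q : ℕ} {z : CM X ℤ} (hz : z ∈ DG X ℤ q) :
    ∃ u ∈ Sp (Gr q : Set (List X)), z = tp u 1 := by
  obtain ⟨u, rfl⟩ := exists_tp_one z
  refine ⟨flt q u, flt_mem q u, ?_⟩
  rw [← fM_tp]
  exact (mem_DG.mp hz).symm

variable {M' : Type*} [AddCommGroup M']

lemma cm_tm {T : Ch X →ₗ[ℤ] Ch X} (f : M →+ M') (z : CM X M) :
    cm f (tm T z) = tm T (cm f z) := by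
  have := cm_ext (f := (cm f).comp (tm (M := M) T)) (g := (tm T).comp (cm f)) (by
    intro u m; simp) z
  simpa using this

lemma cm_bM (f : M →+ M') (z : CM X M) : cm f (bM z) = bM (cm f z) := cm_tm f z

lemma cm_DG (f : M →+ M') {q : ℕ} {z : CM X M} (hz : z ∈ DG X M q) : cm f z ∈ DG X M' q := by
  rw [mem_DG] at hz ⊢
  have : cm f (fM q z) = fM q (cm f z) := cm_tm f z
  rw [← this, hz]

variable {P : Type u} [Group P] [MulAction P X]

lemma cm_aM (f : M →+ M') (ρ : P →* AddMonoid.End M) (ρ' : P →* AddMonoid.End M') {g : P}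
    (h : ∀ m, f (ρ g m) = ρ' g (f m)) (z : CM X M) : cm f (aM ρ g z) = aM ρ' g (cm f z) := by
  have := cm_ext (f := (cm f).comp (aM (X := X) ρ g)) (g := (aM ρ' g).comp (cm f)) (by
    intro u m; simp [h]) z
  simpa using this

lemma cm_Rl (f : M →+ M') {ρ : P →* AddMonoid.End M} {ρ' : P →* AddMonoid.End M'}
    {S : Subgroup P} (h : ∀ g ∈ S, ∀ m, f (ρ g m) = ρ' g (f m)) {z : CM X M} (hz : z ∈ Rl ρ S) :
    cm f z ∈ Rl ρ' S := by
  have : Rl (X := X) ρ S ≤ (Rl ρ' S).comap (cm f) := by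
    apply Rl_le
    · intro g hg u
      show cm f (aM ρ g u - u) ∈ Rl ρ' S
      rw [map_sub, cm_aM f ρ ρ' (h g hg)]
      exact sub_mem_Rl hg _
    · intro z hz
      exact DG_le_Rl S (cm_DG f hz)
  exact this hz

lemma cm_Null (f : M →+ M') {ρ : P →* AddMonoid.End M} {ρ' : P →* AddMonoid.End M'}
    {S : Subgroup P} (h : ∀ g ∈ S, ∀ m, f (ρ g m) = ρ' g (f m)) {q : ℕ} {z : CM X M}
    (hz : Null ρ S q z) : Null ρ' S q (cm f z) := by
  obtain ⟨w, hw, e⟩ := hz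
  refine ⟨cm f w, cm_DG f hw, ?_⟩
  rw [← cm_bM, ← map_sub]
  exact cm_Rl f h e

lemma Rl_bot_le (ρ : P →* AddMonoid.End M) : Rl (X := X) ρ (⊥ : Subgroup P) ≤ DG X M 0 := by
  apply Rl_le
  · intro g hg u
    rw [Subgroup.mem_bot] at hg
    subst hg
    rw [aM_one, sub_self]
    exact AddSubgroup.zero_mem _
  · exact le_rfl

/-- The map `ℤ → M`, `k ↦ k m`. -/
def zm (m : M) : ℤ →+ M := ⟨⟨fun k => k • m, zero_smul _ m⟩, fun a b => add_smul a b m⟩

@[simp] lemma zm_apply (m : M) (k : ℤ) : zm m k = k • m := rfl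

end Aux

section Fund

variable {P X : Type} [Group P] [MulAction P X]

/-- An invariant class of degree zero. -/
lemma fund_zero (S : Set P) (x₀ : X) : Fund X S (⊥ : Subgroup P) 0 (single [x₀] 1) where
  mem := single_mem_Sp (by simp [Gr]) 1
  cyc := by
    rw [bM_tp]
    have : bd (single [x₀] (1 : ℤ)) = single [] 1 := by simp [dl_cons]
    rw [this]
    exact DG_le_Rl _ (tp_mem_DG (single_mem_Sp (by simp [Gr]) 1) 1)
  ori := by
    intro p hp
    have h1 : aM (1 : P →* AddMonoid.End ℤ) p (tp (single [x₀] 1) (1 : ℤ)) - tp (single [x₀] 1) 1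
        = bM (tm (cns x₀) (aM (1 : P →* AddMonoid.End ℤ) p (tp (single [x₀] 1) (1 : ℤ)))) := by
      rw [bM_cns, bM_aM]
      congr 1
      simp [dl_cons, act_single]
    rw [h1]
    apply Null.of_bM
    apply cns_mem_DG
    apply aM_mem
    exact tp_mem_DG (single_mem_Sp (by simp [Gr]) 1) 1
  gen := by
    intro M _ ρ _ z hz _
    refine ⟨eps (bM z), ?_⟩
    have h1 : z - tp (single [x₀] 1) (eps (bM z)) = bM (tm (cns x₀) z) := by
      rw [bM_cns]
      congr 1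
      have h2 := eq_of_DG_zero (bM_mem hz)
      nth_rewrite 2 [h2]
      rw [tm_tp, cns_single]
    rw [h1]
    exact Null.of_bM (cns_mem_DG x₀ hz)
  inj := by
    intro M _ ρ _ m hm
    obtain ⟨w, hw, e⟩ := hm
    have h0 := Rl_bot_le ρ e
    have h1 : tp (single [x₀] 1) m - bM w ∈ DG X M 1 :=
      AddSubgroup.sub_mem _ (tp_mem_DG (single_mem_Sp (by simp [Gr]) 1) m) (bM_mem hw)
    have h2 : tp (single [x₀] 1) m - bM w = 0 := by
      rw [← mem_DG.mp h1, fM_eq_zero (by omega) h0]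
    have h3 : bM (tp (single [x₀] 1) m) = 0 := by
      rw [sub_eq_zero.mp h2, bM_bM]
    have h4 := congrArg eps h3
    simpa [dl_cons] using h4
  van := by
    intro M _ ρ q hq z hz hb
    obtain ⟨q, rfl⟩ : ∃ q', q = q' + 1 := ⟨q - 1, by omega⟩
    have h0 := Rl_bot_le ρ hb
    have h1 : bM z = 0 := by
      rw [← mem_DG.mp (bM_mem hz), fM_eq_zero (by omega) h0]
    have h2 : z = bM (tm (cns x₀) z) := by
      rw [bM_cns, h1, map_zero, sub_zero]
    rw [h2]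
    exact Null.of_bM (cns_mem_DG x₀ hz)

/-- Integral relations give relations with coefficients. -/
lemma zm_rel {N : Subgroup P} {t : P} {M : Type} [AddCommGroup M] {ρ : P →* AddMonoid.End M}
    (hρ : ∀ b ∈ N, ρ b = 1) (hρt : ρ t = 1) {e e' : Ch X}
    (he : bM (tp e' (1 : ℤ)) - (aM (1 : P →* AddMonoid.End ℤ) t (tp e 1) - tp e 1) ∈
      Rl (X := X) (M := ℤ) (1 : P →* AddMonoid.End ℤ) N) (m : M) :
    bM (tp e' m) - (aM ρ t (tp e m) - tp e m) ∈ Rl ρ N := by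
  have h1 := cm_Rl (zm m) (ρ' := ρ) (fun g hg k => by rw [hρ g hg]; rfl) he
  rw [map_sub, map_sub, cm_aM (zm m) _ ρ (fun k => by rw [hρt]; rfl)] at h1
  simpa using h1

/-- The inductive step. -/
lemma fund_step (hfree : ∀ (g : P) (x : X), g • x = x → g = 1) {S : Set P} {N B : Subgroup P}
    {t : P} {h : ℕ} (hBS : (B : Set P) ⊆ S) (hz : ZExt N B t)
    (hS : ∀ p ∈ S, (∀ g ∈ N, p * g * p⁻¹ ∈ N) ∧ t⁻¹ * (p * t * p⁻¹) ∈ N) {e : Ch X}
    (he : Fund X S N h e) :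
    ∃ e' : Ch X, Fund X S B (h + 1) e' ∧
      bM (tp e' (1 : ℤ)) - (aM (1 : P →* AddMonoid.End ℤ) t (tp e 1) - tp e 1) ∈
        Rl (X := X) (M := ℤ) (1 : P →* AddMonoid.End ℤ) N := by
  obtain ⟨w, hw, hwe⟩ := he.ori t (hBS hz.mem)
  obtain ⟨e', he', rfl⟩ := exists_tp_one_DG hw
  have hrel : bM (tp e' (1 : ℤ)) - (aM (1 : P →* AddMonoid.End ℤ) t (tp e 1) - tp e 1) ∈
      Rl (X := X) (M := ℤ) (1 : P →* AddMonoid.End ℤ) N := by
    rw [← neg_sub]
    exact AddSubgroup.neg_mem _ hwe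
  have heD : tp e (1 : ℤ) ∈ DG X ℤ (h + 1) := tp_mem_DG he.mem 1
  refine ⟨e', ⟨he', ?_, ?_, ?_, ?_, ?_⟩, hrel⟩
  · have h1 := AddSubgroup.add_mem _ (Rl_mono hz.le hrel)
      (sub_mem_Rl (ρ := (1 : P →* AddMonoid.End ℤ)) hz.mem (tp e (1 : ℤ)))
    simpa using h1
  · intro p hp
    obtain ⟨hp1, hp2⟩ := hS p hp
    have h1 := delta_conj hz hp1 hp2 hrel
    have h2 := AddSubgroup.sub_mem _ h1 hrel
    apply delta_inj hz (he.van ℤ 1 (h + 2) le_rfl)
      (y := aM (1 : P →* AddMonoid.End ℤ) p (tp e 1) - tp e 1)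
      (AddSubgroup.sub_mem _ (aM_mem _ p (tp_mem_DG he' 1)) (tp_mem_DG he' 1)) _ (he.ori p hp)
    convert h2 using 1
    rw [map_sub, map_sub]
    abel
  · intro M _ ρ hρ z hzd hb
    obtain ⟨y, hy, e1, e2⟩ := delta_exists hz hfree hzd hb
    have hρN : ∀ b ∈ N, ρ b = 1 := fun b hb => hρ b (hz.le hb)
    obtain ⟨m, hm⟩ := he.gen M ρ hρN y hy e2
    refine ⟨m, ?_⟩
    have h1 := zm_rel hρN (hρ t hz.mem) hrel m
    have h2 := AddSubgroup.sub_mem _ e1 h1
    apply delta_inj hz (he.van M ρ (h + 2) le_rfl) (y := y - tp e m)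
      (AddSubgroup.sub_mem _ hzd (tp_mem_DG he' m)) _ hm
    convert h2 using 1
    rw [map_sub, map_sub]
    abel
  · intro M _ ρ hρ m hm
    have hρN : ∀ b ∈ N, ρ b = 1 := fun b hb => hρ b (hz.le hb)
    have h1 := zm_rel hρN (hρ t hz.mem) hrel m
    exact he.inj M ρ hρN m (delta_null hz hfree (tp_mem_DG he' m) (tp_mem_DG he.mem m) h1 hm)
  · intro M _ ρ q hq
    obtain ⟨q, rfl⟩ : ∃ q', q = q' + 1 := ⟨q - 1, by omega⟩
    exact wang_van hz hfree (he.van M ρ (q + 1) (by omega)) (he.van M ρ q (by omega))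

end Fund

/-- (QA6a.1) -/
theorem qa6a_fund : QA6a_fund := by
  intro P X _ _ _ hfree S h
  induction h with
  | zero =>
    intro B _ hB
    obtain rfl : B = ⊥ := hB
    obtain ⟨x₀⟩ := ‹Nonempty X›
    exact ⟨_, fund_zero S x₀⟩
  | succ h ih =>
    rintro B hBS ⟨N, t, hz, hN, hS⟩
    obtain ⟨e, he⟩ := ih N (fun g hg => hBS (hz.le hg)) hN
    obtain ⟨e', he', _⟩ := fund_step hfree hBS hz hS he
    exact ⟨e', he'⟩

end Vale.Agent.P188.H882

end

section

/-!
(QA6b): the top homology of `B = K.ℤ^l`.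
-/

universe u v w

namespace Vale.Agent.P188.H882

open Finsupp

section

variable {P : Type} [Group P] {X : Type} [MulAction P X] {M : Type} [AddCommGroup M]
  {ρ : P →* AddMonoid.End M}

lemma ZC.le {K : Subgroup P} : ∀ {l : ℕ} {B : Subgroup P}, ZC K l B → K ≤ B
  | 0, B, h => by
    have : B = K := h
    rw [this]
  | l + 1, B, h => by
    obtain ⟨N, t, hz, hN⟩ := h
    exact (ZC.le hN).trans hz.le

/-- Subgroups containing the commutators are normalized. -/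
lemma conj_mem_of_comm {K N : Subgroup P} (hab : ∀ a b : P, a * b * a⁻¹ * b⁻¹ ∈ K) (hKN : K ≤ N)
    (p : P) {g : P} (hg : g ∈ N) : p * g * p⁻¹ ∈ N := by
  have h1 := N.mul_mem (hKN (hab p g)) hg
  have e : p * g * p⁻¹ * g⁻¹ * g = p * g * p⁻¹ := by group
  rwa [e] at h1

lemma conj_t_mem {K N : Subgroup P} (hab : ∀ a b : P, a * b * a⁻¹ * b⁻¹ ∈ K) (hKN : K ≤ N)
    (p t : P) : t⁻¹ * (p * t * p⁻¹) ∈ N := by
  have h1 := hKN (hab t⁻¹ p)
  have e : t⁻¹ * p * (t⁻¹)⁻¹ * p⁻¹ = t⁻¹ * (p * t * p⁻¹) := by group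
  rwa [e] at h1

/-- The inductive statement. -/
structure OvS (X : Type) [MulAction P X] (ρ : P →* AddMonoid.End M) (K B : Subgroup P) (d l : ℕ)
    (Ov : CM X M → CM X M → Prop) : Prop where
  van : ∀ q ≥ d + l + 1, HVan X ρ B q
  sub : ∀ z y z' y', Ov z y → Ov z' y' → Ov (z - z') (y - y')
  act : ∀ (p : P) z y, Ov z y → Ov (aM ρ p z) (aM ρ p y)
  null : ∀ z y, Ov z y → (Null ρ B (d + l) z ↔ Null ρ K d y)
  down : ∀ z ∈ DG X M (d + l), bM z ∈ Rl ρ B → ∃ y ∈ DG X M d, bM y ∈ Rl ρ K ∧ Ov z y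
  up : ∀ y ∈ DG X M d, bM y ∈ Rl ρ K → (∀ p : P, Null ρ K d (aM ρ p y - y)) →
    ∃ z ∈ DG X M (d + l), bM z ∈ Rl ρ B ∧ Ov z y

theorem exists_ovs (hfree : ∀ (g : P) (x : X), g • x = x → g = 1) {K : Subgroup P}
    (hab : ∀ a b : P, a * b * a⁻¹ * b⁻¹ ∈ K) {d : ℕ} (hK : ∀ q ≥ d + 1, HVan X ρ K q) :
    ∀ (l : ℕ) (B : Subgroup P), ZC K l B → ∃ Ov, OvS X ρ K B d l Ov := by
  intro l
  induction l with
  | zero =>
    intro B hB
    have hB' : B = K := hB
    subst hB'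
    refine ⟨fun z y => z = y, ⟨fun q hq => hK q hq, ?_, ?_, ?_, ?_, ?_⟩⟩
    · rintro z y z' y' rfl rfl; rfl
    · rintro p z y rfl; rfl
    · rintro z y rfl; exact Iff.rfl
    · intro z hz hbz
      exact ⟨z, hz, hbz, rfl⟩
    · intro y hy hby _
      exact ⟨y, hy, hby, rfl⟩
  | succ l ih =>
    intro B hB
    obtain ⟨N, t, hz, hN⟩ := hB
    obtain ⟨Ov, hO⟩ := ih N hN
    have hKN : K ≤ N := hN.le
    have hconj : ∀ (p : P), ∀ g ∈ N, p * g * p⁻¹ ∈ N := fun p g hg => conj_mem_of_comm hab hKN p hg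
    refine ⟨fun z y => z ∈ DG X M (d + l + 1) ∧ ∃ x, x ∈ DG X M (d + l) ∧
      bM z - (aM ρ t x - x) ∈ Rl ρ N ∧ bM x ∈ Rl ρ N ∧ Ov x y, ⟨?_, ?_, ?_, ?_, ?_, ?_⟩⟩
    · intro q hq
      obtain ⟨q', rfl⟩ : ∃ q', q = q' + 1 := ⟨q - 1, by omega⟩
      exact wang_van hz hfree (hO.van _ (by omega)) (hO.van _ (by omega))
    · rintro z y z' y' ⟨h0, x, h1, h2, h3, h4⟩ ⟨h0', x', h1', h2', h3', h4'⟩
      refine ⟨AddSubgroup.sub_mem _ h0 h0', x - x', AddSubgroup.sub_mem _ h1 h1', ?_, ?_,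
        hO.sub _ _ _ _ h4 h4'⟩
      · have := AddSubgroup.sub_mem _ h2 h2'
        rw [map_sub, map_sub]
        convert this using 1
        abel
      · rw [map_sub]
        exact AddSubgroup.sub_mem _ h3 h3'
    · rintro p z y ⟨h0, x, h1, h2, h3, h4⟩
      refine ⟨aM_mem ρ p h0, aM ρ p x, aM_mem ρ p h1, ?_, ?_, hO.act p _ _ h4⟩
      · exact delta_conj hz (hconj p) (conj_t_mem hab hKN p t) h2
      · rw [bM_aM]
        exact aM_Rl (hconj p) h3
    · rintro z y ⟨h0, x, h1, h2, h3, h4⟩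
      constructor
      · intro h
        exact (hO.null _ _ h4).mp (delta_null hz hfree h0 h1 h2 h)
      · intro h
        exact delta_inj (q := d + l) hz (hO.van (d + l + 1) le_rfl) h0 h2 ((hO.null _ _ h4).mpr h)
    · intro z hz' hbz
      obtain ⟨x, hx, h1, h2⟩ := delta_exists hz hfree (q := d + l) hz' hbz
      obtain ⟨y, hy, hby, hxy⟩ := hO.down x hx h2
      exact ⟨y, hy, hby, hz', x, hx, h1, h2, hxy⟩
    · intro y hy hby hinv
      obtain ⟨x, hx, hbx, hxy⟩ := hO.up y hy hby hinv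
      have h1 : Ov (aM ρ t x - x) (aM ρ t y - y) := hO.sub _ _ _ _ (hO.act t _ _ hxy) hxy
      obtain ⟨w, hw, e⟩ := (hO.null _ _ h1).mpr (hinv t)
      have h2 : bM w - (aM ρ t x - x) ∈ Rl ρ N := by
        have := AddSubgroup.neg_mem _ e
        rwa [neg_sub] at this
      refine ⟨w, hw, ?_, hw, x, hx, h2, hbx, hxy⟩
      have h3 := AddSubgroup.add_mem _ (Rl_mono hz.le h2) (sub_mem_Rl (ρ := ρ) hz.mem x)
      simpa using h3

end

theorem qa6b_top : QA6b_top := by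
  intro P X _ _ hfree K hab l hZC d M _ ρ hK
  obtain ⟨Ov, hO⟩ := exists_ovs (ρ := ρ) hfree hab hK l ⊤ hZC
  refine ⟨hO.van, Ov, hO.sub, hO.null, ?_, hO.up⟩
  intro z hz hbz
  obtain ⟨y, hy, hby, hzy⟩ := hO.down z hz hbz
  refine ⟨y, hy, hby, ?_, hzy⟩
  intro p
  exact (hO.null _ _ (hO.sub _ _ _ _ (hO.act p _ _ hzy) hzy)).mp
    (Null.act_sub (Subgroup.mem_top p) z)

end Vale.Agent.P188.H882

end

section

/-!
The top cohomology with compact supports of a poly-`ℤ` group, and its coarse invariance.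
-/

universe u v w

namespace Vale.Agent.P188.H882

open Finsupp

section Hat

variable {H : Type} [Group H]

lemma finite_orbit {q : ℕ} {c : Ch H →ₗ[ℤ] ℤ} (hc : FS q c) (l : List H) :
    {g : H | c (act g⁻¹ (flt q (single l 1))) ≠ 0}.Finite := by
  by_cases hl : l.length = q
  · rcases l with _ | ⟨x, s⟩
    · apply Set.Finite.subset Set.finite_empty
      intro g hg
      exfalso
      apply hg
      rw [flt_single, if_pos hl, act_single, List.map_nil, hc.nil]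
    · let A : Set H := (fun p : H × H => p.1⁻¹ * p.2) '' ({y | y ∈ (x :: s)} ×ˢ {y | y ∈ (x :: s)})
      have hA : A.Finite := ((List.finite_toSet _).prod (List.finite_toSet _)).image _
      have hlA : (x :: s) ∈ Ctl A := by
        intro y hy z hz
        exact ⟨(y, z), ⟨hy, hz⟩, rfl⟩
      have hfin := hc.fin A hA
      apply Set.Finite.of_finite_image (f := fun g : H => (x :: s).map (fun y => g⁻¹ • y))
      · apply hfin.subset
        rintro _ ⟨g, hg, rfl⟩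
        refine ⟨⟨Ctl_map_mul g⁻¹ hlA, by simpa [Gr] using hl⟩, ?_⟩
        have hg' : c (act g⁻¹ (flt q (single (x :: s) 1))) ≠ 0 := hg
        rw [flt_single, if_pos hl, act_single] at hg'
        exact hg'
      · intro g _ g' _ h
        simp only [List.map_cons, List.cons.injEq, smul_eq_mul] at h
        have := mul_right_cancel h.1
        exact inv_injective this
  · apply Set.Finite.subset Set.finite_empty
    intro g hg
    exfalso
    apply hg
    rw [flt_single, if_neg hl, map_zero, map_zero]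

/-- The equivariant map to the group ring associated with a functional. -/
noncomputable def hat {q : ℕ} {c : Ch H →ₗ[ℤ] ℤ} (hc : FS q c) : Ch H →ₗ[ℤ] RG H :=
  (Finsupp.linearCombination ℤ (fun l => Finsupp.ofSupportFinite
    (fun g : H => c (act g⁻¹ (flt q (single l 1)))) (finite_orbit hc l)) :
      Ch H →ₗ[ℤ] (H →₀ ℤ))

/-- Coefficients of elements of the group ring. -/
noncomputable def cf (g : H) : RG H →+ ℤ := (Finsupp.applyAddHom g : (H →₀ ℤ) →+ ℤ)

omit [Group H] in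
lemma rg_ext' {x y : RG H} (h : ∀ g, cf g x = cf g y) : x = y :=
  Finsupp.ext (f := (x : H →₀ ℤ)) (g := (y : H →₀ ℤ)) h

lemma cf_hat {q : ℕ} {c : Ch H →ₗ[ℤ] ℤ} (hc : FS q c) (g : H) (u : Ch H) :
    cf g (hat hc u) = c (act g⁻¹ (flt q u)) := by
  have : (Finsupp.lapply g ∘ₗ (Finsupp.linearCombination ℤ (fun l => Finsupp.ofSupportFinite
      (fun g : H => c (act g⁻¹ (flt q (single l 1)))) (finite_orbit hc l)) :
      Ch H →ₗ[ℤ] (H →₀ ℤ)) : Ch H →ₗ[ℤ] ℤ) = c ∘ₗ act g⁻¹ ∘ₗ flt q := by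
    apply lin_ext
    intro l
    rw [LinearMap.comp_apply, Finsupp.linearCombination_single, one_smul]
    rfl
  exact LinearMap.congr_fun this u

lemma cf_smul (g h : H) (x : RG H) : cf g (h • x) = cf (h⁻¹ * g) x := by
  have := rg_ext (f := (cf g).comp (DistribSMul.toAddMonoidHom (RG H) h)) (g := cf (h⁻¹ * g)) (by
    intro n
    simp only [AddMonoidHom.comp_apply, DistribSMul.toAddMonoidHom_apply]
    rw [smul_rgs]
    show (single (h * n) (1 : ℤ) : H →₀ ℤ) g = (single n (1 : ℤ) : H →₀ ℤ) (h⁻¹ * g)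
    by_cases e : g = h * n
    · subst e
      rw [inv_mul_cancel_left, Finsupp.single_eq_same, Finsupp.single_eq_same]
    · rw [Finsupp.single_eq_of_ne e, Finsupp.single_eq_of_ne]
      intro e'
      apply e
      rw [← e', mul_inv_cancel_left]) x
  simpa using this

lemma hat_eqv {q : ℕ} {c : Ch H →ₗ[ℤ] ℤ} (hc : FS q c) : Eqv H (hat hc) := by
  intro h u
  apply rg_ext'
  intro g
  rw [cf_smul, cf_hat, cf_hat, flt_act, ← act_mul]
  congr 2
  rw [mul_inv_rev, inv_inv]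

lemma hat_coc {q : ℕ} {c : Ch H →ₗ[ℤ] ℤ} (hc : FS q c) (hcc : Coc q c) : Coc q (hat hc) := by
  intro u hu
  apply rg_ext'
  intro g
  rw [cf_hat, map_zero, flt_eq (bd_mem_Gr hu), ← bd_act]
  exact hcc _ (act_mem_Gr _ hu)

/-- The coefficient at `1` of an equivariant map is a functional of finite support. -/
lemma fs_of_eqv {b : Ch H →ₗ[ℤ] RG H} (hb : Eqv H b) (q : ℕ) (hb0 : b (single [] 1) = 0) :
    ∃ β : Ch H →ₗ[ℤ] ℤ, FS q β ∧ ∀ g u, β (act g⁻¹ u) = cf g (b u) := by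
  let β : Ch H →ₗ[ℤ] ℤ := ((cf 1).comp b.toAddMonoidHom).toIntLinearMap
  have hβ : ∀ u, β u = cf 1 (b u) := fun u => rfl
  have hβ' : ∀ g u, β (act g⁻¹ u) = cf g (b u) := by
    intro g u
    rw [hβ, hb, cf_smul, inv_inv, mul_one]
  refine ⟨β, ⟨by rw [hβ, hb0, map_zero], fun A hA => ?_⟩, hβ'⟩
  obtain ⟨L, hL, hLA, hrep⟩ := exists_orbit_reps hA q
  have hsupp : ∀ l : List H, {g : H | cf g (b (single l 1)) ≠ 0}.Finite := by
    intro l
    exact Finsupp.hasFiniteSupport (b (single l 1) : H →₀ ℤ)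
  apply (hL.biUnion (fun l _ => (hsupp l).image (fun g => l.map (fun x => g⁻¹ • x)))).subset
  rintro l ⟨hl, hne⟩
  obtain ⟨g, l₀, hl₀, rfl⟩ := hrep l hl
  rw [Set.mem_iUnion₂]
  refine ⟨l₀, hl₀, g⁻¹, ?_, by simp⟩
  show cf g⁻¹ (b (single l₀ 1)) ≠ 0
  rw [← hβ', inv_inv, act_single]
  exact hne

end Hat

/-- The top cohomology with compact supports is infinite cyclic. -/
def TopZ (H : Type) [Group H] (n : ℕ) : Prop :=
  ∃ κ : Ch H →ₗ[ℤ] ℤ, FS (n + 1) κ ∧ Coc (n + 1) κ ∧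
    (∀ c : Ch H →ₗ[ℤ] ℤ, FS (n + 1) c → Coc (n + 1) c → ∃ k : ℤ, ∃ β : Ch H →ₗ[ℤ] ℤ, FS n β ∧
      ∀ u ∈ Sp (Gr (n + 1) : Set (List H)), c u = k * κ u + β (bd u)) ∧
    (∀ (k : ℤ) (β : Ch H →ₗ[ℤ] ℤ), FS n β →
      (∀ u ∈ Sp (Gr (n + 1) : Set (List H)), k * κ u = β (bd u)) → k = 0)

lemma topZ_of_dual {G : Type} [Group G] {n : ℕ} (h : Dual G n) : TopZ G n := by
  obtain ⟨ω, c₀, hD⟩ := h G (fun g x h => mul_eq_right.mp h)
  obtain ⟨γ', hγ', hγc', hγ1'⟩ := hD.surj (RG G) (rgs 1 1)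
  -- restrict to lists of length `n + 1`
  obtain ⟨hγ, hγr⟩ := exists_restrict (c := γ') (q := n + 1) (fun g u _ => hγ' g u)
  set γ := γ' ∘ₗ flt (n + 1) with hγdef
  have hγ0 : γ (single [] 1) = 0 := by
    rw [hγdef, LinearMap.comp_apply, flt_single, if_neg (by simp), map_zero]
  have hγc : Coc (n + 1) γ := by
    intro u hu
    rw [hγr _ (bd_mem_Gr hu), hγc' u hu]
  have hγ1 : γ c₀ - rgs 1 1 ∈ IM ω (RG G) := by
    rw [hγr _ hD.mem]; exact hγ1'
  have haug : aug ω (γ c₀) = 1 := by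
    have := aug_IM hγ1
    rw [map_sub, sub_eq_zero] at this
    rw [this, aug, rgl_rgs, map_one, Units.val_one, one_smul]
  obtain ⟨κ, hκ, hκγ⟩ := fs_of_eqv hγ (n + 1) hγ0
  have hκc : Coc (n + 1) κ := by
    intro u hu
    have := hκγ 1 (bd u)
    rw [hγc u hu, map_zero, inv_one, act_one] at this
    exact this
  refine ⟨κ, hκ, hκc, ?_, ?_⟩
  · intro c hc hcc
    set k := aug ω (hat hc c₀) with hk
    -- the difference
    have hmem : (hat hc - k • γ) c₀ ∈ IM ω (RG G) := by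
      have h1 := evm_sub_mem (ω := ω) (M := RG G) (rgs (1 : G) 1) ((hat hc - k • γ) c₀)
      have h2 : aug ω ((hat hc - k • γ) c₀) = 0 := by
        have e : (hat hc - k • γ) c₀ = hat hc c₀ - k • γ c₀ := rfl
        rw [e, map_sub, map_zsmul, haug, smul_eq_mul, mul_one, ← hk, sub_self]
      have h3 : ∀ x : RG G, evm (rgs (1 : G) 1) x = x := by
        intro x
        have := rg_ext (f := evm (rgs (1 : G) 1)) (g := AddMonoidHom.id (RG G)) (by
          intro g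
          rw [evm, rgl_rgs, one_smul, smul_rgs, mul_one]
          rfl) x
        exact this
      rw [h2, h3, zero_smul, sub_zero] at h1
      exact h1
    have hke : Eqv G (k • γ) := by
      intro g u
      rw [LinearMap.smul_apply, LinearMap.smul_apply, hγ, smul_comm]
    obtain ⟨b, hb, hb0, hb1⟩ := hD.inj (RG G) (hat hc - k • γ) ((hat_eqv hc).sub hke)
      ((hat_coc hc hcc).sub (by
        intro u hu
        rw [LinearMap.smul_apply, hγc u hu, smul_zero])) hmem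
    obtain ⟨β, hβ, hβb⟩ := fs_of_eqv hb n hb0
    refine ⟨k, β, hβ, ?_⟩
    intro u hu
    have e1 := hb1 u hu
    have e2 := congrArg (cf 1) e1
    have e3 : (hat hc - k • γ) u = hat hc u - k • γ u := rfl
    rw [e3, map_sub, map_zsmul, cf_hat, ← hβb, ← hκγ, inv_one, act_one, act_one, act_one,
      flt_eq hu, smul_eq_mul] at e2
    rw [e2]; ring
  · intro k β hβ hkβ
    have h1 := hD.coc (RG G) (hat hβ) (hat_eqv hβ) (by
      apply rg_ext'
      intro g
      rw [cf_hat, map_zero, flt_single]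
      split_ifs with h
      · rw [act_single, List.map_nil, hβ.nil]
      · rw [map_zero, map_zero])
    have h2 : hat hβ (bd c₀) = k • γ c₀ := by
      apply rg_ext'
      intro g
      rw [cf_hat, map_zsmul, ← hκγ, flt_eq (bd_mem_Gr hD.mem), ← bd_act, smul_eq_mul]
      exact (hkβ _ (act_mem_Gr _ hD.mem)).symm
    have h3 := aug_IM h1
    rw [h2, map_zsmul, haug, smul_eq_mul, mul_one] at h3
    exact h3

end Vale.Agent.P188.H882

end

section

/-!
The index formula for fundamental classes (QA6a_index).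
-/

universe u v w

namespace Vale.Agent.P188.H882

open Finsupp

section Group

variable {P : Type u} [Group P] {N B L : Subgroup P} {t : P}

/-- The exponent of `t`, as a homomorphism. -/
lemma exists_exp (h : ZExt N B t) : ∃ χ : B →* Multiplicative ℤ,
    χ ⟨t, h.mem⟩ = Multiplicative.ofAdd 1 ∧ ∀ b : B, χ b = 1 ↔ (b : P) ∈ N := by
  classical
  have hex : ∀ b : B, ∃ i : ℤ, (b : P) * t ^ (-i) ∈ N := fun b => by
    obtain ⟨i, hi⟩ := h.gen b b.2
    exact ⟨-i, by simpa using hi⟩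
  choose e he using hex
  have uniq : ∀ (b : B) (j : ℤ), (b : P) * t ^ (-j) ∈ N → e b = j := by
    intro b j hj
    have := N.mul_mem (N.inv_mem (he b)) hj
    have e1 : ((b : P) * t ^ (-(e b)))⁻¹ * (b * t ^ (-j)) = t ^ (e b + -j) := by
      rw [zpow_add, zpow_neg]; group
    rw [e1] at this
    have := h.free _ this
    omega
  refine ⟨⟨⟨fun b => Multiplicative.ofAdd (e b), ?_⟩, ?_⟩, ?_, ?_⟩
  · rw [← ofAdd_zero]
    congr 1
    apply uniq
    simp
  · intro a b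
    show Multiplicative.ofAdd (e (a * b)) = Multiplicative.ofAdd (e a) * Multiplicative.ofAdd (e b)
    rw [← ofAdd_add]
    congr 1
    apply uniq
    have h1 := h.zpow_conj (e a) _ (he b)
    have h2 := N.mul_mem (he a) h1
    have e1 : (a : P) * t ^ (-(e a)) * (t ^ (e a) * (b * t ^ (-(e b))) * (t ^ (e a))⁻¹) =
        ((a * b : B) : P) * t ^ (-(e a + e b)) := by
      rw [Subgroup.coe_mul, neg_add_rev, zpow_add]
      simp only [zpow_neg]
      group
    rwa [e1] at h2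
  · show Multiplicative.ofAdd (e _) = _
    congr 1
    apply uniq
    simp
  · intro b
    show Multiplicative.ofAdd (e b) = 1 ↔ _
    rw [← ofAdd_zero, Multiplicative.ofAdd.injective.eq_iff]
    constructor
    · intro h0
      have := he b
      rw [h0] at this
      simpa using this
    · intro hb
      apply uniq
      simpa using hb

/-- The induced extension on a subgroup. -/
lemma exists_sub_ext (h : ZExt N B t) (hL : L ≤ B) (hLN : ¬ L ≤ N) :
    ∃ (d : ℕ) (s : P), d ≠ 0 ∧ s ∈ L ∧ s * (t ^ d)⁻¹ ∈ N ∧ ZExt (L ⊓ N) L s := by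
  obtain ⟨χ, hχt, hχ⟩ := exists_exp h
  let χ' : B → ℤ := fun b => Multiplicative.toAdd (χ b)
  have hmul : ∀ a b : B, χ' (a * b) = χ' a + χ' b := fun a b => by simp [χ']
  have hinv : ∀ a : B, χ' a⁻¹ = - χ' a := fun a => by simp [χ']
  have hzpow : ∀ (a : B) (i : ℤ), χ' (a ^ i) = i * χ' a := fun a i => by simp [χ']
  have hpow : ∀ (a : B) (i : ℕ), χ' (a ^ i) = i * χ' a := fun a i => by simp [χ']
  have ht : χ' ⟨t, h.mem⟩ = 1 := by simp only [χ', hχt]; rfl
  have hmem : ∀ b : B, χ' b = 0 ↔ (b : P) ∈ N := fun b => by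
    rw [← hχ]
    constructor
    · intro h0; exact Multiplicative.toAdd.injective h0
    · intro h0; simp [χ', h0]
  let D : AddSubgroup ℤ :=
    { carrier := {i | ∃ l : B, (l : P) ∈ L ∧ χ' l = i}
      add_mem' := by
        rintro _ _ ⟨a, ha, rfl⟩ ⟨b, hb, rfl⟩
        exact ⟨a * b, L.mul_mem ha hb, hmul a b⟩
      zero_mem' := ⟨1, L.one_mem, by simp [χ']⟩
      neg_mem' := by
        rintro _ ⟨a, ha, rfl⟩
        exact ⟨a⁻¹, L.inv_mem ha, hinv a⟩ }
  obtain ⟨d₀, hd₀⟩ := Int.subgroup_cyclic D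
  have hd0 : d₀ ≠ 0 := by
    rintro rfl
    apply hLN
    intro l hl
    have : χ' ⟨l, hL hl⟩ ∈ D := ⟨_, hl, rfl⟩
    rw [hd₀, ← AddSubgroup.zmultiples_eq_closure, AddSubgroup.zmultiples_zero_eq_bot,
      AddSubgroup.mem_bot] at this
    exact (hmem _).mp this
  have hdD : (d₀.natAbs : ℤ) ∈ D := by
    have hd : d₀ ∈ D := by
      rw [hd₀]; exact AddSubgroup.subset_closure rfl
    rcases Int.natAbs_eq d₀ with h1 | h1
    · rw [← h1]; exact hd
    · have := D.neg_mem hd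
      have e : (d₀.natAbs : ℤ) = -d₀ := by omega
      rw [e]; exact this
  obtain ⟨s, hsL, hs⟩ := hdD
  refine ⟨d₀.natAbs, s, by omega, hsL, ?_, inf_le_left, hsL, ?_, ?_, ?_, ?_⟩
  · have : χ' (s * (⟨t, h.mem⟩ ^ d₀.natAbs)⁻¹) = 0 := by
      rw [hmul, hinv, hpow, ht, hs]; ring
    exact (hmem _).mp this
  · intro g hg
    refine ⟨L.mul_mem (L.mul_mem hsL hg.1) (L.inv_mem hsL), ?_⟩
    have hgB : g ∈ B := hL hg.1
    have h0 : χ' ⟨g, hgB⟩ = 0 := (hmem _).mpr hg.2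
    have : χ' (s * ⟨g, hgB⟩ * s⁻¹) = 0 := by rw [hmul, hmul, hinv, h0]; ring
    exact (hmem _).mp this
  · intro g hg
    refine ⟨L.mul_mem (L.mul_mem (L.inv_mem hsL) hg.1) hsL, ?_⟩
    have hgB : g ∈ B := hL hg.1
    have h0 : χ' ⟨g, hgB⟩ = 0 := (hmem _).mpr hg.2
    have : χ' (s⁻¹ * ⟨g, hgB⟩ * s) = 0 := by rw [hmul, hmul, hinv, h0]; ring
    exact (hmem _).mp this
  · intro l hl
    have hlD : χ' ⟨l, hL hl⟩ ∈ D := ⟨_, hl, rfl⟩
    rw [hd₀, ← AddSubgroup.zmultiples_eq_closure, AddSubgroup.mem_zmultiples_iff] at hlD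
    obtain ⟨k, hk⟩ := hlD
    rw [smul_eq_mul] at hk
    obtain ⟨k', hk'⟩ : ∃ k' : ℤ, χ' ⟨l, hL hl⟩ + k' * (d₀.natAbs : ℤ) = 0 := by
      rcases Int.natAbs_eq d₀ with h1 | h1
      · exact ⟨-k, by rw [← hk, ← h1]; ring⟩
      · refine ⟨k, ?_⟩
        have e : (d₀.natAbs : ℤ) = -d₀ := by omega
        rw [e, ← hk]; ring
    refine ⟨k', L.mul_mem hl (L.zpow_mem hsL k'), ?_⟩
    have : χ' (⟨l, hL hl⟩ * s ^ k') = 0 := by rw [hmul, hzpow, hs, hk']
    exact (hmem _).mp this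
  · intro i hi
    have : χ' (s ^ i) = 0 := (hmem _).mpr (by simpa using hi.2)
    rw [hzpow, hs] at this
    rcases mul_eq_zero.mp this with h1 | h1
    · exact h1
    · exfalso; omega

/-- Elements acting trivially on `B / N` act trivially on its subgroups. -/
lemma comm_mem (h : ZExt N B t) {p s : P} (hp : ∀ g ∈ N, p * g * p⁻¹ ∈ N)
    (hpt : t⁻¹ * (p * t * p⁻¹) ∈ N) {d : ℕ} (hs : s * (t ^ d)⁻¹ ∈ N) :
    s⁻¹ * (p * s * p⁻¹) ∈ N := by
  -- `(p t p⁻¹)^d ∈ t^d N`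
  have key : ∀ k : ℕ, (t ^ k)⁻¹ * (p * t ^ k * p⁻¹) ∈ N := by
    intro k
    induction k with
    | zero => simp
    | succ k ih =>
      have h1 := h.conj' _ ih
      have h2 := N.mul_mem h1 hpt
      have e : t⁻¹ * ((t ^ k)⁻¹ * (p * t ^ k * p⁻¹)) * t * (t⁻¹ * (p * t * p⁻¹)) =
          (t ^ (k + 1))⁻¹ * (p * t ^ (k + 1) * p⁻¹) := by
        rw [pow_succ]; group
      rwa [e] at h2
  have h1 := hp _ hs
  have h2 := N.mul_mem (N.mul_mem (N.inv_mem hs) h1)
    (by simpa using h.zpow_conj d _ (key d) :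
      t ^ d * ((t ^ d)⁻¹ * (p * t ^ d * p⁻¹)) * (t ^ d)⁻¹ ∈ N)
  have h3 := (by simpa using h.zpow_conj (-(d : ℤ)) _ h2 :
    (t ^ d)⁻¹ * ((s * (t ^ d)⁻¹)⁻¹ * (p * (s * (t ^ d)⁻¹) * p⁻¹) *
      (t ^ d * ((t ^ d)⁻¹ * (p * t ^ d * p⁻¹)) * (t ^ d)⁻¹)) * t ^ d ∈ N)
  have e : (t ^ d)⁻¹ * ((s * (t ^ d)⁻¹)⁻¹ * (p * (s * (t ^ d)⁻¹) * p⁻¹) *
      (t ^ d * ((t ^ d)⁻¹ * (p * t ^ d * p⁻¹)) * (t ^ d)⁻¹)) * t ^ d =
      s⁻¹ * (p * s * p⁻¹) := by group
  rwa [e] at h3

end Group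

section Index

variable {P X : Type} [Group P] [MulAction P X]

lemma tp_int (u : Ch X) (k : ℤ) : tp u k = k • tp u (1 : ℤ) := by
  rw [← tp_smul_right]; simp

lemma Fund.tp_mem {S : Set P} {B : Subgroup P} {h : ℕ} {e : Ch X} (he : Fund X S B h e) (k : ℤ) :
    tp e k ∈ DG X ℤ (h + 1) := tp_mem_DG he.mem k

lemma Fund.cyc' {S : Set P} {B : Subgroup P} {h : ℕ} {e : Ch X} (he : Fund X S B h e) (k : ℤ) :
    bM (tp e k) ∈ Rl (X := X) (M := ℤ) (1 : P →* AddMonoid.End ℤ) B := by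
  rw [tp_int, map_zsmul]
  exact AddSubgroup.zsmul_mem _ he.cyc k

/-- Fundamental classes are unique up to sign. -/
lemma fund_unique {S S' : Set P} {B : Subgroup P} {h : ℕ} {e e' : Ch X} (he : Fund X S B h e)
    (he' : Fund X S' B h e') : ∃ ε : ℤ, ε.natAbs = 1 ∧
      Null (X := X) (M := ℤ) (1 : P →* AddMonoid.End ℤ) B (h + 1) (tp e (1 : ℤ) - tp e' ε) := by
  obtain ⟨m, hm⟩ := he'.gen ℤ 1 (fun _ _ => rfl) _ (he.tp_mem 1) (he.cyc' 1)
  obtain ⟨m', hm'⟩ := he.gen ℤ 1 (fun _ _ => rfl) _ (he'.tp_mem 1) (he'.cyc' 1)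
  refine ⟨m, ?_, hm⟩
  have h1 := hm.add (hm'.zsmul m)
  have h2 : tp e (1 : ℤ) - tp e' m + m • (tp e' (1 : ℤ) - tp e m') = tp e (1 - m * m') := by
    rw [tp_sub_right, tp_int e (m * m'), tp_int e' m, tp_int e m', smul_sub, smul_smul]
    abel
  rw [h2] at h1
  have h3 := he.inj ℤ 1 (fun _ _ => rfl) _ h1
  have h4 : m * m' = 1 := by linarith
  exact Int.isUnit_iff_natAbs_eq.mp (IsUnit.of_mul_eq_one _ h4)

/-- The length is unique. -/
lemma fund_length {S S' : Set P} {B : Subgroup P} {h h' : ℕ} {e e' : Ch X} (he : Fund X S B h e)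
    (he' : Fund X S' B h' e') : h = h' := by
  have key : ∀ {S S' : Set P} {h h' : ℕ} {e e' : Ch X}, Fund X S B h e → Fund X S' B h' e' →
      ¬ h < h' := by
    intro S S' h h' e e' he he' hlt
    have h1 := he.van ℤ 1 (h' + 1) (by omega) _ (he'.tp_mem 1) (he'.cyc' 1)
    have h2 := he'.inj ℤ 1 (fun _ _ => rfl) _ h1
    exact one_ne_zero h2
  have h1 := key he he'
  have h2 := key he' he
  omega

lemma aM_pow_sub {t : P} (y : CM X ℤ) (d : ℕ) :
    aM (1 : P →* AddMonoid.End ℤ) (t ^ d) y - y =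
      aM (1 : P →* AddMonoid.End ℤ) t (∑ i ∈ Finset.range d, aM (1 : P →* AddMonoid.End ℤ) (t ^ i) y)
        - ∑ i ∈ Finset.range d, aM (1 : P →* AddMonoid.End ℤ) (t ^ i) y := by
  induction d with
  | zero => simp
  | succ d ih =>
    rw [Finset.sum_range_succ, map_add, ← aM_mul, ← pow_succ']
    have e : ∀ a b c d f : CM X ℤ, a + b - (c + f) = (a - c) + b - f := by intros; abel
    rw [e _ _ _ y _, ← ih]
    abel

/-- The main induction. -/
theorem index_aux [Nonempty X] (hfree : ∀ (g : P) (x : X), g • x = x → g = 1) (h : ℕ) :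
    ∀ (S T : Set P) (L B : Subgroup P), CS S h B → (B : Set P) ⊆ S → L ≤ B → (L : Set P) ⊆ T →
      T ⊆ S → (∀ p ∈ T, ∀ g ∈ L, p * g * p⁻¹ ∈ L) →
      ∃ j ≤ h, CS T j L ∧ (j = h → ∃ e e' : Ch X, Fund X T L h e ∧ Fund X S B h e' ∧
        ∃ k : ℤ, k ≠ 0 ∧ Null (X := X) (M := ℤ) (1 : P →* AddMonoid.End ℤ) B (h + 1)
          (tp e (1 : ℤ) - tp e' k) ∧ (k.natAbs = 1 → L = B)) := by
  induction h with
  | zero =>
    intro S T L B hB _ hL _ _ _
    obtain rfl : B = ⊥ := hB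
    obtain rfl : L = ⊥ := le_bot_iff.mp hL
    obtain ⟨x₀⟩ := ‹Nonempty X›
    refine ⟨0, le_rfl, rfl, fun _ => ⟨_, _, fund_zero T x₀, fund_zero S x₀, 1, one_ne_zero, ?_,
      fun _ => rfl⟩⟩
    rw [sub_self]
    exact Null.zero
  | succ h ih =>
    rintro S T L B ⟨N, t, hz, hN, hS⟩ hBS hL hLT hTS hTL
    have hTL' : ∀ p ∈ T, ∀ g ∈ L ⊓ N, p * g * p⁻¹ ∈ L ⊓ N := fun p hp g hg =>
      ⟨hTL p hp g hg.1, (hS p (hTS hp)).1 g hg.2⟩
    obtain ⟨j, hj, hCS, hind⟩ := ih S T (L ⊓ N) N hN (fun g hg => hBS (hz.le hg)) inf_le_right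
      (fun g hg => hLT hg.1) hTS hTL'
    by_cases hLN : L ≤ N
    · rw [inf_eq_left.mpr hLN] at hCS
      exact ⟨j, by omega, hCS, fun hj' => by omega⟩
    obtain ⟨d, s, hd, hsL, hst, hext⟩ := exists_sub_ext hz hL hLN
    have hST : ∀ p ∈ T, (∀ g ∈ L ⊓ N, p * g * p⁻¹ ∈ L ⊓ N) ∧ s⁻¹ * (p * s * p⁻¹) ∈ L ⊓ N := by
      intro p hp
      obtain ⟨hp1, hp2⟩ := hS p (hTS hp)
      exact ⟨hTL' p hp, L.mul_mem (L.inv_mem hsL) (hTL p hp s hsL), comm_mem hz hp1 hp2 hst⟩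
    refine ⟨j + 1, by omega, ⟨L ⊓ N, s, hext, hCS, hST⟩, fun hj' => ?_⟩
    obtain ⟨e₀, e₀', he₀, he₀', k₀, hk₀, hnull, hk1⟩ := hind (by omega)
    obtain ⟨e, he, hrel⟩ := fund_step hfree hLT hext hST he₀
    obtain ⟨e', he', hrel'⟩ := fund_step hfree hBS hz hS he₀'
    refine ⟨e, e', he, he', d * k₀, mul_ne_zero (by exact_mod_cast hd) hk₀, ?_, ?_⟩
    · -- the connecting class of `e` in `B`
      set ρ : P →* AddMonoid.End ℤ := 1 with hρ
      set y : CM X ℤ := tp e₀ 1 with hy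
      set Y : CM X ℤ := ∑ i ∈ Finset.range d, aM ρ (t ^ i) y with hY
      have htB : ∀ i : ℕ, t ^ i ∈ B := fun i => B.pow_mem hz.mem i
      have htN : ∀ i : ℕ, ∀ g ∈ N, t ^ i * g * (t ^ i)⁻¹ ∈ N := fun i g hg => by
        simpa using hz.zpow_conj i g hg
      have h1 : aM ρ s y - y - (aM ρ t Y - Y) ∈ Rl (X := X) ρ N := by
        have e1 : aM ρ s y = aM ρ (s * (t ^ d)⁻¹) (aM ρ (t ^ d) y) := by
          rw [← aM_mul]; congr 2; group
        have h2 := sub_mem_Rl (ρ := ρ) hst (aM ρ (t ^ d) y)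
        rw [← e1] at h2
        have h3 := aM_pow_sub (t := t) y d
        have e2 : aM ρ s y - y - (aM ρ t Y - Y) = aM ρ s y - aM ρ (t ^ d) y := by
          rw [hY, ← h3]; abel
        rw [e2]; exact h2
      have h2 : bM (tp e (1 : ℤ)) - (aM ρ t Y - Y) ∈ Rl (X := X) ρ N := by
        have := AddSubgroup.add_mem _ (Rl_mono inf_le_right hrel) h1
        convert this using 1
        abel
      have h3 : bM (tp e' (d * k₀ : ℤ)) - (aM ρ t (tp e₀' (d * k₀ : ℤ)) - tp e₀' (d * k₀ : ℤ)) ∈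
          Rl (X := X) ρ N := zm_rel (fun _ _ => rfl) rfl hrel' _
      have h4 : Null ρ N (h + 1) (Y - tp e₀' (d * k₀ : ℤ)) := by
        have e1 : Y - tp e₀' (d * k₀ : ℤ) = ∑ i ∈ Finset.range d,
            (aM ρ (t ^ i) (y - tp e₀' k₀) + k₀ • (aM ρ (t ^ i) (tp e₀' (1 : ℤ)) - tp e₀' 1)) := by
          have e2 : ∀ i ∈ Finset.range d, (aM ρ (t ^ i) (y - tp e₀' k₀) +
              k₀ • (aM ρ (t ^ i) (tp e₀' (1 : ℤ)) - tp e₀' 1)) =
              aM ρ (t ^ i) y - k₀ • tp e₀' (1 : ℤ) := by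
            intro i _
            rw [map_sub, tp_int e₀' k₀, map_zsmul, smul_sub]
            abel
          rw [Finset.sum_congr rfl e2, Finset.sum_sub_distrib, Finset.sum_const,
            Finset.card_range, tp_int e₀' (d * k₀), mul_smul, natCast_zsmul]
        rw [e1]
        apply Null.sum
        intro i _
        exact (hnull.act (htN i)).add ((he₀'.ori (t ^ i) (hBS (htB i))).zsmul k₀)
      apply delta_inj hz (he₀'.van ℤ ρ (h + 2) le_rfl) (y := Y - tp e₀' (d * k₀ : ℤ))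
        (AddSubgroup.sub_mem _ (he.tp_mem 1) (he'.tp_mem _)) _ h4
      have h5 := AddSubgroup.sub_mem _ h2 h3
      convert h5 using 1
      rw [map_sub, map_sub]
      abel
    · intro hk
      rw [Int.natAbs_mul, mul_eq_one, Int.natAbs_natCast] at hk
      obtain ⟨hd1, hk1'⟩ := hk
      have hLN' := hk1 hk1'
      have hNL : N ≤ L := inf_eq_right.mp hLN'
      subst hd1
      have htL : t ∈ L := by
        have h1 := L.mul_mem (L.inv_mem (hNL hst)) hsL
        simpa using h1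
      apply le_antisymm hL
      intro b hb
      obtain ⟨i, hi⟩ := hz.gen b hb
      have := L.mul_mem (hNL hi) (L.inv_mem (L.zpow_mem htL i))
      simpa using this

end Index

/-- (QA6a.2) -/
theorem qa6a_index : QA6a_index := by
  intro P X _ _ _ hfree h h' L B hL hB hLc
  obtain ⟨j, hj, hCS, hind⟩ := index_aux (X := X) hfree h (B : Set P) (L : Set P) L B hB le_rfl hL
    le_rfl (fun g hg => hL hg) (fun p hp g hg => L.mul_mem (L.mul_mem hp hg) (L.inv_mem hp))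
  obtain ⟨e₁, he₁⟩ := qa6a_fund P X hfree (L : Set P) j L le_rfl hCS
  obtain ⟨e₂, he₂⟩ := qa6a_fund P X hfree (L : Set P) h' L le_rfl hLc
  obtain rfl := fund_length he₁ he₂
  refine ⟨hj, ?_⟩
  rintro rfl e e' he he'
  obtain ⟨f, f', hf, hf', k, hk, hnull, hk1⟩ := hind rfl
  obtain ⟨ε, hε, h1⟩ := fund_unique he hf
  obtain ⟨ε', hε', h2⟩ := fund_unique hf' he'
  refine ⟨ε * k * ε', ?_, ?_, ?_⟩
  · have h3 : ε ≠ 0 := by rintro rfl; simp at hε
    have h4 : ε' ≠ 0 := by rintro rfl; simp at hε'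
    exact mul_ne_zero (mul_ne_zero h3 hk) h4
  · have h3 := ((h1.mono hL).add (hnull.zsmul ε)).add (h2.zsmul (ε * k))
    convert h3 using 1
    rw [tp_int f ε, tp_int f' k, tp_int e' ε', tp_int e' (ε * k * ε'), smul_sub, smul_sub,
      smul_smul, smul_smul]
    abel
  · intro h3
    apply hk1
    rw [Int.natAbs_mul, Int.natAbs_mul, hε, hε'] at h3
    simpa using h3

end Vale.Agent.P188.H882

end

section

/-!
Coarse invariance of the top cohomology with compact supports, and the subgroup acting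
trivially on it.
-/

universe u v w

namespace Vale.Agent.P188.H882

open Finsupp

lemma pr_nil_eq {X : Type*} (f : X → X) : pr f (single ([] : List X) 1) = 0 := by
  simp [prl]

lemma topZ_of_coarse {H G : Type} [Group H] [Group G] {n : ℕ} (hc : CoarseEquiv H G)
    (hG : TopZ G n) : TopZ H n := by
  obtain ⟨F, F', hF, hF', h1, h2⟩ := hc
  obtain ⟨κ, hκ, hκc, hcyc, hnt⟩ := hG
  have lF : ∀ q, Loc q q (pf F) := fun q => loc_pf hF (fib_of_closeId h1) q
  have lF' : ∀ q, Loc q q (pf F') := fun q => loc_pf hF' (fib_of_closeId h2) q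
  have pull : ∀ {X Y : Type} (f : X → Y) (c : Ch Y →ₗ[ℤ] ℤ) (q : ℕ), Coc q c →
      Coc q (c ∘ₗ pf f) := by
    intro X Y f c q hcc u hu
    rw [LinearMap.comp_apply, ← bd_pf]
    exact hcc _ (pf_mem (fun l hl => by simpa [Gr] using hl) hu)
  -- comparison along a map close to the identity
  have comp : ∀ {X : Type} [Group X] (f : X → X) (c : Ch X →ₗ[ℤ] ℤ), Coc (n + 1) c →
      ∀ u ∈ Sp (Gr (n + 1) : Set (List X)), c (pf f u) = c u + c (pr f (bd u)) := by
    intro X _ f c hcc u hu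
    have h := bd_pr f u
    have h3 : c (bd (pr f u)) = 0 := hcc _ (pr_mem (fun l hl l' _ hl' => by
      rw [mem_Gr] at *; omega) hu)
    have h4 : pf f u = bd (pr f u) + pr f (bd u) + u := by
      rw [h]; abel
    rw [h4, map_add, map_add, h3]
    ring
  refine ⟨κ ∘ₗ pf F, hκ.comp (lF _), pull F κ _ hκc, ?_, ?_⟩
  · intro c hc hcc
    obtain ⟨k, β, hβ, hkβ⟩ := hcyc (c ∘ₗ pf F') (hc.comp (lF' _)) (pull F' c _ hcc)
    refine ⟨k, β ∘ₗ pf F - c ∘ₗ pr (F' ∘ F), (hβ.comp (lF _)).sub (hc.comp (loc_pr h1 n)), ?_⟩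
    intro u hu
    have e1 := hkβ (pf F u) (pf_mem (fun l hl => by simpa [Gr] using hl) hu)
    rw [LinearMap.comp_apply, pf_comp, comp _ c hcc u hu, bd_pf] at e1
    simp only [LinearMap.sub_apply, LinearMap.comp_apply]
    linarith
  · intro k β hβ hkβ
    apply hnt k (β ∘ₗ pf F' - k • (κ ∘ₗ pr (F ∘ F')))
      ((hβ.comp (lF' _)).sub ((hκ.comp (loc_pr h2 n)).smul k))
    intro u hu
    have e1 := hkβ (pf F' u) (pf_mem (fun l hl => by simpa [Gr] using hl) hu)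
    rw [LinearMap.comp_apply, pf_comp, comp _ κ hκc u hu, bd_pf] at e1
    simp only [LinearMap.sub_apply, LinearMap.comp_apply, LinearMap.smul_apply, smul_eq_mul]
    linarith

/-- Functionals with the same class. -/
def Hom (H : Type) [Group H] (n : ℕ) (c c' : Ch H →ₗ[ℤ] ℤ) : Prop :=
  ∃ β : Ch H →ₗ[ℤ] ℤ, FS n β ∧ ∀ u ∈ Sp (Gr (n + 1) : Set (List H)), c u = c' u + β (bd u)

section

variable {H : Type} [Group H] {n : ℕ} {c c' c'' : Ch H →ₗ[ℤ] ℤ}

lemma Hom.refl (c : Ch H →ₗ[ℤ] ℤ) : Hom H n c c := ⟨0, FS.zero, fun u _ => by simp⟩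

lemma Hom.symm (h : Hom H n c c') : Hom H n c' c := by
  obtain ⟨β, hβ, h⟩ := h
  refine ⟨-β, hβ.neg, fun u hu => ?_⟩
  rw [h u hu, LinearMap.neg_apply]; ring

lemma Hom.trans (h : Hom H n c c') (h' : Hom H n c' c'') : Hom H n c c'' := by
  obtain ⟨β, hβ, h⟩ := h
  obtain ⟨β', hβ', h'⟩ := h'
  refine ⟨β + β', hβ.add hβ', fun u hu => ?_⟩
  rw [h u hu, h' u hu, LinearMap.add_apply]; ring

lemma Hom.smul (h : Hom H n c c') (k : ℤ) : Hom H n (k • c) (k • c') := by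
  obtain ⟨β, hβ, h⟩ := h
  refine ⟨k • β, hβ.smul k, fun u hu => ?_⟩
  rw [LinearMap.smul_apply, LinearMap.smul_apply, LinearMap.smul_apply, h u hu, smul_add]

lemma Hom.add {d d' : Ch H →ₗ[ℤ] ℤ} (h : Hom H n c c') (h' : Hom H n d d') :
    Hom H n (c + d) (c' + d') := by
  obtain ⟨β, hβ, h⟩ := h
  obtain ⟨β', hβ', h'⟩ := h'
  refine ⟨β + β', hβ.add hβ', fun u hu => ?_⟩
  rw [LinearMap.add_apply, LinearMap.add_apply, LinearMap.add_apply, h u hu, h' u hu]; ring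

/-- Precomposition with the action. -/
lemma Hom.act (h : Hom H n c c') (g : H) :
    Hom H n (c ∘ₗ Vale.Agent.P188.act g) (c' ∘ₗ Vale.Agent.P188.act g) := by
  obtain ⟨β, hβ, h⟩ := h
  refine ⟨β ∘ₗ Vale.Agent.P188.act g, hβ.comp (loc_act g n), fun u hu => ?_⟩
  simp only [LinearMap.comp_apply]
  rw [h _ (act_mem_Gr g hu), bd_act]

lemma coc_act (hcc : Coc (n + 1) c) (g : H) : Coc (n + 1) (c ∘ₗ act g) := by
  intro u hu
  rw [LinearMap.comp_apply, ← bd_act]
  exact hcc _ (act_mem_Gr g hu)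

lemma comp_act_mul (c : Ch H →ₗ[ℤ] ℤ) (g h : H) : (c ∘ₗ act g) ∘ₗ act h = c ∘ₗ act (g * h) := by
  ext u
  simp [act_mul]

lemma comp_act_one (c : Ch H →ₗ[ℤ] ℤ) : c ∘ₗ act (1 : H) = c := by
  apply LinearMap.ext
  intro u
  rw [LinearMap.comp_apply, act_one]

end

/-- A generator of the top cohomology with compact supports. -/
structure Gen (H : Type) [Group H] (n : ℕ) (κ : Ch H →ₗ[ℤ] ℤ) : Prop where
  fs : FS (n + 1) κ
  coc : Coc (n + 1) κ
  cyc : ∀ c : Ch H →ₗ[ℤ] ℤ, FS (n + 1) c → Coc (n + 1) c → ∃ k : ℤ, Hom H n c (k • κ)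
  nt : ∀ k : ℤ, Hom H n (k • κ) 0 → k = 0

lemma TopZ.exists_gen {H : Type} [Group H] {n : ℕ} (h : TopZ H n) : ∃ κ, Gen H n κ := by
  obtain ⟨κ, hκ, hκc, hcyc, hnt⟩ := h
  refine ⟨κ, hκ, hκc, ?_, ?_⟩
  · intro c hc hcc
    obtain ⟨k, β, hβ, h⟩ := hcyc c hc hcc
    exact ⟨k, β, hβ, fun u hu => by rw [h u hu]; simp⟩
  · rintro k ⟨β, hβ, h⟩
    apply hnt k β hβ
    intro u hu
    have := h u hu
    simpa using this

section Plus

variable {H : Type} [Group H] {n : ℕ} {κ : Ch H →ₗ[ℤ] ℤ}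

lemma Gen.uniq (hκ : Gen H n κ) {k k' : ℤ} (h : Hom H n (k • κ) (k' • κ)) : k = k' := by
  have h1 := h.add (Hom.refl (n := n) ((-k') • κ))
  rw [← add_smul, ← add_smul, add_neg_cancel, zero_smul] at h1
  have := hκ.nt _ h1
  omega

/-- The subgroup acting trivially. -/
def Gen.plus (hκ : Gen H n κ) : Subgroup H where
  carrier := {g | Hom H n (κ ∘ₗ act g) κ}
  mul_mem' := by
    intro a b ha hb
    have := (Hom.act ha b).trans hb
    rwa [comp_act_mul] at this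
  one_mem' := by
    show Hom H n (κ ∘ₗ act (1 : H)) κ
    rw [comp_act_one]
    exact Hom.refl κ
  inv_mem' := by
    intro a ha
    have := Hom.act ha a⁻¹
    rw [comp_act_mul, mul_inv_cancel, comp_act_one] at this
    exact this.symm

lemma Gen.sign (hκ : Gen H n κ) (g : H) : g ∈ hκ.plus ∨ Hom H n (κ ∘ₗ act g) ((-1 : ℤ) • κ) := by
  obtain ⟨k, hk⟩ := hκ.cyc (κ ∘ₗ act g) (hκ.fs.comp (loc_act g _)) (coc_act hκ.coc g)
  obtain ⟨k', hk'⟩ := hκ.cyc (κ ∘ₗ act g⁻¹) (hκ.fs.comp (loc_act g⁻¹ _)) (coc_act hκ.coc g⁻¹)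
  have h1 : Hom H n κ ((k * k') • κ) := by
    have h2 := Hom.act hk g⁻¹
    rw [comp_act_mul, mul_inv_cancel, comp_act_one] at h2
    have h3 : (k • κ) ∘ₗ act g⁻¹ = k • (κ ∘ₗ act g⁻¹) := rfl
    rw [h3] at h2
    have h4 := h2.trans (hk'.smul k)
    rwa [smul_smul] at h4
  have h5 : (1 : ℤ) = k * k' := hκ.uniq (by rwa [one_smul])
  have hu : IsUnit k := IsUnit.of_mul_eq_one k' h5.symm
  rcases Int.isUnit_iff.mp hu with rfl | rfl
  · left
    rw [one_smul] at hk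
    exact hk
  · right
    exact hk

lemma Gen.plus_finiteIndex (hκ : Gen H n κ) : hκ.plus.FiniteIndex := by
  by_cases h : ∃ a : H, a ∉ hκ.plus
  · obtain ⟨a, ha⟩ := h
    have key : ∀ x y : H, x ∉ hκ.plus → y ∉ hκ.plus → x * y ∈ hκ.plus := by
      intro x y hx hy
      have h1 := (hκ.sign x).resolve_left hx
      have h2 := (hκ.sign y).resolve_left hy
      have h3 := Hom.act h1 y
      rw [comp_act_mul] at h3
      have h4 : ((-1 : ℤ) • κ) ∘ₗ act y = (-1 : ℤ) • (κ ∘ₗ act y) := rfl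
      rw [h4] at h3
      have h5 := h3.trans (h2.smul (-1))
      rw [smul_smul] at h5
      norm_num at h5
      exact h5
    have h2 : hκ.plus.index = 2 := by
      rw [Subgroup.index_eq_two_iff]
      refine ⟨a, fun b => ?_⟩
      by_cases hb : b ∈ hκ.plus
      · right
        refine ⟨hb, fun h => ha ?_⟩
        exact (Subgroup.mul_mem_cancel_left _ hb).mp h
      · left
        exact ⟨key b a hb ha, hb⟩
    exact ⟨by rw [h2]; norm_num⟩
  · push Not at h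
    have : hκ.plus = ⊤ := by
      rw [eq_top_iff]
      intro x _
      exact h x
    rw [this]
    infer_instance

end Plus

end Vale.Agent.P188.H882

end

section

/-!
The algebraic end (QA6), from the computation of the top homology (QA6b_top).
-/

universe u v w

namespace Vale.Agent.P188.H882

open Finsupp TensorProduct

section Aux

variable {P : Type u} [Group P] {X : Type v} [MulAction P X] {M : Type w} [AddCommGroup M]

/-- The extension of an integral functional to coefficients. -/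
noncomputable def cE (c : Ch X →ₗ[ℤ] ℤ) : CM X M →+ M :=
  ((TensorProduct.lid ℤ M).toLinearMap ∘ₗ LinearMap.rTensor M c).toAddMonoidHom

@[simp] lemma cE_tp (c : Ch X →ₗ[ℤ] ℤ) (u : Ch X) (m : M) : cE c (tp u m) = c u • m := by
  show (TensorProduct.lid ℤ M) (LinearMap.rTensor M c (u ⊗ₜ m)) = _
  rw [LinearMap.rTensor_tmul, TensorProduct.lid_tmul]

lemma cE_null {c : Ch X →ₗ[ℤ] ℤ} {q : ℕ} (hq : q ≠ 0) {S : Subgroup P}
    (hc : ∀ (g : P) (u : Ch X), c (act g u) = c u)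
    (hb : ∀ u ∈ Sp (Gr (q + 1) : Set (List X)), c (bd u) = 0) {z : CM X M}
    (hz : z ∈ DG X M q) (hn : Null (1 : P →* AddMonoid.End M) S q z) : cE c z = 0 := by
  obtain ⟨w, hw, e⟩ := hn
  have h1 : Rl (X := X) (1 : P →* AddMonoid.End M) S ≤ ((cE c).comp (fM q)).ker := by
    apply Rl_le
    · intro g _ u
      rw [AddMonoidHom.mem_ker]
      have := cm_ext (f := ((cE c).comp (fM q)).comp (aM (X := X) (1 : P →* AddMonoid.End M) g))
        (g := (cE c).comp (fM q)) (by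
          intro u m
          simp only [AddMonoidHom.comp_apply, aM_tp, fM_tp, cE_tp]
          rw [flt_act, hc]
          rfl) u
      rw [map_sub, sub_eq_zero]
      exact this
    · intro z hz
      rw [AddMonoidHom.mem_ker, AddMonoidHom.comp_apply, fM_eq_zero (Ne.symm hq) hz, map_zero]
  have h2 := h1 e
  rw [AddMonoidHom.mem_ker, AddMonoidHom.comp_apply,
    mem_DG.mp (AddSubgroup.sub_mem _ hz (bM_mem hw)), map_sub, sub_eq_zero] at h2
  rw [h2]
  have h3 := dg_ext (f := (cE c).comp (bM (M := M))) (g := (0 : CM X M →+ M)) (fun u m hu => by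
    rw [AddMonoidHom.comp_apply, bM_tp, cE_tp, hb u hu, zero_smul]; rfl) hw
  exact h3

lemma cm_id (z : CM X M) : cm (AddMonoidHom.id M) z = z := by
  have := cm_ext (f := cm (X := X) (AddMonoidHom.id M)) (g := AddMonoidHom.id _) (by
    intro u m; simp) z
  exact this

lemma Null.congr_rho {ρ ρ' : P →* AddMonoid.End M} {S : Subgroup P} (h : ∀ g ∈ S, ρ g = ρ' g)
    {q : ℕ} {z : CM X M} (hz : Null ρ S q z) : Null ρ' S q z := by
  have := cm_Null (AddMonoidHom.id M) (ρ' := ρ') (fun g hg m => by rw [h g hg]; rfl) hz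
  rwa [cm_id] at this

lemma Rl_congr_rho {ρ ρ' : P →* AddMonoid.End M} {S : Subgroup P} (h : ∀ g ∈ S, ρ g = ρ' g)
    {z : CM X M} (hz : z ∈ Rl ρ S) : z ∈ Rl ρ' S := by
  have := cm_Rl (AddMonoidHom.id M) (ρ' := ρ') (fun g hg m => by rw [h g hg]; rfl) hz
  rwa [cm_id] at this

end Aux

section Family

variable {P : Type} [Group P] {K : Subgroup P}

lemma hfree_self : ∀ (g x : P), g • x = x → g = 1 := by
  intro g x h
  rw [smul_eq_mul] at h
  exact mul_eq_right.mp h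

/-- The family of large finitely generated subgroups. -/
structure Good (K B₀ B : Subgroup P) : Prop where
  ge : B₀ ≤ B
  le : B ≤ K
  fg : B.FG

/-- Existence of the family. -/
lemma exists_family (hmax : ℕ)
    (hH : ∀ B : Subgroup P, B ≤ K → B.FG → ∃ h ≤ hmax, CS (B : Set P) h B) :
    ∃ (h₀ : ℕ) (B₀ : Subgroup P), Good K B₀ B₀ ∧
      ∀ B : Subgroup P, Good K B₀ B → CS (B : Set P) h₀ B := by
  classical
  let p : ℕ → Prop := fun h => ∃ B : Subgroup P, B ≤ K ∧ B.FG ∧ CS (B : Set P) h B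
  obtain ⟨h1, hh1, hc1⟩ := hH ⊥ bot_le Subgroup.FG.bot
  have hp1 : p h1 := ⟨⊥, bot_le, Subgroup.FG.bot, hc1⟩
  have hspec := Nat.findGreatest_spec (P := p) hh1 hp1
  set h₀ := Nat.findGreatest p hmax with hh₀
  obtain ⟨B₀, hB₀K, hB₀fg, hB₀c⟩ := hspec
  refine ⟨h₀, B₀, ⟨le_rfl, hB₀K, hB₀fg⟩, ?_⟩
  rintro B ⟨hB1, hB2, hB3⟩
  obtain ⟨h, hh, hc⟩ := hH B hB2 hB3
  have h1 : h ≤ h₀ := Nat.le_findGreatest hh ⟨B, hB2, hB3, hc⟩
  have h2 : h₀ ≤ h := (qa6a_index P P hfree_self h h₀ B₀ B hB1 hc hB₀c).1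
  obtain rfl : h = h₀ := le_antisymm h1 h2
  exact hc

variable {B₀ : Subgroup P} {h₀ : ℕ}

/-- Enlarging members of the family. -/
lemma Good.exists_ge {B : Subgroup P} (hB : Good K B₀ B) {F : Finset P}
    (hF : (F : Set P) ⊆ K) : ∃ B' : Subgroup P, Good K B₀ B' ∧ B ≤ B' ∧ (F : Set P) ⊆ B' := by
  refine ⟨B ⊔ Subgroup.closure (F : Set P), ⟨hB.ge.trans le_sup_left, ?_, ?_⟩, le_sup_left, ?_⟩
  · exact sup_le hB.le ((Subgroup.closure_le K).mpr hF)
  · exact hB.fg.sup ⟨F, rfl⟩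
  · exact fun g hg => Subgroup.mem_sup_right (Subgroup.subset_closure hg)

/-- Directedness. -/
lemma Good.sup {B B' : Subgroup P} (hB : Good K B₀ B) (hB' : Good K B₀ B') :
    Good K B₀ (B ⊔ B') :=
  ⟨hB.ge.trans le_sup_left, sup_le hB.le hB'.le, hB.fg.sup hB'.fg⟩

variable (hcs : ∀ B : Subgroup P, Good K B₀ B → CS (B : Set P) h₀ B)

include hcs

lemma Good.fund {B : Subgroup P} (hB : Good K B₀ B) : ∃ e : Ch P, Fund P (B : Set P) B h₀ e :=
  qa6a_fund P P hfree_self (B : Set P) h₀ B le_rfl (hcs B hB)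

/-- The index formula in the family. -/
lemma Good.index {B B' : Subgroup P} (hB : Good K B₀ B) (hB' : Good K B₀ B') (hle : B ≤ B')
    {e e' : Ch P} (he : Fund P (B : Set P) B h₀ e) (he' : Fund P (B' : Set P) B' h₀ e') :
    ∃ k : ℤ, k ≠ 0 ∧ (k.natAbs = 1 → B = B') ∧
      ∀ (M : Type) [AddCommGroup M] (ρ : P →* AddMonoid.End M), (∀ g ∈ K, ρ g = 1) → ∀ m : M,
        Null ρ B' (h₀ + 1) (tp e m - tp e' (k • m)) := by
  obtain ⟨k, hk, h1, h2⟩ := (qa6a_index P P hfree_self h₀ h₀ B B' hle (hcs B' hB') (hcs B hB)).2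
    rfl e e' he he'
  refine ⟨k, hk, h2, ?_⟩
  intro M _ ρ hρ m
  have h3 := cm_Null (zm m) (ρ' := ρ) (fun g hg j => by rw [hρ g (hB'.le hg)]; rfl) h1
  simpa using h3

/-- Fundamental classes are not null in `K`. -/
lemma Good.nonvan {B : Subgroup P} (hB : Good K B₀ B) {e : Ch P}
    (he : Fund P (B : Set P) B h₀ e) {M : Type} [AddCommGroup M]
    (htf : ∀ (k : ℤ) (m : M), k ≠ 0 → k • m = 0 → m = 0)
    {ρ : P →* AddMonoid.End M} (hρ : ∀ g ∈ K, ρ g = 1) {m : M}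
    (hm : Null ρ K (h₀ + 1) (tp e m)) : m = 0 := by
  obtain ⟨F, hF, h1⟩ := hm.exists_finset
  obtain ⟨B', hB', hle, hFB⟩ := hB.exists_ge hF
  obtain ⟨e', he'⟩ := hB'.fund hcs
  obtain ⟨k, hk, _, h2⟩ := hB.index hcs hB' hle he he'
  have h3 := (h1.mono ((Subgroup.closure_le B').mpr hFB)).sub (h2 M ρ hρ m)
  rw [sub_sub_cancel] at h3
  have h4 := he'.inj M ρ (fun b hb => hρ b (hB'.le hb)) _ h3
  exact htf k m hk h4

/-- Cycles of `K` are represented by fundamental classes. -/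
lemma Good.repr {B : Subgroup P} (hB : Good K B₀ B) {M : Type} [AddCommGroup M]
    {ρ : P →* AddMonoid.End M} (hρ : ∀ g ∈ K, ρ g = 1) {z : CM P M} (hz : z ∈ DG P M (h₀ + 1))
    (hb : bM z ∈ Rl ρ K) :
    ∃ (B' : Subgroup P) (e' : Ch P) (m : M), Good K B₀ B' ∧ B ≤ B' ∧
      Fund P (B' : Set P) B' h₀ e' ∧ Null ρ B' (h₀ + 1) (z - tp e' m) := by
  obtain ⟨F, hF, h1⟩ := exists_finset_Rl hb
  obtain ⟨B', hB', hle, hFB⟩ := hB.exists_ge hF
  obtain ⟨e', he'⟩ := hB'.fund hcs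
  obtain ⟨m, hm⟩ := he'.gen M ρ (fun b hb => hρ b (hB'.le hb)) z hz
    (Rl_mono ((Subgroup.closure_le B').mpr hFB) h1)
  exact ⟨B', e', m, hB', hle, he', hm⟩

/-- Vanishing above the top degree. -/
lemma Good.van {B : Subgroup P} (hB : Good K B₀ B) (M : Type) [AddCommGroup M]
    (ρ : P →* AddMonoid.End M) : ∀ q ≥ h₀ + 2, HVan P ρ K q := by
  intro q hq
  apply HVan.union
  intro F hF
  obtain ⟨B', hB', _, hFB⟩ := hB.exists_ge hF
  obtain ⟨e', he'⟩ := hB'.fund hcs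
  exact ⟨B', hFB, hB'.le, he'.van M ρ q hq⟩

/-- Rational cycles of `K` are multiples of any fundamental class. -/
lemma Good.repr_rat {B : Subgroup P} (hB : Good K B₀ B) {e : Ch P}
    (he : Fund P (B : Set P) B h₀ e) {z : CM P ℚ} (hz : z ∈ DG P ℚ (h₀ + 1))
    (hb : bM z ∈ Rl (X := P) (1 : P →* AddMonoid.End ℚ) K) :
    ∃ q : ℚ, Null (1 : P →* AddMonoid.End ℚ) K (h₀ + 1) (z - tp e q) := by
  obtain ⟨B', e', m, hB', hle, he', hm⟩ := hB.repr hcs (fun _ _ => rfl) hz hb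
  obtain ⟨k, hk, _, h2⟩ := hB.index hcs hB' hle he he'
  have hk' : (k : ℚ) ≠ 0 := by exact_mod_cast hk
  refine ⟨m / k, ?_⟩
  have h3 := (hm.sub (h2 ℚ 1 (fun _ _ => rfl) (m / k))).mono hB'.le
  have e1 : k • (m / (k : ℚ)) = m := by
    rw [zsmul_eq_mul]; field_simp
  rw [e1] at h3
  have e2 : z - tp e' m - (tp e (m / (k : ℚ)) - tp e' m) = z - tp e (m / (k : ℚ)) := by abel
  rwa [e2] at h3

omit hcs in
lemma rat_tf : ∀ (k : ℤ) (m : ℚ), k ≠ 0 → k • m = 0 → m = 0 := by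
  intro k m hk hm
  rw [zsmul_eq_mul] at hm
  rcases mul_eq_zero.mp hm with h | h
  · exact absurd (by exact_mod_cast h) hk
  · exact h

/-- The modular homomorphism. -/
lemma Good.exists_modular (hK : ∀ a b : P, a * b * a⁻¹ * b⁻¹ ∈ K) {B : Subgroup P}
    (hB : Good K B₀ B) {e : Ch P} (he : Fund P (B : Set P) B h₀ e) :
    ∃ Δ : P →* ℚ, (∀ g ∈ K, Δ g = 1) ∧ ∀ (p : P) (q : ℚ),
      Null (1 : P →* AddMonoid.End ℚ) K (h₀ + 1) (tp (act p e) q - tp e (Δ p * q)) := by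
  have hnorm : ∀ p : P, ∀ g ∈ K, p * g * p⁻¹ ∈ K := by
    intro p g hg
    have := K.mul_mem (hK p g) hg
    simpa [mul_assoc] using this
  have hcyc : bM (tp e (1 : ℚ)) ∈ Rl (X := P) (1 : P →* AddMonoid.End ℚ) K := by
    have := cm_Rl (zm (1 : ℚ)) (ρ' := (1 : P →* AddMonoid.End ℚ)) (fun _ _ _ => rfl) he.cyc
    have := Rl_mono hB.le this
    simpa [cm_bM] using this
  have hex : ∀ p : P, ∃ q : ℚ, Null (1 : P →* AddMonoid.End ℚ) K (h₀ + 1)
      (tp (act p e) (1 : ℚ) - tp e q) := by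
    intro p
    apply hB.repr_rat hcs he (tp_mem_DG (act_mem_Gr p he.mem) 1)
    have := aM_Rl (hnorm p) hcyc
    rw [← bM_aM] at this
    simpa using this
  choose D hD using hex
  have hDq : ∀ (p : P) (q : ℚ),
      Null (1 : P →* AddMonoid.End ℚ) K (h₀ + 1) (tp (act p e) q - tp e (D p * q)) := by
    intro p q
    have := cm_Null (AddMonoidHom.mulRight q) (ρ' := (1 : P →* AddMonoid.End ℚ))
      (fun _ _ _ => rfl) (hD p)
    simpa using this
  have huniq : ∀ q q' : ℚ, Null (1 : P →* AddMonoid.End ℚ) K (h₀ + 1) (tp e q - tp e q') →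
      q = q' := by
    intro q q' h
    rw [← tp_sub_right] at h
    exact sub_eq_zero.mp (hB.nonvan hcs he rat_tf (fun _ _ => rfl) h)
  have hone : ∀ g ∈ K, D g = 1 := by
    intro g hg
    apply huniq
    have h1 := (hD g).neg.add (Null.act_sub (ρ := (1 : P →* AddMonoid.End ℚ)) (q := h₀ + 1) hg
      (tp e (1 : ℚ)))
    convert h1 using 1
    rw [aM_tp]
    simp
  refine ⟨⟨⟨D, hone 1 K.one_mem⟩, ?_⟩, hone, hDq⟩
  intro p p'
  show D (p * p') = D p * D p'
  apply huniq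
  have h1 := ((hD p').act (hnorm p)).add (hDq p (D p'))
  have h2 := h1.sub (hD (p * p'))
  convert h2 using 1
  rw [map_sub, aM_tp, aM_tp, ← act_mul]
  simp

/-- The modular homomorphism bounds the length. -/
lemma Good.length_le (hK : ∀ a b : P, a * b * a⁻¹ * b⁻¹ ∈ K) (htop : QA6b_top) {l : ℕ}
    (hl : ZC K l ⊤) {n : ℕ} (hn : ∀ (M : Type) [AddCommGroup M] (ρ : P →* AddMonoid.End M),
      ∀ q ≥ n + 2, ∃ m : ℤ, m ≠ 0 ∧ ∀ z ∈ DG P M q, bM z ∈ Rl ρ (⊤ : Subgroup P) →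
        Null ρ ⊤ q (m • z)) {B : Subgroup P}
    (hB : Good K B₀ B) : h₀ + 1 + l ≤ n + 1 := by
  by_contra hcon
  obtain ⟨e, he⟩ := hB.fund hcs
  obtain ⟨Δ, hΔK, hΔ⟩ := hB.exists_modular hcs hK he
  -- the twisted coefficients
  let χ : P →* ℚ :=
    { toFun := fun p => Δ p⁻¹
      map_one' := by simp
      map_mul' := fun a b => by
        show Δ (a * b)⁻¹ = Δ a⁻¹ * Δ b⁻¹
        rw [mul_inv_rev, map_mul, mul_comm] }
  let ρ : P →* AddMonoid.End ℚ := (DistribMulAction.toAddMonoidEnd ℚ ℚ).comp χ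
  have hρ : ∀ (p : P) (q : ℚ), ρ p q = Δ p⁻¹ * q := fun p q => rfl
  have hρK : ∀ g ∈ K, ρ g = 1 := by
    intro g hg
    ext q
    rw [hρ, hΔK _ (K.inv_mem hg), one_mul]
    rfl
  obtain ⟨hvan, Ov, hsub, hnull, hup, hdown⟩ := htop P P hfree_self K hK l hl (h₀ + 1) ℚ ρ
    (hB.van hcs ℚ ρ)
  have hcyc : bM (tp e (1 : ℚ)) ∈ Rl ρ K := by
    have := cm_Rl (zm (1 : ℚ)) (ρ' := (1 : P →* AddMonoid.End ℚ)) (fun _ _ _ => rfl) he.cyc
    have := Rl_mono hB.le this
    have := Rl_congr_rho (ρ' := ρ) (fun g hg => (hρK g hg).symm) this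
    simpa [cm_bM] using this
  have hinv : ∀ p : P, Null ρ K (h₀ + 1) (aM ρ p (tp e (1 : ℚ)) - tp e (1 : ℚ)) := by
    intro p
    have h1 := hΔ p (ρ p 1)
    have e1 : Δ p * (ρ p) 1 = 1 := by
      rw [hρ, mul_one, ← map_mul, mul_inv_cancel, map_one]
    rw [e1] at h1
    rw [aM_tp]
    exact h1.congr_rho (fun g hg => (hρK g hg).symm)
  obtain ⟨z, hz, hbz, hov⟩ := hdown (tp e (1 : ℚ)) (tp_mem_DG he.mem 1) hcyc hinv
  obtain ⟨m, hm, hmz⟩ := hn ℚ ρ (h₀ + 1 + l) (by omega)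
  have h1 := hmz z hz hbz
  -- `Ov (m • z) (m • y)`
  have hov0 : Ov 0 0 := by simpa using hsub _ _ _ _ hov hov
  have hovneg : ∀ {z y}, Ov z y → Ov (-z) (-y) := fun h => by simpa using hsub _ _ _ _ hov0 h
  have hovadd : ∀ {z y z' y'}, Ov z y → Ov z' y' → Ov (z + z') (y + y') := fun h h' => by
    simpa using hsub _ _ _ _ h (hovneg h')
  have hovnat : ∀ k : ℕ, Ov (k • z) (k • tp e (1 : ℚ)) := by
    intro k
    induction k with
    | zero => simpa using hov0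
    | succ k ih =>
      rw [succ_nsmul, succ_nsmul]
      exact hovadd ih hov
  have hovm : Ov (m • z) (m • tp e (1 : ℚ)) := by
    rcases Int.eq_nat_or_neg m with ⟨k, rfl | rfl⟩
    · simpa using hovnat k
    · simpa using hovneg (hovnat k)
  have h2 := (hnull _ _ hovm).mp h1
  rw [← tp_smul_right] at h2
  have h3 := hB.nonvan hcs he rat_tf hρK h2
  have h4 := rat_tf m 1 hm h3
  exact one_ne_zero h4

/-- Integral cycles of `K` which are rationally null are null. -/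
lemma Good.descend {B : Subgroup P} (hB : Good K B₀ B) {w : CM P ℤ} (hw : w ∈ DG P ℤ (h₀ + 1))
    (hb : bM w ∈ Rl (X := P) (1 : P →* AddMonoid.End ℤ) K)
    (hn : Null (1 : P →* AddMonoid.End ℚ) K (h₀ + 1) (cm (Int.castAddHom ℚ) w)) :
    Null (1 : P →* AddMonoid.End ℤ) K (h₀ + 1) w := by
  obtain ⟨B', e', m, hB', _, he', hm⟩ := hB.repr hcs (fun _ _ => rfl) hw hb
  have h1 := cm_Null (Int.castAddHom ℚ) (ρ' := (1 : P →* AddMonoid.End ℚ)) (fun _ _ _ => rfl) hm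
  have h2 := hn.sub (h1.mono hB'.le)
  rw [map_sub, cm_tp, sub_sub_cancel] at h2
  have h3 := hB'.nonvan hcs he' rat_tf (fun _ _ => rfl) h2
  have h4 : m = 0 := by
    have : ((m : ℤ) : ℚ) = 0 := h3
    exact_mod_cast this
  rw [h4, tp_zero_right, sub_zero] at hm
  exact hm.mono hB'.le

/-- If there is an invariant class then all fundamental classes are invariant. -/
lemma Good.invariant (hK : ∀ a b : P, a * b * a⁻¹ * b⁻¹ ∈ K) {y : CM P ℤ}
    (hy : y ∈ DG P ℤ (h₀ + 1)) (hyb : bM y ∈ Rl (X := P) (1 : P →* AddMonoid.End ℤ) K)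
    (hyi : ∀ p : P, Null (1 : P →* AddMonoid.End ℤ) K (h₀ + 1)
      (aM (1 : P →* AddMonoid.End ℤ) p y - y))
    (hyn : ¬ Null (1 : P →* AddMonoid.End ℤ) K (h₀ + 1) y) {B : Subgroup P} (hB : Good K B₀ B)
    {e : Ch P} (he : Fund P (B : Set P) B h₀ e) (p : P) :
    Null (1 : P →* AddMonoid.End ℤ) K (h₀ + 1)
      (aM (1 : P →* AddMonoid.End ℤ) p (tp e 1) - tp e 1) := by
  have hnorm : ∀ p : P, ∀ g ∈ K, p * g * p⁻¹ ∈ K := by
    intro p g hg
    have := K.mul_mem (hK p g) hg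
    simpa [mul_assoc] using this
  obtain ⟨Δ, _, hΔ⟩ := hB.exists_modular hcs hK he
  have huniq : ∀ q q' : ℚ, Null (1 : P →* AddMonoid.End ℚ) K (h₀ + 1) (tp e q - tp e q') →
      q = q' := by
    intro q q' h
    rw [← tp_sub_right] at h
    exact sub_eq_zero.mp (hB.nonvan hcs he rat_tf (fun _ _ => rfl) h)
  -- the rational image of `y`
  set y' : CM P ℚ := cm (Int.castAddHom ℚ) y with hy'
  have h1 : bM y' ∈ Rl (X := P) (1 : P →* AddMonoid.End ℚ) K := by
    rw [hy', ← cm_bM]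
    exact cm_Rl _ (fun _ _ _ => rfl) hyb
  obtain ⟨q, hq⟩ := hB.repr_rat hcs he (cm_DG _ hy) h1
  have hq0 : q ≠ 0 := by
    rintro rfl
    rw [tp_zero_right, sub_zero] at hq
    exact hyn (hB.descend hcs hy hyb hq)
  have h2 := cm_Null (Int.castAddHom ℚ) (ρ' := (1 : P →* AddMonoid.End ℚ)) (fun _ _ _ => rfl)
    (hyi p)
  rw [map_sub, cm_aM (Int.castAddHom ℚ) (1 : P →* AddMonoid.End ℤ) (1 : P →* AddMonoid.End ℚ)
    (g := p) (fun _ => rfl), ← hy'] at h2
  -- `Δ p = 1`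
  have h3 : Δ p * q = q := by
    apply huniq
    have h4 := ((hΔ p q).neg.sub (hq.act (hnorm p))).add (h2.add hq)
    convert h4 using 1
    rw [map_sub, aM_tp]
    simp only [MonoidHom.one_apply, AddMonoid.End.one_apply]
    abel
  have h4 : Δ p = 1 := mul_right_cancel₀ hq0 (by rw [h3, one_mul])
  have hecyc : bM (tp e (1 : ℤ)) ∈ Rl (X := P) (1 : P →* AddMonoid.End ℤ) K :=
    Rl_mono hB.le he.cyc
  apply hB.descend hcs
  · exact AddSubgroup.sub_mem _ (aM_mem _ p (tp_mem_DG he.mem 1)) (tp_mem_DG he.mem 1)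
  · rw [map_sub, bM_aM]
    exact AddSubgroup.sub_mem _ (aM_Rl (hnorm p) hecyc) hecyc
  · have h5 := hΔ p 1
    rw [h4, one_mul] at h5
    convert h5 using 1
    rw [map_sub, aM_tp, cm_tp, cm_tp]
    simp

end Family

/-- (QA6) from (QA6b_top). -/
theorem qa6_of_top (htop : QA6b_top) : QA6 := by
  intro P _ K hK l hl hmax hH n hn c hc hcb z hz hzb hcz
  obtain ⟨h₀, B₀, hB₀, hcs⟩ := exists_family hmax hH
  have hle := hB₀.length_le hcs hK htop hl hn
  obtain ⟨hvan, Ov, hsub, hnull, hup, hdown⟩ := htop P P hfree_self K hK l hl (h₀ + 1) ℤ 1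
    (hB₀.van hcs ℤ 1)
  have hzD : tp z (1 : ℤ) ∈ DG P ℤ (n + 1) := tp_mem_DG hz 1
  have hcE : ∀ {x : CM P ℤ}, x ∈ DG P ℤ (n + 1) →
      Null (1 : P →* AddMonoid.End ℤ) ⊤ (n + 1) x → cE c x = 0 := fun hx hxn =>
    cE_null (Nat.succ_ne_zero n) hc hcb hx hxn
  have heq : h₀ + 1 + l = n + 1 := by
    by_contra hne
    have h1 := hvan (n + 1) (by omega) _ hzD hzb
    have h2 := hcE hzD h1
    rw [cE_tp, smul_eq_mul, mul_one] at h2
    exact hcz h2
  rw [heq] at hnull hup hdown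
  obtain ⟨y, hy, hyb, hyi, hov⟩ := hup _ hzD hzb
  have hyn : ¬ Null (1 : P →* AddMonoid.End ℤ) K (h₀ + 1) y := by
    intro h1
    have h2 := hcE hzD ((hnull _ _ hov).mpr h1)
    rw [cE_tp, smul_eq_mul, mul_one] at h2
    exact hcz h2
  -- linearity of `Ov`
  have hov0 : Ov 0 0 := by simpa using hsub _ _ _ _ hov hov
  have hovneg : ∀ {z y}, Ov z y → Ov (-z) (-y) := fun h => by simpa using hsub _ _ _ _ hov0 h
  have hovadd : ∀ {z y z' y'}, Ov z y → Ov z' y' → Ov (z + z') (y + y') := fun h h' => by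
    simpa using hsub _ _ _ _ h (hovneg h')
  have hovsmul : ∀ {z y}, Ov z y → ∀ k : ℤ, Ov (k • z) (k • y) := by
    intro z y hzy
    have hovnat : ∀ k : ℕ, Ov (k • z) (k • y) := by
      intro k
      induction k with
      | zero => simpa using hov0
      | succ k ih =>
        rw [succ_nsmul, succ_nsmul]
        exact hovadd ih hzy
    intro k
    rcases Int.eq_nat_or_neg k with ⟨k, rfl | rfl⟩
    · simpa using hovnat k
    · simpa using hovneg (hovnat k)
  -- lifts of fundamental classes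
  have hlift : ∀ {B : Subgroup P}, Good K B₀ B → ∀ {e : Ch P}, Fund P (B : Set P) B h₀ e →
      ∃ x ∈ DG P ℤ (n + 1), Ov x (tp e 1) := by
    intro B hB e he
    obtain ⟨x, hx, _, hxo⟩ := hdown _ (tp_mem_DG he.mem 1) (Rl_mono hB.le he.cyc)
      (hB.invariant hcs hK hy hyb hyi hyn he)
    exact ⟨x, hx, hxo⟩
  have hval : ∀ {B : Subgroup P}, Good K B₀ B → ∀ {e : Ch P}, Fund P (B : Set P) B h₀ e →
      ∀ {x : CM P ℤ}, x ∈ DG P ℤ (n + 1) → Ov x (tp e 1) → cE c x ≠ 0 := by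
    intro B hB e he x hx hxo h0
    obtain ⟨B', e', m', hB', hBB', he', hm'⟩ := hB.repr hcs (fun _ _ => rfl) hy hyb
    obtain ⟨k, hk, _, h2⟩ := hB.index hcs hB' hBB' he he'
    have h3 := h2 ℤ 1 (fun _ _ => rfl) 1
    have h4 := ((hm'.zsmul k).sub (h3.zsmul m')).mono hB'.le
    have h5 : Null (1 : P →* AddMonoid.End ℤ) K (h₀ + 1) (k • y - m' • tp e (1 : ℤ)) := by
      convert h4 using 1
      rw [smul_sub, smul_sub, ← tp_smul_right k, ← tp_smul_right m' e', smul_smul, smul_eq_mul,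
        smul_eq_mul, mul_one, mul_comm m' k]
      abel
    have h6 := hsub _ _ _ _ (hovsmul hov k) (hovsmul hxo m')
    have h7 := hcE (AddSubgroup.sub_mem _ (AddSubgroup.zsmul_mem _ hzD k)
      (AddSubgroup.zsmul_mem _ hx m')) ((hnull _ _ h6).mpr h5)
    rw [map_sub, map_zsmul, map_zsmul, h0, smul_zero, sub_zero, cE_tp, smul_eq_mul, smul_eq_mul,
      mul_one] at h7
    exact (mul_ne_zero hk hcz) h7
  -- the minimal value
  let p : ℕ → Prop := fun k => ∃ (B : Subgroup P) (e : Ch P) (x : CM P ℤ), Good K B₀ B ∧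
    Fund P (B : Set P) B h₀ e ∧ x ∈ DG P ℤ (n + 1) ∧ Ov x (tp e 1) ∧ (cE c x).natAbs = k
  have hp : ∃ k, p k := by
    obtain ⟨e, he⟩ := hB₀.fund hcs
    obtain ⟨x, hx, hxo⟩ := hlift hB₀ he
    exact ⟨_, B₀, e, x, hB₀, he, hx, hxo, rfl⟩
  classical
  obtain ⟨B, e, x, hB, he, hx, hxo, hxk⟩ := Nat.find_spec hp
  have hKB : K ≤ B := by
    intro g hg
    obtain ⟨B', hB', hBB', hgB⟩ := hB.exists_ge (F := {g}) (by simpa using hg)
    obtain ⟨e', he'⟩ := hB'.fund hcs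
    obtain ⟨x', hx', hxo'⟩ := hlift hB' he'
    obtain ⟨k, hk, hk1, h2⟩ := hB.index hcs hB' hBB' he he'
    have h3 := (h2 ℤ 1 (fun _ _ => rfl) 1).mono hB'.le
    have h4 : Null (1 : P →* AddMonoid.End ℤ) K (h₀ + 1) (tp e 1 - k • tp e' (1 : ℤ)) := by
      rwa [← tp_smul_right]
    have h5 := hsub _ _ _ _ hxo (hovsmul hxo' k)
    have h6 := hcE (AddSubgroup.sub_mem _ hx (AddSubgroup.zsmul_mem _ hx' k))
      ((hnull _ _ h5).mpr h4)
    rw [map_sub, map_zsmul, sub_eq_zero, smul_eq_mul] at h6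
    have h7 : Nat.find hp ≤ (cE c x').natAbs :=
      Nat.find_min' hp ⟨B', e', x', hB', he', hx', hxo', rfl⟩
    rw [← hxk, h6, Int.natAbs_mul] at h7
    have h8 : 0 < (cE c x').natAbs := Int.natAbs_pos.mpr (hval hB' he' hx' hxo')
    have h9 : k.natAbs ≤ 1 := by
      by_contra h10
      have h11 : 2 ≤ k.natAbs := by omega
      have h12 := Nat.mul_le_mul_right (cE c x').natAbs h11
      omega
    have h10 : k.natAbs = 1 := by
      have := Int.natAbs_pos.mpr hk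
      omega
    rw [hk1 h10]
    exact hgB (by simp)
  rw [le_antisymm hKB hB.le]
  exact hB.fg

end Vale.Agent.P188.H882

end
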