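import Vale.Agent.P188.R.G037
import Vale.Agent.P188.R.G039
import Vale.Agent.P188.R.G053
import Vale.Agent.P188.R.G014

section

/-!
Quantitative BCH on `V`; convex symmetric sets with brackets; homogeneous boxes.
-/

open Finset Filter Topology Pointwise

universe u v

namespace Vale.Agent.P188.H615

open Vale.Agent.P188.H796

section csv

variable {N : Type u} [Group N] {d n : ℕ} {D : MB N d n} {A : Type v} [NormedRing A]
  [NormedAlgebra ℝ A] [FiniteDimensional ℝ A] (R : RD D A)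

/-- convex symmetric subsets of `V`, closed under brackets up to the factor `C0` -/
structure CSV (K : Set R.V) (C0 : ℝ) : Prop where
  conv : Convex ℝ K
  zero : (0 : R.V) ∈ K
  neg : ∀ x ∈ K, -x ∈ K
  nonneg : 0 ≤ C0
  br : ∀ x ∈ K, ∀ y ∈ K, ⁅x, y⁆ ∈ C0 • K

variable {R} {K : Set R.V} {C0 : ℝ}

theorem coe_mem_smul_image {c : ℝ} {v : R.V} :
    (v : A) ∈ c • ((fun x : R.V => (x : A)) '' K) ↔ v ∈ c • K := by
  constructor
  · rintro ⟨_, ⟨w, hw, rfl⟩, h⟩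
    exact ⟨w, hw, Subtype.ext h⟩
  · rintro ⟨w, hw, h⟩
    exact ⟨_, ⟨w, hw, rfl⟩, congrArg Subtype.val h⟩

theorem coe_mem_image {v : R.V} : (v : A) ∈ ((fun x : R.V => (x : A)) '' K) ↔ v ∈ K := by
  constructor
  · rintro ⟨w, hw, h⟩
    have : w = v := Subtype.ext h
    rwa [← this]
  · exact fun h => ⟨v, h, rfl⟩

theorem CSV.toCS (h : CSV R K C0) : CS ((fun x : R.V => (x : A)) '' K) C0 where
  conv := h.conv.linear_image R.V.subtype
  zero := ⟨0, h.zero, rfl⟩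
  neg := by
    rintro _ ⟨x, hx, rfl⟩
    exact ⟨-x, h.neg x hx, rfl⟩
  nonneg := h.nonneg
  br := by
    rintro _ ⟨x, hx, rfl⟩ _ ⟨y, hy, rfl⟩
    exact (coe_mem_smul_image (v := ⁅x, y⁆)).2 (h.br x hx y hy)

theorem CSV.mem_add (h : CSV R K C0) {a b : ℝ} (ha : 0 ≤ a) (hb : 0 ≤ b) {x y : R.V}
    (hx : x ∈ a • K) (hy : y ∈ b • K) : x + y ∈ (a + b) • K := by
  rw [h.conv.add_smul ha hb]
  exact Set.add_mem_add hx hy

theorem CSV.mem_mono (h : CSV R K C0) {a b : ℝ} (ha : 0 ≤ a) (hab : a ≤ b) {x : R.V}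
    (hx : x ∈ a • K) : x ∈ b • K := by
  have := h.mem_add ha (sub_nonneg.2 hab) hx (⟨0, h.zero, by simp⟩ : (0 : R.V) ∈ (b - a) • K)
  rwa [add_zero, add_sub_cancel] at this

theorem CSV.mem_neg (h : CSV R K C0) {a : ℝ} {x : R.V} (hx : x ∈ a • K) : -x ∈ a • K := by
  obtain ⟨y, hy, rfl⟩ := hx
  exact ⟨-y, h.neg y hy, by simp⟩

theorem CSV.smul (h : CSV R K C0) {c : ℝ} (hc : 0 ≤ c) : CSV R (c • K) (c * C0) where
  conv := h.conv.smul c
  zero := ⟨0, h.zero, by simp⟩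
  neg := fun x hx => h.mem_neg hx
  nonneg := mul_nonneg hc h.nonneg
  br := by
    rintro _ ⟨x, hx, rfl⟩ _ ⟨y, hy, rfl⟩
    obtain ⟨z, hz, hz2⟩ := h.br x hx y hy
    refine ⟨c • z, ⟨z, hz, rfl⟩, ?_⟩
    simp only at hz2 ⊢
    rw [smul_lie, lie_smul, ← hz2, smul_smul, smul_smul, smul_smul]
    congr 1; ring

theorem CSV.mem_of_smul (h : CSV R K C0) {a : ℝ} (ha : 0 ≤ a) (ha1 : a ≤ 1) {x : R.V}
    (hx : x ∈ a • K) : x ∈ K := by
  have := h.mem_mono ha ha1 hx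
  rwa [one_smul] at this

/-- **quantitative BCH on `V`** -/
theorem qbchV (R : RD D A) {C0 : ℝ} (hC0 : 0 ≤ C0) : ∃ C : ℝ, 0 ≤ C ∧ ∀ K : Set R.V, CSV R K C0 →
    ∀ x : R.NR, ∀ v ∈ K, ∀ w ∈ K, R.Lo (x * R.Ex v) ∈ K → ∀ c : ℝ, 0 ≤ c → c ≤ 1 →
    R.Lo (x * R.Ex (v + c • w)) - R.Lo (x * R.Ex v) ∈ (C * c) • K := by
  obtain ⟨C, hC, H⟩ := qbch_gen (A := A) R.hm0 hC0
  refine ⟨C, hC, fun K hK x v hv w hw hx c hc0 hc1 => ?_⟩
  have h := H _ hK.toCS (v : A) (coe_mem_image.2 hv) (w : A) (coe_mem_image.2 hw) (R.toA x)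
    (V_pow_add R v w) (V_unip R x v w) (by
      rw [← coe_Lo_mul_Ex]
      exact coe_mem_image.2 hx) c hc0 hc1
  refine coe_mem_smul_image.1 ?_
  rw [Submodule.coe_sub, coe_Lo_mul_Ex, coe_Lo_mul_Ex]
  exact h

variable (R) in
/-- the subset `exp K` -/
def EK (K : Set R.V) : Set R.NR := {x | R.Lo x ∈ K}

theorem mem_EK {x : R.NR} : x ∈ EK R K ↔ R.Lo x ∈ K := Iff.rfl

theorem CSV.EK_inv (h : CSV R K C0) {x : R.NR} (hx : x ∈ EK R K) : x⁻¹ ∈ EK R K := by
  rw [mem_EK, Lo_inv]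
  exact h.neg _ hx

/-- products, quotients: group form of the quantitative BCH -/
theorem qbchE (R : RD D A) {C0 : ℝ} (hC0 : 0 ≤ C0) : ∃ C : ℝ, 0 ≤ C ∧ ∀ K : Set R.V, CSV R K C0 →
    ∀ c : ℝ, 0 ≤ c → c ≤ 1 →
    (∀ x ∈ EK R K, ∀ y ∈ EK R (c • K), R.Lo (x * y) - R.Lo x ∈ (C * c) • K) ∧
    (∀ x ∈ EK R K, ∀ y ∈ EK R (c • K), R.Lo (y * x) - R.Lo x ∈ (C * c) • K) ∧
    (∀ x ∈ EK R K, ∀ y : R.NR, R.Lo y - R.Lo x ∈ c • K → x⁻¹ * y ∈ EK R ((C * c) • K)) := by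
  obtain ⟨C, hC, H⟩ := qbchV R hC0
  refine ⟨C, hC, fun K hK c hc0 hc1 => ?_⟩
  have h1 : ∀ x ∈ EK R K, ∀ y ∈ EK R (c • K), R.Lo (x * y) - R.Lo x ∈ (C * c) • K := by
    intro x hx y hy
    obtain ⟨w, hw, hw2⟩ := mem_EK.1 hy
    simp only at hw2
    have h := H K hK x 0 hK.zero w hw (by rw [R.Ex_zero, mul_one]; exact hx) c hc0 hc1
    rwa [zero_add, hw2, R.Ex_Lo, R.Ex_zero, mul_one] at h
  refine ⟨h1, ?_, ?_⟩
  · intro x hx y hy
    have h2 := h1 x⁻¹ (hK.EK_inv hx) y⁻¹ (by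
      rw [mem_EK, Lo_inv]; exact hK.mem_neg hy)
    have h3 := hK.mem_neg h2
    rw [← mul_inv_rev, Lo_inv, Lo_inv] at h3
    have h4 : -(-R.Lo (y * x) - -R.Lo x) = R.Lo (y * x) - R.Lo x := by abel
    rwa [h4] at h3
  · intro x hx y hy
    obtain ⟨w, hw, hw2⟩ := hy
    simp only at hw2
    have h := H K hK x⁻¹ (R.Lo x) hx w hw (by
      rw [R.Ex_Lo, inv_mul_cancel, Lo_one]; exact hK.zero) c hc0 hc1
    rw [R.Ex_Lo, inv_mul_cancel, Lo_one, sub_zero, hw2, add_sub_cancel, R.Ex_Lo] at h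
    exact h

end csv

end Vale.Agent.P188.H615

end

section

/-!
Logarithmic length bound on `exp e`, for a Lie subalgebra `e` generated by short letters.
-/

open Finset Filter Topology Pointwise

universe u v

namespace Vale.Agent.P188.H615

open Vale.Agent.P188.H796

section metU

variable {N : Type u} [Group N] {d n : ℕ} {D : MB N d n} {A : Type v} [NormedRing A]
  [NormedAlgebra ℝ A] [FiniteDimensional ℝ A] (R : RD D A)

/-- subadditive symmetric functions -/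
structure Sub (ℓ : R.NR → ℝ) : Prop where
  nonneg : ∀ x, 0 ≤ ℓ x
  mul : ∀ x y, ℓ (x * y) ≤ ℓ x + ℓ y
  inv : ∀ x, ℓ x⁻¹ = ℓ x

variable {R}

theorem Sub.list {ℓ : R.NR → ℝ} (h : Sub R ℓ) {ι : Type*} (l : List ι) (x : ι → R.NR) :
    ℓ (l.map x).prod ≤ ℓ 1 + (l.map fun i => ℓ (x i)).sum := by
  induction l with
  | nil => simp
  | cons i l ih =>
    simp only [List.map_cons, List.prod_cons, List.sum_cons]
    have := h.mul (x i) (l.map x).prod
    linarith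

/-- the size of a real number -/
noncomputable def lr (x : ℝ) : ℝ := Real.log (1 + |x|)

theorem lr_nonneg (x : ℝ) : 0 ≤ lr x := log_one_add_nonneg (abs_nonneg x)

/-- families of short elements with tangent direction `z` modulo the next layer -/
structure Fam (ℓ : R.NR → ℝ) (e : Submodule ℝ R.V) (i : ℕ) (z : R.V) (f : ℝ → R.NR) : Prop where
  mem : z ∈ gam R e i
  tan : ∀ x, R.Lo (f x) - x • z ∈ gam R e (i + 1)
  len : OL lr fun x => ℓ (f x)
  siz : OL lr fun x => lz R (f x)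

theorem OL_lv_smul (u : R.V) : OL lr fun x : ℝ => lv R (x • u) := by
  refine ((OL.const (L := lr) lr_nonneg (Real.log (1 + ‖(u : A)‖))).add OL.self).mono fun x => ?_
  have h := log_mul_le (abs_nonneg x) (norm_nonneg (u : A))
  have h2 : lv R (x • u) = Real.log (1 + ‖(u : A)‖ * |x|) := by
    rw [lv, Submodule.coe_smul, norm_smul, Real.norm_eq_abs, mul_comm]
  rw [h2]
  exact h

theorem Fam.zero {ℓ : R.NR → ℝ} {e : Submodule ℝ R.V} {u : R.V} (hu : u ∈ e)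
    (hl : OL lr fun x => ℓ (R.Ex (x • u))) : Fam ℓ e 0 u (fun x => R.Ex (x • u)) where
  mem := hu
  tan x := by rw [R.Lo_Ex, sub_self]; exact Submodule.zero_mem _
  len := hl
  siz := (OL_lv_smul u).mono fun x => by rw [lz_Ex]

theorem Fam.Lo_mem {ℓ : R.NR → ℝ} {e : Submodule ℝ R.V} (he : ∀ x ∈ e, ∀ y ∈ e, ⁅x, y⁆ ∈ e)
    {i : ℕ} {z : R.V} {f : ℝ → R.NR} (h : Fam ℓ e i z f) (x : ℝ) : R.Lo (f x) ∈ gam R e i := by
  have h1 := Submodule.add_mem _ (gam_succ_le he i (h.tan x)) (Submodule.smul_mem _ x h.mem)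
  rwa [sub_add_cancel] at h1

open scoped commutatorElement in
theorem Fam.succ {ℓ : R.NR → ℝ} (hℓ : Sub R ℓ) {e : Submodule ℝ R.V}
    (he : ∀ x ∈ e, ∀ y ∈ e, ⁅x, y⁆ ∈ e) {i : ℕ} {z : R.V} {f : ℝ → R.NR} (h : Fam ℓ e i z f)
    {u : R.V} (hu : u ∈ e) : Fam ℓ e (i + 1) ⁅u, z⁆ (fun x => ⁅R.Ex u, f x⁆) where
  mem := lie_mem_gam hu h.mem
  tan x := by
    have h1 := Lo_comm' R (gam_le he i) (gam_succ_le he i) (gam_succ_le he (i + 1))
      (fun x hx y hy => lie_mem_gam hx hy) (fun x hx y hy => lie_mem_gam hx hy) hu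
      (h.Lo_mem he x)
    rw [R.Ex_Lo] at h1
    have h2 : ⁅u, R.Lo (f x) - x • z⁆ ∈ gam R e (i + 2) := lie_mem_gam hu (h.tan x)
    have h3 : R.Lo ⁅R.Ex u, f x⁆ - x • ⁅u, z⁆ = (R.Lo ⁅R.Ex u, f x⁆ - ⁅u, R.Lo (f x)⁆) +
        ⁅u, R.Lo (f x) - x • z⁆ := by
      rw [lie_sub, lie_smul]; abel
    rw [h3]
    exact Submodule.add_mem _ h1 h2
  len := by
    have h1 := ((OL.const (L := lr) lr_nonneg (2 * ℓ (R.Ex u))).add (h.len.mul_const
      (zero_le_two)))
    refine h1.mono fun x => ?_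
    rw [commutatorElement_def]
    have e1 := hℓ.mul (R.Ex u * f x * (R.Ex u)⁻¹) (f x)⁻¹
    have e2 := hℓ.mul (R.Ex u * f x) (R.Ex u)⁻¹
    have e3 := hℓ.mul (R.Ex u) (f x)
    rw [hℓ.inv] at e1 e2
    linarith
  siz := by
    have c : OL lr fun _ : ℝ => lz R (R.Ex u) := OL.const lr_nonneg _
    have h1 := OL.lz_mul R lr_nonneg (OL.lz_mul R lr_nonneg (OL.lz_mul R lr_nonneg c h.siz)
      (OL.lz_inv R c)) (OL.lz_inv R h.siz)
    exact h1

/-- products of elements of a layer -/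
theorem Lo_list {e : Submodule ℝ R.V} (he : ∀ x ∈ e, ∀ y ∈ e, ⁅x, y⁆ ∈ e) {i : ℕ} {ι : Type*}
    (l : List ι) (x : ι → R.NR) (hx : ∀ j ∈ l, R.Lo (x j) ∈ gam R e i) :
    R.Lo (l.map x).prod ∈ gam R e i ∧
      R.Lo (l.map x).prod - (l.map fun j => R.Lo (x j)).sum ∈ gam R e (i + 1) := by
  induction l with
  | nil =>
    simp only [List.map_nil, List.prod_nil, List.sum_nil]
    rw [Lo_one, sub_zero]
    exact ⟨Submodule.zero_mem _, Submodule.zero_mem _⟩
  | cons j l ih =>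
    obtain ⟨h1, h2⟩ := ih fun k hk => hx k (List.mem_cons_of_mem _ hk)
    have h3 := hx j List.mem_cons_self
    simp only [List.map_cons, List.prod_cons, List.sum_cons]
    have h4 := Lo_Ex_mul_Ex' R (gam_le he i) (gam_succ_le he i)
      (fun x hx y hy => lie_mem_gam hx hy) (gam_le he i h3) h1
    rw [R.Ex_Lo, R.Ex_Lo] at h4
    refine ⟨?_, ?_⟩
    · have h5 := Submodule.add_mem _ (gam_succ_le he i h4) (Submodule.add_mem _ h3 h1)
      have h6 : R.Lo (x j * (l.map x).prod) - R.Lo (x j) - R.Lo (l.map x).prod +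
        (R.Lo (x j) + R.Lo (l.map x).prod) = R.Lo (x j * (l.map x).prod) := by abel
      rwa [h6] at h5
    · have h6 : R.Lo (x j * (l.map x).prod) - (R.Lo (x j) + (l.map fun j => R.Lo (x j)).sum) =
        (R.Lo (x j * (l.map x).prod) - R.Lo (x j) - R.Lo (l.map x).prod) +
        (R.Lo (l.map x).prod - (l.map fun j => R.Lo (x j)).sum) := by abel
      rw [h6]
      exact Submodule.add_mem _ h4 h2

/-- descending induction step -/
theorem good_step {ℓ : R.NR → ℝ} (hℓ : Sub R ℓ) {e : Submodule ℝ R.V}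
    (he : ∀ x ∈ e, ∀ y ∈ e, ⁅x, y⁆ ∈ e) {i : ℕ} {Z : Set R.V} (hZ : ∀ z ∈ Z, ∃ f, Fam ℓ e i z f)
    (hsp : gam R e i ≤ Submodule.span ℝ Z ⊔ gam R e (i + 1))
    (hg : OL (fun X : gam R e (i + 1) => lv R X) fun X => ℓ (R.Ex X)) :
    OL (fun X : gam R e i => lv R X) fun X => ℓ (R.Ex X) := by
  classical
  obtain ⟨b, hbZ, hbs, hbi⟩ := exists_linearIndependent ℝ Z
  have hfin : b.Finite := hbi.setFinite
  have : Fintype b := hfin.fintype
  rw [← hbs] at hsp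
  choose! f hf using hZ
  let Tc : (b → ℝ) →ₗ[ℝ] R.V := Fintype.linearCombination ℝ (fun k : b => (k : R.V))
  let T : ((b → ℝ) × gam R e (i + 1)) →ₗ[ℝ] R.V :=
    Tc.coprod (gam R e (i + 1)).subtype
  have hT : ∀ c y, T (c, y) = ∑ k : b, c k • (k : R.V) + (y : R.V) := by
    intro c y
    simp [T, Tc, Fintype.linearCombination_apply]
  have hrange : ∀ X ∈ gam R e i, ∃ p, T p = X := by
    intro X hX
    obtain ⟨a, ha, y, hy, rfl⟩ := Submodule.mem_sup.1 (hsp hX)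
    have h1 : a ∈ Submodule.span ℝ (Set.range fun k : b => (k : R.V)) := by
      rwa [Subtype.range_coe]
    rw [Submodule.mem_span_range_iff_exists_fun] at h1
    obtain ⟨c, hc⟩ := h1
    exact ⟨(c, ⟨y, hy⟩), by rw [hT, hc]⟩
  obtain ⟨g, hg2⟩ := LinearMap.exists_rightInverse_of_surjective T.rangeRestrict
    (LinearMap.range_eq_top.2 T.surjective_rangeRestrict)
  obtain ⟨G, hG⟩ := LinearMap.exists_extend g
  have hTG : ∀ X ∈ gam R e i, T (G X) = X := by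
    intro X hX
    obtain ⟨p, hp⟩ := hrange X hX
    have hXr : X ∈ LinearMap.range T := ⟨p, hp⟩
    have h1 : G X = g ⟨X, hXr⟩ := by rw [← hG]; rfl
    have h2 := LinearMap.congr_fun hg2 ⟨X, hXr⟩
    rw [h1]
    exact congrArg Subtype.val h2
  set L : gam R e i → ℝ := fun X => lv R X with hL
  have hL0 : ∀ X, 0 ≤ L X := fun X => lv_nonneg R _
  -- coefficient functionals
  have hc : ∀ k : b, OL L fun X => lr ((G X).1 k) := by
    intro k
    obtain ⟨C, hC, h⟩ := phi_bound R ((LinearMap.proj k).comp ((LinearMap.fst ℝ _ _).comp G))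
    refine ((OL.const hL0 (Real.log (1 + C))).add OL.self).mono fun X => ?_
    have h1 : |(G X).1 k| ≤ C * ‖((X : R.V) : A)‖ := h X
    refine (Real.log_le_log (by positivity) (add_le_add_right h1 1)).trans ?_
    exact log_mul_le (norm_nonneg _) hC
  set F : b → gam R e i → R.NR := fun k X => f k ((G X).1 k) with hF
  have hFam : ∀ k : b, Fam ℓ e i k (f k) := fun k => hf k (hbZ k.2)
  have hFl : ∀ k : b, OL L fun X => ℓ (F k X) := fun k =>
    OL.trans hL0 ((hFam k).len.comp fun X : gam R e i => (G X).1 k) (hc k)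
  have hFs : ∀ k : b, OL L fun X => lz R (F k X) := fun k =>
    OL.trans hL0 ((hFam k).siz.comp fun X : gam R e i => (G X).1 k) (hc k)
  set l : List b := Finset.univ.toList with hl
  set P : gam R e i → R.NR := fun X => (l.map fun k => F k X).prod with hP
  have hPs : OL L fun X => lz R (P X) := OL.lz_list R hL0 l fun k _ => hFs k
  have hPl : OL L fun X => ℓ (P X) := by
    refine ((OL.const hL0 (ℓ 1)).add (OL.sum hL0 Finset.univ (F := fun k X => ℓ (F k X))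
      fun k _ => hFl k)).mono fun X => ?_
    have h1 := hℓ.list l (fun k => F k X)
    have h2 : (l.map fun k => ℓ (F k X)).sum = ∑ k, ℓ (F k X) := by
      rw [hl, Finset.sum_map_toList]
    rw [h2] at h1
    exact h1
  set Q : gam R e i → R.NR := fun X => (P X)⁻¹ * R.Ex X with hQ
  have hXs : OL L fun X => lz R (R.Ex X) := OL.self.mono fun X => by rw [lz_Ex]
  have hQs : OL L fun X => lz R (Q X) := OL.lz_mul R hL0 (OL.lz_inv R hPs) hXs
  have hQm : ∀ X, R.Lo (Q X) ∈ gam R e (i + 1) := by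
    intro X
    obtain ⟨h1, h2⟩ := Lo_list he l (fun k => F k X) fun k _ => (hFam k).Lo_mem he _
    have h3 : (l.map fun k => R.Lo (F k X)).sum = ∑ k, R.Lo (F k X) := by
      rw [hl, Finset.sum_map_toList]
    rw [h3] at h2
    have h4 : ∑ k : b, R.Lo (F k X) - ∑ k : b, (G X).1 k • (k : R.V) ∈ gam R e (i + 1) := by
      rw [← sum_sub_distrib]
      exact Submodule.sum_mem _ fun k _ => (hFam k).tan _
    have h5 : (X : R.V) = ∑ k : b, (G X).1 k • (k : R.V) + ((G X).2 : R.V) := by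
      rw [← hT, Prod.mk.eta, hTG X X.2]
    have h6 := Lo_Ex_mul_Ex' R (gam_le he i) (gam_succ_le he i)
      (fun x hx y hy => lie_mem_gam hx hy) (v := R.Lo (P X)⁻¹) (w := X)
      (by rw [Lo_inv]; exact e.neg_mem (gam_le he i h1)) X.2
    rw [R.Ex_Lo, Lo_inv] at h6
    have h7 : R.Lo (Q X) = (R.Lo (Q X) - -R.Lo (P X) - (X : R.V)) - (R.Lo (P X) -
      ∑ k : b, R.Lo (F k X)) - (∑ k : b, R.Lo (F k X) - ∑ k : b, (G X).1 k • (k : R.V)) +
      ((G X).2 : R.V) := by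
      have h8 : ((G X).2 : R.V) = (X : R.V) - ∑ k : b, (G X).1 k • (k : R.V) := by
        rw [eq_sub_iff_add_eq, add_comm]; exact h5.symm
      rw [h8]
      abel
    rw [h7]
    exact Submodule.add_mem _ (Submodule.sub_mem _ (Submodule.sub_mem _ h6 h2) h4) (G X).2.2
  have hQl : OL L fun X => ℓ (Q X) := by
    have h1 := OL.trans hL0 (hg.comp fun X : gam R e i => ⟨R.Lo (Q X), hQm X⟩) hQs
    refine h1.mono fun X => ?_
    rw [R.Ex_Lo]
  refine (hPl.add hQl).mono fun X => ?_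
  have h1 := hℓ.mul (P X) (Q X)
  have h2 : P X * Q X = R.Ex X := mul_inv_cancel_left _ _
  rwa [h2] at h1

/-- **logarithmic length bound** -/
theorem metU {ℓ : R.NR → ℝ} (hℓ : Sub R ℓ) {e : Submodule ℝ R.V}
    (he : ∀ x ∈ e, ∀ y ∈ e, ⁅x, y⁆ ∈ e) {Cv : Set R.V}
    (hCv : ∀ x, x ∈ LieSubalgebra.lieSpan ℝ R.V Cv ↔ x ∈ e)
    (hl : ∀ u ∈ Cv, OL lr fun x : ℝ => ℓ (R.Ex (x • u))) :
    ∃ C : ℝ, 0 ≤ C ∧ ∀ X ∈ e, ℓ (R.Ex X) ≤ C * (1 + Real.log (1 + ‖(X : A)‖)) := by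
  have hC : Cv ⊆ e := fun x hx => (hCv x).1 (LieSubalgebra.subset_lieSpan hx)
  have h0 := le_span_sup he hCv
  -- families in all layers
  have key : ∀ i, ∃ Z : Set R.V, (∀ z ∈ Z, ∃ f, Fam ℓ e i z f) ∧
      gam R e i ≤ Submodule.span ℝ Z ⊔ gam R e (i + 1) := by
    intro i
    induction i with
    | zero => exact ⟨Cv, fun u hu => ⟨_, Fam.zero (hC hu) (hl u hu)⟩, h0⟩
    | succ i ih =>
      obtain ⟨Z, hZ, hsp⟩ := ih
      refine ⟨{z | ∃ u ∈ Cv, ∃ y ∈ Z, ⁅u, y⁆ = z}, ?_, gam_step hC h0 hsp⟩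
      rintro _ ⟨u, hu, y, hy, rfl⟩
      obtain ⟨f, hf⟩ := hZ y hy
      exact ⟨_, hf.succ hℓ he (hC hu)⟩
  have good : ∀ k i, R.m ≤ i + 1 + k → OL (fun X : gam R e i => lv R X) fun X => ℓ (R.Ex X) := by
    intro k
    induction k with
    | zero =>
      intro i hi
      refine (OL.const (fun X => lv_nonneg R _) (ℓ 1)).mono fun X => ?_
      have h1 : (X : R.V) = 0 :=
        (Submodule.mem_bot ℝ).1 ((gam_eq_bot (e := e) (i := i) (by omega)).le X.2)
      rw [h1, R.Ex_zero]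
    | succ k ih =>
      intro i hi
      obtain ⟨Z, hZ, hsp⟩ := key i
      exact good_step hℓ he hZ hsp (ih (i + 1) (by omega))
  obtain ⟨C, hC0, h⟩ := good R.m 0 (by omega)
  exact ⟨C, hC0, fun X hX => h ⟨X, hX⟩⟩

end metU

end Vale.Agent.P188.H615

end

section

/-!
Homogeneous boxes of a Lie subalgebra `e`.
-/

open Finset Filter Topology Pointwise

universe u v

namespace Vale.Agent.P188.H615

open Vale.Agent.P188.H796

section hb

variable {N : Type u} [Group N] {d n : ℕ} {D : MB N d n} {A : Type v} [NormedRing A]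
  [NormedAlgebra ℝ A] [FiniteDimensional ℝ A] {R : RD D A} {e : Submodule ℝ R.V}

/-- `[gam i, gam j] ⊆ gam (i + j + 1)` -/
theorem lie_gam_gam (i : ℕ) : ∀ (j : ℕ) {x y : R.V}, x ∈ gam R e i → y ∈ gam R e j →
    ⁅x, y⁆ ∈ gam R e (i + j + 1) := by
  induction i with
  | zero =>
    intro j x y hx hy
    rw [zero_add]
    exact lie_mem_gam hx hy
  | succ i ih =>
    intro j x y hx hy
    rw [gam] at hx
    induction hx using Submodule.span_induction with
    | mem x hx =>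
      obtain ⟨a, ha, b, hb, rfl⟩ := hx
      rw [lie_lie]
      have e1 : i + 1 + j + 1 = (i + j + 1) + 1 := by omega
      have e2 : i + 1 + j + 1 = i + (j + 1) + 1 := by omega
      refine Submodule.sub_mem _ ?_ ?_
      · rw [e1]; exact lie_mem_gam ha (ih j hb hy)
      · rw [e2]; exact ih (j + 1) hb (lie_mem_gam ha hy)
    | zero => rw [zero_lie]; exact Submodule.zero_mem _
    | add a b _ _ ha hb => rw [add_lie]; exact Submodule.add_mem _ ha hb
    | smul t a _ ha => rw [smul_lie]; exact Submodule.smul_mem _ t ha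

theorem norm_lie_le (x y : R.V) : ‖((⁅x, y⁆ : R.V) : A)‖ ≤ 2 * (‖(x : A)‖ * ‖(y : A)‖) := by
  rw [R.coe_bracket]
  have h1 := norm_sub_le ((x : A) * y) ((y : A) * x)
  have h2 := norm_mul_le (x : A) (y : A)
  have h3 := norm_mul_le (y : A) (x : A)
  nlinarith

variable (R e) in
/-- the homogeneous box of size `ρ` -/
noncomputable def hb (ρ : ℝ) : Set R.V :=
  {X | ∃ x : Fin R.m → R.V, (∀ i : Fin R.m, x i ∈ gam R e i ∧ ‖(x i : A)‖ ≤ 1) ∧
    X = ∑ i : Fin R.m, ρ ^ ((i : ℕ) + 1) • x i}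

theorem hb_le {ρ : ℝ} (he : ∀ x ∈ e, ∀ y ∈ e, ⁅x, y⁆ ∈ e) {X : R.V} (h : X ∈ hb R e ρ) :
    X ∈ e := by
  obtain ⟨x, hx, rfl⟩ := h
  exact e.sum_mem fun i _ => e.smul_mem _ (gam_le he i (hx i).1)

theorem norm_hb_le {ρ : ℝ} (hρ : 1 ≤ ρ) {X : R.V} (h : X ∈ hb R e ρ) :
    ‖(X : A)‖ ≤ R.m * ρ ^ R.m := by
  obtain ⟨x, hx, rfl⟩ := h
  rw [Submodule.coe_sum]
  refine (norm_sum_le _ _).trans ?_
  have h1 : ∀ i ∈ (univ : Finset (Fin R.m)), ‖((ρ ^ ((i : ℕ) + 1) • x i : R.V) : A)‖ ≤ ρ ^ R.m := by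
    intro i _
    rw [Submodule.coe_smul, norm_smul, norm_pow, Real.norm_of_nonneg (by linarith)]
    calc ρ ^ ((i : ℕ) + 1) * ‖(x i : A)‖ ≤ ρ ^ ((i : ℕ) + 1) * 1 :=
          mul_le_mul_of_nonneg_left (hx i).2 (by positivity)
      _ = ρ ^ ((i : ℕ) + 1) := mul_one _
      _ ≤ ρ ^ R.m := pow_le_pow_right₀ hρ i.2
  refine (sum_le_sum h1).trans ?_
  rw [sum_const, nsmul_eq_mul, card_univ, Fintype.card_fin]

theorem ball_le_hb {ρ : ℝ} (hρ : 0 < ρ) {X : R.V} (hX : X ∈ e) (h : ‖(X : A)‖ ≤ ρ) :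
    X ∈ hb R e ρ := by
  have hm := R.hm0
  refine ⟨fun i => if (i : ℕ) = 0 then ρ⁻¹ • X else 0, fun i => ?_, ?_⟩
  · by_cases hi : (i : ℕ) = 0
    · simp only [if_pos hi]
      rw [hi]
      refine ⟨Submodule.smul_mem _ _ hX, ?_⟩
      rw [Submodule.coe_smul, norm_smul, Real.norm_of_nonneg (by positivity), inv_mul_le_iff₀ hρ,
        mul_one]
      exact h
    · simp only [if_neg hi]
      exact ⟨Submodule.zero_mem _, by simp⟩
  · rw [Finset.sum_eq_single (⟨0, hm⟩ : Fin R.m)]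
    · simp only [zero_add, pow_one, if_true, smul_smul]
      rw [mul_inv_cancel₀ hρ.ne', one_smul]
    · intro i _ hi
      have : (i : ℕ) ≠ 0 := fun h => hi (Fin.ext h)
      simp only [if_neg this, smul_zero]
    · intro h; exact absurd (mem_univ _) h

/-- homogeneous boxes are closed under brackets, uniformly -/
theorem csv_hb (ρ : ℝ) : CSV R (hb R e ρ) (2 * R.m ^ 2) where
  conv := by
    rintro _ ⟨x, hx, rfl⟩ _ ⟨y, hy, rfl⟩ a b ha hb hab
    refine ⟨fun i => a • x i + b • y i, fun i => ⟨Submodule.add_mem _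
      (Submodule.smul_mem _ _ (hx i).1) (Submodule.smul_mem _ _ (hy i).1), ?_⟩, ?_⟩
    · rw [Submodule.coe_add, Submodule.coe_smul, Submodule.coe_smul]
      refine (norm_add_le _ _).trans ?_
      rw [norm_smul, norm_smul, Real.norm_of_nonneg ha, Real.norm_of_nonneg hb]
      have h1 := (hx i).2
      have h2 := (hy i).2
      nlinarith
    · rw [smul_sum, smul_sum, ← sum_add_distrib]
      refine sum_congr rfl fun i _ => ?_
      rw [smul_add, smul_comm a, smul_comm b]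
  zero := ⟨fun _ => 0, fun i => ⟨Submodule.zero_mem _, by simp⟩, by simp⟩
  neg := by
    rintro _ ⟨x, hx, rfl⟩
    refine ⟨fun i => - x i, fun i => ⟨Submodule.neg_mem _ (hx i).1, ?_⟩, ?_⟩
    · rw [Submodule.coe_neg, norm_neg]; exact (hx i).2
    · rw [← sum_neg_distrib]
      exact sum_congr rfl fun i _ => by rw [smul_neg]
  nonneg := by positivity
  br := by
    rintro _ ⟨x, hx, rfl⟩ _ ⟨y, hy, rfl⟩
    have hm : (0 : ℝ) < 2 * (R.m : ℝ) ^ 2 := by
      have : (0 : ℝ) < R.m := by exact_mod_cast R.hm0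
      positivity
    have h1 : ⁅∑ i : Fin R.m, ρ ^ ((i : ℕ) + 1) • x i, ∑ i : Fin R.m, ρ ^ ((i : ℕ) + 1) • y i⁆ =
        ∑ i : Fin R.m, ∑ j : Fin R.m, ρ ^ ((i : ℕ) + j + 1 + 1) • ⁅x i, y j⁆ := by
      rw [sum_lie_sum]
      refine sum_congr rfl fun i _ => sum_congr rfl fun j _ => ?_
      rw [smul_lie, lie_smul, smul_smul]
      congr 1; ring
    have h2 : ∀ i j : Fin R.m, ρ ^ ((i : ℕ) + j + 1 + 1) • ⁅x i, y j⁆ =
        ∑ k : Fin R.m, ρ ^ ((k : ℕ) + 1) • (if (i : ℕ) + j + 1 = k then ⁅x i, y j⁆ else 0) := by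
      intro i j
      by_cases hij : (i : ℕ) + j + 1 < R.m
      · rw [Finset.sum_eq_single (⟨(i : ℕ) + j + 1, hij⟩ : Fin R.m)]
        · simp
        · intro k _ hk
          rw [if_neg (fun h => hk (Fin.ext h.symm)), smul_zero]
        · intro h; exact absurd (mem_univ _) h
      · have h3 : ⁅x i, y j⁆ = 0 := by
          have h4 := lie_gam_gam i j (hx i).1 (hy j).1
          rw [gam_eq_bot (by omega)] at h4
          exact (Submodule.mem_bot ℝ).1 h4
        rw [h3, smul_zero]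
        symm
        refine sum_eq_zero fun k _ => ?_
        split_ifs <;> rw [smul_zero]
    rw [h1]
    simp only [h2]
    have h5 : ∑ i : Fin R.m, ∑ j : Fin R.m, ∑ k : Fin R.m,
        ρ ^ ((k : ℕ) + 1) • (if (i : ℕ) + j + 1 = k then ⁅x i, y j⁆ else 0) =
        ∑ k : Fin R.m, ρ ^ ((k : ℕ) + 1) • ∑ i : Fin R.m, ∑ j : Fin R.m,
          (if (i : ℕ) + j + 1 = k then ⁅x i, y j⁆ else 0) := by
      simp only [smul_sum]
      rw [sum_comm' (t' := univ) (s' := fun _ => univ) (by simp)]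
      rw [sum_congr rfl fun j _ => sum_comm]
      rw [sum_comm]
      refine sum_congr rfl fun k _ => ?_
      rw [sum_comm]
    rw [h5]
    refine ⟨∑ k : Fin R.m, ρ ^ ((k : ℕ) + 1) • ((2 * (R.m : ℝ) ^ 2)⁻¹ • ∑ i : Fin R.m,
      ∑ j : Fin R.m, (if (i : ℕ) + j + 1 = k then ⁅x i, y j⁆ else 0)), ⟨_, fun k => ⟨?_, ?_⟩, rfl⟩,
      ?_⟩
    · refine Submodule.smul_mem _ _ (Submodule.sum_mem _ fun i _ => Submodule.sum_mem _ fun j _ => ?_)
      split_ifs with h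
      · rw [← h]; exact lie_gam_gam i j (hx i).1 (hy j).1
      · exact Submodule.zero_mem _
    · rw [Submodule.coe_smul, norm_smul, Real.norm_of_nonneg (by positivity), inv_mul_le_iff₀ hm,
        mul_one, Submodule.coe_sum]
      refine (norm_sum_le _ _).trans ?_
      have h6 : ∀ i : Fin R.m, ‖((∑ j : Fin R.m, (if (i : ℕ) + j + 1 = k then ⁅x i, y j⁆ else 0) :
          R.V) : A)‖ ≤ R.m * 2 := by
        intro i
        rw [Submodule.coe_sum]
        refine (norm_sum_le _ _).trans ?_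
        have h7 : ∀ j ∈ (univ : Finset (Fin R.m)),
            ‖(((if (i : ℕ) + j + 1 = k then ⁅x i, y j⁆ else 0) : R.V) : A)‖ ≤ 2 := by
          intro j _
          split_ifs
          · refine (norm_lie_le _ _).trans ?_
            have h8 := (hx i).2
            have h9 := (hy j).2
            have h10 := norm_nonneg (x i : A)
            have h11 := norm_nonneg (y j : A)
            nlinarith
          · simp
        refine (sum_le_sum h7).trans ?_
        rw [sum_const, nsmul_eq_mul, card_univ, Fintype.card_fin]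
      refine (sum_le_sum fun i _ => h6 i).trans ?_
      rw [sum_const, nsmul_eq_mul, card_univ, Fintype.card_fin]
      nlinarith
    · simp only
      rw [smul_sum]
      refine sum_congr rfl fun k _ => ?_
      rw [smul_comm, smul_inv_smul₀ hm.ne']

end hb

end Vale.Agent.P188.H615

end

section

/-!
Separated nets in groups; finite nets in homogeneous boxes; coverings of `exp (D hb)` by translates
of `exp (δ hb)`.
-/

open Finset Filter Topology Pointwise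

universe u v

namespace Vale.Agent.P188.H615

open Vale.Agent.P188.H796

section abstract_nets

variable {G : Type u} [Group G]

/-- `T` is covered by `M` left translates of `W` -/
def Cov (T W : Set G) (M : ℕ) : Prop :=
  ∃ Y : Finset G, Y.card ≤ M ∧ ∀ x ∈ T, ∃ y ∈ Y, y⁻¹ * x ∈ W

/-- `U`-separated sets -/
def Sepd (X : Finset G) (U : Set G) : Prop := ∀ x ∈ X, ∀ y ∈ X, x⁻¹ * y ∈ U → x = y

theorem Cov.mono {T T' W W' : Set G} {M M' : ℕ} (h : Cov T W M) (hT : T' ⊆ T) (hW : W ⊆ W')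
    (hM : M ≤ M') : Cov T' W' M' := by
  obtain ⟨Y, hY, h⟩ := h
  refine ⟨Y, hY.trans hM, fun x hx => ?_⟩
  obtain ⟨y, hy, h1⟩ := h x (hT hx)
  exact ⟨y, hy, hW h1⟩

theorem Cov.trans {T W W' : Set G} {M M' : ℕ} (h : Cov T W M) (h' : Cov W W' M') :
    Cov T W' (M * M') := by
  classical
  obtain ⟨Y, hY, h⟩ := h
  obtain ⟨Y', hY', h'⟩ := h'
  refine ⟨Y * Y', (Finset.card_mul_le).trans (Nat.mul_le_mul hY hY'), fun x hx => ?_⟩
  obtain ⟨y, hy, h1⟩ := h x hx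
  obtain ⟨y', hy', h2⟩ := h' _ h1
  refine ⟨y * y', Finset.mul_mem_mul hy hy', ?_⟩
  rwa [mul_inv_rev, mul_assoc]

theorem Cov.translate {T W : Set G} {M : ℕ} (h : Cov T W M) (g : G) :
    Cov {x | g⁻¹ * x ∈ T} W M := by
  classical
  obtain ⟨Y, hY, h⟩ := h
  refine ⟨Y.image fun y => g * y, Finset.card_image_le.trans hY, fun x hx => ?_⟩
  obtain ⟨y, hy, h1⟩ := h _ hx
  refine ⟨g * y, Finset.mem_image_of_mem _ hy, ?_⟩
  rwa [mul_inv_rev, mul_assoc]

open Classical in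
theorem Sepd.card_le {X : Finset G} {U W T : Set G} {M : ℕ} (hX : Sepd X U)
    (hW : ∀ a ∈ W, ∀ b ∈ W, a⁻¹ * b ∈ U) (hT : Cov T W M) :
    (X.filter fun x => x ∈ T).card ≤ M := by
  obtain ⟨Y, hY, h⟩ := hT
  choose! f hf1 hf2 using h
  refine le_trans (Finset.card_le_card_of_injOn f ?_ ?_) hY
  · intro x hx
    exact hf1 x (Finset.mem_filter.1 hx).2
  · intro x hx x' hx' hxx
    have hx := Finset.mem_filter.1 (Finset.mem_coe.1 hx)
    have hx' := Finset.mem_filter.1 (Finset.mem_coe.1 hx')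
    refine hX x hx.1 x' hx'.1 ?_
    have h1 := hW _ (hf2 x hx.2) _ (hf2 x' hx'.2)
    rw [hxx] at h1
    have h2 : ((f x')⁻¹ * x)⁻¹ * ((f x')⁻¹ * x') = x⁻¹ * x' := by group
    rwa [h2] at h1

/-- existence of separated nets -/
theorem exists_net {T U W : Set G} {M : ℕ} (h1 : (1 : G) ∈ U) (hU : ∀ x ∈ U, x⁻¹ ∈ U)
    (hW : ∀ a ∈ W, ∀ b ∈ W, a⁻¹ * b ∈ U) (hT : Cov T W M) :
    ∃ X : Finset G, (∀ x ∈ X, x ∈ T) ∧ Sepd X U ∧ ∀ t ∈ T, ∃ x ∈ X, x⁻¹ * t ∈ U := by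
  classical
  have hb : ∀ X : Finset G, (∀ x ∈ X, x ∈ T) → Sepd X U → X.card ≤ M := by
    intro X hX hs
    have := hs.card_le hW hT
    rwa [Finset.filter_true_of_mem hX] at this
  have key : ∀ k : ℕ, (∃ X : Finset G, (∀ x ∈ X, x ∈ T) ∧ Sepd X U ∧ X.card = k) →
      ∃ X : Finset G, (∀ x ∈ X, x ∈ T) ∧ Sepd X U ∧ ∀ X' : Finset G, (∀ x ∈ X', x ∈ T) →
        Sepd X' U → X'.card ≤ X.card := by
    have : ∀ j k : ℕ, M ≤ k + j → (∃ X : Finset G, (∀ x ∈ X, x ∈ T) ∧ Sepd X U ∧ X.card = k) →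
      ∃ X : Finset G, (∀ x ∈ X, x ∈ T) ∧ Sepd X U ∧ ∀ X' : Finset G, (∀ x ∈ X', x ∈ T) →
        Sepd X' U → X'.card ≤ X.card := by
      intro j
      induction j with
      | zero =>
        rintro k hk ⟨X, h1, h2, h3⟩
        exact ⟨X, h1, h2, fun X' h1' h2' => (hb X' h1' h2').trans (by omega)⟩
      | succ j ih =>
        rintro k hk ⟨X, h1, h2, h3⟩
        by_cases hmax : ∀ X' : Finset G, (∀ x ∈ X', x ∈ T) → Sepd X' U → X'.card ≤ X.card
        · exact ⟨X, h1, h2, hmax⟩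
        · push Not at hmax
          obtain ⟨X', h1', h2', h3'⟩ := hmax
          exact ih X'.card (by omega) ⟨X', h1', h2', rfl⟩
    intro k hk
    exact this M k (by omega) hk
  obtain ⟨X, hXT, hXs, hmax⟩ := key 0 ⟨∅, by simp, by intro x hx; simp at hx, by simp⟩
  refine ⟨X, hXT, hXs, fun t ht => ?_⟩
  by_contra hcon
  push Not at hcon
  have htX : t ∉ X := fun h => hcon t h (by rwa [inv_mul_cancel])
  have h3 := hmax (insert t X) (by
    intro x hx
    rcases Finset.mem_insert.1 hx with rfl | hx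
    · exact ht
    · exact hXT x hx) (by
    intro x hx y hy hxy
    rcases Finset.mem_insert.1 hx with hx' | hx'
    · rcases Finset.mem_insert.1 hy with hy' | hy'
      · rw [hx', hy']
      · refine absurd ?_ (hcon y hy')
        have := hU _ hxy
        rwa [mul_inv_rev, inv_inv, hx'] at this
    · rcases Finset.mem_insert.1 hy with hy' | hy'
      · rw [hy'] at hxy
        exact absurd hxy (hcon x hx')
      · exact hXs x hx' y hy' hxy)
  rw [Finset.card_insert_of_notMem htX] at h3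
  omega

end abstract_nets

section nets

variable {N : Type u} [Group N] {d n : ℕ} {D : MB N d n} {A : Type v} [NormedRing A]
  [NormedAlgebra ℝ A] [FiniteDimensional ℝ A] {R : RD D A}

/-- `K` has finite `c`-nets with at most `M` points -/
def NetK (K : Set R.V) (c : ℝ) (M : ℕ) : Prop :=
  ∃ F : Finset R.V, F.card ≤ M ∧ (∀ v ∈ F, v ∈ K) ∧ ∀ v ∈ K, ∃ v' ∈ F, ∃ w ∈ K, v = v' + c • w

theorem NetK.smul {K : Set R.V} {c : ℝ} {M : ℕ} (h : NetK K c M) (D : ℝ) : NetK (D • K) c M := by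
  classical
  obtain ⟨F, hF, h1, h2⟩ := h
  refine ⟨F.image fun v => D • v, Finset.card_image_le.trans hF, ?_, ?_⟩
  · intro v hv
    obtain ⟨u, hu, rfl⟩ := Finset.mem_image.1 hv
    exact ⟨u, h1 u hu, rfl⟩
  · rintro _ ⟨v, hv, rfl⟩
    obtain ⟨v', hv', w, hw, rfl⟩ := h2 v hv
    refine ⟨D • v', Finset.mem_image_of_mem _ hv', D • w, ⟨w, hw, rfl⟩, ?_⟩
    simp only
    rw [smul_add, smul_comm]

/-- unit balls of submodules of `V` have finite nets -/
theorem exists_net_ball (W : Submodule ℝ R.V) {c : ℝ} (hc : 0 < c) :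
    ∃ F : Finset R.V, (∀ v ∈ F, v ∈ W ∧ ‖(v : A)‖ ≤ 1) ∧
      ∀ v ∈ W, ‖(v : A)‖ ≤ 1 → ∃ v' ∈ F, ‖((v - v' : R.V) : A)‖ ≤ c := by
  classical
  have : ProperSpace A := FiniteDimensional.proper ℝ A
  have h1 : IsCompact ((im R W : Set A) ∩ Metric.closedBall 0 1) := by
    refine (isCompact_closedBall (0 : A) 1).inter_left ?_
    exact Submodule.closed_of_finiteDimensional _
  obtain ⟨t, ht1, ht2, ht3⟩ := h1.finite_cover_balls hc
  have h4 : ∀ a ∈ t, ∃ v : R.V, v ∈ W ∧ (v : A) = a := by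
    intro a ha
    obtain ⟨⟨v, hv, hva⟩, _⟩ := ht1 ha
    exact ⟨v, hv, hva⟩
  choose! f hf1 hf2 using h4
  refine ⟨ht2.toFinset.image f, ?_, ?_⟩
  · intro v hv
    obtain ⟨a, ha, rfl⟩ := Finset.mem_image.1 hv
    have ha := ht2.mem_toFinset.1 ha
    refine ⟨hf1 a ha, ?_⟩
    rw [hf2 a ha]
    have := (ht1 ha).2
    rwa [mem_closedBall_zero_iff] at this
  · intro v hv hvn
    have h5 := ht3 (show (v : A) ∈ (im R W : Set A) ∩ Metric.closedBall 0 1 from
      ⟨(mem_im R).2 hv, by rwa [mem_closedBall_zero_iff]⟩)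
    simp only [Set.mem_iUnion, exists_prop] at h5
    obtain ⟨a, ha, hav⟩ := h5
    refine ⟨f a, Finset.mem_image_of_mem _ (ht2.mem_toFinset.2 ha), ?_⟩
    rw [Submodule.coe_sub, hf2 a ha, ← dist_eq_norm]
    exact (Metric.mem_ball.1 hav).le

/-- homogeneous boxes have uniform finite nets -/
theorem netK_hb (e : Submodule ℝ R.V) {c : ℝ} (hc : 0 < c) : ∃ M : ℕ, ∀ ρ : ℝ,
    NetK (hb R e ρ) c M := by
  classical
  choose F hF1 hF2 using fun i : Fin R.m => exists_net_ball (R := R) (gam R e i) hc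
  refine ⟨(Fintype.piFinset F).card, fun ρ => ?_⟩
  refine ⟨(Fintype.piFinset F).image fun x => ∑ i : Fin R.m, ρ ^ ((i : ℕ) + 1) • x i,
    Finset.card_image_le, ?_, ?_⟩
  · intro v hv
    obtain ⟨x, hx, rfl⟩ := Finset.mem_image.1 hv
    rw [Fintype.mem_piFinset] at hx
    exact ⟨x, fun i => hF1 i _ (hx i), rfl⟩
  · rintro _ ⟨x, hx, rfl⟩
    choose y hy1 hy2 using fun i => hF2 i (x i) (hx i).1 (hx i).2
    refine ⟨∑ i : Fin R.m, ρ ^ ((i : ℕ) + 1) • y i,
      Finset.mem_image_of_mem _ (Fintype.mem_piFinset.2 hy1),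
      ∑ i : Fin R.m, ρ ^ ((i : ℕ) + 1) • (c⁻¹ • (x i - y i)), ⟨_, fun i => ⟨?_, ?_⟩, rfl⟩, ?_⟩
    · exact Submodule.smul_mem _ _ (Submodule.sub_mem _ (hx i).1 (hF1 i _ (hy1 i)).1)
    · rw [Submodule.coe_smul, norm_smul, Real.norm_of_nonneg (by positivity),
        inv_mul_le_iff₀ hc, mul_one]
      exact hy2 i
    · rw [smul_sum, ← sum_add_distrib]
      refine sum_congr rfl fun i _ => ?_
      rw [smul_comm c, smul_inv_smul₀ hc.ne', ← smul_add, add_sub_cancel]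

/-- coverings by small translates -/
theorem cov_of_net {C0 : ℝ} (hC0 : 0 ≤ C0) {δ : ℝ} (hδ : 0 < δ) : ∃ c : ℝ, 0 < c ∧ c ≤ 1 ∧
    ∀ (K : Set R.V) (M : ℕ), CSV R K C0 → NetK K c M → Cov (EK R K) (EK R (δ • K)) M := by
  classical
  obtain ⟨C, hC, H⟩ := qbchE R hC0
  refine ⟨min 1 (δ / (C + 1)), lt_min one_pos (by positivity), min_le_left _ _, ?_⟩
  set c := min 1 (δ / (C + 1)) with hc
  have hc0 : 0 < c := lt_min one_pos (by positivity)
  have hcδ : C * c ≤ δ := by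
    have h1 : c ≤ δ / (C + 1) := min_le_right _ _
    calc C * c ≤ C * (δ / (C + 1)) := mul_le_mul_of_nonneg_left h1 hC
      _ = δ * (C / (C + 1)) := by ring
      _ ≤ δ * 1 := by
          refine mul_le_mul_of_nonneg_left ?_ hδ.le
          rw [div_le_one (by positivity)]; linarith
      _ = δ := mul_one δ
  rintro K M hK ⟨F, hF, hF1, hF2⟩
  refine ⟨F.image R.Ex, Finset.card_image_le.trans hF, fun x hx => ?_⟩
  obtain ⟨v', hv', w, hw, hvw⟩ := hF2 (R.Lo x) hx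
  refine ⟨R.Ex v', Finset.mem_image_of_mem _ hv', ?_⟩
  have h1 := (H K hK c hc0.le (min_le_left _ _)).2.2 (R.Ex v') (by
    rw [mem_EK, R.Lo_Ex]; exact hF1 v' hv') x (by
    rw [R.Lo_Ex, hvw, add_sub_cancel_left]
    exact ⟨w, hw, rfl⟩)
  exact hK.mem_mono (by positivity) hcδ h1

end nets

end Vale.Agent.P188.H615

end

section

/-!
Logarithmic length bound for the group `S` of a Malcev basis.
-/

open Finset Filter Topology Pointwise

universe u v

namespace Vale.Agent.P188.H615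

open Vale.Agent.P188.H796

/-- symmetric subadditive `ℕ`-valued functions -/
structure SubN {S : Type*} [Group S] (l : S → ℕ) : Prop where
  mul : ∀ x y, l (x * y) ≤ l x + l y
  inv : ∀ x, l x⁻¹ = l x

theorem SubN.pow {S : Type*} [Group S] {l : S → ℕ} (h : SubN l) (x : S) (n : ℕ) :
    l (x ^ n) ≤ l 1 + n * l x := by
  induction n with
  | zero => simp
  | succ n ih =>
    rw [pow_succ]
    have := h.mul (x ^ n) x
    nlinarith

section general

variable {N : Type u} [Group N] {d n : ℕ} {D : MB N d n} {A : Type v} [NormedRing A]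
  [NormedAlgebra ℝ A] [FiniteDimensional ℝ A] (R : RD D A)

/-- the norm as a seminorm on `V` -/
noncomputable def sn : Seminorm ℝ R.V := (normSeminorm ℝ A).comp R.V.subtype

/-- letters contracted by some group element are short -/
theorem letter_OL {S : Type*} [Group S] {l : S → ℕ} (hl : SubN l) (j : R.NR →* S)
    (T : Module.End ℝ R.V) (g : S) (hT : ∀ v, j (R.Ex (T v)) = g⁻¹ * j (R.Ex v) * g)
    (C1 : ℕ) (hC1 : ∀ v : R.V, ‖(v : A)‖ ≤ 1 → l (j (R.Ex v)) ≤ C1)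
    {u : R.V} {C lam : ℝ} (hlam : 0 < lam) (hC : 0 ≤ C)
    (hu : ∀ n : ℕ, ‖(((T ^ n) u : R.V) : A)‖ ≤ C * Real.exp (-(lam * n))) :
    OL lr fun x : ℝ => ((l (j (R.Ex (x • u))) : ℕ) : ℝ) := by
  have hpow : ∀ (n : ℕ) (v : R.V), j (R.Ex ((T ^ n) v)) = (g⁻¹) ^ n * j (R.Ex v) * g ^ n := by
    intro n
    induction n with
    | zero => intro v; simp
    | succ n ih =>
      intro v
      rw [pow_succ', Module.End.mul_apply, hT, ih, pow_succ', pow_succ]
      simp only [mul_assoc]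
  set F : ℝ → ℕ := fun x => ⌈(lr x + Real.log (1 + C)) / lam⌉₊ with hF
  have key : ∀ x : ℝ, l (j (R.Ex (x • u))) ≤ C1 + 2 * (l 1 + F x * l g) := by
    intro x
    have h1 := hpow (F x) (x • u)
    have h2 : ‖(((T ^ (F x)) (x • u) : R.V) : A)‖ ≤ 1 := by
      rw [map_smul, Submodule.coe_smul, norm_smul, Real.norm_eq_abs]
      have h3 : |x| * (C * Real.exp (-(lam * (F x : ℕ)))) ≤ 1 := by
        have h4 : (lr x + Real.log (1 + C)) / lam ≤ (F x : ℝ) := Nat.le_ceil _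
        rw [div_le_iff₀ hlam] at h4
        have h5 : (1 + |x|) * (1 + C) ≤ Real.exp (lam * F x) := by
          rw [← Real.exp_log (show 0 < (1 + |x|) * (1 + C) by positivity)]
          refine Real.exp_le_exp.2 ?_
          rw [Real.log_mul (by positivity) (by positivity)]
          have : lr x = Real.log (1 + |x|) := rfl
          linarith
        rw [Real.exp_neg, ← mul_assoc, ← div_eq_mul_inv, div_le_one (Real.exp_pos _)]
        refine le_trans ?_ h5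
        nlinarith [abs_nonneg x]
      exact (mul_le_mul_of_nonneg_left (hu (F x)) (abs_nonneg x)).trans h3
    have h3 : j (R.Ex (x • u)) = g ^ (F x) * j (R.Ex ((T ^ (F x)) (x • u))) * (g ^ (F x))⁻¹ := by
      rw [h1, inv_pow]; group
    rw [h3]
    have e1 := hl.mul (g ^ (F x) * j (R.Ex ((T ^ (F x)) (x • u)))) (g ^ (F x))⁻¹
    have e2 := hl.mul (g ^ (F x)) (j (R.Ex ((T ^ (F x)) (x • u))))
    have e3 := hl.pow g (F x)
    have e4 := hC1 _ h2
    rw [hl.inv] at e1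
    omega
  have hFO : OL lr fun x => (F x : ℝ) := by
    have h1 : OL lr fun x => (1 / lam) * (lr x + Real.log (1 + C)) + 1 :=
      ((OL.self.add (OL.const lr_nonneg _)).mul_const (by positivity)).add (OL.const lr_nonneg 1)
    refine h1.mono fun x => ?_
    have h2 : (F x : ℝ) ≤ (lr x + Real.log (1 + C)) / lam + 1 := by
      refine (Nat.ceil_lt_add_one ?_).le
      have := lr_nonneg x
      have := log_one_add_nonneg hC
      positivity
    calc (F x : ℝ) ≤ _ := h2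
      _ = _ := by ring
  have h2 : OL lr fun x => ((C1 : ℝ) + 2 * l 1) + (2 * l g) * (F x : ℝ) :=
    (OL.const lr_nonneg _).add (hFO.mul_const (by positivity))
  refine h2.mono fun x => ?_
  have h3 : ((l (j (R.Ex (x • u))) : ℕ) : ℝ) ≤ ((C1 + 2 * (l 1 + F x * l g) : ℕ) : ℝ) := by
    exact_mod_cast key x
  refine h3.trans (le_of_eq ?_)
  push_cast; ring

end general

section concrete

variable {Γ : Type u} [Group Γ] {N : Subgroup Γ} [hN : N.Normal] {d n : ℕ} (D : MB N d n)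

/-- **(M1)** logarithmic length bound on `exp e` -/
theorem M1 {l : D.S → ℕ} (hl : SubN l) (C1 : ℕ)
    (hC1 : ∀ v : D.R.V, ‖(v : D.Alg)‖ ≤ 1 → l (D.ex v) ≤ C1)
    (e : LieIdeal ℝ D.R.V) (F : Set D.S) (hPF : ∀ x, x ∈ H269.PF D.AdE F ↔ x ∈ e) :
    ∃ C : ℝ, 0 ≤ C ∧ ∀ X ∈ e, (l (D.ex X) : ℝ) ≤ C * (1 + Real.log (1 + ‖(X : D.Alg)‖)) := by
  have hsub : Sub D.R (fun x => ((l (D.inN x) : ℕ) : ℝ)) :=
    { nonneg := fun x => Nat.cast_nonneg _
      mul := fun x y => by rw [map_mul]; exact_mod_cast hl.mul _ _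
      inv := fun x => by rw [map_inv, hl.inv] }
  refine metU hsub (e := e.toSubmodule) (fun x _ y hy => e.lie_mem hy) hPF ?_
  intro u hu
  simp only [Set.mem_iUnion] at hu
  obtain ⟨g, _, hg⟩ := hu
  obtain ⟨C, lam, hlam, hC, h⟩ := H269.Cn.seminorm hg (sn D.R)
  refine letter_OL D.R hl D.inN (D.AdE g⁻¹) g ?_ C1 hC1 hlam hC h
  intro v
  have := D.ex_Ad g⁻¹ v
  rw [inv_inv] at this
  exact this

end concrete

end Vale.Agent.P188.H615

end

section

/-!
Nets in `exp e`.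
-/

open Finset Filter Topology Pointwise

universe u v

namespace Vale.Agent.P188.H615

open Vale.Agent.P188.H796

section netE

variable {N : Type u} [Group N] {d n : ℕ} {D : MB N d n} {A : Type v} [NormedRing A]
  [NormedAlgebra ℝ A] [FiniteDimensional ℝ A] {R : RD D A} {e : Submodule ℝ R.V}

variable (R e) in
/-- the unit ball of `e` -/
def bl : Set R.V := {v | v ∈ e ∧ ‖(v : A)‖ ≤ 1}

theorem mem_smul_bl {r : ℝ} (hr : 0 ≤ r) {v : R.V} : v ∈ r • bl R e ↔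
    v ∈ e ∧ ‖(v : A)‖ ≤ r := by
  constructor
  · rintro ⟨w, ⟨hw1, hw2⟩, rfl⟩
    refine ⟨e.smul_mem r hw1, ?_⟩
    simp only
    rw [Submodule.coe_smul, norm_smul, Real.norm_of_nonneg hr]
    nlinarith
  · rintro ⟨h1, h2⟩
    rcases hr.eq_or_lt with h | h
    · subst h
      have h3 : (v : A) = 0 := norm_le_zero_iff.1 h2
      have h4 : v = 0 := Subtype.ext h3
      exact ⟨0, ⟨e.zero_mem, by simp⟩, by simp [h4]⟩
    · refine ⟨r⁻¹ • v, ⟨e.smul_mem _ h1, ?_⟩, smul_inv_smul₀ h.ne' v⟩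
      rw [Submodule.coe_smul, norm_smul, Real.norm_of_nonneg (by positivity), inv_mul_le_iff₀ h,
        mul_one]
      exact h2

theorem csv_bl (he : ∀ x ∈ e, ∀ y ∈ e, ⁅x, y⁆ ∈ e) : CSV R (bl R e) 2 where
  conv := by
    rintro x ⟨hx1, hx2⟩ y ⟨hy1, hy2⟩ a b ha hb hab
    refine ⟨e.add_mem (e.smul_mem _ hx1) (e.smul_mem _ hy1), ?_⟩
    rw [Submodule.coe_add, Submodule.coe_smul, Submodule.coe_smul]
    refine (norm_add_le _ _).trans ?_
    rw [norm_smul, norm_smul, Real.norm_of_nonneg ha, Real.norm_of_nonneg hb]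
    nlinarith
  zero := ⟨e.zero_mem, by simp⟩
  neg := fun x hx => ⟨e.neg_mem hx.1, by rw [Submodule.coe_neg, norm_neg]; exact hx.2⟩
  nonneg := zero_le_two
  br := by
    rintro x ⟨hx1, hx2⟩ y ⟨hy1, hy2⟩
    rw [mem_smul_bl zero_le_two]
    refine ⟨he x hx1 y hy1, (norm_lie_le x y).trans ?_⟩
    have h10 := norm_nonneg (x : A)
    have h11 := norm_nonneg (y : A)
    nlinarith

theorem netK_bl {c : ℝ} (hc : 0 < c) : ∃ M, NetK (bl R e) c M := by
  obtain ⟨F, hF1, hF2⟩ := exists_net_ball e hc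
  refine ⟨F.card, F, le_rfl, hF1, fun v hv => ?_⟩
  obtain ⟨v', hv', h⟩ := hF2 v hv.1 hv.2
  refine ⟨v', hv', c⁻¹ • (v - v'), ⟨e.smul_mem _ (e.sub_mem hv.1 (hF1 v' hv').1), ?_⟩, ?_⟩
  · rw [Submodule.coe_smul, norm_smul, Real.norm_of_nonneg (by positivity),
      inv_mul_le_iff₀ hc, mul_one]
    exact h
  · rw [smul_inv_smul₀ hc.ne', add_sub_cancel]

/-- balls are covered by small balls -/
theorem cov_bl (he : ∀ x ∈ e, ∀ y ∈ e, ⁅x, y⁆ ∈ e) {r δ : ℝ} (hr : 0 < r) (hδ : 0 < δ) :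
    ∃ M, Cov (EK R (r • bl R e)) (EK R (δ • bl R e)) M := by
  obtain ⟨c, hc, _, H⟩ := cov_of_net (R := R) (C0 := r * 2) (by positivity)
    (δ := δ / r) (by positivity)
  obtain ⟨M, hM⟩ := netK_bl (R := R) (e := e) hc
  refine ⟨M, ?_⟩
  have h := H (r • bl R e) M ((csv_bl he).smul hr.le) (hM.smul r)
  rwa [smul_smul, div_mul_cancel₀ _ hr.ne'] at h

/-- homogeneous boxes are covered by boundedly many translates of smaller ones -/
theorem cov_hb (e : Submodule ℝ R.V) {D' δ : ℝ} (hD : 0 < D') (hδ : 0 < δ) :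
    ∃ M, ∀ ρ : ℝ, Cov (EK R (D' • hb R e ρ)) (EK R (δ • hb R e ρ)) M := by
  obtain ⟨c, hc, _, H⟩ := cov_of_net (R := R) (C0 := D' * (2 * R.m ^ 2)) (by positivity)
    (δ := δ / D') (by positivity)
  obtain ⟨M, hM⟩ := netK_hb (R := R) e hc
  refine ⟨M, fun ρ => ?_⟩
  have h := H (D' • hb R e ρ) M ((csv_hb ρ).smul hD.le) ((hM ρ).smul D')
  rwa [smul_smul, div_mul_cancel₀ _ hD.ne'] at h

/-- small balls: `W⁻¹ W ⊆ U` -/
theorem exists_small (he : ∀ x ∈ e, ∀ y ∈ e, ⁅x, y⁆ ∈ e) : ∃ δ : ℝ, 0 < δ ∧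
    ∀ a ∈ EK R (δ • bl R e), ∀ b ∈ EK R (δ • bl R e), a⁻¹ * b ∈ EK R (bl R e) := by
  obtain ⟨C, hC, H⟩ := qbchE R (C0 := 2) zero_le_two
  refine ⟨1 / (2 * (C + 1)), by positivity, fun a ha b hb => ?_⟩
  have hcsv := csv_bl (R := R) (e := e) he
  have hδ0 : 0 ≤ 1 / (2 * (C + 1)) := by positivity
  have hδ1 : 1 / (2 * (C + 1)) ≤ 1 := by
    rw [div_le_one (by positivity)]; linarith
  have ha' : a⁻¹ ∈ EK R (bl R e) := hcsv.EK_inv (hcsv.mem_of_smul hδ0 hδ1 ha)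
  have h1 := (H _ hcsv _ hδ0 hδ1).1 a⁻¹ ha' b hb
  have h2 : R.Lo a⁻¹ ∈ (1 / (2 * (C + 1))) • bl R e := by
    rw [Lo_inv]; exact hcsv.mem_neg ha
  have h3 := hcsv.mem_add (by positivity) hδ0 h1 h2
  rw [sub_add_cancel] at h3
  refine hcsv.mem_of_smul (by positivity) ?_ h3
  have h5 : C * (1 / (2 * (C + 1))) + 1 / (2 * (C + 1)) = 1 / 2 := by field_simp
  rw [h5]; norm_num

open Classical in
/-- **nets in `exp e`** -/
theorem netE (he : ∀ x ∈ e, ∀ y ∈ e, ⁅x, y⁆ ∈ e) {D' r : ℝ} (hD : 1 ≤ D') (hr : 0 < r) :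
    ∃ M : ℕ, ∀ ρ : ℝ, 1 ≤ ρ → ∃ X1 X2 : Finset R.NR, X1.Nonempty ∧
      (∀ x ∈ X1, x ∈ EK R (hb R e ρ)) ∧ (∀ x ∈ X2, x ∈ EK R (D' • hb R e ρ)) ∧
      X2.card ≤ M * X1.card ∧ (∀ t ∈ EK R (D' • hb R e ρ), ∃ x ∈ X2, x⁻¹ * t ∈ EK R (bl R e)) ∧
      ∀ y : R.NR, (X1.filter fun x => y⁻¹ * x ∈ EK R (r • bl R e)).card ≤ M := by
  have hcsv := csv_bl (R := R) (e := e) he
  obtain ⟨δ, hδ, hW⟩ := exists_small (R := R) (e := e) he
  obtain ⟨M1, hM1⟩ := cov_hb (R := R) e (D' := D') (δ := 1) (by linarith) one_pos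
  obtain ⟨M2, hM2⟩ := cov_bl (R := R) (e := e) he (r := 1) one_pos hδ
  obtain ⟨M3, hM3⟩ := cov_bl (R := R) (e := e) he hr hδ
  rw [one_smul] at hM2
  simp only [one_smul] at hM1
  refine ⟨max (M1 * M2) M3, fun ρ hρ => ?_⟩
  have hD0 : 0 < D' := by linarith
  have hm : (0 : ℝ) < R.m := by exact_mod_cast R.hm0
  -- finiteness
  obtain ⟨M4, hM4⟩ := cov_bl (R := R) (e := e) he (r := D' * (R.m * ρ ^ R.m)) (by positivity) hδ
  have hsub : EK R (D' • hb R e ρ) ⊆ EK R ((D' * (R.m * ρ ^ R.m)) • bl R e) := by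
    intro x hx
    obtain ⟨w, hw, hw2⟩ := hx
    rw [mem_EK, ← hw2, mem_smul_bl (by positivity)]
    refine ⟨e.smul_mem _ (hb_le he hw), ?_⟩
    simp only
    rw [Submodule.coe_smul, norm_smul, Real.norm_of_nonneg hD0.le]
    exact mul_le_mul_of_nonneg_left (norm_hb_le hρ hw) hD0.le
  have hfin := hM4.mono hsub le_rfl le_rfl
  have hsub1 : EK R (hb R e ρ) ⊆ EK R (D' • hb R e ρ) := by
    intro x hx
    have h1 : R.Lo x ∈ (1 : ℝ) • hb R e ρ := by rw [one_smul]; exact hx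
    exact (csv_hb (R := R) (e := e) ρ).mem_mono zero_le_one hD h1
  have h1U : (1 : R.NR) ∈ EK R (bl R e) := by rw [mem_EK, Lo_one]; exact hcsv.zero
  have hUi : ∀ x ∈ EK R (bl R e), x⁻¹ ∈ EK R (bl R e) := fun x hx => hcsv.EK_inv hx
  obtain ⟨X1, hX1a, hX1b, hX1c⟩ := exists_net h1U hUi hW (hfin.mono hsub1 le_rfl le_rfl)
  obtain ⟨X2, hX2a, hX2b, hX2c⟩ := exists_net h1U hUi hW hfin
  refine ⟨X1, X2, ?_, hX1a, hX2a, ?_, hX2c, ?_⟩
  · obtain ⟨x, hx, _⟩ := hX1c 1 (by rw [mem_EK, Lo_one]; exact (csv_hb ρ).zero)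
    exact ⟨x, hx⟩
  · -- count
    obtain ⟨Y, hY, hYc⟩ := hM1 ρ
    have h2 : X2 ⊆ (Y ×ˢ X1).biUnion fun p => X2.filter fun x =>
        x ∈ {x | (p.1 * p.2)⁻¹ * x ∈ EK R (bl R e)} := by
      intro x hx
      obtain ⟨y, hy, h3⟩ := hYc x (hX2a x hx)
      obtain ⟨z, hz, h4⟩ := hX1c _ h3
      rw [Finset.mem_biUnion]
      refine ⟨(y, z), Finset.mem_product.2 ⟨hy, hz⟩, Finset.mem_filter.2 ⟨hx, ?_⟩⟩
      change (y * z)⁻¹ * x ∈ EK R (bl R e)
      rwa [mul_inv_rev, mul_assoc]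
    have h3 := (Finset.card_le_card h2).trans Finset.card_biUnion_le
    have h4 : ∀ p ∈ Y ×ˢ X1, (X2.filter fun x =>
        x ∈ {x | (p.1 * p.2)⁻¹ * x ∈ EK R (bl R e)}).card ≤ M2 := fun p _ =>
      hX2b.card_le hW (hM2.translate _)
    have h5 := h3.trans (Finset.sum_le_sum h4)
    rw [Finset.sum_const, smul_eq_mul, Finset.card_product] at h5
    calc X2.card ≤ Y.card * X1.card * M2 := h5
      _ ≤ M1 * X1.card * M2 := by gcongr
      _ = M1 * M2 * X1.card := by ring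
      _ ≤ max (M1 * M2) M3 * X1.card := Nat.mul_le_mul_right _ (le_max_left _ _)
  · intro y
    exact (hX1b.card_le (T := {x | y⁻¹ * x ∈ EK R (r • bl R e)}) hW (hM3.translate y)).trans
      (le_max_right _ _)

end netE

end Vale.Agent.P188.H615

end

section

/-!
Natural boxes: the bracket closure of a convex symmetric set of generators.
-/

open Finset Filter Topology Pointwise

universe u v

namespace Vale.Agent.P188.H615

open Vale.Agent.P188.H796

section nb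

variable {N : Type u} [Group N] {d n : ℕ} {D : MB N d n} {A : Type v} [NormedRing A]
  [NormedAlgebra ℝ A] [FiniteDimensional ℝ A] {R : RD D A}

/-- convex symmetric sets -/
structure CSy (G : Set R.V) : Prop where
  conv : Convex ℝ G
  zero : (0 : R.V) ∈ G
  neg : ∀ x ∈ G, -x ∈ G

theorem CSy.mem_add {G : Set R.V} (h : CSy G) {a b : ℝ} (ha : 0 ≤ a) (hb : 0 ≤ b) {x y : R.V}
    (hx : x ∈ a • G) (hy : y ∈ b • G) : x + y ∈ (a + b) • G := by
  rw [h.conv.add_smul ha hb]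
  exact Set.add_mem_add hx hy

theorem CSy.mem_neg {G : Set R.V} (h : CSy G) {a : ℝ} {x : R.V} (hx : x ∈ a • G) :
    -x ∈ a • G := by
  obtain ⟨y, hy, rfl⟩ := hx
  exact ⟨-y, h.neg y hy, by simp⟩

theorem CSy.mem_mono {G : Set R.V} (h : CSy G) {a b : ℝ} (ha : 0 ≤ a) (hab : a ≤ b) {x : R.V}
    (hx : x ∈ a • G) : x ∈ b • G := by
  have := h.mem_add ha (sub_nonneg.2 hab) hx (⟨0, h.zero, by simp⟩ : (0 : R.V) ∈ (b - a) • G)
  rwa [add_zero, add_sub_cancel] at this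

theorem CSy.smul {G : Set R.V} (h : CSy G) (c : ℝ) : CSy (c • G) :=
  ⟨h.conv.smul c, ⟨0, h.zero, by simp⟩, fun _ hx => h.mem_neg hx⟩

/-- iterated brackets of elements of `G` -/
def nbk (G : Set R.V) : ℕ → Set R.V
  | 0 => G
  | j + 1 => convexHull ℝ {z | ∃ x ∈ G, ∃ y ∈ nbk G j, ⁅x, y⁆ = z}

theorem lie_mem_nbk {G : Set R.V} {j : ℕ} {x y : R.V} (hx : x ∈ G) (hy : y ∈ nbk G j) :
    ⁅x, y⁆ ∈ nbk G (j + 1) := subset_convexHull ℝ _ ⟨x, hx, y, hy, rfl⟩

theorem csy_nbk {G : Set R.V} (h : CSy G) (j : ℕ) : CSy (nbk G j) := by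
  induction j with
  | zero => exact h
  | succ j ih =>
    refine ⟨convex_convexHull ℝ _, subset_convexHull ℝ _ ⟨0, h.zero, 0, ih.zero, zero_lie 0⟩, ?_⟩
    intro x hx
    have h1 : Convex ℝ {x : R.V | -x ∈ nbk G (j + 1)} := by
      have := (convex_convexHull ℝ {z | ∃ x ∈ G, ∃ y ∈ nbk G j, ⁅x, y⁆ = z}).neg
      exact this
    have h2 : nbk G (j + 1) ⊆ {x : R.V | -x ∈ nbk G (j + 1)} := by
      refine convexHull_min ?_ h1
      rintro _ ⟨a, ha, b, hb, rfl⟩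
      have h3 : -⁅a, b⁆ ∈ nbk G (j + 1) := by
        rw [← neg_lie]
        exact lie_mem_nbk (h.neg a ha) hb
      exact h3
    exact h2 hx

theorem nbk_mono {G G' : Set R.V} (h : G ⊆ G') (j : ℕ) : nbk G j ⊆ nbk G' j := by
  induction j with
  | zero => exact h
  | succ j ih =>
    refine convexHull_mono ?_
    rintro _ ⟨a, ha, b, hb, rfl⟩
    exact ⟨a, h ha, b, ih hb, rfl⟩

theorem nbk_map {G G' : Set R.V} (φ : R.V →ₗ[ℝ] R.V) (hφ : ∀ x y, φ ⁅x, y⁆ = ⁅φ x, φ y⁆)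
    (h : ∀ x ∈ G, φ x ∈ G') (j : ℕ) : ∀ x ∈ nbk G j, φ x ∈ nbk G' j := by
  induction j with
  | zero => exact h
  | succ j ih =>
    intro x hx
    have h1 : Convex ℝ {x : R.V | φ x ∈ nbk G' (j + 1)} :=
      (convex_convexHull ℝ _).linear_preimage φ
    have h2 : nbk G (j + 1) ⊆ {x : R.V | φ x ∈ nbk G' (j + 1)} := by
      refine convexHull_min ?_ h1
      rintro _ ⟨a, ha, b, hb, rfl⟩
      have h3 : φ ⁅a, b⁆ ∈ nbk G' (j + 1) := by
        rw [hφ]
        exact lie_mem_nbk (h a ha) (ih b hb)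
      exact h3
    exact h2 hx

/-- brackets of layers -/
theorem lie_nbk_nbk {G : Set R.V} (h : CSy G) (i : ℕ) : ∀ (j : ℕ) {x y : R.V}, x ∈ nbk G i →
    y ∈ nbk G j → ⁅x, y⁆ ∈ ((2 : ℝ) ^ i) • nbk G (i + j + 1) := by
  induction i with
  | zero =>
    intro j x y hx hy
    rw [pow_zero, one_smul, zero_add]
    exact lie_mem_nbk hx hy
  | succ i ih =>
    intro j x y hx hy
    have hcs := csy_nbk h (i + 1 + j + 1)
    have h1 : Convex ℝ {x : R.V | ⁅x, y⁆ ∈ ((2 : ℝ) ^ (i + 1)) • nbk G (i + 1 + j + 1)} := by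
      let L : R.V →ₗ[ℝ] R.V :=
        { toFun := fun x => ⁅x, y⁆
          map_add' := fun a b => add_lie a b y
          map_smul' := fun c a => smul_lie c a y }
      exact (hcs.conv.smul _).linear_preimage L
    have h2 : nbk G (i + 1) ⊆
        {x : R.V | ⁅x, y⁆ ∈ ((2 : ℝ) ^ (i + 1)) • nbk G (i + 1 + j + 1)} := by
      refine convexHull_min ?_ h1
      rintro _ ⟨a, ha, b, hb, rfl⟩
      change ⁅⁅a, b⁆, y⁆ ∈ ((2 : ℝ) ^ (i + 1)) • nbk G (i + 1 + j + 1)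
      rw [lie_lie, sub_eq_add_neg, pow_succ, mul_two]
      refine hcs.mem_add (by positivity) (by positivity) ?_ (hcs.mem_neg ?_)
      · obtain ⟨z, hz, hz2⟩ := ih j hb hy
        refine ⟨⁅a, z⁆, ?_, ?_⟩
        · have e1 : i + 1 + j + 1 = (i + j + 1) + 1 := by omega
          rw [e1]
          exact lie_mem_nbk ha hz
        · simp only at hz2 ⊢
          rw [← hz2, lie_smul]
      · have h3 := ih (j + 1) hb (lie_mem_nbk ha hy)
        have e2 : i + (j + 1) + 1 = i + 1 + j + 1 := by omega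
        rwa [e2] at h3
    exact h2 hx

theorem nbk_sub_J (G : Set R.V) (j : ℕ) : ∀ x ∈ nbk G j, (x : A) ∈ R.J ^ (j + 1) := by
  induction j with
  | zero =>
    intro x _
    rw [zero_add, pow_one]
    exact R.V_le_J x.2
  | succ j ih =>
    intro x hx
    have h1 : nbk G (j + 1) ⊆ ((R.J ^ (j + 1 + 1)).comap R.V.subtype : Set R.V) := by
      refine convexHull_min ?_ (Submodule.convex _)
      rintro _ ⟨a, _, b, hb, rfl⟩
      have ha : (a : A) ∈ R.J := R.V_le_J a.2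
      have hb := ih b hb
      change (a : A) * (b : A) - (b : A) * (a : A) ∈ R.J ^ (j + 1 + 1)
      refine Submodule.sub_mem _ ?_ ?_
      · rw [pow_succ']
        exact Submodule.mul_mem_mul ha hb
      · rw [pow_succ]
        exact Submodule.mul_mem_mul hb ha
    exact h1 hx

theorem nbk_eq_zero {G : Set R.V} {j : ℕ} (hj : R.m ≤ j + 1) {x : R.V} (hx : x ∈ nbk G j) :
    x = 0 := by
  have h1 := nbk_sub_J G j x hx
  obtain ⟨k, hk⟩ := Nat.exists_eq_add_of_le hj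
  rw [hk, pow_add, R.J_pow, Submodule.bot_mul] at h1
  exact Subtype.ext ((Submodule.mem_bot ℝ).1 h1)

/-- **the natural box** generated by `G` -/
def nb (G : Set R.V) : Set R.V :=
  {X | ∃ x : Fin R.m → R.V, (∀ i : Fin R.m, x i ∈ nbk G i) ∧ X = ∑ i : Fin R.m, x i}

theorem csy_nb {G : Set R.V} (h : CSy G) : CSy (nb G) where
  conv := by
    rintro _ ⟨x, hx, rfl⟩ _ ⟨y, hy, rfl⟩ a b ha hb hab
    refine ⟨fun i => a • x i + b • y i, fun i => (csy_nbk h i).conv (hx i) (hy i) ha hb hab, ?_⟩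
    rw [smul_sum, smul_sum, ← sum_add_distrib]
  zero := ⟨fun _ => 0, fun i => (csy_nbk h i).zero, by simp⟩
  neg := by
    rintro _ ⟨x, hx, rfl⟩
    exact ⟨fun i => - x i, fun i => (csy_nbk h i).neg _ (hx i), by rw [sum_neg_distrib]⟩

theorem CSy.mem_sum {G : Set R.V} (h : CSy G) {ι : Type*} (s : Finset ι) (a : ι → ℝ) (f : ι → R.V)
    (ha : ∀ i ∈ s, 0 ≤ a i) (hf : ∀ i ∈ s, f i ∈ a i • G) :
    ∑ i ∈ s, f i ∈ (∑ i ∈ s, a i) • G := by
  classical
  induction s using Finset.induction_on with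
  | empty => exact ⟨0, h.zero, by simp⟩
  | insert i s hi ih =>
    rw [sum_insert hi, sum_insert hi]
    exact h.mem_add (ha i (mem_insert_self i s))
      (sum_nonneg fun j hj => ha j (mem_insert_of_mem hj)) (hf i (mem_insert_self i s))
      (ih (fun j hj => ha j (mem_insert_of_mem hj)) fun j hj => hf j (mem_insert_of_mem hj))

/-- a single layer is in the box -/
theorem nbk_sub_nb {G : Set R.V} (h : CSy G) (i : Fin R.m) {x : R.V} (hx : x ∈ nbk G i) :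
    x ∈ nb G := by
  classical
  refine ⟨Pi.single i x, fun j => ?_, ?_⟩
  · by_cases hj : j = i
    · subst hj; rw [Pi.single_eq_same]; exact hx
    · rw [Pi.single_eq_of_ne hj]; exact (csy_nbk h j).zero
  · rw [Finset.sum_eq_single i]
    · rw [Pi.single_eq_same]
    · intro j _ hj; exact Pi.single_eq_of_ne hj _
    · intro h; exact absurd (mem_univ _) h

theorem sub_nb {G : Set R.V} (h : CSy G) : G ⊆ nb G := fun _ hx =>
  nbk_sub_nb h ⟨0, R.hm0⟩ hx

/-- natural boxes are closed under brackets up to a constant -/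
theorem csv_nb {G : Set R.V} (h : CSy G) : CSV R (nb G) (R.m ^ 2 * 2 ^ R.m) where
  conv := (csy_nb h).conv
  zero := (csy_nb h).zero
  neg := (csy_nb h).neg
  nonneg := by positivity
  br := by
    rintro _ ⟨x, hx, rfl⟩ _ ⟨y, hy, rfl⟩
    have hcs := csy_nb h
    rw [sum_lie_sum]
    have key : ∀ i j : Fin R.m, ⁅x i, y j⁆ ∈ ((2 : ℝ) ^ R.m) • nb G := by
      intro i j
      obtain ⟨z, hz, hz2⟩ := lie_nbk_nbk h i j (hx i) (hy j)
      simp only at hz2
      by_cases hij : (i : ℕ) + j + 1 < R.m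
      · have h1 : z ∈ nb G := nbk_sub_nb h ⟨(i : ℕ) + j + 1, hij⟩ hz
        refine hcs.mem_mono (a := (2 : ℝ) ^ (i : ℕ)) (by positivity) ?_ ⟨z, h1, hz2⟩
        exact pow_le_pow_right₀ (by norm_num) i.2.le
      · have h1 : z = 0 := nbk_eq_zero (by omega) hz
        rw [h1, smul_zero] at hz2
        rw [← hz2]
        exact ⟨0, hcs.zero, by simp⟩
    have h1 := hcs.mem_sum (univ : Finset (Fin R.m)) (fun _ => (R.m : ℝ) * 2 ^ R.m)
      (fun i => ∑ j, ⁅x i, y j⁆) (fun _ _ => by positivity) (fun i _ => by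
        have h2 := hcs.mem_sum (univ : Finset (Fin R.m)) (fun _ => (2 : ℝ) ^ R.m)
          (fun j => ⁅x i, y j⁆) (fun _ _ => by positivity) (fun j _ => key i j)
        rwa [sum_const, nsmul_eq_mul, card_univ, Fintype.card_fin] at h2)
    rw [sum_const, nsmul_eq_mul, card_univ, Fintype.card_fin, ← mul_assoc, ← pow_two] at h1
    exact h1

theorem nb_mono {G G' : Set R.V} (h : G ⊆ G') : nb G ⊆ nb G' := by
  rintro _ ⟨x, hx, rfl⟩
  exact ⟨x, fun i => nbk_mono h i (hx i), rfl⟩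

theorem nb_map {G G' : Set R.V} (φ : R.V →ₗ[ℝ] R.V) (hφ : ∀ x y, φ ⁅x, y⁆ = ⁅φ x, φ y⁆)
    (h : ∀ x ∈ G, φ x ∈ G') {X : R.V} (hX : X ∈ nb G) : φ X ∈ nb G' := by
  obtain ⟨x, hx, rfl⟩ := hX
  exact ⟨fun i => φ (x i), fun i => nbk_map φ hφ h i _ (hx i), by rw [map_sum]⟩

/-- dilation of layers -/
theorem nbk_smul {G : Set R.V} (c : ℝ) (j : ℕ) :
    nbk (c • G) j = (c ^ (j + 1)) • nbk G j := by
  induction j with
  | zero => rw [zero_add, pow_one]; rfl
  | succ j ih =>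
    have h1 : {z : R.V | ∃ x ∈ c • G, ∃ y ∈ nbk (c • G) j, ⁅x, y⁆ = z} =
        (c ^ (j + 1 + 1)) • {z : R.V | ∃ x ∈ G, ∃ y ∈ nbk G j, ⁅x, y⁆ = z} := by
      rw [ih]
      ext z
      constructor
      · rintro ⟨_, ⟨x, hx, rfl⟩, _, ⟨y, hy, rfl⟩, rfl⟩
        refine ⟨⁅x, y⁆, ⟨x, hx, y, hy, rfl⟩, ?_⟩
        simp only
        rw [smul_lie, lie_smul, smul_smul]
        congr 1; ring
      · rintro ⟨_, ⟨x, hx, y, hy, rfl⟩, rfl⟩
        refine ⟨c • x, ⟨x, hx, rfl⟩, c ^ (j + 1) • y, ⟨y, hy, rfl⟩, ?_⟩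
        simp only
        rw [smul_lie, lie_smul, smul_smul]
        congr 1; ring
    change convexHull ℝ {z : R.V | ∃ x ∈ c • G, ∃ y ∈ nbk (c • G) j, ⁅x, y⁆ = z} = _
    rw [h1, convexHull_smul]
    rfl

/-- `c • nb G ⊆ nb (c • G)` for `c ≥ 1` -/
theorem smul_nb_sub {G : Set R.V} (h : CSy G) {c : ℝ} (hc : 1 ≤ c) : c • nb G ⊆ nb (c • G) := by
  rintro _ ⟨_, ⟨x, hx, rfl⟩, rfl⟩
  refine ⟨fun i => c • x i, fun i => ?_, ?_⟩
  · rw [nbk_smul c]
    refine (csy_nbk h i).mem_mono (a := c) (by linarith) ?_ ⟨x i, hx i, rfl⟩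
    calc c = c ^ 1 := (pow_one c).symm
      _ ≤ c ^ ((i : ℕ) + 1) := pow_le_pow_right₀ hc (by omega)
  · simp only
    rw [smul_sum]

/-- `nb (c • G) ⊆ c ^ m • nb G` for `c ≥ 1` -/
theorem nb_smul_sub {G : Set R.V} (h : CSy G) {c : ℝ} (hc : 1 ≤ c) :
    nb (c • G) ⊆ (c ^ R.m) • nb G := by
  have hc0 : 0 < c := by linarith
  rintro _ ⟨x, hx, rfl⟩
  refine ⟨∑ i : Fin R.m, (c ^ R.m)⁻¹ • x i, ⟨_, fun i => ?_, rfl⟩, ?_⟩
  · obtain ⟨y, hy, hy2⟩ : x i ∈ (c ^ ((i : ℕ) + 1)) • nbk G i := by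
      rw [← nbk_smul c]; exact hx i
    simp only at hy2
    have h1 := (csy_nbk h i).mem_mono (a := c ^ ((i : ℕ) + 1)) (b := c ^ R.m) (by positivity)
      (pow_le_pow_right₀ hc i.2) ⟨y, hy, hy2⟩
    obtain ⟨z, hz, hz2⟩ := h1
    simp only at hz2
    rw [← hz2, inv_smul_smul₀ (by positivity)]
    exact hz
  · simp only
    rw [← smul_sum, smul_inv_smul₀ (by positivity)]

end nb

end Vale.Agent.P188.H615

end
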