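import Vale.Agent.P188.R.G051
import Vale.Agent.P188.R.G050

section

/-! P188, block PSI: growth of the number of end points with the length of the segment. -/

universe u v w

open Finset

namespace Vale.Agent.P188.H530

open Vale.Agent.P188.H789 (Bl PathTo Bl_mono mul_mem_Bl mem_Bl_one one_mem_Bl)

variable {G : Type u} [Group G] {E : Type v} [NormedAddCommGroup E] [NormedSpace ℝ E]
  {θ : G → E} {b : E →L[ℝ] ℝ}

theorem growth_fiber (c : Crossed θ b) (hθ : ∀ x y, θ (x * y) = θ x + θ y) {B : Set G}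
    {r₀ ℓ D₁ : ℝ} (hr₀ : 0 ≤ r₀) (hB : SegStep θ B r₀) (h1 : (1 : G) ∈ B) (hu : c.u ∈ B)
    (hℓ0 : 0 ≤ ℓ) (hℓ : ∀ a ∈ B, ‖θ a‖ ≤ ℓ) (hD₁0 : 0 ≤ D₁) (hD₁ : ∀ a ∈ B, ‖c.D a‖ ≤ D₁)
    {m : ℕ} {W : E} {d r : ℝ} (hd0 : 0 ≤ d) (hd1 : d ≤ 1) (hr : 0 ≤ r) (hbW : 0 ≤ b W)
    {M : ℕ} (hM : 2 * ‖W‖ + r ≤ M) {c₀ : ℝ} (hc₀ : 0 < c₀)
    (hK : 4 * ((m + M : ℕ) : ℝ) * D₁ * Real.exp (‖b‖ * (r + 2 * r₀)) < ‖c.D c.u‖ * Real.exp c₀)
    {Q : ℕ} (hQ : c₀ + Q * (‖b‖ * ℓ + 2) ≤ (1 - d) * b W - ‖b‖ * r₀)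
    (hfin : (Ends θ B (m + M + 2 * (M + 1)) W (r + 2 * r₀)).Finite) (p₀ : E) :
    {x | x ∈ Ends θ B m (d • W) r ∧ θ x = p₀}.ncard * 2 ^ (Q + 1) ≤
      (Ends θ B (m + M + 2 * (M + 1)) W (r + 2 * r₀)).ncard := by
  classical
  set X := {x | x ∈ Ends θ B m (d • W) r ∧ θ x = p₀} with hX
  rcases Set.eq_empty_or_nonempty X with hempty | ⟨x₁, hx₁⟩
  · rw [hempty, Set.ncard_empty, Nat.zero_mul]
    exact Nat.zero_le _
  have hp₀ : p₀ ∈ {v : E | ∃ s : ℝ, 0 ≤ s ∧ s ≤ 1 ∧ ‖v - s • (d • W)‖ ≤ r} := by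
    have := Ends_near hx₁.1
    rw [← hx₁.2]
    exact this
  obtain ⟨s, hs0, hs1, hs⟩ := hp₀
  have hnp : ‖p₀‖ ≤ ‖W‖ + r := by
    have h2 := norm_of_Near (Ends_near hx₁.1)
    rw [hx₁.2, norm_smul, Real.norm_of_nonneg hd0] at h2
    have : d * ‖W‖ ≤ 1 * ‖W‖ := by gcongr
    linarith
  have hnW : ‖d • W‖ ≤ ‖W‖ := by
    rw [norm_smul, Real.norm_of_nonneg hd0]
    calc d * ‖W‖ ≤ 1 * ‖W‖ := by gcongr
      _ = _ := one_mul _
  have hY : ‖d • W - p₀‖ ≤ M := by
    refine (norm_sub_le _ _).trans ?_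
    linarith
  have hY2 : ‖(1 - d) • W‖ ≤ M := by
    rw [norm_smul, Real.norm_of_nonneg (by linarith)]
    have : (1 - d) * ‖W‖ ≤ 1 * ‖W‖ := by gcongr; linarith
    have := norm_nonneg W
    linarith
  obtain ⟨τ, τ0, τB, τn⟩ := exists_segment hr₀ (add_one hθ) hB (d • W - p₀) hY
  obtain ⟨h, h0, hhB, hn⟩ := exists_segment hr₀ (add_one hθ) hB ((1 - d) • W) hY2
  -- the heights along `h`
  set a : ℕ → ℝ := fun i => b (θ (h i)) with ha
  have ha0 : a 0 = 0 := by simp only [ha, h0, add_one hθ, map_zero]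
  have hbℓ : 0 ≤ ‖b‖ * ℓ := mul_nonneg (norm_nonneg _) hℓ0
  have hs' : ∀ i, a (i + 1) ≤ a i + ‖b‖ * ℓ := by
    intro i
    have h2 := hℓ _ (hhB i)
    have e : θ (h (i + 1)) = θ (h i) + θ ((h i)⁻¹ * h (i + 1)) := by
      rw [← hθ, mul_inv_cancel_left]
    simp only [ha]
    rw [e, map_add]
    have h3 : b (θ ((h i)⁻¹ * h (i + 1))) ≤ ‖b‖ * ℓ :=
      (le_abs_self _).trans ((b.le_opNorm _).trans (by gcongr))
    linarith
  have haM : (1 - d) * b W - ‖b‖ * r₀ ≤ a M := by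
    obtain ⟨t, ht0, ht1, ht2, ht3⟩ := hn M
    rw [ht3 le_rfl] at ht2
    have h3 : |b (θ (h M) - (1 - d) • W)| ≤ ‖b‖ * r₀ := (b.le_opNorm _).trans (by gcongr)
    rw [map_sub, map_smul, smul_eq_mul, abs_le] at h3
    simp only [ha]
    linarith [h3.1]
  obtain ⟨j, hjM, hjlev, hjlt⟩ := exists_levels ha0 hs' hc₀ (q₀ := ‖b‖ * ℓ + 2) (by linarith) hbℓ
    (hQ.trans haM)
  have hjmono : ∀ k i, i + k ≤ Q → 0 < k → j i < j (i + k) := by
    intro k
    induction k with
    | zero => intro i _ h; omega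
    | succ k ih =>
      intro i hi _
      rcases Nat.eq_zero_or_pos k with rfl | hk
      · exact hjlt i (by omega)
      · exact (ih i (by omega) hk).trans (hjlt (i + k) (by omega))
  have hjinj : Set.InjOn j (range (Q + 1) : Set ℕ) := by
    intro i hi i' hi' hii
    rw [Finset.mem_coe, Finset.mem_range] at hi hi'
    rcases Nat.lt_trichotomy i i' with hlt | heq | hlt
    · have := hjmono (i' - i) i (by omega) (by omega)
      rw [Nat.add_sub_cancel' hlt.le, hii] at this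
      exact absurd this (lt_irrefl _)
    · exact heq
    · have := hjmono (i - i') i' (by omega) (by omega)
      rw [Nat.add_sub_cancel' hlt.le, hii] at this
      exact absurd this (lt_irrefl _)
  -- the lacunary sequence
  set ζ : ℕ → ℂ := fun i => c.ρ (h (j i)) with hζ
  have hζn : ∀ i, ‖ζ i‖ = Real.exp (a (j i)) := fun i => c.norm_ρ _
  have hlac : ∀ i, i + 1 < Q + 1 → 3 * ‖ζ i‖ ≤ ‖ζ (i + 1)‖ := by
    intro i hi
    rw [hζn, hζn]
    have h2 := (hjlev i (by omega)).2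
    have h3 := (hjlev (i + 1) (by omega)).1
    push_cast at h3
    have h4 : a (j i) + 2 ≤ a (j (i + 1)) := by nlinarith
    calc 3 * Real.exp (a (j i)) ≤ Real.exp 2 * Real.exp (a (j i)) := by
          gcongr
          have := Real.add_one_le_exp (2 : ℝ)
          linarith
      _ = Real.exp (a (j i) + 2) := by rw [← Real.exp_add]; ring_nf
      _ ≤ _ := Real.exp_le_exp.mpr h4
  have hζ0 : Real.exp c₀ ≤ ‖ζ 0‖ := by
    rw [hζn]
    have := (hjlev 0 (Nat.zero_le _)).1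
    rw [Nat.cast_zero, zero_mul, add_zero] at this
    exact Real.exp_le_exp.mpr this
  have hsumJ : ∀ S ⊆ range (Q + 1),
      ∑ i ∈ (range (M + 1)).filter (· ∈ S.image j), c.ρ (h i) = ∑ i ∈ S, ζ i := by
    intro S hS
    have e : (range (M + 1)).filter (· ∈ S.image j) = S.image j := by
      ext i
      rw [Finset.mem_filter, Finset.mem_range]
      refine ⟨fun h => h.2, fun hi => ⟨?_, hi⟩⟩
      obtain ⟨k, hk, rfl⟩ := Finset.mem_image.mp hi
      have := hjM k (by have := hS hk; rw [Finset.mem_range] at this; omega)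
      omega
    rw [e, Finset.sum_image]
    intro k hk k' hk' hkk
    exact hjinj (hS hk) (hS hk') hkk
  -- the two paths
  have hpath1 : ∀ x ∈ X, PathTo (Near θ (d • W) (r + r₀)) B (m + M) 1 (x * τ M) := by
    intro x hx
    refine PathTo.trans (y := x) (hx.1.mono (Near_mono (by linarith)) subset_rfl) ?_
    refine ⟨fun i => x * τ i, by simp [τ0], rfl, fun i _ => ?_, fun i _ => ?_⟩
    · obtain ⟨t, ht0, ht1, ht2, -⟩ := τn i
      refine ⟨(1 - t) * s + t, by nlinarith, by nlinarith, ?_⟩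
      simp only
      rw [hθ, hx.2]
      have e : p₀ + θ (τ i) - ((1 - t) * s + t) • d • W =
          (1 - t) • (p₀ - s • d • W) + (θ (τ i) - t • (d • W - p₀)) := by
        module
      rw [e]
      refine (norm_add_le _ _).trans (add_le_add ?_ ht2)
      rw [norm_smul, Real.norm_of_nonneg (by linarith)]
      have := norm_nonneg (p₀ - s • d • W)
      nlinarith
    · have e : (x * τ i)⁻¹ * (x * τ (i + 1)) = (τ i)⁻¹ * τ (i + 1) := by group
      simp only
      rw [e]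
      exact τB i
  have hθz : ∀ x ∈ X, ‖θ (x * τ M) - d • W‖ ≤ r₀ := by
    intro x hx
    obtain ⟨t, ht0, ht1, ht2, ht3⟩ := τn M
    rw [ht3 le_rfl] at ht2
    rw [hθ, hx.2]
    have e : p₀ + θ (τ M) - d • W = θ (τ M) - (d • W - p₀) := by abel
    rwa [e]
  have hpath2 : ∀ x ∈ X, ∀ J : Finset ℕ,
      x * τ M * ins c.u h J (M + 1) ∈ Ends θ B (m + M + 2 * (M + 1)) W (r + 2 * r₀) := by
    intro x hx J
    refine PathTo.trans (y := x * τ M) ?_ ?_
    · refine (hpath1 x hx).mono ?_ subset_rfl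
      exact (Near_smul hd0 hd1).trans (Near_mono (by linarith))
    · refine path_ins c hθ h0 hhB hu h1 J (fun y i hy => ?_) (M + 1)
      obtain ⟨t, ht0, ht1, ht2, -⟩ := hn i
      refine ⟨d + t * (1 - d), by nlinarith, by nlinarith, ?_⟩
      rw [hy]
      have e : θ (x * τ M) + θ (h i) - (d + t * (1 - d)) • W =
          (θ (x * τ M) - d • W) + (θ (h i) - t • (1 - d) • W) := by module
      rw [e]
      refine (norm_add_le _ _).trans ?_
      have := hθz x hx
      linarith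
  -- the multiplier on the first part
  have hKρ : ∀ x ∈ Near θ (d • W) (r + r₀),
      ‖c.ρ x‖ ≤ Real.exp (d * b W + ‖b‖ * (r + r₀)) := by
    rintro x ⟨t, ht0, ht1, ht2⟩
    rw [c.norm_ρ]
    refine Real.exp_le_exp.mpr ?_
    have h3 : |b (θ x - t • d • W)| ≤ ‖b‖ * (r + r₀) := (b.le_opNorm _).trans (by gcongr)
    rw [map_sub, map_smul, map_smul, smul_eq_mul, smul_eq_mul, abs_le] at h3
    have h4 : t * (d * b W) ≤ 1 * (d * b W) := by gcongr
    linarith [h3.2]
  have hDz : ∀ x ∈ X, ‖c.D (x * τ M)‖ ≤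
      ((m + M : ℕ) : ℝ) * (D₁ * Real.exp (d * b W + ‖b‖ * (r + r₀))) := fun x hx =>
    c.norm_D_path hD₁0 hD₁ (Real.exp_pos _).le hKρ (hpath1 x hx)
  have hρz : ∀ x ∈ X, Real.exp (d * b W - ‖b‖ * r₀) ≤ ‖c.ρ (x * τ M)‖ := by
    intro x hx
    rw [c.norm_ρ]
    refine Real.exp_le_exp.mpr ?_
    have h3 : |b (θ (x * τ M) - d • W)| ≤ ‖b‖ * r₀ :=
      (b.le_opNorm _).trans (by have := hθz x hx; gcongr)
    rw [map_sub, map_smul, smul_eq_mul, abs_le] at h3
    linarith [h3.1]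
  -- injectivity
  have hXfin : X.Finite := by
    have hsub : (fun x => x * τ M * ins c.u h ∅ (M + 1)) '' X ⊆
        Ends θ B (m + M + 2 * (M + 1)) W (r + 2 * r₀) := by
      rintro _ ⟨x, hx, rfl⟩
      exact hpath2 x hx ∅
    refine Set.Finite.of_finite_image (hfin.subset hsub) ?_
    intro x _ y _ hxy
    simpa using hxy
  have hinj : Set.InjOn (fun q : G × Finset ℕ => q.1 * τ M * ins c.u h (q.2.image j) (M + 1))
      ((hXfin.toFinset ×ˢ (range (Q + 1)).powerset : Finset (G × Finset ℕ)) :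
        Set (G × Finset ℕ)) := by
    rintro ⟨x, S⟩ hxS ⟨x', S'⟩ hxS' heq
    rw [Finset.mem_coe, Finset.mem_product, Set.Finite.mem_toFinset, Finset.mem_powerset]
      at hxS hxS'
    obtain ⟨hx, hS⟩ := hxS
    obtain ⟨hx', hS'⟩ := hxS'
    simp only at hx hS hx' hS' heq
    have hSS : S = S' := by
      by_contra hne
      have hl := lacunary hlac hS hS' hne
      have hρeq : c.ρ (x * τ M) = c.ρ (x' * τ M) := by
        refine c.ρ_eq hθ ?_
        rw [hθ, hθ, hx.2, hx'.2]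
      have h5 := congrArg c.D heq
      rw [c.D_mul (x * τ M), c.D_mul (x' * τ M), D_ins c hθ h0, D_ins c hθ h0, hsumJ S hS,
        hsumJ S' hS', ← hρeq] at h5
      have h6 : c.ρ (x * τ M) * (c.D c.u * ((∑ i ∈ S, ζ i) - ∑ i ∈ S', ζ i)) =
          c.D (x' * τ M) - c.D (x * τ M) := by linear_combination h5
      have h7 := congrArg norm h6
      rw [norm_mul, norm_mul] at h7
      have h8 : ‖c.D (x' * τ M) - c.D (x * τ M)‖ ≤
          2 * (((m + M : ℕ) : ℝ) * (D₁ * Real.exp (d * b W + ‖b‖ * (r + r₀)))) := by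
        refine (norm_sub_le _ _).trans ?_
        have := hDz x hx
        have := hDz x' hx'
        linarith
      have h9 : Real.exp (d * b W - ‖b‖ * r₀) * (‖c.D c.u‖ * (Real.exp c₀ / 2)) ≤
          ‖c.ρ (x * τ M)‖ * (‖c.D c.u‖ * ‖(∑ i ∈ S, ζ i) - ∑ i ∈ S', ζ i‖) := by
        have := hρz x hx
        have : Real.exp c₀ / 2 ≤ ‖(∑ i ∈ S, ζ i) - ∑ i ∈ S', ζ i‖ := by linarith
        gcongr
      rw [h7] at h9
      have h10 := h9.trans h8
      have e1 : Real.exp (d * b W + ‖b‖ * (r + r₀)) =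
          Real.exp (d * b W - ‖b‖ * r₀) * Real.exp (‖b‖ * (r + 2 * r₀)) := by
        rw [← Real.exp_add]; ring_nf
      rw [e1] at h10
      have hpos : 0 < Real.exp (d * b W - ‖b‖ * r₀) := Real.exp_pos _
      have h11 : Real.exp (d * b W - ‖b‖ * r₀) * (‖c.D c.u‖ * (Real.exp c₀ / 2)) ≤
          Real.exp (d * b W - ‖b‖ * r₀) *
            (2 * (((m + M : ℕ) : ℝ) * D₁ * Real.exp (‖b‖ * (r + 2 * r₀)))) := by
        refine h10.trans (le_of_eq ?_)
        ring
      have h12 := le_of_mul_le_mul_left h11 hpos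
      linarith
    subst hSS
    have : x = x' := by
      have h5 := mul_right_cancel heq
      exact mul_right_cancel h5
    rw [this]
  have hcard := Finset.card_le_card_of_injOn
    (s := hXfin.toFinset ×ˢ (range (Q + 1)).powerset) (t := hfin.toFinset)
    (fun q : G × Finset ℕ => q.1 * τ M * ins c.u h (q.2.image j) (M + 1)) (by
      rintro ⟨x, S⟩ hxS
      rw [Finset.mem_coe, Finset.mem_product, Set.Finite.mem_toFinset] at hxS
      rw [Finset.mem_coe, Set.Finite.mem_toFinset]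
      exact hpath2 x hxS.1 _) hinj
  rw [Finset.card_product, Finset.card_powerset, Finset.card_range] at hcard
  rwa [Set.ncard_eq_toFinset_card _ hXfin, Set.ncard_eq_toFinset_card _ hfin]

/-- Growth of the number of end points with the length of the segment. -/
theorem growth (c : Crossed θ b) (hθ : ∀ x y, θ (x * y) = θ x + θ y) {B : Set G}
    {r₀ ℓ D₁ : ℝ} (hr₀ : 0 ≤ r₀) (hB : SegStep θ B r₀) (h1 : (1 : G) ∈ B) (hu : c.u ∈ B)
    (hℓ0 : 0 ≤ ℓ) (hℓ : ∀ a ∈ B, ‖θ a‖ ≤ ℓ) (hD₁0 : 0 ≤ D₁) (hD₁ : ∀ a ∈ B, ‖c.D a‖ ≤ D₁)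
    {m : ℕ} {W : E} {d r : ℝ} (hd0 : 0 ≤ d) (hd1 : d ≤ 1) (hr : 0 ≤ r) (hbW : 0 ≤ b W)
    {M : ℕ} (hM : 2 * ‖W‖ + r ≤ M) {c₀ : ℝ} (hc₀ : 0 < c₀)
    (hK : 4 * ((m + M : ℕ) : ℝ) * D₁ * Real.exp (‖b‖ * (r + 2 * r₀)) < ‖c.D c.u‖ * Real.exp c₀)
    {Q : ℕ} (hQ : c₀ + Q * (‖b‖ * ℓ + 2) ≤ (1 - d) * b W - ‖b‖ * r₀)
    (hfin : (Ends θ B (m + M + 2 * (M + 1)) W (r + 2 * r₀)).Finite)
    (hfin1 : (Ends θ B m (d • W) r).Finite) {P : ℕ}
    (hP : (θ '' Ends θ B m (d • W) r).ncard ≤ P) :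
    (Ends θ B m (d • W) r).ncard * 2 ^ (Q + 1) ≤
      P * (Ends θ B (m + M + 2 * (M + 1)) W (r + 2 * r₀)).ncard := by
  classical
  set N' := (Ends θ B (m + M + 2 * (M + 1)) W (r + 2 * r₀)).ncard with hN'
  have hfib := growth_fiber c hθ hr₀ hB h1 hu hℓ0 hℓ hD₁0 hD₁ hd0 hd1 hr hbW hM hc₀ hK hQ hfin
  have h2 := Finset.card_le_mul_card_image (f := θ) hfin1.toFinset (N' / 2 ^ (Q + 1)) (by
    intro p _
    rw [Nat.le_div_iff_mul_le (by positivity)]
    have e : (hfin1.toFinset.filter fun x => θ x = p).card =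
        {x | x ∈ Ends θ B m (d • W) r ∧ θ x = p}.ncard := by
      rw [← Set.ncard_coe_finset]
      congr 1
      ext x
      simp
    rw [e]
    exact hfib p)
  have h3 : (hfin1.toFinset.image θ).card ≤ P := by
    rw [← Set.ncard_coe_finset, Finset.coe_image, Set.Finite.coe_toFinset]
    exact hP
  rw [Set.ncard_eq_toFinset_card _ hfin1]
  calc hfin1.toFinset.card * 2 ^ (Q + 1)
      ≤ (N' / 2 ^ (Q + 1) * (hfin1.toFinset.image θ).card) * 2 ^ (Q + 1) :=
        Nat.mul_le_mul_right _ h2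
    _ = (hfin1.toFinset.image θ).card * (N' / 2 ^ (Q + 1) * 2 ^ (Q + 1)) := by ring
    _ ≤ P * N' := Nat.mul_le_mul h3 (Nat.div_mul_le_self _ _)

end Vale.Agent.P188.H530

end

section

/-! P188, block PSI: most points of `D` are good (measure version). -/

universe u v w w'

open Finset MeasureTheory
open scoped ENNReal

namespace Vale.Agent.P188.H530

variable {G : Type u} {X : Type v} [MeasurableSpace X] {μ : Measure X}

open Classical in
theorem badSumP_mono {good good' : G → Prop} (h : ∀ g, good g → good' g) (π : G → ℕ → G)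
    (U : Finset G) (m : ℕ) : badSumP good' π U m ≤ badSumP good π U m := by
  unfold badSumP
  refine Finset.sum_le_sum fun u _ => Finset.card_le_card ?_
  intro i hi
  rw [Finset.mem_filter] at hi ⊢
  exact ⟨hi.1, fun h' => hi.2 (h _ h')⟩

theorem meas_bad_le₁ (act : X → G → X) {D D₁ : Set X} (hD : MeasurableSet D)
    (hD₁ : MeasurableSet D₁) (hDf : μ D ≠ ∞) (π : G → ℕ → G)
    (U : Finset G) (m q : ℕ) {ε : ℝ}
    (hmp : ∀ u ∈ U, ∀ i ≤ m, MeasurePreserving (fun x => act x (π u i)) μ μ)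
    (h1 : μ.real (D \ D₁) ≤ ε * μ.real D)
    (h2 : ∀ u ∈ U, ∀ i ≤ m, μ.real {x ∈ D | act x (π u i) ∉ D} ≤ ε * μ.real D)
    (hU : U.Nonempty) :
    μ.real {x ∈ D | (q + 1) * U.card < 2 * badSumP (fun g => act x g ∈ D₁) π U m} ≤
      4 * ε * (m + 1) / (q + 1) * μ.real D := by
  classical
  have hU' : (0 : ℝ) < U.card := by exact_mod_cast hU.card_pos
  have hpair : ∀ u ∈ U, ∀ i ≤ m, μ.real {x ∈ D | act x (π u i) ∉ D₁} ≤ 2 * ε * μ.real D := by
    intro u hu i hi
    have hsub : {x ∈ D | act x (π u i) ∉ D₁} ⊆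
        {x ∈ D | act x (π u i) ∉ D} ∪ (fun x => act x (π u i)) ⁻¹' (D \ D₁) := by
      rintro x ⟨hx, hx'⟩
      by_cases h : act x (π u i) ∈ D
      · exact Or.inr ⟨h, hx'⟩
      · exact Or.inl ⟨hx, h⟩
    have hm := hmp u hu i hi
    have hDD : MeasurableSet (D \ D₁) := hD.diff hD₁
    have e1 : μ ((fun x => act x (π u i)) ⁻¹' (D \ D₁)) = μ (D \ D₁) :=
      hm.measure_preimage hDD.nullMeasurableSet
    have hf1 : μ (D \ D₁) ≠ ∞ := ne_top_of_le_ne_top hDf (measure_mono Set.sdiff_subset)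
    have e2 : μ.real ((fun x => act x (π u i)) ⁻¹' (D \ D₁)) = μ.real (D \ D₁) := by
      unfold Measure.real; rw [e1]
    have hf2 : μ ({x ∈ D | act x (π u i) ∉ D} ∪ (fun x => act x (π u i)) ⁻¹' (D \ D₁)) ≠ ∞ := by
      refine ne_top_of_le_ne_top ?_ (measure_union_le _ _)
      rw [e1]
      exact ENNReal.add_ne_top.mpr
        ⟨ne_top_of_le_ne_top hDf (measure_mono (Set.sep_subset _ _)), hf1⟩
    calc μ.real {x ∈ D | act x (π u i) ∉ D₁} ≤ _ := measureReal_mono hsub hf2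
      _ ≤ _ := measureReal_union_le _ _
      _ ≤ ε * μ.real D + ε * μ.real D := add_le_add (h2 u hu i hi) (e2.trans_le h1)
      _ = _ := by ring
  let g : X → ℝ := fun x => ∑ u ∈ U, ∑ i ∈ range (m + 1),
    Set.indicator {x | act x (π u i) ∉ D₁} (fun _ => (1 : ℝ)) x
  have hg : ∀ x, g x = badSumP (fun g => act x g ∈ D₁) π U m := by
    intro x
    simp only [g, badSumP]
    push_cast
    refine Finset.sum_congr rfl fun u _ => ?_
    rw [Finset.card_filter]
    push_cast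
    refine Finset.sum_congr rfl fun i _ => ?_
    by_cases h : act x (π u i) ∈ D₁
    · simp [Set.indicator, h]
    · simp [Set.indicator, h]
  have hms : ∀ u ∈ U, ∀ i ∈ range (m + 1), MeasurableSet {x | act x (π u i) ∉ D₁} := by
    intro u hu i hi
    rw [Finset.mem_range] at hi
    exact (hmp u hu i (by omega)).measurable hD₁.compl
  have hgm : Measurable g := by
    refine Finset.measurable_sum _ fun u hu => Finset.measurable_sum _ fun i hi => ?_
    exact measurable_const.indicator (hms u hu i hi)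
  have hfin : IsFiniteMeasure (μ.restrict D) := ⟨by
    rw [Measure.restrict_apply_univ]; exact hDf.lt_top⟩
  have hint : ∀ u ∈ U, ∀ i ∈ range (m + 1),
      Integrable (Set.indicator {x | act x (π u i) ∉ D₁} (fun _ => (1 : ℝ))) (μ.restrict D) :=
    fun u hu i hi => (integrable_const _).indicator (hms u hu i hi)
  have hgi : Integrable g (μ.restrict D) := by
    refine integrable_finsetSum _ fun u hu => integrable_finsetSum _ fun i hi => hint u hu i hi
  have hg0 : ∀ x, 0 ≤ g x := fun x => by rw [hg]; positivity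
  have hsum : ∫ x in D, g x ∂μ ≤ U.card * ((m + 1) * (2 * ε * μ.real D)) := by
    have e : ∫ x in D, g x ∂μ =
        ∑ u ∈ U, ∑ i ∈ range (m + 1), μ.real {x ∈ D | act x (π u i) ∉ D₁} := by
      simp only [g]
      rw [integral_finsetSum _ fun u hu => integrable_finsetSum _ fun i hi => hint u hu i hi]
      refine Finset.sum_congr rfl fun u hu => ?_
      rw [integral_finsetSum _ fun i hi => hint u hu i hi]
      refine Finset.sum_congr rfl fun i hi => ?_
      rw [integral_indicator (hms u hu i hi)]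
      rw [setIntegral_const, smul_eq_mul, mul_one]
      unfold Measure.real
      rw [Measure.restrict_apply (hms u hu i hi)]
      congr 2
      ext x
      simp [and_comm]
    rw [e]
    calc ∑ u ∈ U, ∑ i ∈ range (m + 1), μ.real {x ∈ D | act x (π u i) ∉ D₁}
        ≤ ∑ u ∈ U, ∑ i ∈ range (m + 1), 2 * ε * μ.real D := by
          refine Finset.sum_le_sum fun u hu => Finset.sum_le_sum fun i hi => ?_
          exact hpair u hu i (by rw [Finset.mem_range] at hi; omega)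
      _ = U.card * ((m + 1) * (2 * ε * μ.real D)) := by
          simp only [Finset.sum_const, Finset.card_range, nsmul_eq_mul]
          push_cast
          ring
  set Z := {x ∈ D | (q + 1) * U.card < 2 * badSumP (fun g => act x g ∈ D₁) π U m} with hZ
  have hc : (0 : ℝ) < (q + 1) * U.card / 2 := by positivity
  have hmk := mul_meas_ge_le_integral_of_nonneg (μ := μ.restrict D)
    (Filter.Eventually.of_forall hg0) hgi ((q + 1) * U.card / 2)
  have hZm : MeasurableSet {x | (q + 1) * U.card / 2 ≤ g x} :=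
    measurableSet_le measurable_const hgm
  have hZle : μ.real Z ≤ (μ.restrict D).real {x | (q + 1) * U.card / 2 ≤ g x} := by
    unfold Measure.real
    refine ENNReal.toReal_mono ?_ ?_
    · exact measure_ne_top _ _
    · rw [Measure.restrict_apply hZm]
      refine measure_mono ?_
      rintro x ⟨hx, hx'⟩
      refine ⟨?_, hx⟩
      simp only [Set.mem_setOf_eq]
      rw [hg]
      have : (((q + 1) * U.card : ℕ) : ℝ) < ((2 * badSumP (fun g => act x g ∈ D₁) π U m : ℕ) : ℝ) := by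
        exact_mod_cast hx'
      push_cast at this
      linarith
  have h6 : μ.real Z * ((q + 1) * U.card / 2) ≤ U.card * ((m + 1) * (2 * ε * μ.real D)) := by
    calc μ.real Z * ((q + 1) * U.card / 2)
        ≤ (μ.restrict D).real {x | (q + 1) * U.card / 2 ≤ g x} * ((q + 1) * U.card / 2) := by
          gcongr
      _ = ((q + 1) * U.card / 2) * (μ.restrict D).real {x | (q + 1) * U.card / 2 ≤ g x} := by ring
      _ ≤ ∫ x in D, g x ∂μ := hmk
      _ ≤ _ := hsum
  have hq : (0 : ℝ) < q + 1 := by positivity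
  rw [div_mul_eq_mul_div, le_div_iff₀ hq]
  have h8 : (μ.real Z * (q + 1)) * U.card ≤ (4 * ε * (m + 1) * μ.real D) * U.card := by
    linarith
  exact le_of_mul_le_mul_right h8 hU'

theorem exists_measurable_sub {D D₀ : Set X} (hD : MeasurableSet D) (hDf : μ D ≠ ∞) :
    ∃ D₁ ⊆ D₀, MeasurableSet D₁ ∧ D₁ ⊆ D ∧ μ.real (D \ D₁) ≤ μ.real (D \ D₀) := by
  refine ⟨D \ toMeasurable μ (D \ D₀), ?_, hD.diff (measurableSet_toMeasurable _ _),
    Set.sdiff_subset, ?_⟩
  · rintro x ⟨hx, hx'⟩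
    by_contra h
    exact hx' (subset_toMeasurable μ _ ⟨hx, h⟩)
  · have hf : μ (D \ D₀) ≠ ∞ := ne_top_of_le_ne_top hDf (measure_mono Set.sdiff_subset)
    have : D \ (D \ toMeasurable μ (D \ D₀)) ⊆ toMeasurable μ (D \ D₀) := by
      rintro x ⟨hx, hx'⟩
      by_contra h
      exact hx' ⟨hx, h⟩
    refine (measureReal_mono this (by rw [measure_toMeasurable]; exact hf)).trans ?_
    unfold Measure.real
    rw [measure_toMeasurable]

/-- Most points are good: measure version, the good set being arbitrary. -/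
theorem meas_bad_le (act : X → G → X) {D D₀ : Set X} (hD : MeasurableSet D)
    (hDf : μ D ≠ ∞) (π : G → ℕ → G)
    (U : Finset G) (m q : ℕ) {ε : ℝ}
    (hmp : ∀ u ∈ U, ∀ i ≤ m, MeasurePreserving (fun x => act x (π u i)) μ μ)
    (h1 : μ.real (D \ D₀) ≤ ε * μ.real D)
    (h2 : ∀ u ∈ U, ∀ i ≤ m, μ.real {x ∈ D | act x (π u i) ∉ D} ≤ ε * μ.real D)
    (hU : U.Nonempty) :
    μ.real {x ∈ D | (q + 1) * U.card < 2 * badSumP (fun g => act x g ∈ D₀) π U m} ≤
      4 * ε * (m + 1) / (q + 1) * μ.real D := by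
  obtain ⟨D₁, hsub, hm1, hD₁D, hle⟩ := exists_measurable_sub (D₀ := D₀) hD hDf
  refine le_trans ?_ (meas_bad_le₁ act hD hm1 hDf π U m q hmp (hle.trans h1) h2 hU)
  refine measureReal_mono ?_ (ne_top_of_le_ne_top hDf (measure_mono (Set.sep_subset _ _)))
  rintro x ⟨hx, hx'⟩
  refine ⟨hx, lt_of_lt_of_le hx' ?_⟩
  exact Nat.mul_le_mul_left _ (badSumP_mono (fun g hg => hsub hg) π U m)

end Vale.Agent.P188.H530

end

section

/-! P188, block PSI: paths with steps in a ball, and the standing data on the model group. -/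

universe u v w w'

open Finset

namespace Vale.Agent.P188.H530

open Vale.Agent.P188.H789 (Bl PathTo Bl_mono mul_mem_Bl mem_Bl_one one_mem_Bl)

variable {G : Type u} [Group G] {E : Type v} [NormedAddCommGroup E] [NormedSpace ℝ E]

theorem Near_mul {θ : G → E} (hθ : ∀ x y, θ (x * y) = θ x + θ y) {w : E} {r s : ℝ} {y z : G}
    (hy : y ∈ Near θ w r) (hz : ‖θ z‖ ≤ s) : y * z ∈ Near θ w (r + s) := by
  obtain ⟨t, h0, h1, h2⟩ := hy
  refine ⟨t, h0, h1, ?_⟩
  rw [hθ]
  have e : θ y + θ z - t • w = (θ y - t • w) + θ z := by abel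
  rw [e]
  exact (norm_add_le _ _).trans (add_le_add h2 hz)

theorem norm_prod_le {θ : G → E} (hθ : ∀ x y, θ (x * y) = θ x + θ y) {A : Set G} {ℓ : ℝ}
    (hℓ : ∀ a ∈ A, ‖θ a‖ ≤ ℓ) (l : List G) (hl : ∀ a ∈ l, a ∈ A) :
    ‖θ l.prod‖ ≤ l.length * ℓ := by
  induction l with
  | nil => simp [add_one hθ]
  | cons a l ih =>
    have h1 := ih fun b hb => hl b (List.mem_cons_of_mem _ hb)
    have h2 := hℓ a (hl a List.mem_cons_self)
    rw [List.prod_cons, hθ, List.length_cons]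
    push_cast
    calc ‖θ a + θ l.prod‖ ≤ ‖θ a‖ + ‖θ l.prod‖ := norm_add_le _ _
      _ ≤ (l.length + 1) * ℓ := by linarith

/-- Replace steps in a ball by unit steps. -/
theorem Ends_refine {θ : G → E} (hθ : ∀ x y, θ (x * y) = θ x + θ y) {A : Set G} {ℓ : ℝ}
    (hℓ0 : 0 ≤ ℓ) (hℓ : ∀ a ∈ A, ‖θ a‖ ≤ ℓ) (hA1 : (1 : G) ∈ A) (hAi : ∀ a ∈ A, a⁻¹ ∈ A)
    (K m : ℕ) (w : E) (r : ℝ) :
    Ends θ (Bl A K) m w r ⊆ Ends θ A (m * K) w (r + K * ℓ) := by
  intro x hx
  obtain ⟨p, h0, h1, h2, h3⟩ := hx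
  have hKℓ : 0 ≤ K * ℓ := by positivity
  have key : ∀ i ≤ m, PathTo (Near θ w (r + K * ℓ)) A (i * K) 1 (p i) := by
    intro i
    induction i with
    | zero =>
      intro _
      rw [Nat.zero_mul, ← h0]
      exact PathTo.refl (Near_mono (by linarith) (h2 0 (by omega)))
    | succ i ih =>
      intro hi
      obtain ⟨l, hl1, hl2, hl3⟩ := h3 i (by omega)
      have hl2' : ∀ a ∈ l, a ∈ A := by
        intro a ha
        rcases hl2 a ha with h | h
        · exact h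
        · have := hAi _ h
          rwa [inv_inv] at this
      have h4 : PathTo (Near θ w (r + K * ℓ)) A l.length (p i) (p i * l.prod) := by
        refine PathTo.of_list l (p i) hl2' fun j hj => ?_
        refine Near_mul hθ (h2 i (by omega)) ?_
        refine (norm_prod_le hθ hℓ _ fun a ha => hl2' a (List.mem_of_mem_take ha)).trans ?_
        gcongr
        rw [List.length_take]
        omega
      have h5 := (ih (by omega)).trans (h4.extend hA1 hl1)
      rw [hl3, mul_inv_cancel_left] at h5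
      have e : (i + 1) * K = i * K + K := by ring
      rwa [e]
  have := key m le_rfl
  rwa [h1] at this

/-- The standing data: an additive height function, a finite symmetric set of steps which can
follow segments, exponential counting bounds in slabs, and polynomially many heights. -/
structure Mod (θ : G → E) (A : Set G) : Type (max u v) where
  add : ∀ x y, θ (x * y) = θ x + θ y
  fin : A.Finite
  one : (1 : G) ∈ A
  inv : ∀ a ∈ A, a⁻¹ ∈ A
  /-- bound of the heights of the steps -/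
  ℓ : ℝ
  ℓ0 : 0 ≤ ℓ
  hℓ : ∀ a ∈ A, ‖θ a‖ ≤ ℓ
  /-- the error for following segments -/
  r₀ : ℝ
  hr₀ : 0 ≤ r₀
  seg : SegStep θ A r₀
  /-- base of the exponential bound -/
  Cs : ℕ
  hCs : 1 ≤ Cs
  /-- degree of the polynomial bound -/
  Ds : ℕ
  slab : ∀ R m : ℕ, {x | PathTo {g | ‖θ g‖ ≤ R} A m 1 x}.Finite ∧
    {x | PathTo {g | ‖θ g‖ ≤ R} A m 1 x}.ncard ≤ Cs ^ (R + 1) * (m + 1) ^ Ds
  img : ∀ R : ℕ, (θ '' {g | ‖θ g‖ ≤ R}).Finite ∧
    (θ '' {g | ‖θ g‖ ≤ R}).ncard ≤ Cs * (R + 1) ^ Ds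

namespace Mod

variable {θ : G → E} {A : Set G} (M : Mod θ A)

include M

theorem Ends_sub_slab {m : ℕ} {w : E} {r : ℝ} {R : ℕ} (hR : ‖w‖ + r ≤ R) :
    Ends θ A m w r ⊆ {x | PathTo {g | ‖θ g‖ ≤ R} A m 1 x} := by
  intro x hx
  exact PathTo.mono (fun g hg => (norm_of_Near hg).trans hR) subset_rfl hx

theorem Ends_finite (m : ℕ) (w : E) (r : ℝ) : (Ends θ A m w r).Finite := by
  obtain ⟨R, hR⟩ := exists_nat_ge (‖w‖ + r)
  exact (M.slab R m).1.subset (M.Ends_sub_slab hR)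

theorem Ends_ncard_le {m : ℕ} {w : E} {r : ℝ} {R : ℕ} (hR : ‖w‖ + r ≤ R) :
    (Ends θ A m w r).ncard ≤ M.Cs ^ (R + 1) * (m + 1) ^ M.Ds :=
  (Set.ncard_le_ncard (M.Ends_sub_slab hR) (M.slab R m).1).trans (M.slab R m).2

theorem image_ncard_le {m : ℕ} {w : E} {r : ℝ} {R : ℕ} (hR : ‖w‖ + r ≤ R) :
    (θ '' Ends θ A m w r).ncard ≤ M.Cs * (R + 1) ^ M.Ds := by
  refine (Set.ncard_le_ncard (Set.image_mono fun x hx => ?_) (M.img R).1).trans (M.img R).2
  exact (norm_of_Near (Ends_near hx)).trans hR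

theorem one_mem_Ends (m : ℕ) (w : E) {r : ℝ} (hr : 0 ≤ r) : (1 : G) ∈ Ends θ A m w r := by
  refine ⟨fun _ => 1, rfl, rfl, fun i _ => ⟨0, le_rfl, zero_le_one, ?_⟩, fun i _ => ?_⟩
  · rw [add_one M.add]
    simpa using hr
  · simpa using M.one

theorem ncard_pos (m : ℕ) (w : E) {r : ℝ} (hr : 0 ≤ r) : 1 ≤ (Ends θ A m w r).ncard :=
  (Set.ncard_pos (M.Ends_finite m w r)).mpr ⟨1, M.one_mem_Ends m w hr⟩

theorem ncard_mono {m m' : ℕ} {w w' : E} {r r' : ℝ} (hm : m ≤ m')
    (h : Near θ w r ⊆ Near θ w' r') :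
    (Ends θ A m w r).ncard ≤ (Ends θ A m' w' r').ncard :=
  Set.ncard_le_ncard ((Ends_mono_m M.one hm).trans (Ends_mono subset_rfl h))
    (M.Ends_finite _ _ _)

theorem ncard_change {m m' : ℕ} {w w' : E} {r r' δ : ℝ} (hm : m ≤ m') (h : ‖w - w'‖ ≤ δ)
    (hr : r + δ ≤ r') : (Ends θ A m w r).ncard ≤ (Ends θ A m' w' r').ncard :=
  M.ncard_mono hm ((Near_change h).trans (Near_mono hr))

end Mod

end Vale.Agent.P188.H530

end

section

/-! P188, block PSI: the standing data for an extension of `ℤ ^ k` by a group of polynomial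
growth. -/

universe u v w w'

open Finset

namespace Vale.Agent.P188.H530

open Vale.Agent.P188.H789 (Bl PathTo Slab cz slab_count)

variable {G : Type u} [Group G] {k : ℕ}

/-- The height function with values in `ℝ ^ k`. -/
def hgt (η : G →* Multiplicative (Fin k → ℤ)) (g : G) : Fin k → ℝ :=
  fun i => ((Multiplicative.toAdd (η g) i : ℤ) : ℝ)

theorem hgt_mul (η : G →* Multiplicative (Fin k → ℤ)) (x y : G) :
    hgt η (x * y) = hgt η x + hgt η y := by
  funext i
  simp [hgt, map_mul]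

theorem hgt_eq_zero_iff (η : G →* Multiplicative (Fin k → ℤ)) (x : G) :
    hgt η x = 0 ↔ x ∈ η.ker := by
  rw [MonoidHom.mem_ker]
  constructor
  · intro h
    have h2 : Multiplicative.toAdd (η x) = 0 := by
      funext i
      have := congrFun h i
      simpa [hgt] using this
    exact h2
  · intro h
    funext i
    simp [hgt, h]

theorem mem_Slab_of_norm (η : G →* Multiplicative (Fin k → ℤ)) {R : ℕ} {g : G}
    (h : ‖hgt η g‖ ≤ R) : g ∈ Slab η R := by
  intro i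
  unfold cz
  split_ifs with hi
  · have h1 := (norm_le_pi_norm (hgt η g) ⟨i, hi⟩).trans h
    simp only [hgt, Real.norm_eq_abs] at h1
    rw [← Int.cast_abs, Int.abs_eq_natAbs] at h1
    exact_mod_cast h1
  · simp

/-- The standing data. -/
theorem exists_mod (η : G →* Multiplicative (Fin k → ℤ)) (hη : Function.Surjective η)
    {A₀ : Set G} (hA₀ : A₀.Finite) (hcl : Subgroup.closure A₀ = η.ker) {C D : ℕ}
    (hgr : ∀ n, (Bl A₀ n).ncard ≤ C * (n + 1) ^ D) (F : Finset G) :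
    ∃ A : Set G, (F : Set G) ⊆ A ∧ Nonempty (Mod (hgt η) A) := by
  classical
  choose lift hlift using hη
  let box : Finset (Fin k → ℤ) := Fintype.piFinset fun _ => Finset.Icc (-3) 3
  let B : Finset G := box.image fun q => lift (Multiplicative.ofAdd q)
  let A : Finset G := insert 1 (F ∪ B) ∪ (insert 1 (F ∪ B)).image fun x => x⁻¹
  have hAfin : (A : Set G).Finite := A.finite_toSet
  obtain ⟨C', hC', h1⟩ := slab_count η (fun y => ⟨lift y, hlift y⟩) hA₀ hcl hgr hAfin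
  obtain ⟨ℓ, hℓ⟩ : ∃ ℓ : ℝ, ∀ a ∈ (A : Set G), ‖hgt η a‖ ≤ ℓ := by
    obtain ⟨ℓ, hℓ⟩ := (hAfin.image fun a => ‖hgt η a‖).bddAbove
    exact ⟨ℓ, fun a ha => hℓ ⟨a, ha, rfl⟩⟩
  have h1A : (1 : G) ∈ A := Finset.mem_union_left _ (Finset.mem_insert_self _ _)
  have himg : ∀ R : ℕ, (hgt η '' {g | ‖hgt η g‖ ≤ R}).Finite ∧
      (hgt η '' {g | ‖hgt η g‖ ≤ R}).ncard ≤ (2 * R + 1) ^ k := by
    intro R
    let bx : Finset (Fin k → ℤ) := Fintype.piFinset fun _ => Finset.Icc (-(R : ℤ)) R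
    have hsub : hgt η '' {g | ‖hgt η g‖ ≤ R} ⊆
        ((bx.image fun q => (fun i => ((q i : ℤ) : ℝ) : Fin k → ℝ)) : Set (Fin k → ℝ)) := by
      rintro _ ⟨g, hg, rfl⟩
      rw [Finset.coe_image]
      refine ⟨Multiplicative.toAdd (η g), ?_, rfl⟩
      rw [Finset.mem_coe, Fintype.mem_piFinset]
      intro i
      have h2 := (norm_le_pi_norm (hgt η g) i).trans hg
      simp only [hgt, Real.norm_eq_abs] at h2
      rw [← Int.cast_abs] at h2
      have h3 : |Multiplicative.toAdd (η g) i| ≤ (R : ℤ) := by exact_mod_cast h2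
      rw [Finset.mem_Icc]
      exact abs_le.mp h3
    refine ⟨(Finset.finite_toSet _).subset hsub, ?_⟩
    refine (Set.ncard_le_ncard hsub (Finset.finite_toSet _)).trans ?_
    rw [Set.ncard_coe_finset]
    refine Finset.card_image_le.trans ?_
    rw [Fintype.card_piFinset]
    simp only [Int.card_Icc, Finset.prod_const, Finset.card_univ, Fintype.card_fin]
    refine Nat.pow_le_pow_left ?_ _
    omega
  refine ⟨A, ?_, ⟨{
    add := hgt_mul η
    fin := hAfin
    one := h1A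
    inv := ?_
    ℓ := ℓ
    ℓ0 := (norm_nonneg _).trans (hℓ 1 h1A)
    hℓ := hℓ
    r₀ := 1
    hr₀ := zero_le_one
    seg := ?_
    Cs := max C' (2 ^ k)
    hCs := le_trans hC' (le_max_left _ _)
    Ds := max D k
    slab := ?_
    img := ?_ }⟩⟩
  · intro x hx
    exact Finset.mem_coe.mpr (Finset.mem_union_left _ (Finset.mem_insert_of_mem
      (Finset.mem_union_left _ (Finset.mem_coe.mp hx))))
  · intro a ha
    rw [Finset.mem_coe] at ha ⊢
    rcases Finset.mem_union.mp ha with h | h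
    · exact Finset.mem_union_right _ (Finset.mem_image_of_mem _ h)
    · obtain ⟨b, hb, rfl⟩ := Finset.mem_image.mp h
      rw [inv_inv]
      exact Finset.mem_union_left _ hb
  · intro v w g hvw hg
    let q : Fin k → ℤ := fun i => round (w i) - Multiplicative.toAdd (η g) i
    have hq : ∀ i, |q i| ≤ 2 := by
      intro i
      have h2 : |w i - round (w i)| ≤ 1 / 2 := abs_sub_round (w i)
      have h3 : |(w - v) i| ≤ 1 := (norm_le_pi_norm (w - v) i).trans hvw
      have h4 : |(hgt η g - v) i| ≤ 1 := (norm_le_pi_norm (hgt η g - v) i).trans hg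
      simp only [Pi.sub_apply] at h3 h4
      have h5 : |((q i : ℤ) : ℝ)| < 3 := by
        have e : ((q i : ℤ) : ℝ) = -(w i - round (w i)) + (w i - v i) - (hgt η g i - v i) := by
          simp only [q, hgt]
          push_cast
          ring
        rw [e]
        have h6 := abs_sub (-(w i - round (w i)) + (w i - v i)) (hgt η g i - v i)
        have h7 := abs_add_le (-(w i - round (w i))) (w i - v i)
        rw [abs_neg] at h7
        linarith
      have h8 : |q i| < 3 := by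
        rw [← Int.cast_abs] at h5
        exact_mod_cast h5
      omega
    refine ⟨lift (Multiplicative.ofAdd q), ?_, ?_⟩
    · rw [Finset.mem_coe]
      refine Finset.mem_union_left _ (Finset.mem_insert_of_mem (Finset.mem_union_right _
        (Finset.mem_image_of_mem _ ?_)))
      rw [Fintype.mem_piFinset]
      intro i
      rw [Finset.mem_Icc]
      have := abs_le.mp (hq i)
      omega
    · rw [hgt_mul]
      refine (pi_norm_le_iff_of_nonneg zero_le_one).mpr fun i => ?_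
      have e : (hgt η g + hgt η (lift (Multiplicative.ofAdd q)) - w) i = -(w i - round (w i)) := by
        simp only [Pi.sub_apply, Pi.add_apply, hgt, hlift, q]
        simp
      rw [e, norm_neg, Real.norm_eq_abs]
      have h2 : |w i - round (w i)| ≤ 1 / 2 := abs_sub_round (w i)
      linarith
  · intro R m
    have hsub : {x | PathTo {g | ‖hgt η g‖ ≤ R} (A : Set G) m 1 x} ⊆
        {x | PathTo (Slab η R) (A : Set G) m 1 x} := fun x hx =>
      PathTo.mono (fun g hg => mem_Slab_of_norm η hg) subset_rfl hx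
    refine ⟨(h1 R m).1.subset hsub, ?_⟩
    refine (Set.ncard_le_ncard hsub (h1 R m).1).trans ((h1 R m).2.trans ?_)
    refine Nat.mul_le_mul (Nat.pow_le_pow_left (le_max_left _ _) _)
      (Nat.pow_le_pow_right (Nat.succ_pos _) (le_max_left _ _))
  · intro R
    refine ⟨(himg R).1, (himg R).2.trans ?_⟩
    calc (2 * R + 1) ^ k ≤ (2 * (R + 1)) ^ k := Nat.pow_le_pow_left (by omega) _
      _ = 2 ^ k * (R + 1) ^ k := mul_pow _ _ _
      _ ≤ _ := Nat.mul_le_mul (le_max_right _ _)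
        (Nat.pow_le_pow_right (Nat.succ_pos _) (le_max_right _ _))

end Vale.Agent.P188.H530

end

section

/-! P188, block PSI: the scalars are `1`. -/

universe u v w w'

open Finset

namespace Vale.Agent.P188.H530

open Vale.Agent.P188.H789 (Bl PathTo Bl_mono mul_mem_Bl mem_Bl_one one_mem_Bl)

variable {G : Type u} [Group G] {G' : Type v} [Group G']
  {E : Type w} [NormedAddCommGroup E] [NormedSpace ℝ E]
  {E' : Type w'} [NormedAddCommGroup E'] [NormedSpace ℝ E']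

/-- `T` transfers end points at scale `n`, for paths of `m` steps at distance `r`. -/
def Tr (θ : G → E) (A : Set G) (θ' : G' → E') (A' : Set G') (c K : ℕ) (C W ε : ℝ) (n m : ℕ)
    (r : ℝ) (T : E →L[ℝ] E') : Prop :=
  ∀ w : E, ‖w‖ ≤ W * n →
    (Ends θ A m w r).ncard ≤ c * (Ends θ' A' (K * m) (T w) (C * (r + ε * n))).ncard

theorem exists_exp_gt (A : ℝ) (k : ℕ) {s : ℝ} (hs : 0 < s) :
    ∃ n₀ : ℕ, ∀ n : ℕ, n₀ ≤ n → A * ((n : ℝ) + 1) ^ k < Real.exp (s * n) := by
  have h1 : Filter.Tendsto (fun x : ℝ => x ^ k * Real.exp (-x)) Filter.atTop (nhds 0) :=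
    Real.tendsto_pow_mul_exp_neg_atTop_nhds_zero k
  have h2 : Filter.Tendsto (fun n : ℕ => s * ((n : ℝ) + 1)) Filter.atTop Filter.atTop :=
    Filter.Tendsto.const_mul_atTop hs
      (Filter.tendsto_atTop_add_const_right _ _ tendsto_natCast_atTop_atTop)
  have h3 := h1.comp h2
  have hpos : (0 : ℝ) < s ^ k * Real.exp (-s) / (|A| + 1) := by positivity
  have h4 := (h3.eventually (gt_mem_nhds hpos)).exists_forall_of_atTop
  obtain ⟨n₀, hn₀⟩ := h4
  refine ⟨n₀, fun n hn => ?_⟩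
  have h5 := hn₀ n hn
  simp only [Function.comp] at h5
  rw [lt_div_iff₀ (by positivity), mul_pow] at h5
  have e1 : Real.exp (-(s * ((n : ℝ) + 1))) = Real.exp (-s) * Real.exp (-(s * n)) := by
    rw [← Real.exp_add]; ring_nf
  rw [e1] at h5
  have h6 : (s ^ k * Real.exp (-s)) * (((n : ℝ) + 1) ^ k * Real.exp (-(s * n)) * (|A| + 1)) <
      (s ^ k * Real.exp (-s)) * 1 := by
    calc _ = s ^ k * ((n : ℝ) + 1) ^ k * (Real.exp (-s) * Real.exp (-(s * n))) * (|A| + 1) := by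
          ring
      _ < _ := by rw [mul_one]; exact h5
  have h7 : ((n : ℝ) + 1) ^ k * Real.exp (-(s * n)) * (|A| + 1) < 1 :=
    lt_of_mul_lt_mul_left h6 (by positivity)
  have h8 : A * ((n : ℝ) + 1) ^ k ≤ (|A| + 1) * ((n : ℝ) + 1) ^ k := by
    gcongr
    have := le_abs_self A
    linarith
  have h9 : Real.exp (-(s * n)) * Real.exp (s * n) = 1 := by
    rw [← Real.exp_add]; simp
  have h10 : (|A| + 1) * ((n : ℝ) + 1) ^ k < Real.exp (s * n) := by
    have := mul_lt_mul_of_pos_right h7 (Real.exp_pos (s * n))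
    calc (|A| + 1) * ((n : ℝ) + 1) ^ k
        = ((n : ℝ) + 1) ^ k * (Real.exp (-(s * n)) * Real.exp (s * n)) * (|A| + 1) := by
          rw [h9]; ring
      _ = ((n : ℝ) + 1) ^ k * Real.exp (-(s * n)) * (|A| + 1) * Real.exp (s * n) := by ring
      _ < _ := by rwa [one_mul] at this
  exact h8.trans_lt h10

/-- One step of the growth argument. -/
theorem psi_step {θ : G → E} {A : Set G} (M : Mod θ A) {b : E →L[ℝ] ℝ} (c' : Crossed θ b)
    (hu : c'.u ∈ A) {D₁ : ℝ} (hD₁0 : 0 ≤ D₁) (hD₁ : ∀ a ∈ A, ‖c'.D a‖ ≤ D₁)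
    {θ' : G' → E'} {A' : Set G'} {c K : ℕ} {C W ε : ℝ} (hC : 1 ≤ C) (hε : 0 < ε)
    {n m : ℕ} {r : ℝ} (hr : 0 ≤ r) {w : E} (hwW : ‖w‖ ≤ W)
    {T₂ : E →L[ℝ] E'} {T₁' : E' →L[ℝ] E} (hT₂ : ‖T₂ w‖ ≤ W)
    (h2 : Tr θ A θ' A' c K C W ε n m r T₂)
    (h1 : Tr θ' A' θ A c K C W ε n (K * m) (C * (r + ε * n)) T₁')
    {d : ℝ} (hd0 : 0 ≤ d) (hd1 : d ≤ 1) (hd : ‖T₁' (T₂ w) - d • w‖ ≤ ε)
    (hbw : 0 ≤ b w) {N : ℕ}
    (hN : 2 * ‖(n : ℝ) • w‖ + (C * (C * (r + ε * n) + ε * n) + ε * n) ≤ N) {c₀ : ℝ}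
    (hc₀ : 0 < c₀)
    (hK : 4 * ((K * (K * m) + N : ℕ) : ℝ) * D₁ *
      Real.exp (‖b‖ * ((C * (C * (r + ε * n) + ε * n) + ε * n) + 2 * M.r₀)) <
      ‖c'.D c'.u‖ * Real.exp c₀)
    {Q : ℕ} (hQ : c₀ + Q * (‖b‖ * M.ℓ + 2) ≤ (1 - d) * b ((n : ℝ) • w) - ‖b‖ * M.r₀)
    {R : ℕ} (hR : ‖(n : ℝ) • w‖ + (C * (C * (r + ε * n) + ε * n) + ε * n) ≤ R)
    {m' : ℕ} {r' : ℝ} (hm' : K * (K * m) + N + 2 * (N + 1) ≤ m')
    (hr' : (C * (C * (r + ε * n) + ε * n) + ε * n) + 2 * M.r₀ ≤ r') :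
    (Ends θ A m ((n : ℝ) • w) r).ncard * 2 ^ (Q + 1) ≤
      c * c * (M.Cs * (R + 1) ^ M.Ds) * (Ends θ A m' ((n : ℝ) • w) r').ncard := by
  have hn0 : (0 : ℝ) ≤ n := Nat.cast_nonneg _
  have hnw : ‖(n : ℝ) • w‖ ≤ W * n := by
    rw [norm_smul, Real.norm_of_nonneg hn0, mul_comm]
    gcongr
  have hnTw : ‖T₂ ((n : ℝ) • w)‖ ≤ W * n := by
    rw [map_smul, norm_smul, Real.norm_of_nonneg hn0, mul_comm]
    gcongr
  set r₂ := C * (C * (r + ε * n) + ε * n) + ε * n with hr₂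
  have a1 := h2 _ hnw
  have a2 := h1 _ hnTw
  have a3 : (Ends θ A (K * (K * m)) (T₁' (T₂ ((n : ℝ) • w))) (C * (C * (r + ε * n) + ε * n))).ncard
      ≤ (Ends θ A (K * (K * m)) (d • ((n : ℝ) • w)) r₂).ncard := by
    refine M.ncard_change le_rfl (δ := ε * n) ?_ le_rfl
    rw [map_smul, map_smul, smul_comm d, ← smul_sub, norm_smul, Real.norm_of_nonneg hn0, mul_comm]
    gcongr
  have hr₂0 : 0 ≤ r₂ := by positivity
  have hbW : 0 ≤ b ((n : ℝ) • w) := by rw [map_smul, smul_eq_mul]; positivity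
  have a4 := growth c' M.add M.hr₀ M.seg M.one hu M.ℓ0 M.hℓ hD₁0 hD₁ hd0 hd1 hr₂0 hbW hN hc₀ hK hQ
    (M.Ends_finite _ _ _) (M.Ends_finite _ _ _) (P := M.Cs * (R + 1) ^ M.Ds)
    (M.image_ncard_le (by
      refine le_trans (add_le_add ?_ le_rfl) hR
      rw [norm_smul d, Real.norm_of_nonneg hd0]
      calc d * ‖(n : ℝ) • w‖ ≤ 1 * ‖(n : ℝ) • w‖ := by gcongr
        _ = _ := one_mul _))
  have a5 : (Ends θ A (K * (K * m) + N + 2 * (N + 1)) ((n : ℝ) • w) (r₂ + 2 * M.r₀)).ncard ≤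
      (Ends θ A m' ((n : ℝ) • w) r').ncard :=
    M.ncard_mono hm' (Near_mono hr')
  calc (Ends θ A m ((n : ℝ) • w) r).ncard * 2 ^ (Q + 1)
      ≤ (c * (c * (Ends θ A (K * (K * m)) (d • ((n : ℝ) • w)) r₂).ncard)) * 2 ^ (Q + 1) := by
        gcongr
        exact a1.trans (Nat.mul_le_mul_left _ (a2.trans (Nat.mul_le_mul_left _ a3)))
    _ = c * c * ((Ends θ A (K * (K * m)) (d • ((n : ℝ) • w)) r₂).ncard * 2 ^ (Q + 1)) := by ring
    _ ≤ c * c * (M.Cs * (R + 1) ^ M.Ds *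
        (Ends θ A (K * (K * m) + N + 2 * (N + 1)) ((n : ℝ) • w) (r₂ + 2 * M.r₀)).ncard) := by
        gcongr
    _ ≤ c * c * (M.Cs * (R + 1) ^ M.Ds * (Ends θ A m' ((n : ℝ) • w) r').ncard) := by
        gcongr
    _ = _ := by ring

end Vale.Agent.P188.H530

end

section

/-! P188, block PSI: crossed homomorphisms from generator weights. -/

universe u v w w'

open Finset
open scoped commutatorElement

namespace Vale.Agent.P188.H530

open Vale.Agent.P188.H754 (GenWeight)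

variable {G : Type u} [Group G] {k : ℕ}

/-- The crossed homomorphism of a non-trivial generator weight. -/
theorem exists_crossed (η : G →* Multiplicative (Fin k → ℤ)) (w : GenWeight η.ker)
    {b : (Fin k → ℝ) →L[ℝ] ℝ} (hb : ∀ g, b (hgt η g) = Real.log ‖w.ρ g‖) (hb0 : b ≠ 0)
    (hη : Function.Surjective η) :
    ∃ c : Crossed (hgt η) b, (∀ g, c.ρ g = w.ρ g) ∧ ∀ n ∈ η.ker, c.D n = w.φ n := by
  have hcomm : ∀ a b : G, ⁅a, b⁆ ∈ η.ker := by
    intro a b
    rw [MonoidHom.mem_ker, map_commutatorElement, commutatorElement_def]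
    rw [mul_comm (η a) (η b)]; group
  have hw : ∃ g, w.ρ g ≠ 1 := by
    by_contra hcon
    push Not at hcon
    apply hb0
    -- `b` vanishes on integral vectors
    have h1 : ∀ g, b (hgt η g) = 0 := fun g => by rw [hb, hcon g, norm_one, Real.log_one]
    refine ContinuousLinearMap.ext fun x => ?_
    have h2 : ∀ i : Fin k, b (Pi.single i 1) = 0 := by
      intro i
      obtain ⟨g, hg⟩ := hη (Multiplicative.ofAdd (Pi.single i 1))
      have h3 := h1 g
      have e : hgt η g = Pi.single i 1 := by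
        funext j
        simp only [hgt, hg]
        by_cases hij : j = i
        · subst hij; simp
        · simp [Pi.single_apply, hij]
      rwa [e] at h3
    have e : x = ∑ i, x i • (Pi.single i 1 : Fin k → ℝ) := by
      funext j
      simp [Finset.sum_apply, Pi.single_apply]
    rw [e, map_sum]
    simp [h2]
  obtain ⟨D, hD, hDn⟩ := w.exists_crossed hcomm hw
  obtain ⟨u, hu, hφu⟩ := w.φ_ne
  refine ⟨{
    D := D
    ρ := w.ρ
    D_mul := hD
    ρ_mul := fun x y => map_mul _ _ _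
    norm_ρ := fun x => by
      rw [hb, Real.exp_log (norm_pos_iff.mpr (w.ρ_ne x))]
    ρ_ker := fun x hx => w.ρ_of_mem ((hgt_eq_zero_iff η x).mp hx)
    u := u
    θ_u := (hgt_eq_zero_iff η u).mpr hu
    D_u := by rw [hDn u hu]; exact hφu }, fun g => rfl, hDn⟩

end Vale.Agent.P188.H530

end
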