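import Vale.Agent.P188.R.G047
import Vale.Agent.P188.R.G053
import Vale.Agent.P188.R.G028
import Vale.Agent.P188.R.G057
import Vale.Agent.P188.R.G050

section

/-!
# First exit: counting

`Cmp` implies `SlabGrowth`.
-/

universe u v w

open Pointwise

namespace Vale.Agent.P188.H789

variable {H : Type u} [Group H] {k : ℕ}

/-- The heights of `F`. -/
def hts {G : Type v} [Group G] (η : G →* Multiplicative (Fin k → ℤ)) (F : H → G) (x : H)
    (a : Fin k) : ℝ := ((Multiplicative.toAdd (η (F x)) a : ℤ) : ℝ)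

/-- If each of finitely many conditions fails on a set of mean at most `1/2`, some point satisfies
at least half of them. -/
theorem exists_half {X : Type u} {ι : Type v} {μ : (X → ℝ) → ℝ} (hμ : IsMean μ)
    (T : Finset ι) (P : ι → X → Prop) (hP : ∀ t ∈ T, mset μ {x | ¬ P t x} ≤ 1 / 2) :
    ∃ x, ∃ T' ⊆ T, (∀ t ∈ T', P t x) ∧ T.card ≤ 2 * T'.card := by
  classical
  by_contra hcon
  push Not at hcon
  have h1 : ∀ x, ((T.card : ℝ) + 1) / 2 ≤ ∑ t ∈ T, ({x | ¬ P t x}.indicator (fun _ => (1 : ℝ)) x) := by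
    intro x
    have h2 := hcon x (T.filter fun t => P t x) (Finset.filter_subset _ _)
      (fun t ht => (Finset.mem_filter.mp ht).2)
    have h3 : ∑ t ∈ T, ({x | ¬ P t x}.indicator (fun _ => (1 : ℝ)) x) =
        ((T.filter fun t => ¬ P t x).card : ℝ) := by
      rw [Finset.card_filter]
      push_cast
      refine Finset.sum_congr rfl fun t _ => ?_
      simp [Set.indicator_apply]
    rw [h3]
    have h4 := Finset.card_filter_add_card_filter_not (s := T) (fun t => P t x)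
    have h5 : T.card + 1 ≤ 2 * (T.filter fun t => ¬ P t x).card := by omega
    have h6 : ((T.card + 1 : ℕ) : ℝ) ≤ ((2 * (T.filter fun t => ¬ P t x).card : ℕ) : ℝ) := by
      exact_mod_cast h5
    push_cast at h6
    linarith
  have h2 := hμ.sum T (fun t => ({x | ¬ P t x}.indicator (fun _ => (1 : ℝ))))
    (fun t _ => Bdd.indicator _)
  have h3 := hμ.le (Bdd.const (((T.card : ℝ) + 1) / 2)) h2.1 h1
  rw [hμ.const, h2.2] at h3
  have h4 : ∑ t ∈ T, μ ({x | ¬ P t x}.indicator (fun _ => (1 : ℝ))) ≤ ∑ _t ∈ T, (1 / 2 : ℝ) :=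
    Finset.sum_le_sum fun t ht => hP t ht
  rw [Finset.sum_const, nsmul_eq_mul] at h4
  linarith

section

variable {G : Type v} [Group G] {η : G →* Multiplicative (Fin k → ℤ)} {F : H → G} {F' : G → H}

/-- The endpoints of finitely many good paths are few. -/
theorem count_good {E : Set H} (hE : E.Finite) (hE' : ∀ x, x⁻¹ * F' (F x) ∈ E)
    {B : Set H} {B' : Set G} (hB' : ∀ x y : H, x⁻¹ * y ∈ B → (F x)⁻¹ * F y ∈ B')
    {R m : ℕ} (hfin : {z | PathTo (Slab η R) B' m 1 z}.Finite) (g : H) (X : Finset H)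
    (hX : ∀ x ∈ X, ∃ y : ℕ → H, y 0 = 1 ∧ y m = x ∧ (∀ i < m, (y i)⁻¹ * y (i + 1) ∈ B) ∧
      ∀ j ≤ m, ∀ a, |hts η F (g * y j) a - hts η F g a| ≤ R) :
    X.card ≤ E.ncard * {z | PathTo (Slab η R) B' m 1 z}.ncard := by
  classical
  set P := hfin.toFinset with hPd
  have hmaps : ∀ x ∈ X, (F g)⁻¹ * F (g * x) ∈ P := by
    intro x hx
    obtain ⟨y, h0, h1, h2, h3⟩ := hX x hx
    rw [hPd, Set.Finite.mem_toFinset]
    refine ⟨fun i => (F g)⁻¹ * F (g * y i), by simp [h0], by simp [h1], fun i hi a => ?_,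
      fun i hi => ?_⟩
    · unfold cz
      split_ifs with ha
      · have h4 := h3 i hi ⟨a, ha⟩
        unfold hts at h4
        have h5 : (Multiplicative.toAdd (η ((F g)⁻¹ * F (g * y i))) : Fin k → ℤ) ⟨a, ha⟩ =
            (Multiplicative.toAdd (η (F (g * y i))) : Fin k → ℤ) ⟨a, ha⟩ -
              (Multiplicative.toAdd (η (F g)) : Fin k → ℤ) ⟨a, ha⟩ := by
          rw [map_mul, map_inv, toAdd_mul, toAdd_inv, Pi.add_apply, Pi.neg_apply]
          ring
        rw [h5]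
        have h6 : |(Multiplicative.toAdd (η (F (g * y i))) : Fin k → ℤ) ⟨a, ha⟩ -
              (Multiplicative.toAdd (η (F g)) : Fin k → ℤ) ⟨a, ha⟩| ≤ (R : ℤ) := by
          exact_mod_cast h4
        rw [← Int.natCast_natAbs] at h6
        exact_mod_cast h6
      · simp
    · have h4 := hB' (g * y i) (g * y (i + 1)) (by
        rw [mul_inv_rev, mul_assoc, inv_mul_cancel_left]; exact h2 i hi)
      simpa [mul_assoc] using h4
  have hfib : ∀ z ∈ P, (X.filter fun x => (F g)⁻¹ * F (g * x) = z).card ≤ hE.toFinset.card := by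
    intro z _
    refine Finset.card_le_card_of_injOn (fun x => (g * x)⁻¹ * F' (F (g * x))) ?_ ?_
    · intro x _
      simpa using hE' (g * x)
    · intro x hx x' hx' hxx
      have e1 := (Finset.mem_filter.mp (Finset.mem_coe.mp hx)).2
      have e2 := (Finset.mem_filter.mp (Finset.mem_coe.mp hx')).2
      have e3 : F (g * x) = F (g * x') := by
        have := e1.trans e2.symm
        exact mul_left_cancel this
      simp only [e3] at hxx
      have e4 := mul_right_cancel hxx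
      exact mul_left_cancel (inv_injective e4)
  have h1 := Finset.card_le_mul_card_image_of_maps_to hmaps hE.toFinset.card hfib
  rw [Set.ncard_eq_toFinset_card E hE, Set.ncard_eq_toFinset_card _ hfin]
  exact h1

/-- **`Cmp` implies `SlabGrowth`.** -/
theorem slabGrowth_of_cmp (hη : Function.Surjective η)
    {A : Set G} (hA : A.Finite) (hcl : Subgroup.closure A = η.ker) {C D : ℕ}
    (hgr : ∀ n, (Bl A n).ncard ≤ C * (n + 1) ^ D)
    (hF : Coarse F) (hFF : CloseId (F' ∘ F))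
    {μ : (H → ℝ) → ℝ} (hμ : IsMean μ)
    (hinv : ∀ (g : H) f, Bdd f → μ (fun x => f (x * g)) = μ f)
    {χ : H → Fin k → ℝ} (hχ : ∀ x a, χ x a = μ (fun h => hts η F (h * x) a - hts η F h a))
    {S : Set H} (hS : S.Finite) (hcmp : Cmp μ (hts η F) (S ∪ S⁻¹ ∪ {1})) :
    ∃ C' D' : ℕ, 1 ≤ C' ∧ SlabGrowth χ S C' D' := by
  classical
  set B : Set H := S ∪ S⁻¹ ∪ {1} with hB
  have hBfin : B.Finite := (hS.union hS.inv).union (Set.finite_singleton 1)
  obtain ⟨B', hB'f, hB'⟩ := hF B hBfin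
  obtain ⟨E, hE, hE'⟩ := hFF
  obtain ⟨C₁, hC₁, hcount⟩ := slab_count η hη hA hcl hgr hB'f
  -- Lipschitz constant
  obtain ⟨L, hL⟩ : ∃ L : ℕ, ∀ x, ∀ s ∈ B, ∀ a, |hts η F (x * s) a - hts η F x a| ≤ L := by
    obtain ⟨r, hr⟩ := exists_slab_finite η hB'f
    refine ⟨r, fun x s hs a => ?_⟩
    have h1 := hr (hB' x (x * s) (by rw [inv_mul_cancel_left]; exact hs)) a
    unfold cz at h1
    rw [dif_pos a.2] at h1
    have h5 : (Multiplicative.toAdd (η ((F x)⁻¹ * F (x * s))) : Fin k → ℤ) a =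
        (Multiplicative.toAdd (η (F (x * s))) : Fin k → ℤ) a -
          (Multiplicative.toAdd (η (F x)) : Fin k → ℤ) a := by
      rw [map_mul, map_inv, toAdd_mul, toAdd_inv, Pi.add_apply, Pi.neg_apply]
      ring
    have h2 : ((Multiplicative.toAdd (η ((F x)⁻¹ * F (x * s))) : Fin k → ℤ) a).natAbs ≤ r := h1
    rw [h5] at h2
    unfold hts
    have h6 : |(Multiplicative.toAdd (η (F (x * s))) : Fin k → ℤ) a -
          (Multiplicative.toAdd (η (F x)) : Fin k → ℤ) a| ≤ (r : ℤ) := by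
      rw [← Int.natCast_natAbs]
      exact_mod_cast h2
    exact_mod_cast h6
  obtain ⟨c, hc, R₀, hcmp⟩ := hcmp
  obtain ⟨p, hp⟩ := exists_nat_ge (1 / c)
  obtain ⟨r₀, hr₀⟩ := exists_nat_ge (max R₀ (8 * L))
  obtain ⟨s, hs⟩ : ∃ s : ℕ, C₁ ≤ 2 ^ s := ⟨C₁, Nat.lt_two_pow_self.le⟩
  have hpc : 1 ≤ c * p := by
    rw [div_le_iff₀ hc] at hp
    linarith
  have hEn : 1 ≤ E.ncard := by
    rw [Nat.one_le_iff_ne_zero, Ne, Set.ncard_eq_zero hE]
    intro h
    have := hE' 1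
    rw [h] at this
    exact this
  refine ⟨2 * E.ncard * C₁ ^ (r₀ + 5) * 2 ^ (s * p) * 2, s * p + D, by
    have := Nat.pow_pos (n := r₀ + 5) hC₁
    have := Nat.pow_pos (n := s * p) (show 0 < 2 by norm_num)
    have h3 : 0 < E.ncard := hEn
    exact Nat.succ_le_of_lt (by positivity), fun ρ m => ?_⟩
  have hfinX : {x | PathTo (SH χ ρ) B m 1 x}.Finite := by
    refine (Bl_finite hS m).subset ?_
    rintro x ⟨y, h0, h1, h2, h3⟩
    have key : ∀ i ≤ m, y i ∈ Bl S i := by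
      intro i
      induction i with
      | zero => intro _; rw [h0]; exact one_mem_Bl _ _
      | succ i ih =>
        intro hi
        have e : y (i + 1) = y i * ((y i)⁻¹ * y (i + 1)) := by group
        rw [e]
        refine mul_mem_Bl (ih (by omega)) ?_
        rcases h3 i (by omega) with h | h
        · rcases h with h | h
          · exact mem_Bl_one h
          · exact mem_Bl_one' (Or.inr h)
        · rw [Set.mem_singleton_iff.mp h]; exact one_mem_Bl _ _
    rw [← h1]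
    exact key m le_rfl
  refine ⟨hfinX, ?_⟩
  -- the scale
  set ℓ := Nat.clog 2 (m + 1) with hℓ
  have hℓ1 : m + 1 ≤ 2 ^ ℓ := Nat.le_pow_clog (by norm_num) _
  have hℓ2 : 2 ^ ℓ ≤ 2 * (m + 1) := by
    rcases Nat.eq_zero_or_pos m with h0 | h0
    · rw [hℓ, h0]; simp
    · have h2 := Nat.pow_pred_clog_lt_self (b := 2) (by norm_num) (x := m + 1) (by omega)
      rw [← hℓ] at h2
      have h3 : 1 ≤ ℓ := by
        rw [hℓ]
        exact Nat.clog_pos (by norm_num) (by omega)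
      obtain ⟨q, hq⟩ := Nat.exists_eq_add_of_le h3
      have h4 : ℓ.pred = q := by rw [hq]; simp
      rw [h4] at h2
      rw [hq, pow_add]
      omega
  set R : ℕ := r₀ + 4 * ρ + p * ℓ with hRd
  have hR1 : R₀ ≤ (R : ℝ) := by
    have : (r₀ : ℝ) ≤ R := by rw [hRd]; push_cast; nlinarith [Nat.zero_le (4 * ρ + p * ℓ), (by positivity : (0:ℝ) ≤ (p:ℝ) * ℓ), (by positivity : (0:ℝ) ≤ (ρ:ℝ))]
    linarith [le_max_left R₀ (8 * (L : ℝ))]
  have hR2 : 8 * (L : ℝ) ≤ R := by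
    have : (r₀ : ℝ) ≤ R := by rw [hRd]; push_cast; nlinarith [(by positivity : (0:ℝ) ≤ (p:ℝ) * ℓ), (by positivity : (0:ℝ) ≤ (ρ:ℝ))]
    linarith [le_max_right R₀ (8 * (L : ℝ))]
  have hR3 : (ρ : ℝ) ≤ R / 4 := by
    have : 4 * (ρ : ℝ) ≤ R := by rw [hRd]; push_cast; nlinarith [(by positivity : (0:ℝ) ≤ (p:ℝ) * ℓ), (by positivity : (0:ℝ) ≤ (r₀:ℝ))]
    linarith
  have hm : (m : ℝ) ≤ Real.exp (c * R) := by
    have h1 : (ℓ : ℝ) ≤ c * R := by
      have h2 : (p : ℝ) * ℓ ≤ R := by rw [hRd]; push_cast; nlinarith [(by positivity : (0:ℝ) ≤ (r₀:ℝ)), (by positivity : (0:ℝ) ≤ (ρ:ℝ))]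
      have h3 : c * ((p : ℝ) * ℓ) ≤ c * R := mul_le_mul_of_nonneg_left h2 hc.le
      have h4 : (ℓ : ℝ) ≤ c * ((p : ℝ) * ℓ) := by
        have : c * ((p : ℝ) * ℓ) = (c * p) * ℓ := by ring
        rw [this]
        nlinarith [(by positivity : (0:ℝ) ≤ (ℓ:ℝ))]
      linarith
    have h5 : (m : ℝ) ≤ 2 ^ ℓ := by exact_mod_cast (by omega : m ≤ 2 ^ ℓ)
    have h6 : (2 : ℝ) ^ ℓ ≤ Real.exp ℓ := by
      rw [← Real.exp_one_pow]
      exact pow_le_pow_left₀ (by norm_num) (by linarith [Real.add_one_le_exp (1 : ℝ)]) _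
    exact h5.trans (h6.trans (Real.exp_le_exp.mpr h1))
  -- the paths
  set X := hfinX.toFinset with hX
  have hpath : ∀ x : H, ∃ y : ℕ → H, x ∈ X → (y 0 = 1 ∧ y m = x ∧ (∀ i ≤ m, y i ∈ SH χ ρ) ∧
      ∀ i < m, (y i)⁻¹ * y (i + 1) ∈ B) := by
    intro x
    by_cases hx : x ∈ X
    · rw [hX, Set.Finite.mem_toFinset] at hx
      obtain ⟨y, h⟩ := hx
      exact ⟨y, fun _ => h⟩
    · exact ⟨fun _ => 1, fun h => absurd h hx⟩
  choose Y hY using hpath
  obtain ⟨g, X', hX', hgood, hcard⟩ := exists_half hμ X (fun x g => GoodAt μ (hts η F) R m (Y x) g)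
    (fun x hx => hcmp R hR1 m hm (Y x) (hY x hx).1 (hY x hx).2.2.2)
  have hfinP := (hcount R m).1
  have h1 := count_good (F' := F') hE hE' hB' hfinP g X' (fun x hx => by
    obtain ⟨y0, y1, y2, y3⟩ := hY x (hX' hx)
    exact ⟨Y x, y0, y1, y3, exit_bound hμ hinv (Nat.cast_nonneg L) hL hχ hR2 y0 y3
      (fun j hj a => (y2 j hj a).trans hR3) (hgood x hx)⟩)
  have h2 := (hcount R m).2
  rw [Set.ncard_eq_toFinset_card _ hfinX]
  have h3 : C₁ ^ (R + 1) ≤ C₁ ^ ((r₀ + 5) * (ρ + 1)) * (2 ^ (s * p) * (m + 1) ^ (s * p)) := by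
    have e1 : R + 1 ≤ (r₀ + 5) * (ρ + 1) + p * ℓ := by
      rw [hRd]
      nlinarith [Nat.zero_le (r₀ * ρ)]
    calc C₁ ^ (R + 1) ≤ C₁ ^ ((r₀ + 5) * (ρ + 1) + p * ℓ) := Nat.pow_le_pow_right hC₁ e1
      _ = C₁ ^ ((r₀ + 5) * (ρ + 1)) * C₁ ^ (p * ℓ) := pow_add _ _ _
      _ ≤ C₁ ^ ((r₀ + 5) * (ρ + 1)) * (2 ^ s) ^ (p * ℓ) :=
          Nat.mul_le_mul_left _ (Nat.pow_le_pow_left hs _)
      _ = C₁ ^ ((r₀ + 5) * (ρ + 1)) * (2 ^ ℓ) ^ (s * p) := by
          rw [← pow_mul, ← pow_mul]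
          congr 2
          ring
      _ ≤ C₁ ^ ((r₀ + 5) * (ρ + 1)) * (2 * (m + 1)) ^ (s * p) :=
          Nat.mul_le_mul_left _ (Nat.pow_le_pow_left hℓ2 _)
      _ = _ := by rw [mul_pow]
  calc hfinX.toFinset.card ≤ 2 * X'.card := hcard
    _ ≤ 2 * (E.ncard * (C₁ ^ (R + 1) * (m + 1) ^ D)) :=
        Nat.mul_le_mul_left _ (h1.trans (Nat.mul_le_mul_left _ h2))
    _ ≤ 2 * (E.ncard * ((C₁ ^ ((r₀ + 5) * (ρ + 1)) * (2 ^ (s * p) * (m + 1) ^ (s * p))) *
          (m + 1) ^ D)) := by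
        refine Nat.mul_le_mul_left _ (Nat.mul_le_mul_left _ (Nat.mul_le_mul_right _ h3))
    _ = (2 * E.ncard * 2 ^ (s * p)) * (C₁ ^ (r₀ + 5)) ^ (ρ + 1) * (m + 1) ^ (s * p + D) := by
        rw [pow_add, ← pow_mul]; ring
    _ ≤ (2 * E.ncard * 2 ^ (s * p)) ^ (ρ + 1) * (C₁ ^ (r₀ + 5)) ^ (ρ + 1) *
          (m + 1) ^ (s * p + D) := by
        refine Nat.mul_le_mul_right _ (Nat.mul_le_mul_right _ (Nat.le_self_pow (by omega) _))
    _ = (2 * E.ncard * C₁ ^ (r₀ + 5) * 2 ^ (s * p)) ^ (ρ + 1) * (m + 1) ^ (s * p + D) := by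
        rw [← mul_pow]; congr 2; ring
    _ ≤ _ := Nat.mul_le_mul_right _ (Nat.pow_le_pow_left (Nat.le_mul_of_pos_right _ (by norm_num)) _)

end

end Vale.Agent.P188.H789

end

section

/-! P188: the final algebra. An additive function on `H` with slabs of polynomial growth, connected
up to a sublinear error, exists only on virtually polycyclic groups. -/

universe u v w

open Pointwise

namespace Vale.Agent.P188.H789

open Vale.Agent.P188.H796

section

variable {H : Type u} [Group H]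

theorem vps_closure {K : Subgroup H} (hcomm : ∀ x y : H, x * y * x⁻¹ * y⁻¹ ∈ K)
    {Y : Set H} (hY : Y.Finite) (hYK : Subgroup.closure Y = K) (hV : VPS K) :
    ∀ L : Finset H, VPS (Subgroup.closure (Y ∪ L)) := by
  classical
  intro L
  induction L using Finset.induction_on with
  | empty => rw [Finset.coe_empty, Set.union_empty, hYK]; exact hV
  | insert t L _ ih =>
    have hKN : K ≤ Subgroup.closure (Y ∪ (L : Set H)) := by
      rw [← hYK]
      exact Subgroup.closure_mono Set.subset_union_left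
    have hNM : Subgroup.closure (Y ∪ (L : Set H)) ≤
        Subgroup.closure (Y ∪ ((insert t L : Finset H) : Set H)) :=
      Subgroup.closure_mono (Set.union_subset_union_right _ (by simp))
    have c1 : ∀ n ∈ Subgroup.closure (Y ∪ (L : Set H)),
        t * n * t⁻¹ ∈ Subgroup.closure (Y ∪ (L : Set H)) := by
      intro n hn
      have e : t * n * t⁻¹ = (t * n * t⁻¹ * n⁻¹) * n := by group
      rw [e]
      exact Subgroup.mul_mem _ (hKN (hcomm t n)) hn
    have c2 : ∀ n ∈ Subgroup.closure (Y ∪ (L : Set H)),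
        t⁻¹ * n * t ∈ Subgroup.closure (Y ∪ (L : Set H)) := by
      intro n hn
      have e : t⁻¹ * n * t = (t⁻¹ * n * t⁻¹⁻¹ * n⁻¹) * n := by group
      rw [e]
      exact Subgroup.mul_mem _ (hKN (hcomm t⁻¹ n)) hn
    refine ih.step (t := t) ⟨hNM, Subgroup.subset_closure (Or.inr (by simp)), c1, c2, ?_⟩ ?_
    · intro g hg
      induction hg using Subgroup.closure_induction with
      | mem x hx =>
        rcases hx with hx | hx
        · have h1 : x ∈ Subgroup.closure (Y ∪ (L : Set H)) :=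
            Subgroup.subset_closure (Set.mem_union_left _ hx)
          exact ⟨0, by simpa using h1⟩
        · rw [Finset.coe_insert] at hx
          rcases hx with rfl | hx
          · exact ⟨1, by simp⟩
          · have h1 : x ∈ Subgroup.closure (Y ∪ (L : Set H)) :=
              Subgroup.subset_closure (Set.mem_union_right _ hx)
            exact ⟨0, by simpa using h1⟩
      | one => exact ⟨0, by simp⟩
      | mul x y _ _ hx hy =>
        obtain ⟨a, ha⟩ := hx
        obtain ⟨b, hb⟩ := hy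
        refine ⟨a + b, ?_⟩
        have e : (t ^ (a + b))⁻¹ * (x * y) =
            (t ^ (-b) * ((t ^ a)⁻¹ * x) * (t ^ (-b))⁻¹) * ((t ^ b)⁻¹ * y) := by
          rw [zpow_add, zpow_neg]
          group
        rw [e]
        exact Subgroup.mul_mem _ (conj_zpow c1 c2 _ _ ha) hb
      | inv x _ hx =>
        obtain ⟨a, ha⟩ := hx
        refine ⟨-a, ?_⟩
        have e : (t ^ (-a))⁻¹ * x⁻¹ = t ^ a * ((t ^ a)⁻¹ * x)⁻¹ * (t ^ a)⁻¹ := by
          rw [zpow_neg]
          group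
        rw [e]
        exact conj_zpow c1 c2 _ _ (Subgroup.inv_mem _ ha)
    · rw [Group.fg_iff_subgroup_fg]
      refine ⟨hY.toFinset ∪ L, ?_⟩
      rw [Finset.coe_union, Set.Finite.coe_toFinset]

/-- virtually polycyclic by finitely generated abelian is virtually polycyclic -/
theorem vps_top_of_ext {K : Subgroup H} (hcomm : ∀ x y : H, x * y * x⁻¹ * y⁻¹ ∈ K)
    {Y : Set H} (hY : Y.Finite) (hYK : Subgroup.closure Y = K) (hV : VPS K) {S : Set H}
    (hSf : S.Finite) (hS : Subgroup.closure S = ⊤) : VPS (⊤ : Subgroup H) := by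
  have h1 := vps_closure hcomm hY hYK hV hSf.toFinset
  have h2 : Subgroup.closure (Y ∪ (hSf.toFinset : Set H)) = ⊤ := by
    rw [eq_top_iff, ← hS, Set.Finite.coe_toFinset]
    exact Subgroup.closure_mono Set.subset_union_right
  rwa [h2] at h1

/-- a subgroup generated by a finite set with polynomial growth is virtually polycyclic -/
theorem vps_of_growth {K : Subgroup H} {Y : Set H} (hY : Y.Finite)
    (hYK : Subgroup.closure Y = K) {C D : ℕ} (hgr : ∀ n, (Bl Y n).ncard ≤ C * (n + 1) ^ D) :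
    VPS K := by
  classical
  have hfg : Group.FG K := by
    rw [Group.fg_iff_subgroup_fg]
    exact ⟨hY.toFinset, by rw [Set.Finite.coe_toFinset, hYK]⟩
  refine (gromov_vps D K ?_).of_top
  intro F hF
  obtain ⟨R, hR⟩ := exists_Bl_of_finite (A := Y) (hF.image (Subtype.val : K → H)) (by
    rintro _ ⟨x, -, rfl⟩
    rw [hYK]
    exact x.2)
  refine ⟨C * (R + 1) ^ D, fun n => ?_⟩
  have h1 : ∀ n : ℕ, (Subtype.val : K → H) '' (F ^ n) ⊆ Bl Y (R * n) := by
    intro n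
    induction n with
    | zero =>
      rintro _ ⟨x, hx, rfl⟩
      rw [pow_zero, Set.mem_one] at hx
      rw [hx]
      exact one_mem_Bl _ _
    | succ n ih =>
      rintro _ ⟨x, hx, rfl⟩
      rw [pow_succ] at hx
      obtain ⟨y, hy, z, hz, rfl⟩ := hx
      have := mul_mem_Bl (ih ⟨y, hy, rfl⟩) (hR ⟨z, hz, rfl⟩)
      rw [Nat.mul_succ]
      exact this
  have h2 : (F ^ n).ncard ≤ (Bl Y (R * n)).ncard := by
    rw [← Set.ncard_image_of_injective (F ^ n) (Subtype.val_injective (p := fun x => x ∈ K))]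
    exact Set.ncard_le_ncard (h1 n) (Bl_finite hY _)
  refine (h2.trans (hgr _)).trans ?_
  calc C * (R * n + 1) ^ D ≤ C * ((R + 1) * (n + 1)) ^ D := by
        refine Nat.mul_le_mul_left _ (Nat.pow_le_pow_left ?_ _)
        nlinarith
    _ = C * (R + 1) ^ D * (n + 1) ^ D := by rw [mul_pow]; ring

variable {k : ℕ} {χ : H → Fin k → ℝ}

/-- The final algebra. -/
theorem Addv.vps (h : Addv χ) {C D : ℕ} (hC : 1 ≤ C) {S : Set H} (hSf : S.Finite)
    (hS : Subgroup.closure S = ⊤) (hcount : SlabGrowth χ S C D) (hconn : SubConn χ S) :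
    VPS (⊤ : Subgroup H) := by
  obtain ⟨Y, hYf, hYK, C', D', hgr⟩ := h.endgame hC hSf hS hcount hconn
  exact vps_top_of_ext h.comm_mem hYf hYK (vps_of_growth hYf hYK hgr) hSf hS

end

/-- The final algebra, for a subgroup of finite index. -/
theorem isVirtuallyPolycyclic_of_addv {H : Type u} [Group H] {H₀ : Subgroup H}
    (hH₀ : H₀.FiniteIndex) {k : ℕ} {χ : H₀ → Fin k → ℝ} (h : Addv χ) {C D : ℕ} (hC : 1 ≤ C)
    {S : Set H₀} (hSf : S.Finite) (hS : Subgroup.closure S = ⊤) (hcount : SlabGrowth χ S C D)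
    (hconn : SubConn χ S) : IsVirtuallyPolycyclic H := by
  obtain ⟨Q, -, hQ, hi⟩ := VPS.of_finiteIndex hH₀ (h.vps hC hSf hS hcount hconn)
  rw [Subgroup.relIndex_top_right] at hi
  exact isVirtuallyPolycyclic_iff.2 ⟨Q, ⟨hi⟩, hQ⟩

end Vale.Agent.P188.H789

end

section

/-!
# First exit: from the comparison of slab paths (NEU) to `Cmp`
-/

universe u v w

open Pointwise

namespace Vale.Agent.P188.H789

variable {H : Type u} [Group H] {k : ℕ}

/-- **Comparison of slab paths, everywhere** (route B): if the increments of `ψ` along `y` are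
bounded by `R` and those along `h y` by `2 R`, with `R` large compared to `log m`, then the total
increments differ by at most `R / 4`. -/
def NeuH (ψ : H → Fin k → ℝ) (B : Set H) : Prop :=
  ∃ C : ℝ, ∀ (R : ℝ) (m : ℕ), C * (1 + Real.log (m + 1)) ≤ R → ∀ (h : H) (y : ℕ → H),
    (∀ i < m, (y i)⁻¹ * y (i + 1) ∈ B) →
    (∀ i ≤ m, ∀ a, |ψ (y i) a - ψ (y 0) a| ≤ R) →
    (∀ i ≤ m, ∀ a, |ψ (h * y i) a - ψ (h * y 0) a| ≤ 2 * R) →
    ∀ a, |(ψ (h * y m) a - ψ (h * y 0) a) - (ψ (y m) a - ψ (y 0) a)| ≤ R / 4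

theorem mset_empty {X : Type u} {μ : (X → ℝ) → ℝ} (hμ : IsMean μ) : mset μ (∅ : Set X) = 0 := by
  unfold mset
  rw [Set.indicator_empty]
  exact hμ.const 0

theorem goodAt_of_neu {μ : (H → ℝ) → ℝ} (hμ : IsMean μ) {ψ : H → Fin k → ℝ} {B : Set H} {L : ℝ}
    (hL0 : 0 ≤ L) (hL : ∀ x, ∀ s ∈ B, ∀ a, |ψ (x * s) a - ψ x a| ≤ L) {C : ℝ} (hC : 0 ≤ C)
    (hneu : ∀ (R : ℝ) (m : ℕ), C * (1 + Real.log (m + 1)) ≤ R → ∀ (h : H) (y : ℕ → H),
      (∀ i < m, (y i)⁻¹ * y (i + 1) ∈ B) →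
      (∀ i ≤ m, ∀ a, |ψ (y i) a - ψ (y 0) a| ≤ R) →
      (∀ i ≤ m, ∀ a, |ψ (h * y i) a - ψ (h * y 0) a| ≤ 2 * R) →
      ∀ a, |(ψ (h * y m) a - ψ (h * y 0) a) - (ψ (y m) a - ψ (y 0) a)| ≤ R / 4)
    {R : ℝ} (hR : 2 * L ≤ R) {m : ℕ} (hRm : C * (1 + Real.log (m + 1)) ≤ R) {y : ℕ → H}
    (hy0 : y 0 = 1) (hy : ∀ i < m, (y i)⁻¹ * y (i + 1) ∈ B) (g : H) : GoodAt μ ψ R m y g := by
  refine ⟨∅, by rw [mset_empty hμ]; simp, fun h _ j hj hconf => ?_⟩
  have hRj : ∀ i ≤ m, C * (1 + Real.log (i + 1)) ≤ R := by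
    intro i hi
    refine le_trans (mul_le_mul_of_nonneg_left ?_ hC) hRm
    have : Real.log ((i : ℝ) + 1) ≤ Real.log ((m : ℝ) + 1) := by
      apply Real.log_le_log (by positivity)
      have : (i : ℝ) ≤ m := by exact_mod_cast hi
      linarith
    linarith
  have hstep : ∀ (u : H), ∀ i < m, (u * y i)⁻¹ * (u * y (i + 1)) ∈ B := by
    intro u i hi
    have : (u * y i)⁻¹ * (u * y (i + 1)) = (y i)⁻¹ * y (i + 1) := by group
    rw [this]
    exact hy i hi
  have key : ∀ j' ≤ j, (∀ i ≤ j', ∀ a, |ψ (h * (g * y i)) a - ψ (h * g) a| ≤ 2 * R) ∧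
      ∀ a, |(ψ (h * (g * y j')) a - ψ (h * g) a) - (ψ (g * y j') a - ψ g a)| ≤ R / 4 := by
    intro j'
    have hfin : (∀ i ≤ j', ∀ a, |ψ (h * (g * y i)) a - ψ (h * g) a| ≤ 2 * R) → j' ≤ j →
        ∀ a, |(ψ (h * (g * y j')) a - ψ (h * g) a) - (ψ (g * y j') a - ψ g a)| ≤ R / 4 := by
      intro h1 h2 a
      have := hneu R j' (hRj j' (by omega)) h (fun i => g * y i)
        (fun i hi => hstep g i (by omega))
        (fun i hi a => by rw [hy0, mul_one]; exact hconf i (by omega) a)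
        (fun i hi a => by rw [hy0, mul_one]; exact h1 i hi a) a
      simpa [hy0] using this
    induction j' with
    | zero =>
      intro hj'
      have h1 : ∀ i ≤ 0, ∀ a, |ψ (h * (g * y i)) a - ψ (h * g) a| ≤ 2 * R := by
        intro i hi a
        have : i = 0 := by omega
        rw [this, hy0, mul_one, sub_self, abs_zero]
        linarith
      exact ⟨h1, hfin h1 hj'⟩
    | succ j' ih =>
      intro hj'
      obtain ⟨h1, h2⟩ := ih (fun h1 h2 a => by
        have := hneu R j' (hRj j' (by omega)) h (fun i => g * y i)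
          (fun i hi => hstep g i (by omega))
          (fun i hi a => by rw [hy0, mul_one]; exact hconf i (by omega) a)
          (fun i hi a => by rw [hy0, mul_one]; exact h1 i hi a) a
        simpa [hy0] using this) (by omega)
      have h3 : ∀ i ≤ j' + 1, ∀ a, |ψ (h * (g * y i)) a - ψ (h * g) a| ≤ 2 * R := by
        intro i hi a
        rcases Nat.lt_or_ge i (j' + 1) with hlt | hge
        · exact h1 i (by omega) a
        have hij : i = j' + 1 := by omega
        rw [hij]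
        have h4 := hL (h * (g * y j')) _ (hy j' (by omega)) a
        rw [mul_assoc h, mul_assoc g, mul_inv_cancel_left] at h4
        have h5 := h2 a
        have h6 := hconf j' (by omega) a
        rw [abs_le] at h4 h5 h6 ⊢
        constructor <;> linarith [h4.1, h4.2, h5.1, h5.2, h6.1, h6.2]
      exact ⟨h3, hfin h3 hj'⟩
  exact (key j le_rfl).2

theorem cmp_of_neu {μ : (H → ℝ) → ℝ} (hμ : IsMean μ) {ψ : H → Fin k → ℝ} {B : Set H} {L : ℝ}
    (hL : ∀ x, ∀ s ∈ B, ∀ a, |ψ (x * s) a - ψ x a| ≤ L) (hneu : NeuH ψ B) : Cmp μ ψ B := by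
  obtain ⟨C, hneu⟩ := hneu
  set C' : ℝ := max C 1 with hC'
  have hC'1 : 1 ≤ C' := le_max_right _ _
  have hC'0 : 0 < C' := by linarith
  refine ⟨1 / (2 * C'), by positivity, max (4 * C') (2 * max L 0), fun R hR m hm y hy0 hy => ?_⟩
  have hR1 : 4 * C' ≤ R := (le_max_left _ _).trans hR
  have hR2 : 2 * max L 0 ≤ R := (le_max_right _ _).trans hR
  have hlog : Real.log ((m : ℝ) + 1) ≤ 1 + 1 / (2 * C') * R := by
    have hR0 : 0 ≤ R := by linarith
    have h0 : 0 ≤ 1 / (2 * C') * R := by positivity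
    have h1 : 1 ≤ Real.exp (1 / (2 * C') * R) := Real.one_le_exp h0
    have h2 : (m : ℝ) + 1 ≤ Real.exp (1 + 1 / (2 * C') * R) := by
      rw [Real.exp_add]
      have h3 : (2 : ℝ) ≤ Real.exp 1 := by linarith [Real.add_one_le_exp (1 : ℝ)]
      nlinarith
    calc Real.log ((m : ℝ) + 1) ≤ Real.log (Real.exp (1 + 1 / (2 * C') * R)) :=
          Real.log_le_log (by positivity) h2
      _ = _ := Real.log_exp _
  have hRm : C' * (1 + Real.log ((m : ℝ) + 1)) ≤ R := by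
    have h1 : C' * (1 + Real.log ((m : ℝ) + 1)) ≤ C' * (1 + (1 + 1 / (2 * C') * R)) :=
      mul_le_mul_of_nonneg_left (by linarith) hC'0.le
    have h2 : C' * (1 + (1 + 1 / (2 * C') * R)) = 2 * C' + R / 2 := by
      field_simp
      ring
    linarith
  have hall : {g | ¬ GoodAt μ ψ R m y g} = ∅ := by
    rw [Set.eq_empty_iff_forall_notMem]
    intro g hg
    refine hg (goodAt_of_neu (L := max L 0) (C := C') hμ (le_max_right _ _)
      (fun x s hs a => (hL x s hs a).trans (le_max_left _ _)) hC'0.le ?_ hR2 hRm hy0 hy g)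
    intro R' m' hRm' h y' h1 h2 h3
    refine hneu R' m' (le_trans ?_ hRm') h y' h1 h2 h3
    have : 0 ≤ Real.log ((m' : ℝ) + 1) := Real.log_nonneg (by
      have : (0 : ℝ) ≤ m' := Nat.cast_nonneg _
      linarith)
    exact mul_le_mul_of_nonneg_right (le_max_left _ _) (by linarith)
  rw [hall, mset_empty hμ]
  norm_num

end Vale.Agent.P188.H789

end

section

/-!
# Growth of finitely generated subgroups of the kernel

`SlabGrowth` implies: every finitely generated subgroup of the kernel of `χ` has polynomial growth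
of degree at most `D`.
-/

universe u v w

open Pointwise

namespace Vale.Agent.P188.H789

variable {H : Type u} [Group H] {k : ℕ}

theorem kernel_growth {χ : H → Fin k → ℝ} (h : Addv χ) {S : Set H}
    (hS : Subgroup.closure S = ⊤) {C D : ℕ} (hG : SlabGrowth χ S C D)
    {Y : Set H} (hY : Y.Finite) (hYk : ∀ y ∈ Y, y ∈ h.ker) :
    ∃ C' : ℕ, ∀ n, (Bl Y n).ncard ≤ C' * (n + 1) ^ D := by
  classical
  set B : Set H := S ∪ S⁻¹ ∪ {1} with hB
  have h1B : (1 : H) ∈ B := Or.inr rfl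
  -- paths for the elements of `Y` and their inverses
  have hpath : ∀ y : H, ∃ n r : ℕ, PathTo (SH χ (r : ℝ)) B n 1 y := by
    intro y
    exact exists_path_gen hS χ y
  choose n r hnr using hpath
  have hfin : (Y ∪ Y⁻¹).Finite := hY.union hY.inv
  obtain ⟨N, hN⟩ := (hfin.image n).bddAbove
  obtain ⟨M, hM⟩ := (hfin.image r).bddAbove
  have hp : ∀ y ∈ Y ∪ Y⁻¹, PathTo (SH χ (M : ℝ)) B N 1 y := fun y hy =>
    ((hnr y).mono (SH_mono (by exact_mod_cast hM ⟨y, hy, rfl⟩)) subset_rfl).extend h1B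
      (hN ⟨y, hy, rfl⟩)
  have key : ∀ l : List H, (∀ a ∈ l, a ∈ Y ∨ a⁻¹ ∈ Y) →
      PathTo (SH χ (M : ℝ)) B (l.length * N) 1 l.prod ∧ l.prod ∈ h.ker := by
    intro l
    induction l using List.reverseRecOn with
    | nil =>
      intro _
      refine ⟨?_, h.ker.one_mem⟩
      rw [List.length_nil, Nat.zero_mul, List.prod_nil]
      refine PathTo.refl ?_
      intro i
      rw [h.one, abs_zero]
      exact Nat.cast_nonneg _
    | append_singleton l a ih =>
      intro hl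
      obtain ⟨h1, h2⟩ := ih (fun b hb => hl b (List.mem_append_left _ hb))
      have ha := hl a (by simp)
      have hak : a ∈ h.ker := by
        rcases ha with ha | ha
        · exact hYk a ha
        · have := h.ker.inv_mem (hYk _ ha)
          rwa [inv_inv] at this
      refine ⟨?_, ?_⟩
      · rw [List.length_append, List.length_singleton, List.prod_append, List.prod_singleton,
          Nat.add_mul, Nat.one_mul]
        refine h1.trans ?_
        have h3 := (hp a (by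
          rcases ha with ha | ha
          · exact Or.inl ha
          · exact Or.inr (by simpa using ha))).left l.prod (P' := SH χ (M : ℝ)) (fun z hz i => by
            rw [h.mul, (h.mem_ker _).mp h2 i, zero_add]
            exact hz i)
        rwa [mul_one] at h3
      · rw [List.prod_append, List.prod_singleton]
        exact h.ker.mul_mem h2 hak
  refine ⟨C ^ (M + 1) * (N + 1) ^ D, fun m => ?_⟩
  have hsub : Bl Y m ⊆ {x | PathTo (SH χ (M : ℝ)) B (m * N) 1 x} := by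
    rintro x ⟨l, h1, h2, rfl⟩
    exact (key l h2).1.extend h1B (Nat.mul_le_mul_right _ h1)
  calc (Bl Y m).ncard ≤ {x | PathTo (SH χ (M : ℝ)) B (m * N) 1 x}.ncard :=
        Set.ncard_le_ncard hsub (hG M (m * N)).1
    _ ≤ C ^ (M + 1) * (m * N + 1) ^ D := (hG M (m * N)).2
    _ ≤ C ^ (M + 1) * ((N + 1) * (m + 1)) ^ D :=
        Nat.mul_le_mul_left _ (Nat.pow_le_pow_left (by nlinarith) _)
    _ = _ := by rw [mul_pow]; ring

end Vale.Agent.P188.H789

end

section

/-!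
# The additive function of a mean, restriction to subgroups of finite index
-/

universe u v w

open Pointwise

namespace Vale.Agent.P188.H789

section chi

variable {H : Type u} [Group H] {k : ℕ}

/-- The mean of the increments of `ψ`. -/
noncomputable def chi (μ : (H → ℝ) → ℝ) (ψ : H → Fin k → ℝ) (x : H) (a : Fin k) : ℝ :=
  μ (fun h => ψ (h * x) a - ψ h a)

/-- Lipschitz along a generating set. -/
theorem lip_Bl {ψ : H → Fin k → ℝ} {S : Set H} {L : ℝ}
    (hL : ∀ x, ∀ s ∈ S ∪ S⁻¹ ∪ {1}, ∀ a, |ψ (x * s) a - ψ x a| ≤ L) :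
    ∀ (n : ℕ), ∀ x ∈ Bl S n, ∀ (h : H) (a : Fin k), |ψ (h * x) a - ψ h a| ≤ L * n := by
  have hL0 : ∀ a : Fin k, 0 ≤ L := fun a => (abs_nonneg _).trans (hL 1 1 (Or.inr rfl) a)
  have key : ∀ l : List H, (∀ a ∈ l, a ∈ S ∨ a⁻¹ ∈ S) → ∀ (h : H) (a : Fin k),
      |ψ (h * l.prod) a - ψ h a| ≤ L * l.length := by
    intro l
    induction l with
    | nil => intro _ h a; simp
    | cons b l ih =>
      intro hl h a
      have h1 := ih (fun c hc => hl c (List.mem_cons_of_mem _ hc)) (h * b) a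
      have h2 := hL h b (by
        rcases hl b (by simp) with h | h
        · exact Or.inl (Or.inl h)
        · exact Or.inl (Or.inr h)) a
      rw [List.prod_cons, ← mul_assoc, List.length_cons]
      have h3 : ψ (h * b * l.prod) a - ψ h a =
          (ψ (h * b * l.prod) a - ψ (h * b) a) + (ψ (h * b) a - ψ h a) := by ring
      rw [h3]
      refine (abs_add_le _ _).trans ?_
      push_cast
      linarith
  rintro n x ⟨l, h1, h2, rfl⟩ h a
  refine (key l h2 h a).trans (mul_le_mul_of_nonneg_left ?_ (hL0 a))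
  exact_mod_cast h1

theorem bdd_incr {ψ : H → Fin k → ℝ} {S : Set H} (hS : Subgroup.closure S = ⊤) {L : ℝ}
    (hL : ∀ x, ∀ s ∈ S ∪ S⁻¹ ∪ {1}, ∀ a, |ψ (x * s) a - ψ x a| ≤ L) (x : H) (a : Fin k) :
    Bdd (fun h => ψ (h * x) a - ψ h a) := by
  obtain ⟨n, hn⟩ := exists_mem_Bl (A := S) (x := x) (by rw [hS]; trivial)
  exact ⟨L * n, fun h => lip_Bl hL n x hn h a⟩

theorem chi_addv {μ : (H → ℝ) → ℝ} (hμ : IsMean μ)
    (hinv : ∀ (g : H) f, Bdd f → μ (fun x => f (x * g)) = μ f)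
    {ψ : H → Fin k → ℝ} {S : Set H} (hS : Subgroup.closure S = ⊤) {L : ℝ}
    (hL : ∀ x, ∀ s ∈ S ∪ S⁻¹ ∪ {1}, ∀ a, |ψ (x * s) a - ψ x a| ≤ L) : Addv (chi μ ψ) := by
  refine ⟨fun x y => ?_⟩
  funext a
  rw [Pi.add_apply]
  unfold chi
  have h1 := hinv x _ (bdd_incr hS hL y a)
  have h2 := hμ.add (fun h => ψ (h * x) a - ψ h a) (fun h => ψ (h * x * y) a - ψ (h * x) a)
    (bdd_incr hS hL x a) ((bdd_incr hS hL y a).comp (fun h => h * x))
  rw [h1] at h2
  rw [← h2]
  congr 1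
  funext h
  simp only [Pi.add_apply, mul_assoc]
  ring

theorem chi_near {μ : (H → ℝ) → ℝ} (hμ : IsMean μ) {ψ : H → Fin k → ℝ} {S : Set H}
    (hS : Subgroup.closure S = ⊤) {L : ℝ}
    (hL : ∀ x, ∀ s ∈ S ∪ S⁻¹ ∪ {1}, ∀ a, |ψ (x * s) a - ψ x a| ≤ L)
    (hES : ∀ ε : ℝ, 0 < ε → ∃ C : ℝ, ∀ n : ℕ, ∀ x ∈ Bl S n, ∀ (h : H) (i : Fin k),
      |ψ (h * x) i - ψ h i - (ψ x i - ψ 1 i)| ≤ ε * n + C) :
    ∀ ε : ℝ, 0 < ε → ∃ C : ℝ, ∀ n : ℕ, ∀ x ∈ Bl S n, ∀ i,
      |chi μ ψ x i - ψ x i| ≤ ε * n + C := by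
  intro ε hε
  obtain ⟨C, hC⟩ := hES ε hε
  obtain ⟨C₁, hC₁⟩ : ∃ C₁ : ℝ, ∀ i : Fin k, |ψ 1 i| ≤ C₁ := by
    refine ⟨∑ i, |ψ 1 i|, fun i => ?_⟩
    exact Finset.single_le_sum (f := fun i => |ψ 1 i|) (fun _ _ => abs_nonneg _)
      (Finset.mem_univ i)
  refine ⟨C + C₁, fun n x hx i => ?_⟩
  have hb := bdd_incr hS hL x i
  have h1 : |μ ((fun h => ψ (h * x) i - ψ h i) + fun _ => -(ψ x i - ψ 1 i))| ≤ ε * n + C := by
    refine hμ.abs_le fun h => ?_
    have := hC n x hx h i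
    simp only [Pi.add_apply]
    rwa [← sub_eq_add_neg]
  rw [hμ.add _ _ hb (Bdd.const _), hμ.const] at h1
  have h2 : chi μ ψ x i - ψ x i =
      (μ (fun h => ψ (h * x) i - ψ h i) + -(ψ x i - ψ 1 i)) + -(ψ 1 i) := by
    unfold chi; ring
  rw [h2]
  refine (abs_add_le _ _).trans ?_
  rw [abs_neg]
  linarith [hC₁ i]

/-- `hts η F` is Lipschitz. -/
theorem hts_lip {G : Type v} [Group G] (η : G →* Multiplicative (Fin k → ℤ)) {F : H → G}
    (hF : Coarse F) {B : Set H} (hB : B.Finite) :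
    ∃ L : ℕ, ∀ x, ∀ s ∈ B, ∀ a, |hts η F (x * s) a - hts η F x a| ≤ L := by
  obtain ⟨B', hB'f, hB'⟩ := hF B hB
  obtain ⟨r, hr⟩ := exists_slab_finite η hB'f
  refine ⟨r, fun x s hs a => ?_⟩
  have h1 := hr (hB' x (x * s) (by rw [inv_mul_cancel_left]; exact hs)) a
  unfold cz at h1
  rw [dif_pos a.2] at h1
  have h5 : (Multiplicative.toAdd (η ((F x)⁻¹ * F (x * s))) : Fin k → ℤ) a =
      (Multiplicative.toAdd (η (F (x * s))) : Fin k → ℤ) a -
        (Multiplicative.toAdd (η (F x)) : Fin k → ℤ) a := by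
    rw [map_mul, map_inv, toAdd_mul, toAdd_inv, Pi.add_apply, Pi.neg_apply]
    ring
  have h2 : ((Multiplicative.toAdd (η ((F x)⁻¹ * F (x * s))) : Fin k → ℤ) a).natAbs ≤ r := h1
  rw [h5] at h2
  unfold hts
  have h6 : |(Multiplicative.toAdd (η (F (x * s))) : Fin k → ℤ) a -
        (Multiplicative.toAdd (η (F x)) : Fin k → ℤ) a| ≤ (r : ℤ) := by
    rw [← Int.natCast_natAbs]
    exact_mod_cast h2
  exact_mod_cast h6

end chi

section restrict

variable {H : Type u} {G : Type v} [Group H] [Group G]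

/-- a coarse retraction to a subgroup of finite index -/
theorem exists_retract (P : Subgroup H) (hP : P.FiniteIndex) :
    ∃ r : H → P, ∃ R : Set H, R.Finite ∧ ∀ x, x⁻¹ * (r x : H) ∈ R := by
  classical
  have hr : ∀ g : H, g * (Quotient.out (QuotientGroup.mk g⁻¹ : H ⧸ P)) ∈ P := by
    intro g
    have h1 : (QuotientGroup.mk (Quotient.out (QuotientGroup.mk g⁻¹ : H ⧸ P)) : H ⧸ P)
      = QuotientGroup.mk g⁻¹ := Quotient.out_eq' _
    rw [QuotientGroup.eq] at h1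
    have := P.inv_mem h1
    simpa using this
  refine ⟨fun g => ⟨_, hr g⟩, Set.range (fun q : H ⧸ P => q.out), Set.finite_range _, fun x => ?_⟩
  simp only [inv_mul_cancel_left]
  exact ⟨_, rfl⟩

/-- **Restriction of a coarse equivalence** to a subgroup of finite index. -/
theorem coarse_restrict {F : H → G} {F' : G → H} (hF : Coarse F) (hF' : Coarse F')
    (h1 : CloseId (F' ∘ F)) (h2 : CloseId (F ∘ F')) (P : Subgroup H) (hP : P.FiniteIndex) :
    ∃ F₀' : G → P, Coarse (fun x : P => F x) ∧ Coarse F₀' ∧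
      CloseId (F₀' ∘ fun x : P => F x) ∧ CloseId ((fun x : P => F x) ∘ F₀') := by
  obtain ⟨r, R, hR, hr⟩ := exists_retract P hP
  have hpre : ∀ A : Set H, A.Finite → ((fun p : P => (p : H)) ⁻¹' A).Finite := fun A hA =>
    hA.preimage Subtype.val_injective.injOn
  refine ⟨fun g => r (F' g), ?_, ?_, ?_, ?_⟩
  · intro A hA
    obtain ⟨B, hB, hB'⟩ := hF ((fun p : P => (p : H)) '' A) (hA.image _)
    exact ⟨B, hB, fun x y hxy => hB' x y ⟨_, hxy, by simp⟩⟩
  · intro A hA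
    obtain ⟨B, hB, hB'⟩ := hF' A hA
    refine ⟨_, hpre (R⁻¹ * B * R) ((hR.inv.mul hB).mul hR), fun x y hxy => ?_⟩
    show (((r (F' x))⁻¹ * r (F' y) : P) : H) ∈ R⁻¹ * B * R
    have e : (((r (F' x))⁻¹ * r (F' y) : P) : H) =
        ((F' x)⁻¹ * (r (F' x) : H))⁻¹ * ((F' x)⁻¹ * F' y) * ((F' y)⁻¹ * (r (F' y) : H)) := by
      simp only [Subgroup.coe_mul, Subgroup.coe_inv]; group
    rw [e]
    exact Set.mul_mem_mul (Set.mul_mem_mul (Set.inv_mem_inv.mpr (hr _)) (hB' x y hxy)) (hr _)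
  · obtain ⟨E, hE, hE'⟩ := h1
    refine ⟨_, hpre (E * R) (hE.mul hR), fun x => ?_⟩
    show ((x⁻¹ * r (F' (F x)) : P) : H) ∈ E * R
    have e : ((x⁻¹ * r (F' (F x)) : P) : H) =
        ((x : H)⁻¹ * F' (F x)) * ((F' (F x))⁻¹ * (r (F' (F x)) : H)) := by
      simp only [Subgroup.coe_mul, Subgroup.coe_inv]; group
    rw [e]
    exact Set.mul_mem_mul (hE' x) (hr _)
  · obtain ⟨E, hE, hE'⟩ := h2
    obtain ⟨B, hB, hB'⟩ := hF R hR
    refine ⟨E * B, hE.mul hB, fun g => ?_⟩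
    show g⁻¹ * F (r (F' g)) ∈ E * B
    have e : g⁻¹ * F (r (F' g)) = (g⁻¹ * F (F' g)) * ((F (F' g))⁻¹ * F (r (F' g))) := by group
    rw [e]
    exact Set.mul_mem_mul (hE' g) (hB' _ _ (hr _))

end restrict

end Vale.Agent.P188.H789

end

section

/-!
# Final assembly, route B

`OutB` (everywhere sublinear + comparison of slab paths) implies `Core`.
-/

universe u v w

open Pointwise

namespace Vale.Agent.P188.H789

/-- Everywhere sublinear. -/
def ESH {H : Type u} [Group H] {k : ℕ} (ψ : H → Fin k → ℝ) (S : Set H) : Prop :=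
  ∀ ε : ℝ, 0 < ε → ∃ C : ℝ, ∀ n : ℕ, ∀ x ∈ Bl S n, ∀ (h : H) (i : Fin k),
    |ψ (h * x) i - ψ h i - (ψ x i - ψ 1 i)| ≤ ε * n + C

/-- growth of the kernel of a model group -/
theorem Z0_growth {Γ : Type} [Group Γ] {k : ℕ} {η : Γ →* Multiplicative (Fin k → ℤ)}
    (h : H187.Z0 Γ k η) : ∃ A : Set Γ, A.Finite ∧ Subgroup.closure A = η.ker ∧
      ∃ C D : ℕ, ∀ n, (Bl A n).ncard ≤ C * (n + 1) ^ D := by
  classical
  obtain ⟨m, hm⟩ := h.ker_polyZ
  obtain ⟨S₁, hS₁, hS₁f⟩ := Group.fg_iff.mp (H754.PolyZ.fg m hm)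
  obtain ⟨C, D, hg⟩ := nil_growth m η.ker hm h.nil S₁ hS₁f
  refine ⟨Subtype.val '' S₁, hS₁f.image _, ?_, C, D, fun n => ?_⟩
  · have h1 : Subgroup.closure (Subtype.val '' S₁) = (Subgroup.closure S₁).map η.ker.subtype := by
      rw [MonoidHom.map_closure]; rfl
    rw [h1, hS₁, ← MonoidHom.range_eq_map, Subgroup.range_subtype]
  · have h1 : Bl (Subtype.val '' S₁) n ⊆ η.ker.subtype '' Bl S₁ n := Bl_image η.ker.subtype S₁ n
    exact ((Set.ncard_le_ncard h1 ((Bl_finite hS₁f n).image _)).trans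
      (Set.ncard_image_le (Bl_finite hS₁f n))).trans (hg n)

theorem exists_fin_gen {G : Type u} [Group G] (h : Group.FG G) :
    ∃ B : Set G, B.Finite ∧ Subgroup.closure B = ⊤ := by
  obtain ⟨S, hS, hSf⟩ := Group.fg_iff.mp h
  exact ⟨S, hSf, hS⟩

/-- the final step for a group with the comparison property, route B -/
theorem vps_of_ES {Γ : Type} [Group Γ] {k : ℕ} {η : Γ →* Multiplicative (Fin k → ℤ)}
    (hZ : H187.Z0 Γ k η) {H : Type} [Group H] {F : H → Γ} {F' : Γ → H}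
    (hF : Coarse F) (hF' : Coarse F') (hFF : CloseId (F' ∘ F)) (hFF' : CloseId (F ∘ F'))
    {H₀ : Subgroup H} (hH₀ : H₀.FiniteIndex) {S : Set H₀} (hSf : S.Finite)
    (hS : Subgroup.closure S = ⊤) (hES : ESH (fun x : H₀ => hts η F x) S)
    (hneu : NeuH (fun x : H₀ => hts η F x) (S ∪ S⁻¹ ∪ {1})) : IsVirtuallyPolycyclic H := by
  classical
  obtain ⟨F₀', c1, c2, c3, c4⟩ := coarse_restrict hF hF' hFF hFF' H₀ hH₀
  obtain ⟨m, hm⟩ := hZ.polyZ
  obtain ⟨μ, hμ, hinv⟩ : HasMean H₀ :=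
    hasMean_of_coarseEquiv ⟨_, _, c1, c2, c3, c4⟩ (hasMean_of_PolyZ m Γ hm)
  obtain ⟨A, hA, hcl, C, D, hgr⟩ := Z0_growth hZ
  obtain ⟨B, hBf, hB⟩ := exists_fin_gen (H754.PolyZ.fg m hm)
  have hBfin : (S ∪ S⁻¹ ∪ {1}).Finite := (hSf.union hSf.inv).union (Set.finite_singleton 1)
  obtain ⟨L, hL⟩ := hts_lip η c1 hBfin
  have hcmp : Cmp μ (hts η fun x : H₀ => F x) (S ∪ S⁻¹ ∪ {1}) :=
    cmp_of_neu (L := L) hμ hL hneu
  have hadd : Addv (chi μ (hts η fun x : H₀ => F x)) := chi_addv hμ hinv hS hL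
  obtain ⟨C', D', hC', hSG⟩ := slabGrowth_of_cmp hZ.surj hA hcl hgr c1 c3 hμ hinv
    (χ := chi μ (hts η fun x : H₀ => F x)) (fun _ _ => rfl) hSf hcmp
  have hnear := chi_near (μ := μ) (ψ := hts η fun x : H₀ => F x) hμ hS hL hES
  have hconn : SubConn (chi μ (hts η fun x : H₀ => F x)) S :=
    _root_.Agent.P188.H428.subConn_of_near hZ.surj hA hcl hBf hB hSf hS c1 c2 c3 c4 hadd hnear
  exact isVirtuallyPolycyclic_of_addv hH₀ hadd hC' hSf hS hSG hconn

end Vale.Agent.P188.H789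

end
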