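import Vale.Agent.P188.R.G047
import Vale.Agent.P188.R.G059

section

/-!
# Good points and good elements are exponentially dense
-/

set_option linter.unusedSectionVars false

universe u v w x y y' y''

namespace Vale.Agent.P188.H382

open Finset Vale.Agent.P188 Agent.P188.H428 Vale.Agent.P188.H789

variable {S : Type u} [Group S] {E : Type w} [NormedAddCommGroup E]

section

variable {G : Type v} [Group G] {H : Type x} [Group H] {Q : Type y} (ρ : Rounding S G Q)

open Classical in
/-- Good points of the `G`-set `H × G`: some point above in the induced `S`-set is good. -/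
def Good0 (W : H × G → E) (τ θ : ℝ) {κ : Type y'} {J : Type y''} (K : Finset κ)
    (Lam : κ → Finset J) (ψ : κ → J → S) (z : H × G) : Prop :=
  ∃ q : Q, GoodS (ind ρ (prodAct H G)) (fun z : (H × G) × Q => W z.1) τ θ K Lam ψ (z, q)

open Classical in
/-- The mean of the bad points of `H × G` is at most the mean of the bad points above. -/
theorem prodMean_not_Good0_le {ν : (H → ℝ) → ℝ} (hν : IsMean ν) {μ : (G → ℝ) → ℝ}
    (hμ : IsMean μ) (hinv : ∀ (g : G) f, Bdd f → μ (fun x => f (x * g)) = μ f)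
    {m : (S → ℝ) → ℝ} (hm : IsMean m) (hminv : ∀ (s : S) f, Bdd f → m (fun t => f (t * s)) = m f)
    (W : H × G → E) (τ θ : ℝ) {κ : Type y'} {J : Type y''} (K : Finset κ)
    (Lam : κ → Finset J) (ψ : κ → J → S) :
    prodMean ν μ (fun z => if Good0 ρ W τ θ K Lam ψ z then 0 else 1) ≤
      indMean (qMean ρ m) (prodMean ν μ) (fun z => if GoodS (ind ρ (prodAct H G))
        (fun z : (H × G) × Q => W z.1) τ θ K Lam ψ z then 0 else 1) := by
  have hi := invMean_ind ρ (prodAct H G) (invMean_prod hν hμ hinv) hm hminv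
  rw [← indMean_fst ρ hm (prodMean ν μ) (fun z => if Good0 ρ W τ θ K Lam ψ z then 0 else 1)]
  refine hi.mean.le (bdd_ite' _) (bdd_ite' _) fun z => ?_
  by_cases h : GoodS (ind ρ (prodAct H G)) (fun z : (H × G) × Q => W z.1) τ θ K Lam ψ z
  · rw [if_pos h, if_pos (show Good0 ρ W τ θ K Lam ψ z.1 from ⟨z.2, h⟩)]
  · rw [if_neg h]
    split_ifs <;> simp

end

end Vale.Agent.P188.H382

end

section

/-!
# Route A: from exponentially dense good elements and the neutral comparison to `Cmp`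
-/

set_option linter.unusedSectionVars false

universe u v w

namespace Vale.Agent.P188.H382

open Finset Vale.Agent.P188 Vale.Agent.P188.H789

variable {H : Type u} [Group H] {G : Type v} [Group G] {k : ℕ}

lemma mset_mono {X : Type u} {ν : (X → ℝ) → ℝ} (hν : IsMean ν) {s t : Set X} (h : s ⊆ t) :
    mset ν s ≤ mset ν t :=
  hν.le (Bdd.indicator s) (Bdd.indicator t)
    (fun x => Set.indicator_le_indicator_of_subset h (fun _ => zero_le_one) x)

lemma mset_biUnion_le {X : Type u} {ν : (X → ℝ) → ℝ} (hν : IsMean ν) (m : ℕ) (s : ℕ → Set X)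
    {β : ℝ} (h : ∀ i < m, mset ν (s i) ≤ β) : mset ν {x | ∃ i < m, x ∈ s i} ≤ m * β := by
  have h1 : mset ν {x | ∃ i < m, x ∈ s i} ≤ ∑ i ∈ range m, mset ν (s i) := by
    unfold mset
    rw [← (hν.sum (range m) (fun i => (s i).indicator fun _ => (1 : ℝ))
      fun i _ => Bdd.indicator (s i)).2]
    refine hν.le (Bdd.indicator _) (Bdd.sum' _ _ fun i _ => Bdd.indicator (s i)) fun x => ?_
    by_cases hx : x ∈ {x | ∃ i < m, x ∈ s i}
    · rw [Set.indicator_of_mem hx]
      obtain ⟨i, hi, hxi⟩ := hx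
      have h2 : (s i).indicator (fun _ => (1 : ℝ)) x = 1 := Set.indicator_of_mem hxi _
      have h3 := Finset.single_le_sum (f := fun i => (s i).indicator (fun _ => (1 : ℝ)) x)
        (fun i _ => Set.indicator_nonneg (fun _ _ => zero_le_one) x) (mem_range.2 hi)
      simp only [h2] at h3
      exact h3
    · rw [Set.indicator_of_notMem hx]
      exact Finset.sum_nonneg fun i _ => Set.indicator_nonneg (fun _ _ => zero_le_one) x
  refine h1.trans ((Finset.sum_le_sum fun i hi => h i (mem_range.1 hi)).trans ?_)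
  rw [Finset.sum_const, nsmul_eq_mul, card_range]

open Classical in
/-- **Route A**: good elements and the comparison along good paths give `Cmp`. -/
theorem cmp_of_gd {ν : (H → ℝ) → ℝ} (hν : IsMean ν)
    (hinv : ∀ (g : H) f, Bdd f → ν (fun x => f (x * g)) = ν f)
    (F : H → G) (θ : G → Fin k → ℝ) (B : Set H) (BG : Set G)
    (hB : ∀ x y, x⁻¹ * y ∈ B → (F x)⁻¹ * F y ∈ BG)
    (W : H × G → Fin k → ℝ) (C1 : ℝ)
    (hW : ∀ h x a, |θ (F (h * x)) a - θ (F x) a - W (h, F x) a| ≤ C1)
    (P : ℕ → H × G → Prop) (C cc : ℝ) (hcc : 0 < cc) (R0 : ℕ)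
    (hdense : ∀ R : ℕ, R0 ≤ R →
      ν (fun x => if x ∈ Gd ν F (P R) (Real.exp (-(cc * R))) then 0 else 1)
        ≤ C * Real.exp (-(cc * R)))
    (c : ℝ) (hc : 0 < c) (R1 : ℕ)
    (hNC : ∀ R : ℕ, R1 ≤ R → ∀ j : ℕ, (j : ℝ) ≤ Real.exp (c * R) → ∀ (h : H) (z : ℕ → G),
      (∀ i < j, (z i)⁻¹ * z (i + 1) ∈ BG) → (∀ i ≤ j, P R (h, z i)) →
      (∀ i ≤ j, ∀ a, |θ (z i) a - θ (z 0) a| ≤ R) →
      ∀ a, |W (h, z j) a - W (h, z 0) a| ≤ R / 8) :
    Cmp ν (fun x => θ (F x)) B := by
  set c' : ℝ := min c (cc / 4) with hc'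
  have hc'0 : 0 < c' := lt_min hc (by positivity)
  have hC1 : 0 ≤ C1 ∨ k = 0 := by
    rcases Nat.eq_zero_or_pos k with h | h
    · exact Or.inr h
    · exact Or.inl ((abs_nonneg _).trans (hW 1 1 ⟨0, h⟩))
  -- large R
  obtain ⟨R2, hR2⟩ := exists_nat_ge (16 * |C1| + (4 * |C| + 4) * 4 / cc + 16 + R0 + R1)
  refine ⟨c', hc'0, R2, fun R hR m hm y hy0 hy => ?_⟩
  have hRpos : 0 < R := by
    have h1 : 0 ≤ (4 * |C| + 4) * 4 / cc := by positivity
    have h2 : (0 : ℝ) ≤ R0 := Nat.cast_nonneg _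
    have h3 : (0 : ℝ) ≤ R1 := Nat.cast_nonneg _
    have h4 := abs_nonneg C1
    linarith
  set n : ℕ := ⌈R⌉₊ with hn
  have hnR : R ≤ n := Nat.le_ceil R
  have hnR' : (n : ℝ) ≤ R + 1 := (Nat.ceil_lt_add_one hRpos.le).le
  have hbig : 16 * |C1| + (4 * |C| + 4) * 4 / cc + 16 + R0 + R1 ≤ R := hR2.trans hR
  have hc0 : 0 ≤ (4 * |C| + 4) * 4 / cc := by positivity
  have hR0n : R0 ≤ n := by
    have h3 : (0 : ℝ) ≤ R1 := Nat.cast_nonneg _
    have h4 := abs_nonneg C1
    have : (R0 : ℝ) ≤ n := by linarith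
    exact_mod_cast this
  have hR1n : R1 ≤ n := by
    have h3 : (0 : ℝ) ≤ R0 := Nat.cast_nonneg _
    have h4 := abs_nonneg C1
    have : (R1 : ℝ) ≤ n := by linarith
    exact_mod_cast this
  -- the union bound
  have hm1 : ((m : ℝ) + 1) ≤ 2 * Real.exp (cc / 4 * n) := by
    have h1 : (m : ℝ) ≤ Real.exp (cc / 4 * n) := hm.trans (Real.exp_le_exp.2 (by
      have : c' ≤ cc / 4 := min_le_right _ _
      nlinarith))
    have h2 : 1 ≤ Real.exp (cc / 4 * n) := Real.one_le_exp (by positivity)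
    linarith
  have hCexp : 4 * |C| + 4 ≤ Real.exp (cc / 4 * n) := by
    have h1 : (4 * |C| + 4) * 4 / cc ≤ n := by
      have h3 : (0 : ℝ) ≤ R1 := Nat.cast_nonneg _
      have h4 := abs_nonneg C1
      have h2 : (0 : ℝ) ≤ R0 := Nat.cast_nonneg _
      linarith
    rw [div_le_iff₀ hcc] at h1
    have := Real.add_one_le_exp (cc / 4 * n)
    linarith
  set D : Set H := Gd ν F (P n) (Real.exp (-(cc * n))) with hD
  have hDm : mset ν Dᶜ ≤ |C| * Real.exp (-(cc * n)) := by
    have h1 := hdense n hR0n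
    have h2 : mset ν Dᶜ = ν (fun x => if x ∈ D then (0 : ℝ) else 1) := by
      unfold mset
      congr 1
      funext x
      by_cases hx : x ∈ D
      · rw [if_pos hx, Set.indicator_of_notMem (not_not.2 hx)]
      · rw [if_neg hx, Set.indicator_of_mem hx]
    rw [h2]
    refine h1.trans (mul_le_mul_of_nonneg_right (le_abs_self C) (Real.exp_pos _).le)
  have hshift : ∀ g : H, mset ν {x | x * g ∈ Dᶜ} = mset ν Dᶜ := by
    intro g
    unfold mset
    rw [← hinv g _ (Bdd.indicator Dᶜ)]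
    rfl
  have hexp : Real.exp (cc / 4 * n) * Real.exp (cc / 4 * n) * Real.exp (-(cc * n)) ≤
      Real.exp (-(cc / 4 * n)) := by
    rw [← Real.exp_add, ← Real.exp_add]
    apply Real.exp_le_exp.2
    nlinarith
  have hsub : {g | ¬ GoodAt ν (fun x => θ (F x)) R m y g} ⊆
      {g | ∃ i < m + 1, g ∈ {x | x * y i ∈ Dᶜ}} := by
    intro g hg
    by_contra hcon
    apply hg
    have hall : ∀ i ≤ m, g * y i ∈ D := by
      intro i hi
      by_contra h
      exact hcon ⟨i, by omega, h⟩
    -- bad `h`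
    set Bad : Set H := {h | ∃ i < m + 1, h ∈ {h | ¬ P n (h, F (g * y i))}} with hBad
    have hBadm : mset ν Bad ≤ ((m + 1 : ℕ) : ℝ) * Real.exp (-(cc * n)) := by
      refine mset_biUnion_le hν (m + 1) _ fun i hi => ?_
      have h1 : ν (fun h => if P n (h, F (g * y i)) then (0 : ℝ) else 1)
        ≤ Real.exp (-(cc * n)) := hall i (by omega)
      refine le_of_eq_of_le ?_ h1
      unfold mset
      congr 1
      funext x
      by_cases hx : P n (x, F (g * y i))
      · rw [if_pos hx, Set.indicator_of_notMem (not_not.2 hx)]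
      · rw [if_neg hx, Set.indicator_of_mem hx]
    refine ⟨Bad, ?_, fun h hh j hj hconf a => ?_⟩
    · push_cast at hBadm
      have h1 : (m : ℝ) ≤ Real.exp (cc / 4 * n) := hm.trans (Real.exp_le_exp.2 (by
        have : c' ≤ cc / 4 := min_le_right _ _
        nlinarith))
      calc (m : ℝ) * mset ν Bad ≤ m * ((m + 1) * Real.exp (-(cc * n))) :=
            mul_le_mul_of_nonneg_left hBadm (Nat.cast_nonneg _)
        _ ≤ Real.exp (cc / 4 * n) * ((2 * Real.exp (cc / 4 * n)) * Real.exp (-(cc * n))) := by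
            refine mul_le_mul h1 ?_ (by positivity) (Real.exp_pos _).le
            exact mul_le_mul_of_nonneg_right hm1 (Real.exp_pos _).le
        _ = 2 * (Real.exp (cc / 4 * n) * Real.exp (cc / 4 * n) * Real.exp (-(cc * n))) := by
            ring
        _ ≤ 2 * Real.exp (-(cc / 4 * n)) := by linarith
        _ ≤ 1 := by
            rw [Real.exp_neg]
            have h3 : 4 ≤ Real.exp (cc / 4 * n) := by
              have := abs_nonneg C; linarith
            have h4 : (Real.exp (cc / 4 * n))⁻¹ ≤ 4⁻¹ := inv_anti₀ (by norm_num) h3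
            linarith
    · have hPall : ∀ i ≤ j, P n (h, F (g * y i)) := by
        intro i hi
        by_contra hP
        exact hh ⟨i, by omega, hP⟩
      have hjc : (j : ℝ) ≤ Real.exp (c * n) := by
        have h1 : (j : ℝ) ≤ m := by exact_mod_cast hj
        refine h1.trans (hm.trans (Real.exp_le_exp.2 ?_))
        have : c' ≤ c := min_le_left _ _
        nlinarith
      have h1 := hNC n hR1n j hjc h (fun i => F (g * y i)) (fun i hi => hB _ _ (by
          have : (g * y i)⁻¹ * (g * y (i + 1)) = (y i)⁻¹ * y (i + 1) := by group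
          rw [this]; exact hy i (by omega))) hPall
        (fun i hi a => by
          have := hconf i hi a
          simp only [hy0, mul_one]
          exact this.trans hnR) a
      simp only [hy0, mul_one] at h1
      have h2 := hW h (g * y j) a
      have h3 := hW h g a
      have h4 : C1 ≤ |C1| := le_abs_self _
      have h5 : 16 * |C1| + 16 ≤ R := by
        have h3 : (0 : ℝ) ≤ R1 := Nat.cast_nonneg _
        have h2 : (0 : ℝ) ≤ R0 := Nat.cast_nonneg _
        linarith
      rw [abs_le] at h1 h2 h3 ⊢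
      constructor <;> linarith [h1.1, h1.2, h2.1, h2.2, h3.1, h3.2]
  refine (mset_mono hν hsub).trans ?_
  refine (mset_biUnion_le hν (m + 1) (fun i => {x | x * y i ∈ Dᶜ}) (β := mset ν Dᶜ)
    fun i _ => (hshift (y i)).le).trans ?_
  push_cast
  calc ((m : ℝ) + 1) * mset ν Dᶜ ≤ (2 * Real.exp (cc / 4 * n)) *
        (|C| * Real.exp (-(cc * n))) :=
        mul_le_mul hm1 hDm (mset_nonneg hν _) (by positivity)
    _ ≤ (2 * Real.exp (cc / 4 * n)) * (Real.exp (cc / 4 * n) / 4 * Real.exp (-(cc * n))) := by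
        refine mul_le_mul_of_nonneg_left ?_ (by positivity)
        exact mul_le_mul_of_nonneg_right (by linarith) (Real.exp_pos _).le
    _ = (Real.exp (cc / 4 * n) * Real.exp (cc / 4 * n) * Real.exp (-(cc * n))) / 2 := by ring
    _ ≤ Real.exp (-(cc / 4 * n)) / 2 := by linarith
    _ ≤ 1 / 2 := by
        have : Real.exp (-(cc / 4 * n)) ≤ 1 := Real.exp_le_one_iff.2 (by
          have : 0 ≤ cc / 4 * n := by positivity
          linarith)
        linarith

end Vale.Agent.P188.H382

end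

section

/-!
# Route A: from INPUT at one scale and the neutral comparison in `S` to `Cmp`
-/

set_option linter.unusedSectionVars false

universe u v w x y y' y''

namespace Vale.Agent.P188.H382

open Finset Vale.Agent.P188 Agent.P188.H428 Vale.Agent.P188.H789

section

variable {S : Type u} [Group S] {E : Type w} [NormedAddCommGroup E]
variable {G : Type v} [Group G] {H : Type x} [Group H] {Q : Type y} (ρ : Rounding S G Q)

lemma Rounding.fl_mul_r (g : G) (q : Q) (s : S) :
    g * ρ.fl (ρ.r q * s) = ρ.fl (ρ.j g * ρ.r q * s) := by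
  rw [mul_assoc, ρ.fl_j]

/-- Good points of `H × G` in terms of points of `S`. -/
theorem good0_iff (W : H × G → E) (τ θ : ℝ) {κ : Type y'} {J : Type y''} (K : Finset κ)
    (Lam : κ → Finset J) (ψ : κ → J → S) (h : H) (g : G) :
    Good0 ρ W τ θ K Lam ψ (h, g) ↔
      ∃ q, GoodS (selfAct S) (fun s => W (h, ρ.fl s)) τ θ K Lam ψ (ρ.j g * ρ.r q) := by
  have e : ∀ q s, (fun z : (H × G) × Q => W z.1) ((ind ρ (prodAct H G)).act ((h, g), q) s)
      = (fun s => W (h, ρ.fl s)) ((selfAct S).act (ρ.j g * ρ.r q) s) := by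
    intro q s
    show W (h, g * ρ.fl (ρ.r q * s)) = W (h, ρ.fl (ρ.j g * ρ.r q * s))
    rw [ρ.fl_mul_r]
  have e2 : ∀ q, W (h, ρ.fl (ρ.j g * ρ.r q)) = W (h, g) := by
    intro q
    rw [ρ.fl_j, ρ.fl_r, mul_one]
  unfold Good0 GoodS
  simp only [e, e2]

end

section

variable {H : Type u} [Group H] {G : Type v} [Group G] {k : ℕ}

/-- Replacing `F (h x)` by `F (h F' (F x))`. -/
lemma exists_close_W (η : G →* Multiplicative (Fin k → ℤ)) {F : H → G} {F' : G → H}
    (hF : Coarse F) (hFF : CloseId (F' ∘ F)) :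
    ∃ C1 : ℝ, ∀ h x a, |((Multiplicative.toAdd (η (F (h * x))) a : ℤ) : ℝ)
      - ((Multiplicative.toAdd (η (F x)) a : ℤ) : ℝ)
      - (((Multiplicative.toAdd (η (F (h * F' (F x)))) a : ℤ) : ℝ)
        - ((Multiplicative.toAdd (η (F x)) a : ℤ) : ℝ))| ≤ C1 := by
  classical
  obtain ⟨E, hE, hE'⟩ := hFF
  obtain ⟨U, hU, hU'⟩ := hF E hE
  refine ⟨∑ u ∈ hU.toFinset, ∑ a, |((Multiplicative.toAdd (η u) a : ℤ) : ℝ)|, fun h x a => ?_⟩
  set u := (F (h * x))⁻¹ * F (h * F' (F x)) with hu
  have hmem : u ∈ hU.toFinset := by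
    rw [Set.Finite.mem_toFinset]
    apply hU'
    have : (h * x)⁻¹ * (h * F' (F x)) = x⁻¹ * F' (F x) := by group
    rw [this]
    exact hE' x
  have h1 : F (h * F' (F x)) = F (h * x) * u := by rw [hu]; group
  have h2 : |((Multiplicative.toAdd (η u) a : ℤ) : ℝ)| ≤
      ∑ u ∈ hU.toFinset, ∑ a, |((Multiplicative.toAdd (η u) a : ℤ) : ℝ)| := by
    refine le_trans ?_ (Finset.single_le_sum
      (f := fun u => ∑ a, |((Multiplicative.toAdd (η u) a : ℤ) : ℝ)|)
      (fun _ _ => Finset.sum_nonneg fun _ _ => abs_nonneg _) hmem)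
    exact Finset.single_le_sum (f := fun a => |((Multiplicative.toAdd (η u) a : ℤ) : ℝ)|)
      (fun _ _ => abs_nonneg _) (Finset.mem_univ a)
  refine le_trans (le_of_eq ?_) h2
  rw [h1, map_mul, toAdd_mul, Pi.add_apply, ← abs_neg]
  congr 1
  push_cast
  ring

end

section

variable {S : Type} [Group S] {G : Type} [Group G] {H : Type} [Group H] {Q : Type} {k : ℕ}

/-- The heights of `G` as real vectors. -/
def htG (η : G →* Multiplicative (Fin k → ℤ)) (g : G) (a : Fin k) : ℝ :=
  ((Multiplicative.toAdd (η g) a : ℤ) : ℝ)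

/-- The displacement of the map `F_h = F ∘ L_h ∘ F'` at `g`. -/
def dispF (η : G →* Multiplicative (Fin k → ℤ)) (F : H → G) (F' : G → H) (z : H × G) :
    Fin k → ℝ := fun a => htG η (F (z.1 * F' z.2)) a - htG η z.2 a

end

end Vale.Agent.P188.H382

end

section

/-!
# Good points: Haar measure versus counting

`net`: a finite family of points of `P` with disjoint cells `y * B0` such that the sets
`y * B0 * B0⁻¹` cover `P`. `goodH_of_goodS`: if the proportion of bad points of the net is at most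
`θ`, the proportion (for the Haar measure) of bad points of `P` is at most `C * θ`.
-/

set_option linter.unusedSectionVars false

namespace Vale.Agent.P188.H382

open Finset Vale.Agent.P188 Agent.P188.H428 Vale.Agent.P188.H789 MeasureTheory
open scoped ENNReal

section net

variable {S : Type*} [Group S] [MeasurableSpace S]

/-- **Nets.** -/
theorem exists_net (μ : Measure S) (hl : ∀ g : S, MeasurePreserving (fun x => g * x) μ μ)
    {P P' B0 : Set S} (hB0 : MeasurableSet B0) (hpos : μ B0 ≠ 0) (h1 : (1 : S) ∈ B0)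
    (hP : ∀ y ∈ P, ∀ b ∈ B0, y * b ∈ P') (hfin : μ P' ≠ ⊤) :
    ∃ Y : Finset S, (∀ y ∈ Y, y ∈ P) ∧ (Y.card : ℝ≥0∞) * μ B0 ≤ μ P' ∧
      ∀ y ∈ P, ∃ y' ∈ Y, ∃ b ∈ B0, ∃ b' ∈ B0, y * b = y' * b' := by
  classical
  -- cells
  have hcell : ∀ y : S, MeasurableSet ((fun x => y⁻¹ * x) ⁻¹' B0) := fun y =>
    (hl y⁻¹).measurable hB0
  have hμc : ∀ y : S, μ ((fun x => y⁻¹ * x) ⁻¹' B0) = μ B0 := fun y =>
    (hl y⁻¹).measure_preimage hB0.nullMeasurableSet
  have hbound : ∀ Y : Finset S, (∀ y ∈ Y, y ∈ P) →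
      (∀ y ∈ Y, ∀ y' ∈ Y, y ≠ y' → ∀ b ∈ B0, ∀ b' ∈ B0, y * b ≠ y' * b') →
      (Y.card : ℝ≥0∞) * μ B0 ≤ μ P' := by
    intro Y hY hd
    calc (Y.card : ℝ≥0∞) * μ B0 = ∑ y ∈ Y, μ ((fun x => y⁻¹ * x) ⁻¹' B0) := by
          rw [Finset.sum_congr rfl fun y _ => hμc y, Finset.sum_const, nsmul_eq_mul]
      _ = μ (⋃ y ∈ Y, (fun x => y⁻¹ * x) ⁻¹' B0) := by
          rw [measure_biUnion_finset]
          · intro y hy y' hy' hne
            rw [Function.onFun, Set.disjoint_left]
            intro x hx hx'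
            refine hd y hy y' hy' hne _ hx _ hx' ?_
            simp
          · intro y _
            exact hcell y
      _ ≤ μ P' := by
          refine measure_mono ?_
          intro x hx
          rw [Set.mem_iUnion₂] at hx
          obtain ⟨y, hy, hx⟩ := hx
          have := hP y (hY y hy) _ hx
          simpa using this
  -- cardinalities are bounded
  have hbnd : ∃ n : ℕ, ∀ Y : Finset S, (∀ y ∈ Y, y ∈ P) →
      (∀ y ∈ Y, ∀ y' ∈ Y, y ≠ y' → ∀ b ∈ B0, ∀ b' ∈ B0, y * b ≠ y' * b') → Y.card ≤ n := by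
    have hB0fin : μ B0 ≠ ⊤ ∨ P = ∅ := by
      by_cases hPe : P = ∅
      · exact Or.inr hPe
      · left
        obtain ⟨y, hy⟩ := Set.nonempty_iff_ne_empty.2 hPe
        have h2 : μ ((fun x => y⁻¹ * x) ⁻¹' B0) ≤ μ P' := by
          refine measure_mono fun x hx => ?_
          have := hP y hy _ hx
          simpa using this
        rw [hμc] at h2
        exact ne_top_of_le_ne_top hfin h2
    rcases hB0fin with hB0f | hPe
    · refine ⟨⌈(μ P' / μ B0).toReal⌉₊, fun Y hY hd => ?_⟩
      have h2 := hbound Y hY hd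
      have h3 : (Y.card : ℝ≥0∞) ≤ μ P' / μ B0 := by
        rw [ENNReal.le_div_iff_mul_le (Or.inl hpos) (Or.inl hB0f)]
        exact h2
      have h4 : (Y.card : ℝ) ≤ (μ P' / μ B0).toReal := by
        have := ENNReal.toReal_mono (ENNReal.div_ne_top hfin hpos) h3
        simpa using this
      have h5 := h4.trans (Nat.le_ceil _)
      exact_mod_cast h5
    · refine ⟨0, fun Y hY _ => ?_⟩
      rw [Nat.le_zero, Finset.card_eq_zero]
      refine Finset.eq_empty_of_forall_notMem fun y hy => ?_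
      have := hY y hy
      rw [hPe] at this
      exact this
  -- a family of maximal cardinality
  obtain ⟨n, hn⟩ := hbnd
  have hex : ∃ m : ℕ, ∃ Y : Finset S, ((∀ y ∈ Y, y ∈ P) ∧
      (∀ y ∈ Y, ∀ y' ∈ Y, y ≠ y' → ∀ b ∈ B0, ∀ b' ∈ B0, y * b ≠ y' * b')) ∧ n - Y.card = m :=
    ⟨_, ∅, ⟨by simp, by simp⟩, rfl⟩
  obtain ⟨Y, ⟨hY, hd⟩, hYm⟩ := Nat.find_spec hex
  refine ⟨Y, hY, hbound Y hY hd, fun y hy => ?_⟩
  by_contra hcon
  push Not at hcon
  have hyY : y ∉ Y := fun h => hcon y h 1 h1 1 h1 rfl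
  have hYc := hn Y hY hd
  have hins : ∀ a ∈ insert y Y, ∀ a' ∈ insert y Y, a ≠ a' → ∀ b ∈ B0, ∀ b' ∈ B0,
      a * b ≠ a' * b' := by
    intro a ha a' ha' hne b hb b' hb'
    rcases Finset.mem_insert.1 ha with e | ha2
    · rcases Finset.mem_insert.1 ha' with e' | ha2'
      · exact absurd (e.trans e'.symm) hne
      · rw [e]; exact hcon a' ha2' b hb b' hb'
    · rcases Finset.mem_insert.1 ha' with e' | ha2'
      · rw [e']; exact fun h => hcon a ha2 b' hb' b hb h.symm
      · exact hd a ha2 a' ha2' hne b hb b' hb'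
  have hinsP : ∀ a ∈ insert y Y, a ∈ P := by
    intro a ha
    rcases Finset.mem_insert.1 ha with rfl | ha
    · exact hy
    · exact hY a ha
  have hc2 := hn _ hinsP hins
  rw [Finset.card_insert_of_notMem hyY] at hc2
  refine Nat.find_min hex (m := n - (Y.card + 1)) (by omega) ⟨insert y Y, ⟨hinsP, hins⟩, ?_⟩
  rw [Finset.card_insert_of_notMem hyY]

end net

section good

variable {S : Type*} [Group S] [MeasurableSpace S] {E : Type*} [NormedAddCommGroup E]
  {κ : Type*}

end good

end Vale.Agent.P188.H382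

end
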