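import Vale.Agent.P188.R.G066
import Vale.Agent.P188.R.G053
import Vale.Agent.P188.R.G027
import Vale.Agent.P188.R.G059
import Vale.Agent.P188.R.G050
import Vale.Agent.P188.R.G047
import Vale.Agent.P188.R.G028
import Vale.Agent.P188.R.G054

section

/-!
P188, QA7, (S5): local structure of a group of bounded polynomial growth (helper83).
-/

universe u v

namespace Vale.Agent.P188.QA7

open Vale.Agent.P188.H754 Vale.Agent.P188.H796
open scoped commutatorElement Pointwise

theorem growthLE_of_surjective {G : Type u} {G' : Type v} [Group G] [Group G'] {D : ℕ}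
    (h : GrowthLE G D) (f : G →* G') (hf : Function.Surjective f) : GrowthLE G' D := by
  classical
  intro F hF
  obtain ⟨F₀, hF₀, hF₀'⟩ : ∃ F₀ : Set G, F₀.Finite ∧ f '' F₀ = F := by
    refine ⟨Function.surjInv hf '' F, hF.image _, ?_⟩
    rw [Set.image_image]
    simp [Function.surjInv_eq hf]
  obtain ⟨C, hC⟩ := h F₀ hF₀
  refine ⟨C, fun n => ?_⟩
  have : F ^ n = f '' (F₀ ^ n) := by rw [← hF₀', Set.image_pow]
  rw [this]
  exact (Set.ncard_image_le (finite_pow hF₀ n)).trans (hC n)

theorem tf_quotient {C : Type u} [Group C] {T : Subgroup C} [T.Normal] (h : Iso T ⊤) :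
    TF (C ⧸ T) := by
  intro x e he hx
  induction x using QuotientGroup.induction_on with
  | H x =>
    rw [← QuotientGroup.mk_pow, QuotientGroup.eq_one_iff] at hx
    rw [QuotientGroup.eq_one_iff]
    exact h x trivial e he hx

theorem nilpotent_quotient {C : Type u} [Group C] {T : Subgroup C} [T.Normal] {k : ℕ}
    (h : (⊤ : Subgroup C).lowerCentralSeries k ≤ T) : Group.IsNilpotent (C ⧸ T) := by
  rw [Subgroup.nilpotent_iff_lowerCentralSeries]
  refine ⟨k, ?_⟩
  have h1 : (⊤ : Subgroup (C ⧸ T)) = (⊤ : Subgroup C).map (QuotientGroup.mk' T) := by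
    rw [← MonoidHom.range_eq_map, MonoidHom.range_eq_top.2 (QuotientGroup.mk'_surjective T)]
  rw [h1, ← Subgroup.map_lowerCentralSeries, eq_bot_iff]
  refine (Subgroup.map_mono h).trans ?_
  rw [Subgroup.map_le_iff_le_comap]
  intro x hx
  rw [Subgroup.mem_comap, Subgroup.mem_bot]
  exact (QuotientGroup.eq_one_iff x).2 hx

/-- index of the `J`-th powers in a finite-by-(poly-`ℤ`) group -/
theorem pw_index_of_quotient {C : Type u} [Group C] {T : Subgroup C} [T.Normal] (hT : Finite T)
    {m h J : ℕ} (hJ : 0 < J) (hm : Nat.card T ≤ m) (hp : PolyZ h (C ⧸ T)) :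
    (pw C J).index ≠ 0 ∧ (pw C J).index ≤ m * J ^ h := by
  classical
  obtain ⟨hfin, hcard⟩ := stPow_aux h J hJ _ hp
  have h1 : (pw C J) ≤ (pw (C ⧸ T) J).comap (QuotientGroup.mk' T) :=
    fun x hx => Subgroup.mem_comap.2 (map_pw J (QuotientGroup.mk' T) hx)
  -- every element is (representative) * (element of T) * (element of pw)
  have hrep : ∀ z : (C ⧸ T) ⧸ pw (C ⧸ T) J, ∃ x : C,
      (QuotientGroup.mk (QuotientGroup.mk x : C ⧸ T) : (C ⧸ T) ⧸ pw (C ⧸ T) J) = z := by
    intro z
    induction z using QuotientGroup.induction_on with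
    | H y =>
      induction y using QuotientGroup.induction_on with
      | H x => exact ⟨x, rfl⟩
  choose r hr using hrep
  let f : T × ((C ⧸ T) ⧸ pw (C ⧸ T) J) → C ⧸ pw C J := fun q =>
    QuotientGroup.mk (r q.2 * (q.1 : C))
  have hlift : ∀ y ∈ pw (C ⧸ T) J, ∃ x ∈ pw C J, (QuotientGroup.mk x : C ⧸ T) = y := by
    intro y hy
    induction hy using Subgroup.closure_induction with
    | mem y hy =>
      obtain ⟨w, rfl⟩ := hy
      induction w using QuotientGroup.induction_on with
      | H w => exact ⟨w ^ J, pow_mem_pw J w, by rw [QuotientGroup.mk_pow]⟩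
    | one => exact ⟨1, one_mem _, rfl⟩
    | mul a b _ _ ha hb =>
      obtain ⟨x, hx, rfl⟩ := ha
      obtain ⟨y, hy, rfl⟩ := hb
      exact ⟨x * y, mul_mem hx hy, by rw [QuotientGroup.mk_mul]⟩
    | inv a _ ha =>
      obtain ⟨x, hx, rfl⟩ := ha
      exact ⟨x⁻¹, inv_mem hx, by rw [QuotientGroup.mk_inv]⟩
  have hf : Function.Surjective f := by
    intro z
    induction z using QuotientGroup.induction_on with
    | H x =>
      obtain ⟨z, hz⟩ : ∃ z : (C ⧸ T) ⧸ pw (C ⧸ T) J,
        z = QuotientGroup.mk (QuotientGroup.mk x : C ⧸ T) := ⟨_, rfl⟩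
      have h2 := hr z
      rw [hz] at h2
      rw [QuotientGroup.eq, ← QuotientGroup.mk_inv, ← QuotientGroup.mk_mul, ← hz] at h2
      obtain ⟨p, hp, hpe⟩ := hlift _ h2
      rw [QuotientGroup.eq] at hpe
      -- p⁻¹ * ((r z)⁻¹ * x) ∈ T
      have hT2 : p * (p⁻¹ * ((r z)⁻¹ * x)) * p⁻¹ ∈ T := Subgroup.Normal.conj_mem ‹_› _ hpe p
      refine ⟨(⟨_, hT2⟩, z), ?_⟩
      change (QuotientGroup.mk (r z * (p * (p⁻¹ * ((r z)⁻¹ * x)) * p⁻¹)) : C ⧸ pw C J) =
        QuotientGroup.mk x
      rw [QuotientGroup.eq]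
      have e : (r z * (p * (p⁻¹ * ((r z)⁻¹ * x)) * p⁻¹))⁻¹ * x = x⁻¹ * (x * p * x⁻¹) * x := by
        group
      have e2 : (r z * (p * (p⁻¹ * ((r z)⁻¹ * x)) * p⁻¹))⁻¹ * x = x⁻¹ * (x * p * x⁻¹) * x⁻¹⁻¹ := by
        rw [e, inv_inv]
      rw [e2]
      exact Subgroup.Normal.conj_mem (pw_normal J) _
        (Subgroup.Normal.conj_mem (pw_normal J) _ hp x) x⁻¹
  have hfin2 : Finite (C ⧸ pw C J) := Finite.of_surjective f hf
  refine ⟨Nat.card_pos.ne', ?_⟩
  refine (Nat.card_le_card_of_surjective f hf).trans ?_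
  rw [Nat.card_prod]
  exact Nat.mul_le_mul hm hcard

theorem fg_subgroupOf {B : Type u} [Group B] {L C : Subgroup B} (h : L ≤ C) (hL : L.FG) :
    (L.subgroupOf C).FG := by
  rw [← Group.fg_iff_subgroup_fg] at hL ⊢
  exact Group.fg_of_surjective (f := (Subgroup.subgroupOfEquivOfLe h).symm.toMonoidHom)
    (Subgroup.subgroupOfEquivOfLe h).symm.surjective

theorem stLoc_of (hNil : StNil.{u}) (hPZ : StPZ.{u}) (hBaer : StBaer.{u}) : StLoc.{u} := by
  classical
  intro D m
  choose Jf hJf using stMink.{u}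
  obtain ⟨Jm, hJm⟩ : ∃ Jm, ∀ h ≤ D, Jf h ≤ Jm :=
    ⟨(Finset.range (D + 1)).sup Jf, fun h hh =>
      Finset.le_sup (f := Jf) (Finset.mem_range.2 (Nat.lt_succ_of_le hh))⟩
  have hJpos : 0 < Jm.factorial := Nat.factorial_pos _
  refine ⟨Jm.factorial, Jm * (m * Jm.factorial ^ D), hJpos, ?_⟩
  intro B _ hfg hG hfinB
  obtain ⟨J, hJ⟩ : ∃ J, J = Jm.factorial := ⟨_, rfl⟩
  rw [← hJ] at hJpos ⊢
  obtain ⟨N, hN, hfi, hnil, h, hh, hp⟩ := hNil D B hG
  obtain ⟨C, hC, hNC, hCi0, hCi, hact⟩ := hJf h B N hN hfi hnil hp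
  have hCJm : C.index ≤ Jm := hCi.trans (hJm h hh)
  have hCfi : C.FiniteIndex := ⟨hCi0⟩
  have hCfg : Group.FG C := Subgroup.fg_of_index_ne_zero C
  -- Baer
  obtain ⟨T₀, hT₀n, hT₀f, hT₀i, k, hk⟩ := hBaer C h (fun i => (lser N i).subgroupOf C)
    (by
      have : (N.subgroupOf C).FiniteIndex := inferInstance
      exact this)
    (by
      rw [lser_eq_bot hnil hp]
      exact Subgroup.bot_subgroupOf C)
    (fun i => by
      obtain ⟨mi, -, hmi⟩ := lser_polyZ hnil hp i
      exact fg_subgroupOf ((lser_le N i).trans hNC)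
        ((Group.fg_iff_subgroup_fg _).1 (PolyZ.fg mi hmi)))
    (fun i => by
      intro x hx
      rw [Subgroup.mem_subgroupOf] at hx ⊢
      exact lstep_le _ _ hx)
    (fun i x hx c => by
      rw [Subgroup.mem_subgroupOf] at hx ⊢
      exact hact i c c.2 x hx)
  have hpwC : pw B J ≤ C := by
    rw [pw_le_iff]
    intro y
    have h1 : y ^ C.index ∈ C := Subgroup.pow_index_mem C y
    have h2 : C.index ∣ J := by
      rw [hJ]; exact Nat.dvd_factorial (Nat.pos_of_ne_zero hCi0) hCJm
    obtain ⟨q, hq⟩ := h2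
    rw [hq, pow_mul]
    exact C.pow_mem h1 q
  have hcardT : Nat.card T₀ ≤ m := by
    have h1 := hfinB (T₀.map C.subtype)
      ((Finite.of_surjective _ (T₀.equivMapOfInjective C.subtype
        C.subtype_injective).surjective))
    rwa [Nat.card_congr (T₀.equivMapOfInjective C.subtype C.subtype_injective).toEquiv.symm] at h1
  -- index
  have hind : (pw C J).index ≠ 0 ∧ (pw C J).index ≤ m * J ^ D := by
    have hQfg : Group.FG (C ⧸ T₀) := QuotientGroup.fg _
    have hQG : GrowthLE (C ⧸ T₀) D :=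
      growthLE_of_surjective (hG.subgroup C) (QuotientGroup.mk' T₀)
        (QuotientGroup.mk'_surjective T₀)
    obtain ⟨h', hh', hp'⟩ := hPZ D (C ⧸ T₀) hQG (nilpotent_quotient hk) (tf_quotient hT₀i)
    obtain ⟨a1, a2⟩ := pw_index_of_quotient hT₀f hJpos hcardT hp'
    exact ⟨a1, a2.trans (Nat.mul_le_mul_left _ (Nat.pow_le_pow_right hJpos hh'))⟩
  have hmapC : (pw C J).map C.subtype ≤ pw B J := by
    rintro _ ⟨x, hx, rfl⟩
    exact map_pw J C.subtype hx
  have hrel : ((pw C J).map C.subtype).index = (pw C J).index * C.index := by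
    have h1 : (pw C J).map C.subtype ≤ C := by
      rintro _ ⟨x, hx, rfl⟩
      exact x.2
    rw [← Subgroup.relIndex_mul_index h1]
    congr 1
    rw [Subgroup.relIndex]
    congr 1
    rw [← Subgroup.comap_subtype]
    exact Subgroup.comap_map_eq_self_of_injective C.subtype_injective _
  have hidx0 : ((pw C J).map C.subtype).index ≠ 0 := by
    rw [hrel]; exact mul_ne_zero hind.1 hCi0
  have hfiM : ((pw C J).map C.subtype).FiniteIndex := ⟨hidx0⟩
  -- torsion elements of `C`
  have htor : ∀ x : C, x ∈ T₀ ↔ ∃ e : ℕ, e ≠ 0 ∧ x ^ e = 1 := by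
    intro x
    constructor
    · intro hx
      have := isOfFinOrder_of_finite (⟨x, hx⟩ : T₀)
      obtain ⟨e, he, h1⟩ := isOfFinOrder_iff_pow_eq_one.1 this
      exact ⟨e, he.ne', by simpa using congrArg (Subtype.val : T₀ → C) h1⟩
    · rintro ⟨e, he, h1⟩
      exact hT₀i x trivial e he (by rw [h1]; exact one_mem _)
  refine ⟨(Subgroup.finiteIndex_of_le hmapC).index_ne_zero, ?_, ?_⟩
  · refine (Subgroup.index_antitone hmapC).trans ?_
    rw [hrel, mul_comm]
    exact Nat.mul_le_mul hCJm hind.2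
  · refine ⟨(T₀.map C.subtype) ⊓ pw B J, ?_, ?_, inf_le_right, ?_, k, ?_⟩
    · have h1 : (T₀.map C.subtype).Normal := by
        constructor
        rintro _ ⟨x, hx, rfl⟩ g
        obtain ⟨e, he, h1⟩ := (htor x).1 hx
        refine ⟨⟨g * x * g⁻¹, hC.conj_mem x x.2 g⟩, ?_, rfl⟩
        refine (htor _).2 ⟨e, he, ?_⟩
        apply Subtype.ext
        have h2 : (x : B) ^ e = 1 := by simpa using congrArg (Subtype.val : C → B) h1
        simp [conj_pow, h2]
      infer_instance
    · have h1 : Finite (T₀.map C.subtype) :=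
        Finite.of_surjective _ (T₀.equivMapOfInjective C.subtype C.subtype_injective).surjective
      exact Finite.of_injective
        (Subgroup.inclusion (inf_le_left : (T₀.map C.subtype) ⊓ pw B J ≤ T₀.map C.subtype))
        (Subgroup.inclusion_injective _)
    · intro x hx e he hxe
      refine ⟨⟨⟨x, hpwC hx⟩, ?_, rfl⟩, hx⟩
      obtain ⟨y, hy, hye⟩ := hxe.1
      refine hT₀i _ trivial e he ?_
      have h1 : (⟨x, hpwC hx⟩ : C) ^ e = y := by
        apply Subtype.ext
        exact hye.symm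
      rw [h1]; exact hy
    · refine le_inf ?_ (Subgroup.lowerCentralSeries_le_self _ _)
      refine (Subgroup.lowerCentralSeries_mono k hpwC).trans ?_
      change C.lowerCentralSeries k ≤ _
      rw [← Subgroup.top_subtype_lowerCentralSeries]
      exact Subgroup.map_mono hk

end Vale.Agent.P188.QA7

end

section

/-!
P188, end of route A: extensions by finite normal subgroups.
-/

universe u v w

namespace Vale.Agent.P188.QA7

open Vale.Agent.P188.H796
open scoped commutatorElement Pointwise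

theorem cycStep_fg {G : Type u} [Group G] {N M : Subgroup G} {t : G} (hs : CycStep N M t)
    (h : N.FG) : M.FG := by
  classical
  obtain ⟨S, hS⟩ := h
  refine ⟨insert t S, le_antisymm ?_ ?_⟩
  · rw [Subgroup.closure_le]
    intro x hx
    rcases Finset.mem_insert.1 (by exact_mod_cast hx) with rfl | hx
    · exact hs.mem
    · exact hs.le (hS ▸ Subgroup.subset_closure hx)
  · intro g hg
    obtain ⟨k, hk⟩ := hs.dec g hg
    have e : g = t ^ k * ((t ^ k)⁻¹ * g) := by group
    rw [e]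
    refine Subgroup.mul_mem _ (Subgroup.zpow_mem _ (Subgroup.subset_closure (by simp)) _) ?_
    rw [← hS] at hk
    exact Subgroup.closure_mono (by intro x hx; simp [Finset.mem_coe.1 hx]) hk

theorem fg_of_finite_sub {G : Type u} [Group G] (N : Subgroup G) [Finite N] : N.FG := by
  have h : Group.FG N := inferInstance
  exact (Group.fg_iff_subgroup_fg N).1 h

theorem vps_comap {H : Type u} {G : Type v} [Group H] [Group G] (f : H →* G)
    (hf : Function.Surjective f) [Finite f.ker] {M : Subgroup G} (h : PCS M) :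
    VPS (M.comap f) ∧ (M.comap f).FG := by
  induction h with
  | bot =>
    rw [MonoidHom.comap_bot]
    refine ⟨⟨⊥, bot_le, .bot, ?_⟩, fg_of_finite_sub _⟩
    rw [Subgroup.relIndex_bot_left]
    exact Nat.card_pos.ne'
  | @step N M t _ hs ih =>
    obtain ⟨s, rfl⟩ := hf t
    have hcs : CycStep (N.comap f) (M.comap f) s := by
      refine ⟨Subgroup.comap_mono hs.le, hs.mem, ?_, ?_, ?_⟩
      · intro n hn
        have := hs.conj (f n) hn
        simpa using this
      · intro n hn
        have := hs.conj' (f n) hn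
        simpa using this
      · intro g hg
        obtain ⟨k, hk⟩ := hs.dec (f g) hg
        exact ⟨k, by simpa using hk⟩
    exact ⟨ih.1.step hcs ((Group.fg_iff_subgroup_fg _).2 ih.2), cycStep_fg hcs ih.2⟩

/-- (S8) -/
theorem stFinExt : StFinExt.{u} := by
  intro H _ T _ hT h
  obtain ⟨P, hP, hP'⟩ := isVirtuallyPolycyclic_iff.1 h
  have hker : (QuotientGroup.mk' T).ker = T := QuotientGroup.ker_mk' T
  have : Finite (QuotientGroup.mk' T).ker := by rw [hker]; exact hT
  obtain ⟨⟨Q, hQ, hQ', hi⟩, -⟩ := vps_comap (QuotientGroup.mk' T)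
    (QuotientGroup.mk'_surjective T) hP'
  refine isVirtuallyPolycyclic_iff.2 ⟨Q, ⟨?_⟩, hQ'⟩
  rw [← Subgroup.relIndex_mul_index hQ]
  refine mul_ne_zero hi ?_
  rw [Subgroup.index_comap_of_surjective _ (QuotientGroup.mk'_surjective T)]
  exact hP.index_ne_zero

/-- A group is coarsely equivalent to its quotient by a finite normal subgroup. -/
theorem coarseEquiv_quot {H : Type u} [Group H] (T : Subgroup H) [T.Normal] [hT : Finite T] :
    CoarseEquiv (H ⧸ T) H := by
  classical
  have hTf : (T : Set H).Finite := hT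
  refine ⟨fun q => q.out, fun x => QuotientGroup.mk x, ?_, ?_, ?_, ?_⟩
  · intro A hA
    refine ⟨(Quotient.out '' A) * (T : Set H), (hA.image _).mul hTf, ?_⟩
    intro x y hxy
    refine ⟨(x⁻¹ * y).out, ⟨_, hxy, rfl⟩, ((x⁻¹ * y).out)⁻¹ * (x.out⁻¹ * y.out), ?_, ?_⟩
    · have h1 : (QuotientGroup.mk ((x⁻¹ * y).out) : H ⧸ T) =
          QuotientGroup.mk (x.out⁻¹ * y.out) := by
        rw [QuotientGroup.mk_mul, QuotientGroup.mk_inv]
        rw [QuotientGroup.out_eq', QuotientGroup.out_eq', QuotientGroup.out_eq']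
      exact QuotientGroup.eq.1 h1
    · simp
  · intro A hA
    exact ⟨(fun x : H => (QuotientGroup.mk x : H ⧸ T)) '' A, hA.image _,
      fun x y hxy => ⟨_, hxy, by simp⟩⟩
  · refine ⟨{1}, Set.finite_singleton _, fun x => ?_⟩
    simp only [Function.comp_apply, Set.mem_singleton_iff]
    rw [QuotientGroup.out_eq']
    simp
  · refine ⟨T, hTf, fun x => ?_⟩
    simp only [Function.comp_apply, SetLike.mem_coe]
    refine QuotientGroup.eq.1 ?_
    rw [QuotientGroup.out_eq']

end Vale.Agent.P188.QA7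

end

section

/-!
P188, QA7, (S1): finitely generated groups of polynomial growth are virtually nilpotent
(helper83).
-/

universe u

namespace Vale.Agent.P188.QA7

open Vale.Agent.P188.H754 Vale.Agent.P188.H796
open scoped commutatorElement Pointwise

/-- two different words with the same value -/
theorem exists_coincidence {G : Type u} [Group G] {D : ℕ} (hG : GrowthLE G D) (t e : G) :
    ∃ (m : ℕ) (ε ε' : ℕ → Bool), (∃ i < m, ε i ≠ ε' i) ∧ cw t e ε m = cw t e ε' m := by
  obtain ⟨C, hC⟩ := hG {1, t, e * t, t⁻¹} (by simp)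
  obtain ⟨m, hm⟩ := H789.exists_exp_gt C 1 D
  rw [one_mul] at hm
  obtain ⟨F, hF⟩ : ∃ F : (Fin m → Bool) → G,
      F = fun v => cw t e (fun i => if h : i < m then v ⟨i, h⟩ else false) m * t ^ m := ⟨_, rfl⟩
  have hnot : ¬ Function.Injective F := by
    intro hinj
    have h1 : (Set.range F).ncard = 2 ^ m := by
      rw [← Set.image_univ, Set.ncard_image_of_injective _ hinj, Set.ncard_univ,
        Nat.card_eq_fintype_card]
      simp
    have h2 : (Set.range F).ncard ≤ (({1, t, e * t, t⁻¹} : Set G) ^ m).ncard := by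
      refine Set.ncard_le_ncard ?_ (finite_pow (by simp) m)
      rintro _ ⟨v, rfl⟩
      rw [hF]
      exact cw_word t e _ m
    have h3 := h2.trans (hC m)
    omega
  unfold Function.Injective at hnot
  push Not at hnot
  obtain ⟨v, v', hvv, hne⟩ := hnot
  rw [hF] at hvv
  simp only [mul_left_inj] at hvv
  refine ⟨m, _, _, ?_, hvv⟩
  by_contra hcon
  push Not at hcon
  refine hne (funext fun i => ?_)
  have := hcon i i.2
  simpa using this

theorem dig_bound (z : ℂ) (hz : 2 ≤ ‖z‖) (ε ε' : ℕ → Bool) (m : ℕ) :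
    ‖∑ i ∈ Finset.range m, ((if ε i then z ^ i else 0) - (if ε' i then z ^ i else 0))‖ ≤
      ‖z‖ ^ m - 1 := by
  induction m with
  | zero => simp
  | succ m ih =>
    rw [Finset.sum_range_succ]
    refine (norm_add_le _ _).trans ?_
    have h1 : ‖((if ε m then z ^ m else 0) - (if ε' m then z ^ m else 0))‖ ≤ ‖z‖ ^ m := by
      cases ε m <;> cases ε' m <;> simp
    have h2 : ‖z‖ ^ m * 2 ≤ ‖z‖ ^ m * ‖z‖ := mul_le_mul_of_nonneg_left hz (by positivity)
    rw [pow_succ]
    linarith

theorem dig_inj (z : ℂ) (hz : 2 ≤ ‖z‖) (ε ε' : ℕ → Bool) (m : ℕ)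
    (h : ∑ i ∈ Finset.range m, ((if ε i then z ^ i else 0) - (if ε' i then z ^ i else 0)) = 0) :
    ∀ i < m, ε i = ε' i := by
  induction m with
  | zero => intro i hi; omega
  | succ m ih =>
    rw [Finset.sum_range_succ] at h
    have hm : ε m = ε' m := by
      by_contra hne
      have h1 : ‖((if ε m then z ^ m else 0) - (if ε' m then z ^ m else 0))‖ = ‖z‖ ^ m := by
        cases h2 : ε m <;> cases h3 : ε' m
        · exact absurd (h2.trans h3.symm) hne
        · simp
        · simp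
        · exact absurd (h2.trans h3.symm) hne
      have h2 := dig_bound z hz ε ε' m
      have h3 : ((if ε m then z ^ m else 0) - (if ε' m then z ^ m else 0)) =
          - ∑ i ∈ Finset.range m, ((if ε i then z ^ i else 0) - (if ε' i then z ^ i else 0)) :=
        eq_neg_of_add_eq_zero_right h
      rw [h3, norm_neg] at h1
      linarith
    have h2 : ((if ε m then z ^ m else 0) - (if ε' m then z ^ m else 0)) = 0 := by
      rw [hm, sub_self]
    rw [h2, add_zero] at h
    intro i hi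
    rcases Nat.lt_succ_iff_lt_or_eq.1 hi with h4 | h4
    · exact ih h i h4
    · rw [h4]; exact hm

theorem cw_mem_normal {G : Type u} [Group G] {N : Subgroup G} [hN : N.Normal] (t : G) {e : G}
    (he : e ∈ N) (ε : ℕ → Bool) (m : ℕ) : cw t e ε m ∈ N := by
  induction m with
  | zero => exact one_mem _
  | succ m ih =>
    rw [cw]
    refine mul_mem ih ?_
    split_ifs
    · exact hN.conj_mem e he (t ^ m)
    · exact one_mem _

theorem phi_cw {G : Type u} [Group G] {N : Subgroup G} [hN : N.Normal] (w : GenWeight N) (t : G)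
    {e : G} (he : e ∈ N) (ε : ℕ → Bool) (m : ℕ) :
    w.φ (cw t e ε m) = (∑ i ∈ Finset.range m, (if ε i then (w.ρ t) ^ i else 0)) * w.φ e := by
  induction m with
  | zero => simp [cw, w.φ_one]
  | succ m ih =>
    rw [cw, Finset.sum_range_succ, add_mul, ← ih]
    split_ifs
    · have h1 : cjE t e m ∈ N := hN.conj_mem e he (t ^ m)
      rw [w.φ_mul _ (cw_mem_normal t he ε m) _ h1]
      congr 1
      rw [← map_pow, cjE, w.φ_conj _ _ he]
    · rw [mul_one, zero_mul, add_zero]

/-- a generator weight of a group of polynomial growth has modulus one -/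
theorem norm_rho_lt {G : Type u} [Group G] {D : ℕ} (hG : GrowthLE G D) {N : Subgroup G}
    [hN : N.Normal] (w : GenWeight N) (t : G) : ‖w.ρ t‖ < 2 := by
  by_contra hcon
  push Not at hcon
  obtain ⟨e, he, he0⟩ := w.φ_ne
  obtain ⟨m, ε, ε', ⟨i, hi, hne⟩, heq⟩ := exists_coincidence hG t e
  have h1 := congrArg w.φ heq
  rw [phi_cw w t he, phi_cw w t he] at h1
  have h2 := mul_right_cancel₀ he0 h1
  refine hne (dig_inj (w.ρ t) hcon ε ε' m ?_ i hi)
  rw [Finset.sum_sub_distrib, h2, sub_self]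

theorem norm_rho_eq {G : Type u} [Group G] {D : ℕ} (hG : GrowthLE G D) {N : Subgroup G}
    [hN : N.Normal] (w : GenWeight N) (t : G) : ‖w.ρ t‖ = 1 := by
  have key : ∀ t : G, ‖w.ρ t‖ ≤ 1 := by
    intro t
    by_contra hcon
    push Not at hcon
    obtain ⟨n, hn⟩ := pow_unbounded_of_one_lt 2 hcon
    have := norm_rho_lt hG w (t ^ n)
    rw [map_pow, norm_pow] at this
    linarith
  refine le_antisymm (key t) ?_
  have h1 := key t⁻¹
  have h2 : w.ρ t * w.ρ t⁻¹ = 1 := by rw [← map_mul, mul_inv_cancel, map_one]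
  have h3 : ‖w.ρ t‖ * ‖w.ρ t⁻¹‖ = 1 := by rw [← norm_mul, h2, norm_one]
  nlinarith [norm_nonneg (w.ρ t), norm_nonneg (w.ρ t⁻¹)]

theorem polyZ_le : ∀ (h D : ℕ) (L : Type u) [Group L], PolyZ h L → GrowthLE L D → h ≤ D
  | 0, D, L, _, _, _ => Nat.zero_le _
  | h + 1, D, L, _, hL, hG => by
    obtain ⟨φ, hφ, hk⟩ := hL
    obtain ⟨t, ht⟩ := hφ (Multiplicative.ofAdd 1)
    obtain ⟨D', rfl, hD'⟩ := ker_growth hG φ t ht
    exact Nat.succ_le_succ (polyZ_le h D' φ.ker hk hD')

theorem stNil : StNil.{u} := by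
  intro D B _ hfg hG
  obtain ⟨Γ, inst, ι, hι, hfi, k, η, hη, hNfg, hnil, -, ⟨m, hm⟩, -, htf, c, hc, hw⟩ :=
    virtPoly_genWeight (gromov_lite hG)
  have hΓ : GrowthLE Γ D := hG.of_injective ι hι
  have htriv : ∀ g : Γ, η g = 1 := by
    intro g
    by_contra hne
    obtain ⟨w, hw⟩ := hw g hne
    have h1 := norm_rho_eq hΓ w g
    rw [h1, Real.log_one, abs_zero] at hw
    have h2 : 0 < ‖Multiplicative.toAdd (η g)‖ := by
      rw [norm_pos_iff]
      intro h3
      exact hne (by rw [← ofAdd_toAdd (η g), h3, ofAdd_zero])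
    have := mul_pos hc h2
    linarith
  have hker : η.ker = ⊤ := by
    rw [eq_top_iff]
    intro g _
    exact htriv g
  have hΓnil : Group.IsNilpotent Γ := by
    have h1 : Group.IsNilpotent (⊤ : Subgroup Γ) := hker ▸ hnil
    exact Group.isNilpotent_top.1 h1
  have hfi' := hfi
  refine ⟨ι.range.normalCore, inferInstance, inferInstance, ?_, ?_⟩
  · -- nilpotent
    have h1 : Group.IsNilpotent ι.range :=
      Group.nilpotent_of_surjective ι.rangeRestrict ι.rangeRestrict_surjective
    rw [Subgroup.isNilpotent_iff_lowerCentralSeries] at h1 ⊢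
    obtain ⟨n, hn⟩ := h1
    refine ⟨n, ?_⟩
    rw [eq_bot_iff, ← hn]
    exact Subgroup.lowerCentralSeries_mono n (Subgroup.normalCore_le _)
  · have h1 : PolyZ m ι.range := PolyZ.of_equiv m (MonoidHom.ofInjective hι) hm
    obtain ⟨m', -, hm'⟩ := PolyZ.of_injective m
      (Subgroup.inclusion (Subgroup.normalCore_le ι.range)) (Subgroup.inclusion_injective _) h1
    exact ⟨m', polyZ_le m' D _ hm' (hG.subgroup _), hm'⟩

end Vale.Agent.P188.QA7

end

section

/-!
P188, QA7: finitely generated torsion-free nilpotent groups have a central series with infinite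
cyclic factors (helper83).
-/

universe u

namespace Vale.Agent.P188.QA7

open Vale.Agent.P188.H754 Vale.Agent.P188.H796
open scoped commutatorElement Pointwise

theorem noeth {L : Type u} [Group L] [Group.FG L] {D : ℕ} (hG : GrowthLE L D) (M : Subgroup L) :
    M.FG := by
  classical
  obtain ⟨N, hN, hfi, -, h, -, hp⟩ := stNil D L hG
  have h1 : (M.subgroupOf N).FG := PolyZ.subgroup_fg hp _
  have h2 : (N.subgroupOf M).FG := by
    have h3 : ((M.subgroupOf N).map N.subtype).FG := fg_map h1 _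
    have h4 : (M.subgroupOf N).map N.subtype = M ⊓ N := by
      rw [Subgroup.subgroupOf_map_subtype]
    rw [h4] at h3
    have h5 := fg_subgroupOf (inf_le_left : M ⊓ N ≤ M) h3
    rwa [inf_comm, Subgroup.inf_subgroupOf_right] at h5
  obtain ⟨Y, hY⟩ := h2
  have h3 : (⊤ : Subgroup M).FG := by
    refine H789.fg_of_map ((QuotientGroup.mk' N).comp M.subtype) (Y := (Y : Set M))
      (Finset.finite_toSet Y) ?_ (fun _ _ => trivial) ?_
    · rw [hY]
      ext x
      rw [Subgroup.mem_subgroupOf, MonoidHom.mem_ker]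
      exact (QuotientGroup.eq_one_iff (x : L)).symm
    · have hf : Finite (L ⧸ N) := inferInstance
      exact ⟨(Set.toFinite ((⊤ : Subgroup M).map
        ((QuotientGroup.mk' N).comp M.subtype) : Set (L ⧸ N))).toFinset, by
        rw [Set.Finite.coe_toFinset, Subgroup.closure_eq]⟩
  rw [← Group.fg_iff_subgroup_fg]
  exact ⟨h3⟩

theorem polyZ_step {G : Type u} [Group G] {N M : Subgroup G} {t : G} {n : ℕ}
    (hle : N ≤ M) (hmem : t ∈ M) (hc : ∀ g ∈ N, t * g * t⁻¹ ∈ N) (hc' : ∀ g ∈ N, t⁻¹ * g * t ∈ N)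
    (hdec : ∀ b ∈ M, ∃ i : ℤ, b * t ^ i ∈ N) (hinj : ∀ i : ℤ, t ^ i ∈ N → i = 0)
    (hn : PolyZ n N) : PolyZ (n + 1) M := by
  have huniq : ∀ (g : G) (a b : ℤ), g * t ^ a ∈ N → g * t ^ b ∈ N → a = b := by
    intro g a b ha hb
    have : t ^ (b - a) ∈ N := by
      have e : t ^ (b - a) = (g * t ^ a)⁻¹ * (g * t ^ b) := by
        rw [sub_eq_neg_add, zpow_add, zpow_neg]; group
      rw [e]
      exact N.mul_mem (N.inv_mem ha) hb
    have := hinj _ this
    omega
  have hconj : ∀ (k : ℤ), ∀ g ∈ N, t ^ k * g * (t ^ k)⁻¹ ∈ N := conj_zpow hc hc'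
  choose f hf using hdec
  let φ : M →* Multiplicative ℤ :=
    { toFun := fun g => Multiplicative.ofAdd (-f g g.2)
      map_one' := by
        show Multiplicative.ofAdd _ = Multiplicative.ofAdd (0 : ℤ)
        congr 1
        rw [neg_eq_zero]
        exact huniq _ _ _ (hf _ _) (by simp)
      map_mul' := by
        intro g g'
        rw [← ofAdd_add]
        congr 1
        have h0 : f ((g * g' : M) : G) (g * g' : M).2 = f g' g'.2 + f g g.2 := by
          refine huniq _ _ _ (hf _ _) ?_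
          have h1 := hf g g.2
          have h2 := hf g' g'.2
          have e : ((g * g' : M) : G) * t ^ (f g' g'.2 + f g g.2)
              = ((g : G) * t ^ (f g g.2)) * (t ^ (-(f g g.2)) * ((g' : G) * t ^ (f g' g'.2)) *
                (t ^ (-(f g g.2)))⁻¹) := by
            rw [zpow_add, zpow_neg, Subgroup.coe_mul]; group
          rw [e]
          exact N.mul_mem h1 (hconj _ _ h2)
        rw [h0]; ring }
  refine ⟨φ, ?_, ?_⟩
  · intro k
    refine ⟨⟨t ^ (Multiplicative.toAdd k), M.zpow_mem hmem _⟩, ?_⟩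
    show Multiplicative.ofAdd _ = k
    rw [← ofAdd_toAdd k]
    congr 1
    rw [neg_eq_iff_eq_neg]
    refine huniq _ _ _ (hf _ _) ?_
    simp
  · refine PolyZ.of_equiv n ?_ hn
    have hker : φ.ker = N.subgroupOf M := by
      ext g
      rw [MonoidHom.mem_ker, Subgroup.mem_subgroupOf]
      constructor
      · intro hg
        have h0 : -f g g.2 = 0 := hg
        rw [neg_eq_zero] at h0
        have := hf g g.2
        rw [h0] at this
        simpa using this
      · intro hg
        show Multiplicative.ofAdd _ = Multiplicative.ofAdd (0 : ℤ)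
        congr 1
        rw [neg_eq_zero]
        exact huniq _ _ _ (hf _ _) (by simpa using hg)
    exact ((MulEquiv.subgroupCongr hker).trans (Subgroup.subgroupOfEquivOfLe hle)).symm

theorem polyZ_of_CS {P : Type u} [Group P] {S : Set P} : ∀ (h : ℕ) (B : Subgroup P),
    H882.CS S h B → PolyZ h B
  | 0, B, hB => by
    have h1 : B = ⊥ := hB
    subst h1
    exact (inferInstance : Subsingleton (⊥ : Subgroup P))
  | h + 1, B, hB => by
    obtain ⟨N, t, hz, hN, -⟩ := hB
    exact polyZ_step hz.le hz.mem hz.conj hz.conj' hz.gen hz.free (polyZ_of_CS h N hN)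

/-- the extension step by a free abelian factor -/
theorem cs_flag {P : Type u} [Group P] {S : Set P} {h : ℕ} {M : Subgroup P}
    (hM : H882.CS S h M) : ∀ (r : ℕ) (M' : Subgroup P), M ≤ M' →
    (∀ p ∈ S, ∀ x ∈ M', p * x * p⁻¹ * x⁻¹ ∈ M) →
    ∀ (Φ : M' →* Multiplicative (Fin r → ℤ)), Function.Surjective Φ →
    (∀ x : M', Φ x = 1 ↔ (x : P) ∈ M) → H882.CS S (h + r) M'
  | 0, M', hle, _, Φ, _, hker => by
    have h1 : M' = M := by
      refine le_antisymm ?_ hle
      intro x hx
      exact (hker ⟨x, hx⟩).1 (Subsingleton.elim _ _)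
    rw [h1]; exact hM
  | r + 1, M', hle, hS, Φ, hΦ, hker => by
    obtain ⟨co, hco⟩ : ∃ co : M' → ℤ, co = fun x => Multiplicative.toAdd (Φ x) (Fin.last r) :=
      ⟨_, rfl⟩
    have hmul : ∀ x y, co (x * y) = co x + co y := by
      intro x y; rw [hco]; simp
    have hone : co 1 = 0 := by rw [hco]; simp
    have hinv : ∀ x, co x⁻¹ = -co x := by
      intro x; rw [hco]; simp
    let N : Subgroup P :=
      { carrier := {x | ∃ hx : x ∈ M', co ⟨x, hx⟩ = 0}
        one_mem' := ⟨one_mem _, hone⟩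
        mul_mem' := by
          rintro x y ⟨hx, hx'⟩ ⟨hy, hy'⟩
          refine ⟨mul_mem hx hy, ?_⟩
          have := hmul ⟨x, hx⟩ ⟨y, hy⟩
          rw [hx', hy', add_zero] at this
          exact this
        inv_mem' := by
          rintro x ⟨hx, hx'⟩
          refine ⟨inv_mem hx, ?_⟩
          have := hinv ⟨x, hx⟩
          rw [hx', neg_zero] at this
          exact this }
    have hNle : N ≤ M' := fun x hx => hx.1
    have hMN : M ≤ N := by
      intro x hx
      refine ⟨hle hx, ?_⟩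
      have := (hker ⟨x, hle hx⟩).2 hx
      rw [hco]
      simp only []
      rw [this]; rfl
    obtain ⟨t, ht⟩ := hΦ (Multiplicative.ofAdd (Pi.single (Fin.last r) 1))
    have hcot : co t = 1 := by
      rw [hco]; simp only []; rw [ht]; simp
    have hcoz : ∀ i : ℤ, co (t ^ i) = i := by
      intro i
      have : Φ (t ^ i) = (Φ t) ^ i := map_zpow _ _ _
      rw [hco]; simp only []; rw [this, ht, toAdd_zpow]; simp
    have hnorm : ∀ g ∈ M', ∀ x ∈ N, g * x * g⁻¹ ∈ N := by
      rintro g hg x ⟨hx, hx'⟩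
      refine ⟨mul_mem (mul_mem hg hx) (inv_mem hg), ?_⟩
      have h1 := hmul (⟨g, hg⟩ * ⟨x, hx⟩) (⟨g, hg⟩⁻¹ : M')
      rw [hmul ⟨g, hg⟩ ⟨x, hx⟩, hinv, hx', add_zero, add_neg_cancel] at h1
      exact h1
    refine ⟨N, (t : P), ⟨hNle, t.2, fun g hg => hnorm t t.2 g hg, ?_, ?_, ?_⟩, ?_, ?_⟩
    · intro g hg
      have := hnorm (t : P)⁻¹ (inv_mem t.2) g hg
      rwa [inv_inv] at this
    · intro b hb
      refine ⟨-co ⟨b, hb⟩, mul_mem hb (zpow_mem t.2 _), ?_⟩
      have h1 := hmul ⟨b, hb⟩ (t ^ (-co ⟨b, hb⟩))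
      rw [hcoz, add_neg_cancel] at h1
      exact h1
    · rintro i ⟨hi, hi'⟩
      have h1 : co (t ^ i) = 0 := hi'
      rwa [hcoz] at h1
    · -- induction
      let Φ' : N →* Multiplicative (Fin r → ℤ) :=
        { toFun := fun x => Multiplicative.ofAdd
            (fun i => Multiplicative.toAdd (Φ ⟨x, hNle x.2⟩) (Fin.castSucc i))
          map_one' := by
            have : (⟨((1 : N) : P), hNle (1 : N).2⟩ : M') = 1 := rfl
            rw [this, map_one]; rfl
          map_mul' := by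
            intro x y
            have : (⟨((x * y : N) : P), hNle (x * y : N).2⟩ : M') =
              ⟨x, hNle x.2⟩ * ⟨y, hNle y.2⟩ := rfl
            rw [this, map_mul]; rfl }
      refine cs_flag hM r N hMN (fun p hp x hx => hS p hp x (hNle hx)) Φ' ?_ ?_
      · intro v
        obtain ⟨x, hx⟩ := hΦ (Multiplicative.ofAdd
          (Fin.snoc (Multiplicative.toAdd v : Fin r → ℤ) (0 : ℤ) : Fin (r + 1) → ℤ))
        refine ⟨⟨x, x.2, ?_⟩, ?_⟩
        · rw [hco]; simp only []; rw [hx]; simp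
        · change Multiplicative.ofAdd (fun i => Multiplicative.toAdd (Φ x) (Fin.castSucc i)) = v
          rw [hx]
          simp
      · intro x
        rw [← hker ⟨x, hNle x.2⟩]
        constructor
        · intro h1
          have h2 : ∀ i : Fin r, Multiplicative.toAdd (Φ ⟨x, hNle x.2⟩) (Fin.castSucc i) = 0 :=
            fun i => congrFun (congrArg Multiplicative.toAdd h1) i
          have h3 : Multiplicative.toAdd (Φ ⟨x, hNle x.2⟩) (Fin.last r) = 0 := by
            obtain ⟨_, h4⟩ := x.2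
            rw [hco] at h4; exact h4
          have h4 : Multiplicative.toAdd (Φ ⟨x, hNle x.2⟩) = 0 := by
            funext i
            refine Fin.lastCases ?_ (fun i => ?_) i
            · exact h3
            · exact h2 i
          exact h4
        · intro h1
          change Multiplicative.ofAdd
            (fun i => Multiplicative.toAdd (Φ ⟨x, hNle x.2⟩) (Fin.castSucc i)) = 1
          rw [h1]; rfl
    · intro p hp
      refine ⟨fun g hg => ?_, ?_⟩
      · have h1 : p * g * p⁻¹ = (p * g * p⁻¹ * g⁻¹) * g := by group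
        rw [h1]
        exact mul_mem (hMN (hS p hp g (hNle hg))) hg
      · have h1 := hMN (hS p hp t t.2)
        have h2 := hnorm (t : P)⁻¹ (inv_mem t.2) _ h1
        have h3 : (t : P)⁻¹ * (p * t * p⁻¹) = (t : P)⁻¹ * (p * t * p⁻¹ * (t : P)⁻¹) * (t : P)⁻¹⁻¹ := by
          group
        rw [h3]; exact h2

/-- a homomorphism onto `ℤ ^ r` with the given kernel -/
theorem exists_coords {A : Type u} [Group A] [Group.FG A] (hcomm : ∀ x y : A, x * y = y * x)
    (htf : TF A) : ∃ (r : ℕ) (Φ : A →* Multiplicative (Fin r → ℤ)), Function.Bijective Φ := by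
  let inst : CommGroup A := { (inferInstance : Group A) with mul_comm := hcomm }
  have hfg0 : AddGroup.FG (Additive A) := by
    rw [AddGroup.fg_iff_addMonoid_fg, ← Monoid.fg_iff_add_fg, ← Group.fg_iff_monoid_fg]
    infer_instance
  have hfin : Module.Finite ℤ (Additive A) := Module.Finite.iff_addGroup_fg.2 hfg0
  have htf' : ∀ (n : ℕ) (x : Additive A), n ≠ 0 → n • x = 0 → x = 0 := by
    intro n x hn hx
    exact htf x.toMul n hn hx
  have htor : Module.IsTorsionFree ℤ (Additive A) := by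
    refine Module.IsTorsionFree.of_smul_eq_zero fun r m h => ?_
    by_cases hr : r = 0
    · exact Or.inl hr
    · right
      refine htf' r.natAbs m (Int.natAbs_ne_zero.2 hr) ?_
      rcases Int.natAbs_eq r with h1 | h1
      · rw [h1, natCast_zsmul] at h; exact h
      · rw [h1, neg_smul, natCast_zsmul, neg_eq_zero] at h; exact h
  obtain ⟨r, b⟩ : Σ r : ℕ, Module.Basis (Fin r) ℤ (Additive A) := Module.basisOfFiniteTypeTorsionFree'
  refine ⟨r, AddMonoidHom.toMultiplicativeRight (b.equivFun.toAddEquiv.toAddMonoidHom), ?_⟩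
  exact b.equivFun.bijective

/-- factors of the upper central series of a torsion-free group are torsion free -/
theorem ucs_tf {L : Type u} [Group L] (htf : TF L) : ∀ (i : ℕ), ∀ x ∈ Subgroup.upperCentralSeries L (i + 1),
    ∀ e : ℕ, e ≠ 0 → x ^ e ∈ Subgroup.upperCentralSeries L i → x ∈ Subgroup.upperCentralSeries L i
  | 0, x, _, e, he, hxe => by
    rw [Subgroup.upperCentralSeries_zero, Subgroup.mem_bot] at hxe ⊢
    exact htf x e he hxe
  | i + 1, x, hx, e, he, hxe => by
    rw [Subgroup.mem_upperCentralSeries_succ_iff] at hx hxe ⊢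
    intro y
    refine ucs_tf htf i _ (hx y) e he ?_
    -- `⁅x, y⁆ ^ e ≡ ⁅x ^ e, y⁆` modulo `U i`
    have key : ∀ n : ℕ, ∃ u ∈ Subgroup.upperCentralSeries L i, ⁅x, y⁆ ^ n = ⁅x ^ n, y⁆ * u := by
      intro n
      induction n with
      | zero => exact ⟨1, one_mem _, by simp⟩
      | succ n ih =>
        obtain ⟨u, hu, hun⟩ := ih
        -- ⁅x^(n+1), y⁆ = x^n ⁅x,y⁆ x^-n ⁅x^n, y⁆
        have h1 : ⁅x ^ (n + 1), y⁆ = (x ^ n * ⁅x, y⁆ * (x ^ n)⁻¹) * ⁅x ^ n, y⁆ := by
          rw [commutatorElement_def, commutatorElement_def, commutatorElement_def, pow_succ]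
          group
        have h2 : ⁅⁅x, y⁆, x ^ n⁆ ∈ Subgroup.upperCentralSeries L i := (hx y) (x ^ n)
        have h3 : x ^ n * ⁅x, y⁆ * (x ^ n)⁻¹ = ⁅⁅x, y⁆, x ^ n⁆⁻¹ * ⁅x, y⁆ := by
          rw [commutatorElement_def (g₁ := ⁅x, y⁆)]
          group
        have hnU : (Subgroup.upperCentralSeries L i).Normal := inferInstance
        -- ⁅x,y⁆^(n+1) = ⁅x,y⁆ * ⁅x^n,y⁆ * u
        refine ⟨(⁅x, y⁆ * ⁅x ^ n, y⁆)⁻¹ * ⁅⁅x, y⁆, x ^ n⁆ * (⁅x, y⁆ * ⁅x ^ n, y⁆) * u, ?_, ?_⟩
        · refine mul_mem ?_ hu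
          have := hnU.conj_mem _ h2 (⁅x, y⁆ * ⁅x ^ n, y⁆)⁻¹
          rwa [inv_inv] at this
        · rw [pow_succ', hun, h1, h3]
          group
    obtain ⟨u, hu, hue⟩ := key e
    rw [hue]
    exact mul_mem (hxe y) hu

theorem cs_ucs {L : Type u} [Group L] [Group.FG L] {D : ℕ} (hG : GrowthLE L D) (htf : TF L) :
    ∀ i : ℕ, ∃ h, H882.CS (Set.univ : Set L) h (Subgroup.upperCentralSeries L i)
  | 0 => ⟨0, Subgroup.upperCentralSeries_zero L⟩
  | i + 1 => by
    obtain ⟨h, hh⟩ := cs_ucs hG htf i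
    set M := Subgroup.upperCentralSeries L i with hM
    set M' := Subgroup.upperCentralSeries L (i + 1) with hM'
    have hle : M ≤ M' := Subgroup.upperCentralSeries_mono L (Nat.le_succ i)
    have hcom : ∀ x ∈ M', ∀ y : L, ⁅x, y⁆ ∈ M := fun x hx y =>
      (Subgroup.mem_upperCentralSeries_succ_iff.1 hx) y
    have hMn : M.Normal := inferInstance
    have hfgM' : Group.FG M' := (Group.fg_iff_subgroup_fg _).2 (noeth hG M')
    have hfgQ : Group.FG (M' ⧸ M.subgroupOf M') := QuotientGroup.fg _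
    obtain ⟨r, Φ, hΦ⟩ := exists_coords (A := M' ⧸ M.subgroupOf M') (by
      intro a b
      induction a using QuotientGroup.induction_on with
      | H a =>
        induction b using QuotientGroup.induction_on with
        | H b =>
          rw [← QuotientGroup.mk_mul, ← QuotientGroup.mk_mul, QuotientGroup.eq,
            Subgroup.mem_subgroupOf]
          have h1 : (((a * b)⁻¹ * (b * a) : M') : L) = ⁅(b : L)⁻¹, (a : L)⁻¹⁆ := by
            push_cast
            simp only [commutatorElement_def]; group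
          rw [h1]
          exact hcom _ (inv_mem b.2) _) (by
      intro a e he hae
      induction a using QuotientGroup.induction_on with
      | H a =>
        rw [← QuotientGroup.mk_pow, QuotientGroup.eq_one_iff, Subgroup.mem_subgroupOf] at hae
        rw [QuotientGroup.eq_one_iff, Subgroup.mem_subgroupOf]
        exact ucs_tf htf i a a.2 e he (by simpa using hae))
    refine ⟨h + r, cs_flag hh r M' hle ?_ (Φ.comp (QuotientGroup.mk' _))
      (hΦ.2.comp (QuotientGroup.mk'_surjective _)) ?_⟩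
    · intro p _ x hx
      have h1 := inv_mem (hcom x hx p)
      have h2 : p * x * p⁻¹ * x⁻¹ = ⁅x, p⁆⁻¹ := by rw [commutatorElement_def]; group
      rw [h2]; exact h1
    · intro x
      rw [MonoidHom.comp_apply, ← map_one Φ, hΦ.1.eq_iff]
      exact (QuotientGroup.eq_one_iff x).trans Subgroup.mem_subgroupOf

/-- finitely generated torsion-free nilpotent groups of growth degree at most `D` have a central
series of length at most `D` with infinite cyclic factors -/
theorem exists_CS {L : Type u} [Group L] [Group.FG L] {D : ℕ} (hG : GrowthLE L D)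
    (hnil : Group.IsNilpotent L) (htf : TF L) :
    ∃ h ≤ D, H882.CS (Set.univ : Set L) h ⊤ := by
  obtain ⟨n, hn⟩ := hnil
  obtain ⟨h, hh⟩ := cs_ucs hG htf n
  rw [hn] at hh
  refine ⟨h, ?_, hh⟩
  have h1 := polyZ_of_CS h _ hh
  exact polyZ_le h D _ h1 (hG.subgroup _)

theorem stPZ : StPZ.{u} := by
  intro D L _ hfg hG hnil htf
  obtain ⟨h, hh, hcs⟩ := exists_CS hG hnil htf
  exact ⟨h, hh, PolyZ.of_equiv h Subgroup.topEquiv (polyZ_of_CS h _ hcs)⟩

end Vale.Agent.P188.QA7

end

section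

/-!
P188, QA7: the structure of a group of bounded polynomial growth with bounded torsion
(not necessarily finitely generated) (helper83).
-/

universe u v

namespace Vale.Agent.P188.QA7

open Vale.Agent.P188.H754 Vale.Agent.P188.H796
open scoped commutatorElement Pointwise

theorem stLoc : StLoc.{u} := stLoc_of stNil stPZ stBaer

theorem cs_map {P : Type u} {P' : Type v} [Group P] [Group P'] (f : P →* P')
    (hf : Function.Injective f) {S : Set P} : ∀ (h : ℕ) (B : Subgroup P), H882.CS S h B →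
    H882.CS (f '' S) h (B.map f)
  | 0, B, hB => by
    have h1 : B = ⊥ := hB
    subst h1
    exact Subgroup.map_bot f
  | h + 1, B, hB => by
    obtain ⟨N, t, hz, hN, hS⟩ := hB
    refine ⟨N.map f, f t, ⟨Subgroup.map_mono hz.le, Subgroup.mem_map_of_mem f hz.mem, ?_, ?_, ?_, ?_⟩,
      cs_map f hf h N hN, ?_⟩
    · rintro _ ⟨g, hg, rfl⟩
      exact ⟨t * g * t⁻¹, hz.conj g hg, by simp⟩
    · rintro _ ⟨g, hg, rfl⟩
      exact ⟨t⁻¹ * g * t, hz.conj' g hg, by simp⟩
    · rintro _ ⟨b, hb, rfl⟩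
      obtain ⟨i, hi⟩ := hz.gen b hb
      exact ⟨i, b * t ^ i, hi, by simp⟩
    · rintro i ⟨g, hg, hgi⟩
      rw [← map_zpow] at hgi
      exact hz.free i (hf hgi ▸ hg)
    · rintro _ ⟨p, hp, rfl⟩
      refine ⟨?_, t⁻¹ * (p * t * p⁻¹), (hS p hp).2, by simp⟩
      rintro _ ⟨g, hg, rfl⟩
      exact ⟨p * g * p⁻¹, (hS p hp).1 g hg, by simp⟩

section glob

variable {K : Type u} [Group K]

/-- `J`-th powers of a subgroup -/
def pwS (J : ℕ) (B : Subgroup K) : Subgroup K := (pw B J).map B.subtype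

theorem pwS_mono (J : ℕ) {B B' : Subgroup K} (h : B ≤ B') : pwS J B ≤ pwS J B' := by
  rintro _ ⟨x, hx, rfl⟩
  exact ⟨Subgroup.inclusion h x, map_pw J (Subgroup.inclusion h) hx, rfl⟩

theorem pwS_le (J : ℕ) (B : Subgroup K) : pwS J B ≤ pw K J := by
  rintro _ ⟨x, hx, rfl⟩
  exact map_pw J B.subtype hx

theorem exists_pwS {J : ℕ} {x : K} (hx : x ∈ pw K J) : ∃ B : Subgroup K, B.FG ∧ x ∈ pwS J B := by
  classical
  induction hx using Subgroup.closure_induction with
  | mem x hx =>
    obtain ⟨y, rfl⟩ := hx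
    have hy : y ∈ Subgroup.closure ({y} : Set K) := Subgroup.subset_closure rfl
    exact ⟨Subgroup.closure {y}, ⟨{y}, by simp⟩, ⟨⟨y, hy⟩ ^ J, pow_mem_pw J _, rfl⟩⟩
  | one => exact ⟨⊥, ⟨∅, by simp⟩, one_mem _⟩
  | mul a b _ _ ha hb =>
    obtain ⟨B, hB, hB'⟩ := ha
    obtain ⟨B₁, hB₁, hB₁'⟩ := hb
    exact ⟨B ⊔ B₁, hB.sup hB₁, mul_mem (pwS_mono J le_sup_left hB') (pwS_mono J le_sup_right hB₁')⟩
  | inv a _ ha =>
    obtain ⟨B, hB, hB'⟩ := ha
    exact ⟨B, hB, inv_mem hB'⟩

theorem exists_pwS_finset {J : ℕ} (F : Finset K) (hF : ∀ x ∈ F, x ∈ pw K J) :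
    ∃ B : Subgroup K, B.FG ∧ ∀ x ∈ F, x ∈ pwS J B := by
  classical
  induction F using Finset.induction_on with
  | empty => exact ⟨⊥, ⟨∅, by simp⟩, by simp⟩
  | insert a F _ ih =>
    obtain ⟨B, hB, hB'⟩ := ih fun x hx => hF x (Finset.mem_insert_of_mem hx)
    obtain ⟨B₁, hB₁, hB₁'⟩ := exists_pwS (hF a (Finset.mem_insert_self a F))
    refine ⟨B ⊔ B₁, hB.sup hB₁, fun x hx => ?_⟩
    rcases Finset.mem_insert.1 hx with rfl | hx
    · exact pwS_mono J le_sup_right hB₁'
    · exact pwS_mono J le_sup_left (hB' x hx)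

theorem growth_sub {D : ℕ} (hG : GrowthLE K D) (B : Subgroup K) : GrowthLE B D := hG.subgroup B

/-- the local structure, for a finitely generated subgroup -/
theorem loc_sub {D m J M : ℕ}
    (hloc : ∀ (B : Type u) [Group B] [Group.FG B], GrowthLE B D →
      (∀ F : Subgroup B, Finite F → Nat.card F ≤ m) → (pw B J).index ≠ 0 ∧ (pw B J).index ≤ M ∧
      ∃ T : Subgroup B, T.Normal ∧ Finite T ∧ T ≤ pw B J ∧ Iso T (pw B J) ∧
        ∃ k, (pw B J).lowerCentralSeries k ≤ T)
    (hG : GrowthLE K D) (hm : ∀ F : Subgroup K, Finite F → Nat.card F ≤ m) (B : Subgroup K)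
    (hB : B.FG) : (pw B J).index ≠ 0 ∧ (pw B J).index ≤ M ∧ ∃ T : Subgroup K, Finite T ∧
      T ≤ pwS J B ∧ Iso T (pwS J B) ∧ ∃ k, (pwS J B).lowerCentralSeries k ≤ T := by
  have hfg : Group.FG B := (Group.fg_iff_subgroup_fg B).2 hB
  have hcard : ∀ (F : Subgroup B), Finite F → Nat.card F ≤ m := by
    intro F hF
    have h1 := hm (F.map B.subtype)
      (Finite.of_surjective _ (F.equivMapOfInjective B.subtype B.subtype_injective).surjective)
    rwa [Nat.card_congr (F.equivMapOfInjective B.subtype B.subtype_injective).toEquiv.symm] at h1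
  obtain ⟨h1, h2, T, -, hTf, hTle, hTi, k, hk⟩ := hloc B (growth_sub hG B) hcard
  refine ⟨h1, h2, T.map B.subtype, ?_, Subgroup.map_mono hTle, ?_, k, ?_⟩
  · exact Finite.of_surjective _ (T.equivMapOfInjective B.subtype B.subtype_injective).surjective
  · rintro _ ⟨x, hx, rfl⟩ e he ⟨y, hy, hyx⟩
    refine ⟨x, hTi x hx e he ?_, rfl⟩
    have : x ^ e = y := Subtype.ext (by simpa using hyx.symm)
    rw [this]; exact hy
  · rw [pwS, ← Subgroup.map_lowerCentralSeries]
    exact Subgroup.map_mono hk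

theorem tor_of_finite {T : Subgroup K} (hT : Finite T) {x : K} (hx : x ∈ T) :
    ∃ e : ℕ, e ≠ 0 ∧ x ^ e = 1 := by
  have := isOfFinOrder_of_finite (⟨x, hx⟩ : T)
  obtain ⟨e, he, h1⟩ := isOfFinOrder_iff_pow_eq_one.1 this
  exact ⟨e, he.ne', by simpa using congrArg (Subtype.val : T → K) h1⟩

/-- **(QA7)** structure of a group of bounded polynomial growth with bounded torsion. -/
theorem qa7 (K : Type u) [Group K] (m D : ℕ)
    (hm : ∀ F : Subgroup K, Finite F → Nat.card F ≤ m) (hG : GrowthLE K D) :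
    ∃ (C T : Subgroup K) (_ : C.Characteristic) (_ : T.Characteristic), C.FiniteIndex ∧
      T ≤ C ∧ Finite T ∧ Iso T C ∧
      ∀ B : Subgroup (K ⧸ T), B ≤ C.map (QuotientGroup.mk' T) →
        B.FG → ∃ h ≤ D, H882.CS (B : Set (K ⧸ T)) h B := by
  classical
  obtain ⟨J, M, hJ, hloc0⟩ := stLoc.{u} D m
  have hloc := fun (B : Subgroup K) (hB : B.FG) => loc_sub hloc0 hG hm B hB
  have hCchar : (pw K J).Characteristic := by
    rw [Subgroup.characteristic_iff_map_le]
    rintro φ _ ⟨x, hx, rfl⟩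
    exact map_pw J φ.toMonoidHom hx
  -- finite index
  have hfi : (pw K J).FiniteIndex := by
    refine ⟨?_⟩
    by_contra h0
    have hinf : Infinite (K ⧸ pw K J) := by
      rw [Subgroup.index, Nat.card_eq_zero] at h0
      rcases h0 with h0 | h0
      · exact (h0.false (QuotientGroup.mk (1 : K))).elim
      · exact h0
    obtain ⟨F, hF⟩ := Infinite.exists_subset_card_eq (K ⧸ pw K J) (M + 1)
    choose r hr using (QuotientGroup.mk_surjective : Function.Surjective
      (QuotientGroup.mk : K → K ⧸ pw K J))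
    let B : Subgroup K := Subgroup.closure ((F.image r : Finset K) : Set K)
    have hBfg : B.FG := ⟨F.image r, rfl⟩
    obtain ⟨h1, h2, -⟩ := hloc B hBfg
    have hfin : Finite (B ⧸ pw B J) := Nat.finite_of_card_ne_zero h1
    have hrB : ∀ z : F, r z ∈ B := fun z =>
      Subgroup.subset_closure (Finset.mem_coe.2 (Finset.mem_image_of_mem r z.2))
    let f : F → B ⧸ pw B J := fun z => QuotientGroup.mk ⟨r z, hrB z⟩
    have hinj : Function.Injective f := by
      intro a b hab
      apply Subtype.ext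
      rw [← hr a, ← hr b, QuotientGroup.eq]
      have h3 := QuotientGroup.eq.1 hab
      exact map_pw J B.subtype h3
    have h3 := Nat.card_le_card_of_injective f hinj
    have h4 : Nat.card F = M + 1 := by simp [hF]
    rw [h4] at h3
    have h5 : Nat.card (B ⧸ pw B J) ≤ M := h2
    omega
  -- the torsion
  have hmulT : ∀ x y : K, x ∈ pw K J → y ∈ pw K J → (∃ e : ℕ, e ≠ 0 ∧ x ^ e = 1) →
      (∃ e : ℕ, e ≠ 0 ∧ y ^ e = 1) → ∃ e : ℕ, e ≠ 0 ∧ (x * y) ^ e = 1 := by
    rintro x y hx hy ⟨e, he, hxe⟩ ⟨e', he', hye⟩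
    obtain ⟨B, hB, hB'⟩ := exists_pwS_finset {x, y} (by
      intro z hz
      rcases Finset.mem_insert.1 hz with rfl | hz
      · exact hx
      · rw [Finset.mem_singleton.1 hz]; exact hy)
    obtain ⟨-, -, T, hTf, -, hTi, -⟩ := hloc B hB
    have h1 : x ∈ T := hTi x (hB' x (by simp)) e he (by rw [hxe]; exact one_mem _)
    have h2 : y ∈ T := hTi y (hB' y (by simp)) e' he' (by rw [hye]; exact one_mem _)
    exact tor_of_finite hTf (mul_mem h1 h2)
  let T : Subgroup K :=
    { carrier := {x | x ∈ pw K J ∧ ∃ e : ℕ, e ≠ 0 ∧ x ^ e = 1}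
      one_mem' := ⟨one_mem _, 1, one_ne_zero, by simp⟩
      mul_mem' := by
        rintro x y ⟨hx, hx'⟩ ⟨hy, hy'⟩
        exact ⟨mul_mem hx hy, hmulT x y hx hy hx' hy'⟩
      inv_mem' := by
        rintro x ⟨hx, e, he, hxe⟩
        exact ⟨inv_mem hx, e, he, by rw [inv_pow, hxe, inv_one]⟩ }
  have hTmem : ∀ x, x ∈ T ↔ x ∈ pw K J ∧ ∃ e : ℕ, e ≠ 0 ∧ x ^ e = 1 := fun _ => Iff.rfl
  have hTle : T ≤ pw K J := fun x hx => hx.1
  have hTchar : T.Characteristic := by
    rw [Subgroup.characteristic_iff_map_le]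
    rintro φ _ ⟨x, ⟨hx, e, he, hxe⟩, rfl⟩
    refine ⟨map_pw J φ.toMonoidHom hx, e, he, ?_⟩
    change (φ x) ^ e = 1
    rw [← map_pow, hxe, map_one]
  have hTiso : Iso T (pw K J) := by
    rintro x hx e he ⟨-, f, hf, hxf⟩
    exact ⟨hx, e * f, mul_ne_zero he hf, by rw [pow_mul, hxf]⟩
  have hTfin : Finite T := by
    by_contra hinf
    rw [not_finite_iff_infinite] at hinf
    obtain ⟨F, hF⟩ := Infinite.exists_subset_card_eq T (m + 1)
    obtain ⟨B, hB, hB'⟩ := exists_pwS_finset (J := J) (F.image (Subtype.val : T → K)) (by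
      intro x hx
      obtain ⟨y, -, rfl⟩ := Finset.mem_image.1 hx
      exact y.2.1)
    obtain ⟨-, -, T', hTf', -, hTi', -⟩ := hloc B hB
    have h1 : ∀ x ∈ F.image (Subtype.val : T → K), x ∈ T' := by
      intro x hx
      obtain ⟨y, hy, rfl⟩ := Finset.mem_image.1 hx
      obtain ⟨-, e, he, hye⟩ := y.2
      exact hTi' _ (hB' _ hx) e he (by rw [hye]; exact one_mem _)
    have h2 : (F.image (Subtype.val : T → K)).card = m + 1 := by
      rw [Finset.card_image_of_injective _ Subtype.val_injective, hF]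
    have h3 : m + 1 ≤ Nat.card T' := by
      have h5 : (F.image (Subtype.val : T → K)).card =
          Nat.card (F.image (Subtype.val : T → K)) := by
        rw [Nat.card_eq_fintype_card, Fintype.card_coe]
      rw [← h2, h5]
      exact Nat.card_le_card_of_injective
        (fun x : (F.image (Subtype.val : T → K)) => (⟨x, h1 x x.2⟩ : T'))
        (fun a b hab => Subtype.ext (congrArg (Subtype.val : T' → K) hab))
    have h4 := hm T' hTf'
    omega
  refine ⟨pw K J, T, hCchar, hTchar, hfi, hTle, hTfin, hTiso, ?_⟩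
  intro B hBC hBfg
  have hfg : Group.FG B := (Group.fg_iff_subgroup_fg B).2 hBfg
  have hgr : GrowthLE B D :=
    (growthLE_of_surjective hG (QuotientGroup.mk' T) (QuotientGroup.mk'_surjective T)).subgroup B
  -- torsion free
  have htf : TF B := by
    intro y e he hye
    obtain ⟨c, hc, hcy⟩ := hBC y.2
    have h1 : c ^ e ∈ T := by
      rw [← QuotientGroup.eq_one_iff]
      have h2 := congrArg (Subtype.val : B → K ⧸ T) hye
      rw [Subgroup.coe_pow, ← hcy] at h2
      exact h2
    have h2 := hTiso c hc e he h1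
    apply Subtype.ext
    rw [← hcy]
    exact (QuotientGroup.eq_one_iff c).2 h2
  -- nilpotent
  have hnil : Group.IsNilpotent B := by
    obtain ⟨S, hS⟩ := hBfg
    have h1 : ∀ y ∈ S, ∃ c ∈ pw K J, QuotientGroup.mk' T c = y := by
      intro y hy
      have : y ∈ B := hS ▸ Subgroup.subset_closure (Finset.mem_coe.2 hy)
      obtain ⟨c, hc, hcy⟩ := hBC this
      exact ⟨c, hc, hcy⟩
    choose! c hc hcy using h1
    obtain ⟨B', hB', hB''⟩ := exists_pwS_finset (J := J) (S.image c) (by
      intro x hx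
      obtain ⟨y, hy, rfl⟩ := Finset.mem_image.1 hx
      exact hc y hy)
    obtain ⟨-, -, T', hTf', hTle', -, k, hk⟩ := hloc B' hB'
    have h2 : B ≤ (pwS J B').map (QuotientGroup.mk' T) := by
      rw [← hS, Subgroup.closure_le]
      intro y hy
      exact ⟨c y, hB'' _ (Finset.mem_image_of_mem c (Finset.mem_coe.1 hy)), hcy y hy⟩
    rw [Subgroup.isNilpotent_iff_lowerCentralSeries]
    refine ⟨k, ?_⟩
    rw [eq_bot_iff]
    refine (Subgroup.lowerCentralSeries_mono k h2).trans ?_
    change ((pwS J B').map (QuotientGroup.mk' T)).lowerCentralSeries k ≤ ⊥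
    rw [← Subgroup.map_lowerCentralSeries]
    rintro _ ⟨x, hx, rfl⟩
    rw [Subgroup.mem_bot]
    refine (QuotientGroup.eq_one_iff x).2 ?_
    have h3 : x ∈ T' := hk hx
    exact ⟨pwS_le J B' (hTle' h3), tor_of_finite hTf' h3⟩
  obtain ⟨h, hh, hcs⟩ := exists_CS hgr hnil htf
  refine ⟨h, hh, ?_⟩
  have h1 := cs_map B.subtype B.subtype_injective h ⊤ hcs
  rw [Set.image_univ, ← MonoidHom.range_eq_map, Subgroup.range_subtype] at h1
  have h2 : Set.range B.subtype = (B : Set (K ⧸ T)) := by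
    ext x; simp
  rw [h2] at h1
  exact h1

end glob

end Vale.Agent.P188.QA7

end

section

/-!
P188, end of route A: tools.
-/

universe u v w

namespace Vale.Agent.P188.QA7

open Vale.Agent.P188.H796
open scoped commutatorElement Pointwise

theorem map_comap_of_le {P : Type u} {P' : Type v} [Group P] [Group P'] (f : P →* P')
    {N : Subgroup P'} (h : N ≤ f.range) : (N.comap f).map f = N := by
  rw [Subgroup.map_comap_eq]
  exact inf_eq_right.2 h

/-- pull-back of a central series along an injective homomorphism -/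
theorem cs_comap {P : Type u} {P' : Type v} [Group P] [Group P'] (f : P →* P')
    (hf : Function.Injective f) {S : Set P'} : ∀ (h : ℕ) (B : Subgroup P'), B ≤ f.range →
    H882.CS S h B → H882.CS (f ⁻¹' S) h (B.comap f)
  | 0, B, _, hB => by
    have h1 : B = ⊥ := hB
    subst h1
    show (⊥ : Subgroup P').comap f = ⊥
    rw [MonoidHom.comap_bot]
    exact (MonoidHom.ker_eq_bot_iff f).2 hf
  | h + 1, B, hr, hB => by
    obtain ⟨N, t, hz, hN, hS⟩ := hB
    obtain ⟨s, rfl⟩ := hr hz.mem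
    refine ⟨N.comap f, s, ⟨Subgroup.comap_mono hz.le, hz.mem, ?_, ?_, ?_, ?_⟩,
      cs_comap f hf h N (hz.le.trans hr) hN, ?_⟩
    · intro g hg
      simpa using hz.conj (f g) hg
    · intro g hg
      simpa using hz.conj' (f g) hg
    · intro b hb
      obtain ⟨i, hi⟩ := hz.gen (f b) hb
      exact ⟨i, by simpa using hi⟩
    · intro i hi
      exact hz.free i (by simpa using hi)
    · intro p hp
      refine ⟨fun g hg => ?_, ?_⟩
      · simpa using (hS (f p) hp).1 (f g) hg
      · simpa using (hS (f p) hp).2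

theorem zc_map {P : Type u} {P' : Type v} [Group P] [Group P'] (f : P →* P')
    (hf : Function.Injective f) {K : Subgroup P} : ∀ (l : ℕ) (B : Subgroup P), H882.ZC K l B →
    H882.ZC (K.map f) l (B.map f)
  | 0, B, hB => by
    have h1 : B = K := hB
    subst h1
    exact rfl
  | l + 1, B, hB => by
    obtain ⟨N, t, hz, hN⟩ := hB
    refine ⟨N.map f, f t, ⟨Subgroup.map_mono hz.le, Subgroup.mem_map_of_mem f hz.mem, ?_, ?_, ?_,
      ?_⟩, zc_map f hf l N hN⟩
    · rintro _ ⟨g, hg, rfl⟩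
      exact ⟨t * g * t⁻¹, hz.conj g hg, by simp⟩
    · rintro _ ⟨g, hg, rfl⟩
      exact ⟨t⁻¹ * g * t, hz.conj' g hg, by simp⟩
    · rintro _ ⟨b, hb, rfl⟩
      obtain ⟨i, hi⟩ := hz.gen b hb
      exact ⟨i, b * t ^ i, hi, by simp⟩
    · rintro i ⟨g, hg, hgi⟩
      rw [← map_zpow] at hgi
      exact hz.free i (hf hgi ▸ hg)

theorem cycStep_of_zext {P : Type u} [Group P] {N B : Subgroup P} {t : P}
    (h : H882.ZExt N B t) : CycStep N B t := by
  refine ⟨h.le, h.mem, h.conj, h.conj', fun g hg => ?_⟩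
  obtain ⟨i, hi⟩ := h.gen g hg
  refine ⟨-i, ?_⟩
  have h1 := conj_zpow h.conj h.conj' i _ hi
  have e : t ^ i * (g * t ^ i) * (t ^ i)⁻¹ = (t ^ (-i))⁻¹ * g := by
    rw [zpow_neg]; group
  rwa [e] at h1

theorem pcs_of_cs {P : Type u} [Group P] {S : Set P} : ∀ (h : ℕ) (B : Subgroup P),
    H882.CS S h B → PCS B
  | 0, B, hB => by
    have h1 : B = ⊥ := hB
    subst h1
    exact .bot
  | h + 1, B, hB => by
    obtain ⟨N, t, hz, hN, -⟩ := hB
    exact .step (pcs_of_cs h N hN) (cycStep_of_zext hz)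

theorem pcs_of_zc {P : Type u} [Group P] {K : Subgroup P} (hK : PCS K) : ∀ (l : ℕ)
    (B : Subgroup P), H882.ZC K l B → PCS B
  | 0, B, hB => by
    have h1 : B = K := hB
    subst h1
    exact hK
  | l + 1, B, hB => by
    obtain ⟨N, t, hz, hN⟩ := hB
    exact .step (pcs_of_zc hK l N hN) (cycStep_of_zext hz)

theorem fg_of_map_injective {P : Type u} {P' : Type v} [Group P] [Group P'] (f : P →* P')
    (hf : Function.Injective f) {A : Subgroup P} (h : (A.map f).FG) : A.FG := by
  classical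
  obtain ⟨S, hS⟩ := h
  have h1 : ∀ s : P', ∃ a : P, s ∈ S → f a = s := by
    intro s
    by_cases hs : s ∈ S
    · have h2 : s ∈ A.map f := hS ▸ Subgroup.subset_closure hs
      obtain ⟨a, -, ha⟩ := h2
      exact ⟨a, fun _ => ha⟩
    · exact ⟨1, fun h => absurd h hs⟩
  choose g hg using h1
  refine ⟨S.image g, Subgroup.map_injective hf ?_⟩
  rw [MonoidHom.map_closure, ← hS]
  congr 1
  ext x
  simp only [Finset.coe_image, Set.mem_image, Finset.mem_coe, exists_exists_and_eq_and]
  constructor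
  · rintro ⟨a, ha, rfl⟩
    rw [hg a ha]; exact ha
  · intro hx
    exact ⟨x, hx, hg x hx⟩

/-- a finitely generated abelian quotient maps to a free abelian group with finite kernel -/
theorem exists_coords' {G : Type u} [Group G] [Group.FG G] (N : Subgroup G) [N.Normal]
    (hc : ∀ x y : G, ⁅x, y⁆ ∈ N) : ∃ (k : ℕ) (f : G →* Multiplicative (Fin k → ℤ)),
      N ≤ f.ker ∧ N.relIndex f.ker ≠ 0 := by
  classical
  have hcomm : ∀ x y : G ⧸ N, x * y = y * x := by
    intro x y
    obtain ⟨x, rfl⟩ := QuotientGroup.mk'_surjective N x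
    obtain ⟨y, rfl⟩ := QuotientGroup.mk'_surjective N y
    rw [← map_mul, ← map_mul]
    refine QuotientGroup.eq.2 ?_
    have h1 := hc y⁻¹ x⁻¹
    rw [commutatorElement_def] at h1
    have e : (x * y)⁻¹ * (y * x) = y⁻¹ * x⁻¹ * (y⁻¹)⁻¹ * (x⁻¹)⁻¹ := by group
    rw [e]; exact h1
  let inst : CommGroup (G ⧸ N) := { (inferInstance : Group (G ⧸ N)) with mul_comm := hcomm }
  have hfg0 : AddGroup.FG (Additive (G ⧸ N)) := by
    rw [AddGroup.fg_iff_addMonoid_fg, ← Monoid.fg_iff_add_fg, ← Group.fg_iff_monoid_fg]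
    infer_instance
  have hfin : Module.Finite ℤ (Additive (G ⧸ N)) := Module.Finite.iff_addGroup_fg.2 hfg0
  let τ := Submodule.torsion ℤ (Additive (G ⧸ N))
  have hτfg : Module.Finite ℤ τ := inferInstance
  have hτtor : Module.IsTorsion ℤ τ := Submodule.torsion_isTorsion
  have hτ : Finite τ := Module.finite_of_fg_torsion _ hτtor
  obtain ⟨r, b⟩ : Σ r : ℕ, Module.Basis (Fin r) ℤ (Additive (G ⧸ N) ⧸ τ) :=
    Module.basisOfFiniteTypeTorsionFree'
  let φ : Additive (G ⧸ N) →+ (Fin r → ℤ) :=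
    (b.equivFun.toLinearMap.comp τ.mkQ).toAddMonoidHom
  let f : G →* Multiplicative (Fin r → ℤ) :=
    (AddMonoidHom.toMultiplicativeRight φ).comp (QuotientGroup.mk' N)
  have hf : ∀ x : G, x ∈ f.ker ↔ (Additive.ofMul (QuotientGroup.mk' N x)) ∈ τ := by
    intro x
    rw [MonoidHom.mem_ker]
    have h1 : f x = Multiplicative.ofAdd (φ (Additive.ofMul (QuotientGroup.mk' N x))) := rfl
    rw [h1, ← Submodule.Quotient.mk_eq_zero, ofAdd_eq_one]
    show b.equivFun (τ.mkQ _) = 0 ↔ _
    rw [LinearEquiv.map_eq_zero_iff]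
    rfl
  have hNf : N ≤ f.ker := by
    intro x hx
    rw [hf]
    have h1 : QuotientGroup.mk' N x = 1 := by
      rw [← MonoidHom.mem_ker, QuotientGroup.ker_mk']; exact hx
    rw [h1]
    exact τ.zero_mem
  refine ⟨r, f, hNf, ?_⟩
  have hinj : Function.Injective (fun q : f.ker ⧸ N.subgroupOf f.ker =>
      (⟨Additive.ofMul (QuotientGroup.mk' N (q.out : G)), (hf _).1 q.out.2⟩ : τ)) := by
    intro q q' h
    have h1 : (QuotientGroup.mk' N (q.out : G)) = QuotientGroup.mk' N (q'.out : G) :=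
      congrArg (fun x : τ => (x : Additive (G ⧸ N)).toMul) h
    rw [← q.out_eq, ← q'.out_eq]
    refine QuotientGroup.eq.2 ?_
    rw [Subgroup.mem_subgroupOf]
    exact QuotientGroup.eq.1 h1
  have : Finite (f.ker ⧸ N.subgroupOf f.ker) := Finite.of_injective _ hinj
  rw [Subgroup.relIndex]
  exact Subgroup.index_ne_zero_of_finite

end Vale.Agent.P188.QA7

end
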