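import Vale.Agent.P188.R.G026
import Vale.Agent.P188.R.G056
import Vale.Agent.P188.R.G014

section

/-!
# P188, Z1: the real model (abstract list of facts) and the standing notation

`RModel S Γ V k` lists everything the analytic part (Z1) may use about the real group
`S = N_R . Γ` of a good finite index subgroup `Γ` of `G` (796's `D.S`):

* `Γ` discrete, `inG : Γ →* S`, `fl : S → Γ` the floor, `η : S →* Z^k` the heights;
* `V = Lie N_R` with norm `nm`, `ex : V → S`, `Ad`, the ideal `e` (exponential radical);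
* weights (continuous linear functionals on the height space), weight spaces `Vw b`;
* the Cartan group: `CB n` = words of length `≤ n` in `ex (h-ball)` and `τ v`;
* letters `X i ∈ Vw (wt i)`, with `wt i ∈ Φ` (generating `e`) or `wt i = 0` (neutral letters).
-/

set_option linter.all false

open MeasureTheory Set
open Agent.P188.H428 (IsLen)
open Vale.Agent.P188.H789 (Bl)
open Vale.Agent.P188.H530 (hgt Crossed Mod)
open Vale.Agent.P188.H329 (Rel)

namespace Vale.Agent.P188.Z1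

/-- the space of heights -/
abbrev Ht (k : ℕ) := Fin k → ℝ

/-- words of length at most `n` in the Cartan group -/
def CBall {S V : Type} [Group S] {k : ℕ} (nm : V → ℝ) (h : Set V) (ex : V → S)
    (τ : (Fin k → ℤ) → S) (n : ℕ) : Set S :=
  {c | ∃ L : List S, L.length ≤ n ∧ L.prod = c ∧
    ∀ a ∈ L, (∃ v ∈ h, nm v ≤ 1 ∧ ex v = a) ∨
      (∃ w : Fin k → ℤ, (∀ i, |w i| ≤ 1) ∧ (τ w = a ∨ (τ w)⁻¹ = a))}

/-- **The real model.** -/
structure RModel (S : Type) [Group S] [MeasurableSpace S] (Γ : Type) [Group Γ]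
    (V : Type) [AddCommGroup V] [Module ℝ V] (k : ℕ) where
  /-- the universal constant -/
  C0 : ℝ
  one_le_C0 : 1 ≤ C0
  -- length
  l : S → ℕ
  len : IsLen l
  l_zero : ∀ x, l x = 0 → x = 1
  l_path : ∀ x, ∃ p : ℕ → S, p 0 = 1 ∧ p (l x) = x ∧ ∀ i, l ((p i)⁻¹ * p (i + 1)) ≤ 1
  -- measure
  μ : Measure S
  sfin : SFinite μ
  mm : MeasurableMul₂ S
  mi : MeasurableInv S
  mp : ∀ w : S, MeasurePreserving (fun x => x * w) μ μ
  mpl : ∀ w : S, MeasurePreserving (fun x => w * x) μ μ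
  ball_pos : μ {x | l x ≤ 2} ≠ 0
  ball_lt : ∀ R : ℕ, μ {x | l x ≤ R} ≤ ENNReal.ofReal (Real.exp (C0 * (R + 1)))
  -- heights
  η : S →* Multiplicative (Fin k → ℤ)
  η_surj : Function.Surjective η
  η_meas : ∀ w, MeasurableSet {x | η x = w}
  η_le : ∀ x, ‖hgt η x‖ ≤ C0 * l x
  -- the lattice
  inG : Γ →* S
  inG_inj : Function.Injective inG
  countable : Countable Γ
  fl : S → Γ
  fl_mul : ∀ g z, fl (inG g * z) = g * fl z
  fl_meas : ∀ g, MeasurableSet (fl ⁻¹' {g})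
  fl_close : ∀ z, (l ((inG (fl z))⁻¹ * z) : ℝ) ≤ C0
  /-- a finite symmetric generating set of `Γ` -/
  A : Set Γ
  md : Mod (hgt (η.comp inG)) A
  A_len : ∀ a ∈ A, (l (inG a) : ℝ) ≤ C0
  wordG : ∀ g : Γ, g ∈ Bl A ⌈C0 * (l (inG g) + 1)⌉₊
  -- Lie algebra
  nm : Seminorm ℝ V
  nm_zero : ∀ v, nm v = 0 → v = 0
  ex : V → S
  ex_zero : ex 0 = 1
  ex_inj : Function.Injective ex
  ex_add : ∀ (x y : ℝ) v, ex ((x + y) • v) = ex (x • v) * ex (y • v)
  ex_meas : ∀ v, Measurable fun q : S × ℝ => q.1 * ex (q.2 • v)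
  η_ex : ∀ v, η (ex v) = 1
  ex_of_η : ∀ s, η s = 1 → ∃ v, ex v = s
  Ad : S →* Module.End ℝ V
  ex_Ad : ∀ s v, ex (Ad s v) = s * ex v * s⁻¹
  Ad_le : ∀ s v, nm (Ad s v) ≤ Real.exp (C0 * l s) * nm v
  Ad_ex_le : ∀ w v, nm (Ad (ex w) v) ≤ C0 * (1 + nm w) ^ C0 * nm v
  e : Submodule ℝ V
  E : Subgroup S
  mem_E : ∀ s, s ∈ E ↔ ∃ v ∈ e, ex v = s
  E_normal : E.Normal
  /-- commutators of neutral words with small elements, products -/
  ex_mul_le : ∀ v w u, ex v * ex w = ex u → nm u ≤ C0 * (1 + nm v + nm w) ^ C0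
  met_V : ∀ v, (l (ex v) : ℝ) ≤ C0 * (1 + nm v)
  met_e : ∀ v ∈ e, (l (ex v) : ℝ) ≤ C0 * (1 + Real.log (1 + nm v))
  met_lo : ∀ v, nm v ≤ Real.exp (C0 * (1 + l (ex v)))
  -- weights
  Wt : Finset (Ht k →L[ℝ] ℝ)
  Vw : (Ht k →L[ℝ] ℝ) → Submodule ℝ V
  Vw_e : ∀ b ≠ 0, Vw b ≤ e
  Φ : Finset (Ht k →L[ℝ] ℝ)
  Φ_sub : Φ ⊆ Wt
  Φ_ne : ∀ b ∈ Φ, b ≠ 0
  Φ_span : ∀ w : Ht k, (∀ b ∈ Φ, b w = 0) → w = 0
  crossed : ∀ b ∈ Φ, ∃ c : Crossed (hgt (η.comp inG)) b, c.u ∈ A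
  /-- unimodularity -/
  mult : (Ht k →L[ℝ] ℝ) → ℝ
  mult_pos : ∀ b ∈ Φ, 0 < mult b
  unimod : ∑ b ∈ Φ, mult b • b = 0
  -- the Cartan group
  τ : (Fin k → ℤ) → S
  η_τ : ∀ w, η (τ w) = Multiplicative.ofAdd w
  /-- words in the Cartan group act on the weight spaces like their heights -/
  C_inv : ∀ n, ∀ c ∈ CBall nm (Vw 0) ex τ n, ∀ b, ∀ v ∈ Vw b, Ad c v ∈ Vw b
  /-- degree of the polynomial bounds -/
  deg : ℕ
  C_le : ∀ n, ∀ c ∈ CBall nm (Vw 0) ex τ n, ∀ b ∈ Wt, ∀ v ∈ Vw b,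
    nm (Ad c v) ≤ C0 * (1 + n) ^ deg * Real.exp (b (hgt η c)) * nm v
  zero_mem_Wt : (0 : Ht k →L[ℝ] ℝ) ∈ Wt
  /-- a neutral word in the Cartan group is the exponential of a neutral vector of polynomial
  size -/
  C_ker : ∀ n, ∀ c ∈ CBall nm (Vw 0) ex τ n, η c = 1 →
    ∃ v ∈ Vw 0, ex v = c ∧ nm v ≤ C0 * (1 + n) ^ deg
  τ_CB : ∀ w : Fin k → ℤ, τ w ∈ CBall nm (Vw 0) ex τ ⌈C0 * (1 + ‖(fun i => (w i : ℝ))‖)⌉₊
  /-- every element is an `E`-part times a word in the Cartan group -/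
  dec : ∀ s, ∃ v ∈ e, ∃ c ∈ CBall nm (Vw 0) ex τ ⌈C0 * l s⌉₊, s = ex v * c
  -- letters
  ι : Type
  fin_ι : Fintype ι
  X : ι → V
  wt : ι → (Ht k →L[ℝ] ℝ)
  wt_mem : ∀ i, wt i ∈ Φ ∨ wt i = 0
  X_mem : ∀ i, X i ∈ Vw (wt i)
  X_le : ∀ i, nm (X i) ≤ 1
  wt_surj : ∀ b ∈ Φ, ∃ i, wt i = b
  /-- nilpotency class -/
  cls : ℕ
  rel : ∀ R : ι → ℝ, letI := fin_ι; Rel ι cls fun i x => ex ((R i * x) • X i)
  /-- bounded generation of `E` -/
  mE : ℕ
  jE : Fin mE → ι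
  jE_ne : ∀ t, wt (jE t) ≠ 0
  gen_e : ∀ v ∈ e, ∃ x : Fin mE → ℝ, (∀ t, |x t| ≤ C0 * (1 + nm v) ^ C0) ∧
    ex v = (List.ofFn fun t => ex (x t • X (jE t))).prod
  /-- bounded generation of `exp (Vw 0)` -/
  mN : ℕ
  jN : Fin mN → ι
  jN_eq : ∀ t, wt (jN t) = 0
  gen_N : ∀ v ∈ Vw 0, ∃ x : Fin mN → ℝ, (∀ t, |x t| ≤ C0 * (1 + nm v) ^ C0) ∧
    ex v = (List.ofFn fun t => ex (x t • X (jN t))).prod

attribute [instance] RModel.sfin RModel.fin_ι RModel.E_normal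

namespace RModel

variable {S : Type} [Group S] [MeasurableSpace S] {Γ : Type} [Group Γ]
  {V : Type} [AddCommGroup V] [Module ℝ V] {k : ℕ} (M : RModel S Γ V k)

/-- height -/
def θ (z : S) : Ht k := hgt M.η z

/-- words in the Cartan group -/
def CB (n : ℕ) : Set S := CBall M.nm (M.Vw 0) M.ex M.τ n

/-- Quasi-isometries of `Γ` with constant `K` (with a coarse inverse of the same kind). -/
structure QIm (K : ℝ) (F F' : Γ → Γ) : Prop where
  lip : ∀ g y, (M.l (M.inG ((F g)⁻¹ * F (g * y))) : ℝ) ≤ K * (M.l (M.inG y) + 1)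
  lip' : ∀ g y, (M.l (M.inG ((F' g)⁻¹ * F' (g * y))) : ℝ) ≤ K * (M.l (M.inG y) + 1)
  inv : ∀ g, (M.l (M.inG (g⁻¹ * F' (F g))) : ℝ) ≤ K
  inv' : ∀ g, (M.l (M.inG (g⁻¹ * F (F' g))) : ℝ) ≤ K

/-- the height function of a map -/
def f (F : Γ → Γ) (z : S) : Ht k := M.θ (M.inG (F (M.fl z)))

/-- Sets with small boundary at scale `R`: `D` and the enlarged set `Dp`. -/
structure Fat (R κ : ℝ) (D Dp : Set S) : Prop where
  meas : MeasurableSet D
  meas' : MeasurableSet Dp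
  pos : M.μ D ≠ 0
  fin : M.μ D ≠ ⊤
  sub : ∀ z ∈ D, ∀ g, (M.l g : ℝ) ≤ R → z * g ∈ Dp
  le : M.μ Dp ≤ ENNReal.ofReal (1 + κ) * M.μ D

/-- A tower `D 0 ⊂ D 1 ⊂ .. ⊂ D J`, `D j * Ball R ⊂ D (j + 1)`, `μ (D J) ≤ (1 + κ) μ (D 0)`. -/
structure Tower (R κ : ℝ) (J : ℕ) (D : ℕ → Set S) : Prop where
  meas : ∀ j ≤ J, MeasurableSet (D j)
  pos : M.μ (D 0) ≠ 0
  fin : M.μ (D 0) ≠ ⊤
  sub : ∀ j < J, ∀ z ∈ D j, ∀ g, (M.l g : ℝ) ≤ R → z * g ∈ D (j + 1)
  le : M.μ (D J) ≤ ENNReal.ofReal (1 + κ) * M.μ (D 0)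

/-- Fat balls: neutral parts of size `exp (δ R)` are allowed. -/
def FB (δ R : ℝ) : Set S :=
  {g | ∃ v ∈ M.e, M.nm v ≤ Real.exp R ∧ ∃ y ∈ M.Vw 0, M.nm y ≤ Real.exp (δ * R) ∧
    ∃ w : Fin k → ℤ, (∀ i, |(w i : ℝ)| ≤ R) ∧ g = M.ex v * M.ex y * M.τ w}

/-- Sets with small boundary for fat balls of radius `R` (and ordinary balls of radius `R`). -/
structure FFat (δ R κ : ℝ) (D Dp : Set S) : Prop extends M.Fat R κ D Dp where
  subf : ∀ z ∈ D, ∀ g ∈ M.FB δ R, z * g ∈ Dp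

/-- Points from which, for every letter, the path `γ i` stays below the starting height. -/
def TolP (h : S → ℝ) (γ : M.ι → ℕ → S) (m : ℕ) (τ : ℝ) : Set S :=
  {z | ∀ i, ∀ n ≤ m, h (z * γ i n) ≤ h z + τ}

/-- an integral direction is generic if no nonzero weight vanishes on it -/
def Generic (v : Fin k → ℤ) : Prop := ∀ b ∈ M.Wt, b ≠ 0 → b (fun i => (v i : ℝ)) ≠ 0

/-- an integral vector as a height -/
def ht (v : Fin k → ℤ) : Ht k := fun i => (v i : ℝ)

/-- a set of representatives of the rays spanned by `Φ` -/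
structure Rays (Φ₁ : Finset (Ht k →L[ℝ] ℝ)) : Prop where
  sub : Φ₁ ⊆ M.Φ
  ex : ∀ b ∈ M.Φ, ∃ b₁ ∈ Φ₁, ∃ t : ℝ, 0 < t ∧ b = t • b₁
  uniq : ∀ b ∈ Φ₁, ∀ b' ∈ Φ₁, ∀ t : ℝ, 0 < t → b = t • b' → b = b'

/-! ### The statements of the blocks -/

/-- **GCL in the model** (owner 893). Contracting paths for all letters `X i` with nonzero weight
(the paths of the neutral letters are constant): few points stay below their height along all
the paths. -/
def GCL : Prop := ∀ K A c : ℝ, 0 < c → ∃ (η c₀ CR r₀ : ℝ), 0 < η ∧ 0 < c₀ ∧ ∀ r : ℝ, r₀ ≤ r →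
  ∀ F F' : Γ → Γ, M.QIm K F F' → ∀ b ∈ M.Φ, ∀ D Dp : Set S, M.Fat (CR * r) 1 D Dp →
  ∀ (γ : M.ι → ℕ → S) (m : ℕ), (m : ℝ) ≤ Real.exp (η * r) → (∀ i, γ i 0 = 1) →
  (∀ i, ∀ n < m, (M.l ((γ i n)⁻¹ * γ i (n + 1)) : ℝ) ≤ A) →
  (∀ i, M.wt i = 0 → ∀ n, γ i n = 1) →
  (∀ i, M.wt i ≠ 0 → M.nm (M.Ad (γ i m)⁻¹ (M.X i)) ≤ Real.exp (-(c * r))) →
  M.μ (D ∩ M.TolP (fun z => b (M.f F z)) γ m (η * r)) ≤
    ENNReal.ofReal (Real.exp (-(c₀ * r))) * M.μ D

/-- **Choice of rays** (from GCL; owner 893). For most `x` and every target class `b` there is a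
source class `b'` such that along every direction `v` of a given finite set with `b' v > 0` the
height `b ∘ f` increases by a definite amount somewhere before time `r`. -/
def RAY : Prop := ∀ K : ℝ, ∀ V₀ : Finset (Fin k → ℤ), (∀ v ∈ V₀, M.Generic v) →
  ∃ (η c₀ CR r₀ : ℝ), 0 < η ∧ 0 < c₀ ∧ ∀ r : ℝ, r₀ ≤ r →
  ∀ F F' : Γ → Γ, M.QIm K F F' → ∀ b ∈ M.Φ, ∀ D Dp : Set S, M.Fat (CR * r) 1 D Dp →
    M.μ {x | x ∈ D ∧ ∀ b' ∈ M.Φ, ∃ v ∈ V₀, 0 < b' (ht v) ∧
        ∀ n : ℕ, (n : ℝ) ≤ r → b (M.f F (x * M.τ v ^ n)) ≤ b (M.f F x) + η * r} ≤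
      ENNReal.ofReal (Real.exp (-(c₀ * r))) * M.μ D

/-- **Few peaks** (from GCL; owner 893): `b ∘ f` has few approximate peaks on `v`-lines at scale
`r`. -/
def PEAK : Prop := ∀ K : ℝ, ∀ v : Fin k → ℤ, M.Generic v →
  ∃ (η c₀ CR r₀ : ℝ), 0 < η ∧ 0 < c₀ ∧ ∀ r : ℝ, r₀ ≤ r →
  ∀ F F' : Γ → Γ, M.QIm K F F' → ∀ b ∈ M.Φ, ∀ D Dp : Set S, M.Fat (CR * r) 1 D Dp →
    M.μ {x | x ∈ D ∧ ∀ n : ℤ, |(n : ℝ)| ≤ r →
        b (M.f F (x * M.τ v ^ n)) ≤ b (M.f F x) + η * r} ≤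
      ENNReal.ofReal (Real.exp (-(c₀ * r))) * M.μ D

/-- **Fat boxes of every size** (owner 616/540): the isotropic case of the boxes. -/
def BOXQ : Prop := ∃ C : ℝ, ∀ δ : ℝ, 0 < δ → δ ≤ 1 → ∃ r₀ : ℝ, ∀ r : ℝ, r₀ ≤ r →
  ∃ Q Qp : Set S, M.FFat δ r (1 / 8) Q Qp ∧ Qp ⊆ M.FB (C * δ) (C * r)

/-- **Coarse differentiation in the model, linear parts** (owner 971; uses `NF`, `BOXQ`). A common
scale for finitely many maps. The sets `D α` are almost invariant under fat moves. -/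
def LIN : Prop := ∀ (p : ℕ) (K ε : ℝ), 0 < ε → ∃ (κ lam CR : ℝ), 0 < κ ∧ 0 < lam ∧ lam ≤ 1 ∧
  ∀ δ : ℝ, 0 < δ → ∃ δ' a₀ : ℝ, 0 < δ' ∧ δ' ≤ δ ∧
  ∀ a : ℝ, a₀ ≤ a → ∀ (F F' : Fin p → Γ → Γ) (D Dp : Fin p → Set S),
  (∀ α, M.QIm K (F α) (F' α)) → (∀ α, M.FFat δ (CR * a) κ (D α) (Dp α)) →
  ∃ r : ℝ, lam * a ≤ r ∧ r ≤ a ∧ ∀ α, ∃ (D₀ : Set S) (T : S → Ht k →L[ℝ] Ht k),
    D₀ ⊆ D α ∧ MeasurableSet D₀ ∧ M.μ (D α \ D₀) ≤ ENNReal.ofReal ε * M.μ (D α) ∧
    ∀ x ∈ D₀, ∀ x' ∈ D₀, ((M.l (x⁻¹ * x') : ℝ) ≤ r ∨ x⁻¹ * x' ∈ M.FB δ' r) →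
      ‖M.f (F α) x' - M.f (F α) x - T x (M.θ (x⁻¹ * x'))‖ ≤ ε * r ∧ ‖T x' - T x‖ ≤ ε

/-- a finite symmetric set of generic directions whose signs separate the rays -/
structure Dirs (Φ₁ : Finset (Ht k →L[ℝ] ℝ)) (V₁ : Finset (Fin k → ℤ)) : Prop where
  generic : ∀ v ∈ V₁, M.Generic v
  neg : ∀ v ∈ V₁, -v ∈ V₁
  sep : ∀ b ∈ Φ₁, ∀ b' ∈ Φ₁, (∀ v ∈ V₁, 0 < b (ht v) → 0 < b' (ht v)) → b = b'
  span : Submodule.span ℝ (ht '' (V₁ : Set (Fin k → ℤ))) = (⊤ : Submodule ℝ (Ht k))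

/-- **Coherence at one scale with finitely many linear parts** (owner 530: LIN + RAY + T'T + PSI +
OCC). `c₀` (lower bound of the slopes) and `L` do not depend on `ε`. The labels are the sign patterns
on the directions `V₁`; the finer net of directions needed for the accuracy `ε` is internal. A common
scale `ρ` for a finite family. -/
def COH : Prop := ∀ (p : ℕ) (K : ℝ) (Φ₁ : Finset (Ht k →L[ℝ] ℝ)), M.Rays Φ₁ →
  ∀ V₁ : Finset (Fin k → ℤ), M.Dirs Φ₁ V₁ →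
  ∃ (c₀ L : ℝ), 0 < c₀ ∧
  ∀ ε : ℝ, 0 < ε → ∃ (κ lam CR : ℝ), 0 < κ ∧ 0 < lam ∧ lam ≤ 1 ∧
  ∀ δ : ℝ, 0 < δ → ∃ δ' a₀ : ℝ, 0 < δ' ∧ δ' ≤ δ ∧
  ∃ T : ℕ → (V₁ → Set (Ht k →L[ℝ] ℝ)) → (Ht k →L[ℝ] Ht k),
  ∀ a : ℝ, a₀ ≤ a → ∀ (F F' : Fin p → Γ → Γ) (D Dp : Fin p → Set S),
  (∀ α, M.QIm K (F α) (F' α)) → (∀ α, M.FFat δ (CR * a) κ (D α) (Dp α)) →
  ∃ ρ : ℕ, lam * a ≤ ρ ∧ (ρ : ℝ) ≤ a ∧ ∀ α,
  ∃ (D₀ : Set S) (σ : S → V₁ → Set (Ht k →L[ℝ] ℝ)),
    D₀ ⊆ D α ∧ MeasurableSet D₀ ∧ M.μ (D α \ D₀) ≤ ENNReal.ofReal ε * M.μ (D α) ∧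
    ∀ x ∈ D₀, (‖T ρ (σ x)‖ ≤ L ∧
      ∀ v : V₁, (∀ b ∈ Φ₁, (b ∈ σ x v → c₀ ≤ b (T ρ (σ x) (ht v))) ∧
          (b ∉ σ x v → b (T ρ (σ x) (ht v)) ≤ -c₀)) ∧
        (σ x v).ncard = {b | b ∈ Φ₁ ∧ 0 < b (ht (v : Fin k → ℤ))}.ncard ∧ σ x v ⊆ ↑Φ₁) ∧
      ∀ x' ∈ D₀, ((M.l (x⁻¹ * x') : ℝ) ≤ ρ ∨ x⁻¹ * x' ∈ M.FB δ' ρ) →
        ‖M.f (F α) x' - M.f (F α) x - T ρ (σ x) (M.θ (x⁻¹ * x'))‖ ≤ ε * ρ ∧ σ x' = σ x

end RModel

end Vale.Agent.P188.Z1

end

section

/-!
Neutral words in the Cartan group are exponentials of vectors of polynomial size.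
-/

open Finset Filter Topology
open scoped commutatorElement Pointwise

namespace Vale.Agent.P188.H796

open Vale.Agent.P188.Z1 (CBall)

section cball

variable {S V : Type} [Group S] {k : ℕ} {nm : V → ℝ} {h : Set V} {ex : V → S}
  {τ : (Fin k → ℤ) → S}

theorem one_mem_CBall (n : ℕ) : (1 : S) ∈ CBall nm h ex τ n :=
  ⟨[], Nat.zero_le _, rfl, by simp⟩

theorem CBall_mono {m n : ℕ} (hmn : m ≤ n) : CBall nm h ex τ m ⊆ CBall nm h ex τ n := by
  rintro c ⟨L, h1, h2, h3⟩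
  exact ⟨L, h1.trans hmn, h2, h3⟩

theorem mul_mem_CBall {m n : ℕ} {a b : S} (ha : a ∈ CBall nm h ex τ m)
    (hb : b ∈ CBall nm h ex τ n) : a * b ∈ CBall nm h ex τ (m + n) := by
  obtain ⟨L, h1, h2, h3⟩ := ha
  obtain ⟨L', h1', h2', h3'⟩ := hb
  refine ⟨L ++ L', by rw [List.length_append]; omega, by rw [List.prod_append, h2, h2'], ?_⟩
  intro x hx
  rcases List.mem_append.1 hx with hx | hx
  · exact h3 x hx
  · exact h3' x hx

theorem list_mem_CBall {L : List S} (hL : ∀ a ∈ L, a ∈ CBall nm h ex τ 1) :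
    L.prod ∈ CBall nm h ex τ L.length := by
  induction L with
  | nil => exact one_mem_CBall _
  | cons a L ih =>
    rw [List.prod_cons, List.length_cons, add_comm]
    exact mul_mem_CBall (hL a List.mem_cons_self) (ih fun b hb => hL b (List.mem_cons_of_mem _ hb))

theorem ex_mem_CBall {v : V} (hv : v ∈ h) (hn : nm v ≤ 1) : ex v ∈ CBall nm h ex τ 1 :=
  ⟨[ex v], le_rfl, by simp, by
    intro a ha
    rw [List.mem_singleton] at ha
    exact Or.inl ⟨v, hv, hn, ha.symm⟩⟩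

theorem τ_mem_CBall {w : Fin k → ℤ} (hw : ∀ i, |w i| ≤ 1) : τ w ∈ CBall nm h ex τ 1 :=
  ⟨[τ w], le_rfl, by simp, by
    intro a ha
    rw [List.mem_singleton] at ha
    exact Or.inr ⟨w, hw, Or.inl ha.symm⟩⟩

theorem τ_inv_mem_CBall {w : Fin k → ℤ} (hw : ∀ i, |w i| ≤ 1) : (τ w)⁻¹ ∈ CBall nm h ex τ 1 :=
  ⟨[(τ w)⁻¹], le_rfl, by simp, by
    intro a ha
    rw [List.mem_singleton] at ha
    exact Or.inr ⟨w, hw, Or.inr ha.symm⟩⟩

end cball

/-! ### sorted words -/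

section sorted

variable {S : Type} [Group S] {k : ℕ} (t : Fin k → S)

/-- the word of an integer power -/
def zw (x : S) (z : ℤ) : List S := if 0 ≤ z then List.replicate z.natAbs x else
  List.replicate z.natAbs x⁻¹

theorem zw_prod (x : S) (z : ℤ) : (zw x z).prod = x ^ z := by
  unfold zw
  split_ifs with h
  · rw [List.prod_replicate, ← zpow_natCast, Int.natAbs_of_nonneg h]
  · rw [List.prod_replicate, inv_pow, ← zpow_natCast, ← zpow_neg]
    congr 1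
    omega

theorem zw_length (x : S) (z : ℤ) : (zw x z).length = z.natAbs := by
  unfold zw
  split_ifs <;> rw [List.length_replicate]

theorem zw_mem {x y : S} {z : ℤ} (hy : y ∈ zw x z) : x = y ∨ x⁻¹ = y := by
  unfold zw at hy
  split_ifs at hy
  · exact Or.inl (List.eq_of_mem_replicate hy).symm
  · exact Or.inr (List.eq_of_mem_replicate hy).symm

/-- letters -/
def TL : Set S := {a | ∃ j, t j = a ∨ (t j)⁻¹ = a}

/-- sorted word over a list of indices -/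
def sw (I : List (Fin k)) (w : Fin k → ℤ) : List S := (I.map fun i => zw (t i) (w i)).flatten

theorem sw_mem {I : List (Fin k)} {w : Fin k → ℤ} {y : S} (hy : y ∈ sw t I w) : y ∈ TL t := by
  unfold sw at hy
  rw [List.mem_flatten] at hy
  obtain ⟨l, hl, hy⟩ := hy
  rw [List.mem_map] at hl
  obtain ⟨i, _, rfl⟩ := hl
  exact ⟨i, zw_mem hy⟩

theorem sw_length (I : List (Fin k)) (w : Fin k → ℤ) :
    (sw t I w).length = (I.map fun i => (w i).natAbs).sum := by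
  unfold sw
  rw [List.length_flatten, List.map_map]
  congr 1
  refine List.map_congr_left fun i _ => ?_
  simp only [Function.comp_apply, zw_length]

theorem sw_append (I J : List (Fin k)) (w : Fin k → ℤ) :
    sw t (I ++ J) w = sw t I w ++ sw t J w := by
  unfold sw
  rw [List.map_append, List.flatten_append]

theorem sw_cons (i : Fin k) (J : List (Fin k)) (w : Fin k → ℤ) :
    sw t (i :: J) w = zw (t i) (w i) ++ sw t J w := by
  unfold sw
  rw [List.map_cons, List.flatten_cons]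

theorem sw_congr {I : List (Fin k)} {w w' : Fin k → ℤ} (h : ∀ i ∈ I, w i = w' i) :
    sw t I w = sw t I w' := by
  unfold sw
  congr 1
  exact List.map_congr_left fun i hi => by rw [h i hi]

theorem sw_prod_zero (I : List (Fin k)) : (sw t I 0).prod = 1 := by
  induction I with
  | nil => rfl
  | cons i I ih => rw [sw_cons, List.prod_append, ih, zw_prod, Pi.zero_apply, zpow_zero, mul_one]

/-- the sorted word -/
def sg (w : Fin k → ℤ) : List S := sw t (List.finRange k) w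

theorem sg_length (w : Fin k → ℤ) : (sg t w).length = ∑ i, (w i).natAbs := by
  rw [sg, sw_length, Fin.sum_univ_def]

/-- splitting the sorted word at an index -/
theorem sg_split (w : Fin k → ℤ) (j : Fin k) : ∃ P Q : List S, (∀ a ∈ P, a ∈ TL t) ∧
    (∀ a ∈ Q, a ∈ TL t) ∧ P.length + Q.length = (sg t w).length ∧
    (sg t w).prod = P.prod * Q.prod ∧
    ∀ z : ℤ, (sg t (Function.update w j (w j + z))).prod = P.prod * t j ^ z * Q.prod := by
  obtain ⟨I, J, hIJ⟩ := List.append_of_mem (List.mem_finRange j)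
  have hnd : (I ++ j :: J).Nodup := hIJ ▸ List.nodup_finRange k
  have hI : j ∉ I := by
    intro hj
    have := (List.nodup_append.1 hnd).2.2 j hj j List.mem_cons_self
    exact this rfl
  have hJ : j ∉ J := (List.nodup_cons.1 (List.nodup_append.1 hnd).2.1).1
  refine ⟨sw t I w ++ zw (t j) (w j), sw t J w, ?_, fun a ha => sw_mem t ha, ?_, ?_, ?_⟩
  · intro a ha
    rcases List.mem_append.1 ha with ha | ha
    · exact sw_mem t ha
    · exact ⟨j, zw_mem ha⟩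
  · rw [sg, hIJ, sw_append, sw_cons, List.length_append, List.length_append, List.length_append,
      add_assoc]
  · rw [sg, hIJ, sw_append, sw_cons, List.prod_append, List.prod_append, List.prod_append, mul_assoc]
  · intro z
    rw [sg, hIJ, sw_append, sw_cons, List.prod_append, List.prod_append, List.prod_append,
      zw_prod, zw_prod, Function.update_self]
    have e1 : sw t I (Function.update w j (w j + z)) = sw t I w :=
      sw_congr t fun i hi => Function.update_of_ne (by rintro rfl; exact hI hi) _ _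
    have e2 : sw t J (Function.update w j (w j + z)) = sw t J w :=
      sw_congr t fun i hi => Function.update_of_ne (by rintro rfl; exact hJ hi) _ _
    rw [e1, e2, zpow_add]
    simp only [mul_assoc]

theorem sg_length_update (w : Fin k → ℤ) (j : Fin k) {z : ℤ} (hz : z.natAbs ≤ 1) :
    (sg t (Function.update w j (w j + z))).length ≤ (sg t w).length + 1 := by
  rw [sg_length, sg_length, ← Finset.sum_erase_add _ _ (Finset.mem_univ j),
    ← Finset.sum_erase_add _ (fun i => (w i).natAbs) (Finset.mem_univ j)]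
  have e1 : ∑ x ∈ Finset.univ.erase j, (Function.update w j (w j + z) x).natAbs =
      ∑ x ∈ Finset.univ.erase j, (w x).natAbs :=
    Finset.sum_congr rfl fun i hi => by
      rw [Function.update_of_ne (Finset.ne_of_mem_erase hi)]
  rw [e1, Function.update_self, add_assoc]
  have := Int.natAbs_add_le (w j) z
  omega

end sorted

/-! ### polynomial size -/

section ker

variable {S V : Type} [Group S] [AddCommGroup V] [Module ℝ V] {k : ℕ}
  {nm : Seminorm ℝ V} {h : Submodule ℝ V} {ex : V → S} {Ad : S →* Module.End ℝ V}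
  {τ : (Fin k → ℤ) → S} {C M : ℝ} {deg : ℕ}

/-- conjugated commutators of words -/
theorem comm_list (ex_Ad : ∀ s v, ex (Ad s v) = s * ex v * s⁻¹)
    (hinv : ∀ n, ∀ c ∈ CBall nm h ex τ n, ∀ v ∈ h, Ad c v ∈ h)
    (hle : ∀ n, ∀ c ∈ CBall nm h ex τ n, ∀ v ∈ h, nm (Ad c v) ≤ C * (1 + n) ^ deg * nm v)
    (hC : 0 ≤ C) (hM : 0 ≤ M) {T : Set S} (hT : T ⊆ CBall nm h ex τ 1)
    (hx : ∀ q ∈ T, ∀ t ∈ T, ∃ x ∈ h, nm x ≤ M ∧ ex x = ⁅q, t⁆) {t : S} (ht : t ∈ T) :
    ∀ Q : List S, (∀ q ∈ Q, q ∈ T) → ∀ (r : ℕ), ∀ R ∈ CBall nm h ex τ r,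
      ∃ L : List V, L.length = Q.length ∧
        (∀ v ∈ L, v ∈ h ∧ nm v ≤ C * (1 + (r + Q.length : ℕ)) ^ deg * M) ∧
        (L.map ex).prod = R * ⁅Q.prod, t⁆ * R⁻¹ := by
  intro Q
  induction Q with
  | nil =>
    intro _ r R hR
    exact ⟨[], rfl, by simp, by simp⟩
  | cons q Q ih =>
    intro hQ r R hR
    have hq := hQ q List.mem_cons_self
    obtain ⟨L, h1, h2, h3⟩ := ih (fun a ha => hQ a (List.mem_cons_of_mem _ ha)) (r + 1) (R * q)
      (mul_mem_CBall hR (hT hq))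
    obtain ⟨x, hxh, hxM, hxe⟩ := hx q hq t ht
    refine ⟨L ++ [Ad R x], by simp [h1], ?_, ?_⟩
    · intro v hv
      rcases List.mem_append.1 hv with hv | hv
      · have := h2 v hv
        rw [List.length_cons, show r + (Q.length + 1) = r + 1 + Q.length by ring]
        exact this
      · rw [List.mem_singleton] at hv
        subst hv
        refine ⟨hinv r R hR x hxh, (hle r R hR x hxh).trans ?_⟩
        refine mul_le_mul ?_ hxM (apply_nonneg nm x) (by positivity)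
        refine mul_le_mul_of_nonneg_left ?_ hC
        refine pow_le_pow_left₀ (by positivity) ?_ _
        have : (r : ℝ) ≤ ((r + (q :: Q).length : ℕ) : ℝ) := by
          exact_mod_cast Nat.le_add_right _ _
        linarith
    · rw [List.map_append, List.prod_append, h3, List.map_singleton, List.prod_singleton, ex_Ad,
        hxe, List.prod_cons]
      simp only [commutatorElement_def]
      group

/-- every word is a product of few small exponentials and a sorted word -/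
theorem word_list (ex_Ad : ∀ s v, ex (Ad s v) = s * ex v * s⁻¹)
    (hinv : ∀ n, ∀ c ∈ CBall nm h ex τ n, ∀ v ∈ h, Ad c v ∈ h)
    (hle : ∀ n, ∀ c ∈ CBall nm h ex τ n, ∀ v ∈ h, nm (Ad c v) ≤ C * (1 + n) ^ deg * nm v)
    (hC : 0 ≤ C) (hM : 0 ≤ M) {t : Fin k → S} (hT : TL t ⊆ CBall nm h ex τ 1)
    (hx : ∀ q ∈ TL t, ∀ s ∈ TL t, ∃ x ∈ h, nm x ≤ M ∧ ex x = ⁅q, s⁆) (W : List S)
    (hW : ∀ a ∈ W, (∃ v ∈ h, nm v ≤ M ∧ ex v = a) ∨ a ∈ TL t) :
    ∃ (L : List V) (w : Fin k → ℤ), L.length ≤ W.length * W.length ∧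
      (∀ v ∈ L, v ∈ h ∧ nm v ≤ C * (1 + (W.length : ℝ)) ^ deg * M) ∧
      (sg t w).length ≤ W.length ∧ W.prod = (L.map ex).prod * (sg t w).prod := by
  induction W using List.reverseRecOn with
  | nil =>
    refine ⟨[], 0, le_rfl, by simp, ?_, ?_⟩
    · rw [sg_length]; simp
    · rw [sg, sw_prod_zero]; simp
  | append_singleton W a ih =>
    obtain ⟨L, w, h1, h2, h3, h4⟩ := ih fun b hb => hW b (List.mem_append_left _ hb)
    have hmono : C * (1 + (W.length : ℝ)) ^ deg * M ≤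
        C * (1 + ((W ++ [a]).length : ℝ)) ^ deg * M := by
      refine mul_le_mul_of_nonneg_right (mul_le_mul_of_nonneg_left ?_ hC) hM
      refine pow_le_pow_left₀ (by positivity) ?_ _
      rw [List.length_append]
      push_cast
      have : (0 : ℝ) ≤ ([a] : List S).length := Nat.cast_nonneg _
      linarith
    have hcb : ∀ P : List S, (∀ a ∈ P, a ∈ TL t) → P.prod ∈ CBall nm h ex τ P.length :=
      fun P hP => list_mem_CBall fun a ha => hT (hP a ha)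
    have hlen : (W ++ [a]).length = W.length + 1 := by simp
    rcases hW a (List.mem_append_right _ (List.mem_singleton_self a)) with ⟨v, hv, hvM, rfl⟩ | ha
    · have hs : (sg t w).prod ∈ CBall nm h ex τ (sg t w).length := hcb _ fun a ha => sw_mem t ha
      refine ⟨L ++ [Ad (sg t w).prod v], w, ?_, ?_, ?_, ?_⟩
      · rw [hlen, List.length_append, List.length_singleton]
        nlinarith
      · intro u hu
        rcases List.mem_append.1 hu with hu | hu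
        · exact ⟨(h2 u hu).1, (h2 u hu).2.trans hmono⟩
        · rw [List.mem_singleton] at hu
          subst hu
          refine ⟨hinv _ _ hs v hv, ((hle _ _ hs v hv).trans ?_).trans hmono⟩
          refine mul_le_mul ?_ hvM (apply_nonneg nm v) (by positivity)
          refine mul_le_mul_of_nonneg_left ?_ hC
          refine pow_le_pow_left₀ (by positivity) ?_ _
          have : ((sg t w).length : ℝ) ≤ W.length := by exact_mod_cast h3
          linarith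
      · rw [hlen]; omega
      · rw [List.prod_append, List.prod_singleton, h4, List.map_append, List.prod_append,
          List.map_singleton, List.prod_singleton, ex_Ad]
        group
    · obtain ⟨j, hj⟩ := ha
      obtain ⟨z, hz, hza⟩ : ∃ z : ℤ, z.natAbs ≤ 1 ∧ t j ^ z = a := by
        rcases hj with h | h
        · exact ⟨1, by simp, by rw [zpow_one, h]⟩
        · exact ⟨-1, by simp, by rw [zpow_neg_one, h]⟩
      obtain ⟨P, Q, hP, hQ, hlenPQ, hprod, hupd⟩ := sg_split t w j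
      obtain ⟨L', k1, k2, k3⟩ := comm_list ex_Ad hinv hle hC hM hT hx (t := a) ⟨j, hj⟩ Q hQ
        P.length P.prod (hcb P hP)
      refine ⟨L ++ L', Function.update w j (w j + z), ?_, ?_, ?_, ?_⟩
      · rw [hlen, List.length_append, k1]
        have : Q.length ≤ W.length := by omega
        nlinarith
      · intro u hu
        rcases List.mem_append.1 hu with hu | hu
        · exact ⟨(h2 u hu).1, (h2 u hu).2.trans hmono⟩
        · refine ⟨(k2 u hu).1, ((k2 u hu).2.trans ?_).trans hmono⟩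
          refine mul_le_mul_of_nonneg_right (mul_le_mul_of_nonneg_left ?_ hC) hM
          refine pow_le_pow_left₀ (by positivity) ?_ _
          have : ((P.length + Q.length : ℕ) : ℝ) ≤ W.length := by
            exact_mod_cast (by omega : P.length + Q.length ≤ W.length)
          linarith
      · rw [hlen]
        exact (sg_length_update t w j hz).trans (by omega)
      · rw [List.prod_append, List.prod_singleton, h4, hprod, List.map_append, List.prod_append, k3,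
          hupd, hza]
        simp only [commutatorElement_def]
        group

/-- **neutral words in the Cartan group** are exponentials of neutral vectors of polynomial size -/
theorem ker_poly (ex_inj : Function.Injective ex) (ex_Ad : ∀ s v, ex (Ad s v) = s * ex v * s⁻¹)
    {η : S →* Multiplicative (Fin k → ℤ)} (η_ex : ∀ v, η (ex v) = 1)
    (η_τ : ∀ w, η (τ w) = Multiplicative.ofAdd w)
    {Ct : Subgroup S} (hτC : ∀ w, τ w ∈ Ct) (hker : ∀ c ∈ Ct, η c = 1 → ∃ v ∈ h, ex v = c)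
    (hinv : ∀ n, ∀ c ∈ CBall nm h ex τ n, ∀ v ∈ h, Ad c v ∈ h)
    (hC : 0 ≤ C)
    (hle : ∀ n, ∀ c ∈ CBall nm h ex τ n, ∀ v ∈ h, nm (Ad c v) ≤ C * (1 + n) ^ deg * nm v)
    {C' : ℝ} {e : ℕ} (hC' : 0 ≤ C')
    (hlist : ∀ A : ℝ, 0 ≤ A → ∀ L : List V, (∀ v ∈ L, nm v ≤ A) →
      ∃ u, ex u = (L.map ex).prod ∧ nm u ≤ C' * (1 + A + L.length) ^ e)
    (hexC : ∀ v ∈ h, ex v ∈ Ct) :
    ∃ (K : ℝ) (f : ℕ), 0 ≤ K ∧ ∀ n, ∀ c ∈ CBall nm h ex τ n, η c = 1 →
      ∃ v ∈ h, ex v = c ∧ nm v ≤ K * (1 + n) ^ f := by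
  classical
  -- the letters
  set t : Fin k → S := fun j => τ (Pi.single j 1) with ht
  have hsingle : ∀ j i : Fin k, |(Pi.single j (1 : ℤ) : Fin k → ℤ) i| ≤ 1 := by
    intro j i
    by_cases hij : i = j
    · subst hij; simp
    · rw [Pi.single_eq_of_ne hij]; simp
  have hT : TL t ⊆ CBall nm h ex τ 1 := by
    rintro a ⟨j, rfl | rfl⟩
    · exact τ_mem_CBall (hsingle j)
    · exact τ_inv_mem_CBall (hsingle j)
  have hTC : ∀ a ∈ TL t, a ∈ Ct := by
    rintro a ⟨j, rfl | rfl⟩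
    · exact hτC _
    · exact Ct.inv_mem (hτC _)
  have hsgC : ∀ w, (sg t w).prod ∈ Ct := fun w => Ct.list_prod_mem fun a ha => hTC a (sw_mem t ha)
  have hηsw : ∀ (I : List (Fin k)) (w : Fin k → ℤ), Multiplicative.toAdd (η (sw t I w).prod) =
      (I.map fun i => (w i) • (Pi.single i (1 : ℤ) : Fin k → ℤ)).sum := by
    intro I w
    induction I with
    | nil => simp [sw]
    | cons i I ih =>
      rw [sw_cons, List.prod_append, map_mul, toAdd_mul, ih, List.map_cons, List.sum_cons, zw_prod,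
        map_zpow, toAdd_zpow, ht, η_τ]
      rfl
  have hηsg : ∀ w, η (sg t w).prod = Multiplicative.ofAdd w := by
    intro w
    apply Multiplicative.toAdd.injective
    rw [sg, hηsw, ← Fin.sum_univ_def, toAdd_ofAdd]
    funext j
    rw [Finset.sum_apply, Finset.sum_eq_single j]
    · simp
    · intro i _ hij
      rw [Pi.smul_apply, Pi.single_eq_of_ne (Ne.symm hij), smul_zero]
    · intro hj
      exact absurd (Finset.mem_univ j) hj
  -- finitely many constants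
  have hcomm : ∀ p : (Fin k × Bool) × (Fin k × Bool), ∃ x ∈ h, ex x =
      ⁅(if p.1.2 then t p.1.1 else (t p.1.1)⁻¹), (if p.2.2 then t p.2.1 else (t p.2.1)⁻¹)⁆ := by
    intro p
    apply hker
    · have h1 : ∀ q : Fin k × Bool, (if q.2 then t q.1 else (t q.1)⁻¹) ∈ Ct := by
        intro q
        split_ifs
        · exact hτC _
        · exact Ct.inv_mem (hτC _)
      rw [commutatorElement_def]
      exact Ct.mul_mem (Ct.mul_mem (Ct.mul_mem (h1 _) (h1 _)) (Ct.inv_mem (h1 _)))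
        (Ct.inv_mem (h1 _))
    · rw [map_commutatorElement, commutatorElement_eq_one_iff_mul_comm, mul_comm]
  choose xc hxc hxce using hcomm
  obtain ⟨M1, hM1⟩ := (Set.finite_range fun p => nm (xc p)).bddAbove
  have hlet : ∀ p : (Fin k → ℤ) × Bool, ∃ x ∈ h, ex x =
      (if p.2 then τ p.1 else (τ p.1)⁻¹) * (sg t (if p.2 then p.1 else -p.1)).prod⁻¹ := by
    intro p
    apply hker
    · refine Ct.mul_mem ?_ (Ct.inv_mem (hsgC _))
      split_ifs
      · exact hτC _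
      · exact Ct.inv_mem (hτC _)
    · rw [map_mul, map_inv, hηsg]
      split_ifs
      · rw [η_τ, mul_inv_cancel]
      · rw [map_inv, η_τ, ofAdd_neg, mul_inv_cancel]
  choose xl hxl hxle using hlet
  obtain ⟨M2, hM2⟩ := (((Set.finite_Icc (-1 : Fin k → ℤ) 1).prod (Set.finite_univ (α := Bool))).image
    fun p => nm (xl p)).bddAbove
  set M : ℝ := max (max M1 M2) 1 with hM
  have hM0 : 0 ≤ M := zero_le_one.trans (le_max_right _ _)
  have hx : ∀ q ∈ TL t, ∀ s ∈ TL t, ∃ x ∈ h, nm x ≤ M ∧ ex x = ⁅q, s⁆ := by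
    have h1 : ∀ q ∈ TL t, ∃ b : Fin k × Bool, (if b.2 then t b.1 else (t b.1)⁻¹) = q := by
      rintro q ⟨j, rfl | rfl⟩
      · exact ⟨(j, true), by simp⟩
      · exact ⟨(j, false), by simp⟩
    intro q hq s hs
    obtain ⟨b, rfl⟩ := h1 q hq
    obtain ⟨b', rfl⟩ := h1 s hs
    refine ⟨xc (b, b'), hxc _, ?_, hxce (b, b')⟩
    exact (hM1 ⟨(b, b'), rfl⟩).trans ((le_max_left _ _).trans (le_max_left _ _))
  -- conversion of words
  have hconv : ∀ L : List S, (∀ a ∈ L, (∃ v ∈ (h : Set V), nm v ≤ 1 ∧ ex v = a) ∨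
      (∃ w : Fin k → ℤ, (∀ i, |w i| ≤ 1) ∧ (τ w = a ∨ (τ w)⁻¹ = a))) →
      ∃ W : List S, W.length ≤ (k + 1) * L.length ∧ W.prod = L.prod ∧
        ∀ a ∈ W, (∃ v ∈ h, nm v ≤ M ∧ ex v = a) ∨ a ∈ TL t := by
    intro L
    induction L with
    | nil => intro _; exact ⟨[], by simp, rfl, by simp⟩
    | cons a L ih =>
      intro hL
      obtain ⟨W, h1, h2, h3⟩ := ih fun b hb => hL b (List.mem_cons_of_mem _ hb)
      rcases hL a List.mem_cons_self with ⟨v, hv, hv1, rfl⟩ | ⟨w, hw, hwa⟩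
      · refine ⟨ex v :: W, ?_, by rw [List.prod_cons, List.prod_cons, h2], ?_⟩
        · rw [List.length_cons, List.length_cons, mul_add]; omega
        · intro b hb
          rcases List.mem_cons.1 hb with rfl | hb
          · exact Or.inl ⟨v, hv, hv1.trans (le_max_right _ _), rfl⟩
          · exact h3 b hb
      · obtain ⟨bb, hbb⟩ : ∃ bb : Bool, (if bb then τ w else (τ w)⁻¹) = a := by
          rcases hwa with h | h
          · exact ⟨true, by simpa using h⟩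
          · exact ⟨false, by simpa using h⟩
        set w' : Fin k → ℤ := if bb then w else -w with hw'
        have hlw : (sg t w').length ≤ k := by
          rw [sg_length]
          have : ∀ i, (w' i).natAbs ≤ 1 := by
            intro i
            have h4 := hw i
            rw [hw']
            split_ifs
            · rw [Int.abs_eq_natAbs] at h4; exact_mod_cast h4
            · rw [Int.abs_eq_natAbs] at h4
              rw [Pi.neg_apply, Int.natAbs_neg]; exact_mod_cast h4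
          calc ∑ i, (w' i).natAbs ≤ ∑ _i : Fin k, 1 := Finset.sum_le_sum fun i _ => this i
            _ = k := by simp
        refine ⟨ex (xl (w, bb)) :: (sg t w' ++ W), ?_, ?_, ?_⟩
        · rw [List.length_cons, List.length_append, List.length_cons, mul_add]; omega
        · rw [List.prod_cons, List.prod_append, h2, List.prod_cons, hxle (w, bb)]
          simp only
          rw [hbb, ← hw']
          group
        · intro b hb
          rcases List.mem_cons.1 hb with rfl | hb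
          · refine Or.inl ⟨_, hxl (w, bb), ?_, rfl⟩
            refine le_trans (hM2 ⟨(w, bb), ⟨?_, Set.mem_univ _⟩, rfl⟩)
              ((le_max_right _ _).trans (le_max_left _ _))
            rw [Set.mem_Icc]
            exact ⟨fun i => (abs_le.1 (hw i)).1, fun i => (abs_le.1 (hw i)).2⟩
          · rcases List.mem_append.1 hb with hb | hb
            · exact Or.inr (sw_mem t hb)
            · exact h3 b hb
  -- conclusion
  refine ⟨C' * (1 + C * (k + 2) ^ deg * M + (k + 2) ^ 2) ^ e, (deg + 2) * e, by positivity, ?_⟩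
  rintro n c ⟨L₀, hL₀, hLp, hLm⟩ hη
  obtain ⟨W, w1, w2, w3⟩ := hconv L₀ hLm
  obtain ⟨L, w, h1, h2, h3, h4⟩ := word_list ex_Ad hinv hle hC hM0 hT hx W w3
  have hW : W.length ≤ (k + 1) * n := w1.trans (Nat.mul_le_mul_left _ hL₀)
  have hw0 : w = 0 := by
    have h5 : η W.prod = Multiplicative.ofAdd w := by
      rw [h4, map_mul, hηsg]
      have : η (L.map ex).prod = 1 := by
        rw [map_list_prod, List.map_map]
        have : (List.map (η ∘ ex) L) = List.map (fun _ => 1) L :=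
          List.map_congr_left fun v _ => η_ex v
        rw [this, List.map_const', List.prod_replicate, one_pow]
      rw [this, one_mul]
    rw [w2, hLp, hη] at h5
    exact (Multiplicative.ofAdd.injective h5).symm
  have hWp : c = (L.map ex).prod := by
    rw [← hLp, ← w2, h4, hw0, sg, sw_prod_zero, mul_one]
  obtain ⟨u, hu1, hu2⟩ := hlist (C * (1 + (W.length : ℝ)) ^ deg * M) (by positivity) L
    fun v hv => (h2 v hv).2
  have hcC : c ∈ Ct := by
    rw [hWp]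
    refine Ct.list_prod_mem fun a ha => ?_
    rw [List.mem_map] at ha
    obtain ⟨v, hv, rfl⟩ := ha
    exact hexC v (h2 v hv).1
  obtain ⟨v, hv, hvc⟩ := hker c hcC hη
  have huv : u = v := ex_inj (by rw [hu1, hvc, hWp])
  subst huv
  refine ⟨u, hv, hvc, hu2.trans ?_⟩
  have hn0 : (0 : ℝ) ≤ n := Nat.cast_nonneg _
  have hk0 : (0 : ℝ) ≤ k := Nat.cast_nonneg _
  have hWr : (W.length : ℝ) ≤ (k + 1) * n := by exact_mod_cast hW
  have e1 : 1 + (W.length : ℝ) ≤ (k + 2) * (1 + n) := by nlinarith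
  have e2 : (1 + (W.length : ℝ)) ^ deg ≤ (k + 2) ^ deg * (1 + n) ^ deg := by
    rw [← mul_pow]
    exact pow_le_pow_left₀ (by positivity) e1 _
  have e3 : (L.length : ℝ) ≤ (k + 2) ^ 2 * (1 + n) ^ 2 := by
    have : (L.length : ℝ) ≤ W.length * W.length := by exact_mod_cast h1
    have h5 : (0 : ℝ) ≤ W.length := Nat.cast_nonneg _
    nlinarith
  have hp : ∀ j : ℕ, j ≤ deg + 2 → ((1 : ℝ) + n) ^ j ≤ (1 + n) ^ (deg + 2) := fun j hj =>
    pow_le_pow_right₀ (by linarith) hj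
  have e4 : 1 + C * (1 + (W.length : ℝ)) ^ deg * M + L.length ≤
      (1 + C * (k + 2) ^ deg * M + (k + 2) ^ 2) * (1 + n) ^ (deg + 2) := by
    have g1 : C * (1 + (W.length : ℝ)) ^ deg * M ≤
        C * (k + 2) ^ deg * M * (1 + n) ^ (deg + 2) := by
      calc C * (1 + (W.length : ℝ)) ^ deg * M ≤ C * ((k + 2) ^ deg * (1 + n) ^ deg) * M := by
            gcongr
        _ = C * (k + 2) ^ deg * M * (1 + n) ^ deg := by ring
        _ ≤ C * (k + 2) ^ deg * M * (1 + n) ^ (deg + 2) :=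
            mul_le_mul_of_nonneg_left (hp deg (by omega)) (by positivity)
    have g2 : (L.length : ℝ) ≤ (k + 2) ^ 2 * (1 + n) ^ (deg + 2) :=
      e3.trans (mul_le_mul_of_nonneg_left (hp 2 (by omega)) (by positivity))
    have g3 : (1 : ℝ) ≤ (1 + n) ^ (deg + 2) := one_le_pow₀ (by linarith)
    linarith
  calc C' * (1 + C * (1 + (W.length : ℝ)) ^ deg * M + L.length) ^ e
      ≤ C' * ((1 + C * (k + 2) ^ deg * M + (k + 2) ^ 2) * (1 + n) ^ (deg + 2)) ^ e := by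
        gcongr
    _ = _ := by rw [mul_pow, ← pow_mul]; ring

end ker

end Vale.Agent.P188.H796

end

section

/-!
# P188, Z1: RAY and PEAK from GCL
-/

set_option linter.all false

open MeasureTheory Set Filter
open Agent.P188.H428 (IsLen)
open Vale.Agent.P188.H530 (hgt hgt_mul)

namespace Vale.Agent.P188.Z1

namespace RModel

variable {S : Type} [Group S] [MeasurableSpace S] {Γ : Type} [Group Γ]
  {V : Type} [AddCommGroup V] [Module ℝ V] {k : ℕ} (M : RModel S Γ V k)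

private lemma rp_CB_one (n : ℕ) : (1 : S) ∈ M.CB n :=
  ⟨[], by simp, by simp, by simp⟩

private lemma rp_CB_mul {m n : ℕ} {x y : S} (hx : x ∈ M.CB m) (hy : y ∈ M.CB n) :
    x * y ∈ M.CB (m + n) := by
  obtain ⟨L, h1, h2, h3⟩ := hx
  obtain ⟨L', h1', h2', h3'⟩ := hy
  refine ⟨L ++ L', by rw [List.length_append]; omega, by rw [List.prod_append, h2, h2'], ?_⟩
  intro a ha
  rcases List.mem_append.1 ha with h | h
  · exact h3 a h
  · exact h3' a h

private lemma rp_ex_neg (v : V) : M.ex (-v) = (M.ex v)⁻¹ := by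
  have h := M.ex_add (-1) 1 v
  rw [neg_add_cancel, zero_smul, M.ex_zero, one_smul, neg_one_smul] at h
  exact eq_inv_of_mul_eq_one_left h.symm

private lemma rp_CB_inv {n : ℕ} {x : S} (hx : x ∈ M.CB n) : x⁻¹ ∈ M.CB n := by
  obtain ⟨L, h1, h2, h3⟩ := hx
  refine ⟨(L.map fun a => a⁻¹).reverse, by simpa using h1, ?_, ?_⟩
  · rw [← h2, List.prod_inv_reverse]
  · intro a ha
    rw [List.mem_reverse, List.mem_map] at ha
    obtain ⟨b, hb, rfl⟩ := ha
    rcases h3 b hb with ⟨v, hv, hv1, rfl⟩ | ⟨w, hw, hw1⟩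
    · exact Or.inl ⟨-v, (M.Vw 0).neg_mem hv, by rw [map_neg_eq_map]; exact hv1, rp_ex_neg M v⟩
    · refine Or.inr ⟨w, hw, ?_⟩
      rcases hw1 with rfl | rfl
      · exact Or.inr rfl
      · left; rw [inv_inv]

private lemma rp_CB_pow {N : ℕ} {x : S} (hx : x ∈ M.CB N) (n : ℕ) : x ^ n ∈ M.CB (n * N) := by
  induction n with
  | zero => simpa using rp_CB_one M 0
  | succ n ih =>
    rw [pow_succ, Nat.succ_mul]
    exact rp_CB_mul M ih hx

private lemma rp_θ_mul (x y : S) : M.θ (x * y) = M.θ x + M.θ y := hgt_mul M.η x y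

private lemma rp_θ_one : M.θ 1 = 0 := by
  have := rp_θ_mul M 1 1
  rw [mul_one] at this
  simpa using this.symm

private lemma rp_θ_inv (x : S) : M.θ x⁻¹ = - M.θ x := by
  have := rp_θ_mul M x⁻¹ x
  rw [inv_mul_cancel, rp_θ_one] at this
  exact eq_neg_of_add_eq_zero_left this.symm

private lemma rp_θ_pow (x : S) (n : ℕ) : M.θ (x ^ n) = (n : ℝ) • M.θ x := by
  induction n with
  | zero => simp [rp_θ_one]
  | succ n ih => rw [pow_succ, rp_θ_mul, ih]; push_cast; rw [add_smul, one_smul]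

private lemma rp_poly_exp (a c : ℝ) (hc : 0 < c) (N d : ℕ) :
    ∀ᶠ r : ℝ in atTop, a * (1 + r * N) ^ d ≤ Real.exp (c * r) := by
  have h1 := (isLittleO_pow_exp_pos_mul_atTop d hc).bound
    (c := 1 / ((|a| + 1) * (1 + N) ^ d)) (by positivity)
  filter_upwards [h1, eventually_ge_atTop (1 : ℝ)] with r hr hr1
  have h2 : 1 + r * N ≤ (1 + N) * r := by nlinarith [(Nat.cast_nonneg N : (0 : ℝ) ≤ N)]
  have h3 : (1 + r * N) ^ d ≤ (1 + N) ^ d * r ^ d := by
    rw [← mul_pow]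
    exact pow_le_pow_left₀ (by positivity) h2 d
  rw [Real.norm_eq_abs, abs_of_nonneg (by positivity : 0 ≤ r ^ d), Real.norm_eq_abs,
    abs_of_pos (Real.exp_pos _), div_mul_eq_mul_div, one_mul, le_div_iff₀ (by positivity)] at hr
  calc a * (1 + r * N) ^ d ≤ (|a| + 1) * (1 + r * N) ^ d :=
        mul_le_mul_of_nonneg_right ((le_abs_self a).trans (by linarith)) (by positivity)
    _ ≤ (|a| + 1) * ((1 + N) ^ d * r ^ d) := mul_le_mul_of_nonneg_left h3 (by positivity)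
    _ = r ^ d * ((|a| + 1) * (1 + N) ^ d) := by ring
    _ ≤ Real.exp (c * r) := hr

/-- GCL for the paths given by the powers of elements of the Cartan group. -/
theorem gcl_path (hG : M.GCL) (K A c : ℝ) (N : ℕ) (hc : 0 < c) :
    ∃ (η c₀ CR r₀ : ℝ), 0 < η ∧ 0 < c₀ ∧ ∀ r : ℝ, r₀ ≤ r →
    ∀ F F' : Γ → Γ, M.QIm K F F' → ∀ b ∈ M.Φ, ∀ D Dp : Set S, M.Fat (CR * r) 1 D Dp →
    ∀ t : M.ι → S, (∀ i, (M.l (t i) : ℝ) ≤ A) →
      (∀ i, M.wt i ≠ 0 → t i ∈ M.CB N ∧ c ≤ M.wt i (M.θ (t i))) →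
      M.μ (D ∩ {x | ∀ i, M.wt i ≠ 0 → ∀ n : ℕ, (n : ℝ) ≤ r →
        b (M.f F (x * t i ^ n)) ≤ b (M.f F x) + η * r}) ≤
        ENNReal.ofReal (Real.exp (-(c₀ * r))) * M.μ D := by
  obtain ⟨η, c₀, CR, r₀, hη, hc₀, H⟩ := hG K |A| (c / 2) (by positivity)
  have ev1 : ∀ᶠ r : ℝ in atTop, (1 : ℝ) * (1 + r * 1) ^ 1 ≤ Real.exp (η * r) := by
    simpa using rp_poly_exp 1 η hη 1 1
  have ev2 := rp_poly_exp (M.C0 * Real.exp c) (c / 2) (by positivity) N M.deg
  obtain ⟨r₁, hr₁⟩ := ((ev1.and ev2).and (eventually_ge_atTop (1 : ℝ))).exists_forall_of_atTop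
  refine ⟨η, c₀, CR, max r₀ r₁, hη, hc₀, fun r hr F F' hF b hb D Dp hD t hA ht => ?_⟩
  obtain ⟨⟨h1, h2⟩, h3⟩ := hr₁ r ((le_max_right _ _).trans hr)
  set m : ℕ := ⌊r⌋₊ with hm
  have hmr : (m : ℝ) ≤ r := Nat.floor_le (by linarith)
  have hmr' : r - 1 ≤ m := by
    have := Nat.lt_floor_add_one r
    linarith
  classical
  set γ : M.ι → ℕ → S := fun i n => if M.wt i = 0 then 1 else t i ^ n with hγ
  have hA0 : ∀ i, (M.l (t i) : ℝ) ≤ |A| := fun i => (hA i).trans (le_abs_self A)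
  refine le_trans (measure_mono ?_) (H r ((le_max_left _ _).trans hr) F F' hF b hb D Dp hD γ m
    ?_ ?_ ?_ ?_ ?_)
  · rintro x ⟨hxD, hx⟩
    refine ⟨hxD, fun i n hn => ?_⟩
    show b (M.f F (x * γ i n)) ≤ b (M.f F x) + η * r
    by_cases hi : M.wt i = 0
    · rw [hγ]
      simp only [if_pos hi, mul_one]
      have : 0 ≤ η * r := by positivity
      linarith
    · rw [hγ]
      simp only [if_neg hi]
      exact hx i hi n (by
        have : (n : ℝ) ≤ m := by exact_mod_cast hn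
        linarith)
  · have : (m : ℝ) ≤ (1 : ℝ) * (1 + r * 1) ^ 1 := by linarith
    exact this.trans h1
  · intro i
    rw [hγ]
    simp
  · intro i n _
    rw [hγ]
    by_cases hi : M.wt i = 0
    · simp only [if_pos hi, inv_one, mul_one, M.len.one, Nat.cast_zero]
      exact abs_nonneg A
    · simp only [if_neg hi]
      rw [pow_succ, inv_mul_cancel_left]
      exact hA0 i
  · intro i hi n
    rw [hγ]
    simp only [if_pos hi]
  · intro i hi
    rw [hγ]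
    simp only [if_neg hi]
    obtain ⟨htC, htc⟩ := ht i hi
    have hmem : (t i ^ m)⁻¹ ∈ M.CB (m * N) := rp_CB_inv M (rp_CB_pow M htC m)
    have hwt : M.wt i ∈ M.Wt := by
      rcases M.wt_mem i with h | h
      · exact M.Φ_sub h
      · exact absurd h hi
    have h4 := M.C_le (m * N) _ hmem (M.wt i) hwt (M.X i) (M.X_mem i)
    have h5 : hgt M.η (t i ^ m)⁻¹ = -((m : ℝ) • M.θ (t i)) := by
      show M.θ _ = _
      rw [rp_θ_inv, rp_θ_pow]
    rw [h5, map_neg, map_smul, smul_eq_mul] at h4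
    refine h4.trans ?_
    have hC0 : 0 < M.C0 := lt_of_lt_of_le one_pos M.one_le_C0
    have h6 : ((m * N : ℕ) : ℝ) ≤ r * N := by
      push_cast
      exact mul_le_mul_of_nonneg_right hmr (Nat.cast_nonneg _)
    have h7 : -((m : ℝ) * M.wt i (M.θ (t i))) ≤ c - c * r := by
      have h8 : (m : ℝ) * c ≤ m * M.wt i (M.θ (t i)) :=
        mul_le_mul_of_nonneg_left htc (Nat.cast_nonneg _)
      nlinarith
    calc M.C0 * (1 + ((m * N : ℕ) : ℝ)) ^ M.deg *
          Real.exp (-((m : ℝ) * M.wt i (M.θ (t i)))) * M.nm (M.X i)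
        ≤ M.C0 * (1 + r * N) ^ M.deg * Real.exp (c - c * r) * 1 := by
          refine mul_le_mul (mul_le_mul (mul_le_mul_of_nonneg_left
            (pow_le_pow_left₀ (by positivity) (by linarith) _) hC0.le)
            (Real.exp_le_exp.2 h7) (Real.exp_pos _).le (by positivity)) (M.X_le i)
            (apply_nonneg M.nm _) (by positivity)
      _ = (M.C0 * Real.exp c * (1 + r * N) ^ M.deg) * Real.exp (-(c * r)) := by
          rw [sub_eq_add_neg, Real.exp_add]; ring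
      _ ≤ Real.exp (c / 2 * r) * Real.exp (-(c * r)) :=
          mul_le_mul_of_nonneg_right h2 (Real.exp_pos _).le
      _ = Real.exp (-(c / 2 * r)) := by
          rw [← Real.exp_add]; congr 1; ring

private lemma rp_θ_τ (v : Fin k → ℤ) : M.θ (M.τ v) = ht v := by
  funext i
  show ((Multiplicative.toAdd (M.η (M.τ v)) i : ℤ) : ℝ) = _
  rw [M.η_τ]
  rfl

/-- **Choice of rays.** -/
theorem ray_of_gcl (hG : M.GCL) : M.RAY := by
  classical
  intro K V₀ hV₀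
  -- constants
  obtain ⟨A, hA⟩ : ∃ A : ℝ, ∀ v ∈ V₀, (M.l (M.τ v) : ℝ) ≤ A :=
    ⟨∑ v ∈ V₀, (M.l (M.τ v) : ℝ), fun v hv => Finset.single_le_sum
      (f := fun v => (M.l (M.τ v) : ℝ)) (fun _ _ => Nat.cast_nonneg _) hv⟩
  obtain ⟨N, hN⟩ : ∃ N : ℕ, ∀ v ∈ V₀, M.τ v ∈ M.CB N := by
    refine ⟨∑ v ∈ V₀, ⌈M.C0 * (1 + ‖(fun i => (v i : ℝ))‖)⌉₊, fun v hv => ?_⟩
    obtain ⟨L, h1, h2, h3⟩ := M.τ_CB v
    refine ⟨L, h1.trans ?_, h2, h3⟩
    exact Finset.single_le_sum (f := fun v : Fin k → ℤ => ⌈M.C0 * (1 + ‖(fun i => (v i : ℝ))‖)⌉₊)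
      (fun _ _ => Nat.zero_le _) hv
  obtain ⟨c, hc, hc'⟩ : ∃ c : ℝ, 0 < c ∧ ∀ b ∈ M.Φ, ∀ v ∈ V₀, 0 < b (ht v) → c ≤ b (ht v) := by
    set T : Finset ℝ := insert 1 (((M.Φ ×ˢ V₀).filter fun q => 0 < q.1 (ht q.2)).image
      fun q => q.1 (ht q.2)) with hT
    have hTn : T.Nonempty := ⟨1, Finset.mem_insert_self _ _⟩
    refine ⟨T.min' hTn, ?_, fun b hb v hv h => ?_⟩
    · rw [Finset.lt_min'_iff]
      intro y hy
      rcases Finset.mem_insert.1 hy with rfl | hy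
      · exact one_pos
      · obtain ⟨q, hq, rfl⟩ := Finset.mem_image.1 hy
        exact (Finset.mem_filter.1 hq).2
    · apply Finset.min'_le
      refine Finset.mem_insert_of_mem (Finset.mem_image.2 ⟨(b, v), ?_, rfl⟩)
      exact Finset.mem_filter.2 ⟨Finset.mem_product.2 ⟨hb, hv⟩, h⟩
  obtain ⟨η, c₀, CR, r₀, hη, hc₀, H⟩ := gcl_path M hG K A c N hc
  -- choice functions
  set G : Finset (M.Φ → V₀) := Finset.univ.filter fun g => ∀ b : M.Φ, 0 < b.1 (ht (g b).1) with hGG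
  set r₁ : ℝ := G.card * 2 / c₀ with hr₁
  refine ⟨η, c₀ / 2, CR, max r₀ (max r₁ 0), hη, by positivity, fun r hr F F' hF b hb D Dp hD => ?_⟩
  have hr0 : 0 ≤ r := ((le_max_right _ _).trans (le_max_right _ _)).trans hr
  have hrr : r₁ ≤ r := ((le_max_left _ _).trans (le_max_right _ _)).trans hr
  have hcard : (G.card : ℝ) ≤ Real.exp (c₀ / 2 * r) := by
    rw [hr₁, div_le_iff₀ hc₀] at hrr
    have := Real.add_one_le_exp (c₀ / 2 * r)
    linarith
  -- the letters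
  have hsub : {x | x ∈ D ∧ ∀ b' ∈ M.Φ, ∃ v ∈ V₀, 0 < b' (ht v) ∧
        ∀ n : ℕ, (n : ℝ) ≤ r → b (M.f F (x * M.τ v ^ n)) ≤ b (M.f F x) + η * r} ⊆
      ⋃ g ∈ G, (D ∩ {x | ∀ b' : M.Φ, ∀ n : ℕ, (n : ℝ) ≤ r →
        b (M.f F (x * M.τ (g b').1 ^ n)) ≤ b (M.f F x) + η * r}) := by
    rintro x ⟨hxD, hx⟩
    have hx' : ∀ b' : M.Φ, ∃ v : V₀, 0 < b'.1 (ht v.1) ∧
        ∀ n : ℕ, (n : ℝ) ≤ r → b (M.f F (x * M.τ v.1 ^ n)) ≤ b (M.f F x) + η * r := by
      intro b'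
      obtain ⟨v, hv, h1, h2⟩ := hx b'.1 b'.2
      exact ⟨⟨v, hv⟩, h1, h2⟩
    choose g hg1 hg2 using hx'
    rw [Set.mem_iUnion₂]
    exact ⟨g, Finset.mem_filter.2 ⟨Finset.mem_univ _, hg1⟩, hxD, hg2⟩
  have hone : ∀ g ∈ G, M.μ (D ∩ {x | ∀ b' : M.Φ, ∀ n : ℕ, (n : ℝ) ≤ r →
        b (M.f F (x * M.τ (g b').1 ^ n)) ≤ b (M.f F x) + η * r}) ≤
      ENNReal.ofReal (Real.exp (-(c₀ * r))) * M.μ D := by
    intro g hg
    have hgpos := (Finset.mem_filter.1 hg).2
    have hwt : ∀ i, M.wt i ≠ 0 → M.wt i ∈ M.Φ := fun i hi =>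
      (M.wt_mem i).resolve_right hi
    set t : M.ι → S := fun i => if h : M.wt i = 0 then 1 else M.τ (g ⟨M.wt i, hwt i h⟩).1 with ht'
    have hA0 : 0 ≤ A := by
      obtain ⟨b0, hb0⟩ : ∃ b0, b0 ∈ M.Φ := ⟨b, hb⟩
      exact (Nat.cast_nonneg _).trans (hA (g ⟨b0, hb0⟩).1 (g ⟨b0, hb0⟩).2)
    refine le_trans (measure_mono ?_) (H r ((le_max_left _ _).trans hr) F F' hF b hb D Dp hD t
      ?_ ?_)
    · rintro x ⟨hxD, hx⟩
      refine ⟨hxD, fun i hi n hn => ?_⟩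
      rw [ht']
      simp only [dif_neg hi]
      exact hx ⟨M.wt i, hwt i hi⟩ n hn
    · intro i
      rw [ht']
      by_cases hi : M.wt i = 0
      · simp only [dif_pos hi, M.len.one, Nat.cast_zero]
        exact hA0
      · simp only [dif_neg hi]
        exact hA _ (g ⟨M.wt i, hwt i hi⟩).2
    · intro i hi
      rw [ht']
      simp only [dif_neg hi]
      refine ⟨hN _ (g ⟨M.wt i, hwt i hi⟩).2, ?_⟩
      rw [rp_θ_τ]
      exact hc' _ (hwt i hi) _ (g ⟨M.wt i, hwt i hi⟩).2 (hgpos ⟨M.wt i, hwt i hi⟩)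
  calc M.μ {x | x ∈ D ∧ ∀ b' ∈ M.Φ, ∃ v ∈ V₀, 0 < b' (ht v) ∧
        ∀ n : ℕ, (n : ℝ) ≤ r → b (M.f F (x * M.τ v ^ n)) ≤ b (M.f F x) + η * r}
      ≤ M.μ (⋃ g ∈ G, (D ∩ {x | ∀ b' : M.Φ, ∀ n : ℕ, (n : ℝ) ≤ r →
        b (M.f F (x * M.τ (g b').1 ^ n)) ≤ b (M.f F x) + η * r})) := measure_mono hsub
    _ ≤ ∑ g ∈ G, M.μ (D ∩ {x | ∀ b' : M.Φ, ∀ n : ℕ, (n : ℝ) ≤ r →
        b (M.f F (x * M.τ (g b').1 ^ n)) ≤ b (M.f F x) + η * r}) := measure_biUnion_finset_le _ _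
    _ ≤ ∑ g ∈ G, ENNReal.ofReal (Real.exp (-(c₀ * r))) * M.μ D := Finset.sum_le_sum hone
    _ = (G.card : ENNReal) * (ENNReal.ofReal (Real.exp (-(c₀ * r))) * M.μ D) := by
        rw [Finset.sum_const, nsmul_eq_mul]
    _ ≤ ENNReal.ofReal (Real.exp (c₀ / 2 * r)) *
          (ENNReal.ofReal (Real.exp (-(c₀ * r))) * M.μ D) := by
        gcongr
        rw [← ENNReal.ofReal_natCast]
        exact ENNReal.ofReal_le_ofReal hcard
    _ = ENNReal.ofReal (Real.exp (-(c₀ / 2 * r))) * M.μ D := by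
        rw [← mul_assoc, ← ENNReal.ofReal_mul (Real.exp_pos _).le, ← Real.exp_add]
        congr 3
        ring

/-- **Few peaks.** -/
theorem peak_of_gcl (hG : M.GCL) : M.PEAK := by
  classical
  intro K v hv
  obtain ⟨N, hN⟩ : ∃ N : ℕ, M.τ v ∈ M.CB N := ⟨_, M.τ_CB v⟩
  obtain ⟨c, hc, hc'⟩ : ∃ c : ℝ, 0 < c ∧ ∀ b ∈ M.Φ, c ≤ |b (ht v)| := by
    set T : Finset ℝ := insert 1 (M.Φ.image fun b => |b (ht v)|) with hT
    have hTn : T.Nonempty := ⟨1, Finset.mem_insert_self _ _⟩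
    refine ⟨T.min' hTn, ?_, fun b hb => ?_⟩
    · rw [Finset.lt_min'_iff]
      intro y hy
      rcases Finset.mem_insert.1 hy with rfl | hy
      · exact one_pos
      · obtain ⟨b, hb, rfl⟩ := Finset.mem_image.1 hy
        exact abs_pos.2 (hv b (M.Φ_sub hb) (M.Φ_ne b hb))
    · exact Finset.min'_le _ _ (Finset.mem_insert_of_mem (Finset.mem_image_of_mem _ hb))
  obtain ⟨η, c₀, CR, r₀, hη, hc₀, H⟩ := gcl_path M hG K (M.l (M.τ v)) c N hc
  refine ⟨η, c₀, CR, r₀, hη, hc₀, fun r hr F F' hF b hb D Dp hD => ?_⟩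
  set t : M.ι → S := fun i => if 0 < M.wt i (ht v) then M.τ v else (M.τ v)⁻¹ with ht'
  refine le_trans (measure_mono ?_) (H r hr F F' hF b hb D Dp hD t ?_ ?_)
  · rintro x ⟨hxD, hx⟩
    refine ⟨hxD, fun i hi n hn => ?_⟩
    rw [ht']
    by_cases h : 0 < M.wt i (ht v)
    · simp only [if_pos h]
      have := hx (n : ℤ) (by
        rw [abs_of_nonneg (by positivity)]
        exact_mod_cast hn)
      rwa [zpow_natCast] at this
    · simp only [if_neg h]
      have := hx (-(n : ℤ)) (by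
        push_cast
        rw [abs_neg, abs_of_nonneg (Nat.cast_nonneg _)]
        exact hn)
      rwa [zpow_neg, zpow_natCast, ← inv_pow] at this
  · intro i
    rw [ht']
    by_cases h : 0 < M.wt i (ht v)
    · simp only [if_pos h]; exact le_rfl
    · simp only [if_neg h]; rw [M.len.inv]
  · intro i hi
    have hΦ : M.wt i ∈ M.Φ := (M.wt_mem i).resolve_right hi
    have h1 := hc' _ hΦ
    rw [ht']
    by_cases h : 0 < M.wt i (ht v)
    · simp only [if_pos h]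
      rw [abs_of_pos h] at h1
      exact ⟨hN, by rw [rp_θ_τ]; exact h1⟩
    · simp only [if_neg h]
      rw [abs_of_nonpos (not_lt.1 h)] at h1
      exact ⟨rp_CB_inv M hN, by rw [rp_θ_inv, rp_θ_τ, map_neg]; exact h1⟩

end RModel

end Vale.Agent.P188.Z1

end
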