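import Vale.Agent.P188.R.G059
import Vale.Agent.P188.R.G058
import Vale.Agent.P188.R.G062

section

/-!
# Final assembly, route A

`OutA` (comparison along slab paths for most base points) and `EndA` (algebra) imply `Core`.
-/

universe u v w

open Pointwise
open scoped commutatorElement

namespace Vale.Agent.P188.H789

/-- **Output of the analytic part, route A.** -/
def OutA : Prop :=
  ∀ (Γ : Type) [Group Γ] (k : ℕ) (η : Γ →* Multiplicative (Fin k → ℤ)), 0 < k → H187.Z0 Γ k η →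
    ∀ (H : Type) [Group H] [Group.FG H] (F : H → Γ) (F' : Γ → H), Coarse F → Coarse F' →
      CloseId (F' ∘ F) → CloseId (F ∘ F') →
      ∃ (H₀ : Subgroup H) (_ : H₀.FiniteIndex) (S : Set H₀), S.Finite ∧
        Subgroup.closure S = ⊤ ∧ ∃ μ : (H₀ → ℝ) → ℝ, IsMean μ ∧
          (∀ (g : H₀) f, Bdd f → μ (fun x => f (x * g)) = μ f) ∧
          Cmp μ (hts η fun x : H₀ => F x) (S ∪ S⁻¹ ∪ {1})

/-- **The algebraic end of route A.** -/
def EndA : Prop :=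
  ∀ (n : ℕ) (Γ H : Type) [Group Γ] [Group H] [Group.FG H], PolyZ n Γ → CoarseEquiv H Γ →
    ∀ K : Subgroup H, K.Normal → (∀ x y : H, ⁅x, y⁆ ∈ K) → ∀ D : ℕ, H796.GrowthLE K D →
      IsVirtuallyPolycyclic H

theorem growthLE_ker {H : Type u} [Group H] {k : ℕ} {χ : H → Fin k → ℝ} (h : Addv χ) {S : Set H}
    (hS : Subgroup.closure S = ⊤) {C D : ℕ} (hG : SlabGrowth χ S C D) :
    H796.GrowthLE h.ker D := by
  intro F hF
  obtain ⟨C', hC'⟩ := kernel_growth h hS hG (hF.image (Subtype.val : h.ker → H)) (by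
    rintro _ ⟨x, -, rfl⟩
    exact x.2)
  refine ⟨C', fun n => ?_⟩
  have h1 : ∀ n : ℕ, (Subtype.val : h.ker → H) '' (F ^ n) ⊆
      Bl ((Subtype.val : h.ker → H) '' F) n := by
    intro n
    induction n with
    | zero =>
      rintro _ ⟨x, hx, rfl⟩
      rw [pow_zero, Set.mem_one] at hx
      rw [hx]
      exact one_mem_Bl _ _
    | succ n ih =>
      rintro _ ⟨x, hx, rfl⟩
      rw [pow_succ] at hx
      obtain ⟨y, hy, z, hz, rfl⟩ := hx
      exact mul_mem_Bl (ih ⟨y, hy, rfl⟩) (mem_Bl_one ⟨z, hz, rfl⟩)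
  have h2 : (F ^ n).ncard ≤ (Bl ((Subtype.val : h.ker → H) '' F) n).ncard := by
    rw [← Set.ncard_image_of_injective (F ^ n) (Subtype.val_injective (p := fun x => x ∈ h.ker))]
    exact Set.ncard_le_ncard (h1 n) (Bl_finite (hF.image _) _)
  exact h2.trans (hC' n)

theorem isVirtuallyPolycyclic_of_finiteIndex {H : Type u} [Group H] {H₀ : Subgroup H}
    (hH₀ : H₀.FiniteIndex) (h : IsVirtuallyPolycyclic H₀) : IsVirtuallyPolycyclic H := by
  obtain ⟨P, hP, hP'⟩ := isVirtuallyPolycyclic_iff.1 h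
  refine isVirtuallyPolycyclic_iff.2 ⟨P.map H₀.subtype, ?_, hP'.map _⟩
  refine ⟨?_⟩
  rw [Subgroup.index_map_subtype]
  exact mul_ne_zero hP.index_ne_zero hH₀.index_ne_zero

/-- the final step, route A -/
theorem vp_of_cmp (hEnd : EndA) {Γ : Type} [Group Γ] {k : ℕ}
    {η : Γ →* Multiplicative (Fin k → ℤ)}
    (hZ : H187.Z0 Γ k η) {H : Type} [Group H] {F : H → Γ} {F' : Γ → H}
    (hF : Coarse F) (hF' : Coarse F') (hFF : CloseId (F' ∘ F)) (hFF' : CloseId (F ∘ F'))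
    {H₀ : Subgroup H} (hH₀ : H₀.FiniteIndex) {S : Set H₀} (hSf : S.Finite)
    (hS : Subgroup.closure S = ⊤) {μ : (H₀ → ℝ) → ℝ} (hμ : IsMean μ)
    (hinv : ∀ (g : H₀) f, Bdd f → μ (fun x => f (x * g)) = μ f)
    (hcmp : Cmp μ (hts η fun x : H₀ => F x) (S ∪ S⁻¹ ∪ {1})) : IsVirtuallyPolycyclic H := by
  classical
  obtain ⟨F₀', c1, c2, c3, c4⟩ := coarse_restrict hF hF' hFF hFF' H₀ hH₀
  obtain ⟨m, hm⟩ := hZ.polyZ
  obtain ⟨A, hA, hcl, C, D, hgr⟩ := Z0_growth hZ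
  have hBfin : (S ∪ S⁻¹ ∪ {1}).Finite := (hSf.union hSf.inv).union (Set.finite_singleton 1)
  obtain ⟨L, hL⟩ := hts_lip η c1 hBfin
  have hadd : Addv (chi μ (hts η fun x : H₀ => F x)) := chi_addv hμ hinv hS hL
  obtain ⟨C', D', hC', hSG⟩ := slabGrowth_of_cmp hZ.surj hA hcl hgr c1 c3 hμ hinv
    (χ := chi μ (hts η fun x : H₀ => F x)) (fun _ _ => rfl) hSf hcmp
  have : Group.FG H₀ := Group.fg_iff.mpr ⟨S, hS, hSf⟩
  refine isVirtuallyPolycyclic_of_finiteIndex hH₀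
    (hEnd m Γ H₀ hm ⟨_, _, c1, c2, c3, c4⟩ hadd.ker hadd.ker_normal (fun x y => ?_) D'
      (growthLE_ker hadd hS hSG))
  rw [commutatorElement_def]
  exact hadd.comm_mem x y

/-- **Final assembly, route A.** -/
theorem core_of_outA (hA : OutA) (hEnd : EndA) : H187.Core := by
  intro Γ _ k η hZ H _ hfg hc
  obtain ⟨F, F', hF, hF', hFF, hFF'⟩ := hc
  rcases Nat.eq_zero_or_pos k with hk | hk
  · subst hk
    have hS0 : ∃ S : Set (⊤ : Subgroup H), S.Finite ∧ Subgroup.closure S = ⊤ := by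
      have : Group.FG (⊤ : Subgroup H) :=
        Group.fg_of_surjective (f := (Subgroup.topEquiv (G := H)).symm.toMonoidHom)
          (Subgroup.topEquiv (G := H)).symm.surjective
      exact exists_fin_gen this
    obtain ⟨S, hSf, hS⟩ := hS0
    exact vps_of_ES hZ hF hF' hFF hFF' (H₀ := ⊤) inferInstance hSf hS
      (fun ε _ => ⟨0, fun n x _ h i => i.elim0⟩)
      ⟨0, fun R m _ h y _ _ _ a => a.elim0⟩
  · obtain ⟨H₀, hH₀, S, hSf, hS, μ, hμ, hinv, hcmp⟩ := hA Γ k η hk hZ H F F' hF hF' hFF hFF'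
    exact vp_of_cmp hEnd hZ hF hF' hFF hFF' hH₀ hSf hS hμ hinv hcmp

/-- **The rigidity theorem, from the outputs of route A.** -/
theorem rigidity_of_outA (hA : OutA) (hEnd : EndA) {H : Type u} {G : Type v} [Group H] [Group G]
    (hG : IsVirtuallyPolycyclic G) (hQ : QuasiIsometric H G) : IsVirtuallyPolycyclic H :=
  H187.rigidity_of_core (core_of_outA hA hEnd) hG hQ

end Vale.Agent.P188.H789

end

section

/-!
# Route A: comparison of the end points of slab paths by neutral nets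

Neutral displacements are exponentially good (`hdev`), so that the definition of good points may
contain a union over a net of `exp (C δ R)` neutral elements. A slab path of length `exp (c R)` ends
at `z * (s' * ν)`, `l s' = O(R)`, `ν` neutral of size `exp (δ R)`.
-/

set_option linter.unusedSectionVars false

namespace Vale.Agent.P188.H789

open Finset Vale.Agent.P188 Agent.P188.H428 Vale.Agent.P188.H382

section dev

variable {S : Type} [Group S] {X : Type} (A : RAct S X) {μ : (X → ℝ) → ℝ}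
variable {E : Type} [NormedAddCommGroup E]

open Classical in
theorem dev_mul (hμ : InvMean A μ) (W : X → E) (τ₁ τ₂ : ℝ) (x y : S) :
    dev A μ W (τ₁ + τ₂) (x * y) ≤ dev A μ W τ₁ x + dev A μ W τ₂ y := by
  have hm := hμ.mean
  unfold dev
  have h1 := hμ.inv x (fun z => if τ₂ < ‖W (A.act z y) - W z‖ then (1 : ℝ) else 0) (bdd_ite _)
  rw [← h1, ← hm.add _ _ (bdd_ite _) ((bdd_ite (fun z => τ₂ < ‖W (A.act z y) - W z‖)).comp
    (fun z => A.act z x))]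
  refine hm.le (bdd_ite _) ((bdd_ite _).add ((bdd_ite (fun z => τ₂ < ‖W (A.act z y) - W z‖)).comp
    (fun z => A.act z x))) fun z => ?_
  simp only [Pi.add_apply]
  by_cases h2 : τ₁ < ‖W (A.act z x) - W z‖
  · rw [if_pos h2]
    have : (0 : ℝ) ≤ if τ₂ < ‖W (A.act (A.act z x) y) - W (A.act z x)‖ then (1 : ℝ) else 0 := by
      split_ifs <;> norm_num
    have h3 : (if τ₁ + τ₂ < ‖W (A.act z (x * y)) - W z‖ then (1 : ℝ) else 0) ≤ 1 := by
      split_ifs <;> norm_num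
    linarith
  · rw [if_neg h2]
    by_cases h3 : τ₂ < ‖W (A.act (A.act z x) y) - W (A.act z x)‖
    · rw [if_pos h3]
      have h3 : (if τ₁ + τ₂ < ‖W (A.act z (x * y)) - W z‖ then (1 : ℝ) else 0) ≤ 1 := by
        split_ifs <;> norm_num
      linarith
    · rw [if_neg h3]
      have h4 : ¬ τ₁ + τ₂ < ‖W (A.act z (x * y)) - W z‖ := by
        rw [A.mul] at h3
        push Not at h2 h3 ⊢
        calc ‖W (A.act z (x * y)) - W z‖
            = ‖(W (A.act z x) - W z) + (W (A.act z (x * y)) - W (A.act z x))‖ := by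
              congr 1; abel
          _ ≤ _ := (norm_add_le _ _).trans (add_le_add h2 h3)
      rw [if_neg h4]
      norm_num

open Classical in
theorem dev_mono (hμ : InvMean A μ) (W : X → E) {τ₁ τ₂ : ℝ} (h : τ₁ ≤ τ₂) (x : S) :
    dev A μ W τ₂ x ≤ dev A μ W τ₁ x := by
  unfold dev
  refine hμ.mean.le (bdd_ite _) (bdd_ite _) fun z => ?_
  by_cases h2 : τ₂ < ‖W (A.act z x) - W z‖
  · rw [if_pos h2, if_pos (h.trans_lt h2)]
  · rw [if_neg h2]
    split_ifs <;> norm_num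

open Classical in
/-- averaging over a finite set of translations -/
theorem dev_le_of_avg (hμ : InvMean A μ) (W : X → E) (τ β : ℝ) (x : S) (T : Finset S)
    (hT : T.Nonempty) (h : ∀ z, ((T.filter fun t => τ < ‖W (A.act z (t * x)) -
      W (A.act z t)‖).card : ℝ) ≤ β * T.card) : dev A μ W τ x ≤ β := by
  have hm := hμ.mean
  have hT0 : (0 : ℝ) < T.card := by exact_mod_cast hT.card_pos
  set φ : X → ℝ := fun z => if τ < ‖W (A.act z x) - W z‖ then 1 else 0 with hφ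
  have hφb : Bdd φ := bdd_ite _
  have h1 : ∀ t ∈ T, μ (fun z => φ (A.act z t)) = μ φ := fun t _ => hμ.inv t φ hφb
  have h2 : (T.card : ℝ) * μ φ = μ (fun z => ∑ t ∈ T, φ (A.act z t)) := by
    rw [(hm.sum T (fun t z => φ (A.act z t)) fun t _ => hφb.comp _).2, Finset.sum_congr rfl h1,
      Finset.sum_const, nsmul_eq_mul]
  have h3 : μ (fun z => ∑ t ∈ T, φ (A.act z t)) ≤ β * T.card := by
    have h4 : μ (fun z => ∑ t ∈ T, φ (A.act z t)) ≤ μ (fun _ => β * T.card) := by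
      refine hm.le (Bdd.sum' T _ fun t _ => hφb.comp _) ⟨|β * T.card|, fun _ => le_rfl⟩ fun z => ?_
      refine le_of_eq_of_le ?_ (h z)
      rw [Finset.card_filter]
      push_cast
      refine Finset.sum_congr rfl fun t _ => ?_
      simp only [hφ, A.mul]
    rwa [hm.const] at h4
  have h5 : (T.card : ℝ) * μ φ ≤ T.card * β := by rw [h2]; linarith
  exact le_of_mul_le_mul_left h5 hT0

end dev

section

variable {S : Type} [Group S] {G : Type} [Group G] {H : Type} [Group H] {Q : Type} {k : ℕ}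

/-- the shapes: `inl p` : `x ↦ p * x`, `inr ν` : `x ↦ ν⁻¹ * x` -/
def shp (κ : S ⊕ S) (x : S) : S := Sum.elim (fun p => p * x) (fun ν => ν⁻¹ * x) κ

/-- the index sets of the shapes -/
def lamS (X1 X2 : Finset S) (κ : S ⊕ S) : Finset S := Sum.elim (fun _ => X2) (fun _ => X1) κ

open Classical in
/-- the output of 615's `hypBox` -/
def HBox (l : S → ℕ) (M' C : ℕ) (Cε ε : ℝ) (R : ℕ) (P X1 X2 : Finset S) : Prop :=
  (P.card : ℝ) ≤ Cε * Real.exp (ε * R) ∧ X1.Nonempty ∧ X2.card ≤ M' * X1.card ∧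
    (∀ x ∈ X1, l x ≤ C * (R + 1)) ∧ (∀ x ∈ X2, l x ≤ C * (R + 1)) ∧ (∀ p ∈ P, l p ≤ C * (R + 1)) ∧
    ∀ s, l s ≤ R → ∃ p ∈ P, ∃ Φ : S → S, (∀ x ∈ X1, Φ x ∈ X2) ∧
      (∀ y ∈ X2, (X1.filter fun x => Φ x = y).card ≤ M') ∧
      ∀ x ∈ X1, l ((s * x)⁻¹ * (p * Φ x)) ≤ C

open Classical in
/-- **The comparison of two good points** `z`, `z * s`, `s = s' * ν`. -/
theorem good_cmp {X : Type} (A : RAct S X) {E : Type} [NormedAddCommGroup E] (W : X → E)
    (l : S → ℕ) (hl : IsLen l) (L : ℝ) (hL : 0 ≤ L)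
    (hW : ∀ z h, ‖W (A.act z h) - W z‖ ≤ L * l h) {M' C C₄ : ℕ} {Cε ε : ℝ} {R₂ : ℕ}
    {P X1 X2 : Finset S} (hb : HBox l M' C Cε ε R₂ P X1 X2) {Nt : Finset S} {τ θ : ℝ}
    (hθ : 0 < θ) (hθ1 : ((M' : ℝ) ^ 2 + 1) * θ < 1) (z : X) (s' ν ν' : S)
    (hz : GoodS A W τ θ (P.disjSum Nt) (lamS X1 X2) shp z)
    (hzs : GoodS A W τ θ (P.disjSum Nt) (lamS X1 X2) shp (A.act z (s' * ν))) (hν' : ν' ∈ Nt)
    (h4 : l (ν * ν'⁻¹) ≤ C₄) (hs' : l s' + C₄ ≤ R₂) :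
    ‖W (A.act z (s' * ν)) - W z‖ ≤ 2 * τ + L * C := by
  obtain ⟨-, hne, hcard, -, -, -, hmatch⟩ := hb
  obtain ⟨p, hp, Φ, h1, h2, h3⟩ := hmatch (s' * (ν * ν'⁻¹)) ((hl.mul _ _).trans (by omega))
  have hX1 : (0 : ℝ) < X1.card := by exact_mod_cast hne.card_pos
  have hX2 : (X2.card : ℝ) ≤ M' * X1.card := by exact_mod_cast hcard
  refine good_close A W l L hL hW τ θ (P.disjSum Nt) (lamS X1 X2) shp z (s' * ν) hz hzs
    (Sum.inr ν') (Sum.inl p) (Finset.inr_mem_disjSum.2 hν') (Finset.inl_mem_disjSum.2 hp) Φ M' C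
    (fun i hi => h1 i hi) (fun i hi => h2 i hi) (fun i hi => ?_) ?_
  · have e : (s' * ν * shp (Sum.inr ν') i)⁻¹ * shp (Sum.inl p) (Φ i) =
        (s' * (ν * ν'⁻¹) * i)⁻¹ * (p * Φ i) := by
      show (s' * ν * (ν'⁻¹ * i))⁻¹ * (p * Φ i) = _
      group
    rw [e]
    exact h3 i hi
  · show (M' : ℝ) * (θ * (X2.card : ℝ)) + θ * (X1.card : ℝ) < (X1.card : ℝ)
    have h5 : (M' : ℝ) * (θ * (X2.card : ℝ)) ≤ M' * (θ * (M' * X1.card)) := by gcongr
    nlinarith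

open Classical in
/-- **Bad points are rare.** -/
theorem mean_bad_le {X : Type} (A : RAct S X) {μ : (X → ℝ) → ℝ} (hμ : InvMean A μ) {E : Type}
    [NormedAddCommGroup E] (W : X → E) (l : S → ℕ) (hl : IsLen l) {M' C : ℕ} {Cε ε : ℝ}
    {R R₂ D : ℕ} {P X1 X2 Nt : Finset S} (hb : HBox l M' C Cε ε R₂ P X1 X2)
    (hD : 2 * (C * (R₂ + 1)) ≤ D * R) {τ θ cA : ℝ} (hθ : 0 < θ)
    (hx : ∀ x, l x ≤ D * R → dev A μ W τ x ≤ Real.exp (-(cA * R)))
    (hν : ∀ ν ∈ Nt, dev A μ W τ ν⁻¹ ≤ Real.exp (-(cA * R))) (hτ : 0 ≤ τ) {CN eN : ℝ}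
    (hN : (Nt.card : ℝ) ≤ CN * Real.exp (eN * R)) (hε : ε * R₂ ≤ cA / 4 * R)
    (heN : eN ≤ cA / 4) (hCε : 0 ≤ Cε) (hCN : 0 ≤ CN)
    (hbig : (Cε + CN) * (2 / θ) ≤ Real.exp (cA / 4 * R)) :
    μ (fun z => if GoodS A W (τ + τ) θ (P.disjSum Nt) (lamS X1 X2) shp z then 0 else 1) ≤
      Real.exp (-(cA / 4 * R)) ^ 2 := by
  obtain ⟨hP, hne, hcard, hl1, hl2, hlP, -⟩ := hb
  have hR0 : (0 : ℝ) ≤ R := Nat.cast_nonneg _
  have hdev : ∀ κ ∈ P.disjSum Nt, ∀ i ∈ lamS X1 X2 κ,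
      dev A μ W (τ + τ) (shp κ i) ≤ 2 * Real.exp (-(cA * R)) := by
    rintro (p | ν) hκ i hi
    · have hp := Finset.inl_mem_disjSum.1 hκ
      have h1 : l (p * i) ≤ D * R := (hl.mul _ _).trans (by
        have := hlP p hp
        have := hl2 i hi
        omega)
      have h2 := (dev_mono A hμ W (by linarith : τ ≤ τ + τ) (p * i)).trans (hx _ h1)
      have h3 := Real.exp_pos (-(cA * R))
      show dev A μ W (τ + τ) (p * i) ≤ _
      linarith
    · have hν' := Finset.inr_mem_disjSum.1 hκ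
      have h1 : l i ≤ D * R := by
        have := hl1 i hi
        omega
      show dev A μ W (τ + τ) (ν⁻¹ * i) ≤ _
      have h2 := dev_mul A hμ W τ τ ν⁻¹ i
      have h3 := hν ν hν'
      have h4 := hx i h1
      linarith
  refine (mean_not_good_le A hμ W (τ + τ) θ (2 * Real.exp (-(cA * R))) hθ _ _ _ hdev
    (by positivity)).trans ?_
  rw [Finset.card_disjSum]
  push_cast
  have h1 : (P.card : ℝ) ≤ Cε * Real.exp (cA / 4 * R) :=
    hP.trans (mul_le_mul_of_nonneg_left (Real.exp_le_exp.2 hε) hCε)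
  have h2 : (Nt.card : ℝ) ≤ CN * Real.exp (cA / 4 * R) :=
    hN.trans (mul_le_mul_of_nonneg_left (Real.exp_le_exp.2
      (mul_le_mul_of_nonneg_right heN hR0)) hCN)
  calc ((P.card : ℝ) + Nt.card) * (2 * Real.exp (-(cA * R)) / θ)
      ≤ (Cε * Real.exp (cA / 4 * R) + CN * Real.exp (cA / 4 * R)) *
        (2 * Real.exp (-(cA * R)) / θ) := by gcongr
    _ = ((Cε + CN) * (2 / θ)) * (Real.exp (cA / 4 * R) * Real.exp (-(cA * R))) := by ring
    _ ≤ Real.exp (cA / 4 * R) * (Real.exp (cA / 4 * R) * Real.exp (-(cA * R))) := by gcongr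
    _ = Real.exp (-(cA / 4 * R)) ^ 2 := by
        rw [← Real.exp_add, ← Real.exp_add, ← Real.exp_nat_mul]
        congr 1
        push_cast
        ring

open Classical in
/-- **Z3, route A, neutral nets.**  INPUT at one scale, exponentially good neutral displacements, the
description of slab paths and the boxes of 615 give `Cmp`. -/
theorem cmp_A3 (l : S → ℕ) (hl : IsLen l) (N : Subgroup S) [N.Normal] (c : ℕ)
    (hnil : lcs N c = ⊥) (p Cg : ℕ) (hCg : 1 ≤ Cg) (hgen : Gen l N p Cg) (C1 M : ℕ)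
    (hS : HasMean S) (hG : HasMean G) (ρ : Rounding S G Q) (lG : G → ℕ) (C2 : ℕ)
    (hlG : ∀ q s, lG (ρ.fl (ρ.r q * s)) ≤ C2 * l s) (Cr : ℕ) (hr : ∀ q, l (ρ.r q) ≤ Cr)
    (η : G →* Multiplicative (Fin k → ℤ)) (F : H → G) (F' : G → H) (hF : Coarse F)
    (hFF : CloseId (F' ∘ F)) (hFF' : CloseId (F ∘ F'))
    (L0 : ℝ) (hL0 : 0 ≤ L0)
    (hWL : ∀ z g, ‖dispF η F F' ((prodAct H G).act z g) - dispF η F F' z‖ ≤ L0 * lG g)
    (Ne : ℝ → ℕ → Set S) (hNeinv : ∀ δ R, ∀ ν ∈ Ne δ R, ν⁻¹ ∈ Ne δ R)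
    (hNemono : ∀ δ δ' R, δ ≤ δ' → Ne δ R ⊆ Ne δ' R)
    (hslab : ∃ C' : ℕ, ∀ (A : ℕ) (δ : ℝ), 0 < δ → ∃ c : ℝ, 0 < c ∧ ∃ R1 : ℕ, ∀ R : ℕ, R1 ≤ R →
      ∀ j : ℕ, (j : ℝ) ≤ Real.exp (c * R) → ∀ z : ℕ → S, (∀ i < j, l ((z i)⁻¹ * z (i + 1)) ≤ A) →
      (∀ i ≤ j, ∀ a, |htG η (ρ.fl (z i)) a - htG η (ρ.fl (z 0)) a| ≤ R) →
      ∃ s', ∃ ν ∈ Ne δ R, (z 0)⁻¹ * z j = s' * ν ∧ l s' ≤ C' * R)
    (hnet : ∃ C₄ : ℕ, ∃ C₅ : ℝ, 0 < C₅ ∧ ∀ δ : ℝ, 0 < δ → ∀ R : ℕ, ∃ Nt : Finset S,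
      (Nt.card : ℝ) ≤ C₅ * Real.exp (C₅ * δ * R) ∧ (∀ ν ∈ Nt, ν ∈ Ne δ R) ∧
      ∀ ν ∈ Ne δ R, ∃ ν' ∈ Nt, l (ν * ν'⁻¹) ≤ C₄)
    (hdev : ∀ ξ : ℝ, 0 < ξ → ∃ c₁ δ₀ : ℝ, 0 < c₁ ∧ 0 < δ₀ ∧ ∃ R1 : ℕ, ∀ R : ℕ, R1 ≤ R →
      ∃ T : Finset S, T.Nonempty ∧ ∀ (h : H) (Y : S), ∀ ν ∈ Ne δ₀ R,
        ((T.filter fun t => ξ * R < ‖dispF η F F' (h, ρ.fl (Y * t * ν)) -
          dispF η F F' (h, ρ.fl (Y * t))‖).card : ℝ) ≤ Real.exp (-(c₁ * R)) * T.card)
    (hhb : ∃ M' C₃ : ℕ, ∀ ε : ℝ, 0 < ε → ∃ Cε : ℝ, ∀ R : ℕ, ∃ P X1 X2 : Finset S,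
      HBox l M' C₃ Cε ε R P X1 X2)
    (hinput : ∀ η0 ε0 : ℝ, 0 < η0 → 0 < ε0 → ∃ (R1 : ℕ) (I : Type) (φ : I → S)
      (B Bs : Finset I), 1 ≤ R1 ∧ BoxesI φ l N C1 M R1 B Bs ∧
      ∀ h g, FlatI (selfAct S) φ l (fun s => dispF η F F' (h, g * ρ.fl s)) R1 B (η0 * R1) ε0) :
    ∃ ν : (H → ℝ) → ℝ, IsMean ν ∧ (∀ (g : H) f, Bdd f → ν (fun x => f (x * g)) = ν f) ∧
      ∀ B : Set H, B.Finite → Cmp ν (hts η F) B := by
  obtain ⟨μ, hμ, hinv⟩ := hG
  obtain ⟨ν, C, hν, hνinv, hC, htr⟩ := exists_transport F F' hF hFF hFF' hμ hinv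
  refine ⟨ν, hν, hνinv, fun B hBf => ?_⟩
  -- the steps in `G`
  obtain ⟨BG, hBGf, hBG⟩ := hF B hBf
  set nj : G → ℕ := fun g => l (ρ.j g) with hnj
  set A : ℕ := 2 * Cr + ∑ g ∈ hBGf.toFinset, nj g with hA
  obtain ⟨Cw, hCw⟩ := exists_close_W η hF hFF
  obtain ⟨m, hm, hminv⟩ := hS
  have hi := invMean_ind ρ (prodAct H G) (invMean_prod hν hμ hinv) hm hminv
  obtain ⟨C', hslab⟩ := hslab
  obtain ⟨M', C₃, hhb⟩ := hhb
  obtain ⟨C₄, C₅, hC₅, hnet⟩ := hnet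
  set D : ℕ := 2 * C₃ * (C' + C₄ + 1) + 1 with hD
  have hD1 : (1 : ℝ) ≤ D := by rw [hD]; push_cast; linarith [(by positivity : (0 : ℝ) ≤ 2 * C₃ * (C' + C₄ + 1))]
  obtain ⟨η0, ε0, hη0, hε0, HC⟩ := concI (E := Fin k → ℝ) l hl N c hnil p Cg hCg hgen C1 M
    (L0 * C2) (by positivity) (1 / 64 / D) (by positivity)
  obtain ⟨R1, I, φ, B0, Bs, hR1, hbox', hflat⟩ := hinput η0 ε0 hη0 hε0
  obtain ⟨R0, cc, hcc, HC'⟩ := HC R1 I φ B0 Bs hR1 hbox'
  set W' : (H × G) × Q → (Fin k → ℝ) := fun z => dispF η F F' z.1 with hW'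
  have hlipW : ∀ z s, ‖W' ((ind ρ (prodAct H G)).act z s) - W' z‖ ≤ (L0 * C2) * l s :=
    fun z s => lip_ind ρ (prodAct H G) _ L0 hL0 lG l C2 hWL hlG z s
  have hflat' : FlatI (ind ρ (prodAct H G)) φ l W' R1 B0 (η0 * R1) ε0 :=
    flat_ind ρ φ (prodAct H G) _ l R1 B0 _ _ fun x => hflat x.1 x.2
  have hdevx : ∀ R : ℕ, R0 ≤ R → ∀ x, l x ≤ D * R →
      dev (ind ρ (prodAct H G)) (indMean (qMean ρ m) (prodMean ν μ)) W' (1 / 64 * R) x ≤
        Real.exp (-(cc * R)) := by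
    intro R hR x hx
    have h1 := HC' _ (ind ρ (prodAct H G)) _ W' hi hlipW hflat' (D * R)
      (by
        have : 1 ≤ D := by omega
        nlinarith) x hx
    have e1 : 1 / 64 / (D : ℝ) * ((D * R : ℕ) : ℝ) = 1 / 64 * R := by
      push_cast
      field_simp
    rw [e1] at h1
    refine h1.trans (Real.exp_le_exp.2 ?_)
    push_cast
    have h2 : (R : ℝ) ≤ D * R := by nlinarith [(Nat.cast_nonneg R : (0 : ℝ) ≤ R)]
    have := mul_le_mul_of_nonneg_left h2 hcc.le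
    linarith
  obtain ⟨c₁, δ₀, hc₁, hδ₀, R1d, hdev⟩ := hdev (1 / 64) (by norm_num)
  set cA : ℝ := min cc c₁ with hcA
  have hcA0 : 0 < cA := lt_min hcc hc₁
  set ε : ℝ := cA / (8 * (C' + C₄ + 1)) with hε
  have hε0' : 0 < ε := by positivity
  set δ : ℝ := min δ₀ (cA / (8 * C₅)) with hδ
  have hδ0 : 0 < δ := by positivity
  obtain ⟨Cε, hboxε⟩ := hhb ε hε0'
  choose P X1 X2 hHB using fun R : ℕ => hboxε ((C' + C₄) * R)
  choose Nt hN1 hN2 hN3 using fun R : ℕ => hnet δ hδ0 R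
  obtain ⟨cN, hcN, R1N, hN⟩ := hslab A δ hδ0
  set θ : ℝ := 1 / (2 * ((M' : ℝ) ^ 2 + 1)) with hθ
  have hθ0 : 0 < θ := by positivity
  have hθ1 : ((M' : ℝ) ^ 2 + 1) * θ < 1 := by
    rw [hθ]
    have : ((M' : ℝ) ^ 2 + 1) * (1 / (2 * ((M' : ℝ) ^ 2 + 1))) = 1 / 2 := by
      field_simp
    rw [this]; norm_num
  obtain ⟨R2, hR2⟩ := exists_nat_ge ((|Cε| + C₅) * (2 / θ) * (4 / cA))
  have hdevν : ∀ R : ℕ, R1d ≤ R → ∀ ν' ∈ Nt R,
      dev (ind ρ (prodAct H G)) (indMean (qMean ρ m) (prodMean ν μ)) W' (1 / 64 * R) ν'⁻¹ ≤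
        Real.exp (-(c₁ * R)) := by
    intro R hR ν' hν'
    obtain ⟨T, hT, hT'⟩ := hdev R hR
    refine dev_le_of_avg _ hi W' _ _ _ T hT fun z => ?_
    have h1 := hT' z.1.1 (ρ.j z.1.2 * ρ.r z.2) ν'⁻¹
      (hNemono _ _ _ (min_le_left _ _) (hNeinv _ _ _ (hN2 R ν' hν')))
    refine le_of_eq_of_le ?_ h1
    congr 2
    refine Finset.filter_congr fun t _ => ?_
    have e1 : ∀ s, W' ((ind ρ (prodAct H G)).act z s) =
        dispF η F F' (z.1.1, ρ.fl (ρ.j z.1.2 * ρ.r z.2 * s)) := by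
      intro s
      show dispF η F F' (z.1.1, z.1.2 * ρ.fl (ρ.r z.2 * s)) = _
      rw [mul_assoc, ρ.fl_j]
    rw [e1, e1]
    simp only [mul_assoc]
  have hdense : ∀ R : ℕ, R0 + R1d + R2 + 1 ≤ R →
      ν (fun x => if x ∈ Gd ν F (Good0 ρ (dispF η F F') (1 / 64 * R + 1 / 64 * R) θ
        ((P R).disjSum (Nt R)) (lamS (X1 R) (X2 R)) shp) (Real.exp (-(cA / 4 * R)))
        then 0 else 1) ≤ C * Real.exp (-(cA / 4 * R)) := by
    intro R hR
    have hR1' : (1 : ℝ) ≤ R := by exact_mod_cast (by omega : 1 ≤ R)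
    have hR0' : (0 : ℝ) ≤ R := by linarith
    refine mean_not_Gd hν hμ hC htr _ (Real.exp_pos _) ?_
    refine (prodMean_not_Good0_le ρ hν hμ hinv hm hminv (dispF η F F') _ θ _ _ _).trans ?_
    refine mean_bad_le (ind ρ (prodAct H G)) hi W' l hl (hHB R) (R := R) (D := D) ?_ hθ0
      (fun x hx => (hdevx R (by omega) x hx).trans (Real.exp_le_exp.2 ?_))
      (fun ν' hν' => (hdevν R (by omega) ν' hν').trans (Real.exp_le_exp.2 ?_)) (by positivity)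
      (hN1 R) ?_ ?_ ?_ hC₅.le ?_
    · rw [hD]
      have : 1 ≤ R := by omega
      nlinarith [Nat.zero_le (C₃ * R), Nat.zero_le (C₃ * (C' + C₄))]
    · have := mul_le_mul_of_nonneg_right (min_le_left cc c₁) hR0'
      linarith
    · have := mul_le_mul_of_nonneg_right (min_le_right cc c₁) hR0'
      linarith
    · push_cast
      rw [hε, div_mul_eq_mul_div, div_le_iff₀ (by positivity)]
      have h1 : (0 : ℝ) ≤ (C' + C₄) * (cA * R) := by positivity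
      have h2 : 0 ≤ cA * R := by positivity
      nlinarith
    · have h1 : δ ≤ cA / (8 * C₅) := min_le_right _ _
      rw [le_div_iff₀ (by positivity)] at h1
      nlinarith
    · by_contra hneg
      push Not at hneg
      have h1 := (hHB 0).1
      have h2 : Cε * Real.exp (ε * (((C' + C₄) * 0 : ℕ) : ℝ)) < 0 :=
        mul_neg_of_neg_of_pos hneg (Real.exp_pos _)
      have h3 : (0 : ℝ) ≤ ((P 0).card : ℝ) := Nat.cast_nonneg _
      linarith
    · have h1 : (|Cε| + C₅) * (2 / θ) * (4 / cA) ≤ R :=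
        hR2.trans (by exact_mod_cast (by omega : R2 ≤ R))
      have h2 : (|Cε| + C₅) * (2 / θ) ≤ cA / 4 * R := by
        have h3 : (|Cε| + C₅) * (2 / θ) = (|Cε| + C₅) * (2 / θ) * (4 / cA) * (cA / 4) := by
          field_simp
        rw [h3]
        nlinarith
      have h4 := Real.add_one_le_exp (cA / 4 * R)
      have h5 : (Cε + C₅) * (2 / θ) ≤ (|Cε| + C₅) * (2 / θ) := by
        gcongr
        exact le_abs_self _
      linarith
  obtain ⟨R3, hR3⟩ := exists_nat_ge (16 * (L0 * C2 * C₃))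
  refine cmp_of_gd hν hνinv F (htG η) B BG hBG (dispF η F F') Cw (fun h x a => hCw h x a)
    (fun R => Good0 ρ (dispF η F F') (1 / 64 * R + 1 / 64 * R) θ ((P R).disjSum (Nt R))
      (lamS (X1 R) (X2 R)) shp) C (cA / 4) (by positivity) (R0 + R1d + R2 + 1) hdense
    cN hcN (R1N + R3 + 1) ?_
  intro R hR j hjR h z hz hgood hconf a
  -- lift to `S`
  have hq : ∀ i, ∃ q, i ≤ j → GoodS (selfAct S) (fun s => dispF η F F' (h, ρ.fl s))
      (1 / 64 * R + 1 / 64 * R) θ ((P R).disjSum (Nt R)) (lamS (X1 R) (X2 R)) shp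
      (ρ.j (z i) * ρ.r q) := by
    intro i
    by_cases hi : i ≤ j
    · obtain ⟨q, hq⟩ := (good0_iff ρ (dispF η F F') _ θ _ _ _ h (z i)).1 (hgood i hi)
      exact ⟨q, fun _ => hq⟩
    · exact ⟨ρ.π 1, fun h => absurd h hi⟩
  choose q hq using hq
  have hfl : ∀ i, ρ.fl (ρ.j (z i) * ρ.r (q i)) = z i := fun i => by
    rw [ρ.fl_j, ρ.fl_r, mul_one]
  set Z : ℕ → S := fun i => ρ.j (z i) * ρ.r (q i) with hZ
  have hstep : ∀ i < j, l ((Z i)⁻¹ * Z (i + 1)) ≤ A := by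
    intro i hi
    have e : (ρ.j (z i) * ρ.r (q i))⁻¹ * (ρ.j (z (i + 1)) * ρ.r (q (i + 1)))
        = (ρ.r (q i))⁻¹ * (ρ.j ((z i)⁻¹ * z (i + 1)) * ρ.r (q (i + 1))) := by
      rw [map_mul, map_inv]; group
    rw [hZ]
    simp only
    rw [e]
    refine (hl.mul _ _).trans ?_
    rw [hl.inv]
    have h1 := hr (q i)
    have h2 := hr (q (i + 1))
    have h3 := hl.mul (ρ.j ((z i)⁻¹ * z (i + 1))) (ρ.r (q (i + 1)))
    have h4 : l (ρ.j ((z i)⁻¹ * z (i + 1))) = nj ((z i)⁻¹ * z (i + 1)) := rfl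
    have h5 : nj ((z i)⁻¹ * z (i + 1)) ≤ ∑ g ∈ hBGf.toFinset, nj g :=
      Finset.single_le_sum (f := nj) (fun _ _ => Nat.zero_le _)
        (by rw [Set.Finite.mem_toFinset]; exact hz i hi)
    omega
  obtain ⟨s', ν', hν', hs, hls⟩ := hN R (by omega) j hjR Z hstep (fun i hi a => by
    rw [hfl, hfl]
    exact hconf i hi a)
  obtain ⟨ν'', hν'', h4⟩ := hN3 R ν' hν'
  have hlipS : ∀ x s, ‖dispF η F F' (h, ρ.fl ((selfAct S).act x s)) - dispF η F F' (h, ρ.fl x)‖ ≤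
      (L0 * C2) * l s := by
    intro x s
    have h1 := hWL (h, ρ.fl x) ((ρ.fl x)⁻¹ * ρ.fl (x * s))
    have h2 : (prodAct H G).act (h, ρ.fl x) ((ρ.fl x)⁻¹ * ρ.fl (x * s)) = (h, ρ.fl (x * s)) := by
      show (h, ρ.fl x * ((ρ.fl x)⁻¹ * ρ.fl (x * s))) = _
      rw [mul_inv_cancel_left]
    rw [h2] at h1
    refine h1.trans ?_
    have h3 := hlG (ρ.π x) s
    rw [ρ.step_fl] at h3
    rw [mul_assoc]
    refine mul_le_mul_of_nonneg_left ?_ hL0
    exact_mod_cast h3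
  have hmain := good_cmp (selfAct S) (fun s => dispF η F F' (h, ρ.fl s)) l hl (L0 * C2)
    (by positivity) hlipS (hHB R) hθ0 hθ1 (Z 0) s' ν' ν'' (hq 0 (Nat.zero_le _)) (by
      have e : (selfAct S).act (Z 0) (s' * ν') = Z j := by
        show Z 0 * (s' * ν') = Z j
        rw [← hs, mul_inv_cancel_left]
      rw [e]
      exact hq j le_rfl) hν'' h4 (by
      have : 1 ≤ R := by omega
      nlinarith)
  have e : (selfAct S).act (Z 0) (s' * ν') = Z j := by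
    show Z 0 * (s' * ν') = Z j
    rw [← hs, mul_inv_cancel_left]
  simp only [e] at hmain
  have h5 := (norm_le_pi_norm (dispF η F F' (h, ρ.fl (Z j)) - dispF η F F' (h, ρ.fl (Z 0))) a).trans
    hmain
  rw [hZ] at h5
  simp only [hfl] at h5
  rw [Real.norm_eq_abs] at h5
  refine h5.trans ?_
  have h6 : 16 * (L0 * C2 * C₃) ≤ R := hR3.trans (by exact_mod_cast (by omega : R3 ≤ R))
  linarith

end

end Vale.Agent.P188.H789

end

section

/-!
# From the real model to the group `H`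

`M : RModel S Γ V k`, a coarse equivalence `F : H → Γ`, `F' : Γ → H`, the maps
`Psi h z = F (h * F' z)` of `Γ`.
-/

set_option linter.all false

universe u v w

open Pointwise
open Vale.Agent.P188.Z1 (RModel Ht)
open Vale.Agent.P188.H530 (hgt)

namespace Vale.Agent.P188.H789

/-- The maps of the family. -/
def Psi {H G : Type*} [Group H] (F : H → G) (F' : G → H) (h : H) (z : G) : G := F (h * F' z)

/-- What the end needs about the model group. -/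
structure GoodPair (Γ : Type) [Group Γ] (k : ℕ) (η : Γ →* Multiplicative (Fin k → ℤ)) :
    Prop where
  surj : Function.Surjective η
  polyZ : ∃ m, PolyZ m Γ
  ker_polyZ : ∃ m, PolyZ m η.ker
  nil : Group.IsNilpotent η.ker

section

variable {S : Type} [Group S] [MeasurableSpace S] {Γ : Type} [Group Γ]
  {V : Type} [AddCommGroup V] [Module ℝ V] {k : ℕ} (M : RModel S Γ V k)

theorem closure_A : Subgroup.closure M.A = ⊤ := by
  rw [eq_top_iff]
  intro g _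
  exact Bl_subset_closure _ _ (M.wordG g)

theorem len_Bl {n : ℕ} {g : Γ} (hg : g ∈ Bl M.A n) : (M.l (M.inG g) : ℝ) ≤ M.C0 * n := by
  obtain ⟨l, h1, h2, rfl⟩ := hg
  have key : ∀ l : List Γ, (∀ a ∈ l, a ∈ M.A ∨ a⁻¹ ∈ M.A) →
      (M.l (M.inG l.prod) : ℝ) ≤ M.C0 * l.length := by
    intro l
    induction l with
    | nil =>
      intro _
      rw [List.prod_nil, map_one, M.len.one]
      simp
    | cons a l ih =>
      intro hl
      have h3 := ih (fun b hb => hl b (List.mem_cons_of_mem _ hb))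
      have h4 : (M.l (M.inG a) : ℝ) ≤ M.C0 := by
        rcases hl a (by simp) with h | h
        · exact M.A_len a h
        · have := M.A_len _ h
          rwa [map_inv, M.len.inv] at this
      rw [List.prod_cons, map_mul, List.length_cons]
      have h5 : (M.l (M.inG a * M.inG l.prod) : ℝ) ≤ M.l (M.inG a) + M.l (M.inG l.prod) := by
        exact_mod_cast M.len.mul _ _
      push_cast
      linarith
  refine (key l h2).trans ?_
  have := M.one_le_C0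
  have h3 : (l.length : ℝ) ≤ n := by exact_mod_cast h1
  nlinarith

theorem len_finite {B : Set Γ} (hB : B.Finite) : ∃ c : ℝ, 0 ≤ c ∧ ∀ b ∈ B,
    (M.l (M.inG b) : ℝ) ≤ c := by
  obtain ⟨c, hc⟩ := (hB.image fun b => M.l (M.inG b)).bddAbove
  exact ⟨c, Nat.cast_nonneg _, fun b hb => by exact_mod_cast hc ⟨b, hb, rfl⟩⟩

theorem ceil_le (x : ℕ) : ((⌈M.C0 * (x + 1)⌉₊ : ℕ) : ℝ) ≤ 2 * M.C0 * (x + 1) := by
  have h0 := M.one_le_C0
  have h1 : (0 : ℝ) ≤ x := Nat.cast_nonneg _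
  have h2 : (0 : ℝ) ≤ M.C0 * (x + 1) := by positivity
  have h3 := Nat.ceil_lt_add_one h2
  nlinarith

variable {H : Type} [Group H] {F : H → Γ} {F' : Γ → H}

/-- **The family is uniformly quasi-isometric.** -/
theorem fam_QIm [Group.FG H] (hF : Coarse F) (hF' : Coarse F') (h1 : CloseId (F' ∘ F))
    (h2 : CloseId (F ∘ F')) :
    ∃ K : ℝ, ∀ h : H, M.QIm K (Psi F F' h) (Psi F F' h⁻¹) := by
  classical
  obtain ⟨T, hTf, hT⟩ := exists_fin_gen (G := H) inferInstance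
  have hAf := M.md.fin
  obtain ⟨c', hc'⟩ := _root_.Agent.P188.H428.coarse_Bl hF' hAf hT
  obtain ⟨c, hc⟩ := _root_.Agent.P188.H428.coarse_Bl hF hTf (closure_A M)
  obtain ⟨E, hE, hE'⟩ := h1
  obtain ⟨E₂, hE₂, hE₂'⟩ := h2
  obtain ⟨B, hB, hB'⟩ := hF E hE
  obtain ⟨c₂, hc₂0, hc₂⟩ := len_finite M (hE₂.mul hB)
  have hC0 := M.one_le_C0
  have hlip : ∀ (h : H) (g y : Γ), (M.l (M.inG ((Psi F F' h g)⁻¹ * Psi F F' h (g * y))) : ℝ) ≤
      (2 * M.C0 ^ 2 * c * c' + c₂) * (M.l (M.inG y) + 1) := by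
    intro h g y
    have hy := M.wordG y
    have e1 : (F' g)⁻¹ * F' (g * y) ∈ Bl T (c' * ⌈M.C0 * (M.l (M.inG y) + 1)⌉₊) := by
      refine hc' _ g (g * y) ?_
      rw [inv_mul_cancel_left]
      exact hy
    have e2 : (Psi F F' h g)⁻¹ * Psi F F' h (g * y) ∈
        Bl M.A (c * (c' * ⌈M.C0 * (M.l (M.inG y) + 1)⌉₊)) := by
      refine hc _ (h * F' g) (h * F' (g * y)) ?_
      have : (h * F' g)⁻¹ * (h * F' (g * y)) = (F' g)⁻¹ * F' (g * y) := by group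
      rw [this]
      exact e1
    have e3 := len_Bl M e2
    refine e3.trans ?_
    push_cast
    have e4 := ceil_le M (M.l (M.inG y))
    have e5 : M.C0 * (c * (c' * ((⌈M.C0 * (M.l (M.inG y) + 1)⌉₊ : ℕ) : ℝ))) ≤
        M.C0 * (c * (c' * (2 * M.C0 * (M.l (M.inG y) + 1)))) := by
      have : (0 : ℝ) ≤ M.C0 := by linarith
      gcongr
    refine e5.trans ?_
    have e6 : M.C0 * (c * (c' * (2 * M.C0 * ((M.l (M.inG y) : ℝ) + 1)))) =
        (2 * M.C0 ^ 2 * c * c') * (M.l (M.inG y) + 1) := by ring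
    rw [e6]
    have e7 : (0 : ℝ) ≤ (M.l (M.inG y) : ℝ) + 1 := by positivity
    nlinarith
  have hinv : ∀ (h : H) (g : Γ), (M.l (M.inG (g⁻¹ * Psi F F' h⁻¹ (Psi F F' h g))) : ℝ) ≤
      2 * M.C0 ^ 2 * c * c' + c₂ := by
    intro h g
    have e1 : g⁻¹ * Psi F F' h⁻¹ (Psi F F' h g) ∈ E₂ * B := by
      have e2 : g⁻¹ * Psi F F' h⁻¹ (Psi F F' h g) = (g⁻¹ * F (F' g)) *
          ((F (F' g))⁻¹ * F (h⁻¹ * F' (F (h * F' g)))) := by
        unfold Psi; group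
      rw [e2]
      refine Set.mul_mem_mul (hE₂' g) (hB' _ _ ?_)
      have e3 : (F' g)⁻¹ * (h⁻¹ * F' (F (h * F' g))) = (h * F' g)⁻¹ * F' (F (h * F' g)) := by
        group
      rw [e3]
      exact hE' (h * F' g)
    refine (hc₂ _ e1).trans ?_
    have : (0 : ℝ) ≤ 2 * M.C0 ^ 2 * c * c' := by positivity
    linarith
  refine ⟨2 * M.C0 ^ 2 * c * c' + c₂, fun h => ⟨hlip h, hlip h⁻¹, hinv h, fun g => ?_⟩⟩
  have := hinv h⁻¹ g
  rwa [inv_inv] at this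

end

end Vale.Agent.P188.H789

end
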