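import Vale.Agent.P188.R.G054
import Vale.Agent.P188.R.G045
import Vale.Agent.P188.R.G044
import Vale.Agent.P188.R.G070
import Vale.Agent.P188.R.G073

section

/-!
The transfer of the generator of the top cohomology with compact supports to a subgroup of
finite index is not a coboundary.
-/

universe u v w

namespace Vale.Agent.P188.H882

open Finsupp Pointwise

/-- The package of operators, with control. -/
structure Pkg (H : Type*) [Group H] (n : ℕ) (m : ℤ) (s Θ : Ch H →ₗ[ℤ] Ch H) (A : Set H) :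
    Prop where
  pos : 0 < m
  s_eq : ∀ (g : H) (u : Ch H), s (act g u) = act g (s u)
  s_nil : s (single [] 1) = single [] 1
  s_mem : ∀ q ≤ n + 2, ∀ u ∈ Sp (Gr q : Set (List H)), s u ∈ Sp (Ctl A ∩ Gr q)
  s_bd : ∀ q ≤ n + 2, ∀ u ∈ Sp (Gr q : Set (List H)), bd (s u) = s (bd u)
  t_eq : ∀ (g : H) (u : Ch H), Θ (act g u) = act g (Θ u)
  t_mem : ∀ u ∈ Sp (Gr (n + 1) : Set (List H)), Θ u ∈ Sp (Ctl A ∩ Gr (n + 2))
  t_bd : ∀ u ∈ Sp (Gr (n + 1) : Set (List H)), bd u = 0 → bd (Θ u) = m • s u
  fin : A.Finite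

lemma exists_pkg {H Z : Type} [Group H] [Group Z] {n : ℕ}
    (hc : CoarseEquiv H Z) (hZ : PolyZ n Z) : ∃ m s Θ A, Pkg H n m s Θ A := by
  obtain ⟨A, hA, s, hs_eq, hs_nil, hs_mem, hs_bd⟩ :=
    exists_compress (UA_of_coarseEquiv hc hZ) (n + 2)
  obtain ⟨m, hm, k, hk_eq, hk_mem, hk_bd⟩ := exists_integral_contraction hc hZ A hA
  have hs_mem' : ∀ q ≤ n + 2, ∀ u ∈ Sp (Gr q : Set (List H)), s u ∈ Sp (Gr q) :=
    fun q hq u hu => Sp_mono Set.inter_subset_right (hs_mem q hq u hu)
  have hk0 : k (single ([] : List H) 1) = 0 ∨ True := Or.inr trivial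
  obtain ⟨B, hB, hkB⟩ : ∃ B : Set H, B.Finite ∧
      ∀ u ∈ Sp (Ctl A ∩ Gr (n + 1)), (k ∘ₗ flt (n + 1)) u ∈ Sp (Ctl B ∩ Gr (n + 2)) := by
    refine (loc_equiv (q := n + 1) (q' := n + 2) (T := k ∘ₗ flt (n + 1)) ?_ ?_ ?_).mem hA
    · intro g u
      rw [LinearMap.comp_apply, LinearMap.comp_apply, flt_act, hk_eq]
    · intro u hu
      rw [LinearMap.comp_apply, flt_eq hu]
      exact hk_mem u hu
    · intro c _
      rw [LinearMap.comp_apply, flt_single, if_neg (by simp), map_zero, map_zero]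
  refine ⟨m, s, k ∘ₗ s, A ∪ B, hm, hs_eq, hs_nil, ?_, hs_bd, ?_, ?_, ?_, hA.union hB⟩
  · intro q hq u hu
    apply Sp_mono _ (hs_mem q hq u hu)
    exact Set.inter_subset_inter_left _ (Ctl_mono Set.subset_union_left)
  · intro g u
    rw [LinearMap.comp_apply, LinearMap.comp_apply, hs_eq, hk_eq]
  · intro u hu
    have := hkB (s u) (hs_mem _ (by omega) u hu)
    rw [LinearMap.comp_apply, flt_eq (hs_mem' _ (by omega) u hu)] at this
    apply Sp_mono _ this
    exact Set.inter_subset_inter_left _ (Ctl_mono Set.subset_union_right)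
  · intro u hu hbu
    have hw : cns (1 : H) u ∈ Sp (Gr (n + 2) : Set (List H)) :=
      cns_mem (fun l hl => by simpa [Gr] using hl) hu
    have hw' : bd (cns (1 : H) u) = u := by rw [bd_cns, hbu, map_zero, sub_zero]
    have h1 : s u = bd (s (cns 1 u)) := by rw [hs_bd _ le_rfl _ hw, hw']
    rw [LinearMap.comp_apply, h1, hk_bd _ (hs_mem _ le_rfl _ hw)]

section SumP

variable {H : Type} [Group H]

/-- The support. -/
noncomputable def rsupp (x : RG H) : Finset H := Finsupp.support (M := ℤ) x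

omit [Group H] in
lemma mem_rsupp {x : RG H} {g : H} : g ∈ rsupp x ↔ cf g x ≠ 0 :=
  Finsupp.mem_support_iff (M := ℤ) (f := x)

open Classical in
/-- The sum of the coefficients in `P`. -/
noncomputable def sumP (P : Subgroup H) : RG H →+ ℤ := rgl (fun g => if g ∈ P then 1 else 0)

open Classical in
lemma sumP_eq (P : Subgroup H) (x : RG H) :
    sumP P x = ∑ g ∈ ((rsupp x).filter (fun g => g ∈ P)), cf g x := by
  have h : sumP P x = ∑ g ∈ rsupp x, cf g x • (if g ∈ P then (1 : ℤ) else 0) := rfl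
  rw [h, Finset.sum_filter]
  apply Finset.sum_congr rfl
  intro g _
  split_ifs
  · rw [smul_eq_mul, mul_one]
  · rw [smul_zero]

lemma sumP_single (P : Subgroup H) (x : RG H) (g₀ : H) (hg : g₀ ∈ P)
    (h : ∀ g ∈ P, g ≠ g₀ → cf g x = 0) : sumP P x = cf g₀ x := by
  classical
  rw [sumP_eq]
  apply Finset.sum_eq_single g₀
  · intro g hg' hne
    rw [Finset.mem_filter] at hg'
    exact h g hg'.2 hne
  · intro hn
    rw [Finset.mem_filter] at hn
    by_contra h0
    apply hn
    refine ⟨?_, hg⟩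
    rw [mem_rsupp]
    exact h0

end SumP

section Core

variable {H : Type} [Group H] {n : ℕ} {κ : Ch H →ₗ[ℤ] ℤ}

/-- The part in `P` of an element, for a transversal. -/
lemma exists_part (P : Subgroup H) [P.FiniteIndex] : ∃ (p : H → H) (R : Set H), R.Finite ∧
    (∀ x, p x ∈ P) ∧ (∀ x, (p x)⁻¹ * x ∈ R) ∧ (∀ h ∈ P, ∀ x, p (h * x) = h * p x) ∧
    ∀ h ∈ P, ∀ x, h⁻¹ * x ∈ R → h = p x := by
  obtain ⟨T, hT, _⟩ := P.exists_isComplement_right 1
  have hu := hT.existsUnique
  choose f hf hf' using hu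
  simp only at hf hf'
  have key : ∀ h ∈ P, ∀ x, h⁻¹ * x ∈ T → h = ((f x).1 : H) := by
    intro h hh x hx
    have := hf' x (⟨h, hh⟩, ⟨h⁻¹ * x, hx⟩) (by simp)
    rw [← this]
  refine ⟨fun x => ((f x).1 : H), T, hT.finite_right, fun x => (f x).1.2, ?_, ?_, key⟩
  · intro x
    have h1 := hf x
    have h2 : ((f x).1 : H)⁻¹ * x = (f x).2 := by
      rw [inv_mul_eq_iff_eq_mul]; exact h1.symm
    rw [h2]
    exact (f x).2.2
  · intro h hh x
    symm
    apply key _ (P.mul_mem hh (f x).1.2)
    have h1 := hf x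
    have h2 : (h * ((f x).1 : H))⁻¹ * (h * x) = (f x).2 := by
      have h3 : (h * ((f x).1 : H))⁻¹ * (h * x) = ((f x).1 : H)⁻¹ * x := by group
      rw [h3, inv_mul_eq_iff_eq_mul]; exact h1.symm
    rw [h2]
    exact (f x).2.2

/-- Coordinates are functionals of finite support. -/
lemma fs_coord {q : ℕ} {l : List H} (hl : l ≠ []) : FS q (Finsupp.lapply l : Ch H →ₗ[ℤ] ℤ) := by
  refine ⟨?_, fun A _ => ?_⟩
  · rw [Finsupp.lapply_apply]
    exact Finsupp.single_eq_of_ne hl
  · apply (Set.finite_singleton l).subset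
    rintro l' ⟨_, h⟩
    rw [Finsupp.lapply_apply] at h
    by_contra hne
    exact h (Finsupp.single_eq_of_ne (fun h' => hne h'.symm))

lemma kap_mem {s : Ch H →ₗ[ℤ] Ch H} {Q : ℕ}
    (hs : ∀ q ≤ Q, ∀ u ∈ Sp (Gr q : Set (List H)), s u ∈ Sp (Gr q)) :
    ∀ q ≤ Q, ∀ u ∈ Sp (Gr q : Set (List H)), kap s q u ∈ Sp (Gr (q + 1) : Set (List H)) := by
  intro q
  induction q with
  | zero =>
    intro _ u _
    have : kap s 0 u = 0 := rfl
    rw [this]
    exact Submodule.zero_mem _
  | succ q ih =>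
    intro hq u hu
    apply map_mem_of_Sp _ hu
    intro l hl
    rcases l with _ | ⟨x, t⟩
    · simp [Gr] at hl
    · rw [kap_succ_single]
      apply cns_mem (p := Gr (q + 1)) (fun l hl => by rw [mem_Gr] at *; simp [hl])
      have hdl : dl (x :: t) ∈ Sp (Gr q : Set (List H)) := by
        have := bd_mem_Gr (single_mem_Sp hl 1)
        simpa using this
      exact Submodule.sub_mem _ (Submodule.sub_mem _ (hs _ hq _ (single_mem_Sp hl 1))
        (single_mem_Sp hl 1)) (ih (by omega) _ hdl)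

lemma kap_nil (s : Ch H →ₗ[ℤ] Ch H) (q : ℕ) : kap s q (single [] 1) = 0 := by
  rcases q with _ | q
  · rfl
  · exact kap_succ_single_nil s q

theorem d4_core (hκ : Gen H n κ) {m : ℤ} {s Θ : Ch H →ₗ[ℤ] Ch H} {A : Set H}
    (hp : Pkg H n m s Θ A) {P : Subgroup H} [P.FiniteIndex] (hP : P ≤ hκ.plus)
    {c : Ch H →ₗ[ℤ] ℤ} (hc : FS (n + 1) c) (hcc : Coc (n + 1) c) {b : Ch H →ₗ[ℤ] ℤ}
    (hb0 : b (single [] 1) = 0) (hb : ∀ h ∈ P, ∀ u, b (act h u) = b u)
    (hsum : ∀ u ∈ Sp (Gr (n + 1) : Set (List H)), sumP P (hat hc u) = b (bd u)) :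
    Hom H n c 0 := by
  classical
  obtain ⟨p, R, hR, hpP, hpR, hpmul, hpu⟩ := exists_part P
  -- the functional `β`
  let βl : List H → ℤ := fun l => match l with
    | [] => 0
    | x :: t => if x ∈ R then b (single (x :: t) 1) else 0
  let β : Ch H →ₗ[ℤ] ℤ := Finsupp.linearCombination ℤ βl
  have hβl : ∀ l, β (single l 1) = βl l := by
    intro l; simp [β, Finsupp.linearCombination_single]
  have hβ : ∀ q, FS q β := by
    intro q
    refine ⟨hβl [], fun A' hA' => ?_⟩
    apply (finite_ctl hA' q hR).subset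
    rintro l ⟨hl, hne⟩
    refine ⟨hl, ?_⟩
    rw [hβl] at hne
    rcases l with _ | ⟨x, t⟩
    · exact absurd rfl hne
    · refine ⟨x, by simp, ?_⟩
      by_contra hx
      apply hne
      simp only [βl]
      rw [if_neg hx]
  have hβsum : ∀ v ∈ Sp (Gr n : Set (List H)), sumP P (hat (hβ n) v) = b v := by
    intro v hv
    have := eq_of_Sp (L := ((sumP P).comp (hat (hβ n)).toAddMonoidHom).toIntLinearMap) (L' := b)
      (p := Gr n) (u := v) (by
      intro l hl
      show sumP P (hat (hβ n) (single l 1)) = b (single l 1)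
      have hcf : ∀ g, cf g (hat (hβ n) (single l 1)) =
          β (single (l.map (fun y => g⁻¹ • y)) 1) := by
        intro g
        rw [cf_hat, flt_eq (single_mem_Sp hl 1), act_single]
      rcases l with _ | ⟨x, t⟩
      · rw [hb0]
        have : hat (hβ n) (single [] 1) = 0 := by
          apply rg_ext'
          intro g
          rw [hcf, map_zero]
          exact hβl []
        rw [this, map_zero]
      · rw [sumP_single P _ (p x) (hpP x)]
        · rw [hcf, hβl]
          simp only [βl, List.map_cons]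
          rw [if_pos (show (p x)⁻¹ • x ∈ R from hpR x)]
          have := hb (p x)⁻¹ (P.inv_mem (hpP x)) (single (x :: t) 1)
          rw [act_single, List.map_cons] at this
          exact this
        · intro g hg hne
          rw [hcf, hβl]
          simp only [βl, List.map_cons]
          rw [if_neg]
          intro h
          exact hne (hpu g hg x h)) hv
    exact this
  -- the functional `φ`
  let φ : Ch H →ₗ[ℤ] ℤ := c - β ∘ₗ bd
  have hφ : FS (n + 1) φ := hc.sub ((hβ n).comp (loc_bd n))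
  have hφsum : ∀ u ∈ Sp (Gr (n + 1) : Set (List H)), sumP P (hat hφ u) = 0 := by
    intro u hu
    have e : hat hφ u = hat hc u - hat (hβ n) (bd u) := by
      apply rg_ext'
      intro g
      rw [map_sub, cf_hat, cf_hat, cf_hat, flt_eq hu, flt_eq (bd_mem_Gr hu)]
      show c (act g⁻¹ u) - β (bd (act g⁻¹ u)) = _
      rw [bd_act]
    rw [e, map_sub, hsum u hu, hβsum _ (bd_mem_Gr hu), sub_self]
  -- the operator `π`
  let π : Ch H →ₗ[ℤ] Ch H := (m • s - bd ∘ₗ Θ) ∘ₗ flt (n + 1)
  have hπ : ∀ u ∈ Sp (Gr (n + 1) : Set (List H)), π u = m • s u - bd (Θ u) := by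
    intro u hu
    show (m • s - bd ∘ₗ Θ) (flt (n + 1) u) = _
    rw [flt_eq hu]
    rfl
  have hπeq : ∀ (g : H) (u : Ch H), π (act g u) = act g (π u) := by
    intro g u
    show (m • s - bd ∘ₗ Θ) (flt (n + 1) (act g u)) = act g ((m • s - bd ∘ₗ Θ) (flt (n + 1) u))
    rw [flt_act]
    simp only [LinearMap.sub_apply, LinearMap.smul_apply, LinearMap.comp_apply, map_sub, map_smul]
    rw [hp.s_eq, hp.t_eq, bd_act]
  have hπmem : ∀ u ∈ Sp (Gr (n + 1) : Set (List H)), π u ∈ Sp (Ctl A ∩ Gr (n + 1)) := by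
    intro u hu
    rw [hπ u hu]
    exact Submodule.sub_mem _ (Submodule.smul_mem _ _ (hp.s_mem _ (by omega) u hu))
      (bd_mem (SubC_Ctl A) (hp.t_mem u hu))
  have hπbd : ∀ u ∈ Sp (Gr (n + 2) : Set (List H)), π (bd u) = 0 := by
    intro u hu
    rw [hπ _ (bd_mem_Gr hu), hp.t_bd _ (bd_mem_Gr hu) (bd_bd u), sub_self]
  have hπnil : π (single [] 1) = 0 := by
    show (m • s - bd ∘ₗ Θ) (flt (n + 1) (single [] 1)) = _
    rw [flt_single, if_neg (by simp), map_zero]
  have hπloc : Loc (n + 1) (n + 1) π := by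
    apply loc_equiv hπeq
    · intro u hu
      exact Sp_mono Set.inter_subset_right (hπmem u hu)
    · intro c' _
      rw [hπnil, map_zero]
  -- the coordinates
  let δ : List H → (Ch H →ₗ[ℤ] ℤ) := fun l => (Finsupp.lapply l : Ch H →ₗ[ℤ] ℤ) ∘ₗ π
  have hδ : ∀ l u, δ l u = (π u) l := fun l u => rfl
  have hδfs : ∀ l, l ≠ [] → FS (n + 1) (δ l) := fun l hl => (fs_coord hl).comp hπloc
  have hδcoc : ∀ l, Coc (n + 1) (δ l) := by
    intro l u hu
    rw [hδ, hπbd u hu]; rfl
  have hkk : ∀ l : List H, ∃ k : ℤ, l ≠ [] → Hom H n (δ l) (k • κ) := by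
    intro l
    by_cases hl : l = []
    · exact ⟨0, fun h => absurd hl h⟩
    · obtain ⟨k, hk⟩ := hκ.cyc (δ l) (hδfs l hl) (hδcoc l)
      exact ⟨k, fun _ => hk⟩
  choose kk hkk using hkk
  have hkinv : ∀ h ∈ P, ∀ l : List H, l ≠ [] → kk (l.map (fun x => h • x)) = kk l := by
    intro h hh l hl
    have h1 : δ (l.map (fun x => h • x)) = δ l ∘ₗ act h⁻¹ := by
      apply LinearMap.ext
      intro u
      show (π u) (l.map (fun x => h • x)) = (π (act h⁻¹ u)) l
      rw [hπeq]
      have e : π u = act h (act h⁻¹ (π u)) := by rw [act_act_inv]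
      conv_lhs => rw [e]
      have : Function.Injective (List.map (fun x : H => h • x)) :=
        List.map_injective_iff.mpr (MulAction.injective h)
      exact Finsupp.mapDomain_apply this _ _
    have h2 := hkk _ (show l.map (fun x => h • x) ≠ [] by simpa using hl)
    rw [h1] at h2
    have h3 := Hom.act (hkk l hl) h⁻¹
    have h4 : (kk l • κ) ∘ₗ act h⁻¹ = kk l • (κ ∘ₗ act h⁻¹) := rfl
    rw [h4] at h3
    have h5 : Hom H n (κ ∘ₗ act h⁻¹) κ := hP (P.inv_mem hh)
    exact hκ.uniq (h2.symm.trans (h3.trans (h5.smul (kk l))))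
  -- the finite set of lists
  have hfin := hφ.fin A hp.fin
  let 𝓛 : Finset (List H) := hfin.toFinset
  have h𝓛 : ∀ l, l ∈ 𝓛 ↔ (l ∈ Ctl A ∩ Gr (n + 1)) ∧ φ (single l 1) ≠ 0 := by
    intro l; exact hfin.mem_toFinset
  have hφexp : ∀ v ∈ Sp (Ctl A ∩ Gr (n + 1) : Set (List H)),
      φ v = ∑ l ∈ 𝓛, φ (single l 1) * v l := by
    intro v hv
    have := eq_of_Sp (L := φ) (L' := ∑ l ∈ 𝓛, φ (single l 1) • (Finsupp.lapply l : Ch H →ₗ[ℤ] ℤ))
      (p := Ctl A ∩ Gr (n + 1)) (u := v) (by
      intro l hl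
      rw [LinearMap.sum_apply]
      by_cases h0 : φ (single l 1) = 0
      · rw [h0]
        symm
        apply Finset.sum_eq_zero
        intro l' hl'
        rw [LinearMap.smul_apply, Finsupp.lapply_apply]
        by_cases he : l' = l
        · rw [he, h0, zero_smul]
        · rw [Finsupp.single_eq_of_ne he, smul_zero]
      · rw [Finset.sum_eq_single l]
        · rw [LinearMap.smul_apply, Finsupp.lapply_apply, Finsupp.single_eq_same, smul_eq_mul,
            mul_one]
        · intro l' _ he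
          rw [LinearMap.smul_apply, Finsupp.lapply_apply, Finsupp.single_eq_of_ne he, smul_zero]
        · intro hn
          exact absurd ((h𝓛 l).mpr ⟨hl, h0⟩) hn) hv
    rw [this, LinearMap.sum_apply]
    rfl
  -- the class of `φ ∘ π`
  have hclass : Hom H n (φ ∘ₗ π) ((∑ l ∈ 𝓛, φ (single l 1) * kk l) • κ) := by
    have h1 : ∀ S : Finset (List H), (∀ l ∈ S, l ≠ []) →
        Hom H n (∑ l ∈ S, φ (single l 1) • δ l) ((∑ l ∈ S, φ (single l 1) * kk l) • κ) := by
      intro S
      induction S using Finset.induction_on with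
      | empty =>
        intro _
        simp only [Finset.sum_empty, zero_smul]
        exact Hom.refl 0
      | insert a S ha ih =>
        intro hS
        rw [Finset.sum_insert ha, Finset.sum_insert ha, add_smul]
        apply Hom.add
        · have := (hkk a (hS a (by simp))).smul (φ (single a 1))
          rwa [smul_smul] at this
        · exact ih (fun l hl => hS l (by simp [hl]))
    have h2 := h1 𝓛 (by
      intro l hl
      have := ((h𝓛 l).mp hl).1.2
      rintro rfl
      simp [Gr] at this)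
    obtain ⟨β', hβ', h3⟩ := h2
    refine ⟨β', hβ', fun u hu => ?_⟩
    rw [← h3 u hu, LinearMap.comp_apply, hφexp _ (hπmem u hu), LinearMap.sum_apply]
    rfl
  have hzero : ∑ l ∈ 𝓛, φ (single l 1) * kk l = 0 := by
    let rep : List H → List H := fun l => match l with
      | [] => []
      | x :: t => (x :: t).map (fun y => (p x)⁻¹ • y)
    let j : List H → H := fun l => match l with
      | [] => 1
      | x :: _ => (p x)⁻¹
    have hmm : ∀ (g g' : H) (l : List H), (l.map (fun y => g • y)).map (fun y => g' • y) =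
        l.map (fun y => (g' * g) • y) := by
      intro g g' l
      rw [List.map_map]
      apply List.map_congr_left
      intro y _
      simp [mul_assoc]
    have hone : ∀ l : List H, l.map (fun y => (1 : H) • y) = l := by
      intro l
      simp
    have hrep : ∀ l, rep l = l.map (fun y => j l • y) := by
      intro l
      rcases l with _ | ⟨x, t⟩
      · rfl
      · rfl
    have hjP : ∀ l, j l ∈ P := by
      intro l
      rcases l with _ | ⟨x, t⟩
      · exact P.one_mem
      · exact P.inv_mem (hpP x)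
    have hjmul : ∀ g ∈ P, ∀ l, l ≠ [] → j (l.map (fun y => g • y)) = j l * g⁻¹ := by
      intro g hg l hl
      rcases l with _ | ⟨x, t⟩
      · exact absurd rfl hl
      · show (p (g * x))⁻¹ = (p x)⁻¹ * g⁻¹
        rw [hpmul g hg, mul_inv_rev]
    rw [← Finset.sum_fiberwise_of_maps_to (t := 𝓛.image rep) (g := rep)
      (fun l hl => Finset.mem_image_of_mem rep hl)]
    apply Finset.sum_eq_zero
    intro r hr
    rw [Finset.mem_image] at hr
    obtain ⟨l₁, hl₁, rfl⟩ := hr
    have hl₁' := (h𝓛 l₁).mp hl₁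
    have hne : l₁ ≠ [] := by
      rintro rfl
      have := hl₁'.1.2
      simp [Gr] at this
    have hrne : rep l₁ ≠ [] := by
      rw [hrep]; simpa using hne
    have hrmem : rep l₁ ∈ Ctl A ∩ Gr (n + 1) := by
      rw [hrep]
      exact ⟨Ctl_map_mul _ hl₁'.1.1, by simpa [Gr] using hl₁'.1.2⟩
    have hjr : j (rep l₁) = 1 := by
      rw [hrep, hjmul _ (hjP _) _ hne, mul_inv_cancel]
    have hkr : ∀ l ∈ 𝓛.filter (fun l => rep l = rep l₁), kk l = kk (rep l₁) := by
      intro l hl
      rw [Finset.mem_filter] at hl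
      have hlne : l ≠ [] := by
        rintro rfl
        have := ((h𝓛 _).mp hl.1).1.2
        simp [Gr] at this
      rw [← hl.2, hrep]
      exact (hkinv _ (hjP l) l hlne).symm
    have e1 : ∑ l ∈ 𝓛.filter (fun l => rep l = rep l₁), φ (single l 1) * kk l =
        (∑ l ∈ 𝓛.filter (fun l => rep l = rep l₁), φ (single l 1)) * kk (rep l₁) := by
      rw [Finset.sum_mul]
      apply Finset.sum_congr rfl
      intro l hl
      rw [hkr l hl]
    rw [e1]
    have e2 : ∑ l ∈ 𝓛.filter (fun l => rep l = rep l₁), φ (single l 1) =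
        sumP P (hat hφ (single (rep l₁) 1)) := by
      rw [sumP_eq]
      have hcf : ∀ g, cf g (hat hφ (single (rep l₁) 1)) =
          φ (single ((rep l₁).map (fun y => g⁻¹ • y)) 1) := by
        intro g
        rw [cf_hat, flt_eq (single_mem_Sp hrmem.2 1), act_single]
      symm
      apply Finset.sum_nbij' (fun g => (rep l₁).map (fun y => g⁻¹ • y)) j
      · intro g hg
        rw [Finset.mem_filter, mem_rsupp, hcf] at hg
        rw [Finset.mem_filter]
        refine ⟨(h𝓛 _).mpr ⟨⟨Ctl_map_mul _ hrmem.1, by simpa [Gr] using hrmem.2⟩, hg.1⟩, ?_⟩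
        rw [hrep ((rep l₁).map (fun y => g⁻¹ • y)), hjmul _ (P.inv_mem hg.2) _ hrne, hjr, hmm]
        have : (1 * (g⁻¹)⁻¹) * g⁻¹ = 1 := by group
        rw [this, hone]
      · intro l hl
        rw [Finset.mem_filter] at hl
        have hl' := (h𝓛 l).mp hl.1
        rw [Finset.mem_filter, mem_rsupp, hcf]
        have e : (rep l₁).map (fun y => (j l)⁻¹ • y) = l := by
          rw [← hl.2, hrep, hmm, inv_mul_cancel, hone]
        rw [e]
        exact ⟨hl'.2, hjP l⟩
      · intro g hg
        rw [Finset.mem_filter] at hg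
        rw [hjmul _ (P.inv_mem hg.2) _ hrne, hjr]
        group
      · intro l hl
        rw [Finset.mem_filter] at hl
        show (rep l₁).map (fun y => (j l)⁻¹ • y) = l
        rw [← hl.2, hrep, hmm, inv_mul_cancel, hone]
      · intro g _
        exact hcf g
    rw [e2, hφsum _ (single_mem_Sp hrmem.2 1), zero_mul]
  rw [hzero, zero_smul] at hclass
  obtain ⟨β₁, hβ₁, hcl⟩ := hclass
  have hsmem : ∀ q ≤ n + 2, ∀ u ∈ Sp (Gr q : Set (List H)), s u ∈ Sp (Gr q) :=
    fun q hq u hu => Sp_mono Set.inter_subset_right (hp.s_mem q hq u hu)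
  have hmc : Hom H n (m • c) 0 := by
    refine ⟨β₁ + m • (β ∘ₗ s) - m • (c ∘ₗ kap s n), ?_, ?_⟩
    · apply FS.sub
      · apply hβ₁.add
        apply FS.smul
        apply (hβ n).comp
        apply loc_equiv hp.s_eq (hsmem n (by omega))
        intro c' hc'
        rw [hp.s_nil, hc']
      · apply FS.smul
        apply hc.comp
        apply loc_equiv (kap_act hp.s_eq n) (kap_mem hsmem n (by omega))
        intro c' _
        rw [kap_nil, map_zero]
    · intro u hu
      have q1 := hcl u hu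
      rw [LinearMap.comp_apply, LinearMap.zero_apply, zero_add] at q1
      have q2 : φ (π u) = c (π u) - β (bd (π u)) := rfl
      have q3 : c (π u) = m * c (s u) := by
        rw [hπ u hu, map_sub, map_smul, hcc _ (Sp_mono Set.inter_subset_right (hp.t_mem u hu)),
          sub_zero, smul_eq_mul]
      have q4 : β (bd (π u)) = m * β (s (bd u)) := by
        rw [hπ u hu, map_sub, map_smul, bd_bd, sub_zero, hp.s_bd _ (by omega) u hu, map_smul,
          smul_eq_mul]
      have q5 := bd_kap hp.s_nil hp.s_bd (n + 1) (by omega) u hu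
      have q6 : c (bd (kap s (n + 1) u)) = 0 := hcc _ (kap_mem hsmem (n + 1) (by omega) u hu)
      rw [q5] at q6
      rw [map_sub, map_sub] at q6
      have q7 : n + 1 - 1 = n := by omega
      rw [q7] at q6
      simp only [LinearMap.sub_apply, LinearMap.add_apply, LinearMap.smul_apply,
        LinearMap.comp_apply, LinearMap.zero_apply, smul_eq_mul]
      have q8 : c u = c (s u) - c (kap s n (bd u)) := by linarith
      rw [q8]
      rw [q2, q3, q4] at q1
      linarith
  obtain ⟨k, hk⟩ := hκ.cyc c hc hcc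
  have h1 : Hom H n ((m * k) • κ) 0 := by
    have := (hk.smul m).symm.trans hmc
    rwa [smul_smul] at this
  have h2 := hκ.nt _ h1
  have h3 : k = 0 := by
    rcases mul_eq_zero.mp h2 with h | h
    · have := hp.pos; omega
    · exact h
  rw [h3, zero_smul] at hk
  exact hk

end Core

end Vale.Agent.P188.H882

end

section

/-!
(D4): a cycle and an invariant cocycle for subgroups of finite index.
-/

universe u v w

namespace Vale.Agent.P188.H882

open Finsupp Pointwise

lemma ext_Q {A V : Type} [AddCommGroup A] [AddCommGroup V] (D : A →+ V) (g : A →+ ℚ)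
    (h : ∀ a, D a = 0 → g a = 0) : ∃ b : V →+ ℚ, ∀ a, b (D a) = g a := by
  have hB : Module.Baer ℤ ℚ := Module.Baer.of_divisible ℚ
  obtain ⟨b, hb⟩ := hB.extension_property_addMonoidHom (QuotientAddGroup.kerLift D)
    (QuotientAddGroup.kerLift_injective D)
    (QuotientAddGroup.lift D.ker g (fun a ha => h a ha))
  refine ⟨b, fun a => ?_⟩
  have := DFunLike.congr_fun hb (QuotientAddGroup.mk a)
  rw [AddMonoidHom.comp_apply, QuotientAddGroup.kerLift_mk] at this
  rw [this]
  rfl

lemma exists_denom {S : Set ℚ} (hS : S.Finite) : ∃ q : ℤ, q ≠ 0 ∧ ∀ x ∈ S, ∃ k : ℤ, q * x = k := by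
  induction S, hS using Set.Finite.induction_on with
  | empty => exact ⟨1, one_ne_zero, fun x hx => absurd hx (Set.notMem_empty x)⟩
  | @insert a S _ _ ih =>
    obtain ⟨q, hq, h⟩ := ih
    refine ⟨q * a.den, mul_ne_zero hq (by exact_mod_cast a.den_nz), ?_⟩
    intro x hx
    rcases hx with rfl | hx
    · refine ⟨q * x.num, ?_⟩
      push_cast
      rw [mul_assoc, Rat.den_mul_eq_num]
    · obtain ⟨k, hk⟩ := h x hx
      refine ⟨k * a.den, ?_⟩
      push_cast
      rw [← hk]; ring

section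

variable {H : Type} [Group H] {n : ℕ} {κ : Ch H →ₗ[ℤ] ℤ}

lemma hom_s {m : ℤ} {s Θ : Ch H →ₗ[ℤ] Ch H} {A : Set H} (hp : Pkg H n m s Θ A)
    {c : Ch H →ₗ[ℤ] ℤ} (hc : FS (n + 1) c) (hcc : Coc (n + 1) c) : Hom H n (c ∘ₗ s) c := by
  have hsmem : ∀ q ≤ n + 2, ∀ u ∈ Sp (Gr q : Set (List H)), s u ∈ Sp (Gr q) :=
    fun q hq u hu => Sp_mono Set.inter_subset_right (hp.s_mem q hq u hu)
  refine ⟨c ∘ₗ kap s n, ?_, ?_⟩
  · apply hc.comp
    apply loc_equiv (kap_act hp.s_eq n) (kap_mem hsmem n (by omega))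
    intro c' _
    rw [kap_nil, map_zero]
  · intro u hu
    have q5 := bd_kap hp.s_nil hp.s_bd (n + 1) (by omega) u hu
    have q6 : c (bd (kap s (n + 1) u)) = 0 := hcc _ (kap_mem hsmem (n + 1) (by omega) u hu)
    rw [q5] at q6
    rw [map_sub, map_sub] at q6
    have q7 : n + 1 - 1 = n := by omega
    rw [q7] at q6
    rw [LinearMap.comp_apply, LinearMap.comp_apply]
    linarith

/-- The relations over `ℤ`. -/
noncomputable def RZ (P : Subgroup H) : Submodule ℤ (Ch H) :=
  Submodule.span ℤ {v | ∃ h ∈ P, ∃ u : Ch H, v = act h u - u} ⊔ Sp (Gr 0)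

lemma tp_RZ {P : Subgroup H} {v : Ch H} (hv : v ∈ RZ P) :
    tp v (1 : ℤ) ∈ Rl (X := H) (M := ℤ) (1 : H →* AddMonoid.End ℤ) P := by
  let f : Ch H →+ CM H ℤ := ⟨⟨fun u => tp u (1 : ℤ), tp_zero_left _⟩, fun u v => tp_add_left u v 1⟩
  have hle : RZ P ≤ AddSubgroup.toIntSubmodule
      ((Rl (X := H) (M := ℤ) (1 : H →* AddMonoid.End ℤ) P).comap f) := by
    apply sup_le
    · apply Submodule.span_le.mpr
      rintro _ ⟨h, hh, u, rfl⟩
      show tp (act h u - u) (1 : ℤ) ∈ Rl (X := H) (M := ℤ) (1 : H →* AddMonoid.End ℤ) P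
      rw [tp_sub_left]
      exact sub_mem_Rl hh (tp u (1 : ℤ))
    · intro w hw
      exact DG_le_Rl P (tp_mem_DG hw 1)
  exact hle hv

theorem d4 {Z : Type} [Group Z] (hc : CoarseEquiv H Z) (hZ : PolyZ n Z) :
    ∃ Hp : Subgroup H, Hp.FiniteIndex ∧ ∀ P : Subgroup H, P ≤ Hp → P.FiniteIndex →
      ∃ c : Ch H →ₗ[ℤ] ℤ, (∀ h ∈ P, ∀ u, c (act h u) = c u) ∧
        (∀ u ∈ Sp (Gr (n + 2) : Set (List H)), c (bd u) = 0) ∧
        ∃ z ∈ Sp (Gr (n + 1) : Set (List H)), bd z ∈ RZ P ∧ c z ≠ 0 := by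
  classical
  obtain ⟨κ, hκ⟩ := (topZ_of_coarse hc (topZ_of_dual (dual_of_PolyZ n Z hZ))).exists_gen
  obtain ⟨m, s, Θ, A, hp⟩ := exists_pkg hc hZ
  have hsmem : ∀ q ≤ n + 2, ∀ u ∈ Sp (Gr q : Set (List H)), s u ∈ Sp (Gr q) :=
    fun q hq u hu => Sp_mono Set.inter_subset_right (hp.s_mem q hq u hu)
  refine ⟨hκ.plus, hκ.plus_finiteIndex, ?_⟩
  intro P hP hPf
  let C : Ch H →ₗ[ℤ] ℤ := ((sumP P).comp (hat hκ.fs).toAddMonoidHom).toIntLinearMap
  have hC : ∀ u, C u = sumP P (hat hκ.fs u) := fun u => rfl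
  have hsumP : ∀ h ∈ P, ∀ x : RG H, sumP P (h • x) = sumP P x := by
    intro h hh x
    have := rg_ext (f := (sumP P).comp (DistribSMul.toAddMonoidHom (RG H) h)) (g := sumP P) (by
      intro g
      simp only [AddMonoidHom.comp_apply, DistribSMul.toAddMonoidHom_apply]
      rw [smul_rgs, sumP, rgl_rgs, rgl_rgs]
      congr 1
      rw [Subgroup.mul_mem_cancel_left _ hh]) x
    simpa using this
  have hCinv : ∀ h ∈ P, ∀ u, C (act h u) = C u := by
    intro h hh u
    rw [hC, hC, hat_eqv, hsumP h hh]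
  have hCcoc : ∀ u ∈ Sp (Gr (n + 2) : Set (List H)), C (bd u) = 0 := by
    intro u hu
    rw [hC, hat_coc hκ.fs hκ.coc u hu, map_zero]
  refine ⟨C, hCinv, hCcoc, ?_⟩
  by_contra hcon
  push Not at hcon
  -- extension to a rational functional
  let V := Ch H ⧸ (RZ P)
  let D : Ch H →+ V := ((RZ P).mkQ ∘ₗ bd ∘ₗ flt (n + 1)).toAddMonoidHom
  have hD : ∀ u, D u = (RZ P).mkQ (bd (flt (n + 1) u)) := fun u => rfl
  let g : Ch H →+ ℚ := (Int.castAddHom ℚ).comp (C ∘ₗ flt (n + 1)).toAddMonoidHom
  have hg : ∀ u, g u = ((C (flt (n + 1) u) : ℤ) : ℚ) := fun u => rfl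
  obtain ⟨b, hb⟩ := ext_Q D g (by
    intro a ha
    rw [hD] at ha
    have h1 : bd (flt (n + 1) a) ∈ RZ P := (Submodule.Quotient.mk_eq_zero _).mp ha
    rw [hg, hcon _ (flt_mem _ a) h1, Int.cast_zero])
  let B : Ch H →+ ℚ := b.comp (RZ P).mkQ.toAddMonoidHom
  have hB : ∀ u, B u = b ((RZ P).mkQ u) := fun u => rfl
  have hBC : ∀ u ∈ Sp (Gr (n + 1) : Set (List H)), ((C u : ℤ) : ℚ) = B (bd u) := by
    intro u hu
    have := hb u
    rw [hD, hg, flt_eq hu] at this
    exact this.symm
  have hBinv : ∀ h ∈ P, ∀ u, B (act h u) = B u := by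
    intro h hh u
    rw [hB, hB]
    congr 1
    rw [← sub_eq_zero, ← map_sub]
    exact (Submodule.Quotient.mk_eq_zero _).mpr
      (Submodule.mem_sup_left (Submodule.subset_span ⟨h, hh, u, rfl⟩))
  have hB0 : B (single [] 1) = 0 := by
    rw [hB]
    have : (RZ P).mkQ (single [] 1) = 0 := (Submodule.Quotient.mk_eq_zero _).mpr
      (Submodule.mem_sup_right (single_mem_Sp (by simp [Gr]) 1))
    rw [this, map_zero]
  -- finitely many values on controlled lists
  have hfin : {x : ℚ | ∃ l ∈ Ctl A ∩ Gr n, x = B (single l 1)}.Finite := by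
    obtain ⟨p, R, hR, hpP, hpR, hpmul, hpu⟩ := exists_part P
    obtain ⟨L, hL, hLA, hrep⟩ := exists_orbit_reps hp.fin n
    apply ((hR.prod hL).image (fun r => B (single (r.2.map (fun x => r.1 • x)) 1))).subset
    rintro _ ⟨l, hl, rfl⟩
    obtain ⟨g, l₀, hl₀, rfl⟩ := hrep l hl
    refine ⟨((p g)⁻¹ * g, l₀), ⟨hpR g, hl₀⟩, ?_⟩
    have h1 := hBinv (p g) (hpP g) (single (l₀.map (fun x => ((p g)⁻¹ * g) • x)) 1)
    rw [act_single, List.map_map] at h1
    show B _ = B _
    rw [← h1]
    congr 2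
    apply List.map_congr_left
    intro x _
    simp [mul_assoc]
  obtain ⟨q, hq, hqk⟩ := exists_denom hfin
  let b' : Ch H →ₗ[ℤ] ℤ := Finsupp.linearCombination ℤ
    (fun l => if l ∈ Ctl A ∩ Gr n then ⌊(q : ℚ) * B (single l 1)⌋ else 0)
  have hb'l : ∀ l, b' (single l 1) =
      if l ∈ Ctl A ∩ Gr n then ⌊(q : ℚ) * B (single l 1)⌋ else 0 := by
    intro l; simp [b', Finsupp.linearCombination_single]
  have hb'0 : b' (single [] 1) = 0 := by
    rw [hb'l]
    split_ifs
    · rw [hB0, mul_zero, Int.floor_zero]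
    · rfl
  have hb'inv : ∀ h ∈ P, ∀ u, b' (act h u) = b' u := by
    intro h hh u
    have : (b' ∘ₗ act h : Ch H →ₗ[ℤ] ℤ) = b' := by
      apply lin_ext
      intro l
      rw [LinearMap.comp_apply, act_single, hb'l, hb'l]
      have e1 : l.map (fun x => h • x) ∈ Ctl A ∩ Gr n ↔ l ∈ Ctl A ∩ Gr n := by
        constructor
        · rintro ⟨h1, h2⟩
          refine ⟨?_, by simpa [Gr] using h2⟩
          have := Ctl_map_mul h⁻¹ h1
          rw [List.map_map] at this
          have e : ((fun x => h⁻¹ * x) ∘ fun x => h • x) = fun x : H => x := by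
            funext x; simp
          rw [e, List.map_id'] at this
          exact this
        · rintro ⟨h1, h2⟩
          exact ⟨Ctl_map_mul h h1, by simpa [Gr] using h2⟩
      have e2 : B (single (l.map (fun x => h • x)) 1) = B (single l 1) := by
        have := hBinv h hh (single l 1)
        rwa [act_single] at this
      rw [e2]
      by_cases hl : l ∈ Ctl A ∩ Gr n
      · rw [if_pos hl, if_pos (e1.mpr hl)]
      · rw [if_neg hl, if_neg (fun h => hl (e1.mp h))]
    exact LinearMap.congr_fun this u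
  have hb'B : ∀ v ∈ Sp (Ctl A ∩ Gr n : Set (List H)), ((b' v : ℤ) : ℚ) = q * B v := by
    intro v hv
    have := eq_of_Sp (L := ((Int.castAddHom ℚ).comp b'.toAddMonoidHom).toIntLinearMap)
      (L' := ((AddMonoidHom.mulLeft (q : ℚ)).comp B).toIntLinearMap)
      (p := Ctl A ∩ Gr n) (u := v) (by
      intro l hl
      show ((b' (single l 1) : ℤ) : ℚ) = q * B (single l 1)
      rw [hb'l, if_pos hl]
      obtain ⟨k, hk⟩ := hqk _ ⟨l, hl, rfl⟩
      rw [hk, Int.floor_intCast]) hv
    exact this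
  -- the cocycle `q κ ∘ s`
  have hsloc : Loc (n + 1) (n + 1) s := loc_equiv hp.s_eq (hsmem _ (by omega)) (by
    intro c' hc'
    rw [hp.s_nil, hc'])
  have hcfs : FS (n + 1) ((q • κ) ∘ₗ s) := (hκ.fs.smul q).comp hsloc
  have hccoc : Coc (n + 1) ((q • κ) ∘ₗ s) := by
    intro u hu
    rw [LinearMap.comp_apply, ← hp.s_bd _ (by omega) u hu, LinearMap.smul_apply,
      hκ.coc _ (hsmem _ (by omega) u hu), smul_zero]
  have hmain := d4_core hκ hp hP hcfs hccoc (b := b' ∘ₗ s)
    (by rw [LinearMap.comp_apply, hp.s_nil, hb'0])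
    (by intro h hh u; rw [LinearMap.comp_apply, LinearMap.comp_apply, hp.s_eq, hb'inv h hh])
    (by
      intro u hu
      have e1 : hat hcfs u = q • hat hκ.fs (s u) := by
        apply rg_ext'
        intro g
        rw [cf_hat, map_zsmul, cf_hat, flt_eq hu, flt_eq (hsmem _ (by omega) u hu)]
        rw [LinearMap.comp_apply, hp.s_eq, LinearMap.smul_apply]
      rw [e1, map_zsmul, ← hC]
      have e2 := hb'B (bd (s u)) (bd_mem (SubC_Ctl A) (hp.s_mem _ (by omega) u hu))
      rw [← hBC _ (hsmem _ (by omega) u hu)] at e2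
      rw [LinearMap.comp_apply, ← hp.s_bd _ (by omega) u hu]
      have e3 : ((b' (bd (s u)) : ℤ) : ℚ) = ((q * C (s u) : ℤ) : ℚ) := by
        rw [e2]; push_cast; ring
      rw [smul_eq_mul]
      exact_mod_cast e3.symm)
  have h1 : Hom H n (q • κ) 0 := by
    have h2 := (hom_s hp hκ.fs hκ.coc).smul q
    exact h2.symm.trans hmain
  exact hq (hκ.nt q h1)

/-- The prism of an equivariant map is equivariant. -/
lemma pr_act' {P X : Type} [Group P] [MulAction P X] {f : X → X} {h : P}
    (hf : ∀ x, f (h • x) = h • f x) (u : Ch X) : pr f (act h u) = act h (pr f u) := by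
  have : (pr f ∘ₗ act h : Ch X →ₗ[ℤ] Ch X) = act h ∘ₗ pr f := by
    apply lin_ext
    intro l
    rw [LinearMap.comp_apply, LinearMap.comp_apply, act_single, pr_single, pr_single, one_smul,
      one_smul]
    induction l with
    | nil => simp [prl]
    | cons x t ih =>
      rw [List.map_cons, prl_cons, prl_cons, ih, map_sub, act_cns, act_single]
      simp only [List.map_cons, List.map_map]
      congr 2
      rw [hf]
      congr 3
      funext y
      exact hf y
  exact LinearMap.congr_fun this u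

theorem d4P {Z : Type} [Group Z] (hc : CoarseEquiv H Z) (hZ : PolyZ n Z) :
    ∃ Hp : Subgroup H, Hp.FiniteIndex ∧ ∀ P : Subgroup H, P ≤ Hp → P.FiniteIndex →
      ∃ c : Ch P →ₗ[ℤ] ℤ, (∀ (g : P) (u : Ch P), c (act g u) = c u) ∧
        (∀ u ∈ Sp (Gr (n + 2) : Set (List P)), c (bd u) = 0) ∧
        ∃ z ∈ Sp (Gr (n + 1) : Set (List P)),
          bM (tp z (1 : ℤ)) ∈ Rl (X := P) (M := ℤ) (1 : P →* AddMonoid.End ℤ) (⊤ : Subgroup P) ∧
          c z ≠ 0 := by
  obtain ⟨Hp, hHp, h⟩ := d4 hc hZ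
  refine ⟨Hp, hHp, fun P hP hPf => ?_⟩
  obtain ⟨c, hcinv, hccoc, z, hz, hbz, hcz⟩ := h P hP hPf
  obtain ⟨p, R, hR, hpP, hpR, hpmul, hpu⟩ := exists_part P
  let ι : P → H := Subtype.val
  let r : H → P := fun x => ⟨p x, hpP x⟩
  have hι : ∀ (g : P) (u : Ch P), pf ι (act g u) = act (g : H) (pf ι u) := by
    intro g u
    rw [act, act, pf_comp, pf_comp]
    rfl
  have hr : ∀ (g : P) (u : Ch H), pf r (act (g : H) u) = act g (pf r u) := by
    intro g u
    rw [act, act, pf_comp, pf_comp]
    congr 2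
    funext x
    exact Subtype.ext (hpmul g g.2 x)
  refine ⟨c ∘ₗ pf ι, ?_, ?_, pf r z, pf_mem (fun l hl => by simpa [Gr] using hl) hz, ?_, ?_⟩
  · intro g u
    rw [LinearMap.comp_apply, LinearMap.comp_apply, hι, hcinv g g.2]
  · intro u hu
    rw [LinearMap.comp_apply, ← bd_pf]
    exact hccoc _ (pf_mem (fun l hl => by simpa [Gr] using hl) hu)
  · have h1 : bd (pf r z) ∈ RZ (⊤ : Subgroup P) := by
      rw [bd_pf]
      have hle : RZ P ≤ (RZ (⊤ : Subgroup P)).comap (pf r) := by
        apply sup_le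
        · apply Submodule.span_le.mpr
          rintro _ ⟨h, hh, u, rfl⟩
          show pf r (act h u - u) ∈ RZ (⊤ : Subgroup P)
          rw [map_sub, hr ⟨h, hh⟩ u]
          exact Submodule.mem_sup_left (Submodule.subset_span ⟨⟨h, hh⟩, trivial, _, rfl⟩)
        · intro w hw
          exact Submodule.mem_sup_right (pf_mem (fun l hl => by simpa [Gr] using hl) hw)
      exact hle hbz
    exact tp_RZ h1
  · rw [LinearMap.comp_apply, pf_comp]
    have hpr := bd_pr (ι ∘ r) z
    have h1 : c (bd (pr (ι ∘ r) z)) = 0 := hccoc _ (pr_mem (fun l hl l' _ hl' => by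
      rw [mem_Gr] at *; omega) hz)
    have h2 : c (pr (ι ∘ r) (bd z)) = 0 := by
      have hle : RZ P ≤ LinearMap.ker (c ∘ₗ pr (ι ∘ r)) := by
        apply sup_le
        · apply Submodule.span_le.mpr
          rintro _ ⟨h, hh, u, rfl⟩
          show c (pr (ι ∘ r) (act h u - u)) = 0
          rw [map_sub, pr_act' (fun x => hpmul h hh x), map_sub, hcinv h hh, sub_self]
        · intro w hw
          show c (pr (ι ∘ r) w) = 0
          have := eq_of_Sp (L := pr (ι ∘ r)) (L' := 0) (p := Gr 0) (u := w) (by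
            intro l hl
            have : l = [] := List.length_eq_zero_iff.mp hl
            subst this
            rw [pr_nil_eq]; rfl) hw
          rw [this]
          simp
      exact hle hbz
    have h3 : pf (ι ∘ r) z = bd (pr (ι ∘ r) z) + pr (ι ∘ r) (bd z) + z := by
      rw [hpr]; abel
    rw [h3, map_add, map_add, h1, h2]
    simpa using hcz

end

end Vale.Agent.P188.H882

end

section

/-!
(QA5): the homology of a group coarsely equivalent to a poly-`ℤ` group of length `n` is killed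
by an integer `m ≠ 0` above degree `n`, for all coefficients.
-/

universe u v w

namespace Vale.Agent.P188.H882

open Finsupp Pointwise

section Homotopy

variable {H : Type} [Group H]

/-- The homotopy between `f` and `a • id`, degree by degree. -/
noncomputable def kapf (f : Ch H →ₗ[ℤ] Ch H) (a : ℤ) : ℕ → (Ch H →ₗ[ℤ] Ch H)
  | 0 => 0
  | q + 1 => Finsupp.linearCombination ℤ
      (chd (fun l => f (single l 1) - a • single l 1 - kapf f a q (dl l)))

lemma kapf_succ_single (f : Ch H →ₗ[ℤ] Ch H) (a : ℤ) (q : ℕ) (x : H) (t : List H) :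
    kapf f a (q + 1) (single (x :: t) 1) =
      cns x (f (single (x :: t) 1) - a • single (x :: t) 1 - kapf f a q (dl (x :: t))) := by
  show Finsupp.linearCombination ℤ _ _ = _
  rw [Finsupp.linearCombination_single, one_smul]
  rfl

lemma kapf_nil (f : Ch H →ₗ[ℤ] Ch H) (a : ℤ) (q : ℕ) : kapf f a q (single [] 1) = 0 := by
  rcases q with _ | q
  · rfl
  · show Finsupp.linearCombination ℤ _ _ = _
    rw [Finsupp.linearCombination_single, one_smul]
    rfl

lemma kapf_act {f : Ch H →ₗ[ℤ] Ch H} {a : ℤ}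
    (hf : ∀ (g : H) (u : Ch H), f (act g u) = act g (f u))
    (q : ℕ) : ∀ (g : H) (u : Ch H), kapf f a q (act g u) = act g (kapf f a q u) := by
  induction q with
  | zero => intro g u; simp [kapf]
  | succ q ih =>
    intro g u
    have : (kapf f a (q + 1) ∘ₗ act g : Ch H →ₗ[ℤ] Ch H) = act g ∘ₗ kapf f a (q + 1) := by
      apply lin_ext
      intro l
      rw [LinearMap.comp_apply, LinearMap.comp_apply]
      rcases l with _ | ⟨x, t⟩
      · rw [act_single, List.map_nil, kapf_nil, map_zero]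
      · rw [act_single, List.map_cons, kapf_succ_single, kapf_succ_single, act_cns]
        congr 1
        rw [map_sub, map_sub, ← hf, ← ih, map_smul, act_single, List.map_cons]
        congr 2
        have := pf_dl (fun x => g • x) (x :: t)
        rw [List.map_cons] at this
        rw [← this]
        rfl
    exact LinearMap.congr_fun this u

lemma kapf_mem {f : Ch H →ₗ[ℤ] Ch H} {a : ℤ}
    (hf : ∀ q, ∀ u ∈ Sp (Gr q : Set (List H)), f u ∈ Sp (Gr q)) :
    ∀ q, ∀ u ∈ Sp (Gr q : Set (List H)), kapf f a q u ∈ Sp (Gr (q + 1) : Set (List H)) := by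
  intro q
  induction q with
  | zero =>
    intro u _
    have : kapf f a 0 u = 0 := rfl
    rw [this]
    exact Submodule.zero_mem _
  | succ q ih =>
    intro u hu
    apply map_mem_of_Sp _ hu
    intro l hl
    rcases l with _ | ⟨x, t⟩
    · simp [Gr] at hl
    · rw [kapf_succ_single]
      apply cns_mem (p := Gr (q + 1)) (fun l hl => by rw [mem_Gr] at *; simp [hl])
      have hdl : dl (x :: t) ∈ Sp (Gr q : Set (List H)) := by
        have := bd_mem_Gr (single_mem_Sp hl 1)
        simpa using this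
      exact Submodule.sub_mem _ (Submodule.sub_mem _ (hf _ _ (single_mem_Sp hl 1))
        (Submodule.smul_mem _ _ (single_mem_Sp hl 1))) (ih _ hdl)

lemma bd_kapf {f : Ch H →ₗ[ℤ] Ch H} {a : ℤ} (hf_nil : f (single [] 1) = a • single [] 1)
    (hf_bd : ∀ q, ∀ u ∈ Sp (Gr q : Set (List H)), bd (f u) = f (bd u)) :
    ∀ q, ∀ u ∈ Sp (Gr q : Set (List H)),
      bd (kapf f a q u) = f u - a • u - kapf f a (q - 1) (bd u) := by
  intro q
  induction q with
  | zero =>
    intro u hu
    have := eq_of_Sp (L := f) (L' := a • LinearMap.id) (p := Gr 0) (u := u) (by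
      intro l hl
      have : l = [] := List.length_eq_zero_iff.mp hl
      subst this
      rw [hf_nil]; rfl) hu
    rw [this, bd_of_Gr_zero hu]
    simp [kapf]
  | succ q ih =>
    intro u hu
    have := eq_of_Sp (L := bd ∘ₗ kapf f a (q + 1)) (L' := f - a • LinearMap.id - kapf f a q ∘ₗ bd)
      (p := Gr (q + 1)) (u := u) (by
      intro l hl
      rcases l with _ | ⟨x, t⟩
      · simp [Gr] at hl
      · have hdl : dl (x :: t) ∈ Sp (Gr q : Set (List H)) := by
          have := bd_mem_Gr (single_mem_Sp hl 1)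
          simpa using this
        have e : bd (single (x :: t) (1 : ℤ)) = dl (x :: t) := by simp
        rw [LinearMap.comp_apply, kapf_succ_single, bd_cns]
        have h1 : bd (f (single (x :: t) 1) - a • single (x :: t) 1 -
            kapf f a q (dl (x :: t))) = 0 := by
          rw [map_sub, map_sub, map_smul, ih _ hdl, hf_bd _ _ (single_mem_Sp hl 1), e, bd_dl,
            map_zero]
          abel
        rw [h1, map_zero, sub_zero]
        simp only [LinearMap.sub_apply, LinearMap.smul_apply, LinearMap.comp_apply,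
          LinearMap.id_apply]
        rw [e]) hu
    simpa using this

end Homotopy

/-- (QA5). -/
theorem qa5 {H Z : Type} [Group H] [Group Z] {n : ℕ} (hc : CoarseEquiv H Z) (hZ : PolyZ n Z) :
    ∃ m : ℤ, m ≠ 0 ∧ ∀ (M : Type) [AddCommGroup M] (ρ : H →* AddMonoid.End M), ∀ q ≥ n + 2,
      ∀ z ∈ DG H M q, bM z ∈ Rl ρ (⊤ : Subgroup H) → Null ρ ⊤ q (m • z) := by
  classical
  obtain ⟨m, s, Θ, A, hp⟩ := exists_pkg hc hZ
  have hsmem : ∀ q ≤ n + 2, ∀ u ∈ Sp (Gr q : Set (List H)), s u ∈ Sp (Gr q) :=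
    fun q hq u hu => Sp_mono Set.inter_subset_right (hp.s_mem q hq u hu)
  have htmem : ∀ u ∈ Sp (Gr (n + 1) : Set (List H)), Θ u ∈ Sp (Gr (n + 2)) :=
    fun u hu => Sp_mono Set.inter_subset_right (hp.t_mem u hu)
  refine ⟨m, by have := hp.pos; omega, ?_⟩
  let f : Ch H →ₗ[ℤ] Ch H := ∑ j ∈ Finset.range (n + 2), (m • s) ∘ₗ flt j -
    bd ∘ₗ Θ ∘ₗ flt (n + 1)
  have hfu : ∀ q, ∀ u ∈ Sp (Gr q : Set (List H)), f u =
      (if q < n + 2 then m • s u else 0) - (if q = n + 1 then bd (Θ u) else 0) := by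
    intro q u hu
    have h1 : (∑ j ∈ Finset.range (n + 2), (m • s) ∘ₗ flt j) u =
        (if q < n + 2 then m • s u else 0) := by
      rw [LinearMap.sum_apply]
      split_ifs with hq
      · rw [Finset.sum_eq_single q]
        · rw [LinearMap.comp_apply, flt_eq hu]; rfl
        · intro j _ hj
          rw [LinearMap.comp_apply, flt_eq_zero (Ne.symm hj) hu, map_zero]
        · intro hq'
          exact absurd (Finset.mem_range.mpr hq) hq'
      · apply Finset.sum_eq_zero
        intro j hj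
        rw [Finset.mem_range] at hj
        rw [LinearMap.comp_apply, flt_eq_zero (by omega) hu, map_zero]
    show (∑ j ∈ Finset.range (n + 2), (m • s) ∘ₗ flt j) u - bd (Θ (flt (n + 1) u)) = _
    rw [h1]
    congr 1
    split_ifs with hq
    · subst hq
      rw [flt_eq hu]
    · rw [flt_eq_zero hq hu, map_zero, map_zero]
  have hfact : ∀ (g : H) (u : Ch H), f (act g u) = act g (f u) := by
    intro g u
    simp only [f, LinearMap.sub_apply, LinearMap.sum_apply, LinearMap.comp_apply, flt_act,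
      LinearMap.smul_apply, hp.s_eq, hp.t_eq, bd_act, map_sub, map_sum, map_smul]
  have hfmem : ∀ q, ∀ u ∈ Sp (Gr q : Set (List H)), f u ∈ Sp (Gr q) := by
    intro q u hu
    rw [hfu q u hu]
    apply Submodule.sub_mem
    · split_ifs with hq
      · exact Submodule.smul_mem _ _ (hsmem _ (by omega) u hu)
      · exact Submodule.zero_mem _
    · split_ifs with hq
      · subst hq
        exact bd_mem_Gr (htmem u hu)
      · exact Submodule.zero_mem _
  have hfnil : f (single [] 1) = m • single [] 1 := by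
    rw [hfu 0 _ (single_mem_Sp (by simp [Gr]) 1), if_pos (by omega), if_neg (by omega), hp.s_nil,
      sub_zero]
  have hfbd : ∀ q, ∀ u ∈ Sp (Gr q : Set (List H)), bd (f u) = f (bd u) := by
    intro q u hu
    rcases q with _ | q
    · rw [bd_of_Gr_zero hu, bd_of_Gr_zero (hfmem 0 u hu), map_zero]
    · rw [hfu _ u hu, hfu q _ (bd_mem_Gr hu)]
      rcases lt_trichotomy (q + 1) (n + 2) with h | h | h
      · rw [if_pos h, if_pos (by omega : q < n + 2), if_neg (by omega : ¬ q = n + 1), sub_zero,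
          map_sub, map_smul, hp.s_bd _ (by omega) u hu]
        split_ifs with h'
        · rw [bd_bd, sub_zero]
        · rw [map_zero, sub_zero]
      · have hq : q = n + 1 := by omega
        subst hq
        rw [if_neg (by omega), if_neg (by omega), sub_zero, map_zero, if_pos (by omega),
          if_pos rfl, hp.t_bd _ (bd_mem_Gr hu) (bd_bd u), sub_self]
      · rw [if_neg (by omega), if_neg (by omega), if_neg (by omega), if_neg (by omega), sub_zero,
          map_zero]
  intro M _ ρ q hq z hz hbz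
  have hK := kapf_act (a := m) hfact
  -- the homotopy formula with coefficients
  have hform : ∀ w ∈ DG H M q, bM (tm (kapf f m q) w) = -(m • w) - tm (kapf f m (q - 1)) (bM w) := by
    intro w hw
    have := dg_ext (f := bM.comp (tm (kapf f m q)))
      (g := -(m • AddMonoidHom.id (CM H M)) - (tm (kapf f m (q - 1))).comp bM) (fun u x hu => by
      have h1 := bd_kapf hfnil hfbd q u hu
      rw [hfu q u hu, if_neg (by omega), if_neg (by omega), sub_zero, zero_sub] at h1
      show tp (bd (kapf f m q u)) x = -(m • tp u x) - tp (kapf f m (q - 1) (bd u)) x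
      rw [h1, tp_sub_left, tp_neg_left, tp_smul_left]) hw
    exact this
  refine ⟨-(tm (kapf f m q) z), AddSubgroup.neg_mem _ (tm_mem (kapf_mem hfmem q) hz), ?_⟩
  have h2 : m • z - bM (-(tm (kapf f m q) z)) = - tm (kapf f m (q - 1)) (bM z) := by
    rw [map_neg, hform z hz]; abel
  rw [h2]
  apply AddSubgroup.neg_mem
  apply tm_Rl (fun g _ u => hK (q - 1) g u) _ hbz
  intro v hv
  have h3 : tm (kapf f m (q - 1)) v = 0 := by
    have := dg_ext (f := tm (kapf f m (q - 1))) (g := (0 : CM H M →+ CM H M)) (fun u x hu => by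
      have : kapf f m (q - 1) u = 0 := by
        have := eq_of_Sp (L := kapf f m (q - 1)) (L' := 0) (p := Gr 0) (u := u) (by
          intro l hl
          have : l = [] := List.length_eq_zero_iff.mp hl
          subst this
          rw [kapf_nil]; rfl) hu
        simpa using this
      rw [tm_tp, this, tp_zero_left]; rfl) hv
    simpa using this
  rw [h3]
  exact AddSubgroup.zero_mem _

end Vale.Agent.P188.H882

end

section

/-!
P188, end of route A: `EndA` from `QA6`, `QA8` and the duality part.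
-/

universe u v w

namespace Vale.Agent.P188.QA7

open Vale.Agent.P188.H796 Finsupp
open scoped commutatorElement Pointwise

/-- the hypotheses of `QA6` which come from the duality of `P` -/
def DOut (n : ℕ) (P : Type) [Group P] : Prop :=
  (∀ (M : Type) [AddCommGroup M] (ρ : P →* AddMonoid.End M), ∀ q ≥ n + 2,
      ∃ m : ℤ, m ≠ 0 ∧ ∀ z ∈ H882.DG P M q, H882.bM z ∈ H882.Rl ρ (⊤ : Subgroup P) →
        H882.Null ρ ⊤ q (m • z)) ∧
  ∃ c : Ch P →ₗ[ℤ] ℤ, (∀ (g : P) (u : Ch P), c (act g u) = c u) ∧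
      (∀ u ∈ Sp (Gr (n + 2) : Set (List P)), c (bd u) = 0) ∧
      ∃ z ∈ Sp (Gr (n + 1) : Set (List P)),
        H882.bM (H882.tp z (1 : ℤ)) ∈
          H882.Rl (X := P) (M := ℤ) (1 : P →* AddMonoid.End ℤ) (⊤ : Subgroup P) ∧
        c z ≠ 0

/-- **the duality part** (D1-D4 and QA5) -/
def DPart : Prop :=
  ∀ (n : ℕ) (Γ H : Type) [Group Γ] [Group H] [Group.FG H], PolyZ n Γ → CoarseEquiv H Γ →
    ∃ Hp : Subgroup H, Hp.FiniteIndex ∧ ∀ P : Subgroup H, P ≤ Hp → P.FiniteIndex → DOut n P

/-- the end of route A, for a group without finite normal obstruction -/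
theorem endA_core (h6 : H882.QA6) (h8 : H882.QA8) {n : ℕ} {H : Type} [Group H] [Group.FG H]
    {Hp : Subgroup H} (hHp : Hp.FiniteIndex)
    (hD : ∀ P : Subgroup H, P ≤ Hp → P.FiniteIndex → DOut n P)
    {K C : Subgroup H} [hK : K.Normal] [hC : C.Normal] (hCK : C ≤ K) (hfi : C.relIndex K ≠ 0)
    (hcomm : ∀ x y : H, ⁅x, y⁆ ∈ K) {D : ℕ}
    (hCS : ∀ B : Subgroup H, B ≤ C → B.FG → ∃ h ≤ D, H882.CS (B : Set H) h B) :
    IsVirtuallyPolycyclic H := by
  classical
  have hHpfg : Group.FG Hp := Subgroup.fg_of_index_ne_zero _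
  obtain ⟨k, f, hf1, hf2⟩ := exists_coords' (K.subgroupOf Hp) (fun x y => by
    rw [Subgroup.mem_subgroupOf]
    exact hcomm x y)
  have hle : C.subgroupOf Hp ≤ K.subgroupOf Hp := Subgroup.comap_mono hCK
  have hfi' : (C.subgroupOf Hp).relIndex (K.subgroupOf Hp) ≠ 0 :=
    Subgroup.relIndex_comap_ne_zero _ hfi
  have hfi2 : ((C.subgroupOf Hp).subgroupOf f.ker).FiniteIndex := by
    refine ⟨?_⟩
    show (C.subgroupOf Hp).relIndex f.ker ≠ 0
    rw [← Subgroup.relIndex_mul_relIndex _ _ _ hle hf1]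
    exact mul_ne_zero hfi' hf2
  obtain ⟨l, P₀, hP₀, hint, hcm, hzc⟩ := h8 Hp (C.subgroupOf Hp) f.ker (hle.trans hf1) hfi2 k f rfl
  let P : Subgroup H := P₀.map Hp.subtype
  have hPle : P ≤ Hp := Subgroup.map_subtype_le P₀
  have hPfi : P.FiniteIndex := by
    refine ⟨?_⟩
    rw [Subgroup.index_map_subtype]
    exact mul_ne_zero hP₀.index_ne_zero hHp.index_ne_zero
  -- the isomorphism
  let e : P₀ ≃* P := P₀.equivMapOfInjective Hp.subtype Hp.subtype_injective
  have he : ∀ x : P₀, ((e x : P) : H) = ((x : Hp) : H) := fun x => rfl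
  have hKe : ((C.subgroupOf Hp).subgroupOf P₀).map e.toMonoidHom = C.subgroupOf P := by
    ext y
    constructor
    · rintro ⟨x, hx, rfl⟩
      exact hx
    · intro hy
      obtain ⟨x, rfl⟩ := e.surjective y
      exact ⟨x, hy, rfl⟩
  have hZ : H882.ZC (C.subgroupOf P) l ⊤ := by
    have h1 := zc_map e.toMonoidHom e.injective l ⊤ hzc
    rw [hKe, Subgroup.map_top_of_surjective _ e.surjective] at h1
    exact h1
  obtain ⟨hvan, c, hc1, hc2, z, hz1, hz2, hz3⟩ := hD P hPle hPfi
  have hKfg : (C.subgroupOf P).FG := by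
    refine h6 P (C.subgroupOf P) ?_ l hZ D ?_ n hvan c hc1 hc2 z hz1 hz2 hz3
    · intro a b
      obtain ⟨a, rfl⟩ := e.surjective a
      obtain ⟨b, rfl⟩ := e.surjective b
      exact hcm a b
    · intro B hB hBfg
      have h1 : B.map P.subtype ≤ C := by
        rintro _ ⟨x, hx, rfl⟩
        exact hB hx
      obtain ⟨h, hh, hcs⟩ := hCS (B.map P.subtype) h1 (fg_map hBfg P.subtype)
      refine ⟨h, hh, ?_⟩
      have h2 := cs_comap P.subtype P.subtype_injective h (B.map P.subtype)
        (Subgroup.map_le_range _ _) hcs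
      have h3 : (B.map P.subtype).comap P.subtype = B :=
        Subgroup.comap_map_eq_self_of_injective P.subtype_injective B
      rw [h3] at h2
      have h4 : P.subtype ⁻¹' ((B.map P.subtype : Subgroup H) : Set H) = (B : Set P) := by
        have := congrArg (fun X : Subgroup P => (X : Set P)) h3
        exact this
      rwa [h4] at h2
  -- conclusion
  have h1 : ((C.subgroupOf P).map P.subtype) ≤ C := by
    rintro _ ⟨x, hx, rfl⟩
    exact hx
  obtain ⟨h, -, hcs⟩ := hCS _ h1 (fg_map hKfg P.subtype)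
  have hpc : PCS ((C.subgroupOf P).map P.subtype) := pcs_of_cs h _ hcs
  have hZ' := zc_map P.subtype P.subtype_injective l ⊤ hZ
  have hPpc := pcs_of_zc hpc l _ hZ'
  rw [← MonoidHom.range_eq_map, Subgroup.range_subtype] at hPpc
  exact isVirtuallyPolycyclic_iff.2 ⟨P, hPfi, hPpc⟩

theorem dPart : DPart := by
  intro n Γ H _ _ _ hZ hc
  obtain ⟨Hp, hHp, h⟩ := H882.d4P hc hZ
  refine ⟨Hp, hHp, fun P hP hPf => ⟨fun M _ ρ q hq => ?_, h P hP hPf⟩⟩
  obtain ⟨m, hm, h5⟩ := H882.qa5 ((coarseEquiv_of_finiteIndex P hPf).symm.trans hc) hZ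
  exact ⟨m, hm, h5 M ρ q hq⟩

/-- **The algebraic end of route A**, from `QA6`. -/
theorem endA_of (h6 : H882.QA6) : H789.EndA := by
  classical
  intro n Γ H _ _ _ hZ hc K hKn hcomm D hG
  obtain ⟨m, hm0, hm⟩ := card_dvd_of_coarseEquiv hc hZ
  obtain ⟨C, T, hCc, hTc, hCfi, hTC, hTfin, hiso, hCS⟩ := qa7 K m D (fun F hF => by
    have h1 : Finite (F.map K.subtype) :=
      Finite.of_equiv F (F.equivMapOfInjective K.subtype K.subtype_injective).toEquiv
    have h2 := Nat.le_of_dvd hm0 (hm _ h1)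
    rwa [Nat.card_congr (F.equivMapOfInjective K.subtype K.subtype_injective).toEquiv.symm] at h2)
    hG
  let T' : Subgroup H := T.map K.subtype
  have hT'n : T'.Normal := inferInstance
  have hT'f : Finite T' :=
    Finite.of_equiv T (T.equivMapOfInjective K.subtype K.subtype_injective).toEquiv
  let C' : Subgroup H := C.map K.subtype
  have hC'n : C'.Normal := inferInstance
  have hTC' : T' ≤ C' := Subgroup.map_mono hTC
  have hCK' : C' ≤ K := Subgroup.map_subtype_le C
  let ι : K ⧸ T →* H ⧸ T' := QuotientGroup.map T T' K.subtype (Subgroup.le_comap_map _ _)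
  have hι : Function.Injective ι := by
    rw [← MonoidHom.ker_eq_bot_iff, eq_bot_iff]
    intro x hx
    obtain ⟨x, rfl⟩ := QuotientGroup.mk'_surjective T x
    rw [MonoidHom.mem_ker] at hx
    have h1 : QuotientGroup.mk' T' (x : H) = 1 := hx
    rw [← MonoidHom.mem_ker, QuotientGroup.ker_mk'] at h1
    obtain ⟨y, hy, hyx⟩ := h1
    have h2 : y = x := Subtype.ext hyx
    rw [h2] at hy
    rw [Subgroup.mem_bot, ← MonoidHom.mem_ker, QuotientGroup.ker_mk']
    exact hy
  refine stFinExt H T' hT'f ?_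
  obtain ⟨Hp, hHp, hD⟩ := dPart n Γ (H ⧸ T') hZ ((coarseEquiv_quot T').trans hc)
  have hKn' : (K.map (QuotientGroup.mk' T')).Normal :=
    Subgroup.Normal.map hKn _ (QuotientGroup.mk'_surjective T')
  have hCn' : (C'.map (QuotientGroup.mk' T')).Normal :=
    Subgroup.Normal.map hC'n _ (QuotientGroup.mk'_surjective T')
  refine endA_core h6 H235.qa8 hHp hD (K := K.map (QuotientGroup.mk' T'))
    (C := C'.map (QuotientGroup.mk' T')) (Subgroup.map_mono hCK') ?_ ?_ (D := D) ?_
  · rw [Subgroup.relIndex_map_map, QuotientGroup.ker_mk', sup_eq_left.2 hTC',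
      sup_eq_left.2 (hTC'.trans hCK')]
    have h1 : (⊤ : Subgroup K).map K.subtype = K := by
      rw [← MonoidHom.range_eq_map, Subgroup.range_subtype]
    have h2 : C'.relIndex K = C.index := by
      rw [← Subgroup.relIndex_top_right,
        ← Subgroup.relIndex_map_map_of_injective C ⊤ K.subtype_injective, h1]
    rw [h2]
    exact hCfi.index_ne_zero
  · intro x y
    obtain ⟨x, rfl⟩ := QuotientGroup.mk'_surjective T' x
    obtain ⟨y, rfl⟩ := QuotientGroup.mk'_surjective T' y
    rw [← map_commutatorElement]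
    exact Subgroup.mem_map_of_mem _ (hcomm x y)
  · intro B hB hBfg
    have h1 : C'.map (QuotientGroup.mk' T') = (C.map (QuotientGroup.mk' T)).map ι := by
      rw [Subgroup.map_map, Subgroup.map_map]
      rfl
    rw [h1] at hB
    have h2 : (B.comap ι).map ι = B := map_comap_of_le ι (hB.trans (Subgroup.map_le_range _ _))
    have h3 : (B.comap ι).FG := fg_of_map_injective ι hι (by rw [h2]; exact hBfg)
    have h4 : B.comap ι ≤ C.map (QuotientGroup.mk' T) := by
      have := Subgroup.comap_mono (f := ι) hB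
      rwa [Subgroup.comap_map_eq_self_of_injective hι] at this
    obtain ⟨h, hh, hcs⟩ := hCS _ h4 h3
    refine ⟨h, hh, ?_⟩
    have h5 := cs_map ι hι h _ hcs
    rw [h2] at h5
    have h6 : ι '' ((B.comap ι : Subgroup (K ⧸ T)) : Set (K ⧸ T)) = (B : Set (H ⧸ T')) := by
      have := congrArg (fun X : Subgroup (H ⧸ T') => (X : Set (H ⧸ T'))) h2
      exact this
    rwa [h6] at h5

end Vale.Agent.P188.QA7

end

section

/-!
P188: the algebraic end of route A is a theorem; rigidity follows from `OutA`.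
-/

universe u v

namespace Vale.Agent.P188.QA7

/-- **(QA6)** -/
theorem qa6 : H882.QA6 := H882.qa6_of_top H882.qa6b_top

/-- **The algebraic end of route A.** -/
theorem endA : H789.EndA := endA_of qa6

/-- **Rigidity from the analytic output of route A.** -/
theorem rigidity_of_outA (hA : H789.OutA) {H : Type u} {G : Type v} [Group H] [Group G]
    (hG : IsVirtuallyPolycyclic G) (hQ : QuasiIsometric H G) : IsVirtuallyPolycyclic H :=
  H789.rigidity_of_outA hA endA hG hQ

end Vale.Agent.P188.QA7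

end
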