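import Vale.Agent.P188.R.G052
import Vale.Agent.P188.R.G037
import Vale.Agent.P188.R.G053
import Vale.Agent.P188.R.G050

section

/-!
The group `S` of a Malcev basis satisfies the hypotheses of the Cartan block.
-/

open scoped commutatorElement

universe u

namespace Vale.Agent.P188.H269

open Vale.Agent.P188.H796 Vale.Agent.P188.H615

variable {Γ : Type u} [Group Γ] {N : Subgroup Γ} [hN : N.Normal] {d n : ℕ} (D : MB N d n)

/-- **the group `S` satisfies `ExpS`** -/
theorem expS (habel : ∀ a b : Γ, ⁅a, b⁆ ∈ N) : ExpS D.AdE (D.ex : D.R.V → D.S) where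
  zero := by
    rw [MB.ex, D.R.Ex_zero, map_one]
  neg v := by
    rw [MB.ex, D.R.Ex_neg, map_inv]; rfl
  inj := D.ex_injective
  conj s v := by
    rw [D.AdE_apply, D.ex_Ad]
  mul_ideal I v w hw := by
    have h := Lo_Ex_mul_Ex' D.R (H := ⊤) (I := I.toSubmodule)
      (I' := (⁅(⊤ : LieIdeal ℝ D.R.V), I⁆ : LieIdeal ℝ D.R.V).toSubmodule) le_top
      (LieSubmodule.lie_le_right _ _)
      (fun x _ y hy => LieSubmodule.lie_mem_lie (LieSubmodule.mem_top x) hy)
      (v := v) (w := w) trivial hw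
    refine ⟨_, h, ?_⟩
    rw [MB.ex, MB.ex, MB.ex, ← map_mul]
    congr 1
    apply D.R.Lo_injective
    rw [D.R.Lo_Ex]
    abel
  mul_sub h v w hv hw := by
    have h1 := (ExS D.R h.toSubmodule (fun x hx y hy => h.lie_mem hx hy)).mul_mem
      (x := D.R.Ex v) (y := D.R.Ex w)
      ((mem_ExS D.R).2 (by rw [D.R.Lo_Ex]; exact hv)) ((mem_ExS D.R).2 (by rw [D.R.Lo_Ex]; exact hw))
    refine ⟨_, (mem_ExS D.R).1 h1, ?_⟩
    rw [MB.ex, MB.ex, MB.ex, ← map_mul, D.R.Ex_Lo]
  comm a b := by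
    obtain ⟨k, hk⟩ := D.comm_mem habel a b
    refine ⟨D.R.Lo k, ?_⟩
    rw [MB.ex, D.R.Ex_Lo, hk]
  lie s x y := D.Ad_lie s x y
  ad v U U' hU h x hx := by
    rw [D.AdE_apply, MB.ex, D.Ad_inN]
    refine Adn_Ex_sub_mem' D.R (H := Submodule.span ℝ {v}) hU ?_
      (Submodule.mem_span_singleton_self v) hx
    intro y hy z hz
    obtain ⟨c, rfl⟩ := Submodule.mem_span_singleton.1 hy
    rw [smul_lie]
    exact U'.smul_mem c (h z hz)
  nil := inferInstance

end Vale.Agent.P188.H269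

end

section

/-!
P188, Z1, RM-b: generator weights of `N` are eigenfunctionals of the adjoint representation of `S`
which kill all brackets.
-/

set_option linter.all false

universe u v

open Finset Filter Topology
open scoped commutatorElement

namespace Vale.Agent.P188.H953

open Vale.Agent.P188.H796 Vale.Agent.P188.H269 Vale.Agent.P188.H615
open Vale.Agent.P188.H754 (GenWeight)

section

variable {Γ : Type u} [Group Γ] {N : Subgroup Γ} [hN : N.Normal] {d n : ℕ} (D : MB N d n)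

/-- the linear extension of the homomorphism of a generator weight -/
noncomputable def Lam (w : GenWeight N) : D.Alg →ₗ[ℝ] ℂ :=
  ∑ i, (D.R.ℓ i).smulRight (w.φ (D.b i))

theorem Lam_apply (w : GenWeight N) (a : D.Alg) :
    Lam D w a = ∑ i, D.R.ℓ i a • w.φ (D.b i) := by
  simp [Lam, LinearMap.sum_apply]

/-- the homomorphism of a generator weight, on `N` -/
def phN (w : GenWeight N) : N →* Multiplicative ℂ where
  toFun x := Multiplicative.ofAdd (w.φ x)
  map_one' := by rw [Subgroup.coe_one, w.φ_one]; rfl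
  map_mul' x y := by rw [Subgroup.coe_mul, w.φ_mul x x.2 y y.2]; rfl

theorem Lam_ι (w : GenWeight N) (y : N) : Lam D w (D.R.toA (D.R.ι y)) = w.φ y := by
  rw [Lam_apply]
  have h1 : ∀ i, D.R.ℓ i (D.R.toA (D.R.ι y)) = (D.c i y : ℝ) := fun i => D.R.ℓ_toA _ i
  have h2 : phN w y = ∏ i, phN w (D.b i) ^ D.c i y := by
    conv_lhs => rw [← D.prod_c y]
    rw [map_list_prod, List.map_ofFn, List.prod_ofFn]
    refine Finset.prod_congr rfl fun i _ => ?_
    simp only [Function.comp_apply, map_zpow]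
  have h3 : w.φ y = ∑ i, D.c i y • w.φ (D.b i) := by
    have := congrArg Multiplicative.toAdd h2
    rw [toAdd_prod] at this
    exact this
  rw [h3]
  refine Finset.sum_congr rfl fun i _ => ?_
  rw [h1, Complex.real_smul, zsmul_eq_mul]
  push_cast
  rfl

theorem Lam_mul (w : GenWeight N) (s s' : D.R.NR) :
    Lam D w (D.R.toA (s * s')) = Lam D w (D.R.toA s) + Lam D w (D.R.toA s') := by
  have key : ∀ (y' : N) (s : D.R.NR), Lam D w (D.R.toA s * D.R.toA (D.R.ι y')) =
      Lam D w (D.R.toA s) + Lam D w (D.R.toA (D.R.ι y')) := by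
    intro y'
    refine D.R.dens ?_ ?_ ?_
    · intro γ hγ
      exact ((D.R.PC_E hγ).mul (PC.const _)).map (Lam D w)
    · intro γ hγ
      exact ((D.R.PC_E hγ).map (Lam D w)).add (PC.const _)
    · intro y
      rw [← map_mul, ← map_mul, Lam_ι, Lam_ι, Lam_ι]
      exact w.φ_mul y y.2 y' y'.2
  rw [map_mul]
  revert s'
  refine D.R.dens ?_ ?_ ?_
  · intro γ hγ
    exact ((PC.const _).mul (D.R.PC_E hγ)).map (Lam D w)
  · intro γ hγ
    exact (PC.const _).add ((D.R.PC_E hγ).map (Lam D w))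
  · intro y'
    exact key y' s

/-- the functional on the Lie algebra -/
noncomputable def lam (w : GenWeight N) : D.R.V →ₗ[ℝ] ℂ := (Lam D w).comp D.R.V.subtype

theorem lam_apply (w : GenWeight N) (v : D.R.V) : lam D w v = Lam D w (v : D.Alg) := rfl

theorem Lam_one (w : GenWeight N) : Lam D w (D.R.toA 1) = 0 := by
  have h := Lam_mul D w 1 1
  rw [mul_one] at h
  linear_combination -h

theorem Lam_inv (w : GenWeight N) (s : D.R.NR) :
    Lam D w (D.R.toA s⁻¹) = - Lam D w (D.R.toA s) := by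
  have h := Lam_mul D w s s⁻¹
  rw [mul_inv_cancel, Lam_one] at h
  linear_combination -h

theorem Lam_Ex (w : GenWeight N) (v : D.R.V) : Lam D w (D.R.toA (D.R.Ex v)) = lam D w v := by
  -- the additive function `t ↦ Λ (Ex (t v))`
  let f : ℝ →+ ℂ :=
    { toFun := fun t => Lam D w (D.R.toA (D.R.Ex (t • v)))
      map_zero' := by rw [zero_smul, D.R.Ex_zero, Lam_one]
      map_add' := fun s t => by rw [D.R.Ex_add, Lam_mul] }
  have hf : ∀ t, f t = Lam D w (ex D.R.m (t • (v : D.Alg))) := by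
    intro t
    change Lam D w (D.R.toA (D.R.Ex (t • v))) = _
    rw [D.R.toA_Ex]; rfl
  have hvm : ((v : D.Alg)) ^ D.R.m = 0 := D.R.J_nil v.2.1
  have hL : Continuous (Lam D w) := (Lam D w).continuous_of_finiteDimensional
  have hcont : Continuous f := by
    have : (f : ℝ → ℂ) = fun t => Lam D w (ex D.R.m (t • (v : D.Alg))) := funext hf
    rw [this]
    exact hL.comp (continuous_ex.comp (continuous_id.smul continuous_const))
  have hlin : ∀ t : ℝ, f t = t • f 1 := by
    intro t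
    have := map_real_smul f hcont t (1 : ℝ)
    rwa [smul_eq_mul, mul_one] at this
  have hd1 : HasDerivAt (fun t : ℝ => Lam D w (ex D.R.m (t • (v : D.Alg)))) (Lam D w (v : D.Alg)) 0 := by
    have h1 := hasDerivAt_ex (m := D.R.m) hvm 0
    rw [ex_zero_smul D.R.hm0, one_mul] at h1
    exact (LinearMap.toContinuousLinearMap (Lam D w)).hasFDerivAt.comp_hasDerivAt (0 : ℝ) h1
  have hd2 : HasDerivAt (fun t : ℝ => Lam D w (ex D.R.m (t • (v : D.Alg)))) (f 1) 0 := by
    have h1 : (fun t : ℝ => Lam D w (ex D.R.m (t • (v : D.Alg)))) = fun t => t • f 1 := by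
      funext t
      rw [← hf, hlin]
    rw [h1]
    have := (hasDerivAt_id (0 : ℝ)).smul_const (f 1)
    simpa using this
  have h3 := hd1.unique hd2
  rw [lam_apply, h3]
  change _ = Lam D w (D.R.toA (D.R.Ex ((1 : ℝ) • v)))
  rw [one_smul]

theorem lam_Lo (w : GenWeight N) (s : D.R.NR) : lam D w (D.R.Lo s) = Lam D w (D.R.toA s) := by
  rw [← Lam_Ex, D.R.Ex_Lo]

theorem lam_Adn (w : GenWeight N) (s : D.R.NR) (v : D.R.V) :
    lam D w (D.R.Adn s v) = lam D w v := by
  rw [← Lam_Ex, D.R.Ex_Adn, Lam_mul, Lam_mul, Lam_inv, Lam_Ex]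
  ring

/-- the functional kills the brackets -/
theorem lam_lie (w : GenWeight N) (x y : D.R.V) : lam D w ⁅x, y⁆ = 0 := by
  have h1 : ∀ t : ℝ, ∑ k ∈ range (2 * D.R.m), t ^ k •
      (((k.factorial : ℝ)⁻¹) • lam D w (((LieAlgebra.ad ℝ D.R.V x) ^ k) y)) = lam D w y := by
    intro t
    have h2 := lam_Adn D w (D.R.Ex (t • x)) y
    rw [D.R.Adn_Ex, map_sum] at h2
    rw [← h2]
    refine Finset.sum_congr rfl fun k _ => ?_
    rw [map_smul, map_smul, smul_pow, LinearMap.smul_apply, map_smul, smul_comm]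
  have hd1 : HasDerivAt (fun t : ℝ => ∑ k ∈ range (2 * D.R.m), t ^ k •
      (((k.factorial : ℝ)⁻¹) • lam D w (((LieAlgebra.ad ℝ D.R.V x) ^ k) y))) 0 0 := by
    have : (fun t : ℝ => ∑ k ∈ range (2 * D.R.m), t ^ k •
      (((k.factorial : ℝ)⁻¹) • lam D w (((LieAlgebra.ad ℝ D.R.V x) ^ k) y))) =
        fun _ => lam D w y := funext h1
    rw [this]
    exact hasDerivAt_const _ _
  have hd2 : HasDerivAt (fun t : ℝ => ∑ k ∈ range (2 * D.R.m), t ^ k •
      (((k.factorial : ℝ)⁻¹) • lam D w (((LieAlgebra.ad ℝ D.R.V x) ^ k) y)))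
      (∑ k ∈ range (2 * D.R.m), ((k : ℝ) * 0 ^ (k - 1)) •
      (((k.factorial : ℝ)⁻¹) • lam D w (((LieAlgebra.ad ℝ D.R.V x) ^ k) y))) 0 := by
    refine HasDerivAt.fun_sum fun k _ => ?_
    exact (hasDerivAt_pow k (0 : ℝ)).smul_const _
  have h3 := hd1.unique hd2
  have hm : 1 ∈ range (2 * D.R.m) := by
    have := D.R.one_lt
    rw [Finset.mem_range]; omega
  rw [Finset.sum_eq_single_of_mem 1 hm] at h3
  · simpa using h3.symm
  · intro k _ hk
    rcases Nat.eq_zero_or_pos k with rfl | hk0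
    · simp
    · have : k - 1 ≠ 0 := by omega
      rw [zero_pow this, mul_zero, zero_smul]

/-- equivariance -/
theorem Lam_αΓ (w : GenWeight N) (g : Γ) (s : D.R.NR) :
    Lam D w (D.R.toA (D.αΓ g s)) = w.ρ g * Lam D w (D.R.toA s) := by
  have h0 : ∀ s : D.R.NR, D.R.toA (D.αΓ g s) = D.Th (MulAut.conjNormal g) (D.R.toA s) :=
    fun s => D.toA_actM _ s
  have key : ∀ s : D.R.NR, Lam D w (D.Th (MulAut.conjNormal g) (D.R.toA s)) =
      w.ρ g * Lam D w (D.R.toA s) := by
    refine D.R.dens ?_ ?_ ?_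
    · intro γ hγ
      exact ((D.R.PC_E hγ).map (D.Th (MulAut.conjNormal g)).toLinearMap).map (Lam D w)
    · intro γ hγ
      exact ((D.R.PC_E hγ).map (Lam D w)).map (LinearMap.mulLeft ℝ (w.ρ g))
    · intro y
      rw [← h0, D.αΓ_ι, Lam_ι, Lam_ι]
      exact w.φ_conj g y y.2
  rw [h0, key]

theorem lam_AdΓ (w : GenWeight N) (g : Γ) (v : D.R.V) :
    lam D w (D.AdΓ g v) = w.ρ g * lam D w v := by
  rw [← Lam_Ex, D.Ex_AdΓ, Lam_αΓ, Lam_Ex]

/-- the character of `S` -/
noncomputable def chS (w : GenWeight N) : D.S →* ℂˣ :=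
  D.P.lift w.ρ.toHomUnits (fun x => Units.ext (w.ρ_of_mem x.2))

theorem chS_inΓ (w : GenWeight N) (g : Γ) : ((chS D w (D.inΓ g) : ℂˣ) : ℂ) = w.ρ g := by
  unfold chS
  rw [D.P.lift_inG]; rfl

theorem chS_inN (w : GenWeight N) (k : D.R.NR) : chS D w (D.inN k) = 1 := by
  unfold chS
  rw [D.P.lift_inK]

theorem lam_AdE (w : GenWeight N) (s : D.S) (v : D.R.V) :
    lam D w (D.AdE s v) = (chS D w s : ℂ) * lam D w v := by
  obtain ⟨k, g, rfl⟩ := D.P.exists_eq s
  rw [D.AdE_apply, D.Ad_mul_apply, lam_Adn, lam_AdΓ, map_mul]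
  have h1 : chS D w (D.P.inK k) = 1 := chS_inN D w k
  have h2 : ((chS D w (D.P.inG g) : ℂˣ) : ℂ) = w.ρ g := chS_inΓ D w g
  rw [h1, one_mul, h2]

/-- **a generator weight is an eigenfunctional which kills the brackets** -/
theorem eigOn_lam (w : GenWeight N) :
    EigOn D.AdE ⊤ (lam D w) (fun s => (chS D w s : ℂ)) where
  inv _ _ _ := Submodule.mem_top
  ne := by
    obtain ⟨x, hx, hx0⟩ := w.φ_ne
    refine ⟨D.R.Lo (D.R.ι ⟨x, hx⟩), Submodule.mem_top, ?_⟩
    rw [lam_Lo, Lam_ι]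
    exact hx0
  eig s x _ := lam_AdE D w s x

end

/-! ### the converse -/

section conv

variable {Γ : Type u} [Group Γ] {N : Subgroup Γ} [hN : N.Normal] {d n : ℕ} (D : MB N d n)

end conv

end Vale.Agent.P188.H953

end
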