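import Vale.Agent.P188.R.G053
import Vale.Agent.P188.R.G001

section

/-!
A finitely generated normal subgroup `N` with abelian quotient `Γ / N ≅ ℤ^k` is at most exponentially
distorted.
-/

open Finset Filter Topology
open scoped commutatorElement

universe u v w

namespace Vale.Agent.P188.H796

open H615

section dist

variable {Γ : Type u} [Group Γ]

/-- subadditive functions on a normal subgroup with exponential growth under conjugation -/
structure NLen (N : Subgroup Γ) (ℓ : Γ → ℝ) : Prop where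
  nonneg : ∀ x, 0 ≤ ℓ x
  one : ℓ 1 = 0
  mul : ∀ x ∈ N, ∀ y ∈ N, ℓ (x * y) ≤ ℓ x + ℓ y
  inv : ∀ x ∈ N, ℓ x⁻¹ = ℓ x
  conj : ∀ γ : Γ, ∃ Λ : ℝ, 1 ≤ Λ ∧ ∀ x ∈ N, ℓ (γ * x * γ⁻¹) ≤ Λ * ℓ x
  comm : ∀ a b : Γ, ⁅a, b⁆ ∈ N
  norm : ∀ γ : Γ, ∀ x ∈ N, γ * x * γ⁻¹ ∈ N

variable {N : Subgroup Γ} {ℓ : Γ → ℝ} (H : NLen N ℓ)

include H

theorem NLen.conj_nat (b : Γ) : ∃ Λ : ℝ, 1 ≤ Λ ∧ ∀ p : ℕ, ∀ x ∈ N,
    ℓ (b ^ p * x * (b ^ p)⁻¹) ≤ Λ ^ p * ℓ x := by
  obtain ⟨Λ, h1, h2⟩ := H.conj b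
  refine ⟨Λ, h1, fun p => ?_⟩
  induction p with
  | zero => intro x _; simp
  | succ p ih =>
    intro x hx
    have e : b ^ (p + 1) * x * (b ^ (p + 1))⁻¹ = b * (b ^ p * x * (b ^ p)⁻¹) * b⁻¹ := by
      rw [pow_succ']; group
    have h3 := mul_le_mul_of_nonneg_left (ih x hx) (zero_le_one.trans h1)
    calc ℓ (b ^ (p + 1) * x * (b ^ (p + 1))⁻¹) = ℓ (b * (b ^ p * x * (b ^ p)⁻¹) * b⁻¹) := by rw [e]
      _ ≤ Λ * ℓ (b ^ p * x * (b ^ p)⁻¹) := h2 _ (H.norm _ x hx)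
      _ ≤ Λ * (Λ ^ p * ℓ x) := h3
      _ = Λ ^ (p + 1) * ℓ x := by ring

theorem NLen.conj_int (b : Γ) : ∃ Λ : ℝ, 1 ≤ Λ ∧ ∀ p : ℤ, ∀ x ∈ N,
    ℓ (b ^ p * x * (b ^ p)⁻¹) ≤ Λ ^ p.natAbs * ℓ x := by
  obtain ⟨Λ1, h1, h2⟩ := H.conj_nat b
  obtain ⟨Λ2, k1, k2⟩ := H.conj_nat b⁻¹
  refine ⟨max Λ1 Λ2, h1.trans (le_max_left _ _), fun p x hx => ?_⟩
  obtain ⟨q, rfl | rfl⟩ := p.eq_nat_or_neg
  · rw [Int.natAbs_natCast, zpow_natCast]
    refine (h2 q x hx).trans (mul_le_mul_of_nonneg_right ?_ (H.nonneg _))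
    exact pow_le_pow_left₀ (by linarith) (le_max_left _ _) _
  · rw [Int.natAbs_neg, Int.natAbs_natCast, zpow_neg, zpow_natCast, ← inv_pow]
    refine (k2 q x hx).trans (mul_le_mul_of_nonneg_right ?_ (H.nonneg _))
    exact pow_le_pow_left₀ (by linarith) (le_max_right _ _) _

theorem NLen.comm_nat (a b : Γ) : ∃ M : ℝ, 1 ≤ M ∧ ∀ p : ℕ, ℓ ⁅a, b ^ p⁆ ≤ M ^ (p + 1) := by
  obtain ⟨Λ, h1, h2⟩ := H.conj b
  have hc := H.nonneg ⁅a, b⁆
  refine ⟨Λ + ℓ ⁅a, b⁆ + 1, by linarith, fun p => ?_⟩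
  set M := Λ + ℓ ⁅a, b⁆ + 1 with hM
  have hM1 : 1 ≤ M := by linarith
  induction p with
  | zero =>
    rw [pow_zero, commutatorElement_one_right, H.one]
    positivity
  | succ p ih =>
    have e : ⁅a, b ^ (p + 1)⁆ = ⁅a, b⁆ * (b * ⁅a, b ^ p⁆ * b⁻¹) := by
      rw [pow_succ']
      simp only [commutatorElement_def]
      group
    rw [e]
    refine (H.mul _ (H.comm _ _) _ (H.norm _ _ (H.comm _ _))).trans ?_
    have h3 := h2 _ (H.comm a (b ^ p))
    have h4 : Λ * ℓ ⁅a, b ^ p⁆ ≤ Λ * M ^ (p + 1) := mul_le_mul_of_nonneg_left ih (by linarith)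
    have h5 : (1 : ℝ) ≤ M ^ (p + 1) := one_le_pow₀ hM1
    calc ℓ ⁅a, b⁆ + ℓ (b * ⁅a, b ^ p⁆ * b⁻¹) ≤ ℓ ⁅a, b⁆ * M ^ (p + 1) + Λ * M ^ (p + 1) := by
          nlinarith
      _ ≤ M * M ^ (p + 1) := by rw [← add_mul]; exact mul_le_mul_of_nonneg_right (by linarith) (by positivity)
      _ = M ^ (p + 1 + 1) := by ring

theorem NLen.comm_int (a b : Γ) : ∃ M : ℝ, 1 ≤ M ∧ ∀ p : ℤ, ℓ ⁅a, b ^ p⁆ ≤ M ^ (p.natAbs + 1) := by
  obtain ⟨Λ1, h1, h2⟩ := H.comm_nat a b
  obtain ⟨Λ2, k1, k2⟩ := H.comm_nat a b⁻¹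
  refine ⟨max Λ1 Λ2, h1.trans (le_max_left _ _), fun p => ?_⟩
  obtain ⟨q, rfl | rfl⟩ := p.eq_nat_or_neg
  · rw [Int.natAbs_natCast, zpow_natCast]
    exact (h2 q).trans (pow_le_pow_left₀ (by linarith) (le_max_left _ _) _)
  · rw [Int.natAbs_neg, Int.natAbs_natCast, zpow_neg, zpow_natCast, ← inv_pow]
    exact (k2 q).trans (pow_le_pow_left₀ (by linarith) (le_max_right _ _) _)

omit H in
/-- section of the quotient map -/
def sec : ∀ {k : ℕ}, (Fin k → Γ) → (Fin k → ℤ) → Γ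
  | 0, _, _ => 1
  | _ + 1, t, θ => t 0 ^ θ 0 * sec (fun i => t i.succ) (fun i => θ i.succ)

omit [Group Γ] H in
/-- size of an integer vector -/
def n1 {k : ℕ} (θ : Fin k → ℤ) : ℕ := ∑ i, (θ i).natAbs

omit H in
theorem sec_zero : ∀ {k : ℕ} (t : Fin k → Γ), sec t 0 = 1
  | 0, _ => rfl
  | _ + 1, t => by
    change t 0 ^ (0 : ℤ) * sec (fun i => t i.succ) 0 = 1
    rw [sec_zero, zpow_zero, mul_one]

theorem NLen.sec_step : ∀ {k : ℕ} (t : Fin k → Γ), ∃ M : ℝ, 1 ≤ M ∧ ∀ (i : Fin k) (θ : Fin k → ℤ),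
    t i * sec t θ * (sec t (θ + Pi.single i 1))⁻¹ ∈ N ∧
    ℓ (t i * sec t θ * (sec t (θ + Pi.single i 1))⁻¹) ≤ M ^ (1 + n1 θ)
  | 0, _ => ⟨1, le_rfl, fun i => Fin.elim0 i⟩
  | k + 1, t => by
    obtain ⟨M', hM', h'⟩ := NLen.sec_step (fun i => t i.succ)
    obtain ⟨Λ, hΛ, hc⟩ := H.conj_int (t 0)
    choose Mi hMi hcomm using fun i : Fin k => H.comm_int (t i.succ) (t 0)
    set X : ℝ := ∑ i, Mi i + 1 with hX
    have hXi : ∀ i, Mi i ≤ X := fun i => by
      have := single_le_sum (fun j (_ : j ∈ univ) => zero_le_one.trans (hMi j)) (mem_univ i)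
      linarith
    have hX1 : 1 ≤ X := by
      have := sum_nonneg fun j (_ : j ∈ univ) => zero_le_one.trans (hMi j)
      linarith
    have hY1 : 1 ≤ Λ * M' := one_le_mul_of_one_le_of_one_le hΛ hM'
    refine ⟨X + Λ * M', by linarith, ?_⟩
    intro i θ
    have hn : n1 θ = (θ 0).natAbs + n1 (fun i => θ i.succ) := by
      unfold n1; rw [Fin.sum_univ_succ]
    refine Fin.cases ?_ (fun j => ?_) i
    · have e : t 0 * sec t θ * (sec t (θ + Pi.single 0 1))⁻¹ = 1 := by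
        have e1 : sec t (θ + Pi.single 0 1) = t 0 * sec t θ := by
          change t 0 ^ ((θ + Pi.single 0 1 : Fin (k + 1) → ℤ) 0) *
            sec (fun i => t i.succ) (fun i => (θ + Pi.single 0 1 : Fin (k + 1) → ℤ) i.succ) =
              t 0 * (t 0 ^ θ 0 * sec (fun i => t i.succ) (fun i => θ i.succ))
          have e2 : (fun i : Fin k => (θ + Pi.single 0 1 : Fin (k + 1) → ℤ) i.succ) =
              fun i => θ i.succ := by
            funext i
            rw [Pi.add_apply, Pi.single_eq_of_ne (Fin.succ_ne_zero i), add_zero]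
          rw [e2, Pi.add_apply, Pi.single_eq_same, ← mul_assoc]
          congr 1
          exact (mul_self_zpow _ _).symm
        rw [e1, mul_inv_cancel]
      rw [e, H.one]
      exact ⟨N.one_mem, by positivity⟩
    · set a := t j.succ with ha
      set b := t 0 ^ θ 0 with hb
      set S' := sec (fun i => t i.succ) (fun i => θ i.succ) with hS'
      set S'' := sec (fun i => t i.succ) ((fun i => θ i.succ) + Pi.single j 1) with hS''
      have e1 : sec t θ = b * S' := rfl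
      have e2 : sec t (θ + Pi.single j.succ 1) = b * S'' := by
        change t 0 ^ ((θ + Pi.single j.succ 1 : Fin (k + 1) → ℤ) 0) *
            sec (fun i => t i.succ) (fun i => (θ + Pi.single j.succ 1 : Fin (k + 1) → ℤ) i.succ) =
              b * S''
        have e3 : (fun i : Fin k => (θ + Pi.single j.succ 1 : Fin (k + 1) → ℤ) i.succ) =
            (fun i => θ i.succ) + Pi.single j 1 := by
          funext i
          rw [Pi.add_apply, Pi.add_apply]
          congr 1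
          by_cases hij : i = j
          · subst hij; rw [Pi.single_eq_same, Pi.single_eq_same]
          · rw [Pi.single_eq_of_ne hij,
              Pi.single_eq_of_ne (fun h => hij (Fin.succ_injective _ h))]
        rw [e3, Pi.add_apply, Pi.single_eq_of_ne (Fin.succ_ne_zero j).symm, add_zero]
      obtain ⟨h1, h2⟩ := h' j (fun i => θ i.succ)
      have e3 : a * sec t θ * (sec t (θ + Pi.single j.succ 1))⁻¹ =
          ⁅a, b⁆ * (b * (a * S' * S''⁻¹) * b⁻¹) := by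
        rw [e1, e2, commutatorElement_def]; group
      rw [e3]
      refine ⟨N.mul_mem (H.comm _ _) (H.norm _ _ h1), ?_⟩
      refine (H.mul _ (H.comm _ _) _ (H.norm _ _ h1)).trans ?_
      have h3 : ℓ ⁅a, b⁆ ≤ X ^ (1 + n1 θ) := by
        refine (hcomm j (θ 0)).trans ?_
        calc Mi j ^ ((θ 0).natAbs + 1) ≤ X ^ ((θ 0).natAbs + 1) :=
              pow_le_pow_left₀ (by linarith [hMi j]) (hXi j) _
          _ ≤ X ^ (1 + n1 θ) := pow_le_pow_right₀ hX1 (by omega)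
      have h4 : ℓ (b * (a * S' * S''⁻¹) * b⁻¹) ≤ (Λ * M') ^ (1 + n1 θ) := by
        refine (hc (θ 0) _ h1).trans ?_
        calc Λ ^ (θ 0).natAbs * ℓ (a * S' * S''⁻¹)
            ≤ Λ ^ (θ 0).natAbs * M' ^ (1 + n1 fun i => θ i.succ) :=
              mul_le_mul_of_nonneg_left h2 (by positivity)
          _ ≤ Λ ^ (1 + n1 θ) * M' ^ (1 + n1 θ) := by
              refine mul_le_mul (pow_le_pow_right₀ hΛ (by omega))
                (pow_le_pow_right₀ hM' (by omega)) (by positivity) (by positivity)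
          _ = _ := (mul_pow _ _ _).symm
      refine (add_le_add h3 h4).trans ?_
      exact pow_add_pow_le (by linarith) (by linarith) (by omega)

end dist

section main

variable {Γ : Type u} [Group Γ] {k : ℕ} (η : Γ →* Multiplicative (Fin k → ℤ))

/-- the exponent vector -/
def ev (g : Γ) : Fin k → ℤ := Multiplicative.toAdd (η g)

theorem ev_mul (g h : Γ) : ev η (g * h) = ev η g + ev η h := by simp [ev]

theorem ev_inv (g : Γ) : ev η g⁻¹ = -ev η g := by simp [ev]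

theorem ev_one : ev η 1 = 0 := by simp [ev]

theorem mem_ker_iff_ev (g : Γ) : g ∈ η.ker ↔ ev η g = 0 := by
  rw [MonoidHom.mem_ker]
  exact Iff.rfl

theorem n1_add (θ θ' : Fin k → ℤ) : n1 (θ + θ') ≤ n1 θ + n1 θ' := by
  unfold n1
  rw [← sum_add_distrib]
  exact sum_le_sum fun i _ => Int.natAbs_add_le _ _

theorem n1_neg (θ : Fin k → ℤ) : n1 (-θ) = n1 θ := by
  unfold n1
  exact sum_congr rfl fun i _ => Int.natAbs_neg _

theorem n1_single (i : Fin k) : n1 (Pi.single i 1 : Fin k → ℤ) = 1 := by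
  unfold n1
  rw [sum_eq_single i]
  · rw [Pi.single_eq_same]; rfl
  · intro j _ hj; rw [Pi.single_eq_of_ne hj]; rfl
  · intro h; exact absurd (mem_univ i) h

variable {ℓ : Γ → ℝ} (H : NLen η.ker ℓ) (t : Fin k → Γ) (ht : ∀ i, ev η (t i) = Pi.single i 1)

/-- the remainder with respect to the section -/
def xr (g : Γ) : Γ := g * (sec t (ev η g))⁻¹

include ht in
theorem ev_sec (θ : Fin k → ℤ) : ev η (sec t θ) = θ := by
  have key : ∀ {l : ℕ} (s : Fin l → Γ) (v : Fin l → Fin k → ℤ), (∀ i, ev η (s i) = v i) →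
      ∀ θ : Fin l → ℤ, ev η (sec s θ) = ∑ i, θ i • v i := by
    intro l
    induction l with
    | zero => intro s v _ θ; simp [sec, ev_one]
    | succ l ih =>
      intro s v hs θ
      change ev η (s 0 ^ θ 0 * sec (fun i => s i.succ) (fun i => θ i.succ)) = _
      rw [ev_mul, ih _ (fun i => v i.succ) (fun i => hs i.succ), Fin.sum_univ_succ]
      congr 1
      rw [← hs 0]
      simp [ev]
  rw [key t _ ht θ]
  funext j
  rw [Finset.sum_apply]
  simp [Pi.single_apply]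

include ht in
theorem xr_mem (g : Γ) : xr η t g ∈ η.ker := by
  rw [mem_ker_iff_ev, xr, ev_mul, ev_inv, ev_sec η t ht, add_neg_cancel]

/-- control of the remainder under left multiplication -/
def Yp (γ : Γ) : Prop := ∃ M : ℝ, 1 ≤ M ∧ ∀ g, ℓ (xr η t (γ * g)) ≤
  M * ℓ (xr η t g) + M ^ (1 + n1 (ev η g))

include H in
theorem Yp_one : Yp η (ℓ := ℓ) t 1 := ⟨1, le_rfl, fun g => by rw [one_mul, one_mul]; simp⟩

include H in
theorem Yp_mul {γ δ : Γ} (h1 : Yp η (ℓ := ℓ) t γ) (h2 : Yp η (ℓ := ℓ) t δ) :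
    Yp η (ℓ := ℓ) t (γ * δ) := by
  obtain ⟨M1, hM1, h1⟩ := h1
  obtain ⟨M2, hM2, h2⟩ := h2
  have hq : (1 : ℝ) ≤ M1 ^ (1 + n1 (ev η δ)) := one_le_pow₀ hM1
  have h12 : 1 ≤ M1 * M2 := one_le_mul_of_one_le_of_one_le hM1 hM2
  refine ⟨M1 * M2 + M1 ^ (1 + n1 (ev η δ)), by linarith, fun g => ?_⟩
  rw [mul_assoc]
  have e1 := h1 (δ * g)
  have e2 := h2 g
  have e3 : M1 ^ (1 + n1 (ev η (δ * g))) ≤ (M1 ^ (1 + n1 (ev η δ))) ^ (1 + n1 (ev η g)) := by
    rw [← pow_mul]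
    refine pow_le_pow_right₀ hM1 ?_
    rw [ev_mul]
    have := n1_add (ev η δ) (ev η g)
    nlinarith [Nat.zero_le (n1 (ev η δ) * n1 (ev η g))]
  have e4 : M1 * M2 ^ (1 + n1 (ev η g)) ≤ (M1 * M2) ^ (1 + n1 (ev η g)) := by
    rw [mul_pow]
    exact mul_le_mul_of_nonneg_right (le_self_pow₀ hM1 (by omega)) (by positivity)
  have e5 := pow_add_pow_le (zero_le_one.trans h12) (zero_le_one.trans hq)
    (show 1 + n1 (ev η g) ≠ 0 by omega)
  have e6 := H.nonneg (xr η t g)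
  have e7 : M1 * ℓ (xr η t (δ * g)) ≤ M1 * (M2 * ℓ (xr η t g) + M2 ^ (1 + n1 (ev η g))) :=
    mul_le_mul_of_nonneg_left e2 (by linarith)
  nlinarith [mul_nonneg (zero_le_one.trans hq) e6]

include H ht in
theorem Yp_of_mem {γ : Γ} (hγ : γ ∈ η.ker) : Yp η (ℓ := ℓ) t γ := by
  refine ⟨1 + ℓ γ, by linarith [H.nonneg γ], fun g => ?_⟩
  have e1 : xr η t (γ * g) = γ * xr η t g := by
    rw [xr, xr, ev_mul, (mem_ker_iff_ev η γ).1 hγ, zero_add, mul_assoc]
  rw [e1]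
  have e2 := H.mul γ hγ _ (xr_mem η t ht g)
  have e3 := H.nonneg (xr η t g)
  have e4 := H.nonneg γ
  have e5 : 1 + ℓ γ ≤ (1 + ℓ γ) ^ (1 + n1 (ev η g)) := le_self_pow₀ (by linarith) (by omega)
  nlinarith [mul_nonneg e3 e4]

include H ht in
theorem Yp_t (i : Fin k) : Yp η (ℓ := ℓ) t (t i) := by
  obtain ⟨M, hM, h⟩ := H.sec_step t
  obtain ⟨Λ, hΛ, hc⟩ := H.conj (t i)
  refine ⟨max M Λ, hM.trans (le_max_left _ _), fun g => ?_⟩
  have e1 : xr η t (t i * g) = (t i * xr η t g * (t i)⁻¹) *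
      (t i * sec t (ev η g) * (sec t (ev η g + Pi.single i 1))⁻¹) := by
    rw [xr, xr, ev_mul, ht, add_comm (Pi.single i 1)]; group
  rw [e1]
  obtain ⟨h1, h2⟩ := h i (ev η g)
  refine (H.mul _ (H.norm _ _ (xr_mem η t ht g)) _ h1).trans (add_le_add ?_ ?_)
  · exact (hc _ (xr_mem η t ht g)).trans
      (mul_le_mul_of_nonneg_right (le_max_right _ _) (H.nonneg _))
  · exact h2.trans (pow_le_pow_left₀ (by linarith) (le_max_left _ _) _)

include H ht in
theorem Yp_t_inv (i : Fin k) : Yp η (ℓ := ℓ) t (t i)⁻¹ := by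
  obtain ⟨M, hM, h⟩ := H.sec_step t
  obtain ⟨Λ, hΛ, hc⟩ := H.conj (t i)⁻¹
  have hLM : 1 ≤ Λ * M ^ 2 := one_le_mul_of_one_le_of_one_le hΛ (one_le_pow₀ hM)
  refine ⟨Λ * M ^ 2, hLM, fun g => ?_⟩
  set g' := (t i)⁻¹ * g with hg'
  have hg : g = t i * g' := by rw [hg']; group
  obtain ⟨h1, h2⟩ := h i (ev η g')
  set Dd := t i * sec t (ev η g') * (sec t (ev η g' + Pi.single i 1))⁻¹ with hDd
  have e1 : xr η t g' = (t i)⁻¹ * (xr η t g * Dd⁻¹) * ((t i)⁻¹)⁻¹ := by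
    have hev : ev η (t i * g') = ev η g' + Pi.single i 1 := by
      rw [ev_mul, ht, add_comm]
    rw [hDd, hg, xr, xr, hev]; group
  have h3 := xr_mem η t ht g
  have h4 : xr η t g * Dd⁻¹ ∈ η.ker := η.ker.mul_mem h3 (η.ker.inv_mem h1)
  have h5 : ℓ (xr η t g * Dd⁻¹) ≤ ℓ (xr η t g) + M ^ (1 + n1 (ev η g')) := by
    refine (H.mul _ h3 _ (η.ker.inv_mem h1)).trans ?_
    rw [H.inv _ h1]
    linarith
  have h6 : n1 (ev η g') ≤ n1 (ev η g) + 1 := by
    rw [hg', ev_mul, ev_inv, ht]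
    have := n1_add (-(Pi.single i 1 : Fin k → ℤ)) (ev η g)
    rw [n1_neg, n1_single] at this
    omega
  rw [e1]
  refine (hc _ h4).trans ?_
  have h7 : M ^ (1 + n1 (ev η g')) ≤ M ^ (2 * (1 + n1 (ev η g))) :=
    pow_le_pow_right₀ hM (by omega)
  have h8 : Λ * M ^ (2 * (1 + n1 (ev η g))) ≤ (Λ * M ^ 2) ^ (1 + n1 (ev η g)) := by
    rw [mul_pow, pow_mul]
    exact mul_le_mul_of_nonneg_right (le_self_pow₀ hΛ (by omega)) (by positivity)
  have h9 : Λ * ℓ (xr η t g) ≤ Λ * M ^ 2 * ℓ (xr η t g) := by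
    refine mul_le_mul_of_nonneg_right ?_ (H.nonneg _)
    exact le_mul_of_one_le_right (by linarith) (one_le_pow₀ hM)
  calc Λ * ℓ (xr η t g * Dd⁻¹) ≤ Λ * (ℓ (xr η t g) + M ^ (1 + n1 (ev η g'))) :=
        mul_le_mul_of_nonneg_left h5 (by linarith)
    _ = Λ * ℓ (xr η t g) + Λ * M ^ (1 + n1 (ev η g')) := by ring
    _ ≤ Λ * M ^ 2 * ℓ (xr η t g) + Λ * M ^ (2 * (1 + n1 (ev η g))) := by
        refine add_le_add h9 (mul_le_mul_of_nonneg_left h7 (by linarith))
    _ ≤ _ := by linarith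

include H ht in
theorem Yp_all (γ : Γ) : Yp η (ℓ := ℓ) t γ := by
  have key : ∀ θ : Fin k → ℤ, ∀ {l : ℕ} (s : Fin l → Γ) (θ : Fin l → ℤ),
      (∀ i, Yp η (ℓ := ℓ) t (s i) ∧ Yp η (ℓ := ℓ) t (s i)⁻¹) → Yp η (ℓ := ℓ) t (sec s θ) := by
    intro _ l
    induction l with
    | zero => intro s θ _; exact Yp_one η H t
    | succ l ih =>
      intro s θ hs
      refine Yp_mul η H t ?_ (ih _ _ fun i => hs i.succ)
      have hp : ∀ (x : Γ), Yp η (ℓ := ℓ) t x → ∀ n : ℕ, Yp η (ℓ := ℓ) t (x ^ n) := by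
        intro x hx n
        induction n with
        | zero => rw [pow_zero]; exact Yp_one η H t
        | succ n ihn => rw [pow_succ]; exact Yp_mul η H t ihn hx
      obtain ⟨q, hq | hq⟩ := (θ 0).eq_nat_or_neg
      · rw [hq, zpow_natCast]; exact hp _ (hs 0).1 q
      · rw [hq, zpow_neg, zpow_natCast, ← inv_pow]; exact hp _ (hs 0).2 q
  have h1 : γ = xr η t γ * sec t (ev η γ) := by rw [xr]; group
  rw [h1]
  exact Yp_mul η H t (Yp_of_mem η H t ht (xr_mem η t ht γ))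
    (key 0 t _ fun i => ⟨Yp_t η H t ht i, Yp_t_inv η H t ht i⟩)

include H ht in
/-- **exponential distortion** -/
theorem exp_distortion (F : Set Γ) (hF : F.Finite) : ∃ C : ℝ, 0 < C ∧ ∀ L : List Γ,
    (∀ x ∈ L, x ∈ F ∨ x⁻¹ ∈ F) → ℓ (xr η t L.prod) ≤ Real.exp (C * (L.length + 1)) ∧
      n1 (ev η L.prod) ≤ C * L.length := by
  have hF' : (F ∪ F⁻¹).Finite := hF.union hF.inv
  choose M hM h using fun γ => Yp_all η H t ht γ
  obtain ⟨M0, hM0⟩ := (hF'.image M).bddAbove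
  obtain ⟨q, hq⟩ := (hF'.image fun γ => n1 (ev η γ)).bddAbove
  set M1 := max M0 1 with hM1
  have hM1' : 1 ≤ M1 := le_max_right _ _
  have hle : ∀ γ ∈ F ∪ F⁻¹, M γ ≤ M1 := fun γ hγ => (hM0 ⟨γ, hγ, rfl⟩).trans (le_max_left _ _)
  set P := M1 + M1 ^ (1 + q) with hP
  have hP1 : 1 ≤ P := by have := one_le_pow₀ (n := 1 + q) hM1'; linarith
  have key : ∀ L : List Γ, (∀ x ∈ L, x ∈ F ∪ F⁻¹) →
      n1 (ev η L.prod) ≤ q * L.length ∧ ℓ (xr η t L.prod) ≤ P ^ (L.length + 1) := by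
    intro L
    induction L with
    | nil =>
      intro _
      rw [List.prod_nil, xr, ev_one, sec_zero, inv_one, mul_one, H.one]
      refine ⟨by simp [n1], by positivity⟩
    | cons γ L ih =>
      intro hL
      obtain ⟨i1, i2⟩ := ih fun x hx => hL x (List.mem_cons_of_mem _ hx)
      have hγ := hL γ List.mem_cons_self
      have hqγ : n1 (ev η γ) ≤ q := hq ⟨γ, hγ, rfl⟩
      rw [List.prod_cons, List.length_cons]
      constructor
      · rw [ev_mul]
        refine (n1_add _ _).trans ?_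
        rw [mul_add, mul_one]
        omega
      · refine (h γ _).trans ?_
        have hMγ := hle γ hγ
        have h1 : M γ * ℓ (xr η t L.prod) ≤ M1 * P ^ (L.length + 1) :=
          mul_le_mul hMγ i2 (H.nonneg _) (by linarith)
        have h2 : M γ ^ (1 + n1 (ev η L.prod)) ≤ (M1 ^ (1 + q)) ^ (L.length + 1) := by
          calc M γ ^ (1 + n1 (ev η L.prod)) ≤ M1 ^ (1 + n1 (ev η L.prod)) :=
                pow_le_pow_left₀ (by linarith [hM γ]) hMγ _
            _ ≤ M1 ^ ((1 + q) * (L.length + 1)) := by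
                refine pow_le_pow_right₀ hM1' ?_
                have : (1 + q) * (L.length + 1) = 1 + q * L.length + (L.length + q) := by ring
                omega
            _ = _ := pow_mul _ _ _
        have h3 : (M1 ^ (1 + q)) ^ (L.length + 1) ≤ M1 ^ (1 + q) * P ^ (L.length + 1) := by
          calc (M1 ^ (1 + q)) ^ (L.length + 1) ≤ P ^ (L.length + 1) :=
                pow_le_pow_left₀ (by positivity) (by linarith) _
            _ ≤ M1 ^ (1 + q) * P ^ (L.length + 1) :=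
                le_mul_of_one_le_left (by positivity) (one_le_pow₀ hM1')
        calc M γ * ℓ (xr η t L.prod) + M γ ^ (1 + n1 (ev η L.prod))
            ≤ M1 * P ^ (L.length + 1) + M1 ^ (1 + q) * P ^ (L.length + 1) :=
              add_le_add h1 (h2.trans h3)
          _ = P ^ (L.length + 1 + 1) := by rw [hP]; ring
  refine ⟨max (Real.log P) q + 1, ?_, fun L hL => ?_⟩
  · have := (Real.log_nonneg hP1).trans (le_max_left (Real.log P) (q : ℝ)); linarith
  · obtain ⟨h1, h2⟩ := key L (fun x hx => by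
      rcases hL x hx with h | h
      · exact Or.inl h
      · exact Or.inr h)
    constructor
    · refine h2.trans ?_
      have h3 : P ^ (L.length + 1) = Real.exp (Real.log P * (L.length + 1)) := by
        have h4 : Real.exp (Real.log P * (L.length + 1)) =
            (Real.exp (Real.log P)) ^ (L.length + 1) := by
          rw [← Real.exp_nat_mul]; congr 1; push_cast; ring
        rw [h4, Real.exp_log (by linarith)]
      rw [h3]
      refine Real.exp_le_exp.2 (mul_le_mul_of_nonneg_right ?_ (by positivity))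
      linarith [le_max_left (Real.log P) (q : ℝ)]
    · have h3 : (n1 (ev η L.prod) : ℝ) ≤ q * L.length := by exact_mod_cast h1
      refine h3.trans (mul_le_mul_of_nonneg_right ?_ (by positivity))
      linarith [le_max_right (Real.log P) (q : ℝ)]

end main

end Vale.Agent.P188.H796

end

section

/-!
Metric facts on the group `S`.
-/

open Finset Filter Topology
open scoped commutatorElement

universe u v w

namespace Vale.Agent.P188.H796

open H615

section wlen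

variable {N : Type u} [Group N]

/-- homomorphisms increase word lengths at most by a factor -/
theorem wl_map_le {N' : Type v} [Group N'] {B : Set N} (hB : B.Finite)
    (hgen : Subgroup.closure B = ⊤) {B' : Set N'} (hgen' : Subgroup.closure B' = ⊤)
    (φ : N →* N') : ∃ Λ : ℕ, ∀ x, wl B' (φ x) ≤ Λ * wl B x := by
  obtain ⟨M, hM⟩ := ((hB.union hB.inv).image fun x => wl B' (φ x)).bddAbove
  refine ⟨M, fun x => ?_⟩
  obtain ⟨l, h1, h2, h3⟩ := wl_list hgen x
  rw [← h1, ← h3]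
  clear h1 h3
  induction l with
  | nil => simp [wl_one]
  | cons a l ih =>
    rw [List.prod_cons, map_mul, List.length_cons]
    have e1 := wl_mul hgen' (φ a) (φ l.prod)
    have e2 : wl B' (φ a) ≤ M := hM ⟨a, h2 a List.mem_cons_self, rfl⟩
    have e3 := ih fun b hb => h2 b (List.mem_cons_of_mem _ hb)
    nlinarith

end wlen

section nlen

variable {Γ : Type u} [Group Γ] {k : ℕ} (η : Γ →* Multiplicative (Fin k → ℤ))

open Classical in
/-- word length of the kernel, extended by zero -/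
noncomputable def ℓN (B : Set η.ker) (x : Γ) : ℝ := if h : x ∈ η.ker then (wl B ⟨x, h⟩ : ℝ) else 0

theorem ℓN_coe (B : Set η.ker) (x : η.ker) : ℓN η B x = wl B x := by
  rw [ℓN, dif_pos x.2]

theorem nlen_ℓN {B : Set η.ker} (hB : B.Finite) (hgen : Subgroup.closure B = ⊤) :
    NLen η.ker (ℓN η B) where
  nonneg x := by
    unfold ℓN
    split_ifs
    · exact Nat.cast_nonneg _
    · exact le_rfl
  one := by
    have := ℓN_coe η B 1
    rw [wl_one] at this
    simpa using this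
  mul x hx y hy := by
    have h1 := ℓN_coe η B ⟨x, hx⟩
    have h2 := ℓN_coe η B ⟨y, hy⟩
    have h3 := ℓN_coe η B (⟨x, hx⟩ * ⟨y, hy⟩)
    have h4 := wl_mul hgen (⟨x, hx⟩ : η.ker) ⟨y, hy⟩
    simp only [Subgroup.coe_mul] at h1 h2 h3
    rw [h1, h2, h3]
    exact_mod_cast h4
  inv x hx := by
    have h1 := ℓN_coe η B ⟨x, hx⟩
    have h3 := ℓN_coe η B (⟨x, hx⟩⁻¹)
    have h4 := wl_inv hgen (⟨x, hx⟩ : η.ker)
    simp only [Subgroup.coe_inv] at h1 h3
    rw [h1, h3, h4]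
  conj γ := by
    obtain ⟨Λ, hΛ⟩ := wl_map_le hB hgen hgen ((MulAut.conjNormal γ : MulAut η.ker) : η.ker →* η.ker)
    refine ⟨Λ + 1, by linarith [(Nat.cast_nonneg Λ : (0 : ℝ) ≤ Λ)], fun x hx => ?_⟩
    have h1 := ℓN_coe η B ⟨x, hx⟩
    have h3 := ℓN_coe η B (MulAut.conjNormal γ ⟨x, hx⟩)
    have h4 : ((MulAut.conjNormal γ ⟨x, hx⟩ : η.ker) : Γ) = γ * x * γ⁻¹ :=
      MulAut.conjNormal_apply γ ⟨x, hx⟩
    rw [h4] at h3
    simp only at h1
    rw [h1, h3]
    have h5 : ((wl B (MulAut.conjNormal γ ⟨x, hx⟩) : ℕ) : ℝ) ≤ ((Λ * wl B ⟨x, hx⟩ : ℕ) : ℝ) := by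
      exact_mod_cast hΛ ⟨x, hx⟩
    refine h5.trans ?_
    push_cast
    exact mul_le_mul_of_nonneg_right (by linarith) (Nat.cast_nonneg _)
  comm a b := comm_mem_ker η a b
  norm γ x hx := η.normal_ker.conj_mem x hx γ

theorem exists_lift (hη : Function.Surjective η) : ∃ t : Fin k → Γ, ∀ i, ev η (t i) = Pi.single i 1 := by
  choose t ht using fun i : Fin k => hη (Multiplicative.ofAdd (Pi.single i 1))
  exact ⟨t, fun i => by rw [ev, ht]; rfl⟩

/-- **exponential distortion of the kernel** -/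
theorem wl_ker_le (hη : Function.Surjective η) {B : Set η.ker} (hB : B.Finite)
    (hgen : Subgroup.closure B = ⊤) (F : Set Γ) (hF : F.Finite) : ∃ C : ℝ, 0 < C ∧ ∀ L : List Γ,
    (∀ x ∈ L, x ∈ F ∨ x⁻¹ ∈ F) → ∀ h : L.prod ∈ η.ker,
      (wl B ⟨L.prod, h⟩ : ℝ) ≤ Real.exp (C * (L.length + 1)) := by
  obtain ⟨t, ht⟩ := exists_lift η hη
  obtain ⟨C, hC, key⟩ := exp_distortion η (nlen_ℓN η hB hgen) t ht F hF
  refine ⟨C, hC, fun L hL h => ?_⟩
  have h1 := (key L hL).1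
  have h2 : xr η t L.prod = L.prod := by
    rw [xr, (mem_ker_iff_ev η _).1 h, sec_zero, inv_one, mul_one]
  rw [h2] at h1
  have h3 := ℓN_coe η B ⟨L.prod, h⟩
  simp only at h3
  rw [← h3]
  exact h1

end nlen

theorem exp_bound_aux {C C' : ℝ} (hC : 0 < C) (hC' : 0 < C') (m : ℕ) : ∃ C'' : ℝ, 0 < C'' ∧
    ∀ (r x : ℝ), 1 ≤ r → 0 ≤ x → x ≤ Real.exp (C * r) → C' * (1 + x) ^ m ≤ Real.exp (C'' * r) := by
  refine ⟨|Real.log C'| + m * (1 + C) + 1, by positivity, fun r x hr hx0 hx => ?_⟩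
  have h1 : 1 + x ≤ Real.exp ((1 + C) * r) := by
    have h2 : (1 : ℝ) ≤ Real.exp (C * r) := Real.one_le_exp (by positivity)
    have h3 : (2 : ℝ) ≤ Real.exp r := by
      have := Real.add_one_le_exp r
      linarith
    rw [add_mul, one_mul, Real.exp_add]
    nlinarith
  have h2 : (1 + x) ^ m ≤ Real.exp (m * ((1 + C) * r)) := by
    rw [Real.exp_nat_mul]
    exact pow_le_pow_left₀ (by linarith) h1 m
  have h3 : C' ≤ Real.exp (|Real.log C'| * r) := by
    rw [← Real.exp_log hC']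
    refine Real.exp_le_exp.2 ?_
    rw [Real.exp_log hC']
    nlinarith [le_abs_self (Real.log C'), abs_nonneg (Real.log C')]
  calc C' * (1 + x) ^ m ≤ Real.exp (|Real.log C'| * r) * Real.exp (m * ((1 + C) * r)) :=
        mul_le_mul h3 h2 (by positivity) (by positivity)
    _ = Real.exp (|Real.log C'| * r + m * ((1 + C) * r)) := by rw [Real.exp_add]
    _ ≤ _ := Real.exp_le_exp.2 (by nlinarith)

section conc

variable {Γ : Type u} [Group Γ] {k : ℕ} {η : Γ →* Multiplicative (Fin k → ℤ)} {d n : ℕ}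
  (D : MB η.ker d n)

/-- exponential bound for elements of `N` in terms of words in `Γ` -/
theorem MB.norm_ρ_le (hη : Function.Surjective η) (F : Set Γ) (hF : F.Finite) :
    ∃ C : ℝ, 0 < C ∧ ∀ L : List Γ, (∀ x ∈ L, x ∈ F ∨ x⁻¹ ∈ F) → ∀ h : L.prod ∈ η.ker,
      ‖D.R.ρ ⟨L.prod, h⟩‖ ≤ Real.exp (C * (L.length + 1)) := by
  have hB : (Set.range D.b).Finite := Set.finite_range _
  obtain ⟨C1, hC1, h1⟩ := wl_ker_le η hη hB D.closure_b F hF
  obtain ⟨C2, hC2, h2⟩ := D.R.exists_ι_bound (Set.range D.b) hB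
  obtain ⟨C3, hC3, h3⟩ := exp_bound_aux hC1 hC2 D.R.m
  refine ⟨C3, hC3, fun L hL h => ?_⟩
  obtain ⟨l, e1, e2, e3⟩ := wl_list D.closure_b (⟨L.prod, h⟩ : η.ker)
  have h4 := h2 l e2
  rw [e3] at h4
  refine h4.trans (h3 _ _ ?_ (Nat.cast_nonneg _) ?_)
  · linarith [(Nat.cast_nonneg L.length : (0 : ℝ) ≤ L.length)]
  · rw [e1]
    exact h1 L hL h

/-- generating set of `S` -/
def MB.U (F : Set Γ) : Set D.S :=
  D.inΓ '' F ∪ D.ex '' {v : D.R.V | ‖(v : D.Alg)‖ ≤ 1}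

theorem MB.Th_bound (F : Set Γ) (hF : F.Finite) : ∃ Λ : ℝ, 1 ≤ Λ ∧ ∀ f, (f ∈ F ∨ f⁻¹ ∈ F) →
    ∀ a : D.Alg, ‖D.Th (MulAut.conjNormal f) a‖ ≤ Λ * ‖a‖ := by
  have hF' : (F ∪ F⁻¹).Finite := hF.union hF.inv
  have h1 : ∀ f : Γ, ∃ Λ : ℝ, ∀ a : D.Alg, ‖D.Th (MulAut.conjNormal f) a‖ ≤ Λ * ‖a‖ := by
    intro f
    let T : D.Alg →L[ℝ] D.Alg :=
      LinearMap.toContinuousLinearMap (D.Th (MulAut.conjNormal f)).toLinearMap
    exact ⟨‖T‖, fun a => T.le_opNorm a⟩
  choose Λ hΛ using h1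
  obtain ⟨M, hM⟩ := (hF'.image Λ).bddAbove
  refine ⟨max M 1, le_max_right _ _, fun f hf a => (hΛ f a).trans ?_⟩
  refine mul_le_mul_of_nonneg_right ?_ (norm_nonneg _)
  exact (hM ⟨f, hf, rfl⟩).trans (le_max_left _ _)

/-- elements of `U` and their inverses -/
theorem MB.mem_U {F : Set Γ} {z : D.S} (hz : z ∈ D.U F ∨ z⁻¹ ∈ D.U F) :
    (∃ f : Γ, (f ∈ F ∨ f⁻¹ ∈ F) ∧ z = D.inΓ f) ∨
      ∃ v : D.R.V, ‖(v : D.Alg)‖ ≤ 1 ∧ z = D.inN (D.R.Ex v) := by
  rcases hz with (⟨f, hf, rfl⟩ | ⟨v, hv, rfl⟩) | (⟨f, hf, h⟩ | ⟨v, hv, h⟩)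
  · exact Or.inl ⟨f, Or.inl hf, rfl⟩
  · exact Or.inr ⟨v, hv, rfl⟩
  · refine Or.inl ⟨f⁻¹, Or.inr (by rwa [inv_inv]), ?_⟩
    rw [map_inv]
    exact inv_eq_iff_eq_inv.1 h.symm
  · refine Or.inr ⟨-v, ?_, ?_⟩
    · simpa using hv
    · rw [D.R.Ex_neg, map_inv]
      exact inv_eq_iff_eq_inv.1 h.symm

/-- **structure of words in `S`** -/
theorem MB.word_form (F : Set Γ) (hF : F.Finite) : ∃ C : ℝ, 0 < C ∧ ∀ L : List D.S,
    (∀ z ∈ L, z ∈ D.U F ∨ z⁻¹ ∈ D.U F) → ∃ (l : List Γ) (y : D.R.NR),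
      (∀ x ∈ l, x ∈ F ∨ x⁻¹ ∈ F) ∧ l.length ≤ L.length ∧
      L.prod = D.inN y * D.inΓ l.prod ∧ ‖D.R.toA y‖ ≤ Real.exp (C * (L.length + 1)) := by
  obtain ⟨Λ, hΛ, hTh⟩ := D.Th_bound F hF
  obtain ⟨C1, hC1, h1⟩ := RD.exists_ex_bound (A := D.Alg) D.R.m
  set K : ℝ := C1 * 2 ^ D.R.m + ‖(1 : D.Alg)‖ with hK
  have hK0 : 0 ≤ K := by positivity
  have hball : ∀ v : D.R.V, ‖(v : D.Alg)‖ ≤ 1 → ‖D.R.toA (D.R.Ex v) - 1‖ ≤ K := by
    intro v hv
    rw [D.R.toA_Ex]
    refine (norm_sub_le _ _).trans (add_le_add_left ?_ _)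
    refine (h1 _).trans (mul_le_mul_of_nonneg_left ?_ hC1.le)
    exact pow_le_pow_left₀ (by positivity) (by linarith) _
  have key : ∀ L : List D.S, (∀ z ∈ L, z ∈ D.U F ∨ z⁻¹ ∈ D.U F) →
      ∃ (l : List Γ) (y : D.R.NR) (W : List D.Alg),
        (∀ x ∈ l, x ∈ F ∨ x⁻¹ ∈ F) ∧ l.length ≤ L.length ∧
        L.prod = D.inN y * D.inΓ l.prod ∧ D.R.toA y = W.prod ∧ W.length ≤ L.length ∧
        (∀ u ∈ W, u - 1 ∈ D.R.J) ∧ ∀ u ∈ W, ‖u - 1‖ ≤ K * Λ ^ L.length := by
    intro L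
    induction L with
    | nil =>
      intro _
      refine ⟨[], 1, [], by simp, le_rfl, ?_, ?_, le_rfl, by simp, by simp⟩
      · rw [List.prod_nil, List.prod_nil, map_one, map_one, one_mul]
      · rw [map_one, List.prod_nil]
    | cons z L ih =>
      intro hL
      obtain ⟨l, y, W, a1, a2, a3, a4, a5, a6, a7⟩ := ih fun x hx => hL x (List.mem_cons_of_mem _ hx)
      rcases D.mem_U (hL z List.mem_cons_self) with ⟨f, hf, hz⟩ | ⟨v, hv, hz⟩
      · refine ⟨f :: l, D.αΓ f y, W.map (D.Th (MulAut.conjNormal f)), ?_, ?_, ?_, ?_, ?_, ?_, ?_⟩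
        · intro x hx
          rcases List.mem_cons.1 hx with rfl | hx
          · exact hf
          · exact a1 x hx
        · rw [List.length_cons, List.length_cons]; omega
        · rw [List.prod_cons, hz, a3, List.prod_cons, map_mul, ← mul_assoc, ← mul_assoc]
          congr 1
          exact D.P.inG_mul_inK f y
        · have : D.R.toA (D.αΓ f y) = D.Th (MulAut.conjNormal f) (D.R.toA y) := D.toA_actM _ y
          rw [this, a4, map_list_prod]
        · rw [List.length_map, List.length_cons]; omega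
        · intro u hu
          rw [List.mem_map] at hu
          obtain ⟨u', hu', rfl⟩ := hu
          have h2 := D.R.map_J (MulAut.conjNormal f : MulAut η.ker).toMonoidHom
            (D.Th (MulAut.conjNormal f) : D.Alg →ₐ[ℝ] D.Alg) (fun x => D.Th_ρ _ x) (a6 u' hu')
          have h3 : D.Th (MulAut.conjNormal f) u' - 1 = D.Th (MulAut.conjNormal f) (u' - 1) := by
            rw [map_sub, map_one]
          rw [h3]
          exact h2
        · intro u hu
          rw [List.mem_map] at hu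
          obtain ⟨u', hu', rfl⟩ := hu
          have h3 : D.Th (MulAut.conjNormal f) u' - 1 = D.Th (MulAut.conjNormal f) (u' - 1) := by
            rw [map_sub, map_one]
          rw [h3]
          refine (hTh f hf _).trans ?_
          rw [List.length_cons, pow_succ]
          have := mul_le_mul_of_nonneg_left (a7 u' hu') (zero_le_one.trans hΛ)
          linarith
      · refine ⟨l, D.R.Ex v * y, D.R.toA (D.R.Ex v) :: W, a1, ?_, ?_, ?_, ?_, ?_, ?_⟩
        · rw [List.length_cons]; omega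
        · rw [List.prod_cons, hz, a3, map_mul, mul_assoc]
        · rw [map_mul, a4, List.prod_cons]
        · rw [List.length_cons, List.length_cons]; omega
        · intro u hu
          rcases List.mem_cons.1 hu with rfl | hu
          · exact D.R.E_sub_one_mem _
          · exact a6 u hu
        · intro u hu
          have hp : K * Λ ^ L.length ≤ K * Λ ^ (z :: L).length := by
            rw [List.length_cons]
            exact mul_le_mul_of_nonneg_left (pow_le_pow_right₀ hΛ (Nat.le_succ _)) hK0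
          rcases List.mem_cons.1 hu with rfl | hu
          · refine (hball v hv).trans ?_
            exact le_mul_of_one_le_right hK0 (one_le_pow₀ hΛ)
          · exact (a7 u hu).trans hp
  have hC1' : 0 < 1 + K + Real.log Λ := by have := Real.log_nonneg hΛ; linarith
  have hC2' : 0 < ‖(1 : D.Alg)‖ * D.R.m + 1 := by positivity
  obtain ⟨C, hC, hfin⟩ := exp_bound_aux hC1' hC2' D.R.m
  refine ⟨C, hC, fun L hL => ?_⟩
  obtain ⟨l, y, W, a1, a2, a3, a4, a5, a6, a7⟩ := key L hL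
  refine ⟨l, y, a1, a2, a3, ?_⟩
  have hKL : 0 ≤ K * Λ ^ L.length := by positivity
  have h2 := D.R.norm_prod_le W hKL a6 a7
  rw [a4]
  have hr : (1 : ℝ) ≤ L.length + 1 := by linarith [(Nat.cast_nonneg L.length : (0 : ℝ) ≤ L.length)]
  have hx0 : 0 ≤ (W.length : ℝ) * (K * Λ ^ L.length) := by positivity
  have hx : (W.length : ℝ) * (K * Λ ^ L.length) ≤
      Real.exp ((1 + K + Real.log Λ) * (L.length + 1)) := by
    have e1 : (W.length : ℝ) ≤ Real.exp (L.length + 1) := by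
      have : (W.length : ℝ) ≤ L.length := by exact_mod_cast a5
      linarith [Real.add_one_le_exp ((L.length : ℝ) + 1)]
    have e2 : K ≤ Real.exp (K * (L.length + 1)) := by
      have := Real.add_one_le_exp (K * ((L.length : ℝ) + 1))
      nlinarith
    have e3 : Λ ^ L.length ≤ Real.exp (Real.log Λ * (L.length + 1)) := by
      have : Λ ^ L.length = Real.exp (Real.log Λ * L.length) := by
        rw [mul_comm, Real.exp_nat_mul, Real.exp_log (by linarith)]
      rw [this]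
      refine Real.exp_le_exp.2 (mul_le_mul_of_nonneg_left (by linarith) (Real.log_nonneg hΛ))
    have e4 : Real.exp ((1 + K + Real.log Λ) * ((L.length : ℝ) + 1)) =
        Real.exp ((L.length : ℝ) + 1) * (Real.exp (K * (L.length + 1)) *
        Real.exp (Real.log Λ * (L.length + 1))) := by
      rw [← Real.exp_add, ← Real.exp_add]; congr 1; ring
    rw [e4]
    refine mul_le_mul e1 ?_ hKL (Real.exp_pos _).le
    exact mul_le_mul e2 e3 (by positivity) (Real.exp_pos _).le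
  refine h2.trans (le_trans ?_ (hfin _ _ hr hx0 hx))
  exact mul_le_mul_of_nonneg_right (by linarith) (by positivity)

/-- `U` generates `S` -/
theorem MB.closure_U {F : Set Γ} (hF : Subgroup.closure F = ⊤) :
    Subgroup.closure (D.U F) = ⊤ := by
  rw [eq_top_iff]
  intro s _
  obtain ⟨k, g, rfl⟩ := D.P.exists_eq s
  refine Subgroup.mul_mem _ ?_ ?_
  · obtain ⟨n, hn⟩ := exists_nat_gt ‖((D.R.Lo k : D.R.V) : D.Alg)‖
    have hn0 : (0 : ℝ) < n := lt_of_le_of_lt (norm_nonneg _) hn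
    have h1 : D.P.inK k = (D.ex ((n : ℝ)⁻¹ • D.R.Lo k)) ^ n := by
      have h2 : ∀ (v : D.R.V) (j : ℕ), (D.R.Ex v) ^ j = D.R.Ex ((j : ℝ) • v) := by
        intro v j
        induction j with
        | zero => rw [pow_zero, Nat.cast_zero, zero_smul, D.R.Ex_zero]
        | succ j ih =>
          rw [pow_succ, ih, Nat.cast_succ, D.R.Ex_add, one_smul]
      change D.inN k = (D.inN (D.R.Ex _)) ^ n
      rw [← map_pow, h2, smul_smul, mul_inv_cancel₀ hn0.ne', one_smul, D.R.Ex_Lo]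
    have h2 : ‖(((n : ℝ)⁻¹ • D.R.Lo k : D.R.V) : D.Alg)‖ ≤ 1 := by
      rw [Submodule.coe_smul, norm_smul, norm_inv, Real.norm_natCast, inv_mul_le_iff₀ hn0, mul_one]
      exact hn.le
    have h3 : D.ex ((n : ℝ)⁻¹ • D.R.Lo k) ∈ D.U F := Or.inr ⟨_, h2, rfl⟩
    rw [h1]
    exact Subgroup.pow_mem _ (Subgroup.subset_closure h3) n
  · have h1 : Subgroup.closure F ≤ (Subgroup.closure (D.U F)).comap D.inΓ := by
      rw [Subgroup.closure_le]
      intro f hf
      exact Subgroup.subset_closure (Or.inl ⟨f, hf, rfl⟩)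
    exact h1 (by rw [hF]; trivial)

/-- **(M2)**: exponential upper bound for the norm of elements of `N_ℝ` -/
theorem MB.M2_toA (hη : Function.Surjective η) (F : Set Γ) (hF : F.Finite)
    (hgen : Subgroup.closure F = ⊤) : ∃ C : ℝ, 0 < C ∧ ∀ y : D.R.NR,
      ‖D.R.toA y‖ ≤ Real.exp (C * (wl (D.U F) (D.inN y) + 1)) := by
  obtain ⟨C1, hC1, h1⟩ := D.word_form F hF
  obtain ⟨C2, hC2, h2⟩ := D.norm_ρ_le hη F hF
  refine ⟨C1 + C2, by linarith, fun y => ?_⟩
  obtain ⟨L, e1, e2, e3⟩ := wl_list (D.closure_U hgen) (D.inN y)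
  obtain ⟨l, y', a1, a2, a3, a4⟩ := h1 L e2
  rw [e3] at a3
  have h3 : l.prod ∈ η.ker := by
    have := congrArg (D.θ η) a3
    rw [map_mul, D.θ_inN, D.θ_inN, D.θ_inΓ, one_mul] at this
    exact this.symm
  have h4 : y = y' * D.R.ι ⟨l.prod, h3⟩ := by
    apply D.P.inK_injective
    rw [map_mul]
    refine a3.trans ?_
    congr 1
    exact D.P.inG_coe ⟨l.prod, h3⟩
  rw [h4, map_mul, D.R.toA_ι]
  have h5 := h2 l a1 h3
  have h6 : (l.length : ℝ) ≤ wl (D.U F) (D.inN y) := by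
    rw [← e1]; exact_mod_cast a2
  rw [← h4, ← e1]
  rw [← e1] at h6
  refine (norm_mul_le _ _).trans ?_
  calc ‖D.R.toA y'‖ * ‖D.R.ρ ⟨l.prod, h3⟩‖
      ≤ Real.exp (C1 * (L.length + 1)) * Real.exp (C2 * (l.length + 1)) :=
        mul_le_mul a4 h5 (norm_nonneg _) (Real.exp_pos _).le
    _ = Real.exp (C1 * (L.length + 1) + C2 * (l.length + 1)) := by rw [Real.exp_add]
    _ ≤ _ := Real.exp_le_exp.2 (by nlinarith)

/-- **(M2)**: exponential upper bound for the logarithm of elements of `N_ℝ` -/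
theorem MB.M2 (hη : Function.Surjective η) (F : Set Γ) (hF : F.Finite)
    (hgen : Subgroup.closure F = ⊤) : ∃ C : ℝ, 0 < C ∧ ∀ y : D.R.NR,
      ‖((D.R.Lo y : D.R.V) : D.Alg)‖ ≤ Real.exp (C * (wl (D.U F) (D.inN y) + 1)) := by
  obtain ⟨C1, hC1, h1⟩ := D.M2_toA hη F hF hgen
  obtain ⟨C2, hC2, h2⟩ := D.R.exists_Lo_bound
  obtain ⟨C3, hC3, h3⟩ := exp_bound_aux (show 0 < C1 + ‖(1 : D.Alg)‖ by positivity) hC2 D.R.m
  refine ⟨C3, hC3, fun y => ?_⟩
  set r : ℝ := wl (D.U F) (D.inN y) + 1 with hr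
  have hr1 : 1 ≤ r := by
    have : (0 : ℝ) ≤ wl (D.U F) (D.inN y) := Nat.cast_nonneg _
    linarith
  refine (h2 y).trans (h3 r _ hr1 (norm_nonneg _) ?_)
  refine (norm_sub_le _ _).trans ?_
  have h4 := h1 y
  have h5 : Real.exp ((C1 + ‖(1 : D.Alg)‖) * r) =
      Real.exp (C1 * r) * Real.exp (‖(1 : D.Alg)‖ * r) := by rw [← Real.exp_add]; congr 1; ring
  have h6 : 1 + ‖(1 : D.Alg)‖ ≤ Real.exp (‖(1 : D.Alg)‖ * r) := by
    have := Real.add_one_le_exp (‖(1 : D.Alg)‖ * r)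
    nlinarith [norm_nonneg (1 : D.Alg)]
  have h7 : 1 ≤ Real.exp (C1 * r) := Real.one_le_exp (by positivity)
  rw [h5]
  nlinarith [norm_nonneg (1 : D.Alg)]

end conc

end Vale.Agent.P188.H796

end
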