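import Vale.Agent.P188.R.G056
import Vale.Agent.P188.R.G018

section

/-! P188, block PSI: the scalars are `1` (asymptotic form). -/

universe u v w w'

open Finset

namespace Vale.Agent.P188.H530

open Vale.Agent.P188.H789 (Bl PathTo Bl_mono mul_mem_Bl mem_Bl_one one_mem_Bl)

/-- lengths of the paths -/
def aseq (K N₀ : ℕ) : ℕ → ℕ
  | 0 => 1
  | j + 1 => K * K * aseq K N₀ j + (3 * N₀ + 2)

/-- distances of the paths to the segment -/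
noncomputable def Sseq (C : ℝ) : ℕ → ℝ
  | 0 => 1
  | j + 1 => C * (C * (Sseq C j + 1) + 1) + 2

theorem one_le_Sseq {C : ℝ} (hC : 1 ≤ C) (j : ℕ) : 1 ≤ Sseq C j := by
  induction j with
  | zero => exact le_rfl
  | succ j ih =>
    rw [Sseq]
    have : 0 ≤ C * (C * (Sseq C j + 1) + 1) := by positivity
    linarith

theorem Sseq_mono {C : ℝ} (hC : 1 ≤ C) {i j : ℕ} (h : i ≤ j) : Sseq C i ≤ Sseq C j := by
  induction j, h using Nat.le_induction with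
  | base => exact le_rfl
  | succ j _ ih =>
    refine ih.trans ?_
    rw [Sseq]
    have := one_le_Sseq hC j
    have h1 : Sseq C j + 1 ≤ C * (Sseq C j + 1) := by nlinarith
    have h2 : C * (Sseq C j + 1) + 1 ≤ C * (C * (Sseq C j + 1) + 1) := by nlinarith
    linarith

theorem aseq_mono {K N₀ : ℕ} (hK : 1 ≤ K) {i j : ℕ} (h : i ≤ j) : aseq K N₀ i ≤ aseq K N₀ j := by
  induction j, h using Nat.le_induction with
  | base => exact le_rfl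
  | succ j _ ih =>
    refine ih.trans ?_
    rw [aseq]
    have : 1 * aseq K N₀ j ≤ K * K * aseq K N₀ j := Nat.mul_le_mul_right _ (by nlinarith)
    omega

variable {G : Type u} [Group G] {G' : Type v} [Group G']
  {E : Type w} [NormedAddCommGroup E] [NormedSpace ℝ E]
  {E' : Type w'} [NormedAddCommGroup E'] [NormedSpace ℝ E']

/-- numerical hypotheses of one step, first inequality -/
theorem num_K {β κ σ nb r₀ D₁ Du : ℝ} {K N₀ n a a' aJ : ℕ} {S ε : ℝ} (hnb : 0 ≤ nb) (hκ : 0 < κ)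
    (hD₁0 : 0 ≤ D₁) (hDu : 0 < Du) (hσ0 : 0 ≤ σ)
    (hσ2 : σ ≤ κ * β / (16 * (nb + 1))) (hS : S * ε * n ≤ σ * n)
    (hbr₀ : 32 * (nb * r₀) ≤ κ * β * n)
    (ha : K * (K * (a * n)) + N₀ * n ≤ a' * n) (haJ : a' ≤ aJ)
    (h6 : 4 * (aJ : ℝ) * D₁ / Du * ((n : ℝ) + 1) ^ 1 < Real.exp (κ * β / 8 * n)) :
    4 * ((K * (K * (a * n)) + N₀ * n : ℕ) : ℝ) * D₁ *
      Real.exp (nb * (S * ε * n + 2 * r₀)) < Du * Real.exp (κ * β * n / 4) := by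
  have hn0 : (0 : ℝ) ≤ n := Nat.cast_nonneg _
  have h3 : nb * (S * ε * n + 2 * r₀) ≤ κ * β * n / 8 := by
    have h4 : nb * (S * ε * n) ≤ κ * β * n / 16 := by
      have h5 : (nb + 1) * σ ≤ κ * β / 16 := by
        rw [le_div_iff₀ (by positivity)] at hσ2
        rw [le_div_iff₀ (by norm_num)]
        linarith
      calc nb * (S * ε * n) ≤ nb * (σ * n) := by gcongr
        _ ≤ (nb + 1) * (σ * n) := by gcongr; linarith
        _ = ((nb + 1) * σ) * n := by ring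
        _ ≤ (κ * β / 16) * n := by gcongr
        _ = _ := by ring
    linarith
  have h7 : ((K * (K * (a * n)) + N₀ * n : ℕ) : ℝ) ≤ (aJ : ℝ) * (n + 1) := by
    have h9 : a' * n ≤ aJ * (n + 1) := Nat.mul_le_mul haJ (Nat.le_succ n)
    exact_mod_cast ha.trans h9
  calc 4 * ((K * (K * (a * n)) + N₀ * n : ℕ) : ℝ) * D₁ * Real.exp (nb * (S * ε * n + 2 * r₀))
      ≤ 4 * ((aJ : ℝ) * (n + 1)) * D₁ * Real.exp (κ * β * n / 8) := by gcongr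
    _ = Du * ((4 * (aJ : ℝ) * D₁ / Du) * ((n : ℝ) + 1) ^ 1) * Real.exp (κ * β * n / 8) := by
        field_simp
    _ < Du * Real.exp (κ * β / 8 * n) * Real.exp (κ * β * n / 8) := by gcongr
    _ = Du * Real.exp (κ * β * n / 4) := by
        rw [mul_assoc, ← Real.exp_add]
        ring_nf

/-- One step at scale `n`. -/
theorem psi_one {θ : G → E} {A : Set G} (M : Mod θ A) {b : E →L[ℝ] ℝ} (c' : Crossed θ b)
    (hu : c'.u ∈ A) {θ' : G' → E'} {A' : Set G'} {c K : ℕ} {C W : ℝ}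
    (hC : 1 ≤ C) {w : E} (hwW : ‖w‖ ≤ W) (hbw : 0 < b w) {κ : ℝ} (hκ : 0 < κ) {D₁ : ℝ}
    (hD₁0 : 0 ≤ D₁) (hD₁ : ∀ a ∈ A, ‖c'.D a‖ ≤ D₁) {ε σ : ℝ} (hε : 0 < ε) (hσ0 : 0 < σ)
    (hσ1 : σ ≤ 1) (hσ2 : σ ≤ κ * b w / (16 * (‖b‖ + 1))) {n N₀ R₀ aJ : ℕ}
    (hN₀ : 2 * ‖w‖ + 1 ≤ N₀) (hR₀ : ‖w‖ + 1 ≤ R₀) (hn : 1 ≤ n)
    (hr₀n : 2 * M.r₀ ≤ ε * n) (hbr₀ : 32 * (‖b‖ * M.r₀) ≤ κ * b w * n)
    (h6 : 4 * (aJ : ℝ) * D₁ / ‖c'.D c'.u‖ * ((n : ℝ) + 1) ^ 1 < Real.exp (κ * b w / 8 * n))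
    {Q : ℕ} (hQ : Q * (‖b‖ * M.ℓ + 2) ≤ κ * b w * n / 2) {a : ℕ} (haJ : K * K * a +
      (3 * N₀ + 2) ≤ aJ) {S : ℝ} (hS0 : 0 ≤ S)
    (hS : (C * (C * (S + 1) + 1) + 2) * ε ≤ σ)
    {T₂ : E →L[ℝ] E'} {T₁' : E' →L[ℝ] E} (hT₂ : ‖T₂ w‖ ≤ W)
    (h2 : Tr θ A θ' A' c K C W ε n (a * n) (S * ε * n) T₂)
    (h1 : Tr θ' A' θ A c K C W ε n (K * (a * n)) (C * (S * ε * n + ε * n)) T₁')
    {d : ℝ} (hd0 : 0 ≤ d) (hd1 : d ≤ 1) (hdκ : d ≤ 1 - κ) (hd : ‖T₁' (T₂ w) - d • w‖ ≤ ε) :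
    (Ends θ A (a * n) ((n : ℝ) • w) (S * ε * n)).ncard * 2 ^ (Q + 1) ≤
      c * c * (M.Cs * (R₀ * n + 1) ^ M.Ds) *
        (Ends θ A ((K * K * a + (3 * N₀ + 2)) * n) ((n : ℝ) • w)
          ((C * (C * (S + 1) + 1) + 2) * ε * n)).ncard := by
  have hnpos : (1 : ℝ) ≤ n := by exact_mod_cast hn
  have hn0 : (0 : ℝ) < n := by linarith
  have hr2 : C * (C * (S * ε * n + ε * n) + ε * n) + ε * n =
      (C * (C * (S + 1) + 1) + 1) * ε * n := by ring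
  have hr2' : (C * (C * (S + 1) + 1) + 1) * ε * n ≤ σ * n := by
    have : (C * (C * (S + 1) + 1) + 1) * ε ≤ σ := by linarith
    gcongr
  have hnw : ‖(n : ℝ) • w‖ = n * ‖w‖ := by rw [norm_smul, Real.norm_of_nonneg hn0.le]
  have hσn : σ * n ≤ 1 * n := by gcongr
  have hKa : K * (K * (a * n)) + N₀ * n + 2 * (N₀ * n + 1) ≤ (K * K * a + (3 * N₀ + 2)) * n := by
    have e : (K * K * a + (3 * N₀ + 2)) * n = K * (K * (a * n)) + N₀ * n + 2 * (N₀ * n) + 2 * n := by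
      ring
    omega
  refine psi_step M c' hu hD₁0 hD₁ hC hε (r := S * ε * n) (by positivity) hwW hT₂
    h2 h1 hd0 hd1 hd hbw.le (N := N₀ * n) ?_ (c₀ := κ * b w * n / 4)
    (by positivity) ?_ (Q := Q) ?_ (R := R₀ * n) ?_ hKa ?_
  · rw [hr2, hnw]
    push_cast
    have : (2 * ‖w‖ + 1) * n ≤ N₀ * n := by gcongr
    linarith
  · rw [hr2]
    exact num_K (norm_nonneg _) hκ hD₁0 (norm_pos_iff.mpr c'.D_u) hσ0.le hσ2 hr2' hbr₀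
      (a' := K * K * a + (3 * N₀ + 2)) (by omega) haJ h6
  · rw [map_smul, smul_eq_mul]
    have h4 : κ * (n * b w) ≤ (1 - d) * (n * b w) := by
      gcongr
      linarith
    have h5 : 0 ≤ κ * b w * n := by positivity
    linarith
  · rw [hr2, hnw]
    push_cast
    have : (‖w‖ + 1) * n ≤ R₀ * n := by gcongr
    linarith
  · rw [hr2]
    linarith

/-- numerical contradiction at the end of the iteration -/
theorem num_final {Cs R₀ n aJ Ds J Q cc : ℕ} {γ : ℝ} (hCs : 1 ≤ Cs) (hγn : γ * n ≤ Q + 1)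
    (hγ : 0 ≤ γ)
    (h5 : (2 ^ (Q + 1)) ^ J ≤
      (cc * (Cs * (R₀ * n + 1) ^ Ds)) ^ J * (Cs ^ (R₀ * n + 1) * (aJ * n + 1) ^ Ds))
    (h10 : ((cc * (Cs * (R₀ + 1) ^ Ds) : ℕ) : ℝ) ^ J * (Cs * ((aJ : ℝ) + 1) ^ Ds) *
      ((n : ℝ) + 1) ^ (Ds * J + Ds) <
        Real.exp ((J * (γ * Real.log 2) - R₀ * Real.log Cs) * n)) : False := by
  have hlog2 : 0 < Real.log 2 := Real.log_pos (by norm_num)
  have h6 : (((2 ^ (Q + 1)) ^ J : ℕ) : ℝ) ≤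
      (((cc * (Cs * (R₀ * n + 1) ^ Ds)) ^ J * (Cs ^ (R₀ * n + 1) * (aJ * n + 1) ^ Ds) : ℕ) : ℝ) := by
    exact_mod_cast h5
  have hCs' : (1 : ℝ) ≤ Cs := by exact_mod_cast hCs
  have hlow : Real.exp (J * (γ * Real.log 2) * n) ≤ (((2 ^ (Q + 1)) ^ J : ℕ) : ℝ) := by
    have e2 : (((2 ^ (Q + 1)) ^ J : ℕ) : ℝ) = Real.exp (((Q : ℝ) + 1) * J * Real.log 2) := by
      rw [← pow_mul]
      push_cast
      rw [mul_comm _ (Real.log 2), Real.exp_mul, Real.exp_log (by norm_num)]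
      rw [← Real.rpow_natCast]
      push_cast
      rfl
    rw [e2]
    refine Real.exp_le_exp.mpr ?_
    have h7 : (γ * n) * (J * Real.log 2) ≤ ((Q : ℝ) + 1) * (J * Real.log 2) := by
      gcongr
    linarith
  have hup : (((cc * (Cs * (R₀ * n + 1) ^ Ds)) ^ J * (Cs ^ (R₀ * n + 1) * (aJ * n + 1) ^ Ds) : ℕ) : ℝ)
      ≤ (((cc * (Cs * (R₀ + 1) ^ Ds) : ℕ) : ℝ) ^ J * (Cs * ((aJ : ℝ) + 1) ^ Ds) *
      ((n : ℝ) + 1) ^ (Ds * J + Ds)) * Real.exp (R₀ * Real.log Cs * n) := by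
    have e3 : ((Cs : ℝ)) ^ (R₀ * n) = Real.exp (R₀ * Real.log Cs * n) := by
      have : (R₀ : ℝ) * Real.log Cs * n = Real.log Cs * ((R₀ * n : ℕ) : ℝ) := by
        push_cast; ring
      rw [this, Real.exp_mul, Real.exp_log (by linarith), Real.rpow_natCast]
    have h8 : (Cs : ℝ) * ((R₀ : ℝ) * n + 1) ^ Ds ≤
        (Cs * ((R₀ : ℝ) + 1) ^ Ds) * ((n : ℝ) + 1) ^ Ds := by
      rw [mul_assoc, ← mul_pow]
      gcongr
      nlinarith [(Nat.cast_nonneg R₀ : (0 : ℝ) ≤ R₀), (Nat.cast_nonneg n : (0 : ℝ) ≤ n)]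
    have h9 : ((aJ : ℝ) * n + 1) ^ Ds ≤ ((aJ : ℝ) + 1) ^ Ds * ((n : ℝ) + 1) ^ Ds := by
      rw [← mul_pow]
      gcongr
      nlinarith [(Nat.cast_nonneg aJ : (0 : ℝ) ≤ aJ), (Nat.cast_nonneg n : (0 : ℝ) ≤ n)]
    push_cast
    calc ((cc : ℝ) * ((Cs : ℝ) * ((R₀ : ℝ) * n + 1) ^ Ds)) ^ J *
          ((Cs : ℝ) ^ (R₀ * n + 1) * ((aJ : ℝ) * n + 1) ^ Ds)
        ≤ ((cc : ℝ) * ((Cs * ((R₀ : ℝ) + 1) ^ Ds) * ((n : ℝ) + 1) ^ Ds)) ^ J *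
          ((Cs : ℝ) ^ (R₀ * n + 1) *
            (((aJ : ℝ) + 1) ^ Ds * ((n : ℝ) + 1) ^ Ds)) := by
          gcongr
      _ = ((cc : ℝ) * (Cs * ((R₀ : ℝ) + 1) ^ Ds)) ^ J *
            (Cs * ((aJ : ℝ) + 1) ^ Ds) *
            ((n : ℝ) + 1) ^ (Ds * J + Ds) * (Cs : ℝ) ^ (R₀ * n) := by
          rw [pow_add, pow_add, pow_mul, pow_one]
          ring
      _ = _ := by rw [e3]
  have h11 : Real.exp (J * (γ * Real.log 2) * n) <
      Real.exp ((J * (γ * Real.log 2) - R₀ * Real.log Cs) * n) *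
        Real.exp (R₀ * Real.log Cs * n) := by
    refine (hlow.trans (h6.trans hup)).trans_lt ?_
    gcongr
  rw [← Real.exp_add] at h11
  have h12 := Real.exp_lt_exp.mp h11
  linarith

/-- The scalars are at least `1 - κ`. -/
theorem psi_lower {θ : G → E} {A : Set G} (M : Mod θ A) {b : E →L[ℝ] ℝ} (c' : Crossed θ b)
    (hu : c'.u ∈ A) {θ' : G' → E'} {A' : Set G'} {c K : ℕ} {C W : ℝ} (hK1 : 1 ≤ K)
    (hC : 1 ≤ C) {w : E} (hwW : ‖w‖ ≤ W) (hbw : 0 < b w) {κ : ℝ} (hκ : 0 < κ) :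
    ∃ (J N₀ : ℕ) (ε₀ : ℝ), 0 < ε₀ ∧ ∀ ε : ℝ, 0 < ε → ε ≤ ε₀ → ∃ n₀ : ℕ, ∀ n : ℕ, n₀ ≤ n →
      ∀ (T₂ : E →L[ℝ] E') (T₁' : E' →L[ℝ] E) (d : ℝ), 0 ≤ d → ‖T₂ w‖ ≤ W →
        (∀ j < J, Tr θ A θ' A' c K C W ε n (aseq K N₀ j * n) (Sseq C j * ε * n) T₂) →
        (∀ j < J, Tr θ' A' θ A c K C W ε n (K * (aseq K N₀ j * n))
          (C * (Sseq C j * ε * n + ε * n)) T₁') →
        ‖T₁' (T₂ w) - d • w‖ ≤ ε → 1 - κ ≤ d := by
  -- constants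
  obtain ⟨D₁, hD₁⟩ : ∃ D₁ : ℝ, ∀ a ∈ A, ‖c'.D a‖ ≤ D₁ := by
    obtain ⟨D₁, hD₁⟩ := (M.fin.image fun a => ‖c'.D a‖).bddAbove
    exact ⟨D₁, fun a ha => hD₁ ⟨a, ha, rfl⟩⟩
  have hD₁0 : 0 ≤ D₁ := (norm_nonneg _).trans (hD₁ 1 M.one)
  have hq : 0 < ‖b‖ * M.ℓ + 2 := by
    have := mul_nonneg (norm_nonneg b) M.ℓ0
    linarith
  set γ := κ * b w / (2 * (‖b‖ * M.ℓ + 2)) with hγ
  have hγ0 : 0 < γ := by positivity
  obtain ⟨N₀, hN₀⟩ := exists_nat_ge (2 * ‖w‖ + 1)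
  obtain ⟨R₀, hR₀⟩ := exists_nat_ge (‖w‖ + 1)
  have hlog2 : 0 < Real.log 2 := Real.log_pos (by norm_num)
  obtain ⟨J, hJ⟩ := exists_nat_gt ((R₀ * Real.log M.Cs) / (γ * Real.log 2))
  rw [div_lt_iff₀ (by positivity)] at hJ
  have hs0 : 0 < J * (γ * Real.log 2) - R₀ * Real.log M.Cs := by linarith
  obtain ⟨σ, hσ0, hσ1, hσ2⟩ : ∃ σ : ℝ, 0 < σ ∧ σ ≤ 1 ∧ σ ≤ κ * b w / (16 * (‖b‖ + 1)) :=
    ⟨min 1 (κ * b w / (16 * (‖b‖ + 1))), lt_min one_pos (by positivity), min_le_left _ _,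
      min_le_right _ _⟩
  have hSJ : 1 ≤ Sseq C J := one_le_Sseq hC J
  refine ⟨J, N₀, σ / Sseq C J, by positivity, fun ε hε hεε => ?_⟩
  have hSε : Sseq C J * ε ≤ σ := by
    rw [le_div_iff₀ (by linarith)] at hεε
    linarith
  -- largeness
  obtain ⟨n₁, hn₁⟩ := exists_exp_gt (((c * c * (M.Cs * (R₀ + 1) ^ M.Ds) : ℕ) : ℝ) ^ J *
    (M.Cs * ((aseq K N₀ J : ℝ) + 1) ^ M.Ds)) (M.Ds * J + M.Ds) hs0
  obtain ⟨n₂, hn₂⟩ := exists_exp_gt (4 * (aseq K N₀ J : ℝ) * D₁ / ‖c'.D c'.u‖) 1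
    (s := κ * b w / 8) (by positivity)
  obtain ⟨n₃, hn₃⟩ := exists_nat_ge (2 * M.r₀ / ε)
  obtain ⟨n₄, hn₄⟩ := exists_nat_ge (32 * (‖b‖ * M.r₀) / (κ * b w))
  refine ⟨max (max n₁ n₂) (max (max n₃ n₄) 1), fun n hn T₂ T₁' d hd0 hT₂ h2 h1 hd => ?_⟩
  simp only [max_le_iff] at hn
  obtain ⟨⟨hnn1, hnn2⟩, ⟨hnn3, hnn4⟩, hnn5⟩ := hn
  have hnpos : (1 : ℝ) ≤ n := by exact_mod_cast hnn5
  have hn0 : (0 : ℝ) < n := by linarith
  have hr₀n : 2 * M.r₀ ≤ ε * n := by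
    have h3 : (n₃ : ℝ) ≤ n := by exact_mod_cast hnn3
    have := hn₃.trans h3
    rw [div_le_iff₀ hε] at this
    linarith
  have hbr₀ : 32 * (‖b‖ * M.r₀) ≤ κ * b w * n := by
    have h3 : (n₄ : ℝ) ≤ n := by exact_mod_cast hnn4
    have := hn₄.trans h3
    rw [div_le_iff₀ (by positivity)] at this
    linarith
  by_contra hcon
  push Not at hcon
  have hd1 : d ≤ 1 := by linarith
  have hQ1 : (⌊γ * n⌋₊ : ℝ) ≤ γ * n := Nat.floor_le (by positivity)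
  have hQ2 : γ * n < ⌊γ * n⌋₊ + 1 := Nat.lt_floor_add_one _
  have hQ3 : (⌊γ * n⌋₊ : ℝ) * (‖b‖ * M.ℓ + 2) ≤ κ * b w * n / 2 := by
    calc (⌊γ * n⌋₊ : ℝ) * (‖b‖ * M.ℓ + 2) ≤ (γ * n) * (‖b‖ * M.ℓ + 2) := by gcongr
      _ = _ := by rw [hγ]; field_simp
  -- one step
  have step : ∀ j < J,
      (Ends θ A (aseq K N₀ j * n) ((n : ℝ) • w) (Sseq C j * ε * n)).ncard *
          2 ^ (⌊γ * n⌋₊ + 1) ≤
        c * c * (M.Cs * (R₀ * n + 1) ^ M.Ds) *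
          (Ends θ A (aseq K N₀ (j + 1) * n) ((n : ℝ) • w) (Sseq C (j + 1) * ε * n)).ncard := by
    intro j hj
    have hSj0 : 0 ≤ Sseq C j := by have := one_le_Sseq hC j; linarith
    have hSj1 : Sseq C (j + 1) * ε ≤ σ := by
      refine le_trans ?_ hSε
      have := Sseq_mono hC (show j + 1 ≤ J from hj)
      gcongr
    have haJ : aseq K N₀ (j + 1) ≤ aseq K N₀ J := aseq_mono hK1 hj
    rw [Sseq] at hSj1 ⊢
    rw [aseq] at haJ ⊢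
    exact psi_one M c' hu hC hwW hbw hκ hD₁0 hD₁ hε hσ0 hσ1 hσ2 hN₀ hR₀ hnn5 hr₀n hbr₀
      (hn₂ n hnn2) hQ3 haJ hSj0 hSj1 hT₂ (h2 j hj) (h1 j hj) hd0 hd1 hcon.le hd
  -- iteration
  have iter : ∀ j ≤ J,
      (Ends θ A (aseq K N₀ 0 * n) ((n : ℝ) • w) (Sseq C 0 * ε * n)).ncard *
        (2 ^ (⌊γ * n⌋₊ + 1)) ^ j ≤
        (c * c * (M.Cs * (R₀ * n + 1) ^ M.Ds)) ^ j *
          (Ends θ A (aseq K N₀ j * n) ((n : ℝ) • w) (Sseq C j * ε * n)).ncard := by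
    intro j
    induction j with
    | zero => intro _; simp
    | succ j ih =>
      intro hj
      have h3 := ih (by omega)
      have h4 := step j (by omega)
      rw [pow_succ (2 ^ (⌊γ * n⌋₊ + 1)) j, pow_succ (c * c * (M.Cs * (R₀ * n + 1) ^ M.Ds)) j,
        ← mul_assoc, mul_assoc _ (c * c * (M.Cs * (R₀ * n + 1) ^ M.Ds))]
      refine (Nat.mul_le_mul_right _ h3).trans ?_
      rw [mul_assoc]
      exact Nat.mul_le_mul_left _ h4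
  have hpos := M.ncard_pos (aseq K N₀ 0 * n) ((n : ℝ) • w) (r := Sseq C 0 * ε * n) (by
    have := one_le_Sseq hC 0
    positivity)
  have hupper := M.Ends_ncard_le (m := aseq K N₀ J * n) (w := (n : ℝ) • w)
    (r := Sseq C J * ε * n) (R := R₀ * n) (by
      rw [norm_smul, Real.norm_of_nonneg hn0.le]
      push_cast
      have h3 : Sseq C J * ε * n ≤ 1 * n := by
        gcongr
        linarith
      have : (‖w‖ + 1) * n ≤ R₀ * n := by gcongr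
      linarith)
  have h5 : (2 ^ (⌊γ * n⌋₊ + 1)) ^ J ≤
      (c * c * (M.Cs * (R₀ * n + 1) ^ M.Ds)) ^ J *
        (M.Cs ^ (R₀ * n + 1) * (aseq K N₀ J * n + 1) ^ M.Ds) := by
    calc (2 ^ (⌊γ * n⌋₊ + 1)) ^ J = 1 * (2 ^ (⌊γ * n⌋₊ + 1)) ^ J := (one_mul _).symm
      _ ≤ _ := Nat.mul_le_mul_right _ hpos
      _ ≤ _ := iter J le_rfl
      _ ≤ _ := Nat.mul_le_mul_left _ hupper
  exact num_final M.hCs hQ2.le hγ0.le h5 (hn₁ n hnn1)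

end Vale.Agent.P188.H530

end

section

/-! P188, block PSI: two linear parts with the same ray structure are close. -/

universe u v w w'

open Finset Module

namespace Vale.Agent.P188.H530

open Vale.Agent.P188.H789 (Bl PathTo Bl_mono mul_mem_Bl mem_Bl_one one_mem_Bl)

variable {G : Type u} [Group G] {G' : Type v} [Group G']
  {E : Type w} [NormedAddCommGroup E] [NormedSpace ℝ E]
  {E' : Type w'} [NormedAddCommGroup E'] [NormedSpace ℝ E']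

theorem Tr.mono {θ : G → E} {A : Set G} {θ' : G' → E'} {A' : Set G'} (M' : Mod θ' A') {c K : ℕ}
    {C W ε ε' : ℝ} (hC : 0 ≤ C) (hε : ε ≤ ε') {n m : ℕ} {r : ℝ} {T : E →L[ℝ] E'}
    (h : Tr θ A θ' A' c K C W ε n m r T) : Tr θ A θ' A' c K C W ε' n m r T := by
  intro w hw
  refine (h w hw).trans (Nat.mul_le_mul_left _ ?_)
  exact M'.ncard_mono le_rfl (Near_mono (by gcongr))

/-- `T` transfers end points for all pairs (length, distance) in a finite list. -/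
def TrP (θ : G → E) (A : Set G) (θ' : G' → E') (A' : Set G') (c K : ℕ) (C W ε : ℝ) (n : ℕ)
    (P : Finset (ℕ × ℝ)) (T : E →L[ℝ] E') : Prop :=
  ∀ p ∈ P, Tr θ A θ' A' c K C W ε n (p.1 * n) (p.2 * ε * n) T

theorem TrP.mono {θ : G → E} {A : Set G} {θ' : G' → E'} {A' : Set G'} {c K : ℕ}
    {C W ε : ℝ} {n : ℕ} {P P' : Finset (ℕ × ℝ)} (hP : P' ⊆ P) {T : E →L[ℝ] E'}
    (h : TrP θ A θ' A' c K C W ε n P T) : TrP θ A θ' A' c K C W ε n P' T :=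
  fun p hp => h p (hP hp)

/-- The list of pairs (length, distance) used by `psi_lower`. -/
noncomputable def plist (K : ℕ) (C C₂ : ℝ) (J N₀ : ℕ) : Finset (ℕ × ℝ) :=
  (range J).image (fun j => (aseq K N₀ j, Sseq C j * C₂)) ∪
    (range J).image (fun j => (K * aseq K N₀ j, C * (Sseq C j + 1) * C₂))

theorem psi_lower' {θ : G → E} {A : Set G} (M : Mod θ A) {b : E →L[ℝ] ℝ} (c' : Crossed θ b)
    (hu : c'.u ∈ A) {θ' : G' → E'} {A' : Set G'} (M' : Mod θ' A') {c K : ℕ} {C W : ℝ}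
    (hK1 : 1 ≤ K) (hC : 1 ≤ C) {w : E} (hwW : ‖w‖ ≤ W) (hbw : 0 < b w) {κ C₂ : ℝ} (hκ : 0 < κ)
    (hC₂ : 1 ≤ C₂) :
    ∃ (P : Finset (ℕ × ℝ)) (ε₀ : ℝ), 0 < ε₀ ∧ (∀ p ∈ P, 1 ≤ p.1 ∧ 1 ≤ p.2) ∧
      ∀ ε : ℝ, 0 < ε → ε ≤ ε₀ → ∃ n₀ : ℕ, ∀ n : ℕ, n₀ ≤ n →
      ∀ (T₂ : E →L[ℝ] E') (T₁' : E' →L[ℝ] E) (d : ℝ), 0 ≤ d → ‖T₂ w‖ ≤ W →
        TrP θ A θ' A' c K C W ε n P T₂ → TrP θ' A' θ A c K C W ε n P T₁' →
        ‖T₁' (T₂ w) - d • w‖ ≤ C₂ * ε → 1 - κ ≤ d := by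
  obtain ⟨J, N₀, ε₀, hε₀, H⟩ := psi_lower M c' hu (θ' := θ') (A' := A') (c := c) hK1 hC hwW hbw hκ
  have hC₂0 : 0 < C₂ := by linarith
  have hC0 : 0 < C := by linarith
  refine ⟨plist K C C₂ J N₀, ε₀ / C₂, by positivity, ?_, fun ε hε hεε => ?_⟩
  · intro p hp
    rw [plist, Finset.mem_union, Finset.mem_image, Finset.mem_image] at hp
    rcases hp with ⟨j, -, rfl⟩ | ⟨j, -, rfl⟩
    · have := one_le_Sseq hC j
      have h3 : 1 ≤ aseq K N₀ j := aseq_mono hK1 (Nat.zero_le j)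
      refine ⟨h3, ?_⟩
      simp only
      nlinarith
    · have h1 := one_le_Sseq hC j
      have h3 : 1 ≤ aseq K N₀ j := aseq_mono hK1 (Nat.zero_le j)
      refine ⟨Nat.mul_pos hK1 h3, ?_⟩
      simp only
      have h2 : 1 ≤ C * (Sseq C j + 1) := by nlinarith
      nlinarith
  have hεε' : C₂ * ε ≤ ε₀ := by
    rw [le_div_iff₀ hC₂0] at hεε
    linarith
  obtain ⟨n₀, hn₀⟩ := H (C₂ * ε) (by positivity) hεε'
  refine ⟨n₀, fun n hn T₂ T₁' d hd0 hT₂ h2 h1 hd => hn₀ n hn T₂ T₁' d hd0 hT₂ ?_ ?_ hd⟩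
  · intro j hj
    have := h2 (aseq K N₀ j, Sseq C j * C₂) (by
      rw [plist, Finset.mem_union]
      left
      exact Finset.mem_image.mpr ⟨j, Finset.mem_range.mpr hj, rfl⟩)
    simp only at this
    rw [mul_assoc (Sseq C j)] at this
    exact this.mono M' hC0.le (by nlinarith)
  · intro j hj
    have := h1 (K * aseq K N₀ j, C * (Sseq C j + 1) * C₂) (by
      rw [plist, Finset.mem_union]
      right
      exact Finset.mem_image.mpr ⟨j, Finset.mem_range.mpr hj, rfl⟩)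
    simp only at this
    have e : C * (Sseq C j + 1) * C₂ * ε * n =
        C * (Sseq C j * (C₂ * ε) * n + (C₂ * ε) * n) := by ring
    rw [e, mul_assoc K] at this
    exact this.mono M hC0.le (by nlinarith)

/-- Two linear parts with the same ray structure are close. -/
theorem psi_final {θ : G → E} {A : Set G} (M : Mod θ A) {ι : Type*} [Fintype ι]
    (v : Basis ι ℝ E) (b : ι → E →L[ℝ] ℝ) (hb : ∀ i, 0 < b i (v i))
    (c' : ∀ i, Crossed θ (b i)) (hu : ∀ i, (c' i).u ∈ A) {θ' : G' → E'} {A' : Set G'}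
    (M' : Mod θ' A') {c K : ℕ} {C L W : ℝ} (hK1 : 1 ≤ K) (hC : 1 ≤ C) (hL : 1 ≤ L)
    (hW : ∀ i, L * ‖v i‖ ≤ W) {κ : ℝ} (hκ : 0 < κ) :
    ∃ (P : Finset (ℕ × ℝ)) (ε₀ : ℝ), 0 < ε₀ ∧ (∀ p ∈ P, 1 ≤ p.1 ∧ 1 ≤ p.2) ∧
      ∀ ε : ℝ, 0 < ε → ε ≤ ε₀ → ∃ n₀ : ℕ, ∀ n : ℕ, n₀ ≤ n →
      ∀ (T₁ T₂ : E →L[ℝ] E') (T₁' T₂' : E' →L[ℝ] E),
        ‖T₁‖ ≤ L → ‖T₂‖ ≤ L → ‖T₁'‖ ≤ L → ‖T₂'‖ ≤ L →
        TrP θ A θ' A' c K C W ε n P T₁ → TrP θ A θ' A' c K C W ε n P T₂ →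
        TrP θ' A' θ A c K C W ε n P T₁' → TrP θ' A' θ A c K C W ε n P T₂' →
        (∀ y, ‖T₁ (T₁' y) - y‖ ≤ ε * ‖y‖) → (∀ x, ‖T₂' (T₂ x) - x‖ ≤ ε * ‖x‖) →
        (∀ i, ∃ d : ℝ, 0 ≤ d ∧ ‖T₁' (T₂ (v i)) - d • v i‖ ≤ ε) → ‖T₂ - T₁‖ ≤ κ := by
  classical
  obtain ⟨Cv, hCv, hCv'⟩ := v.exists_opNorm_le (F := E)
  obtain ⟨V, hV0, hV⟩ : ∃ V : ℝ, 0 ≤ V ∧ ∀ i, ‖v i‖ ≤ V := by
    obtain ⟨V, hV⟩ := (Set.finite_range fun i => ‖v i‖).bddAbove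
    exact ⟨max V 0, le_max_right _ _, fun i => (hV ⟨i, rfl⟩).trans (le_max_left _ _)⟩
  have hL0 : 0 < L := by linarith
  have hvW : ∀ i, ‖v i‖ ≤ W := fun i => by
    refine le_trans ?_ (hW i)
    have := norm_nonneg (v i)
    nlinarith
  -- the precision for the scalars
  set κ₁ := min (1 / 2) (κ / (8 * (L * Cv * V + 1))) with hκ₁
  have hκ₁0 : 0 < κ₁ := lt_min (by norm_num) (by positivity)
  set C₂ := 2 * (V + L * L * V + L * L) + 1 with hC₂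
  have hC₂1 : 1 ≤ C₂ := by
    have : 0 ≤ V + L * L * V + L * L := by positivity
    linarith
  have H := fun i => psi_lower' M (c' i) (hu i) M' (c := c) (K := K) (C := C) (W := W) hK1 hC
    (hvW i) (hb i) hκ₁0 hC₂1
  choose P ε₀ hε₀ hP hH using H
  obtain ⟨ε₁, hε₁, hε₁'⟩ : ∃ ε₁ : ℝ, 0 < ε₁ ∧ ∀ i, ε₁ ≤ ε₀ i := by
    rcases isEmpty_or_nonempty ι with hι | hι
    · exact ⟨1, one_pos, fun i => isEmptyElim i⟩
    · refine ⟨Finset.univ.inf' Finset.univ_nonempty ε₀, ?_, fun i => Finset.inf'_le _ (by simp)⟩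
      rw [Finset.lt_inf'_iff]
      exact fun i _ => hε₀ i
  refine ⟨Finset.univ.biUnion P, min ε₁ (κ / (4 * (L * Cv + L + 1))),
    lt_min hε₁ (by positivity), ?_, fun ε hε hεε => ?_⟩
  · intro p hp
    rw [Finset.mem_biUnion] at hp
    obtain ⟨i, -, hi⟩ := hp
    exact hP i p hi
  have hε1 : ε ≤ ε₁ := hεε.trans (min_le_left _ _)
  have hε2 : ε ≤ κ / (4 * (L * Cv + L + 1)) := hεε.trans (min_le_right _ _)
  choose n₀ hn₀ using fun i => hH i ε hε (hε1.trans (hε₁' i))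
  obtain ⟨n₁, hn₁⟩ := (Set.finite_range n₀).bddAbove
  refine ⟨n₁, fun n hn T₁ T₂ T₁' T₂' b1 b2 b1' b2' t1 t2 t1' t2' i1 i2 hd => ?_⟩
  have hnn : ∀ i, n₀ i ≤ n := fun i => (hn₁ ⟨i, rfl⟩).trans hn
  have hsub : ∀ i, P i ⊆ Finset.univ.biUnion P := fun i =>
    Finset.subset_biUnion_of_mem P (Finset.mem_univ i)
  have hTv : ∀ (T : E →L[ℝ] E'), ‖T‖ ≤ L → ∀ i, ‖T (v i)‖ ≤ W := by
    intro T hT i
    refine (T.le_opNorm _).trans (le_trans ?_ (hW i))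
    gcongr
  -- the scalars
  have hscal : ∀ i, ‖T₁' (T₂ (v i)) - v i‖ ≤ ε + 2 * κ₁ * V := by
    intro i
    obtain ⟨d, hd0, hdi⟩ := hd i
    have hlow : 1 - κ₁ ≤ d := by
      refine hn₀ i n (hnn i) T₂ T₁' d hd0 (hTv _ b2 i) (t2.mono (hsub i)) (t1'.mono (hsub i)) ?_
      refine hdi.trans ?_
      nlinarith
    have hκ2 : κ₁ ≤ 1 / 2 := min_le_left _ _
    have hdhalf : 1 / 2 ≤ d := by linarith
    have hdpos : 0 < d := by linarith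
    have hdi2 : d⁻¹ ≤ 2 := by
      rw [inv_le_comm₀ hdpos (by norm_num)]
      linarith
    -- the inverse
    have hinv : ‖T₂' (T₁ (v i)) - d⁻¹ • v i‖ ≤ C₂ * ε := by
      have e : T₂' (T₁ (v i)) - d⁻¹ • v i =
          d⁻¹ • ((T₂' (T₂ (v i)) - v i) + T₂' (T₁ (T₁' (T₂ (v i))) - T₂ (v i))
            - T₂' (T₁ (T₁' (T₂ (v i)) - d • v i))) := by
        simp only [map_sub, map_smul, smul_add, smul_sub]
        rw [smul_smul, inv_mul_cancel₀ hdpos.ne', one_smul]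
        abel
      have n1 : ‖T₂' (T₂ (v i)) - v i‖ ≤ ε * V := (i2 _).trans (by gcongr; exact hV i)
      have n2 : ‖T₂' (T₁ (T₁' (T₂ (v i))) - T₂ (v i))‖ ≤ L * (ε * (L * V)) := by
        refine (T₂'.le_opNorm _).trans ?_
        have := i1 (T₂ (v i))
        have h3 : ‖T₂ (v i)‖ ≤ L * V := (T₂.le_opNorm _).trans (by gcongr; exact hV i)
        have h4 : ‖T₁ (T₁' (T₂ (v i))) - T₂ (v i)‖ ≤ ε * (L * V) := this.trans (by gcongr)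
        gcongr
      have n3 : ‖T₂' (T₁ (T₁' (T₂ (v i)) - d • v i))‖ ≤ L * (L * ε) := by
        refine (T₂'.le_opNorm _).trans ?_
        have h4 : ‖T₁ (T₁' (T₂ (v i)) - d • v i)‖ ≤ L * ε :=
          (T₁.le_opNorm _).trans (by gcongr)
        gcongr
      rw [e, norm_smul, Real.norm_of_nonneg (inv_nonneg.mpr hd0)]
      have n4 : ‖(T₂' (T₂ (v i)) - v i) + T₂' (T₁ (T₁' (T₂ (v i))) - T₂ (v i))
            - T₂' (T₁ (T₁' (T₂ (v i)) - d • v i))‖ ≤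
          ε * V + L * (ε * (L * V)) + L * (L * ε) :=
        (norm_sub_le _ _).trans (add_le_add ((norm_add_le _ _).trans (add_le_add n1 n2)) n3)
      calc d⁻¹ * _ ≤ 2 * (ε * V + L * (ε * (L * V)) + L * (L * ε)) := by gcongr
        _ ≤ C₂ * ε := by rw [hC₂]; nlinarith
    have hup : 1 - κ₁ ≤ d⁻¹ :=
      hn₀ i n (hnn i) T₁ T₂' d⁻¹ (inv_nonneg.mpr hd0) (hTv _ b1 i) (t1.mono (hsub i))
        (t2'.mono (hsub i)) hinv
    have hdle : d ≤ 1 + 2 * κ₁ := by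
      have h5 : (1 - κ₁) * d ≤ 1 := by
        calc (1 - κ₁) * d ≤ d⁻¹ * d := by gcongr
          _ = 1 := inv_mul_cancel₀ hdpos.ne'
      nlinarith
    have habs : |d - 1| ≤ 2 * κ₁ := by
      rw [abs_le]
      constructor <;> linarith
    have e : T₁' (T₂ (v i)) - v i = (T₁' (T₂ (v i)) - d • v i) + (d - 1) • v i := by
      rw [sub_smul, one_smul]; abel
    rw [e]
    refine (norm_add_le _ _).trans (add_le_add hdi ?_)
    rw [norm_smul, Real.norm_eq_abs]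
    have := hV i
    gcongr
  -- conclusion
  have hS : ‖T₁'.comp T₂ - ContinuousLinearMap.id ℝ E‖ ≤ Cv * (ε + 2 * κ₁ * V) := by
    refine hCv' (by positivity) fun i => ?_
    simpa using hscal i
  have hfin : ‖T₂ - T₁‖ ≤ ε * L + L * (Cv * (ε + 2 * κ₁ * V)) := by
    have e : T₂ - T₁ = (T₂ - (T₁.comp T₁').comp T₂) +
        T₁.comp (T₁'.comp T₂ - ContinuousLinearMap.id ℝ E) := by
      rw [ContinuousLinearMap.comp_sub, ContinuousLinearMap.comp_assoc,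
        ContinuousLinearMap.comp_id]
      abel
    rw [e]
    refine (norm_add_le _ _).trans (add_le_add ?_ ?_)
    · refine ContinuousLinearMap.opNorm_le_bound _ (by positivity) fun x => ?_
      have h1 : (T₂ - (T₁.comp T₁').comp T₂) x = -(T₁ (T₁' (T₂ x)) - T₂ x) := by
        simp
      rw [h1, norm_neg]
      refine (i1 _).trans ?_
      calc ε * ‖T₂ x‖ ≤ ε * (L * ‖x‖) := by
            gcongr
            exact (T₂.le_opNorm _).trans (by gcongr)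
        _ = ε * L * ‖x‖ := by ring
    · refine (ContinuousLinearMap.opNorm_comp_le _ _).trans ?_
      gcongr
  refine hfin.trans ?_
  have hκ3 : κ₁ ≤ κ / (8 * (L * Cv * V + 1)) := min_le_right _ _
  rw [le_div_iff₀ (by positivity)] at hκ3 hε2
  have h1 : 0 ≤ L * Cv * ε := by positivity
  have h2 : 0 ≤ κ₁ * (L * Cv * V) := by positivity
  nlinarith

end Vale.Agent.P188.H530

end

section

/-! P188, block COH: linear parts with the same ray map are close. -/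

universe u v w w'

open Set Module

namespace Vale.Agent.P188.H530

open Vale.Agent.P188.H789 (Bl PathTo)

variable {G : Type u} [Group G] {E : Type w} [NormedAddCommGroup E] [NormedSpace ℝ E]
  [FiniteDimensional ℝ E]

/-- Linear parts with the same ray map are close. -/
theorem psi_pat {θ : G → E} {A : Set G} (M : Mod θ A) (Φ₁ : Finset (E →L[ℝ] ℝ))
    (hsp : ∀ w, (∀ b ∈ Φ₁, b w = 0) → w = 0)
    (hcr : ∀ b ∈ Φ₁, ∃ c : Crossed θ b, c.u ∈ A) (c K : ℕ) {C L t₀ : ℝ} (t₁ : ℝ) (hK1 : 1 ≤ K)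
    (hC : 1 ≤ C) (hL : 1 ≤ L) (ht₀ : 0 < t₀) {κ : ℝ} (hκ : 0 < κ) :
    ∃ (P : Finset (ℕ × ℝ)) (W ε δ : ℝ) (n₀ : ℕ), 0 < ε ∧ 0 < δ ∧
      (∀ p ∈ P, 1 ≤ p.1 ∧ 1 ≤ p.2) ∧ ∀ δ' ≤ δ, ∀ n : ℕ, n₀ ≤ n →
      ∀ (T₁ T₂ T₁' T₂' : E →L[ℝ] E) (β β₂ : (E →L[ℝ] ℝ) → (E →L[ℝ] ℝ))
        (t s : (E →L[ℝ] ℝ) → ℝ),
        ‖T₁‖ ≤ L → ‖T₂‖ ≤ L → ‖T₁'‖ ≤ L → ‖T₂'‖ ≤ L →
        TrP θ A θ A c K C W ε n P T₁ → TrP θ A θ A c K C W ε n P T₂ →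
        TrP θ A θ A c K C W ε n P T₁' → TrP θ A θ A c K C W ε n P T₂' →
        (∀ y, ‖T₁ (T₁' y) - y‖ ≤ δ' * ‖y‖) → (∀ x, ‖T₂' (T₂ x) - x‖ ≤ δ' * ‖x‖) →
        RayLin Φ₁ T₁ β t t₀ t₁ δ' → RayLin Φ₁ T₂ β₂ s t₀ t₁ δ' → (∀ b ∈ Φ₁, β b = β₂ b) →
        ‖T₂ - T₁‖ ≤ κ := by
  classical
  obtain ⟨v, b, hb, hvb⟩ := exists_dual_basis Φ₁ hsp
  obtain ⟨V, hV0, hV⟩ : ∃ V : ℝ, 0 ≤ V ∧ ∀ i, ‖v i‖ ≤ V := by
    obtain ⟨V, hV⟩ := (Set.finite_range fun i => ‖v i‖).bddAbove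
    exact ⟨max V 0, le_max_right _ _, fun i => (hV ⟨i, rfl⟩).trans (le_max_left _ _)⟩
  obtain ⟨B, hB0, hB⟩ := exists_max_norm Φ₁
  choose cr hcru using fun i => hcr (b i) (hb i)
  have hW : ∀ i, L * ‖v i‖ ≤ L * V := fun i => by
    have := hV i
    gcongr
  obtain ⟨P, ε₀, hε₀, hP, H⟩ := psi_final M v b (fun i => by rw [hvb i i]; simp) cr hcru M
    (c := c) (K := K) hK1 hC hL hW hκ
  obtain ⟨n₀, hn₀⟩ := H ε₀ hε₀ le_rfl
  obtain ⟨Q, hQ⟩ : ∃ Q : ℝ, Q = (Fintype.card (Fin (finrank ℝ (Dual ℝ E))) : ℝ) * (V * V) *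
    ((1 + L * L + B * L) / t₀) := ⟨_, rfl⟩
  have hQ0 : 0 ≤ Q := by rw [hQ]; positivity
  refine ⟨P, L * V, ε₀, min ε₀ (ε₀ / (Q + 1)), n₀, hε₀, lt_min hε₀ (by positivity), hP,
    fun δ hδ n hn T₁ T₂ T₁' T₂' β β₂ t s b1 b2 b1' b2' t1 t2 t1' t2' i1 i2 r1 r2 hβ => ?_⟩
  have hδ1 : δ ≤ ε₀ := hδ.trans (min_le_left _ _)
  have hδ2 : δ ≤ ε₀ / (Q + 1) := hδ.trans (min_le_right _ _)
  refine hn₀ n hn T₁ T₂ T₁' T₂' b1 b2 b1' b2' t1 t2 t1' t2'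
    (fun y => (i1 y).trans (by gcongr)) (fun x => (i2 x).trans (by gcongr)) fun i => ?_
  have hδ0 : 0 ≤ δ := (norm_nonneg _).trans (r1.close _ (hb i))
  have h1 := rayLin_same ht₀ b2 hB i1 b1' r1 r2 hβ
  obtain ⟨d, hd0, hd⟩ := eigen_of_dual v b hvb hV (A := T₁'.comp T₂)
    (η := (1 + L * L + B * L) / t₀ * δ) (by positivity) (fun i => h1 (b i) (hb i)) i
  refine ⟨d, hd0, hd.trans ?_⟩
  have e : (Fintype.card (Fin (finrank ℝ (Dual ℝ E))) : ℝ) * (V * V) *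
      ((1 + L * L + B * L) / t₀ * δ) = Q * δ := by rw [hQ]; ring
  rw [e]
  rw [le_div_iff₀ (by positivity)] at hδ2
  nlinarith

end Vale.Agent.P188.H530

end
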