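import Vale.Agent.P188.R.G053

section

/-!
P188, QA7, (S3): a group with a hypercentral subgroup of finite index is
finite-by-(torsion-free nilpotent) (helper83).
-/

universe u

namespace Vale.Agent.P188.QA7

open Vale.Agent.P188.H754 Vale.Agent.P188.H796
open scoped commutatorElement

theorem finite_tor_add {M : Type u} [AddCommGroup M] [Module.Finite ℤ M] :
    {x : M | ∃ e : ℕ, e ≠ 0 ∧ e • x = 0}.Finite := by
  have h1 : Module.Finite ℤ (Submodule.torsion ℤ M) := inferInstance
  have h2 : Finite (Submodule.torsion ℤ M) :=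
    Module.finite_of_fg_torsion _ (Submodule.torsion_isTorsion)
  refine Set.Finite.subset (Set.toFinite (Submodule.torsion ℤ M : Set M)) ?_
  rintro x ⟨e, he, hx⟩
  rw [SetLike.mem_coe, Submodule.mem_torsion_iff]
  refine ⟨⟨(e : ℤ), mem_nonZeroDivisors_of_ne_zero (by exact_mod_cast he)⟩, ?_⟩
  change (e : ℤ) • x = 0
  rw [natCast_zsmul]; exact hx

theorem finite_tor {A : Type u} [Group A] [Group.FG A] (hcomm : ∀ x y : A, x * y = y * x) :
    {x : A | ∃ e : ℕ, e ≠ 0 ∧ x ^ e = 1}.Finite := by
  let inst : CommGroup A := { (inferInstance : Group A) with mul_comm := hcomm }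
  have hfg0 : AddGroup.FG (Additive A) := by
    rw [AddGroup.fg_iff_addMonoid_fg, ← Monoid.fg_iff_add_fg, ← Group.fg_iff_monoid_fg]
    infer_instance
  have hfin : Module.Finite ℤ (Additive A) := Module.Finite.iff_addGroup_fg.2 hfg0
  have h := finite_tor_add (M := Additive A)
  exact h

theorem fg_map {G : Type u} {G' : Type u} [Group G] [Group G'] {H : Subgroup G} (h : H.FG)
    (f : G →* G') : (H.map f).FG := by
  classical
  obtain ⟨S, hS⟩ := h
  refine ⟨S.image f, ?_⟩
  rw [Finset.coe_image, ← hS, MonoidHom.map_closure]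

/-- torsion elements in a group which is finite over its centre -/
theorem tor_mul {S : Type u} [Group S] (hfi : (Subgroup.center S).FiniteIndex) {x y : S}
    (hx : ∃ e : ℕ, e ≠ 0 ∧ x ^ e = 1) (hy : ∃ e : ℕ, e ≠ 0 ∧ y ^ e = 1) :
    ∃ e : ℕ, e ≠ 0 ∧ (x * y) ^ e = 1 := by
  obtain ⟨a, ha, hx⟩ := hx
  obtain ⟨b, hb, hy⟩ := hy
  obtain ⟨d, hd⟩ : ∃ d, d = (Subgroup.center S).index := ⟨_, rfl⟩
  have hd0 : d ≠ 0 := by rw [hd]; exact hfi.index_ne_zero
  refine ⟨d * (a * b), mul_ne_zero hd0 (mul_ne_zero ha hb), ?_⟩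
  have h1 : (x * y) ^ d = x ^ d * y ^ d := by
    have := congrArg (Subtype.val : Subgroup.center S → S) (map_mul (MonoidHom.transferCenterPow S) x y)
    rw [Subgroup.coe_mul, MonoidHom.transferCenterPow_apply, MonoidHom.transferCenterPow_apply,
      MonoidHom.transferCenterPow_apply, ← hd] at this
    exact this
  have hc : Commute (x ^ d) (y ^ d) := by
    have hm : x ^ d ∈ Subgroup.center S := by
      rw [hd, ← MonoidHom.transferCenterPow_apply]
      exact (MonoidHom.transferCenterPow S x).2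
    exact ((Subgroup.mem_center_iff.1 hm) (y ^ d)).symm
  rw [pow_mul, h1, hc.mul_pow, ← pow_mul, ← pow_mul]
  have e1 : x ^ (d * (a * b)) = 1 := by
    rw [show d * (a * b) = a * (d * b) by ring, pow_mul, hx, one_pow]
  have e2 : y ^ (d * (a * b)) = 1 := by
    rw [show d * (a * b) = b * (d * a) by ring, pow_mul, hy, one_pow]
  rw [e1, e2, one_mul]

theorem baer_aux : ∀ (n : ℕ) (C : Type u) [Group C] (Z : ℕ → Subgroup C),
    (Z 0).FiniteIndex → Z n = ⊥ → (∀ i, (Z i).FG) → (∀ i, Z (i + 1) ≤ Z i) →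
    (∀ i, ∀ x ∈ Z i, ∀ c : C, ⁅c, x⁆ ∈ Z (i + 1)) →
    ∃ T : Subgroup C, T.Normal ∧ Finite T ∧ Iso T ⊤ ∧
      ∃ k, (⊤ : Subgroup C).lowerCentralSeries k ≤ T
  | 0, C, _, Z, h0, hn, _, _, _ => by
    have hfi : (⊥ : Subgroup C).FiniteIndex := by rw [← hn]; exact h0
    have hfin : Finite C := by
      have h1 : Finite (C ⧸ (⊥ : Subgroup C)) := inferInstance
      exact Finite.of_equiv _ (QuotientGroup.quotientBot (G := C)).toEquiv
    exact ⟨⊤, inferInstance, inferInstance, fun x _ _ _ _ => trivial, 0, le_top⟩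
  | n + 1, C, _, Z, h0, hn, hfg, hle, hcom => by
    classical
    obtain ⟨z, hz⟩ : ∃ z, z = Z n := ⟨_, rfl⟩
    have hzc : ∀ x ∈ z, ∀ c : C, c * x = x * c := by
      intro x hx c
      have h1 := hcom n x (hz ▸ hx) c
      rw [hn, Subgroup.mem_bot] at h1
      exact commutatorElement_eq_one_iff_mul_comm.1 h1
    have hzn : z.Normal := by
      constructor
      intro x hx c
      rw [hzc x hx c, mul_inv_cancel_right]
      exact hx
    have hmk := QuotientGroup.mk'_surjective z
    obtain ⟨T₀, hT₀n, hT₀f, hT₀i, k, hk⟩ := baer_aux n (C ⧸ z)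
      (fun i => (Z i).map (QuotientGroup.mk' z))
      (by
        have h2 := Subgroup.index_map_dvd (Z 0) hmk
        refine ⟨fun h3 => h0.index_ne_zero ?_⟩
        have h4 : ((Z 0).map (QuotientGroup.mk' z)).index = 0 := h3
        rw [h4] at h2
        exact Nat.eq_zero_of_zero_dvd h2)
      (by
        rw [← hz, Subgroup.map_eq_bot_iff, QuotientGroup.ker_mk'])
      (fun i => fg_map (hfg i) _)
      (fun i => Subgroup.map_mono (hle i))
      (fun i => by
        rintro _ ⟨x, hx, rfl⟩ c
        obtain ⟨c, rfl⟩ := hmk c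
        rw [← map_commutatorElement]
        exact Subgroup.mem_map_of_mem _ (hcom i x hx c))
    obtain ⟨T', hT'⟩ : ∃ T', T' = T₀.comap (QuotientGroup.mk' z) := ⟨_, rfl⟩
    have hT'n : T'.Normal := by rw [hT']; exact Subgroup.Normal.comap hT₀n _
    have hmem : ∀ x : C, x ∈ T' ↔ (QuotientGroup.mk' z x) ∈ T₀ := by
      intro x; rw [hT']; rfl
    have hzT' : z ≤ T' := by
      intro x hx
      rw [hmem]
      have : QuotientGroup.mk' z x = 1 := (QuotientGroup.eq_one_iff x).2 hx
      rw [this]; exact one_mem _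
    -- `z` has finite index in `T'`
    obtain ⟨d, hd0, hd⟩ : ∃ d : ℕ, d ≠ 0 ∧ ∀ x ∈ T', x ^ d ∈ z := by
      refine ⟨Nat.card T₀, Nat.card_pos.ne', fun x hx => ?_⟩
      have h1 : (⟨QuotientGroup.mk' z x, (hmem x).1 hx⟩ : T₀) ^ Nat.card T₀ = 1 :=
        pow_card_eq_one'
      have h2 := congrArg (Subtype.val : T₀ → C ⧸ z) h1
      have h3 : (QuotientGroup.mk' z) (x ^ Nat.card T₀) = 1 := by
        rw [map_pow]; exact h2
      exact (QuotientGroup.eq_one_iff _).1 h3
    have hrel : (z.subgroupOf T').FiniteIndex := by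
      refine ⟨?_⟩
      have hfin : Finite (T' ⧸ z.subgroupOf T') := by
        let f : T' ⧸ z.subgroupOf T' → T₀ := Quotient.lift
          (fun x : T' => (⟨QuotientGroup.mk' z (x : C), (hmem x).1 x.2⟩ : T₀)) (by
            intro a b hab
            have h1 : a⁻¹ * b ∈ z.subgroupOf T' := QuotientGroup.leftRel_apply.1 hab
            rw [Subgroup.mem_subgroupOf] at h1
            apply Subtype.ext
            exact QuotientGroup.eq.2 (by simpa using h1))
        refine Finite.of_injective f ?_
        intro a b hab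
        induction a using QuotientGroup.induction_on with
        | H a =>
          induction b using QuotientGroup.induction_on with
          | H b =>
            rw [QuotientGroup.eq, Subgroup.mem_subgroupOf]
            have h1 := congrArg (Subtype.val : T₀ → C ⧸ z) hab
            have h2 : (QuotientGroup.mk (a : C) : C ⧸ z) = QuotientGroup.mk (b : C) := h1
            simpa using QuotientGroup.eq.1 h2
      exact Nat.card_pos.ne'
    have hcent : (Subgroup.center T').FiniteIndex := by
      refine Subgroup.finiteIndex_of_le (H := z.subgroupOf T') ?_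
      intro x hx
      rw [Subgroup.mem_subgroupOf] at hx
      rw [Subgroup.mem_center_iff]
      intro y
      exact Subtype.ext (hzc _ hx y)
    -- the torsion of `T'`
    let T : Subgroup C :=
      { carrier := {x | x ∈ T' ∧ ∃ e : ℕ, e ≠ 0 ∧ x ^ e = 1}
        one_mem' := ⟨one_mem _, 1, one_ne_zero, by simp⟩
        mul_mem' := by
          rintro x y ⟨hx, e, he, hxe⟩ ⟨hy, e', he', hye⟩
          refine ⟨mul_mem hx hy, ?_⟩
          obtain ⟨f, hf, h1⟩ := tor_mul hcent (x := ⟨x, hx⟩) (y := ⟨y, hy⟩)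
            ⟨e, he, Subtype.ext (by simpa using hxe)⟩ ⟨e', he', Subtype.ext (by simpa using hye)⟩
          exact ⟨f, hf, by simpa using congrArg (Subtype.val : T' → C) h1⟩
        inv_mem' := by
          rintro x ⟨hx, e, he, hxe⟩
          exact ⟨inv_mem hx, e, he, by rw [inv_pow, hxe, inv_one]⟩ }
    have hTmem : ∀ x, x ∈ T ↔ x ∈ T' ∧ ∃ e : ℕ, e ≠ 0 ∧ x ^ e = 1 := fun _ => Iff.rfl
    refine ⟨T, ?_, ?_, ?_, k + 1, ?_⟩
    · constructor
      intro x hx c
      obtain ⟨h1, e, he, h2⟩ := hx
      exact ⟨hT'n.conj_mem x h1 c, e, he, by rw [conj_pow, h2]; simp⟩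
    · -- finite
      have hzfg : Group.FG z := (Group.fg_iff_subgroup_fg _).2 (hz ▸ hfg n)
      have hzf := finite_tor (A := z) (fun x y => Subtype.ext (hzc y y.2 x))
      have h1 : ((T ⊓ z : Subgroup C) : Set C).Finite := by
        refine (hzf.image (Subtype.val : z → C)).subset ?_
        rintro x ⟨⟨-, e, he, hx⟩, hxz⟩
        exact ⟨⟨x, hxz⟩, ⟨e, he, Subtype.ext (by simpa using hx)⟩, rfl⟩
      have h2 : Finite ((z.subgroupOf T) : Subgroup T) := by
        have h3 : Finite ((T ⊓ z : Subgroup C)) := h1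
        refine Finite.of_injective
          (fun x : (z.subgroupOf T : Subgroup T) =>
            (⟨((x : T) : C), (x : T).2, Subgroup.mem_subgroupOf.1 x.2⟩ : (T ⊓ z : Subgroup C))) ?_
        intro a b hab
        apply Subtype.ext
        apply Subtype.ext
        exact congrArg (Subtype.val : (T ⊓ z : Subgroup C) → C) hab
      have h3 : (z.subgroupOf T).FiniteIndex := by
        refine ⟨?_⟩
        have hfin : Finite (T ⧸ z.subgroupOf T) := by
          let f : T ⧸ z.subgroupOf T → T₀ := Quotient.lift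
            (fun x : T => (⟨QuotientGroup.mk' z (x : C), (hmem x).1 x.2.1⟩ : T₀)) (by
              intro a b hab
              have h1 : a⁻¹ * b ∈ z.subgroupOf T := QuotientGroup.leftRel_apply.1 hab
              rw [Subgroup.mem_subgroupOf] at h1
              apply Subtype.ext
              exact QuotientGroup.eq.2 (by simpa using h1))
          refine Finite.of_injective f ?_
          intro a b hab
          induction a using QuotientGroup.induction_on with
          | H a =>
            induction b using QuotientGroup.induction_on with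
            | H b =>
              rw [QuotientGroup.eq, Subgroup.mem_subgroupOf]
              have h1 := congrArg (Subtype.val : T₀ → C ⧸ z) hab
              have h2 : (QuotientGroup.mk (a : C) : C ⧸ z) = QuotientGroup.mk (b : C) := h1
              simpa using QuotientGroup.eq.1 h2
        exact Nat.card_pos.ne'
      have h4 : Finite (T ⧸ z.subgroupOf T) := inferInstance
      exact Finite.of_equiv _ (Subgroup.groupEquivQuotientProdSubgroup (s := z.subgroupOf T)).symm
    · -- isolated
      rintro x - e he ⟨-, f, hf, hx⟩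
      have h1 : x ^ (e * f) = 1 := by rw [pow_mul, hx]
      refine ⟨(hmem x).2 (hT₀i _ trivial (e * f) (mul_ne_zero he hf) ?_), e * f,
        mul_ne_zero he hf, h1⟩
      rw [← map_pow, h1, map_one]
      exact one_mem _
    · rw [Subgroup.lowerCentralSeries_succ]
      have h1 : (⊤ : Subgroup C).lowerCentralSeries k ≤ T' := by
        rw [hT', ← Subgroup.map_le_iff_le_comap, Subgroup.map_lowerCentralSeries]
        exact (Subgroup.lowerCentralSeries_mono k le_top).trans hk
      refine (Subgroup.commutator_mono h1 le_rfl).trans ?_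
      rw [Subgroup.commutator_le]
      intro t ht c _
      -- `⁅t, c⁆` is torsion
      have hu : c * t⁻¹ * c⁻¹ ∈ T' := hT'n.conj_mem _ (inv_mem ht) c
      have hcomm : ⁅t, c⁆ = t * (c * t⁻¹ * c⁻¹) := by rw [commutatorElement_def]; group
      obtain ⟨D, hD⟩ : ∃ D, D = (Subgroup.center T').index := ⟨_, rfl⟩
      have hD0 : D ≠ 0 := by rw [hD]; exact hcent.index_ne_zero
      refine ⟨by rw [hcomm]; exact mul_mem ht hu, D * d, mul_ne_zero hD0 hd0, ?_⟩
      have hp : ∀ x y : T', (x * y) ^ D = x ^ D * y ^ D := by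
        intro x y
        have := congrArg (Subtype.val : Subgroup.center T' → T')
          (map_mul (MonoidHom.transferCenterPow T') x y)
        rw [Subgroup.coe_mul, MonoidHom.transferCenterPow_apply,
          MonoidHom.transferCenterPow_apply, MonoidHom.transferCenterPow_apply, ← hD] at this
        exact this
      have hcen : ∀ x : T', x ^ D ∈ Subgroup.center T' := by
        intro x
        rw [hD, ← MonoidHom.transferCenterPow_apply]
        exact (MonoidHom.transferCenterPow T' x).2
      have h2 := hp ⟨t, ht⟩ ⟨_, hu⟩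
      have h3 : ((⟨t, ht⟩ : T') * ⟨_, hu⟩) ^ (D * d) = (⟨t, ht⟩ : T') ^ (D * d) *
          (⟨_, hu⟩ : T') ^ (D * d) := by
        have hc : Commute ((⟨t, ht⟩ : T') ^ D) ((⟨_, hu⟩ : T') ^ D) :=
          ((Subgroup.mem_center_iff.1 (hcen _)) _).symm
        rw [pow_mul, h2, hc.mul_pow, ← pow_mul, ← pow_mul]
      have h4 := congrArg (Subtype.val : T' → C) h3
      have h5 : (t * (c * t⁻¹ * c⁻¹)) ^ (D * d) = t ^ (D * d) * (c * t⁻¹ * c⁻¹) ^ (D * d) := by
        simpa using h4
      rw [hcomm, h5, conj_pow, inv_pow]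
      have h6 : t ^ (D * d) ∈ z := by
        rw [mul_comm D d, pow_mul]; exact z.pow_mem (hd t ht) D
      rw [hzc _ (inv_mem h6) c]
      group

theorem stBaer : StBaer.{u} := fun C _ n Z h0 hn hfg hle hcom =>
  baer_aux n C Z h0 hn hfg hle hcom

end Vale.Agent.P188.QA7

end

section

/-!
P188, QA7: Minkowski's lemma (helper83).
-/

universe u

namespace Vale.Agent.P188.QA7

theorem one_add_pow {R : Type*} [Ring R] (x : R) (n : ℕ) :
    ∃ q : R, (1 + x) ^ n = 1 + (n : R) * x + x * x * q := by
  induction n with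
  | zero => exact ⟨0, by simp⟩
  | succ n ih =>
    obtain ⟨q, hq⟩ := ih
    refine ⟨(n : R) + q + q * x, ?_⟩
    have hc : (n : R) * (x * x) = x * x * (n : R) := (Nat.cast_commute n (x * x)).eq
    have e : (1 + (n : R) * x + x * x * q) * (1 + x) =
        1 + ((n : R) * x + x) + ((n : R) * (x * x) + x * x * q + x * x * (q * x)) := by
      noncomm_ring
    rw [pow_succ, hq, e, hc]
    push_cast
    noncomm_ring

section ring

variable {R : Type*} [Ring R]

theorem comm3 (k : ℕ) (g : R) : g * (3 : R) ^ k = (3 : R) ^ k * g := by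
  have h : Commute ((3 : ℕ) : R) g := Nat.cast_commute 3 g
  have h2 := (h.pow_left k).eq
  push_cast at h2
  exact h2.symm

theorem step_coprime (htf : ∀ (n : ℕ) (f : R), n ≠ 0 → (n : R) * f = 0 → f = 0) {α : R} {e : ℕ}
    (he : Nat.Coprime e 3) (hα : α ^ e = 1) {k : ℕ} {g : R}
    (hg : α - 1 = (3 : R) ^ (k + 1) * g) : ∃ g', α - 1 = (3 : R) ^ (k + 2) * g' := by
  obtain ⟨q, hq⟩ := one_add_pow (α - 1) e
  rw [add_sub_cancel, hα] at hq
  have h1 : (e : R) * (α - 1) + (α - 1) * (α - 1) * q = 0 := by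
    have : (1 : R) + ((e : R) * (α - 1) + (α - 1) * (α - 1) * q) = 1 + 0 := by
      rw [add_zero, ← add_assoc]; exact hq.symm
    exact add_left_cancel this
  rw [hg] at h1
  have h2 : ((3 ^ (k + 1) : ℕ) : R) * ((e : R) * g + (3 : R) ^ (k + 1) * (g * g * q)) = 0 := by
    have c1 : (e : R) * ((3 : R) ^ (k + 1) * g) = (3 : R) ^ (k + 1) * ((e : R) * g) := by
      rw [← mul_assoc, comm3, mul_assoc]
    have c2 : (3 : R) ^ (k + 1) * g * ((3 : R) ^ (k + 1) * g) * q =
        (3 : R) ^ (k + 1) * ((3 : R) ^ (k + 1) * (g * g * q)) := by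
      have : g * ((3 : R) ^ (k + 1) * g) = (3 : R) ^ (k + 1) * (g * g) := by
        rw [← mul_assoc, comm3, mul_assoc]
      rw [mul_assoc ((3 : R) ^ (k + 1)) g, this]
      simp only [mul_assoc]
    rw [c1, c2] at h1
    push_cast
    rw [mul_add]
    exact h1
  have h3 := htf _ _ (by positivity) h2
  -- Bezout
  obtain ⟨u, v, huv⟩ : ∃ u v : ℤ, u * e + v * 3 = 1 := by
    have := Nat.isCoprime_iff_coprime.2 he
    obtain ⟨u, v, h⟩ := this
    exact ⟨u, v, by exact_mod_cast h⟩
  have h4 : (e : R) * g = - ((3 : R) * ((3 : R) ^ k * (g * g * q))) := by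
    rw [pow_succ', mul_assoc] at h3
    exact eq_neg_of_add_eq_zero_left h3
  refine ⟨(v : R) * g - (u : R) * ((3 : R) ^ k * (g * g * q)), ?_⟩
  have h5 : g = (3 : R) * ((v : R) * g - (u : R) * ((3 : R) ^ k * (g * g * q))) := by
    have e1 : ((u : R) * (e : R) + (v : R) * 3) = 1 := by exact_mod_cast congrArg (Int.cast : ℤ → R) huv
    have c3 : (u : R) * ((3 : R) * ((3 : R) ^ k * (g * g * q))) =
        (3 : R) * ((u : R) * ((3 : R) ^ k * (g * g * q))) := by
      rw [← mul_assoc (u : R) (3 : R), (Int.cast_commute u (3 : R)).eq, mul_assoc]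
    have c4 : (v : R) * (3 : R) * g = (3 : R) * ((v : R) * g) := by
      rw [(Int.cast_commute v (3 : R)).eq, mul_assoc]
    calc g = ((u : R) * (e : R) + (v : R) * 3) * g := by rw [e1, one_mul]
      _ = (u : R) * ((e : R) * g) + (v : R) * 3 * g := by rw [add_mul, mul_assoc]
      _ = - (3 : R) * ((u : R) * ((3 : R) ^ k * (g * g * q))) + (3 : R) * ((v : R) * g) := by
          rw [h4, mul_neg, c3, c4, neg_mul]
      _ = _ := by noncomm_ring
  rw [hg, pow_succ (3 : R) (k + 1), mul_assoc]
  congr 1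

theorem step_three (htf : ∀ (n : ℕ) (f : R), n ≠ 0 → (n : R) * f = 0 → f = 0) {α : R}
    (hα : α ^ 3 = 1) {k : ℕ} {g : R}
    (hg : α - 1 = (3 : R) ^ (k + 1) * g) : ∃ g', α - 1 = (3 : R) ^ (k + 2) * g' := by
  have hx : 3 * (α - 1) + 3 * ((α - 1) * (α - 1)) + (α - 1) * ((α - 1) * (α - 1)) = 0 := by
    have e : 3 * (α - 1) + 3 * ((α - 1) * (α - 1)) + (α - 1) * ((α - 1) * (α - 1)) =
        α ^ 3 - 1 := by
      noncomm_ring
    rw [e, hα, sub_self]
  obtain ⟨w, hw⟩ : ∃ w : R, w = (3 : R) ^ (k + 1) := ⟨_, rfl⟩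
  have hwc : ∀ g : R, g * w = w * g := fun g => by rw [hw]; exact comm3 _ g
  rw [hg, ← hw] at hx
  have c1 : w * g * (w * g) = w * (w * (g * g)) := by
    rw [mul_assoc w g, ← mul_assoc g w g, hwc g, mul_assoc w g g]
  have c2 : w * g * (w * (w * (g * g))) = w * (w * (w * (g * (g * g)))) := by
    rw [mul_assoc w g, ← mul_assoc g w, hwc g, mul_assoc w g, ← mul_assoc g w, hwc g,
      mul_assoc w g]
  rw [c1, c2] at hx
  have hw3 : w = 3 * (3 : R) ^ k := by rw [hw, pow_succ']
  have h2 : ((3 ^ (k + 2) : ℕ) : R) *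
      (g + w * (g * g) + (3 : R) ^ k * (w * (g * (g * g)))) = 0 := by
    have e1 : ((3 ^ (k + 2) : ℕ) : R) = 3 * w := by rw [hw]; push_cast; rw [← pow_succ']
    rw [e1]
    have e2 : 3 * w * (g + w * (g * g) + (3 : R) ^ k * (w * (g * (g * g)))) =
        3 * (w * g) + 3 * (w * (w * (g * g))) + w * (3 * (3 : R) ^ k * (w * (g * (g * g)))) := by
      have e3 : (3 : R) * w = w * 3 := (hwc 3).symm ▸ rfl
      rw [mul_add, mul_add, mul_assoc 3 w g, mul_assoc 3 w (w * (g * g)), e3,
        mul_assoc w 3, mul_assoc 3 ((3 : R) ^ k)]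
    rw [e2, ← hw3]
    exact hx
  have h3 := htf _ _ (by positivity) h2
  refine ⟨-((3 : R) ^ k * (g * g)) - (3 : R) ^ k * ((3 : R) ^ k * (g * (g * g))), ?_⟩
  have h5 : g = (3 : R) * (-((3 : R) ^ k * (g * g)) -
      (3 : R) ^ k * ((3 : R) ^ k * (g * (g * g)))) := by
    have e4 : (3 : R) ^ k * (w * (g * (g * g))) = 3 * ((3 : R) ^ k * ((3 : R) ^ k *
        (g * (g * g)))) := by
      rw [hw3]
      have : (3 : R) ^ k * (3 * (3 : R) ^ k * (g * (g * g))) =
          ((3 : R) ^ k * 3) * ((3 : R) ^ k * (g * (g * g))) := by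
        simp only [mul_assoc]
      rw [this, ← comm3 k (3 : R), mul_assoc]
    have e5 : w * (g * g) = 3 * ((3 : R) ^ k * (g * g)) := by rw [hw3, mul_assoc]
    rw [e4, e5, add_assoc] at h3
    have h6 := eq_neg_of_add_eq_zero_left h3
    rw [mul_sub, mul_neg]
    rw [neg_add] at h6
    rw [← sub_eq_add_neg] at h6
    exact h6
  rw [hg, pow_succ (3 : R) (k + 1), mul_assoc]
  congr 1

theorem mink_ring (htf : ∀ (n : ℕ) (f : R), n ≠ 0 → (n : R) * f = 0 → f = 0)
    (hsep : ∀ f : R, (∀ k : ℕ, ∃ g, f = (3 : R) ^ k * g) → f = 0) {e : ℕ} (he : e ≠ 0)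
    {α : R} (hα : α ^ e = 1) (h3 : ∃ g, α - 1 = 3 * g) : α = 1 := by
  have main : ∀ (β : R) (P : Prop), (∃ g, β - 1 = 3 * g) →
      (∀ (k : ℕ) (g : R), β - 1 = (3 : R) ^ (k + 1) * g → ∃ g', β - 1 = (3 : R) ^ (k + 2) * g') →
      β = 1 := by
    intro β _ h0 hs
    have : ∀ k : ℕ, ∃ g, β - 1 = (3 : R) ^ (k + 1) * g := by
      intro k
      induction k with
      | zero => obtain ⟨g, hg⟩ := h0; exact ⟨g, by simpa using hg⟩
      | succ k ih => obtain ⟨g, hg⟩ := ih; exact hs k g hg
    refine sub_eq_zero.1 (hsep _ fun k => ?_)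
    obtain ⟨g, hg⟩ := this k
    exact ⟨3 * g, by rw [hg, pow_succ, mul_assoc]⟩
  have hpow : ∀ (β : R) (n : ℕ), (∃ g, β - 1 = 3 * g) → ∃ g, β ^ n - 1 = 3 * g := by
    rintro β n ⟨g, hg⟩
    obtain ⟨q, hq⟩ := one_add_pow (β - 1) n
    rw [add_sub_cancel] at hq
    refine ⟨(n : R) * g + g * (β - 1) * q, ?_⟩
    rw [hq, hg]
    have : (n : R) * (3 * g) = 3 * ((n : R) * g) := by
      rw [← mul_assoc, (Nat.cast_commute n (3 : R)).eq, mul_assoc]
    rw [add_assoc, add_sub_cancel_left, this]
    noncomm_ring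
  obtain ⟨a, e', he', hee⟩ := Nat.exists_eq_pow_mul_and_not_dvd he 3 (by norm_num)
  have h1 : α ^ (3 ^ a) = 1 := by
    refine main _ True (hpow α _ h3) fun k g hg => ?_
    refine step_coprime htf (e := e') ?_ ?_ hg
    · exact ((Nat.Prime.coprime_iff_not_dvd Nat.prime_three).2 he').symm
    · rw [← pow_mul, ← hee, hα]
  clear hee hα
  induction a with
  | zero => simpa using h1
  | succ a ih =>
    refine ih ?_
    refine main _ True (hpow α _ h3) fun k g hg => ?_
    refine step_three htf ?_ hg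
    rw [← pow_mul, ← pow_succ, h1]

end ring

theorem sep3 {M : Type u} [AddCommGroup M] [Module.Finite ℤ M] [Module.Free ℤ M] (x : M)
    (h : ∀ k : ℕ, ∃ y : M, x = ((3 : ℤ) ^ k) • y) : x = 0 := by
  let b := Module.Free.chooseBasis ℤ M
  refine b.ext_elem fun i => ?_
  rw [map_zero, Finsupp.zero_apply]
  by_contra hne
  obtain ⟨k, hk⟩ := pow_unbounded_of_one_lt |b.repr x i| (by norm_num : (1 : ℤ) < 3)
  obtain ⟨y, hy⟩ := h k
  have h1 : b.repr x i = 3 ^ k * b.repr y i := by
    rw [hy, map_smul, Finsupp.smul_apply, smul_eq_mul]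
  have h2 : (3 : ℤ) ^ k ∣ |b.repr x i| := (dvd_abs _ _).2 ⟨_, h1⟩
  have h3 := Int.le_of_dvd (abs_pos.2 hne) h2
  omega

/-- **Minkowski's lemma**, additive form. -/
theorem mink_add {M : Type u} [AddCommGroup M] [Module.Finite ℤ M] [Module.Free ℤ M]
    (htf : ∀ (n : ℕ) (x : M), n ≠ 0 → n • x = 0 → x = 0)
    (α : Module.End ℤ M) {e : ℕ} (he : e ≠ 0) (hα : α ^ e = 1)
    (h3 : ∀ x, ∃ y, α x - x = (3 : ℕ) • y) : α = 1 := by
  refine mink_ring ?_ ?_ he hα ?_
  · intro n f hn hf
    refine LinearMap.ext fun x => htf n _ hn ?_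
    have := congrArg (fun g : Module.End ℤ M => g x) hf
    simpa [Module.End.mul_apply, Module.End.natCast_apply] using this
  · intro f hf
    refine LinearMap.ext fun x => sep3 (f x) fun k => ?_
    obtain ⟨g, hg⟩ := hf k
    refine ⟨g x, ?_⟩
    have e1 : ((3 : Module.End ℤ M) ^ k) = ((3 ^ k : ℕ) : Module.End ℤ M) := by push_cast; rfl
    rw [hg, e1, Module.End.mul_apply, Module.End.natCast_apply]
    rw [← natCast_zsmul]
    push_cast
    rfl
  · choose y hy using h3
    have hinj : ∀ a b : M, (3 : ℕ) • a = (3 : ℕ) • b → a = b := by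
      intro a b hab
      refine sub_eq_zero.1 (htf 3 _ (by norm_num) ?_)
      rw [smul_sub, hab, sub_self]
    let g : M →+ M :=
      { toFun := y
        map_zero' := by
          apply hinj
          rw [← hy]; simp
        map_add' := by
          intro a b
          apply hinj
          rw [smul_add, ← hy, ← hy, ← hy, map_add]; abel }
    refine ⟨g.toIntLinearMap, LinearMap.ext fun x => ?_⟩
    have e1 : (3 : Module.End ℤ M) = ((3 : ℕ) : Module.End ℤ M) := by push_cast; rfl
    rw [e1, Module.End.mul_apply, Module.End.natCast_apply, LinearMap.sub_apply]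
    exact hy x

/-- **Minkowski's lemma**: an endomorphism of finite order of a finitely generated torsion-free
abelian group which is trivial modulo cubes is trivial. -/
theorem mink_group {A : Type u} [Group A] [Group.FG A] (hcomm : ∀ x y : A, x * y = y * x)
    (htf : TF A) (α : A → A) (hmul : ∀ x y, α (x * y) = α x * α y) {e : ℕ} (he : e ≠ 0)
    (hα : ∀ x, α^[e] x = x) (h3 : ∀ x, ∃ y, α x = x * y ^ 3) (x : A) : α x = x := by
  let inst : CommGroup A := { (inferInstance : Group A) with mul_comm := hcomm }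
  have hfg0 : AddGroup.FG (Additive A) := by
    rw [AddGroup.fg_iff_addMonoid_fg, ← Monoid.fg_iff_add_fg, ← Group.fg_iff_monoid_fg]
    infer_instance
  have hfin : Module.Finite ℤ (Additive A) := Module.Finite.iff_addGroup_fg.2 hfg0
  have htf' : ∀ (n : ℕ) (x : Additive A), n ≠ 0 → n • x = 0 → x = 0 := by
    intro n x hn hx
    exact htf x.toMul n hn hx
  have htor : Module.IsTorsionFree ℤ (Additive A) := by
    refine Module.IsTorsionFree.of_smul_eq_zero fun r m h => ?_
    by_cases hr : r = 0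
    · exact Or.inl hr
    · right
      refine htf' r.natAbs m (Int.natAbs_ne_zero.2 hr) ?_
      rcases Int.natAbs_eq r with h1 | h1
      · rw [h1, natCast_zsmul] at h; exact h
      · rw [h1, neg_smul, natCast_zsmul, neg_eq_zero] at h; exact h
  let α' : Additive A →+ Additive A :=
    { toFun := fun x => Additive.ofMul (α x.toMul)
      map_zero' := by
        have h := hmul 1 1
        rw [mul_one] at h
        have h1 : α 1 = 1 := by
          have := congrArg (fun z => (α 1)⁻¹ * z) h
          simpa using this.symm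
        exact h1
      map_add' := fun x y => hmul _ _ }
  have hpow : ∀ (n : ℕ) (x : Additive A), (α'.toIntLinearMap ^ n) x =
      Additive.ofMul (α^[n] x.toMul) := by
    intro n
    induction n with
    | zero => intro x; rfl
    | succ n ih =>
      intro x
      rw [pow_succ, Module.End.mul_apply, ih, Function.iterate_succ_apply]
      rfl
  have := mink_add htf' α'.toIntLinearMap he (LinearMap.ext fun x => by
    rw [hpow, hα]; rfl) (fun x => by
    obtain ⟨y, hy⟩ := h3 x.toMul
    refine ⟨Additive.ofMul y, ?_⟩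
    rw [sub_eq_iff_eq_add']
    exact hy)
  exact congrArg (fun g : Module.End ℤ (Additive A) => g (Additive.ofMul x)) this

end Vale.Agent.P188.QA7

end

section

/-!
P188, QA7, (S4): the subgroup generated by the `J`-th powers (helper83).
-/

universe u

namespace Vale.Agent.P188.QA7

open Vale.Agent.P188.H754 Vale.Agent.P188.H796
open scoped commutatorElement

section pw

variable {G : Type u} [Group G]

theorem pow_mem_pw (J : ℕ) (x : G) : x ^ J ∈ pw G J := Subgroup.subset_closure ⟨x, rfl⟩

theorem map_pw {G' : Type u} [Group G'] (J : ℕ) (f : G →* G') {x : G} (hx : x ∈ pw G J) :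
    f x ∈ pw G' J := by
  have h : pw G J ≤ (pw G' J).comap f := by
    rw [pw, Subgroup.closure_le]
    rintro _ ⟨y, rfl⟩
    rw [SetLike.mem_coe, Subgroup.mem_comap, map_pow]
    exact pow_mem_pw J _
  exact h hx

instance pw_normal (J : ℕ) : (pw G J).Normal := by
  constructor
  intro x hx g
  exact map_pw J (MulAut.conj g).toMonoidHom hx

theorem pw_le_iff {J : ℕ} {H : Subgroup G} : pw G J ≤ H ↔ ∀ y : G, y ^ J ∈ H := by
  rw [pw, Subgroup.closure_le]
  constructor
  · intro h y
    exact h ⟨y, rfl⟩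
  · rintro h _ ⟨y, rfl⟩
    exact h y

end pw

theorem stPow_aux : ∀ (h J : ℕ), 0 < J → ∀ (L : Type u) [Group L], PolyZ h L →
    Finite (L ⧸ pw L J) ∧ Nat.card (L ⧸ pw L J) ≤ J ^ h
  | 0, J, hJ, L, _, hL => by
    have hs : Subsingleton L := hL
    have : Subsingleton (L ⧸ pw L J) := ⟨fun a b => by
      induction a using QuotientGroup.induction_on
      induction b using QuotientGroup.induction_on
      exact congrArg _ (Subsingleton.elim _ _)⟩
    refine ⟨inferInstance, ?_⟩
    rw [pow_zero]
    exact Finite.card_le_one_iff_subsingleton.2 this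
  | h + 1, J, hJ, L, _, hL => by
    obtain ⟨φ, hφ, hk⟩ := hL
    obtain ⟨hfin, hcard⟩ := stPow_aux h J hJ φ.ker hk
    obtain ⟨t, ht⟩ := hφ (Multiplicative.ofAdd 1)
    let m : (φ.ker ⧸ pw φ.ker J) →* (L ⧸ pw L J) :=
      QuotientGroup.map _ _ φ.ker.subtype (fun x hx => map_pw J φ.ker.subtype hx)
    let f : Fin J × (φ.ker ⧸ pw φ.ker J) → L ⧸ pw L J := fun q =>
      (QuotientGroup.mk (t ^ (q.1 : ℕ)) : L ⧸ pw L J) * m q.2
    have hf : Function.Surjective f := by
      intro z
      induction z using QuotientGroup.induction_on with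
      | H x =>
        obtain ⟨k, hk⟩ : ∃ k : ℤ, k = Multiplicative.toAdd (φ x) := ⟨_, rfl⟩
        have hJ' : (J : ℤ) ≠ 0 := by exact_mod_cast hJ.ne'
        obtain ⟨r, hr, hr'⟩ : ∃ r : ℕ, r < J ∧ (r : ℤ) = k % J := by
          refine ⟨(k % J).toNat, ?_, Int.toNat_of_nonneg (Int.emod_nonneg _ hJ')⟩
          have h1 := Int.emod_lt_of_pos k (by exact_mod_cast hJ : (0 : ℤ) < J)
          have h2 := Int.emod_nonneg k hJ'
          omega
        have htk : ∀ k : ℤ, φ (t ^ k) = Multiplicative.ofAdd k := fun k => by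
          rw [map_zpow, ht, ← ofAdd_zsmul, smul_eq_mul, mul_one]
        have hy : (t ^ k)⁻¹ * x ∈ φ.ker := by
          rw [MonoidHom.mem_ker, map_mul, map_inv, htk, hk, ofAdd_toAdd]
          simp
        -- x = t ^ r * (t ^ J) ^ (k / J) * y
        refine ⟨(⟨r, hr⟩, QuotientGroup.mk ⟨(t ^ k)⁻¹ * x, hy⟩), ?_⟩
        change (QuotientGroup.mk (t ^ r) : L ⧸ pw L J) *
          QuotientGroup.mk ((t ^ k)⁻¹ * x) = QuotientGroup.mk x
        rw [← QuotientGroup.mk_mul, QuotientGroup.eq]
        have e1 : t ^ k = t ^ r * (t ^ J) ^ (k / J) := by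
          rw [← zpow_natCast t r, ← zpow_natCast t J, ← zpow_mul, ← zpow_add, hr',
            Int.emod_add_mul_ediv]
        have e2 : (t ^ r * ((t ^ k)⁻¹ * x))⁻¹ * x = x⁻¹ * (t ^ J) ^ (k / J) * x := by
          rw [mul_inv_rev, mul_inv_rev, inv_inv, e1]
          group
        rw [e2]
        have := (pw_normal (G := L) J).conj_mem _
          ((pw L J).zpow_mem (pow_mem_pw J t) (k / J)) x⁻¹
        rwa [inv_inv] at this
    refine ⟨Finite.of_surjective f hf, ?_⟩
    refine (Nat.card_le_card_of_surjective f hf).trans ?_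
    rw [Nat.card_prod, Nat.card_fin, pow_succ']
    exact Nat.mul_le_mul_left _ hcard

end Vale.Agent.P188.QA7

end

section

/-!
P188, QA7, (S2): the action on the isolated lower central series is trivial on a subgroup of
bounded index (helper83).
-/

universe u

namespace Vale.Agent.P188.QA7

open Vale.Agent.P188.H754 Vale.Agent.P188.H796
open scoped commutatorElement

section act

variable {B : Type u} [Group B]

/-- conjugation as an endomorphism -/
def cjH (L : Subgroup B) [hL : L.Normal] (g : B) : L →* L where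
  toFun x := ⟨g * x * g⁻¹, hL.conj_mem x x.2 g⟩
  map_one' := by ext; simp
  map_mul' x y := by ext; simp

theorem cjH_coe (L : Subgroup B) [hL : L.Normal] (g : B) (x : L) :
    ((cjH L g x : L) : B) = g * x * g⁻¹ := rfl

theorem cjH_mul (L : Subgroup B) [hL : L.Normal] (a b : B) (x : L) :
    cjH L (a * b) x = cjH L a (cjH L b x) := by
  apply Subtype.ext
  simp only [cjH_coe]; group

theorem cjH_one (L : Subgroup B) [hL : L.Normal] (x : L) : cjH L 1 x = x := by
  apply Subtype.ext
  simp only [cjH_coe]; group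

/-- the kernel of the action on `L / L^3` -/
def kerAct (L : Subgroup B) [hL : L.Normal] : Subgroup B where
  carrier := {g | ∀ x : L, x⁻¹ * cjH L g x ∈ pw L 3}
  one_mem' := by
    intro x
    rw [cjH_one, inv_mul_cancel]
    exact (pw L 3).one_mem
  mul_mem' := by
    intro a b ha hb x
    have h1 : x⁻¹ * cjH L (a * b) x = (x⁻¹ * cjH L a x) * cjH L a (x⁻¹ * cjH L b x) := by
      apply Subtype.ext
      push_cast
      simp only [cjH_coe]
      push_cast
      simp only [cjH_coe]
      group
    rw [h1]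
    exact (pw L 3).mul_mem (ha x) (map_pw 3 (cjH L a) (hb x))
  inv_mem' := by
    intro a ha x
    have h1 : x⁻¹ * cjH L a⁻¹ x = cjH L a⁻¹ ((x⁻¹ * cjH L a x)⁻¹) := by
      apply Subtype.ext
      push_cast
      simp only [cjH_coe]
      push_cast
      simp only [cjH_coe]
      group
    rw [h1]
    exact map_pw 3 (cjH L a⁻¹) ((pw L 3).inv_mem (ha x))

theorem kerAct_index (L : Subgroup B) [hL : L.Normal] {n : ℕ} (hf : Finite (L ⧸ pw L 3))
    (hn : Nat.card (L ⧸ pw L 3) ≤ n) : (kerAct L).index ≠ 0 ∧ (kerAct L).index ≤ n ^ n := by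
  classical
  let act : B → (L ⧸ pw L 3) → (L ⧸ pw L 3) := fun g =>
    QuotientGroup.map (pw L 3) (pw L 3) (cjH L g)
      (fun x hx => Subgroup.mem_comap.2 (map_pw 3 (cjH L g) hx))
  have hact : ∀ g (x : L), act g (QuotientGroup.mk x) = QuotientGroup.mk (cjH L g x) :=
    fun _ _ => rfl
  let f : (B ⧸ kerAct L) → (L ⧸ pw L 3) → (L ⧸ pw L 3) :=
    Quotient.lift (fun g => act g) (by
      intro a b hab
      have hab' : a⁻¹ * b ∈ kerAct L := QuotientGroup.leftRel_apply.1 hab
      funext z
      induction z using QuotientGroup.induction_on with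
      | H x =>
        rw [hact, hact, QuotientGroup.eq]
        have h1 := hab' x
        have h2 := map_pw 3 (cjH L a) h1
        have h3 : cjH L a (x⁻¹ * cjH L (a⁻¹ * b) x) = (cjH L a x)⁻¹ * cjH L b x := by
          rw [map_mul, ← cjH_mul, mul_inv_cancel_left, map_inv]
        rw [h3] at h2
        exact h2)
  have hinj : Function.Injective f := by
    intro a b hab
    induction a using QuotientGroup.induction_on with
    | H a =>
      induction b using QuotientGroup.induction_on with
      | H b =>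
        rw [QuotientGroup.eq]
        intro x
        have h1 : act a (QuotientGroup.mk x) = act b (QuotientGroup.mk x) :=
          congrFun hab (QuotientGroup.mk x)
        rw [hact, hact, QuotientGroup.eq] at h1
        have h2 := map_pw 3 (cjH L a⁻¹) h1
        have h3 : cjH L a⁻¹ ((cjH L a x)⁻¹ * cjH L b x) = x⁻¹ * cjH L (a⁻¹ * b) x := by
          rw [map_mul, map_inv, ← cjH_mul, ← cjH_mul, inv_mul_cancel, cjH_one]
        rw [h3] at h2
        exact h2
  have hfin : Finite ((L ⧸ pw L 3) → (L ⧸ pw L 3)) := inferInstance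
  have hfinB : Finite (B ⧸ kerAct L) := Finite.of_injective f hinj
  have hcard : Nat.card (B ⧸ kerAct L) ≤ n ^ n := by
    refine (Nat.card_le_card_of_injective f hinj).trans ?_
    rw [Nat.card_fun]
    have hpos : 0 < n := lt_of_lt_of_le Nat.card_pos hn
    exact (Nat.pow_le_pow_left hn _).trans (Nat.pow_le_pow_right hpos hn)
  exact ⟨Nat.card_pos.ne', hcard⟩

end act

section main

variable {B : Type u} [Group B]

/-- the subgroup acting trivially on all factors of the isolated lower central series -/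
def unip (N : Subgroup B) [hN : N.Normal] : Subgroup B where
  carrier := {c | ∀ i, ∀ x ∈ lser N i, ⁅c, x⁆ ∈ lser N (i + 1)}
  one_mem' := by
    intro i x hx
    rw [commutatorElement_one_left]
    exact one_mem _
  mul_mem' := by
    intro a b ha hb i x hx
    have h1 : ⁅a * b, x⁆ = (a * ⁅b, x⁆ * a⁻¹) * ⁅a, x⁆ := by
      simp only [commutatorElement_def]; group
    rw [h1]
    exact mul_mem (Subgroup.Normal.conj_mem inferInstance _ (hb i x hx) a) (ha i x hx)
  inv_mem' := by
    intro a ha i x hx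
    have h1 : ⁅a⁻¹, x⁆ = (a⁻¹ * ⁅a, x⁆ * a⁻¹⁻¹)⁻¹ := by
      simp only [commutatorElement_def]; group
    rw [h1]
    exact inv_mem (Subgroup.Normal.conj_mem inferInstance _ (ha i x hx) a⁻¹)

instance unip_normal (N : Subgroup B) [hN : N.Normal] : (unip N).Normal := by
  constructor
  intro c hc g i x hx
  have h1 : ⁅g * c * g⁻¹, x⁆ = g * ⁅c, g⁻¹ * x * g⁆ * g⁻¹ := by
    simp only [commutatorElement_def]; group
  rw [h1]
  refine Subgroup.Normal.conj_mem inferInstance _ (hc i _ ?_) g
  have := Subgroup.Normal.conj_mem (inferInstance : (lser N i).Normal) x hx g⁻¹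
  rwa [inv_inv] at this

theorem le_unip (N : Subgroup B) [hN : N.Normal] : N ≤ unip N := by
  intro c hc i x hx
  have h1 : ⁅c, x⁆ = ⁅x, c⁆⁻¹ := (commutatorElement_inv x c).symm
  rw [h1]
  exact inv_mem (comm_mem_lstep hx hc)

/-- elements trivial modulo cubes act trivially -/
theorem mem_lser_of_kerAct (N : Subgroup B) [hN : N.Normal] (hfi : N.FiniteIndex)
    {h : ℕ} (hnil : Group.IsNilpotent N) (hp : PolyZ h N) (i : ℕ) {g : B}
    (hg : g ∈ kerAct (lser N i)) (x : B) (hx : x ∈ lser N i) : ⁅g, x⁆ ∈ lser N (i + 1) := by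
  classical
  set L := lser N i with hL
  set L' := lser N (i + 1) with hL'
  have hL'L : L' ≤ L := lstep_le _ _
  obtain ⟨m, -, hm⟩ := lser_polyZ hnil hp i
  have hfgL : Group.FG L := PolyZ.fg m hm
  have hcommL : ∀ x y : L, ⁅(x : B), (y : B)⁆ ∈ L' := fun x y =>
    comm_mem_lstep x.2 (lser_le N i y.2)
  let A := L ⧸ L'.subgroupOf L
  have hA : ∀ x y : A, x * y = y * x := by
    intro x y
    induction x using QuotientGroup.induction_on with
    | H x =>
      induction y using QuotientGroup.induction_on with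
      | H y =>
        rw [← QuotientGroup.mk_mul, ← QuotientGroup.mk_mul, QuotientGroup.eq,
          Subgroup.mem_subgroupOf]
        have h1 : (((x * y)⁻¹ * (y * x) : L) : B) = ⁅(y : B)⁻¹, (x : B)⁻¹⁆ := by
          push_cast
          simp only [commutatorElement_def]; group
        rw [h1]
        exact hcommL y⁻¹ x⁻¹
  have htf : TF A := by
    intro x e he hx
    induction x using QuotientGroup.induction_on with
    | H x =>
      rw [← QuotientGroup.mk_pow, QuotientGroup.eq_one_iff, Subgroup.mem_subgroupOf] at hx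
      rw [QuotientGroup.eq_one_iff, Subgroup.mem_subgroupOf]
      obtain ⟨h1, h2⟩ := hx
      refine ⟨x.2, fun φ hφ => ?_⟩
      have h3 := h2 φ hφ
      have h4 : ev φ ((x : B) ^ e) (L.pow_mem x.2 e) = 0 := by
        rw [← h3]; exact ev_congr _ _ (by simp)
      rw [ev_pow] at h4
      rcases mul_eq_zero.1 h4 with h5 | h5
      · exact absurd (by exact_mod_cast h5) he
      · exact h5
  let α : A → A := QuotientGroup.map (L'.subgroupOf L) (L'.subgroupOf L)
    (cjH L g) (by
      intro y hy
      rw [Subgroup.mem_comap, Subgroup.mem_subgroupOf, cjH_coe]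
      rw [Subgroup.mem_subgroupOf] at hy
      exact Subgroup.Normal.conj_mem inferInstance _ hy g)
  have hαmk : ∀ y : L, α (QuotientGroup.mk y) = QuotientGroup.mk (cjH L g y) :=
    fun _ => rfl
  have hαpow : ∀ (n : ℕ) (y : L), α^[n] (QuotientGroup.mk y) =
      QuotientGroup.mk (cjH L (g ^ n) y) := by
    intro n
    induction n with
    | zero => intro y; rw [pow_zero, cjH_one]; rfl
    | succ n ih =>
      intro y
      rw [Function.iterate_succ_apply, hαmk, ih, ← cjH_mul, ← pow_succ]
  -- a power of `g` lies in `N`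
  obtain ⟨e, he, hge⟩ : ∃ e : ℕ, e ≠ 0 ∧ g ^ e ∈ N := by
    have := Subgroup.exists_pow_mem_of_index_ne_zero hfi.index_ne_zero g
    obtain ⟨e, h1, -, h2⟩ := this
    exact ⟨e, h1.ne', h2⟩
  have hfgA : Group.FG A := QuotientGroup.fg _
  have key := mink_group hA htf α (fun a b => map_mul _ a b) he (fun z => by
    induction z using QuotientGroup.induction_on with
    | H y =>
      rw [hαpow, QuotientGroup.eq, Subgroup.mem_subgroupOf]
      have h1 : (((cjH L (g ^ e) y)⁻¹ * y : L) : B) = ⁅(y : B)⁻¹, g ^ e⁆⁻¹ := by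
        push_cast
        rw [cjH_coe]
        simp only [commutatorElement_def]; group
      rw [h1]
      exact inv_mem (comm_mem_lstep (L.inv_mem y.2) hge)) (fun z => by
    induction z using QuotientGroup.induction_on with
    | H y =>
      have h1 := hg y
      -- modulo `L'`, every element of `pw L 3` is a cube
      have h2 : ∀ w ∈ pw L 3, ∃ v : A, (QuotientGroup.mk w : A) = v ^ 3 := by
        intro w hw
        induction hw using Subgroup.closure_induction with
        | mem w hw => obtain ⟨v, rfl⟩ := hw; exact ⟨QuotientGroup.mk v, by simp⟩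
        | one => exact ⟨1, by simp⟩
        | mul a b _ _ ha hb =>
          obtain ⟨v, hv⟩ := ha
          obtain ⟨v', hv'⟩ := hb
          exact ⟨v * v', by rw [QuotientGroup.mk_mul, hv, hv', (show Commute v v' from hA v v').mul_pow]⟩
        | inv a _ ha =>
          obtain ⟨v, hv⟩ := ha
          exact ⟨v⁻¹, by rw [QuotientGroup.mk_inv, hv, inv_pow]⟩
      obtain ⟨v, hv⟩ := h2 _ h1
      refine ⟨v, ?_⟩
      rw [hαmk, ← hv, ← QuotientGroup.mk_mul, mul_inv_cancel_left]) (QuotientGroup.mk ⟨x, hx⟩)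
  rw [hαmk, QuotientGroup.eq, Subgroup.mem_subgroupOf] at key
  have h2 : ⁅g, x⁆ = x * (((cjH L g ⟨x, hx⟩)⁻¹ * ⟨x, hx⟩ : L) : B)⁻¹ * x⁻¹ := by
    push_cast
    rw [cjH_coe]
    simp only [commutatorElement_def]; group
  rw [h2]
  exact Subgroup.Normal.conj_mem inferInstance _ (inv_mem key) x

theorem stMink : StMink.{u} := by
  classical
  intro h
  refine ⟨((3 ^ h) ^ (3 ^ h)) ^ h, ?_⟩
  intro B _ N hN hfi hnil hp
  refine ⟨unip N, unip_normal N, le_unip N, ?_, ?_, fun i c hc x hx => hc i x hx⟩
  · exact (Subgroup.finiteIndex_of_le (le_unip N)).index_ne_zero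
  · have hK : ∀ i : Fin h, (kerAct (lser N i)).index ≠ 0 ∧
        (kerAct (lser N i)).index ≤ (3 ^ h) ^ (3 ^ h) := by
      intro i
      obtain ⟨m, hm, hpm⟩ := lser_polyZ hnil hp i
      obtain ⟨h1, h2⟩ := stPow_aux m 3 (by norm_num) _ hpm
      refine kerAct_index _ h1 (h2.trans ?_)
      exact Nat.pow_le_pow_right (by norm_num) (hm.trans (Nat.sub_le _ _))
    have hle : (⨅ i : Fin h, kerAct (lser N i)) ≤ unip N := by
      intro g hg i x hx
      by_cases hi : i < h
      · exact mem_lser_of_kerAct N hfi hnil hp i ((Subgroup.mem_iInf.1 hg) ⟨i, hi⟩) x hx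
      · have h0 : lser N i = ⊥ := by
          obtain ⟨m, hm, hpm⟩ := lser_polyZ hnil hp i
          have : m = 0 := by omega
          subst this
          have h0 : Subsingleton (lser N i) := hpm
          exact Subgroup.eq_bot_of_subsingleton _
        rw [h0, Subgroup.mem_bot] at hx
        rw [hx, commutatorElement_one_right]
        exact one_mem _
    have h1 : (⨅ i : Fin h, kerAct (lser N i)).index ≤ ((3 ^ h) ^ (3 ^ h)) ^ h := by
      refine (Subgroup.index_iInf_le _).trans ?_
      refine (Finset.prod_le_pow_card _ _ _ (fun i _ => (hK i).2)).trans ?_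
      rw [Finset.card_univ, Fintype.card_fin]
    have h2 : (⨅ i : Fin h, kerAct (lser N i)).index ≠ 0 := by
      exact Subgroup.index_iInf_ne_zero fun i => (hK i).1
    exact (Nat.le_of_dvd (Nat.pos_of_ne_zero h2) (Subgroup.index_dvd_of_le hle)).trans h1

end main

end Vale.Agent.P188.QA7

end
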