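import Vale.Agent.P188.R.G062
import Vale.Agent.P188.R.G036

section

/-!
# P188, Z1: additional facts about the real model (Prop structure, so `RModel` does not change)
-/

set_option linter.all false

open MeasureTheory Set

namespace Vale.Agent.P188.Z1

namespace RModel

variable {S : Type} [Group S] [MeasurableSpace S] {Γ : Type} [Group Γ]
  {V : Type} [AddCommGroup V] [Module ℝ V] {k : ℕ} (M : RModel S Γ V k)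

/-- A crossed homomorphism of the whole group `S` of weight `b`, with a letter detecting it. -/
structure CrossS (b : Ht k →L[ℝ] ℝ) where
  D : S → ℂ
  ρ : S → ℂ
  D_meas : Measurable D
  ρ_meas : Measurable ρ
  D_mul : ∀ x y, D (x * y) = D x + ρ x * D y
  ρ_mul : ∀ x y, ρ (x * y) = ρ x * ρ y
  norm_ρ : ∀ x, ‖ρ x‖ = Real.exp (b (M.θ x))
  ρ_ker : ∀ x, M.η x = 1 → ρ x = 1
  i : M.ι
  wt_i : M.wt i = b
  d : ℂ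
  d_ne : d ≠ 0
  D_ex : ∀ x : ℝ, D (M.ex (x • M.X i)) = x * d
  /-- `D` vanishes on the letters of the other weights -/
  D_other : ∀ j, M.wt j ≠ b → ∀ x : ℝ, D (M.ex (x • M.X j)) = 0
  C : ℝ
  /-- exponential upper bound -/
  D_le : ∀ x, ‖D x‖ ≤ Real.exp (C * (M.l x + 1))

/-- additional facts -/
structure Extra : Prop where
  /-- products of many exponentials (428's `prod_Ex_bound`, 615's `nm_prod_le`) -/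
  ex_list : ∃ (C : ℝ) (e : ℕ), ∀ A : ℝ, 0 ≤ A → ∀ L : List V, (∀ v ∈ L, M.nm v ≤ A) →
    ∃ u, M.ex u = (L.map M.ex).prod ∧ M.nm u ≤ C * (1 + A + L.length) ^ e
  /-- crossed homomorphisms (329, 131) -/
  crossS : ∀ b ∈ M.Φ, Nonempty (M.CrossS b)

end RModel

end Vale.Agent.P188.Z1

end

section

/-!
# P188, Z1, blocks DBOX / STRAIGHT / NOFOLD / FLAT: structures and statements

Everything is stated with the group `N_R = ker η` (no quotient by `E`): the section is `τ ∘ η`, the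
boxes are natural boxes of `N_R` generated by ALL letters, the neutral letters having size
`e ^ (d1 * s)`.
-/

set_option linter.all false

open MeasureTheory Set
open Vale.Agent.P188.H530 (hgt)
open Vale.Agent.P188.H616 (Coord)

namespace Vale.Agent.P188.Z1

/-! ### windows -/

/-- the coordinates of a functional -/
def sh {k : ℕ} (b : Ht k →L[ℝ] ℝ) : Ht k := fun i => b (Pi.single i 1)

/-- Euclidean norm of a functional: the support function of the window -/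
noncomputable def en {k : ℕ} (b : Ht k →L[ℝ] ℝ) : ℝ := Real.sqrt (∑ i, sh b i ^ 2)

namespace RModel

variable {S : Type} [Group S] [MeasurableSpace S] {Γ : Type} [Group Γ]
  {V : Type} [AddCommGroup V] [Module ℝ V] {k : ℕ} (M : RModel S Γ V k)

/-- Admissible sizes of the letters. -/
structure Adm (R : M.ι → ℝ) : Prop where
  pos : ∀ i, 0 < R i
  le : ∀ (i : M.ι) (w : List M.ι), w ≠ [] → (w.map M.wt).sum = M.wt i → R i ≤ (w.map R).prod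

/-- size `x` for the neutral letters, `y` for the others -/
noncomputable def two (x y : ℝ) (i : M.ι) : ℝ := open Classical in if M.wt i = 0 then x else y

/-- **Natural boxes of `N_R = ker η`**, for all sizes `R` of the letters (615: `Bx R = Exp (nb G)`,
`G = {∑ y_i R_i X_i, |y_i| ≤ 1}`). -/
structure NatBox where
  C : ℝ
  one_le : 1 ≤ C
  Bx : (M.ι → ℝ) → Set S
  meas : ∀ R, MeasurableSet (Bx R)
  sub : ∀ R, ∀ x ∈ Bx R, M.η x = 1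
  one : ∀ R, (∀ i, 0 ≤ R i) → (1 : S) ∈ Bx R
  mono : ∀ R R', (∀ i, 0 ≤ R i) → (∀ i, R i ≤ R' i) → Bx R ⊆ Bx R'
  inv : ∀ R, ∀ x ∈ Bx R, x⁻¹ ∈ Bx R
  mul : ∀ R, (∀ i, 0 ≤ R i) → ∀ x ∈ Bx R, ∀ y ∈ Bx R, x * y ∈ Bx fun i => C * R i
  letter : ∀ R, (∀ i, 0 ≤ R i) → ∀ i x, |x| ≤ R i → M.ex (x • M.X i) ∈ Bx R
  /-- weighted bounded generation -/
  m : ℕ
  J : Fin m → M.ι
  gen : ∀ R, (∀ i, 0 ≤ R i) → ∀ u ∈ Bx R, ∃ x : Fin m → ℝ, (∀ t, |x t| ≤ C * R (J t)) ∧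
    u = (List.ofFn fun t => M.ex (x t • M.X (J t))).prod
  /-- conjugation by Cartan words -/
  dg : ℕ
  conj : ∀ n, ∀ c ∈ M.CB n, ∀ R, M.Adm R → ∀ u ∈ Bx R,
    c * u * c⁻¹ ∈ Bx (fun i => C * (1 + n) ^ dg * Real.exp (M.wt i (M.θ c)) * R i)
  ball_e : ∀ v ∈ M.e, M.ex v ∈ Bx (M.two 1 (C * (1 + M.nm v)))
  ball_0 : ∀ v ∈ M.Vw 0, M.ex v ∈ Bx (M.two (C * (1 + M.nm v)) 1)
  /-- the boxes are approximately invariant under small boxes, from both sides -/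
  fol : ∀ ε : ℝ, 0 < ε → ∃ δ : ℝ, 0 < δ ∧ δ ≤ 1 ∧ ∀ R, (∀ i, 0 < R i) →
    ∀ x ∈ Bx (fun i => δ * R i), ∀ y ∈ Bx (fun i => δ * R i),
      M.μ {v | v ∈ Bx R ∧ x * v * y ∉ Bx R} ≤ ENNReal.ofReal ε * M.μ (Bx R)
  dbl : ∀ Λ : ℝ, 1 ≤ Λ → ∃ C' : ℝ, ∀ R, (∀ i, 0 < R i) →
    M.μ (Bx fun i => Λ * R i) ≤ ENNReal.ofReal C' * M.μ (Bx R)
  pos : ∀ R, (∀ i, 0 < R i) → M.μ (Bx R) ≠ 0
  fin : ∀ R, M.μ (Bx R) ≠ ⊤

/-- the sizes of the window of scale `s`, with neutral size `e ^ (d₁ s)` -/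
noncomputable def sz (d₁ s : ℝ) (i : M.ι) : ℝ :=
  open Classical in if M.wt i = 0 then Real.exp (d₁ * s) else Real.exp (s * en (M.wt i))

/-- the section modulo `N_R` -/
def sec (z : S) : S := M.τ (Multiplicative.toAdd (M.η z))

variable {M} in
/-- the box set: `N_R`-part in the natural box times `Λ`, heights in the window `(1 - κ) s P` -/
def NatBox.Dbox (B : M.NatBox) (Λ d₁ κ s : ℝ) : Set S :=
  {z | z * (M.sec z)⁻¹ ∈ B.Bx (fun i => Λ * M.sz d₁ s i) ∧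
    ∀ b ∈ M.Φ, b (M.θ z) ≤ (1 - κ) * s * en b}

/-- **DBOX** (owner 540): the box sets have small boundary, at every large scale. (`κ₁` does not
depend on the neutral size `d₁`.) -/
def DBOX (B : M.NatBox) : Prop :=
  ∀ κ : ℝ, 0 < κ → κ < 1 → ∀ Λ : ℝ, 0 < Λ → ∀ κ₂ : ℝ, 0 < κ₂ → ∃ κ₁ : ℝ, 0 < κ₁ ∧
    ∀ d₁ δ : ℝ, 0 < d₁ → 0 < δ → δ * κ₁ < d₁ → ∃ s₀ : ℝ, ∀ s : ℝ, s₀ ≤ s →
      ∃ Dp, M.FFat δ (κ₁ * s) κ₂ (B.Dbox Λ d₁ κ s) Dp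

/-! ### general windows

`h` is the support function: the window of scale `s` is `{w | ∀ b ∈ Φ, b w ≤ s * h b}`. -/

/-- the sizes of the window `h` of scale `s`, with neutral size `e ^ (d₁ s)` -/
noncomputable def szh (h : (Ht k →L[ℝ] ℝ) → ℝ) (d₁ s : ℝ) (i : M.ι) : ℝ :=
  open Classical in if M.wt i = 0 then Real.exp (d₁ * s) else Real.exp (s * h (M.wt i))

/-- bounds of a window -/
def HB (c : ℝ) (h : (Ht k →L[ℝ] ℝ) → ℝ) : Prop := ∀ b ∈ M.Φ, c ≤ h b ∧ h b ≤ c⁻¹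

/-- good windows: every class has its own facet. (Holds for `en` and its small perturbations,
H616/M1.) -/
structure HGood (c : ℝ) (h : (Ht k →L[ℝ] ℝ) → ℝ) : Prop where
  bd : M.HB c h
  ray : ∀ b ∈ M.Φ, ∀ b' ∈ M.Φ, ∀ t : ℝ, 0 < t → b' = t • b → h b' = t * h b
  facet : ∀ b ∈ M.Φ, ∃ u : Ht k, ‖u‖ ≤ c⁻¹ ∧ b u = h b ∧
    ∀ b' ∈ M.Φ, (∃ t : ℝ, 0 < t ∧ b' = t • b) ∨ b' u ≤ h b' - c

variable {M} in
/-- the box set of the window `h` -/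
def NatBox.DboxH (B : M.NatBox) (h : (Ht k →L[ℝ] ℝ) → ℝ) (Λ d₁ κ s : ℝ) : Set S :=
  {z | z * (M.sec z)⁻¹ ∈ B.Bx (fun i => Λ * M.szh h d₁ s i) ∧
    ∀ b ∈ M.Φ, b (M.θ z) ≤ (1 - κ) * s * h b}

variable {M} in
/-- the small box set: heights near `0` -/
def NatBox.DsmH (B : M.NatBox) (h : (Ht k →L[ℝ] ℝ) → ℝ) (Λ d₁ κ s : ℝ) : Set S :=
  {z | z * (M.sec z)⁻¹ ∈ B.Bx (fun i => Λ * M.szh h d₁ s i) ∧ ‖M.θ z‖ ≤ κ * s}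

/-- **DBOX, general windows** (owner 540) -/
def DBOXH (B : M.NatBox) : Prop := ∀ c : ℝ, 0 < c →
  ∀ κ : ℝ, 0 < κ → κ < 1 → ∀ Λ : ℝ, 0 < Λ → ∀ κ₂ : ℝ, 0 < κ₂ → ∃ κ₁ : ℝ, 0 < κ₁ ∧
    ∀ d₁ δ : ℝ, 0 < d₁ → 0 < δ → δ * κ₁ < d₁ → ∃ s₀ : ℝ, ∀ s : ℝ, s₀ ≤ s →
      ∀ h : (Ht k →L[ℝ] ℝ) → ℝ, M.HB c h →
      ∃ Dp, M.FFat δ (κ₁ * s) κ₂ (B.DboxH h Λ d₁ κ s) Dp

/-- comparison of the measures of the box sets (owner 540). The constant does not depend on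
`d₁`. -/
def DVOLH (B : M.NatBox) : Prop := ∀ c : ℝ, 0 < c →
  ∀ κ κ₄ Λ δ : ℝ, 0 < κ → κ < 1 → 0 < κ₄ → 0 < Λ → 0 < δ → ∃ C : ℝ, ∀ d₁ : ℝ, 0 < d₁ →
    ∃ s₀ : ℝ, ∀ s : ℝ, s₀ ≤ s → ∀ h : (Ht k →L[ℝ] ℝ) → ℝ, M.HB c h →
    M.μ (B.DboxH h Λ d₁ κ s) ≤ ENNReal.ofReal C * M.μ (B.DsmH h δ d₁ κ₄ s)

/-- **Neutral flatness, path form** (893): the set only has to be `l`-fat, the fat move `ex y` has to
stay in `D`. -/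
def NFp : Prop := ∀ K κ C₁ : ℝ, 0 < κ → ∃ (δ c₀ CR r₀ : ℝ), 0 < δ ∧ 0 < c₀ ∧ ∀ r : ℝ, r₀ ≤ r →
  ∀ F F' : Γ → Γ, M.QIm K F F' → ∀ D Dp : Set S, M.Fat (CR * r) C₁ D Dp →
  ∀ y ∈ M.Vw 0, M.nm y ≤ Real.exp (δ * r) →
  ∀ Din : Set S, (∀ z ∈ Din, ∀ x : ℝ, 0 ≤ x → x ≤ 1 → z * M.ex (x • y) ∈ D) →
    M.μ {x | x ∈ Din ∧ κ * r < ‖M.f F (x * M.ex y) - M.f F x‖} ≤
      ENNReal.ofReal (Real.exp (-(c₀ * r))) * M.μ D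

/-! ### labels -/

/-- a good label: pattern of signs, with its linear map -/
structure GoodLab (Φ₁ : Finset (Ht k →L[ℝ] ℝ)) (V₁ : Finset (Fin k → ℤ)) (c₀ L : ℝ)
    (T : Ht k →L[ℝ] Ht k) (a : V₁ → Set (Ht k →L[ℝ] ℝ)) : Prop where
  sub : ∀ v, a v ⊆ ↑Φ₁
  norm_le : ‖T‖ ≤ L
  pos : ∀ v : V₁, ∀ b ∈ Φ₁, b ∈ a v → c₀ ≤ b (T (ht (v : Fin k → ℤ)))
  neg : ∀ v : V₁, ∀ b ∈ Φ₁, b ∉ a v → b (T (ht (v : Fin k → ℤ))) ≤ -c₀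
  card : ∀ v : V₁, (a v).ncard = {b | b ∈ Φ₁ ∧ 0 < b (ht (v : Fin k → ℤ))}.ncard

/-- **SPREAD in the model** (owner 893): coordinate and spreading. -/
def SPREAD : Prop := ∀ K : ℝ, ∃ C : ℝ, 1 ≤ C ∧ ∀ F F' : Γ → Γ, M.QIm K F F' → ∀ b ∈ M.Φ,
  ∃ X : S → ℂ, Coord (fun z => (M.l z : ℝ)) (fun z => b (M.f F z)) X C C ∧
  ∀ (q j N m' : ℕ) (θ : ENNReal) (DD Dp : Set S), M.μ DD ≠ ⊤ → M.μ Dp ≤ m' * M.μ DD →
  (∀ z ∈ DD, ∀ g, (M.l g : ℝ) ≤ C * (q + 1) → z * g ∈ Dp) →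
  (N * 2 ^ j : ℕ) * (ENNReal.ofReal C * m') < 2 ^ q * θ →
  ∀ Γ₀ : Set S, MeasurableSet Γ₀ → Γ₀ ⊆ DD → θ * M.μ DD ≤ M.μ Γ₀ → M.μ Γ₀ ≠ 0 → ∃ z0 : S,
  ∀ (Y : Finset S) (φ : S → S), Y.card ≤ N →
    (∀ z ∈ Γ₀ ∩ {z | (M.l (z0⁻¹ * z) : ℝ) ≤ C * (q + 1)}, φ z ∈ Y) →
    ∃ z ∈ Γ₀ ∩ {z | (M.l (z0⁻¹ * z) : ℝ) ≤ C * (q + 1)},
    ∃ z' ∈ Γ₀ ∩ {z | (M.l (z0⁻¹ * z) : ℝ) ≤ C * (q + 1)},
      φ z = φ z' ∧ |b (M.f F z) - b (M.f F z')| ≤ 0 ∧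
        Real.exp (b (M.f F z) + (j - C)) < ‖X z - X z'‖

/-- **FLAT, general windows** (owner 616): all slices `Bx * x` of the box of `N_R` of the window `h`
are flat, with one good label and one constant, at every large scale: for `l x ≤ c₁ s` and for all
Cartan words `x` of length `≤ A s` whose end is in the window `(1 - κ) s`. A common scale `ρ` for a
finite family. -/
def FLATG (B : M.NatBox) : Prop := ∀ (p : ℕ) (K : ℝ) (Φ₁ : Finset (Ht k →L[ℝ] ℝ)), M.Rays Φ₁ →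
  ∀ V₁ : Finset (Fin k → ℤ), M.Dirs Φ₁ V₁ → ∀ c₂ : ℝ, 0 < c₂ → ∃ (c₀ L c₁ : ℝ), 0 < c₀ ∧ 0 < c₁ ∧
  ∀ ε κ A : ℝ, 0 < ε → 0 < κ → κ < 1 → ∃ dm : ℝ, 0 < dm ∧ ∀ d₁ : ℝ, 0 < d₁ → d₁ ≤ dm →
  ∃ lam s₀ : ℝ, 0 < lam ∧
  ∃ T : ℕ → (V₁ → Set (Ht k →L[ℝ] ℝ)) → (Ht k →L[ℝ] Ht k),
  ∀ s : ℝ, s₀ ≤ s → ∀ h : (Ht k →L[ℝ] ℝ) → ℝ, M.HGood c₂ h →
  ∀ F F' : Fin p → Γ → Γ, (∀ α, M.QIm K (F α) (F' α)) →
  ∃ ρ : ℕ, lam * s ≤ ρ ∧ (ρ : ℝ) ≤ s ∧ ∀ α, ∃ (a : V₁ → Set (Ht k →L[ℝ] ℝ)) (c : Ht k),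
    GoodLab Φ₁ V₁ c₀ L (T ρ a) a ∧
    (∀ x : S, (M.l x : ℝ) ≤ c₁ * s →
      M.μ {v | v ∈ B.Bx (M.szh h d₁ s) ∧ ε * s < ‖M.f (F α) (v * x) - c - T ρ a (M.θ x)‖} ≤
        ENNReal.ofReal ε * M.μ (B.Bx (M.szh h d₁ s))) ∧
    (∀ n : ℕ, (n : ℝ) ≤ A * s → ∀ x ∈ M.CB n, (∀ b ∈ M.Φ, b (M.θ x) ≤ (1 - κ) * s * h b) →
      M.μ {v | v ∈ B.Bx (M.szh h d₁ s) ∧ ε * s < ‖M.f (F α) (v * x) - c - T ρ a (M.θ x)‖} ≤
        ENNReal.ofReal ε * M.μ (B.Bx (M.szh h d₁ s)))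

end RModel

end Vale.Agent.P188.Z1

end

section

/-!
# P188, Z1, block LAB: statement of the output
-/

set_option linter.all false

open MeasureTheory Set

namespace Vale.Agent.P188.Z1

namespace RModel

variable {S : Type} [Group S] [MeasurableSpace S] {Γ : Type} [Group Γ]
  {V : Type} [AddCommGroup V] [Module ℝ V] {k : ℕ} (M : RModel S Γ V k)

/-- **Output of LAB** (FLATG + labels): for the maps of the family `𝓕` all slices of the natural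
boxes, at EVERY location `Y : S`, are flat with linear part `1`. -/
def FLAT1 (B : M.NatBox) (𝓕 : Set (Γ → Γ)) : Prop := ∀ c₂ : ℝ, 0 < c₂ → ∃ c₁ : ℝ, 0 < c₁ ∧
  ∀ ε κ A : ℝ, 0 < ε → 0 < κ → κ < 1 → ∃ dm : ℝ, 0 < dm ∧ ∀ d₁ : ℝ, 0 < d₁ → d₁ ≤ dm →
  ∃ s₀ : ℝ, ∀ s : ℝ, s₀ ≤ s → ∀ h : (Ht k →L[ℝ] ℝ) → ℝ, M.HGood c₂ h →
  ∀ F ∈ 𝓕, ∀ Y : S, ∃ c : Ht k,
    (∀ x : S, (M.l x : ℝ) ≤ c₁ * s →
      M.μ {v | v ∈ B.Bx (M.szh h d₁ s) ∧ ε * s < ‖M.f F (Y * (v * x)) - c - M.θ x‖} ≤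
        ENNReal.ofReal ε * M.μ (B.Bx (M.szh h d₁ s))) ∧
    (∀ n : ℕ, (n : ℝ) ≤ A * s → ∀ x ∈ M.CB n, (∀ b ∈ M.Φ, b (M.θ x) ≤ (1 - κ) * s * h b) →
      M.μ {v | v ∈ B.Bx (M.szh h d₁ s) ∧ ε * s < ‖M.f F (Y * (v * x)) - c - M.θ x‖} ≤
        ENNReal.ofReal ε * M.μ (B.Bx (M.szh h d₁ s)))

/-- A family of quasi-isometries of `Γ` indexed by a group `H`, multiplicative up to bounded
errors. -/
structure Fam (K : ℝ) {H : Type} [Group H] (Ps : H → Γ → Γ) : Prop where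
  qi : ∀ h, M.QIm K (Ps h) (Ps h⁻¹)
  mul : ∀ h h' g, (M.l (M.inG ((Ps (h * h') g)⁻¹ * Ps h (Ps h' g))) : ℝ) ≤ K
  one : ∀ g, (M.l (M.inG (g⁻¹ * Ps 1 g)) : ℝ) ≤ K

/-- **LAB** (owner 671): on a subgroup of finite index (contained in all subgroups of index `≤ N`)
the linear part is `1`. -/
def LAB (B : M.NatBox) : Prop := ∃ N : ℕ, ∀ (K : ℝ) (H : Type) [Group H] (Ps : H → Γ → Γ),
  M.Fam K Ps → ∀ H₀ : Subgroup H, (∀ H₁ : Subgroup H, H₁.index ≠ 0 → H₁.index ≤ N → H₀ ≤ H₁) →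
  M.FLAT1 B {F | ∃ h ∈ H₀, F = Ps h}

end RModel

end Vale.Agent.P188.Z1

end
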