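import Vale.Agent.P188.R.G062

section

/-!
Existence of representatives of the rays and of generic integral directions separating them.
-/

open Set

namespace Vale.Agent.P188.Z1

namespace RModel

variable {k : ℕ}

lemma rd_ht_neg (v : Fin k → ℤ) : ht (-v) = - ht v := by
  ext i; simp [ht]

/-- every open cone contains an integral vector -/
lemma rd_exists_int_in {U : Set (Ht k)} (hU : IsOpen U) (hne : U.Nonempty)
    (hcone : ∀ x ∈ U, ∀ t : ℝ, 0 < t → t • x ∈ U) : ∃ v : Fin k → ℤ, ht v ∈ U := by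
  obtain ⟨x, hx⟩ := hne
  obtain ⟨ε, hε, hball⟩ := Metric.isOpen_iff.mp hU x hx
  obtain ⟨n, hn⟩ := exists_nat_gt (1 / ε)
  have hn0 : (0 : ℝ) < n := lt_trans (by positivity) hn
  refine ⟨fun i => ⌊(n : ℝ) * x i⌋, ?_⟩
  have h1 : (n : ℝ)⁻¹ • ht (fun i => ⌊(n : ℝ) * x i⌋) ∈ U := by
    apply hball
    rw [Metric.mem_ball, dist_pi_lt_iff hε]
    intro i
    have h2 : ((n : ℝ)⁻¹ • ht (fun i => ⌊(n : ℝ) * x i⌋)) i = (n : ℝ)⁻¹ * ⌊(n : ℝ) * x i⌋ := rfl
    rw [h2, Real.dist_eq]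
    have h3 : (n : ℝ)⁻¹ * ⌊(n : ℝ) * x i⌋ - x i = (n : ℝ)⁻¹ * (⌊(n : ℝ) * x i⌋ - n * x i) := by
      field_simp
    rw [h3, abs_mul, abs_of_pos (inv_pos.mpr hn0)]
    have h4 : |(⌊(n : ℝ) * x i⌋ : ℝ) - n * x i| ≤ 1 := by
      rw [abs_le]
      constructor
      · linarith [Int.lt_floor_add_one ((n : ℝ) * x i)]
      · linarith [Int.floor_le ((n : ℝ) * x i)]
    calc (n : ℝ)⁻¹ * |(⌊(n : ℝ) * x i⌋ : ℝ) - n * x i| ≤ (n : ℝ)⁻¹ * 1 := by gcongr
      _ < ε := by
        rw [mul_one, inv_lt_comm₀ hn0 hε]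
        simpa using hn
  have h2 := hcone _ h1 n hn0
  rwa [smul_smul, mul_inv_cancel₀ hn0.ne', one_smul] at h2

/-- the complement of the kernel of a nonzero functional is dense -/
lemma rd_dense_ne {b : Ht k →L[ℝ] ℝ} (hb : b ≠ 0) : Dense {x : Ht k | b x ≠ 0} := by
  obtain ⟨y, hy⟩ : ∃ y, b y ≠ 0 := by
    by_contra h
    push Not at h
    exact hb (by ext x; simp [h])
  intro x
  by_cases hx : b x ≠ 0
  · exact subset_closure hx
  push Not at hx
  rw [mem_closure_iff_seq_limit]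
  refine ⟨fun n => x + ((n : ℝ) + 1)⁻¹ • y, fun n => ?_, ?_⟩
  · have : b (x + ((n : ℝ) + 1)⁻¹ • y) = ((n : ℝ) + 1)⁻¹ * b y := by
      rw [map_add, map_smul, hx, zero_add, smul_eq_mul]
    show b _ ≠ 0
    rw [this]
    have : ((n : ℝ) + 1)⁻¹ ≠ 0 := by positivity
    exact mul_ne_zero this hy
  · have h1 : Filter.Tendsto (fun n : ℕ => ((n : ℝ) + 1)⁻¹) Filter.atTop (nhds 0) := by
      simpa [one_div] using tendsto_one_div_add_atTop_nhds_zero_nat (𝕜 := ℝ)
    have h2 := (tendsto_const_nhds (x := x)).add (h1.smul_const y)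
    simpa using h2

lemma rd_dense_forall (W : Finset (Ht k →L[ℝ] ℝ)) :
    Dense {x : Ht k | ∀ b ∈ W, b ≠ 0 → b x ≠ 0} ∧ IsOpen {x : Ht k | ∀ b ∈ W, b ≠ 0 → b x ≠ 0} := by
  classical
  induction W using Finset.induction_on with
  | empty => simp
  | insert b W _ ih =>
    have e : {x : Ht k | ∀ b' ∈ insert b W, b' ≠ 0 → b' x ≠ 0} =
        {x | b ≠ 0 → b x ≠ 0} ∩ {x | ∀ b ∈ W, b ≠ 0 → b x ≠ 0} := by
      ext x
      simp
    rw [e]
    have ho : IsOpen {x : Ht k | b ≠ 0 → b x ≠ 0} := by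
      by_cases hb : b = 0
      · simp [hb]
      · have : {x : Ht k | b ≠ 0 → b x ≠ 0} = {x | b x ≠ 0} := by ext x; simp [hb]
        rw [this]
        exact isOpen_ne_fun b.continuous continuous_const
    have hd : Dense {x : Ht k | b ≠ 0 → b x ≠ 0} := by
      by_cases hb : b = 0
      · simp [hb]
      · have : {x : Ht k | b ≠ 0 → b x ≠ 0} = {x | b x ≠ 0} := by ext x; simp [hb]
        rw [this]
        exact rd_dense_ne hb
    exact ⟨hd.inter_of_isOpen_left ih.1 ho, ho.inter ih.2⟩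

variable {S : Type} [Group S] [MeasurableSpace S] {Γ : Type} [Group Γ]
  {V : Type} [AddCommGroup V] [Module ℝ V] (M : RModel S Γ V k)

/-- every open cone contains a generic integral vector -/
lemma rd_exists_generic_in {U : Set (Ht k)} (hU : IsOpen U) (hne : U.Nonempty)
    (hcone : ∀ x ∈ U, ∀ t : ℝ, 0 < t → t • x ∈ U) : ∃ v : Fin k → ℤ, M.Generic v ∧ ht v ∈ U := by
  obtain ⟨hd, ho⟩ := rd_dense_forall M.Wt
  obtain ⟨v, hv⟩ := rd_exists_int_in (hU.inter ho) (hd.inter_open_nonempty U hU hne) (by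
    intro x hx t ht
    refine ⟨hcone x hx.1 t ht, fun b hb hb0 => ?_⟩
    rw [map_smul, smul_eq_mul]
    exact mul_ne_zero ht.ne' (hx.2 b hb hb0))
  exact ⟨v, fun b hb hb0 => hv.2 b hb hb0, hv.1⟩

lemma rd_Generic_neg {v : Fin k → ℤ} (hv : M.Generic v) : M.Generic (-v) := by
  intro b hb hb0
  have h1 := hv b hb hb0
  have h2 : b (ht (-v)) ≠ 0 := by
    rw [rd_ht_neg, map_neg]
    exact neg_ne_zero.mpr h1
  exact h2

/-- representatives of the rays -/
theorem exists_rays : ∃ Φ₁, M.Rays Φ₁ := by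
  classical
  -- maximal families without positively proportional pairs
  suffices h : ∀ W : Finset (Ht k →L[ℝ] ℝ), W ⊆ M.Φ → ∃ Φ₁ : Finset (Ht k →L[ℝ] ℝ), Φ₁ ⊆ M.Φ ∧
      (∀ b ∈ W, ∃ b₁ ∈ Φ₁, ∃ t : ℝ, 0 < t ∧ b = t • b₁) ∧
      ∀ b ∈ Φ₁, ∀ b' ∈ Φ₁, ∀ t : ℝ, 0 < t → b = t • b' → b = b' by
    obtain ⟨Φ₁, h1, h2, h3⟩ := h M.Φ (Finset.Subset.refl _)
    exact ⟨Φ₁, h1, h2, h3⟩
  intro W
  induction W using Finset.induction_on with
  | empty => intro _; exact ⟨∅, by simp, by simp, by simp⟩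
  | insert b W _ ih =>
    intro hW
    obtain ⟨Φ₁, h1, h2, h3⟩ := ih (fun x hx => hW (Finset.mem_insert_of_mem hx))
    by_cases hb : ∃ b₁ ∈ Φ₁, ∃ t : ℝ, 0 < t ∧ b = t • b₁
    · refine ⟨Φ₁, h1, ?_, h3⟩
      intro b' hb'
      rcases Finset.mem_insert.mp hb' with rfl | hb'
      · exact hb
      · exact h2 b' hb'
    · refine ⟨insert b Φ₁, ?_, ?_, ?_⟩
      · intro x hx
        rcases Finset.mem_insert.mp hx with rfl | hx
        · exact hW (Finset.mem_insert_self _ _)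
        · exact h1 hx
      · intro b' hb'
        rcases Finset.mem_insert.mp hb' with rfl | hb'
        · exact ⟨b', Finset.mem_insert_self _ _, 1, one_pos, (one_smul _ _).symm⟩
        · obtain ⟨b₁, hb₁, t, ht, e⟩ := h2 b' hb'
          exact ⟨b₁, Finset.mem_insert_of_mem hb₁, t, ht, e⟩
      · intro x hx y hy t ht e
        rcases Finset.mem_insert.mp hx with hxb | hx <;> rcases Finset.mem_insert.mp hy with hyb | hy
        · rw [hxb, hyb]
        · exact absurd ⟨y, hy, t, ht, hxb ▸ e⟩ hb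
        · exfalso
          apply hb
          refine ⟨x, hx, t⁻¹, inv_pos.mpr ht, ?_⟩
          rw [e, hyb, smul_smul, inv_mul_cancel₀ ht.ne', one_smul]
        · exact h3 x hx y hy t ht e

/-- functionals which are not positively proportional are separated -/
lemma rd_exists_sep {b b' : Ht k →L[ℝ] ℝ} (hb : b ≠ 0) (hb' : b' ≠ 0)
    (h : ∀ t : ℝ, 0 < t → b' ≠ t • b) : ∃ x, 0 < b x ∧ b' x < 0 := by
  by_contra hcon
  push Not at hcon
  obtain ⟨u, hu⟩ : ∃ u, 0 < b u := by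
    obtain ⟨y, hy⟩ : ∃ y, b y ≠ 0 := by
      by_contra h'
      push Not at h'
      exact hb (by ext x; simp [h'])
    rcases lt_or_gt_of_ne hy with h1 | h1
    · exact ⟨-y, by rw [map_neg]; linarith⟩
    · exact ⟨y, h1⟩
  have hker : ∀ y, b y = 0 → b' y = 0 := by
    intro y hy
    by_contra hy'
    have h1 := hcon (u + (-(b' u + 1) / b' y) • y) (by
      rw [map_add, map_smul, hy]; simpa using hu)
    rw [map_add, map_smul, smul_eq_mul, div_mul_cancel₀ _ hy'] at h1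
    linarith
  have hprop : b' = (b' u / b u) • b := by
    ext x
    have h1 : b (x - (b x / b u) • u) = 0 := by
      rw [map_sub, map_smul, smul_eq_mul, div_mul_cancel₀ _ hu.ne', sub_self]
    have h2 := hker _ h1
    rw [map_sub, map_smul, smul_eq_mul, sub_eq_zero] at h2
    rw [h2]
    show _ = (b' u / b u) * b x
    ring
  have hnn : 0 ≤ b' u := hcon u hu
  rcases hnn.lt_or_eq with h1 | h1
  · exact h _ (div_pos h1 hu) hprop
  · apply hb'
    rw [hprop, ← h1, zero_div, zero_smul]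

/-- separating generic directions -/
theorem exists_dirs {Φ₁ : Finset (Ht k →L[ℝ] ℝ)} (h : M.Rays Φ₁) : ∃ V₁, M.Dirs Φ₁ V₁ := by
  classical
  -- separating vectors
  have hsep : ∀ b ∈ Φ₁, ∀ b' ∈ Φ₁, b ≠ b' →
      ∃ v : Fin k → ℤ, M.Generic v ∧ 0 < b (ht v) ∧ b' (ht v) < 0 := by
    intro b hb b' hb' hne
    obtain ⟨x, hx1, hx2⟩ := rd_exists_sep (M.Φ_ne b (h.sub hb)) (M.Φ_ne b' (h.sub hb'))
      (fun t ht e => hne (h.uniq b' hb' b hb t ht e).symm)
    obtain ⟨v, hv, hv1, hv2⟩ := M.rd_exists_generic_in (U := {x | 0 < b x} ∩ {x | b' x < 0})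
      ((isOpen_lt continuous_const b.continuous).inter (isOpen_lt b'.continuous continuous_const))
      ⟨x, hx1, hx2⟩ (by
        rintro y ⟨hy1, hy2⟩ t ht
        refine ⟨?_, ?_⟩
        · show 0 < b (t • y)
          rw [map_smul, smul_eq_mul]; exact mul_pos ht hy1
        · show b' (t • y) < 0
          rw [map_smul, smul_eq_mul]; exact mul_neg_of_pos_of_neg ht hy2)
    exact ⟨v, hv, hv1, hv2⟩
  choose! s hs1 hs2 hs3 using hsep
  -- spanning vectors
  have hspan : Submodule.span ℝ (ht '' {v : Fin k → ℤ | M.Generic v}) = (⊤ : Submodule ℝ (Ht k)) := by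
    by_contra hne
    obtain ⟨f, hf, hf0⟩ := Submodule.exists_le_ker_of_lt_top _ (lt_top_iff_ne_top.mpr hne)
    let f' : Ht k →L[ℝ] ℝ := LinearMap.toContinuousLinearMap f
    have hf' : f' ≠ 0 := fun e => hf (LinearMap.ext fun x =>
      congrArg (fun g : Ht k →L[ℝ] ℝ => g x) e)
    obtain ⟨v, hv, hv1⟩ := M.rd_exists_generic_in (U := {x | f' x ≠ 0})
      (isOpen_ne_fun f'.continuous continuous_const) (rd_dense_ne hf').nonempty (by
        intro x hx t ht
        show f' (t • x) ≠ 0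
        rw [map_smul, smul_eq_mul]
        exact mul_ne_zero ht.ne' hx)
    apply hv1
    exact hf0 (Submodule.subset_span ⟨v, hv, rfl⟩)
  obtain ⟨B, hB, hBs, hBl⟩ := exists_linearIndependent ℝ (ht '' {v : Fin k → ℤ | M.Generic v})
  have hBfin : B.Finite := hBl.setFinite
  have hBpre : ∀ x ∈ B, ∃ v : Fin k → ℤ, M.Generic v ∧ ht v = x := fun x hx => hB hx
  choose! g hg1 hg2 using hBpre
  let V₀ : Finset (Fin k → ℤ) := (((Φ₁ ×ˢ Φ₁).filter fun q => q.1 ≠ q.2).image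
    fun q => s q.1 q.2) ∪ hBfin.toFinset.image g
  have hV₀ : ∀ v ∈ V₀, M.Generic v := by
    intro v hv
    rcases Finset.mem_union.mp hv with hv | hv
    · obtain ⟨⟨b, b'⟩, hq, rfl⟩ := Finset.mem_image.mp hv
      obtain ⟨hq1, hq2⟩ := Finset.mem_filter.mp hq
      obtain ⟨hq3, hq4⟩ := Finset.mem_product.mp hq1
      exact hs1 b hq3 b' hq4 hq2
    · obtain ⟨x, hx, rfl⟩ := Finset.mem_image.mp hv
      exact hg1 x (hBfin.mem_toFinset.mp hx)
  refine ⟨V₀ ∪ V₀.image (fun v => -v), ?_, ?_, ?_, ?_⟩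
  · intro v hv
    rcases Finset.mem_union.mp hv with hv | hv
    · exact hV₀ v hv
    · obtain ⟨w, hw, rfl⟩ := Finset.mem_image.mp hv
      exact rd_Generic_neg M (hV₀ w hw)
  · intro v hv
    rcases Finset.mem_union.mp hv with hv | hv
    · exact Finset.mem_union_right _ (Finset.mem_image_of_mem _ hv)
    · obtain ⟨w, hw, rfl⟩ := Finset.mem_image.mp hv
      rw [neg_neg]
      exact Finset.mem_union_left _ hw
  · intro b hb b' hb' hbb
    by_contra hne
    have hmem : s b b' ∈ V₀ := Finset.mem_union_left _ (Finset.mem_image.mpr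
      ⟨(b, b'), Finset.mem_filter.mpr ⟨Finset.mem_product.mpr ⟨hb, hb'⟩, hne⟩, rfl⟩)
    have h1 := hbb _ (Finset.mem_union_left _ hmem) (hs2 b hb b' hb' hne)
    have h2 := hs3 b hb b' hb' hne
    linarith
  · rw [eq_top_iff, ← hspan, ← hBs]
    apply Submodule.span_mono
    intro x hx
    refine ⟨g x, ?_, hg2 x hx⟩
    apply Finset.mem_coe.mpr
    apply Finset.mem_union_left
    apply Finset.mem_union_right
    exact Finset.mem_image_of_mem _ (hBfin.mem_toFinset.mpr hx)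

end RModel

end Vale.Agent.P188.Z1

end

section

/-!
# P188, Z1, block TRANS

The image of a set with small boundary under a quasi-isometry of the lattice, and the comparison
of measures.
-/

set_option linter.all false

open MeasureTheory Set
open scoped ENNReal
open Agent.P188.H428 (IsLen)

namespace Vale.Agent.P188.Z1

namespace RModel

variable {S : Type} [Group S] [MeasurableSpace S] {Γ : Type} [Group Γ]
  {V : Type} [AddCommGroup V] [Module ℝ V] {k : ℕ} (M : RModel S Γ V k)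

/-- the union of the cells of the elements of `B` -/
def cells (B : Set Γ) : Set S := M.fl ⁻¹' B

theorem measurableSet_cells (B : Set Γ) : MeasurableSet (M.cells B) := by
  haveI := M.countable
  have : M.cells B = ⋃ g ∈ B, M.fl ⁻¹' {g} := by
    ext z; simp [cells]
  rw [this]
  exact MeasurableSet.biUnion (Set.to_countable B) fun g _ => M.fl_meas g

/-- the measure of a cell -/
noncomputable def cv : ℝ≥0∞ := M.μ (M.fl ⁻¹' {1})

theorem mu_cell (g : Γ) : M.μ (M.fl ⁻¹' {g}) = M.cv := by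
  have h := (M.mpl (M.inG g⁻¹)).measure_preimage (M.fl_meas 1).nullMeasurableSet
  rw [cv, ← h]
  congr 1
  ext z
  simp only [mem_preimage, mem_singleton_iff, M.fl_mul]
  constructor
  · intro hz; rw [hz]; group
  · intro hz
    have := congrArg (fun x => g * x) hz
    simpa using this

theorem mu_cells (B : Set Γ) : M.μ (M.cells B) = B.encard * M.cv := by
  haveI := M.countable
  have : M.cells B = ⋃ g : B, M.fl ⁻¹' {(g : Γ)} := by
    ext z; simp [cells]
  rw [this, measure_iUnion]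
  · simp_rw [mu_cell]
    exact ENNReal.tsum_set_const B M.cv
  · intro a b hab
    refine Disjoint.preimage _ ?_
    rw [Set.disjoint_singleton]
    exact fun h => hab (Subtype.ext h)
  · exact fun g => M.fl_meas _

theorem cv_ne_zero : M.cv ≠ 0 := by
  intro h
  have h1 : M.μ univ = 0 := by
    have : (univ : Set S) = M.cells univ := by ext; simp [cells]
    rw [this, mu_cells, h, mul_zero]
  exact M.ball_pos (measure_mono_null (subset_univ _) h1)

theorem ball_ne_top (R : ℕ) : M.μ {x | M.l x ≤ R} ≠ ⊤ :=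
  ne_top_of_le_ne_top ENNReal.ofReal_ne_top (M.ball_lt R)

theorem cv_ne_top : M.cv ≠ ⊤ := by
  refine ne_top_of_le_ne_top (M.ball_ne_top ⌈M.C0⌉₊) (measure_mono ?_)
  intro z hz
  have h := M.fl_close z
  have hz' : M.fl z = 1 := hz
  rw [hz', map_one, inv_one, one_mul] at h
  have : (M.l z : ℝ) ≤ ⌈M.C0⌉₊ := h.trans (Nat.le_ceil _)
  exact_mod_cast this

/-- length of a difference -/
theorem l_comm (x y : S) : M.l (x⁻¹ * y) = M.l (y⁻¹ * x) := by
  rw [← M.len.inv]; congr 1; group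

theorem l_tri (x y z : S) : M.l (x⁻¹ * z) ≤ M.l (x⁻¹ * y) + M.l (y⁻¹ * z) := by
  have := M.len.mul (x⁻¹ * y) (y⁻¹ * z)
  have e : x⁻¹ * y * (y⁻¹ * z) = x⁻¹ * z := by group
  rwa [e] at this

theorem l_triR (x y z : S) : (M.l (x⁻¹ * z) : ℝ) ≤ M.l (x⁻¹ * y) + M.l (y⁻¹ * z) := by
  exact_mod_cast M.l_tri x y z

/-- the constant of comparison -/
noncomputable def mlt (K : ℝ) : ℝ≥0∞ := M.μ {x | M.l x ≤ ⌈K + M.C0⌉₊} / M.cv

theorem mlt_ne_top (K : ℝ) : M.mlt K ≠ ⊤ :=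
  ENNReal.div_ne_top (M.ball_ne_top _) M.cv_ne_zero

/-- **Comparison of measures.** -/
theorem mu_pull {K : ℝ} {φ : Γ → Γ}
    (hφ : ∀ g g', φ g = φ g' → (M.l (M.inG (g⁻¹ * g')) : ℝ) ≤ K) (B : Set Γ) :
    M.μ {z | φ (M.fl z) ∈ B} ≤ M.mlt K * M.μ (M.cells B) := by
  haveI := M.countable
  have h1 : {z | φ (M.fl z) ∈ B} = ⋃ g : B, {z | φ (M.fl z) = g} := by
    ext z; simp
  rw [h1]
  refine (measure_iUnion_le _).trans ?_
  rw [mu_cells]
  have h2 : M.mlt K * (B.encard * M.cv) = ∑' _ : B, (M.mlt K * M.cv) := by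
    rw [ENNReal.tsum_set_const]; ring
  rw [h2]
  refine ENNReal.tsum_le_tsum fun g => ?_
  have h3 : M.mlt K * M.cv = M.μ {x | M.l x ≤ ⌈K + M.C0⌉₊} :=
    ENNReal.div_mul_cancel M.cv_ne_zero M.cv_ne_top
  rw [h3]
  by_cases hne : ∃ z0, φ (M.fl z0) = g
  · obtain ⟨z0, hz0⟩ := hne
    have h4 := (M.mpl (M.inG (M.fl z0))⁻¹).measure_preimage
      (measurableSet_toMeasurable M.μ {x | M.l x ≤ ⌈K + M.C0⌉₊}).nullMeasurableSet
    rw [measure_toMeasurable] at h4
    rw [← h4]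
    refine measure_mono ?_
    intro z hz
    rw [mem_preimage]
    refine subset_toMeasurable _ _ ?_
    have hz' : φ (M.fl z) = g := hz
    have h5 := hφ (M.fl z0) (M.fl z) (hz0.trans hz'.symm)
    have h6 := M.fl_close z
    have h7 := M.l_triR (M.inG (M.fl z0)) (M.inG (M.fl z)) z
    rw [map_mul, map_inv] at h5
    have h8 : (M.l ((M.inG (M.fl z0))⁻¹ * z) : ℝ) ≤ ⌈K + M.C0⌉₊ :=
      (h7.trans (add_le_add h5 h6)).trans (Nat.le_ceil _)
    show M.l ((M.inG (M.fl z0))⁻¹ * z) ≤ ⌈K + M.C0⌉₊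
    exact_mod_cast h8
  · have : {z | φ (M.fl z) = (g : Γ)} = ∅ := by
      ext z
      simp only [mem_setOf_eq, mem_empty_iff_false, iff_false]
      exact fun h => hne ⟨z, h⟩
    rw [this]
    simp

theorem QIm.symm {M : RModel S Γ V k} {K : ℝ} {F F' : Γ → Γ} (h : M.QIm K F F') :
    M.QIm K F' F := ⟨h.lip', h.lip, h.inv', h.inv⟩

theorem QIm.mult {M : RModel S Γ V k} {K : ℝ} {F F' : Γ → Γ} (h : M.QIm K F F') (g g' : Γ)
    (hg : F g = F g') : (M.l (M.inG (g⁻¹ * g')) : ℝ) ≤ 2 * K := by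
  have h1 := h.inv g
  have h2 := h.inv g'
  rw [map_mul, map_inv] at h1 h2 ⊢
  rw [← hg, M.l_comm] at h2
  have := M.l_triR (M.inG g) (M.inG (F' (F g))) (M.inG g')
  linarith

/-- **Comparison of measures for a quasi-isometry.** -/
theorem QIm.mu_le {M : RModel S Γ V k} {K : ℝ} {F F' : Γ → Γ} (h : M.QIm K F F') (B : Set Γ) :
    M.μ {z | F (M.fl z) ∈ B} ≤ M.mlt (2 * K) * M.μ (M.cells B) := M.mu_pull h.mult B

/-- **Comparison of measures for a quasi-isometry**: the points whose image cell is contained in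
`B'`. (Also for the translated image cells.) -/
theorem QIm.pull {M : RModel S Γ V k} {K : ℝ} {F F' : Γ → Γ} (h : M.QIm K F F') (g : Γ)
    (B' : Set S) :
    M.μ {z | M.fl ⁻¹' {F (M.fl z) * g} ⊆ B'} ≤ M.mlt (2 * K) * M.μ B' := by
  have h1 := M.mu_pull (φ := fun x => F x * g) (K := 2 * K)
    (fun a b hab => h.mult a b (mul_right_cancel hab)) {γ | M.fl ⁻¹' {γ} ⊆ B'}
  refine h1.trans (mul_le_mul_right (measure_mono ?_) _)
  intro z hz
  have hz' : M.fl ⁻¹' {M.fl z} ⊆ B' := hz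
  exact hz' rfl

/-- **TRANS.** -/
theorem QIm.trans {M : RModel S Γ V k} {K : ℝ} {F F' : Γ → Γ} (h : M.QIm K F F') {R R' κ : ℝ}
    (hκ : 0 ≤ κ) (hR' : 0 ≤ R') {D Dp : Set S} (hD : M.Fat R κ D Dp) {C2 : ℝ} (hC2 : K ≤ C2)
    (hR : 2 * M.C0 + K + K * (C2 + 2 * M.C0 + R' + 1) ≤ R) :
    let G' : Set Γ := {γ | ∃ z ∈ D, (M.l (M.inG (γ⁻¹ * F (M.fl z))) : ℝ) ≤ C2}
    let Gp' : Set Γ :=
      {γ | ∃ z ∈ D, (M.l (M.inG (γ⁻¹ * F (M.fl z))) : ℝ) ≤ C2 + 2 * M.C0 + R'}
    M.Fat R' ((M.mlt (2 * K)).toReal ^ 2 * κ) (M.cells G') (M.cells Gp') ∧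
      (∀ z ∈ D, F (M.fl z) ∈ G') ∧
      M.μ D ≤ M.mlt (2 * K) * M.μ (M.cells G') ∧
      M.μ (M.cells Gp') ≤ M.mlt (2 * K) * M.μ Dp := by
  intro G' Gp'
  have hK0 : 0 ≤ K := le_trans (Nat.cast_nonneg _) (h.inv 1)
  have hC0 : 0 ≤ M.C0 := zero_le_one.trans M.one_le_C0
  set m := M.mlt (2 * K) with hm
  have hmt : m ≠ ⊤ := M.mlt_ne_top _
  have hDG : ∀ z ∈ D, F (M.fl z) ∈ G' := by
    intro z hz
    refine ⟨z, hz, ?_⟩
    rw [inv_mul_cancel, map_one, M.len.one]
    simpa using hK0.trans hC2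
  have hDm : M.μ D ≤ m * M.μ (M.cells G') :=
    (measure_mono (show D ⊆ {z | F (M.fl z) ∈ G'} from hDG)).trans (h.mu_le G')
  -- the cells of `F' γ`
  have hin : ∀ γ ∈ Gp', M.fl ⁻¹' {F' γ} ⊆ Dp := by
    rintro γ ⟨z, hz, hzγ⟩ x hx
    have hx' : M.fl x = F' γ := hx
    have h1 := M.fl_close z
    rw [M.l_comm] at h1
    have h2 := h.inv (M.fl z)
    have h3 := h.lip' (F (M.fl z)) ((F (M.fl z))⁻¹ * γ)
    rw [mul_inv_cancel_left] at h3
    have h4 := M.fl_close x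
    rw [hx'] at h4
    have h5 : M.l (M.inG ((F (M.fl z))⁻¹ * γ)) = M.l (M.inG (γ⁻¹ * F (M.fl z))) := by
      rw [← M.len.inv, ← map_inv]; congr 2; group
    rw [h5] at h3
    rw [map_mul, map_inv] at h2
    rw [map_mul, map_inv] at h3
    have t1 := M.l_triR z (M.inG (M.fl z)) x
    have t2 := M.l_triR (M.inG (M.fl z)) (M.inG (F' (F (M.fl z)))) x
    have t3 := M.l_triR (M.inG (F' (F (M.fl z)))) (M.inG (F' γ)) x
    have t4 : K * (M.l (M.inG (γ⁻¹ * F (M.fl z))) + 1) ≤ K * (C2 + 2 * M.C0 + R' + 1) :=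
      mul_le_mul_of_nonneg_left (by linarith) hK0
    have := hD.sub z hz (z⁻¹ * x) (by linarith)
    rwa [mul_inv_cancel_left] at this
  have hout : ∀ γ ∉ G', M.fl ⁻¹' {F' γ} ⊆ Dᶜ := by
    intro γ hγ x hx hxD
    have hx' : M.fl x = F' γ := hx
    refine hγ ⟨x, hxD, ?_⟩
    rw [hx']
    exact (h.inv' γ).trans hC2
  have hDDp : D ⊆ Dp := by
    intro z hz
    have hR0 : (0:ℝ) ≤ R := by
      refine le_trans ?_ hR
      have : 0 ≤ K * (C2 + 2 * M.C0 + R' + 1) := mul_nonneg hK0 (by linarith)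
      linarith
    have := hD.sub z hz 1 (by rw [M.len.one]; simpa using hR0)
    rwa [mul_one] at this
  have hDpf : M.μ Dp ≠ ⊤ :=
    ne_top_of_le_ne_top (ENNReal.mul_ne_top ENNReal.ofReal_ne_top hD.fin) hD.le
  have hGp : M.μ (M.cells Gp') ≤ m * M.μ Dp := by
    have h1 : M.cells Gp' ⊆ {z | F' (M.fl z) ∈ {g | M.fl ⁻¹' {g} ⊆ Dp}} := fun z hz => hin _ hz
    refine (measure_mono h1).trans ((h.symm.mu_le _).trans (mul_le_mul_right (measure_mono ?_) _))
    intro z hz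
    have hz' : M.fl ⁻¹' {M.fl z} ⊆ Dp := hz
    exact hz' rfl
  have hsub : G' ⊆ Gp' := by
    rintro γ ⟨z, hz, hzγ⟩
    exact ⟨z, hz, by linarith⟩
  have hcs : M.cells G' ⊆ M.cells Gp' := preimage_mono hsub
  have hfinG : M.μ (M.cells G') ≠ ⊤ :=
    ne_top_of_le_ne_top (ENNReal.mul_ne_top hmt hDpf) ((measure_mono hcs).trans hGp)
  have hdiff : M.μ (M.cells (Gp' \ G')) ≤ m * M.μ (Dp \ D) := by
    have h1 : M.cells (Gp' \ G') ⊆ {z | F' (M.fl z) ∈ {g | M.fl ⁻¹' {g} ⊆ Dp \ D}} := by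
      intro z hz x hx
      exact ⟨hin _ hz.1 hx, hout _ hz.2 hx⟩
    refine (measure_mono h1).trans ((h.symm.mu_le _).trans (mul_le_mul_right (measure_mono ?_) _))
    intro z hz
    have hz' : M.fl ⁻¹' {M.fl z} ⊆ Dp \ D := hz
    exact hz' rfl
  have hDpD : M.μ (Dp \ D) ≤ ENNReal.ofReal κ * M.μ D := by
    rw [measure_sdiff hDDp hD.meas.nullMeasurableSet hD.fin]
    refine tsub_le_iff_right.2 (hD.le.trans ?_)
    rw [ENNReal.ofReal_add zero_le_one hκ, ENNReal.ofReal_one, add_mul, one_mul, add_comm]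
  refine ⟨⟨M.measurableSet_cells _, M.measurableSet_cells _, ?_, hfinG, ?_, ?_⟩, hDG, hDm, hGp⟩
  · intro h0
    rw [h0, mul_zero] at hDm
    exact hD.pos (le_antisymm hDm bot_le)
  · rintro z hz g hg
    have hz' : M.fl z ∈ G' := hz
    obtain ⟨x, hx, hxz⟩ := hz'
    refine ⟨x, hx, ?_⟩
    have h1 := M.fl_close z
    have h2 := M.fl_close (z * g)
    rw [map_mul, map_inv] at hxz ⊢
    have h3 : M.l ((z * g)⁻¹ * z) = M.l g := by
      rw [← M.len.inv]; congr 1; group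
    have t1 := M.l_triR (M.inG (M.fl (z * g))) (z * g) (M.inG (F (M.fl x)))
    have t2 := M.l_triR (z * g) z (M.inG (F (M.fl x)))
    have t3 := M.l_triR z (M.inG (M.fl z)) (M.inG (F (M.fl x)))
    rw [M.l_comm z (M.inG (M.fl z))] at t3
    have h3' : (M.l ((z * g)⁻¹ * z) : ℝ) = M.l g := by exact_mod_cast h3
    linarith
  · have h1 : M.cells Gp' ⊆ M.cells G' ∪ M.cells (Gp' \ G') := by
      intro z hz
      by_cases hz2 : M.fl z ∈ G'
      · exact Or.inl hz2
      · exact Or.inr ⟨hz, hz2⟩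
    have hm2 : m = ENNReal.ofReal m.toReal := (ENNReal.ofReal_toReal hmt).symm
    calc M.μ (M.cells Gp') ≤ M.μ (M.cells G') + M.μ (M.cells (Gp' \ G')) :=
          (measure_mono h1).trans (measure_union_le _ _)
      _ ≤ M.μ (M.cells G') + m * (ENNReal.ofReal κ * (m * M.μ (M.cells G'))) := by
          gcongr
          refine hdiff.trans ?_
          gcongr
          refine hDpD.trans ?_
          gcongr
      _ = ENNReal.ofReal (1 + m.toReal ^ 2 * κ) * M.μ (M.cells G') := by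
          rw [ENNReal.ofReal_add zero_le_one (by positivity), ENNReal.ofReal_one,
            ENNReal.ofReal_mul (by positivity), ENNReal.ofReal_pow ENNReal.toReal_nonneg, ← hm2]
          ring

end RModel

end Vale.Agent.P188.Z1

end
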