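import Vale.Agent.P188.R.G068
import Vale.Agent.P188.R.G067

section

/-!
# P188, Z1, block INVT

If `f` is affine near most points of a set `D` with small boundary, then the linear parts are
invertible, with a bound of the inverse depending only on the constant of the quasi-isometry.
-/

set_option linter.all false

open MeasureTheory Set
open scoped ENNReal
open Agent.P188.H428 (IsLen)
open Vale.Agent.P188.H530 (hgt hgt_mul)

namespace Vale.Agent.P188.Z1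

/-- Linear algebra: approximate right inverse. -/
theorem lower_of_approx {k : ℕ} (T : Ht k →L[ℝ] Ht k) (u : Fin k → Ht k) {s δ B : ℝ} (hs : 0 < s)
    (hu : ∀ j, ‖u j‖ ≤ B) (hT : ∀ j, ‖T (u j) - Pi.single j s‖ ≤ δ) (hδ : 2 * (k * δ) ≤ s)
    (w : Ht k) : s * ‖w‖ ≤ 2 * (k * B) * ‖T w‖ := by
  rcases Nat.eq_zero_or_pos k with rfl | hk
  · have h0 : ‖w‖ = 0 := by rw [Subsingleton.elim w 0, norm_zero]
    rw [h0]; simp
  have hk0 : (0 : ℝ) < k := by exact_mod_cast hk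
  have hB0 : 0 ≤ B := (norm_nonneg _).trans (hu ⟨0, hk⟩)
  have hδ0 : 0 ≤ δ := (norm_nonneg _).trans (hT ⟨0, hk⟩)
  let U : Ht k →ₗ[ℝ] Ht k := (Pi.basisFun ℝ (Fin k)).constr ℝ u
  have hU : ∀ a : Ht k, U a = ∑ j, a j • u j := by
    intro a
    simp only [U, Module.Basis.constr_apply_fintype]
    simp
  have hsum : ∀ (a : Ht k) (v : Fin k → Ht k) (c : ℝ), (∀ j, ‖v j‖ ≤ c) → 0 ≤ c →
      ‖∑ j, a j • v j‖ ≤ k * (‖a‖ * c) := by
    intro a v c hv hc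
    refine (norm_sum_le _ _).trans ?_
    calc ∑ j, ‖a j • v j‖ ≤ ∑ _j : Fin k, ‖a‖ * c := by
          refine Finset.sum_le_sum fun j _ => ?_
          rw [norm_smul]
          exact mul_le_mul (norm_le_pi_norm a j) (hv j) (norm_nonneg _) (norm_nonneg _)
      _ = k * (‖a‖ * c) := by simp
  have h1 : ∀ a : Ht k, ‖T (U a) - s • a‖ ≤ k * (‖a‖ * δ) := by
    intro a
    have e : T (U a) - s • a = ∑ j, a j • (T (u j) - Pi.single j s) := by
      rw [hU, map_sum]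
      simp only [map_smul, smul_sub, Finset.sum_sub_distrib]
      congr 1
      funext i
      rw [Finset.sum_apply]
      simp only [Pi.smul_apply, smul_eq_mul, Pi.single_apply]
      rw [Finset.sum_eq_single i]
      · simp [mul_comm]
      · intro j _ hj
        rw [if_neg (Ne.symm hj), mul_zero]
      · intro h; exact absurd (Finset.mem_univ i) h
    rw [e]
    exact hsum a _ δ hT hδ0
  have h2 : ∀ a : Ht k, s * ‖a‖ ≤ 2 * ‖T (U a)‖ := by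
    intro a
    have h3 : ‖s • a‖ ≤ ‖T (U a)‖ + ‖T (U a) - s • a‖ := by
      have := norm_sub_le (T (U a)) (T (U a) - s • a)
      simpa using this
    rw [norm_smul, Real.norm_of_nonneg hs.le] at h3
    have h4 := h1 a
    have h5 : k * (‖a‖ * δ) ≤ s / 2 * ‖a‖ := by
      have := mul_le_mul_of_nonneg_right hδ (norm_nonneg a)
      linarith
    linarith
  have hinj : Function.Injective U := by
    rw [injective_iff_map_eq_zero]
    intro a ha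
    have := h2 a
    rw [ha, map_zero, norm_zero, mul_zero] at this
    have h3 : ‖a‖ ≤ 0 := by
      by_contra hcon
      push Not at hcon
      have := mul_pos hs hcon
      linarith
    exact norm_le_zero_iff.1 h3
  obtain ⟨a, rfl⟩ := (LinearMap.injective_iff_surjective.1 hinj) w
  have h3 : ‖U a‖ ≤ k * (‖a‖ * B) := by
    rw [hU]; exact hsum a u B hu hB0
  calc s * ‖U a‖ ≤ s * (k * (‖a‖ * B)) := by gcongr
    _ = k * B * (s * ‖a‖) := by ring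
    _ ≤ k * B * (2 * ‖T (U a)‖) := by
        refine mul_le_mul_of_nonneg_left (h2 a) (by positivity)
    _ = _ := by ring

namespace RModel

variable {S : Type} [Group S] [MeasurableSpace S] {Γ : Type} [Group Γ]
  {V : Type} [AddCommGroup V] [Module ℝ V] {k : ℕ} (M : RModel S Γ V k)

theorem θ_mul (x y : S) : M.θ (x * y) = M.θ x + M.θ y := hgt_mul M.η x y

theorem θ_inv (x : S) : M.θ x⁻¹ = -M.θ x := by
  have h1 : M.θ (1 : S) = 0 := by
    have := M.θ_mul 1 1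
    rw [mul_one] at this
    simpa using this
  have h2 := M.θ_mul x⁻¹ x
  rw [inv_mul_cancel, h1] at h2
  exact eq_neg_of_add_eq_zero_left h2.symm

theorem θ_le (x : S) : ‖M.θ x‖ ≤ M.C0 * M.l x := M.η_le x

theorem θ_inv_mul (x y : S) : M.θ (x⁻¹ * y) = M.θ y - M.θ x := by
  rw [M.θ_mul, M.θ_inv]; abel

/-- Elements of `Γ` with prescribed height, approximately. -/
theorem exists_lift (j : Fin k) : ∃ C : ℝ, 0 ≤ C ∧ ∀ s : ℕ, ∃ g : Γ,
    (M.l (M.inG g) : ℝ) ≤ C * (s + 1) ∧ ‖M.θ (M.inG g) - Pi.single j (s : ℝ)‖ ≤ M.C0 * M.C0 := by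
  have hC0 : 0 ≤ M.C0 := zero_le_one.trans M.one_le_C0
  set t : S := M.τ (Pi.single j 1) with ht
  have hpow : ∀ s : ℕ, M.l (t ^ s) ≤ s * M.l t := by
    intro s
    induction s with
    | zero => simp [M.len.one]
    | succ s ih =>
      rw [pow_succ]
      refine (M.len.mul _ _).trans ?_
      rw [Nat.succ_mul]
      exact Nat.add_le_add_right ih _
  have hθt : M.θ t = Pi.single j (1 : ℝ) := by
    funext i
    simp only [θ, hgt, ht, M.η_τ, toAdd_ofAdd]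
    by_cases hij : i = j
    · subst hij; simp
    · simp [Pi.single_eq_of_ne hij]
  have hθ : ∀ s : ℕ, M.θ (t ^ s) = Pi.single j (s : ℝ) := by
    intro s
    induction s with
    | zero =>
      have h1 : M.θ (1 : S) = 0 := by
        have := M.θ_mul 1 1
        rw [mul_one] at this
        simpa using this
      simp [h1]
    | succ s ih =>
      rw [pow_succ, M.θ_mul, ih, hθt, ← Pi.single_add]
      push_cast; rfl
  refine ⟨M.l t + M.C0, by positivity, fun s => ⟨M.fl (t ^ s), ?_, ?_⟩⟩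
  · have h1 := M.fl_close (t ^ s)
    have h2 := M.l_triR 1 (t ^ s) (M.inG (M.fl (t ^ s)))
    rw [M.l_comm (t ^ s), inv_one, one_mul, one_mul] at h2
    have h3 : (M.l (t ^ s) : ℝ) ≤ s * M.l t := by exact_mod_cast hpow s
    have h4 : 0 ≤ (M.l t : ℝ) := Nat.cast_nonneg _
    have h5 : 0 ≤ (s : ℝ) := Nat.cast_nonneg _
    nlinarith
  · have h1 := M.fl_close (t ^ s)
    have h2 := M.θ_inv_mul (M.inG (M.fl (t ^ s))) (t ^ s)
    rw [hθ] at h2
    rw [← norm_neg, neg_sub, ← h2]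
    exact (M.θ_le _).trans (mul_le_mul_of_nonneg_left h1 hC0)

theorem mu_cells_mul (g : Γ) (B : Set Γ) : M.μ (M.cells {γ | γ * g ∈ B}) = M.μ (M.cells B) := by
  rw [mu_cells, mu_cells]
  congr 2
  have : {γ | γ * g ∈ B} = (Equiv.mulRight g) ⁻¹' B := rfl
  rw [this]
  exact Set.encard_preimage_of_bijective (Equiv.mulRight g).bijective B

/-- measure comparison for `x ↦ F' (F x * g)` -/
theorem QIm.pull2 {M : RModel S Γ V k} {K : ℝ} {F F' : Γ → Γ} (h : M.QIm K F F') (g : Γ)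
    (B' : Set S) :
    M.μ {z | M.fl ⁻¹' {F' (F (M.fl z) * g)} ⊆ B'} ≤ M.mlt (2 * K) * (M.mlt (2 * K) * M.μ B') := by
  set B : Set Γ := {γ | M.fl ⁻¹' {γ} ⊆ B'} with hB
  have h1 : M.μ {z | F (M.fl z) ∈ {γ | F' (γ * g) ∈ B}} ≤ _ := h.mu_le {γ | F' (γ * g) ∈ B}
  refine (show M.μ {z | M.fl ⁻¹' {F' (F (M.fl z) * g)} ⊆ B'} ≤ _ from h1).trans
    (mul_le_mul_right ?_ _)
  have h2 : {γ | F' (γ * g) ∈ B} = {γ | γ * g ∈ {γ | F' γ ∈ B}} := rfl
  rw [h2, mu_cells_mul]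
  have h3 : M.cells {γ | F' γ ∈ B} = {z | F' (M.fl z) ∈ B} := rfl
  rw [h3]
  refine (h.symm.mu_le B).trans (mul_le_mul_right (measure_mono ?_) _)
  intro z hz
  have hz' : M.fl ⁻¹' {M.fl z} ⊆ B' := hz
  exact hz' rfl

/-- distance from `x` to the cell of `F' (F (fl x) * g)` -/
theorem QIm.dist_le {M : RModel S Γ V k} {K : ℝ} {F F' : Γ → Γ} (h : M.QIm K F F') (g : Γ)
    {x x' : S} (hx : M.fl x' = F' (F (M.fl x) * g)) :
    (M.l (x⁻¹ * x') : ℝ) ≤ 2 * M.C0 + K + K * (M.l (M.inG g) + 1) := by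
  have h1 := M.fl_close x
  rw [M.l_comm] at h1
  have h2 := h.inv (M.fl x)
  have h3 := h.lip' (F (M.fl x)) g
  have h4 := M.fl_close x'
  rw [← hx] at h3
  rw [map_mul, map_inv] at h2 h3
  have t1 := M.l_triR x (M.inG (M.fl x)) x'
  have t2 := M.l_triR (M.inG (M.fl x)) (M.inG (F' (F (M.fl x)))) x'
  have t3 := M.l_triR (M.inG (F' (F (M.fl x)))) (M.inG (M.fl x')) x'
  linarith

/-- height of the image of the cell of `F' (F (fl x) * g)` -/
theorem QIm.f_eq {M : RModel S Γ V k} {K : ℝ} {F F' : Γ → Γ} (h : M.QIm K F F') (g : Γ)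
    {x x' : S} (hx : M.fl x' = F' (F (M.fl x) * g)) :
    ‖M.f F x' - M.f F x - M.θ (M.inG g)‖ ≤ M.C0 * K := by
  have hC0 : 0 ≤ M.C0 := zero_le_one.trans M.one_le_C0
  have h1 := h.inv' (F (M.fl x) * g)
  have e : M.f F x' - M.f F x - M.θ (M.inG g) =
      M.θ (M.inG ((F (M.fl x) * g)⁻¹ * F (F' (F (M.fl x) * g)))) := by
    rw [map_mul, map_inv, M.θ_inv_mul, map_mul, M.θ_mul]
    unfold f
    rw [hx]; abel
  rw [e]
  exact (M.θ_le _).trans (mul_le_mul_of_nonneg_left h1 hC0)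

/-- **INVT.** Linear parts are invertible at most points. `D₀` is any set of density `1 - ε` in `D`
on which `f` is affine at distances `≤ r`. -/
theorem invT (K : ℝ) : ∃ (c₁ ε₀ C r₀ : ℝ), 0 < c₁ ∧ 0 < ε₀ ∧ 0 ≤ C ∧
    ∀ r : ℝ, r₀ ≤ r → ∀ ε : ℝ, 0 ≤ ε → ε ≤ ε₀ → ∀ κ : ℝ, 0 ≤ κ →
    ∀ F F' : Γ → Γ, M.QIm K F F' → ∀ D Dp D₀ : Set S, M.Fat r κ D Dp → D₀ ⊆ D →
    MeasurableSet D₀ → M.μ (D \ D₀) ≤ ENNReal.ofReal ε * M.μ D →
    ∀ T : S → Ht k →L[ℝ] Ht k,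
    (∀ x ∈ D₀, ∀ x' ∈ D₀, (M.l (x⁻¹ * x') : ℝ) ≤ r →
      ‖M.f F x' - M.f F x - T x (M.θ (x⁻¹ * x'))‖ ≤ ε * r) →
    M.μ {x | x ∈ D₀ ∧ ¬ ∀ w, c₁ * ‖w‖ ≤ ‖T x w‖} ≤ ENNReal.ofReal (C * (ε + κ)) * M.μ D := by
  have hC0 : 0 ≤ M.C0 := zero_le_one.trans M.one_le_C0
  choose Cj hCj0 lift hlift using M.exists_lift
  -- the constants
  by_cases hK0 : K < 0
  · refine ⟨1, 1, 0, 0, one_pos, one_pos, le_rfl, fun r hr ε _ _ κ _ F F' h => ?_⟩
    exact absurd ((Nat.cast_nonneg (M.l (M.inG (1⁻¹ * F' (F 1)))) : (0:ℝ) ≤ _).trans (h.inv 1))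
      (not_le.2 hK0)
  push Not at hK0
  set C3 : ℝ := ∑ j, Cj j with hC3
  have hC30 : 0 ≤ C3 := Finset.sum_nonneg fun j _ => hCj0 j
  have hCle : ∀ j, Cj j ≤ C3 := fun j =>
    Finset.single_le_sum (f := Cj) (fun i _ => hCj0 i) (Finset.mem_univ j)
  -- scale `s = ⌊c r⌋`
  set c : ℝ := 1 / (2 * (K * C3 + 1)) with hc
  have hKC : 0 ≤ K * C3 := mul_nonneg hK0 hC30
  have hc0 : 0 < c := by positivity
  have hk0 : (0 : ℝ) ≤ k := Nat.cast_nonneg _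
  set R1 : ℝ := 2 * M.C0 + K + K * (C3 + 1) with hR1
  set m := M.mlt (2 * K) with hm
  have hmt : m ≠ ⊤ := M.mlt_ne_top _
  set B1 : ℝ := M.C0 * K + M.C0 * M.C0 with hB1
  have hB10 : 0 ≤ B1 := by positivity
  refine ⟨c / (4 * (k + 1) * (M.C0 + 1)), c / (8 * (k + 1)), (k * m.toReal ^ 2),
    2 * R1 + 2 / c + 1 + 8 * (k + 1) * B1 / c, by positivity, by positivity, by positivity, ?_⟩
  intro r hr ε hε hε0 κ hκ F F' h D Dp D₀ hD hD₀D hD₀m hD₀ T hT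
  have hRR : 0 ≤ R1 := by positivity
  have hr1 : 2 * R1 ≤ r := by
    have : 0 ≤ 2 / c := by positivity
    have : 0 ≤ 8 * (k + 1) * B1 / c := by positivity
    linarith
  have hr2 : 2 / c ≤ r := by
    have : 0 ≤ 8 * (k + 1) * B1 / c := by positivity
    linarith
  have hr3 : 8 * (k + 1) * B1 / c ≤ r := by
    have : 0 ≤ 2 / c := by positivity
    linarith
  have hr0 : 0 < r := lt_of_lt_of_le (by positivity) hr2
  set s : ℕ := ⌊c * r⌋₊ with hs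
  have hcr : 2 ≤ c * r := by
    rw [div_le_iff₀ hc0] at hr2; linarith
  have hs1 : (s : ℝ) ≤ c * r := Nat.floor_le (by positivity)
  have hs2 : c * r - 1 < s := by
    have := Nat.lt_floor_add_one (c * r); linarith
  have hs3 : c * r / 2 ≤ s := by linarith
  have hs0 : (0 : ℝ) < s := lt_of_lt_of_le (by positivity) hs3
  have hB1s : k * B1 * 4 ≤ c * r / 2 := by
    rw [div_le_iff₀ hc0] at hr3
    nlinarith
  -- lengths
  have hlen : ∀ j, 2 * M.C0 + K + K * (M.l (M.inG (lift j s)) + 1) ≤ r := by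
    intro j
    have h1 := (hlift j s).1
    have h2 : Cj j * (s + 1) ≤ C3 * (s + 1) := by gcongr; exact hCle j
    have h3 : K * (M.l (M.inG (lift j s)) + 1) ≤ K * (C3 * (s + 1) + 1) := by
      gcongr; linarith
    have h4 : K * C3 * s ≤ r / 2 := by
      calc K * C3 * s ≤ K * C3 * (c * r) := by gcongr
        _ = (K * C3 * c) * r := by ring
        _ ≤ (1 / 2) * r := by
            gcongr
            rw [hc, mul_one_div, div_le_div_iff₀ (by positivity) (by norm_num)]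
            nlinarith
        _ = _ := by ring
    nlinarith
  -- the bad set
  have hsub : {x | x ∈ D₀ ∧ ¬ ∀ w, c / (4 * (k + 1) * (M.C0 + 1)) * ‖w‖ ≤ ‖T x w‖} ⊆
      ⋃ j : Fin k, {x | M.fl ⁻¹' {F' (F (M.fl x) * lift j s)} ⊆ Dp \ D₀} := by
    rintro x ⟨hx, hbad⟩
    by_contra hcon
    rw [mem_iUnion] at hcon
    push Not at hcon
    refine hbad ?_
    have hex : ∀ j, ∃ x' ∈ D₀, M.fl x' = F' (F (M.fl x) * lift j s) := by
      intro j
      have h1 := hcon j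
      simp only [mem_setOf_eq, not_subset] at h1
      obtain ⟨x', hx', h2⟩ := h1
      have hx'' : M.fl x' = F' (F (M.fl x) * lift j s) := hx'
      have h3 := (h.dist_le _ hx'').trans (hlen j)
      have h4 := hD.sub x (hD₀D hx) (x⁻¹ * x') h3
      rw [mul_inv_cancel_left] at h4
      refine ⟨x', ?_, hx''⟩
      by_contra h5
      exact h2 ⟨h4, h5⟩
    choose x' hx' hfx' using hex
    have hd : ∀ j, (M.l (x⁻¹ * x' j) : ℝ) ≤ r := fun j => (h.dist_le _ (hfx' j)).trans (hlen j)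
    intro w
    have hkey := lower_of_approx (T x) (fun j => M.θ (x⁻¹ * x' j)) (s := s)
      (δ := ε * r + B1) (B := M.C0 * r) hs0 (fun j => ?_) (fun j => ?_) ?_ w
    · rw [div_mul_eq_mul_div, div_le_iff₀ (by positivity)]
      have h6 : c * r / 2 * ‖w‖ ≤ 2 * (k * (M.C0 * r)) * ‖T x w‖ :=
        (mul_le_mul_of_nonneg_right hs3 (norm_nonneg _)).trans hkey
      have h7 : r * (c * ‖w‖) ≤ r * (4 * (k * M.C0) * ‖T x w‖) := by
        nlinarith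
      have h8 := le_of_mul_le_mul_left h7 hr0
      have h9 : 4 * (k * M.C0) * ‖T x w‖ ≤ 4 * ((k + 1) * (M.C0 + 1)) * ‖T x w‖ := by
        gcongr <;> linarith
      linarith
    · exact (M.θ_le _).trans (mul_le_mul_of_nonneg_left (hd j) hC0)
    · have h6 := hT x hx (x' j) (hx' j) (hd j)
      have h7 := h.f_eq _ (hfx' j)
      have h8 := (hlift j s).2
      have e : T x (M.θ (x⁻¹ * x' j)) - Pi.single j (s : ℝ) =
          -(M.f F (x' j) - M.f F x - T x (M.θ (x⁻¹ * x' j))) +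
          (M.f F (x' j) - M.f F x - M.θ (M.inG (lift j s))) +
          (M.θ (M.inG (lift j s)) - Pi.single j (s : ℝ)) := by abel
      rw [e]
      refine (norm_add_le _ _).trans ((add_le_add (norm_add_le _ _) le_rfl).trans ?_)
      rw [norm_neg]
      linarith
    · have h6 : k * (ε * r) * 4 ≤ c * r / 2 := by
        rw [le_div_iff₀ (by positivity)] at hε0
        have h7 : k * ε * 8 ≤ c := by nlinarith
        nlinarith
      nlinarith
  refine (measure_mono hsub).trans ?_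
  refine (measure_iUnion_le _).trans ?_
  rw [tsum_fintype]
  have hone : ∀ j : Fin k, M.μ {x | M.fl ⁻¹' {F' (F (M.fl x) * lift j s)} ⊆ Dp \ D₀} ≤
      ENNReal.ofReal (m.toReal ^ 2 * (ε + κ)) * M.μ D := by
    intro j
    refine (h.pull2 _ _).trans ?_
    have h1 : M.μ (Dp \ D₀) ≤ ENNReal.ofReal (ε + κ) * M.μ D := by
      have hR0 : (0:ℝ) ≤ r := hr0.le
      have hDDp : D ⊆ Dp := by
        intro z hz
        have := hD.sub z hz 1 (by rw [M.len.one]; simpa using hR0)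
        rwa [mul_one] at this
      have h2 : M.μ (Dp \ D) ≤ ENNReal.ofReal κ * M.μ D := by
        rw [measure_sdiff hDDp hD.meas.nullMeasurableSet hD.fin]
        refine tsub_le_iff_right.2 (hD.le.trans ?_)
        rw [ENNReal.ofReal_add zero_le_one hκ, ENNReal.ofReal_one, add_mul, one_mul, add_comm]
      have h3 : Dp \ D₀ ⊆ (D \ D₀) ∪ (Dp \ D) := by
        rintro z ⟨hz, hz'⟩
        by_cases hzD : z ∈ D
        · exact Or.inl ⟨hzD, hz'⟩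
        · exact Or.inr ⟨hz, hzD⟩
      refine (measure_mono h3).trans ((measure_union_le _ _).trans ?_)
      rw [ENNReal.ofReal_add hε hκ, add_mul]
      exact add_le_add hD₀ h2
    have hm2 : m = ENNReal.ofReal m.toReal := (ENNReal.ofReal_toReal hmt).symm
    calc m * (m * M.μ (Dp \ D₀)) ≤ m * (m * (ENNReal.ofReal (ε + κ) * M.μ D)) := by gcongr
      _ = ENNReal.ofReal (m.toReal ^ 2 * (ε + κ)) * M.μ D := by
        rw [ENNReal.ofReal_mul (by positivity), ENNReal.ofReal_pow ENNReal.toReal_nonneg, ← hm2]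
        ring
  refine (Finset.sum_le_sum fun j _ => hone j).trans ?_
  rw [Finset.sum_const, Finset.card_univ, Fintype.card_fin, nsmul_eq_mul, ← mul_assoc]
  gcongr
  rw [← ENNReal.ofReal_natCast, ← ENNReal.ofReal_mul hk0]
  exact ENNReal.ofReal_le_ofReal (by linarith [mul_assoc (k : ℝ) (m.toReal ^ 2) (ε + κ)])

end RModel

end Vale.Agent.P188.Z1

end

section

/-!
# P188, Z1, block STRAIGHT

The statement `RModel.STRAIGHT` (of 616); the proof is in `Z1/LineA.lean` ..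
-/

set_option linter.all false

open MeasureTheory Set

namespace Vale.Agent.P188.Z1

namespace RModel

variable {S : Type} [Group S] [MeasurableSpace S] {Γ : Type} [Group Γ]
  {V : Type} [AddCommGroup V] [Module ℝ V] {k : ℕ} (M : RModel S Γ V k)

/-- the points of `D` at distance `r` from the complement -/
def In (r : ℝ) (D : Set S) : Set S := {x | ∀ g, (M.l g : ℝ) ≤ r → x * g ∈ D}

/-- **STRAIGHT** (owner 654; from COH, PEAK, NFp): `σ` is a measurable family of good labels, constant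
on most of the points connected by Cartan paths of length `≤ A s` or by class-dependent fat neutral
moves (size `e ^ (d s)`, `d` does not depend on `δ`), and `f` is affine along them, up to `ε s`. A
common scale for a finite family. The positions stay at distance `κ₁ s` from the boundary of `D`. -/
def STRAIGHT : Prop := ∀ (p : ℕ) (K : ℝ) (Φ₁ : Finset (Ht k →L[ℝ] ℝ)), M.Rays Φ₁ →
  ∀ V₁ : Finset (Fin k → ℤ), M.Dirs Φ₁ V₁ → ∃ (c₀ L : ℝ), 0 < c₀ ∧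
  ∀ (A B : ℕ) (ε κ₁ : ℝ), 0 < ε → 0 < κ₁ → ∃ (d κ₂ : ℝ), 0 < d ∧ 0 < κ₂ ∧
  ∀ κ₃ δ : ℝ, 0 < κ₃ → 0 < δ → ∃ (lam s₀ : ℝ), 0 < lam ∧
  ∃ T : ℕ → (V₁ → Set (Ht k →L[ℝ] ℝ)) → (Ht k →L[ℝ] Ht k),
  ∀ s : ℝ, s₀ ≤ s → ∀ (F F' : Fin p → Γ → Γ) (D Dp : Fin p → Set S),
  (∀ α, M.QIm K (F α) (F' α)) → (∀ α, M.FFat δ (κ₃ * s) κ₂ (D α) (Dp α)) →
  ∃ ρ : ℕ, lam * s ≤ ρ ∧ (ρ : ℝ) ≤ s ∧ ∀ α, ∃ σ : S → V₁ → Set (Ht k →L[ℝ] ℝ),
    (∀ a, MeasurableSet {z | σ z = a}) ∧ (∀ z, GoodLab Φ₁ V₁ c₀ L (T ρ (σ z)) (σ z)) ∧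
    (∀ n : ℕ, (n : ℝ) ≤ A * s → ∀ q : ℕ → S, q 0 = 1 → (∀ i < n, (q i)⁻¹ * q (i + 1) ∈ M.CB B) →
      ∀ Din : Set S, (∀ z ∈ Din, ∀ i ≤ n, z * q i ∈ M.In (κ₁ * s) (D α)) →
      M.μ {z | z ∈ Din ∧ (σ (z * q n) ≠ σ z ∨
        ∃ i ≤ n, ε * s < ‖M.f (F α) (z * q i) - M.f (F α) z - T ρ (σ z) (M.θ (q i))‖)} ≤
        ENNReal.ofReal ε * M.μ (D α)) ∧
    (∀ y : Multiplicative (Fin k → ℤ) → V, (∀ w, y w ∈ M.Vw 0 ∧ M.nm (y w) ≤ Real.exp (d * s)) →
      ∀ Din : Set S, (∀ z ∈ Din, ‖M.θ z‖ ≤ A * s ∧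
        ∀ x : ℝ, 0 ≤ x → x ≤ 1 → z * M.ex (x • y (M.η z)) ∈ M.In (κ₁ * s) (D α)) →
      M.μ {z | z ∈ Din ∧ (σ (z * M.ex (y (M.η z))) ≠ σ z ∨
        ε * s < ‖M.f (F α) (z * M.ex (y (M.η z))) - M.f (F α) z‖)} ≤
        ENNReal.ofReal ε * M.μ (D α))

end RModel

end Vale.Agent.P188.Z1

end

section

/-!
# P188, Z1, block FAT: calculus of the Cartan words `CB n` and of the fat balls `FB δ R`
-/

set_option linter.all false

open MeasureTheory Set Filter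
open scoped ENNReal
open Agent.P188.H428 (IsLen)
open Vale.Agent.P188.H530 (hgt hgt_mul)

namespace Vale.Agent.P188.Z1

/-- polynomials are dominated by exponentials -/
theorem ev_poly (A : ℝ) (m : ℕ) {ε : ℝ} (hε : 0 < ε) :
    ∀ᶠ R : ℝ in atTop, A * (1 + R) ^ m ≤ Real.exp (ε * R) := by
  filter_upwards [eventually_ge_atTop (1 : ℝ),
    eventually_ge_atTop (|A| * 2 ^ m * (m + 1).factorial / ε ^ (m + 1))] with R h1 h2
  have hR0 : 0 < R := by linarith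
  have h3 := Real.pow_div_factorial_le_exp (ε * R) (by positivity) (m + 1)
  refine le_trans ?_ h3
  rw [le_div_iff₀ (by positivity)]
  rw [div_le_iff₀ (by positivity)] at h2
  calc A * (1 + R) ^ m * (m + 1).factorial ≤ |A| * (2 * R) ^ m * (m + 1).factorial := by
        gcongr
        · exact le_abs_self A
        · linarith
    _ = (|A| * 2 ^ m * (m + 1).factorial) * R ^ m := by ring
    _ ≤ (R * ε ^ (m + 1)) * R ^ m := by gcongr
    _ = (ε * R) ^ (m + 1) := by ring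

/-- constants are dominated by exponentials -/
theorem ev_const (A : ℝ) {ε : ℝ} (hε : 0 < ε) :
    ∀ᶠ R : ℝ in atTop, A ≤ Real.exp (ε * R) := by
  filter_upwards [ev_poly A 0 hε] with R h
  simpa using h

namespace RModel

variable {S : Type} [Group S] [MeasurableSpace S] {Γ : Type} [Group Γ]
  {V : Type} [AddCommGroup V] [Module ℝ V] {k : ℕ} (M : RModel S Γ V k)

theorem C0_pos : 0 < M.C0 := zero_lt_one.trans_le M.one_le_C0

theorem nm_nonneg (v : V) : 0 ≤ M.nm v := apply_nonneg _ _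

theorem nm_neg (v : V) : M.nm (-v) = M.nm v := map_neg_eq_map _ _

/-! ### exponentials -/

theorem ex_neg (v : V) : M.ex (-v) = (M.ex v)⁻¹ := by
  have h := M.ex_add 1 (-1) v
  rw [add_neg_cancel, zero_smul, M.ex_zero, one_smul, neg_one_smul] at h
  exact (inv_eq_of_mul_eq_one_right h.symm).symm

theorem ex_nsmul (n : ℕ) (v : V) : M.ex ((n : ℝ) • v) = M.ex v ^ n := by
  induction n with
  | zero => simp [M.ex_zero]
  | succ n ih =>
    rw [Nat.cast_succ, M.ex_add, ih, one_smul, pow_succ]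

theorem θ_one : M.θ (1 : S) = 0 := by
  have := M.θ_mul 1 1
  rw [mul_one] at this
  simpa using this

theorem θ_ex (v : V) : M.θ (M.ex v) = 0 := by
  funext i
  simp [θ, hgt, M.η_ex]

theorem θ_τ (w : Fin k → ℤ) : M.θ (M.τ w) = fun i => (w i : ℝ) := by
  funext i
  simp [θ, hgt, M.η_τ]

theorem θ_of_η {x y : S} (h : M.η x = M.η y) : M.θ x = M.θ y := by
  funext i
  simp [θ, hgt, h]

/-! ### words in the Cartan group -/

theorem one_mem_CB (n : ℕ) : (1 : S) ∈ M.CB n := ⟨[], by simp, by simp, by simp⟩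

theorem CB_mono {m n : ℕ} (h : m ≤ n) : M.CB m ⊆ M.CB n := by
  rintro c ⟨L, h1, h2, h3⟩
  exact ⟨L, h1.trans h, h2, h3⟩

theorem CB_mul {m n : ℕ} {a b : S} (ha : a ∈ M.CB m) (hb : b ∈ M.CB n) :
    a * b ∈ M.CB (m + n) := by
  obtain ⟨L, h1, h2, h3⟩ := ha
  obtain ⟨L', h1', h2', h3'⟩ := hb
  refine ⟨L ++ L', by rw [List.length_append]; omega, by rw [List.prod_append, h2, h2'], ?_⟩
  intro x hx
  rcases List.mem_append.1 hx with hx | hx
  · exact h3 x hx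
  · exact h3' x hx

theorem CB_inv {n : ℕ} {a : S} (ha : a ∈ M.CB n) : a⁻¹ ∈ M.CB n := by
  obtain ⟨L, h1, h2, h3⟩ := ha
  refine ⟨(L.map fun x => x⁻¹).reverse, by simpa using h1, by
    rw [← h2, List.prod_inv_reverse], ?_⟩
  intro x hx
  rw [List.mem_reverse, List.mem_map] at hx
  obtain ⟨y, hy, rfl⟩ := hx
  rcases h3 y hy with ⟨v, hv, hv1, hv2⟩ | ⟨w, hw, hw2⟩
  · exact Or.inl ⟨-v, neg_mem hv, by rwa [M.nm_neg], by rw [M.ex_neg, hv2]⟩
  · refine Or.inr ⟨w, hw, ?_⟩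
    rcases hw2 with h | h
    · exact Or.inr (by rw [h])
    · exact Or.inl (by rw [← h, inv_inv])

theorem CB_pow {n : ℕ} {a : S} (ha : a ∈ M.CB n) (m : ℕ) : a ^ m ∈ M.CB (m * n) := by
  induction m with
  | zero => simpa using M.one_mem_CB _
  | succ m ih =>
    rw [pow_succ, Nat.succ_mul]
    exact M.CB_mul ih ha

theorem ex_mem_CB {y : V} (hy : y ∈ M.Vw 0) {n : ℕ} (hn : M.nm y ≤ n) : M.ex y ∈ M.CB n := by
  rcases Nat.eq_zero_or_pos n with rfl | h0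
  · have h1 : M.nm y = 0 := le_antisymm (by simpa using hn) (M.nm_nonneg y)
    rw [M.nm_zero y h1, M.ex_zero]
    exact M.one_mem_CB _
  · have hn0 : (0 : ℝ) < n := by exact_mod_cast h0
    have h1 : M.ex ((n : ℝ)⁻¹ • y) ∈ M.CB 1 := by
      refine ⟨[M.ex ((n : ℝ)⁻¹ • y)], by simp, by simp, ?_⟩
      intro a ha
      rw [List.mem_singleton] at ha
      subst ha
      refine Or.inl ⟨(n : ℝ)⁻¹ • y, Submodule.smul_mem _ _ hy, ?_, rfl⟩
      rw [map_smul_eq_mul, Real.norm_of_nonneg (by positivity), inv_mul_le_iff₀ hn0, mul_one]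
      exact hn
    have h2 := M.CB_pow h1 n
    rw [mul_one, ← M.ex_nsmul, smul_smul, mul_inv_cancel₀ hn0.ne', one_smul] at h2
    exact h2

/-- a neutral exponential is a Cartan word -/
theorem ex_mem_CB' {y : V} (hy : y ∈ M.Vw 0) : M.ex y ∈ M.CB ⌈M.nm y⌉₊ :=
  M.ex_mem_CB hy (Nat.le_ceil _)

theorem τ_mem_CB {w : Fin k → ℤ} {R : ℝ} (hR : 0 ≤ R) (hw : ∀ i, |(w i : ℝ)| ≤ R) :
    M.τ w ∈ M.CB ⌈M.C0 * (1 + R)⌉₊ := by
  refine M.CB_mono ?_ (M.τ_CB w)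
  refine Nat.ceil_mono (mul_le_mul_of_nonneg_left ?_ M.C0_pos.le)
  have : ‖(fun i => (w i : ℝ))‖ ≤ R := (pi_norm_le_iff_of_nonneg hR).2 hw
  linarith

/-- length of Cartan words -/
theorem l_CB : ∃ C : ℝ, 1 ≤ C ∧ ∀ n, ∀ c ∈ M.CB n, (M.l c : ℝ) ≤ C * n := by
  have hfin : (Icc (fun _ : Fin k => (-1 : ℤ)) (fun _ => 1)).Finite := Set.finite_Icc _ _
  obtain ⟨B, hB⟩ := (hfin.image fun w => (M.l (M.τ w) : ℝ)).bddAbove
  refine ⟨max (max B (2 * M.C0)) 1, le_max_right _ _, ?_⟩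
  have hone : ∀ a, ((∃ v ∈ M.Vw 0, M.nm v ≤ 1 ∧ M.ex v = a) ∨
      (∃ w : Fin k → ℤ, (∀ i, |w i| ≤ 1) ∧ (M.τ w = a ∨ (M.τ w)⁻¹ = a))) →
      (M.l a : ℝ) ≤ max (max B (2 * M.C0)) 1 := by
    intro a ha
    refine le_trans ?_ (le_max_left _ _)
    rcases ha with ⟨v, _, h1, rfl⟩ | ⟨w, hw, h⟩
    · refine le_trans ?_ (le_max_right _ _)
      refine (M.met_V v).trans ?_
      nlinarith [M.C0_pos]
    · refine le_trans ?_ (le_max_left _ _)
      have h1 : (M.l a : ℝ) = M.l (M.τ w) := by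
        rcases h with h | h
        · rw [h]
        · rw [← h, M.len.inv]
      rw [h1]
      refine hB ⟨w, ?_, rfl⟩
      rw [Set.mem_Icc, Pi.le_def, Pi.le_def]
      exact ⟨fun i => (abs_le.1 (hw i)).1, fun i => (abs_le.1 (hw i)).2⟩
  have hmain : ∀ L : List S, (∀ a ∈ L, (∃ v ∈ M.Vw 0, M.nm v ≤ 1 ∧ M.ex v = a) ∨
      (∃ w : Fin k → ℤ, (∀ i, |w i| ≤ 1) ∧ (M.τ w = a ∨ (M.τ w)⁻¹ = a))) →
      (M.l L.prod : ℝ) ≤ max (max B (2 * M.C0)) 1 * L.length := by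
    intro L
    induction L with
    | nil => intro _; simp [M.len.one]
    | cons a L ih =>
      intro h
      rw [List.prod_cons, List.length_cons]
      have h1 : (M.l (a * L.prod) : ℝ) ≤ M.l a + M.l L.prod := by exact_mod_cast M.len.mul _ _
      have h2 := hone a (h a (by simp))
      have h3 := ih fun b hb => h b (List.mem_cons_of_mem _ hb)
      push_cast
      linarith
  rintro n c ⟨L, h1, rfl, h3⟩
  refine (hmain L h3).trans ?_
  have : (L.length : ℝ) ≤ n := by exact_mod_cast h1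
  exact mul_le_mul_of_nonneg_left this (le_trans zero_le_one (le_max_right _ _))

theorem l_τ : ∃ C : ℝ, 1 ≤ C ∧ ∀ w : Fin k → ℤ, ∀ R : ℝ, 0 ≤ R → (∀ i, |(w i : ℝ)| ≤ R) →
    (M.l (M.τ w) : ℝ) ≤ C * (1 + R) := by
  obtain ⟨C, hC, h⟩ := M.l_CB
  refine ⟨C * (M.C0 + 1), by nlinarith [M.C0_pos], fun w R hR hw => ?_⟩
  refine (h _ _ (M.τ_mem_CB hR hw)).trans ?_
  have h1 : (⌈M.C0 * (1 + R)⌉₊ : ℝ) ≤ M.C0 * (1 + R) + 1 :=
    (Nat.ceil_lt_add_one (by have := M.C0_pos; positivity)).le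
  rw [mul_assoc]
  refine mul_le_mul_of_nonneg_left ?_ (by linarith)
  nlinarith [M.C0_pos]

/-- length of exponentials of vectors of `e` -/
theorem len_e {v : V} (hv : v ∈ M.e) {R : ℝ} (hR : 0 ≤ R) (h : M.nm v ≤ Real.exp R) :
    (M.l (M.ex v) : ℝ) ≤ 2 * M.C0 * (R + 1) := by
  refine (M.met_e v hv).trans ?_
  have h0 := M.nm_nonneg v
  have h1 : Real.log (1 + M.nm v) ≤ R + 1 := by
    rw [Real.log_le_iff_le_exp (by linarith), Real.exp_add]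
    have h2 : (2 : ℝ) ≤ Real.exp 1 := by have := Real.add_one_le_exp (1 : ℝ); linarith
    have h3 : 1 ≤ Real.exp R := Real.one_le_exp hR
    nlinarith
  have := M.C0_pos
  nlinarith

/-! ### neutral vectors -/

/-- product of neutral exponentials -/
theorem ex_mul0 {v w : V} (hv : v ∈ M.Vw 0) (hw : w ∈ M.Vw 0) :
    ∃ u ∈ M.Vw 0, M.ex u = M.ex v * M.ex w ∧ M.nm u ≤ M.C0 * (1 + M.nm v + M.nm w) ^ M.C0 := by
  obtain ⟨u, hu, hue, _⟩ := M.C_ker _ _ (M.CB_mul (M.ex_mem_CB' hv) (M.ex_mem_CB' hw))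
    (by rw [map_mul, M.η_ex, M.η_ex, mul_one])
  exact ⟨u, hu, hue, M.ex_mul_le v w u hue.symm⟩

/-- product of exponentials of vectors of `e` -/
theorem ex_mule {v w : V} (hv : v ∈ M.e) (hw : w ∈ M.e) :
    ∃ u ∈ M.e, M.ex u = M.ex v * M.ex w ∧ M.nm u ≤ M.C0 * (1 + M.nm v + M.nm w) ^ M.C0 := by
  obtain ⟨u, hu, hue⟩ := (M.mem_E _).1 (M.E.mul_mem ((M.mem_E _).2 ⟨v, hv, rfl⟩)
    ((M.mem_E _).2 ⟨w, hw, rfl⟩))
  exact ⟨u, hu, hue, M.ex_mul_le v w u hue.symm⟩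

theorem Ad_mem_e {v : V} (hv : v ∈ M.e) (s : S) : M.Ad s v ∈ M.e := by
  have h1 : M.ex (M.Ad s v) ∈ M.E := by
    rw [M.ex_Ad]
    exact M.E_normal.conj_mem _ ((M.mem_E _).2 ⟨v, hv, rfl⟩) _
  obtain ⟨u, hu, hue⟩ := (M.mem_E _).1 h1
  rwa [M.ex_inj hue] at hu

/-- Cartan words preserve weight spaces -/
theorem Ad_CB {n : ℕ} {c : S} (hc : c ∈ M.CB n) {b : Ht k →L[ℝ] ℝ} {v : V} (hv : v ∈ M.Vw b) :
    M.Ad c v ∈ M.Vw b := M.C_inv n c hc b v hv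

theorem Ad_ex_Vw {y : V} (hy : y ∈ M.Vw 0) {b : Ht k →L[ℝ] ℝ} {v : V} (hv : v ∈ M.Vw b) :
    M.Ad (M.ex y) v ∈ M.Vw b := M.Ad_CB (M.ex_mem_CB' hy) hv

/-- Cartan words on neutral vectors -/
theorem Ad_CB_0 {n : ℕ} {c : S} (hc : c ∈ M.CB n) {v : V} (hv : v ∈ M.Vw 0) :
    M.nm (M.Ad c v) ≤ M.C0 * (1 + n) ^ M.deg * M.nm v := by
  have := M.C_le n c hc 0 M.zero_mem_Wt v hv
  simpa using this

/-- the cocycle of `τ` -/
theorem τ_mul (w w' : Fin k → ℤ) {R : ℝ} (hR : 0 ≤ R) (hw : ∀ i, |(w i : ℝ)| ≤ R)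
    (hw' : ∀ i, |(w' i : ℝ)| ≤ R) :
    ∃ y ∈ M.Vw 0, M.τ w * M.τ w' = M.ex y * M.τ (w + w') ∧
      M.nm y ≤ M.C0 * (4 * (M.C0 + 1)) ^ M.deg * (1 + R) ^ M.deg := by
  have hw2 : ∀ i, |(((w + w') i : ℤ) : ℝ)| ≤ 2 * R := by
    intro i
    rw [Pi.add_apply]; push_cast
    refine (abs_add_le _ _).trans ?_
    linarith [hw i, hw' i]
  have h1 := M.CB_mul (M.CB_mul (M.τ_mem_CB hR hw) (M.τ_mem_CB hR hw'))
    (M.CB_inv (M.τ_mem_CB (by positivity) hw2))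
  obtain ⟨y, hy, hye, hyn⟩ := M.C_ker _ _ h1 (by
    rw [map_mul, map_mul, map_inv, M.η_τ, M.η_τ, M.η_τ, ofAdd_add, mul_inv_cancel])
  refine ⟨y, hy, by rw [hye]; group, hyn.trans ?_⟩
  rw [mul_assoc, ← mul_pow]
  have hC := M.C0_pos
  refine mul_le_mul_of_nonneg_left ?_ hC.le
  refine pow_le_pow_left₀ (by positivity) ?_ _
  have e1 := (Nat.ceil_lt_add_one (show 0 ≤ M.C0 * (1 + R) by positivity)).le
  have e2 := (Nat.ceil_lt_add_one (show 0 ≤ M.C0 * (1 + 2 * R) by positivity)).le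
  push_cast
  nlinarith [mul_nonneg hC.le hR]

theorem τ_inv (w : Fin k → ℤ) {R : ℝ} (hR : 0 ≤ R) (hw : ∀ i, |(w i : ℝ)| ≤ R) :
    ∃ y ∈ M.Vw 0, (M.τ w)⁻¹ = M.ex y * M.τ (-w) ∧
      M.nm y ≤ M.C0 * (4 * (M.C0 + 1)) ^ M.deg * (1 + R) ^ M.deg := by
  have hw2 : ∀ i, |(((-w) i : ℤ) : ℝ)| ≤ R := by
    intro i
    rw [Pi.neg_apply]; push_cast
    rw [abs_neg]; exact hw i
  have h1 := M.CB_mul (M.CB_inv (M.τ_mem_CB hR hw)) (M.CB_inv (M.τ_mem_CB hR hw2))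
  obtain ⟨y, hy, hye, hyn⟩ := M.C_ker _ _ h1 (by
    rw [map_mul, map_inv, map_inv, M.η_τ, M.η_τ, ofAdd_neg]; simp)
  refine ⟨y, hy, by rw [hye]; group, hyn.trans ?_⟩
  rw [mul_assoc, ← mul_pow]
  have hC := M.C0_pos
  refine mul_le_mul_of_nonneg_left ?_ hC.le
  refine pow_le_pow_left₀ (by positivity) ?_ _
  have e1 := (Nat.ceil_lt_add_one (show 0 ≤ M.C0 * (1 + R) by positivity)).le
  push_cast
  nlinarith [mul_nonneg hC.le hR]

/-! ### the neutral-Cartan part of fat balls -/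

/-- products `ex y * τ w` -/
def PB (B R : ℝ) : Set S :=
  {g | ∃ y ∈ M.Vw 0, M.nm y ≤ B ∧ ∃ w : Fin k → ℤ, (∀ i, |(w i : ℝ)| ≤ R) ∧ g = M.ex y * M.τ w}

theorem PB_mono {B B' R R' : ℝ} (hB : B ≤ B') (hR : R ≤ R') : M.PB B R ⊆ M.PB B' R' := by
  rintro g ⟨y, hy, h1, w, h2, rfl⟩
  exact ⟨y, hy, h1.trans hB, w, fun i => (h2 i).trans hR, rfl⟩

theorem mem_FB {δ R : ℝ} {g : S} : g ∈ M.FB δ R ↔
    ∃ v ∈ M.e, M.nm v ≤ Real.exp R ∧ ∃ p ∈ M.PB (Real.exp (δ * R)) R, g = M.ex v * p := by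
  constructor
  · rintro ⟨v, hv, h1, y, hy, h2, w, h3, rfl⟩
    exact ⟨v, hv, h1, M.ex y * M.τ w, ⟨y, hy, h2, w, h3, rfl⟩, by rw [mul_assoc]⟩
  · rintro ⟨v, hv, h1, p, ⟨y, hy, h2, w, h3, rfl⟩, rfl⟩
    exact ⟨v, hv, h1, y, hy, h2, w, h3, by rw [mul_assoc]⟩

theorem FB_mono {δ δ' R R' : ℝ} (hR : R ≤ R') (h : δ * R ≤ δ' * R') :
    M.FB δ R ⊆ M.FB δ' R' := by
  rintro g ⟨v, hv, h1, y, hy, h2, w, h3, rfl⟩
  exact ⟨v, hv, h1.trans (Real.exp_le_exp.2 hR), y, hy, h2.trans (Real.exp_le_exp.2 h), w,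
    fun i => (h3 i).trans hR, rfl⟩

theorem FB_mono' {δ δ' R R' : ℝ} (hδ : 0 ≤ δ) (hR0 : 0 ≤ R) (hR : R ≤ R') (h : δ ≤ δ') :
    M.FB δ R ⊆ M.FB δ' R' :=
  M.FB_mono hR (mul_le_mul h hR hR0 (hδ.trans h))

/-- product of neutral exponentials, exponential form -/
theorem ev_mul0 : ∃ C : ℝ, 1 ≤ C ∧ ∀ δ : ℝ, 0 < δ → ∀ᶠ R : ℝ in atTop, ∀ v ∈ M.Vw 0, ∀ w ∈ M.Vw 0,
    M.nm v ≤ Real.exp (δ * R) → M.nm w ≤ Real.exp (δ * R) →
    ∃ u ∈ M.Vw 0, M.ex u = M.ex v * M.ex w ∧ M.nm u ≤ Real.exp (C * δ * R) := by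
  refine ⟨M.C0 + 1, by linarith [M.C0_pos], fun δ hδ => ?_⟩
  filter_upwards [eventually_ge_atTop (0 : ℝ), ev_const (M.C0 * 3 ^ M.C0) hδ] with R hR h v hv w hw
    h1 h2
  obtain ⟨u, hu, hue, hun⟩ := M.ex_mul0 hv hw
  refine ⟨u, hu, hue, hun.trans ?_⟩
  have e0 : 1 ≤ Real.exp (δ * R) := Real.one_le_exp (by positivity)
  have e1 : 1 + M.nm v + M.nm w ≤ 3 * Real.exp (δ * R) := by linarith
  have n1 := M.nm_nonneg v
  have n2 := M.nm_nonneg w
  calc M.C0 * (1 + M.nm v + M.nm w) ^ M.C0 ≤ M.C0 * (3 * Real.exp (δ * R)) ^ M.C0 := by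
        refine mul_le_mul_of_nonneg_left ?_ M.C0_pos.le
        exact Real.rpow_le_rpow (by positivity) e1 M.C0_pos.le
    _ = (M.C0 * 3 ^ M.C0) * Real.exp (M.C0 * (δ * R)) := by
        rw [Real.mul_rpow (by norm_num) (by positivity), ← Real.exp_mul]
        ring_nf
    _ ≤ Real.exp (δ * R) * Real.exp (M.C0 * (δ * R)) := by gcongr
    _ = Real.exp ((M.C0 + 1) * δ * R) := by rw [← Real.exp_add]; ring_nf

/-- product of exponentials of vectors of `e`, exponential form -/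
theorem ev_mule : ∃ C : ℝ, 1 ≤ C ∧ ∀ A : ℝ, 0 < A → ∀ᶠ R : ℝ in atTop, ∀ v ∈ M.e, ∀ w ∈ M.e,
    M.nm v ≤ Real.exp (A * R) → M.nm w ≤ Real.exp (A * R) →
    ∃ u ∈ M.e, M.ex u = M.ex v * M.ex w ∧ M.nm u ≤ Real.exp (C * A * R) := by
  refine ⟨M.C0 + 1, by linarith [M.C0_pos], fun δ hδ => ?_⟩
  filter_upwards [eventually_ge_atTop (0 : ℝ), ev_const (M.C0 * 3 ^ M.C0) hδ] with R hR h v hv w hw
    h1 h2
  obtain ⟨u, hu, hue, hun⟩ := M.ex_mule hv hw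
  refine ⟨u, hu, hue, hun.trans ?_⟩
  have e0 : 1 ≤ Real.exp (δ * R) := Real.one_le_exp (by positivity)
  have e1 : 1 + M.nm v + M.nm w ≤ 3 * Real.exp (δ * R) := by linarith
  have n1 := M.nm_nonneg v
  have n2 := M.nm_nonneg w
  calc M.C0 * (1 + M.nm v + M.nm w) ^ M.C0 ≤ M.C0 * (3 * Real.exp (δ * R)) ^ M.C0 := by
        refine mul_le_mul_of_nonneg_left ?_ M.C0_pos.le
        exact Real.rpow_le_rpow (by positivity) e1 M.C0_pos.le
    _ = (M.C0 * 3 ^ M.C0) * Real.exp (M.C0 * (δ * R)) := by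
        rw [Real.mul_rpow (by norm_num) (by positivity), ← Real.exp_mul]
        ring_nf
    _ ≤ Real.exp (δ * R) * Real.exp (M.C0 * (δ * R)) := by gcongr
    _ = Real.exp ((M.C0 + 1) * δ * R) := by rw [← Real.exp_add]; ring_nf

/-- `τ w` acts on neutral vectors polynomially -/
theorem ev_Adτ0 {ε : ℝ} (hε : 0 < ε) : ∀ᶠ R : ℝ in atTop, ∀ w : Fin k → ℤ,
    (∀ i, |(w i : ℝ)| ≤ R) → ∀ y ∈ M.Vw 0, M.Ad (M.τ w) y ∈ M.Vw 0 ∧
      M.Ad (M.τ w)⁻¹ y ∈ M.Vw 0 ∧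
      M.nm (M.Ad (M.τ w) y) ≤ Real.exp (ε * R) * M.nm y ∧
      M.nm (M.Ad (M.τ w)⁻¹ y) ≤ Real.exp (ε * R) * M.nm y := by
  filter_upwards [eventually_ge_atTop (0 : ℝ),
    ev_poly (M.C0 * (M.C0 + 2) ^ M.deg) M.deg hε] with R hR h w hw y hy
  have hC := M.C0_pos
  have e1 := (Nat.ceil_lt_add_one (show 0 ≤ M.C0 * (1 + R) by positivity)).le
  have e2 : M.C0 * (1 + (⌈M.C0 * (1 + R)⌉₊ : ℝ)) ^ M.deg ≤ Real.exp (ε * R) := by
    refine le_trans ?_ h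
    rw [mul_assoc, ← mul_pow]
    refine mul_le_mul_of_nonneg_left ?_ hC.le
    refine pow_le_pow_left₀ (by positivity) ?_ _
    nlinarith
  have m1 := M.τ_mem_CB hR hw
  have m2 := M.CB_inv m1
  refine ⟨M.Ad_CB m1 hy, M.Ad_CB m2 hy, ?_, ?_⟩
  · exact (M.Ad_CB_0 m1 hy).trans (mul_le_mul_of_nonneg_right e2 (M.nm_nonneg _))
  · exact (M.Ad_CB_0 m2 hy).trans (mul_le_mul_of_nonneg_right e2 (M.nm_nonneg _))

theorem PB_mul : ∃ C : ℝ, 1 ≤ C ∧ ∀ δ : ℝ, 0 < δ → ∀ᶠ R : ℝ in atTop,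
    ∀ g ∈ M.PB (Real.exp (δ * R)) R, ∀ g' ∈ M.PB (Real.exp (δ * R)) R,
    g * g' ∈ M.PB (Real.exp (C * δ * R)) (2 * R) := by
  obtain ⟨C, hC, hmul⟩ := M.ev_mul0
  refine ⟨C * (2 * C), by nlinarith, fun δ hδ => ?_⟩
  filter_upwards [eventually_ge_atTop (0 : ℝ), hmul (2 * δ) (by positivity),
    hmul (C * (2 * δ)) (by positivity), M.ev_Adτ0 hδ,
    ev_poly (M.C0 * (4 * (M.C0 + 1)) ^ M.deg) M.deg hδ] with R hR h1 h2 h3 h4
  rintro g ⟨y, hy, hyn, w, hw, rfl⟩ g' ⟨y', hy', hyn', w', hw', rfl⟩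
  obtain ⟨z, hz, hze, hzn⟩ := M.τ_mul w w' hR hw hw'
  obtain ⟨a1, _, a2, _⟩ := h3 w hw y' hy'
  obtain ⟨u, hu, hue, hun⟩ := h1 y hy _ a1
    (hyn.trans (Real.exp_le_exp.2 (by nlinarith))) (a2.trans (by
      rw [show 2 * δ * R = δ * R + δ * R by ring, Real.exp_add]
      exact mul_le_mul_of_nonneg_left hyn' (Real.exp_pos _).le))
  obtain ⟨u', hu', hue', hun'⟩ := h2 u hu z hz hun
    (hzn.trans (h4.trans (Real.exp_le_exp.2 (by
      have : δ * R ≤ C * (2 * δ) * R := by nlinarith [mul_nonneg hδ.le hR]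
      exact this))))
  refine ⟨u', hu', hun'.trans (le_of_eq (by ring_nf)), w + w', fun i => ?_, ?_⟩
  · rw [Pi.add_apply]; push_cast
    refine (abs_add_le _ _).trans ?_
    linarith [hw i, hw' i]
  · rw [hue', hue, M.ex_Ad]
    have : M.ex z = M.τ w * M.τ w' * (M.τ (w + w'))⁻¹ := by rw [hze]; group
    rw [this]; group

theorem PB_inv : ∃ C : ℝ, 1 ≤ C ∧ ∀ δ : ℝ, 0 < δ → ∀ᶠ R : ℝ in atTop,
    ∀ g ∈ M.PB (Real.exp (δ * R)) R, g⁻¹ ∈ M.PB (Real.exp (C * δ * R)) R := by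
  obtain ⟨C, hC, hmul⟩ := M.ev_mul0
  refine ⟨2 * C, by nlinarith, fun δ hδ => ?_⟩
  filter_upwards [eventually_ge_atTop (0 : ℝ), hmul (2 * δ) (by positivity), M.ev_Adτ0 hδ,
    ev_poly (M.C0 * (4 * (M.C0 + 1)) ^ M.deg) M.deg hδ] with R hR h1 h3 h4
  rintro g ⟨y, hy, hyn, w, hw, rfl⟩
  obtain ⟨z, hz, hze, hzn⟩ := M.τ_inv w hR hw
  obtain ⟨_, a1, _, a2⟩ := h3 w hw (-y) (neg_mem hy)
  rw [M.nm_neg] at a2
  obtain ⟨u, hu, hue, hun⟩ := h1 _ a1 z hz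
    (a2.trans (by
      rw [show 2 * δ * R = δ * R + δ * R by ring, Real.exp_add]
      exact mul_le_mul_of_nonneg_left hyn (Real.exp_pos _).le))
    (hzn.trans (h4.trans (Real.exp_le_exp.2 (by nlinarith))))
  refine ⟨u, hu, hun.trans (le_of_eq (by ring_nf)), -w, fun i => ?_, ?_⟩
  · rw [Pi.neg_apply]; push_cast
    rw [abs_neg]; exact hw i
  · rw [hue, M.ex_Ad, M.ex_neg]
    have : M.ex z = (M.τ w)⁻¹ * (M.τ (-w))⁻¹ := by rw [hze]; group
    rw [this]; group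

/-- `Ad` of elements of `PB` on `e` -/
theorem ev_Ad_PB : ∃ C : ℝ, 1 ≤ C ∧ ∀ δ : ℝ, 0 < δ → δ ≤ 1 → ∀ᶠ R : ℝ in atTop,
    ∀ g ∈ M.PB (Real.exp (δ * R)) R, ∀ v,
    M.nm (M.Ad g v) ≤ Real.exp (C * R) * M.nm v ∧
    M.nm (M.Ad g⁻¹ v) ≤ Real.exp (C * R) * M.nm v := by
  obtain ⟨Cτ, hCτ, hτ⟩ := M.l_τ
  have hC := M.C0_pos
  refine ⟨M.C0 + M.C0 * Cτ + 1, by nlinarith [mul_nonneg hC.le (zero_le_one.trans hCτ)],
    fun δ hδ hδ1 => ?_⟩
  filter_upwards [eventually_ge_atTop (0 : ℝ),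
    ev_const (M.C0 * 2 ^ M.C0 * Real.exp (M.C0 * Cτ)) one_pos] with R hR h1
  rintro g ⟨y, hy, hyn, w, hw, rfl⟩ v
  have e0 : 1 ≤ Real.exp R := Real.one_le_exp hR
  have hyn' : M.nm y ≤ Real.exp R := hyn.trans (Real.exp_le_exp.2 (by nlinarith))
  have key : ∀ y' : V, M.nm y' ≤ Real.exp R → ∀ v', M.nm (M.Ad (M.ex y') v') ≤
      M.C0 * 2 ^ M.C0 * Real.exp (M.C0 * R) * M.nm v' := by
    intro y' hy' v'
    refine (M.Ad_ex_le y' v').trans (mul_le_mul_of_nonneg_right ?_ (M.nm_nonneg _))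
    rw [mul_assoc]
    refine mul_le_mul_of_nonneg_left ?_ hC.le
    have n1 := M.nm_nonneg y'
    calc (1 + M.nm y') ^ M.C0 ≤ (2 * Real.exp R) ^ M.C0 :=
          Real.rpow_le_rpow (by positivity) (by linarith) hC.le
      _ = _ := by
        rw [Real.mul_rpow (by norm_num) (by positivity), ← Real.exp_mul]
        ring_nf
  have key2 : ∀ v', M.nm (M.Ad (M.τ w) v') ≤ Real.exp (M.C0 * Cτ * (1 + R)) * M.nm v' := by
    intro v'
    refine (M.Ad_le _ v').trans (mul_le_mul_of_nonneg_right (Real.exp_le_exp.2 ?_)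
      (M.nm_nonneg _))
    rw [mul_assoc]
    exact mul_le_mul_of_nonneg_left (hτ w R hR hw) hC.le
  have key3 : ∀ v', M.nm (M.Ad (M.τ w)⁻¹ v') ≤ Real.exp (M.C0 * Cτ * (1 + R)) * M.nm v' := by
    intro v'
    refine (M.Ad_le _ v').trans (mul_le_mul_of_nonneg_right (Real.exp_le_exp.2 ?_)
      (M.nm_nonneg _))
    rw [mul_assoc, M.len.inv]
    exact mul_le_mul_of_nonneg_left (hτ w R hR hw) hC.le
  have fin : M.C0 * 2 ^ M.C0 * Real.exp (M.C0 * R) * Real.exp (M.C0 * Cτ * (1 + R)) ≤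
      Real.exp ((M.C0 + M.C0 * Cτ + 1) * R) := by
    calc _ = (M.C0 * 2 ^ M.C0 * Real.exp (M.C0 * Cτ)) *
          Real.exp ((M.C0 + M.C0 * Cτ) * R) := by
          rw [show M.C0 * Cτ * (1 + R) = M.C0 * Cτ + M.C0 * Cτ * R by ring, Real.exp_add,
            show (M.C0 + M.C0 * Cτ) * R = M.C0 * R + M.C0 * Cτ * R by ring, Real.exp_add]
          ring
      _ ≤ Real.exp (1 * R) * Real.exp ((M.C0 + M.C0 * Cτ) * R) := by gcongr
      _ = _ := by rw [← Real.exp_add]; ring_nf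
  have hv0 := M.nm_nonneg v
  constructor
  · rw [map_mul, Module.End.mul_apply]
    refine (key y hyn' _).trans ?_
    calc _ ≤ M.C0 * 2 ^ M.C0 * Real.exp (M.C0 * R) *
          (Real.exp (M.C0 * Cτ * (1 + R)) * M.nm v) := by
          refine mul_le_mul_of_nonneg_left (key2 v) (by positivity)
      _ = (M.C0 * 2 ^ M.C0 * Real.exp (M.C0 * R) * Real.exp (M.C0 * Cτ * (1 + R))) * M.nm v := by
          ring
      _ ≤ _ := mul_le_mul_of_nonneg_right fin hv0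
  · rw [mul_inv_rev, map_mul, Module.End.mul_apply, ← M.ex_neg]
    refine (key3 _).trans ?_
    calc _ ≤ Real.exp (M.C0 * Cτ * (1 + R)) *
          (M.C0 * 2 ^ M.C0 * Real.exp (M.C0 * R) * M.nm v) := by
          refine mul_le_mul_of_nonneg_left (key (-y) (by rwa [M.nm_neg]) v) (by positivity)
      _ = (M.C0 * 2 ^ M.C0 * Real.exp (M.C0 * R) * Real.exp (M.C0 * Cτ * (1 + R))) * M.nm v := by
          ring
      _ ≤ _ := mul_le_mul_of_nonneg_right fin hv0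

/-- **Products of fat balls.** -/
theorem fb_mul : ∃ C : ℝ, 1 ≤ C ∧ ∀ δ : ℝ, 0 < δ → δ ≤ 1 → ∀ᶠ R : ℝ in atTop,
    ∀ g ∈ M.FB δ R, ∀ g' ∈ M.FB δ R, g * g' ∈ M.FB (C * δ) (C * R) := by
  obtain ⟨C1, hC1, hP⟩ := M.PB_mul
  obtain ⟨C2, hC2, hA⟩ := M.ev_Ad_PB
  obtain ⟨C3, hC3, hE⟩ := M.ev_mule
  refine ⟨max C1 (C3 * (C2 + 1) + 2), le_max_of_le_left hC1, fun δ hδ hδ1 => ?_⟩
  set C := max C1 (C3 * (C2 + 1) + 2) with hCdef
  have c1 : C1 ≤ C := le_max_left _ _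
  have c2 : C3 * (C2 + 1) + 2 ≤ C := le_max_right _ _
  have hC1' : 1 ≤ C := hC1.trans c1
  filter_upwards [eventually_ge_atTop (0 : ℝ), hP δ hδ, hA δ hδ hδ1,
    hE (C2 + 1) (by positivity)] with R hR h1 h2 h3 g hg g' hg'
  rw [mem_FB] at hg hg' ⊢
  obtain ⟨v, hv, hvn, p, hp, rfl⟩ := hg
  obtain ⟨v', hv', hvn', p', hp', rfl⟩ := hg'
  have h4 := (h2 p hp v').1
  obtain ⟨u, hu, hue, hun⟩ := h3 v hv _ (M.Ad_mem_e hv' p)
    (hvn.trans (Real.exp_le_exp.2 (by nlinarith))) (h4.trans (by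
      rw [show (C2 + 1) * R = C2 * R + R by ring, Real.exp_add]
      exact mul_le_mul_of_nonneg_left hvn' (Real.exp_pos _).le))
  refine ⟨u, hu, hun.trans (Real.exp_le_exp.2 ?_), p * p', ?_, ?_⟩
  · have : C3 * (C2 + 1) ≤ C := by linarith
    exact mul_le_mul_of_nonneg_right this hR
  · refine M.PB_mono (Real.exp_le_exp.2 ?_) ?_ (h1 p hp p' hp')
    · have e1 : C1 * δ * R ≤ C * δ * R := by gcongr
      have e2 : 0 ≤ C * δ * R := by positivity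
      nlinarith
    · have : (2 : ℝ) ≤ C := by nlinarith
      exact mul_le_mul_of_nonneg_right this hR
  · rw [hue, M.ex_Ad]; group

/-- **Inverses.** -/
theorem fb_inv : ∃ C : ℝ, 1 ≤ C ∧ ∀ δ : ℝ, 0 < δ → δ ≤ 1 → ∀ᶠ R : ℝ in atTop,
    ∀ g ∈ M.FB δ R, g⁻¹ ∈ M.FB (C * δ) (C * R) := by
  obtain ⟨C1, hC1, hP⟩ := M.PB_inv
  obtain ⟨C2, hC2, hA⟩ := M.ev_Ad_PB
  refine ⟨max C1 (C2 + 1), le_max_of_le_left hC1, fun δ hδ hδ1 => ?_⟩
  set C := max C1 (C2 + 1) with hCdef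
  have c1 : C1 ≤ C := le_max_left _ _
  have c2 : C2 + 1 ≤ C := le_max_right _ _
  have hC1' : 1 ≤ C := hC1.trans c1
  filter_upwards [eventually_ge_atTop (0 : ℝ), hP δ hδ, hA δ hδ hδ1] with R hR h1 h2 g hg
  rw [mem_FB] at hg ⊢
  obtain ⟨v, hv, hvn, p, hp, rfl⟩ := hg
  refine ⟨M.Ad p⁻¹ (-v), M.Ad_mem_e (neg_mem hv) _, ?_, p⁻¹, ?_, ?_⟩
  · refine ((h2 p hp (-v)).2).trans ?_
    rw [M.nm_neg]
    calc Real.exp (C2 * R) * M.nm v ≤ Real.exp (C2 * R) * Real.exp R := by gcongr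
      _ = Real.exp ((C2 + 1) * R) := by rw [← Real.exp_add]; ring_nf
      _ ≤ _ := Real.exp_le_exp.2 (mul_le_mul_of_nonneg_right c2 hR)
  · refine M.PB_mono (Real.exp_le_exp.2 ?_) ?_ (h1 p hp)
    · have e1 : C1 * δ * R ≤ C * δ * R := by gcongr
      have e2 : 0 ≤ C * δ * R := by positivity
      nlinarith
    · nlinarith
  · rw [M.ex_Ad, M.ex_neg]; group

/-- **Balls are contained in fat balls.** -/
theorem fb_of_len : ∃ C : ℝ, 1 ≤ C ∧ ∀ δ : ℝ, 0 < δ → ∀ᶠ R : ℝ in atTop,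
    ∀ g, (M.l g : ℝ) ≤ R → g ∈ M.FB δ (C * R) := by
  obtain ⟨C1, hC1, hl⟩ := M.l_CB
  have hC := M.C0_pos
  -- `n ≤ C0 R + 1`, `l c ≤ C1 (C0 R + 1)`, `l (ex v) ≤ R + C1 (C0 R + 1)`
  set A : ℝ := M.C0 * (2 + C1 * (M.C0 + 1)) + C1 * M.C0 * (M.C0 + 1) + 1 with hA
  have hA1 : 1 ≤ A := by
    rw [hA]
    have : 0 ≤ M.C0 * (2 + C1 * (M.C0 + 1)) + C1 * M.C0 * (M.C0 + 1) := by positivity
    linarith
  refine ⟨A, hA1, fun δ hδ => ?_⟩
  filter_upwards [eventually_ge_atTop (1 : ℝ),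
    ev_poly (M.C0 * (M.C0 + 1 + (M.C0 * (1 + A) + 1)) ^ M.deg) M.deg hδ] with R hR h1 g hg
  have hR0 : 0 < R := by linarith
  obtain ⟨v, hv, c, hc, rfl⟩ := M.dec g
  obtain ⟨n, hn⟩ : ∃ n : ℕ, n = ⌈M.C0 * (M.l (M.ex v * c) : ℝ)⌉₊ := ⟨_, rfl⟩
  rw [← hn] at hc
  have hnR : (n : ℝ) ≤ (M.C0 + 1) * R := by
    rw [hn]
    have e1 := (Nat.ceil_lt_add_one (show 0 ≤ M.C0 * (M.l (M.ex v * c) : ℝ) by positivity)).le
    have e2 : M.C0 * (M.l (M.ex v * c) : ℝ) ≤ M.C0 * R := mul_le_mul_of_nonneg_left hg hC.le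
    nlinarith
  have hlc : (M.l c : ℝ) ≤ C1 * ((M.C0 + 1) * R) := (hl n c hc).trans
    (mul_le_mul_of_nonneg_left hnR (by linarith))
  have hlv : (M.l (M.ex v) : ℝ) ≤ R + C1 * ((M.C0 + 1) * R) := by
    have h2 : M.l (M.ex v * c * c⁻¹) ≤ M.l (M.ex v * c) + M.l c⁻¹ := M.len.mul _ _
    rw [mul_inv_cancel_right, M.len.inv] at h2
    have h3 : (M.l (M.ex v) : ℝ) ≤ M.l (M.ex v * c) + M.l c := by exact_mod_cast h2
    linarith
  have hvn : M.nm v ≤ Real.exp (A * R) := by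
    refine (M.met_lo v).trans (Real.exp_le_exp.2 ?_)
    rw [hA]
    have h2 : M.C0 * (1 + (M.l (M.ex v) : ℝ)) ≤ M.C0 * (R + (R + C1 * ((M.C0 + 1) * R))) := by
      refine mul_le_mul_of_nonneg_left ?_ hC.le
      linarith
    have h3 : 0 ≤ C1 * M.C0 * (M.C0 + 1) * R := by positivity
    nlinarith
  -- heights
  obtain ⟨w, hw⟩ : ∃ w : Fin k → ℤ, w = Multiplicative.toAdd (M.η c) := ⟨_, rfl⟩
  have hwc : M.η (M.τ w) = M.η c := by rw [M.η_τ, hw, ofAdd_toAdd]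
  have hwR : ∀ i, |(w i : ℝ)| ≤ A * R := by
    intro i
    have h2 : ‖M.θ c‖ ≤ M.C0 * (C1 * ((M.C0 + 1) * R)) :=
      (M.θ_le c).trans (mul_le_mul_of_nonneg_left hlc hC.le)
    have h3 : |(w i : ℝ)| ≤ ‖M.θ c‖ := by
      have : M.θ c i = (w i : ℝ) := by rw [hw]; rfl
      rw [← this]
      exact norm_le_pi_norm (M.θ c) i
    refine h3.trans (h2.trans ?_)
    rw [hA]
    have h4 : 0 ≤ M.C0 * (2 + C1 * (M.C0 + 1)) * R := by positivity
    nlinarith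
  have hAR : 0 ≤ A * R := by positivity
  obtain ⟨y, hy, hye, hyn⟩ := M.C_ker _ _ (M.CB_mul hc (M.CB_inv (M.τ_mem_CB hAR hwR))) (by
    rw [map_mul, map_inv, hwc, mul_inv_cancel])
  refine ⟨v, hv, hvn, y, hy, ?_, w, hwR, ?_⟩
  · refine hyn.trans (le_trans ?_ (h1.trans (Real.exp_le_exp.2 ?_)))
    · rw [mul_assoc, ← mul_pow]
      refine mul_le_mul_of_nonneg_left ?_ hC.le
      refine pow_le_pow_left₀ (by positivity) ?_ _
      have e1 := (Nat.ceil_lt_add_one (show 0 ≤ M.C0 * (1 + A * R) by positivity)).le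
      push_cast
      nlinarith [mul_nonneg hC.le (zero_le_one.trans hA1)]
    · have e3 : R ≤ A * R := by nlinarith
      exact mul_le_mul_of_nonneg_left e3 hδ.le
  · rw [mul_assoc, hye]; group

/-! ### measurability and the Lipschitz property of the height function -/

theorem measurable_of_fl {β : Type*} [MeasurableSpace β] (φ : Γ → β) :
    Measurable fun z => φ (M.fl z) := by
  intro B _
  have : (fun z => φ (M.fl z)) ⁻¹' B = M.cells (φ ⁻¹' B) := rfl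
  rw [this]
  exact M.measurableSet_cells _

theorem measurable_f (F : Γ → Γ) : Measurable (M.f F) :=
  M.measurable_of_fl fun g => M.θ (M.inG (F g))

theorem measurable_θ : Measurable M.θ := by
  have h : ∀ B : Set (Ht k), M.θ ⁻¹' B =
      ⋃ w ∈ {w : Multiplicative (Fin k → ℤ) |
        (fun i => (Multiplicative.toAdd w i : ℝ)) ∈ B}, {x | M.η x = w} := by
    intro B
    ext x
    simp only [mem_preimage, mem_iUnion, mem_setOf_eq, exists_prop, exists_eq_right']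
    rfl
  intro B _
  rw [h B]
  have : Countable (Multiplicative (Fin k → ℤ)) := Multiplicative.ofAdd.symm.injective.countable
  exact MeasurableSet.biUnion (Set.to_countable _) fun w _ => M.η_meas w

theorem QIm.K_nonneg {M : RModel S Γ V k} {K : ℝ} {F F' : Γ → Γ} (h : M.QIm K F F') : 0 ≤ K :=
  (Nat.cast_nonneg _).trans (h.inv 1)

theorem QIm.f_lip {M : RModel S Γ V k} {K : ℝ} {F F' : Γ → Γ} (h : M.QIm K F F') (x s : S) :
    ‖M.f F (x * s) - M.f F x‖ ≤ M.C0 * K * (2 * M.C0 + 1) * (M.l s + 1) := by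
  have hC := M.C0_pos
  have hK := h.K_nonneg
  obtain ⟨y, hy⟩ : ∃ y, y = (M.fl x)⁻¹ * M.fl (x * s) := ⟨_, rfl⟩
  have hy' : M.fl (x * s) = M.fl x * y := by rw [hy]; group
  have h1 := h.lip (M.fl x) y
  have h2 : (M.l (M.inG y) : ℝ) ≤ M.l s + 2 * M.C0 := by
    have t1 := M.fl_close x
    have t2 := M.fl_close (x * s)
    have t3 := M.l_triR (M.inG (M.fl x)) x (M.inG (M.fl (x * s)))
    have t4 := M.l_triR x (x * s) (M.inG (M.fl (x * s)))
    rw [M.l_comm (x * s), inv_mul_cancel_left] at t4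
    rw [hy, map_mul, map_inv]
    linarith
  have h3 : M.f F (x * s) - M.f F x = M.θ (M.inG ((F (M.fl x))⁻¹ * F (M.fl x * y))) := by
    rw [map_mul, map_inv, M.θ_inv_mul, ← hy']; rfl
  rw [h3]
  refine (M.θ_le _).trans ?_
  calc M.C0 * (M.l (M.inG ((F (M.fl x))⁻¹ * F (M.fl x * y))) : ℝ)
      ≤ M.C0 * (K * (M.l (M.inG y) + 1)) := by gcongr
    _ ≤ M.C0 * (K * (M.l s + 2 * M.C0 + 1)) := by gcongr
    _ ≤ M.C0 * (K * ((2 * M.C0 + 1) * (M.l s + 1))) := by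
        gcongr
        have : (0 : ℝ) ≤ M.l s := Nat.cast_nonneg _
        nlinarith
    _ = _ := by ring

/-! ### almost invariant sets -/

variable {M}

theorem Fat.mono {R R' κ κ' : ℝ} {D Dp : Set S} (h : M.Fat R κ D Dp) (hR : R' ≤ R) (hκ : κ ≤ κ') :
    M.Fat R' κ' D Dp :=
  ⟨h.meas, h.meas', h.pos, h.fin, fun z hz g hg => h.sub z hz g (hg.trans hR),
    h.le.trans (by gcongr)⟩

theorem FFat.mono {δ δ' R R' κ κ' : ℝ} {D Dp : Set S} (h : M.FFat δ R κ D Dp) (hR : R' ≤ R)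
    (hδ : δ' * R' ≤ δ * R) (hκ : κ ≤ κ') : M.FFat δ' R' κ' D Dp :=
  { h.toFat.mono hR hκ with
    subf := fun z hz g hg => h.subf z hz g (M.FB_mono hR hδ hg) }

theorem Fat.sdiff_le {R κ : ℝ} {D Dp : Set S} (h : M.Fat R κ D Dp) (hR : 0 ≤ R) (hκ : 0 ≤ κ) :
    M.μ (Dp \ D) ≤ ENNReal.ofReal κ * M.μ D := by
  have hDDp : D ⊆ Dp := by
    intro z hz
    have := h.sub z hz 1 (by rw [M.len.one]; simpa using hR)
    rwa [mul_one] at this
  rw [measure_sdiff hDDp h.meas.nullMeasurableSet h.fin]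
  refine tsub_le_iff_right.2 (h.le.trans ?_)
  rw [ENNReal.ofReal_add zero_le_one hκ, ENNReal.ofReal_one, add_mul, one_mul, add_comm]

/-- almost invariance under a right translation -/
theorem fol_of_sub {R κ : ℝ} {D Dp : Set S} (h : M.Fat R κ D Dp) (hR : 0 ≤ R) (hκ : 0 ≤ κ)
    {w : S} (hw : ∀ z ∈ D, z * w ∈ Dp) :
    M.μ {x | x ∈ D ∧ x * w ∉ D} ≤ ENNReal.ofReal κ * M.μ D := by
  haveI := M.mm
  refine le_trans ?_ (h.sdiff_le hR hκ)
  rw [← (M.mp w).measure_preimage (h.meas'.diff h.meas).nullMeasurableSet]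
  exact measure_mono fun x hx => ⟨hw x hx.1, hx.2⟩

theorem Fat.fol {R κ : ℝ} {D Dp : Set S} (h : M.Fat R κ D Dp) (hR : 0 ≤ R) (hκ : 0 ≤ κ)
    {w : S} (hw : (M.l w : ℝ) ≤ R) :
    M.μ {x | x ∈ D ∧ x * w ∉ D} ≤ ENNReal.ofReal κ * M.μ D :=
  fol_of_sub h hR hκ fun z hz => h.sub z hz w hw

theorem FFat.folf {δ R κ : ℝ} {D Dp : Set S} (h : M.FFat δ R κ D Dp) (hR : 0 ≤ R) (hκ : 0 ≤ κ)
    {w : S} (hw : w ∈ M.FB δ R) :
    M.μ {x | x ∈ D ∧ x * w ∉ D} ≤ ENNReal.ofReal κ * M.μ D :=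
  fol_of_sub h.toFat hR hκ fun z hz => h.subf z hz w hw

end RModel

end Vale.Agent.P188.Z1

end
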