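import Vale.Agent.P188.R.G072
import Vale.Agent.P188.R.G029

section

/-!
The group `S / E` has subexponential growth: final form.
-/

open Finset Filter Topology Pointwise
open scoped commutatorElement

universe u v

namespace Vale.Agent.P188.H615

open Vale.Agent.P188.H796

theorem num3 {κ u : ℝ} (hκ : 0 < κ) (R : ℕ) (hu : u = (R + 1) * Real.exp (κ * R)) (K : ℕ) :
    u ^ K ≤ (1 + 1 / κ) ^ K * Real.exp (2 * κ * K * R) := by
  have hRn : (0 : ℝ) ≤ R := Nat.cast_nonneg R
  have h1 : κ * R + 1 ≤ Real.exp (κ * R) := Real.add_one_le_exp _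
  have h2 : (R : ℝ) + 1 ≤ (1 + 1 / κ) * Real.exp (κ * R) := by
    calc (R : ℝ) + 1 ≤ (1 + 1 / κ) * (κ * R + 1) := by
          have e1 : (1 + 1 / κ) * (κ * R + 1) = κ * R + 1 + R + 1 / κ := by
            field_simp; ring
          rw [e1]
          have : 0 ≤ κ * R := by positivity
          have : 0 < 1 / κ := by positivity
          linarith
      _ ≤ _ := mul_le_mul_of_nonneg_left h1 (by positivity)
  have h3 : u ≤ (1 + 1 / κ) * Real.exp (2 * κ * R) := by
    rw [hu]
    calc ((R : ℝ) + 1) * Real.exp (κ * R) ≤ ((1 + 1 / κ) * Real.exp (κ * R)) * Real.exp (κ * R) :=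
          mul_le_mul_of_nonneg_right h2 (Real.exp_pos _).le
      _ = (1 + 1 / κ) * Real.exp (2 * κ * R) := by
          rw [mul_assoc, ← Real.exp_add]; congr 2; ring
  have hu0 : 0 ≤ u := by rw [hu]; positivity
  refine (pow_le_pow_left₀ hu0 h3 K).trans (le_of_eq ?_)
  rw [mul_pow, ← Real.exp_nat_mul]
  congr 2
  ring

theorem num4 {m Cq C2 M0 u B C' : ℝ} {k p r : ℕ} (hu1 : 1 ≤ u) (hB1 : 1 ≤ B) (hC' : 0 ≤ C')
    (hB : B = m * (Cq ^ k * (C2 * M0 * u ^ 2) ^ k)) :
    u ^ p * (2 * (C' * B ^ 2 + 1) + 1) ^ r ≤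
      ((2 * C' + 3) * (m * (Cq ^ k * (C2 * M0) ^ k)) ^ 2) ^ r * u ^ (p + 4 * k * r) := by
  have hB2 : B = (m * (Cq ^ k * (C2 * M0) ^ k)) * u ^ (2 * k) := by
    rw [hB, mul_pow, ← pow_mul]; ring
  have h1 : 2 * (C' * B ^ 2 + 1) + 1 ≤ (2 * C' + 3) * B ^ 2 := by nlinarith
  have h0 : 0 ≤ 2 * (C' * B ^ 2 + 1) + 1 := by positivity
  have h2 : (2 * (C' * B ^ 2 + 1) + 1) ^ r ≤
      ((2 * C' + 3) * (m * (Cq ^ k * (C2 * M0) ^ k)) ^ 2) ^ r * u ^ (4 * k * r) := by
    refine (pow_le_pow_left₀ h0 h1 r).trans (le_of_eq ?_)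
    rw [hB2]
    generalize m * (Cq ^ k * (C2 * M0) ^ k) = β
    have e1 : (2 * C' + 3) * (β * u ^ (2 * k)) ^ 2 = ((2 * C' + 3) * β ^ 2) * u ^ (4 * k) := by
      rw [mul_pow, ← pow_mul]; ring
    rw [e1, mul_pow _ (u ^ (4 * k)) r, ← pow_mul]
  calc u ^ p * (2 * (C' * B ^ 2 + 1) + 1) ^ r
      ≤ u ^ p * (((2 * C' + 3) * (m * (Cq ^ k * (C2 * M0) ^ k)) ^ 2) ^ r * u ^ (4 * k * r)) :=
        mul_le_mul_of_nonneg_left h2 (by positivity)
    _ = _ := by rw [pow_add]; ring

section main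

variable {Γ : Type u} [Group Γ] {N : Subgroup Γ} [hN : N.Normal] {d n : ℕ} {D : MB N d n}

/-- **decomposition of balls into `e^{εR}` pieces** -/
theorem pieces {l : D.S → ℕ} {T : Finset D.S} {ρ : ℝ} (hl : Lt D l T ρ) {e : LieIdeal ℝ D.R.V}
    (hcomm : ∀ s s' : D.S, ⁅s, s'⁆ ∈ (D.inN : D.R.NR →* D.S).range)
    (hE2 : ∀ (S : Finset D.S) (ε : ℝ), 0 < ε → ∃ q : Seminorm ℝ D.R.V, (∀ x, q x = 0 ↔ x ∈ e) ∧
      ∀ g ∈ S, ∀ x, q (D.AdE g x) ≤ Real.exp ε * q x) : Pieces D l e := by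
  classical
  obtain ⟨p, a, haT', haT⟩ := enum (D := D) T
  obtain ⟨C1, hC1⟩ := hl.short
  obtain ⟨r, φ, σ, hφ, hσ⟩ := exists_coord e.toSubmodule
  obtain ⟨C2, hC21, hC2⟩ := exists_C2 D
  obtain ⟨Cs, hCs0, hCs⟩ := sem_le ((sn D.R).comp σ)
  have hCσ : ∀ y, ‖((σ y : D.R.V) : D.Alg)‖ ≤ max 1 Cs * ‖y‖ := by
    intro y
    exact (hCs y).trans (mul_le_mul_of_nonneg_right (le_max_right _ _) (norm_nonneg _))
  refine ⟨max 1 C1, fun ε hε => ?_⟩
  set K : ℕ := p + 4 * D.R.m * r with hK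
  set κ : ℝ := ε / (2 * (K + 1)) with hκ
  have hK0 : (0 : ℝ) ≤ K := Nat.cast_nonneg K
  have hκ0 : 0 < κ := by positivity
  obtain ⟨q, hq0, hq⟩ := hE2 (T.image fun x => x⁻¹) κ hκ0
  obtain ⟨Cq, hCq1, hCq⟩ := sem_lie (R := D.R) q hq0
  obtain ⟨Cc, hCc1, hCc', hCc⟩ := sem_coord hφ hσ q hq0
  obtain ⟨M0, hM01, hρM, hS⟩ := sortD_US hcomm q hκ0.le (a := a) (p := p) (by
    intro i hi x
    exact hq _ (Finset.mem_image_of_mem _ (haT' i hi)) x) ρ
  have hQ : QC D e φ σ q Cq Cc (max 1 Cs) C2 :=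
    ⟨hφ, hσ, hCσ, le_max_left _ _, hCq1, hCq, hCc1, hCc, hCc', hC21, hC2⟩
  have hm1 : (1 : ℝ) ≤ D.R.m := by exact_mod_cast D.R.hm0
  refine ⟨((2 * (Cc ^ 3 * C2 * max 1 Cs) + 3) *
    (D.R.m * (Cq ^ D.R.m * (C2 * M0) ^ D.R.m)) ^ 2) ^ r * (1 + 1 / κ) ^ K, fun R => ?_⟩
  have hRn : (0 : ℝ) ≤ R := Nat.cast_nonneg R
  set u : ℝ := (R + 1) * Real.exp (κ * R) with hu
  set B : ℝ := D.R.m * (Cq ^ D.R.m * (C2 * M0 * u ^ 2) ^ D.R.m) with hB
  obtain ⟨P, hP1, hP2, hP3⟩ := hQ.pieces hl haT hκ0.le hM01 hρM hS hC1 R hu hB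
  obtain ⟨_, _, hB1⟩ := num1 hm1 hCq1 hC21 hM01 hκ0.le R hu hB
  have hexp1 : 1 ≤ Real.exp (κ * R) := Real.one_le_exp (by positivity)
  have hu1 : 1 ≤ u := by rw [hu]; nlinarith
  have hC'0 : 0 ≤ Cc ^ 3 * C2 * max 1 Cs := by
    have : 0 ≤ Cc ^ 3 := pow_nonneg (by linarith) 3
    exact mul_nonneg (mul_nonneg this (by linarith)) (by positivity)
  refine ⟨P, ?_, ?_, ?_⟩
  · refine hP1.trans ((num4 (p := p) (r := r) hu1 hB1 hC'0 hB).trans ?_)
    rw [mul_assoc _ ((1 + 1 / κ) ^ K)]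
    refine mul_le_mul_of_nonneg_left ?_ (pow_nonneg (by positivity) r)
    refine (num3 hκ0 R hu K).trans ?_
    refine mul_le_mul_of_nonneg_left ?_ (by positivity)
    refine Real.exp_le_exp.2 ?_
    refine mul_le_mul_of_nonneg_right ?_ hRn
    rw [hκ, ← mul_div_assoc, div_mul_eq_mul_div, div_le_iff₀ (by positivity)]
    nlinarith
  · intro x hx
    have h1 := hP2 x hx
    have h2 : 1 ≤ max 1 C1 := le_max_left _ _
    nlinarith
  · intro s hs
    obtain ⟨x, hx, X, hX, b, h1, h2⟩ := hP3 s hs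
    exact ⟨x, hx, X, hX, b, h1, h2.trans (le_max_right _ _)⟩

end main

end Vale.Agent.P188.H615

end

section

/-!
Letters in the Lie algebra: universal relations and bounded generation.
-/

open Finset Filter Topology Pointwise

namespace Vale.Agent.P188.H615

open Vale.Agent.P188.H796 Vale.Agent.P188.H329

section letters

variable {N : Type} [Group N] {d n : ℕ} {D : MB N d n} {A : Type} [NormedRing A]
  [NormedAlgebra ℝ A] [FiniteDimensional ℝ A] {R : RD D A} {ι : Type}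

theorem nil_V (X : ι → R.V) : Nil (fun i => (X i : A)) R.m := by
  intro w hw
  have h1 : ∀ w : List ι, (w.map fun i => (X i : A)).prod ∈ R.J ^ w.length := by
    intro w
    induction w with
    | nil =>
      rw [List.map_nil, List.prod_nil, List.length_nil, pow_zero]
      exact Submodule.mem_one.2 ⟨1, map_one _⟩
    | cons i w ih =>
      rw [List.map_cons, List.prod_cons, List.length_cons, pow_succ']
      exact Submodule.mul_mem_mul (R.V_le_J (X i).2) ih
  have h2 := h1 w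
  obtain ⟨k, hk⟩ := Nat.exists_eq_add_of_le hw.le
  rw [hk, pow_add, R.J_pow, Submodule.bot_mul] at h2
  exact (Submodule.mem_bot ℝ).1 h2

theorem rexp_V (v : R.V) : rexp (R.m + 1) (v : A) = R.toA (R.Ex v) := by
  rw [R.toA_Ex]
  unfold rexp ex
  rw [sum_range_succ, V_pow, smul_zero, add_zero]

theorem xu_V (X : ι → R.V) (i : ι) (x : ℝ) :
    ((xu (nil_V X) i x : Aˣ) : A) = R.toA (R.Ex (x • X i)) := by
  rw [xu_val, ← rexp_V]
  rfl

/-- universal relations for letters -/
theorem relV [Finite ι] (X : ι → R.V) : Rel ι R.m (fun i x => R.Ex (x • X i)) := by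
  refine Rel.of_map R.toA (fun a b h => R.toA_inj h) ?_
  have h1 := (Rel.units (nil_V X)).map (Units.coeHom A)
  have h2 : (fun i x => (Units.coeHom A) (xu (nil_V X) i x)) =
      fun i x => R.toA (R.Ex (x • X i)) := by
    funext i x
    exact xu_V X i x
  rw [h2] at h1
  exact h1

/-- the Lie algebra generated by the letters is spanned by their iterated brackets -/
theorem lieSpan_le_br [Finite ι] (X : ι → R.V) {v : R.V}
    (hv : v ∈ LieSubalgebra.lieSpan ℝ R.V (Set.range X)) :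
    ∃ y : UW ι R.m → ℝ, ∑ w : UW ι R.m, y w • br (fun i => (X i : A)) w.val = (v : A) := by
  set e : ι → A := fun i => (X i : A) with he
  let W : LieSubalgebra ℝ R.V :=
    { (⨆ k, Lay e k : Submodule ℝ A).comap R.V.subtype with
      lie_mem' := by
        intro x y hx hy
        change ((⁅x, y⁆ : R.V) : A) ∈ (⨆ k, Lay e k : Submodule ℝ A)
        rw [R.coe_bracket]
        have hx' : (x : A) ∈ (⨆ k, Lay e k : Submodule ℝ A) := hx
        have hy' : (y : A) ∈ (⨆ k, Lay e k : Submodule ℝ A) := hy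
        revert hx' hy'
        generalize (x : A) = a
        generalize (y : A) = b
        intro ha hb
        induction ha using Submodule.iSup_induction' with
        | mem i a ha =>
          induction hb using Submodule.iSup_induction' with
          | mem j b hb => exact Submodule.mem_iSup_of_mem (i + j) (lay_lie e ha hb)
          | zero => simp
          | add b c _ _ hb hc =>
            have : a * (b + c) - (b + c) * a = (a * b - b * a) + (a * c - c * a) := by
              noncomm_ring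
            rw [this]
            exact Submodule.add_mem _ hb hc
        | zero => simp
        | add a c _ _ ha hc =>
          have : (a + c) * b - b * (a + c) = (a * b - b * a) + (c * b - b * c) := by
            noncomm_ring
          rw [this]
          exact Submodule.add_mem _ ha hc }
  have h1 : LieSubalgebra.lieSpan ℝ R.V (Set.range X) ≤ W := by
    refine LieSubalgebra.lieSpan_le.2 ?_
    rintro _ ⟨i, rfl⟩
    exact Submodule.mem_iSup_of_mem 1 (Submodule.subset_span ⟨[i], rfl, rfl⟩)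
  have h2 : (v : A) ∈ (⨆ k, Lay e k : Submodule ℝ A) := h1 hv
  let T : (UW ι R.m → ℝ) →ₗ[ℝ] A :=
    ∑ w : UW ι R.m, (LinearMap.proj w : (UW ι R.m → ℝ) →ₗ[ℝ] ℝ).smulRight (br e w.val)
  have hT : ∀ y, T y = ∑ w : UW ι R.m, y w • br e w.val := by
    intro y
    simp only [T, LinearMap.sum_apply, LinearMap.smulRight_apply, LinearMap.proj_apply]
  have h3 : (⨆ k, Lay e k : Submodule ℝ A) ≤ LinearMap.range T := by
    refine iSup_le fun k => ?_
    refine Submodule.span_le.2 ?_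
    rintro _ ⟨w, hw, rfl⟩
    by_cases hk : w.length ≤ R.m
    · classical
      refine ⟨Pi.single ⟨w, hk⟩ 1, ?_⟩
      rw [hT, Finset.sum_eq_single (⟨w, hk⟩ : UW ι R.m)]
      · rw [Pi.single_eq_same, one_smul]
      · intro u _ hu
        rw [Pi.single_eq_of_ne hu, zero_smul]
      · intro h; exact absurd (mem_univ _) h
    · have hb : br e w ∈ R.J ^ w.length := by
        clear hw hk
        induction w with
        | nil => simp [br]
        | cons i w ih =>
          cases w with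
          | nil =>
            simp only [br, List.length_cons, List.length_nil, zero_add, pow_one]
            exact R.V_le_J (X i).2
          | cons j w =>
            simp only [br]
            refine Submodule.sub_mem _ ?_ ?_
            · rw [List.length_cons, pow_succ']
              exact Submodule.mul_mem_mul (R.V_le_J (X i).2) ih
            · rw [List.length_cons, pow_succ]
              exact Submodule.mul_mem_mul ih (R.V_le_J (X i).2)
      push Not at hk
      obtain ⟨k', hk'⟩ := Nat.exists_eq_add_of_le hk.le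
      rw [hk', pow_add, R.J_pow, Submodule.bot_mul] at hb
      have : br e w = 0 := (Submodule.mem_bot ℝ).1 hb
      simp only [SetLike.mem_coe]
      rw [this]
      exact Submodule.zero_mem _
  obtain ⟨y, hy⟩ := h3 h2
  exact ⟨y, by rw [← hT, hy]⟩

theorem poly_const {K : ℕ} {C : ℝ} (hC : 0 ≤ C) : ∃ K' : ℕ, ∀ t : ℝ, 0 ≤ t →
    (K : ℝ) * (1 + C * t) ^ K ≤ K' * (1 + t) ^ K' := by
  refine ⟨⌈(K : ℝ) * (1 + C) ^ K⌉₊ + K, fun t ht => ?_⟩
  have h1 : (1 + C * t) ^ K ≤ ((1 + C) * (1 + t)) ^ K := by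
    refine pow_le_pow_left₀ (by positivity) ?_ K
    nlinarith
  have h2 : (K : ℝ) * (1 + C) ^ K ≤ ((⌈(K : ℝ) * (1 + C) ^ K⌉₊ + K : ℕ) : ℝ) := by
    push_cast
    have := Nat.le_ceil ((K : ℝ) * (1 + C) ^ K)
    have h0 : (0 : ℝ) ≤ K := Nat.cast_nonneg K
    linarith
  calc (K : ℝ) * (1 + C * t) ^ K ≤ K * ((1 + C) * (1 + t)) ^ K :=
        mul_le_mul_of_nonneg_left h1 (Nat.cast_nonneg K)
    _ = (K * (1 + C) ^ K) * (1 + t) ^ K := by rw [mul_pow]; ring
    _ ≤ ((⌈(K : ℝ) * (1 + C) ^ K⌉₊ + K : ℕ) : ℝ) * (1 + t) ^ (⌈(K : ℝ) * (1 + C) ^ K⌉₊ + K) := by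
        refine mul_le_mul h2 ?_ (by positivity) (Nat.cast_nonneg _)
        exact pow_le_pow_right₀ (by linarith) (by omega)

/-- **bounded generation with polynomial control** -/
theorem genV [Finite ι] (X : ι → R.V) (W : Submodule ℝ R.V)
    (hW : ∀ v ∈ W, v ∈ LieSubalgebra.lieSpan ℝ R.V (Set.range X)) :
    ∃ (m : ℕ) (J : Fin m → ι) (K : ℕ), ∀ v ∈ W, ∃ x : Fin m → ℝ,
      (∀ t, |x t| ≤ K * (1 + ‖(v : A)‖) ^ K) ∧
      R.Ex v = (List.ofFn fun t => R.Ex (x t • X (J t))).prod := by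
  classical
  obtain ⟨m, J, K, x, _, hx, hgen⟩ := gen ι R.m
  set e : ι → A := fun i => (X i : A) with he
  let T : (UW ι R.m → ℝ) →ₗ[ℝ] A :=
    ∑ w : UW ι R.m, (LinearMap.proj w : (UW ι R.m → ℝ) →ₗ[ℝ] ℝ).smulRight (br e w.val)
  have hT : ∀ y, T y = ∑ w : UW ι R.m, y w • br e w.val := by
    intro y
    simp only [T, LinearMap.sum_apply, LinearMap.smulRight_apply, LinearMap.proj_apply]
  obtain ⟨g, hg⟩ := LinearMap.exists_rightInverse_of_surjective T.rangeRestrict
    (LinearMap.range_eq_top.2 T.surjective_rangeRestrict)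
  obtain ⟨G, hG⟩ := LinearMap.exists_extend g
  obtain ⟨K', hK'⟩ := poly_const (K := K)
    (norm_nonneg (LinearMap.toContinuousLinearMap G))
  refine ⟨m, J, K', fun v hv => ?_⟩
  obtain ⟨y0, hy0⟩ := lieSpan_le_br X (hW v hv)
  have hvr : (v : A) ∈ LinearMap.range T := ⟨y0, by rw [hT, hy0]⟩
  have hTG : T (G (v : A)) = (v : A) := by
    have h1 : G (v : A) = g ⟨(v : A), hvr⟩ := by rw [← hG]; rfl
    have h2 := LinearMap.congr_fun hg ⟨(v : A), hvr⟩
    have h3 : T (g ⟨(v : A), hvr⟩) = (v : A) := congrArg Subtype.val h2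
    rw [h1, h3]
  refine ⟨x (G (v : A)), fun t => ?_, ?_⟩
  · refine (hx _ t).trans ?_
    have h1 := (LinearMap.toContinuousLinearMap G).le_opNorm (v : A)
    have h2 : (LinearMap.toContinuousLinearMap G) (v : A) = G (v : A) := rfl
    rw [h2] at h1
    refine le_trans ?_ (hK' ‖(v : A)‖ (norm_nonneg _))
    refine mul_le_mul_of_nonneg_left ?_ (Nat.cast_nonneg K)
    exact pow_le_pow_left₀ (by positivity) (by linarith) K
  · have h1 := hgen A e (nil_V X) (G (v : A))
    rw [← hT, hTG, rexp_V] at h1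
    apply R.toA_inj
    rw [h1, prS, map_list_prod]
    have h2 := map_list_prod (Units.coeHom A)
      (List.ofFn fun t => xu (nil_V X) (J t) (x (G (v : A)) t))
    rw [Units.coeHom_apply] at h2
    rw [h2, List.map_ofFn, List.map_ofFn]
    congr 2
    funext t
    exact xu_V X (J t) _

end letters

end Vale.Agent.P188.H615

end

section

/-!
Natural boxes generated by letters.
-/

open Finset Filter Topology Pointwise

namespace Vale.Agent.P188.H615

open Vale.Agent.P188.H796 Vale.Agent.P188.H329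

section nbp

variable {N : Type} [Group N] {d n : ℕ} {D : MB N d n} {A : Type} [NormedRing A]
  [NormedAlgebra ℝ A] [FiniteDimensional ℝ A] {R : RD D A} {ι : Type} [Fintype ι]

/-- the cube of letters of sizes `r` -/
def LB (X : ι → R.V) (r : ι → ℝ) : Set R.V :=
  {v | ∃ y : ι → ℝ, (∀ i, |y i| ≤ 1) ∧ v = ∑ i, y i • r i • X i}

theorem csy_LB (X : ι → R.V) (r : ι → ℝ) : CSy (LB X r) where
  conv := by
    rintro _ ⟨y, hy, rfl⟩ _ ⟨z, hz, rfl⟩ a b ha hb hab
    refine ⟨fun i => a * y i + b * z i, fun i => ?_, ?_⟩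
    · refine (abs_add_le _ _).trans ?_
      rw [abs_mul, abs_mul, abs_of_nonneg ha, abs_of_nonneg hb]
      have := hy i
      have := hz i
      nlinarith
    · rw [smul_sum, smul_sum, ← sum_add_distrib]
      refine sum_congr rfl fun i _ => ?_
      rw [add_smul, mul_smul, mul_smul]
  zero := ⟨fun _ => 0, by simp, by simp⟩
  neg := by
    rintro _ ⟨y, hy, rfl⟩
    refine ⟨fun i => -y i, fun i => by rw [abs_neg]; exact hy i, ?_⟩
    rw [← sum_neg_distrib]
    exact sum_congr rfl fun i _ => by rw [neg_smul]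

theorem mem_LB_of_le (X : ι → R.V) {r : ι → ℝ} (a : ι → ℝ)
    (ha : ∀ i, |a i| ≤ r i) : ∑ i, a i • X i ∈ LB X r := by
  refine ⟨fun i => a i / r i, fun i => ?_, ?_⟩
  · have h0 : 0 ≤ r i := (abs_nonneg _).trans (ha i)
    rw [abs_div, abs_of_nonneg h0]
    exact div_le_one_of_le₀ (ha i) h0
  · refine sum_congr rfl fun i _ => ?_
    have h0 : 0 ≤ r i := (abs_nonneg _).trans (ha i)
    rcases h0.eq_or_lt with h | h
    · have h1 := ha i
      rw [← h] at h1 ⊢
      have h2 : a i = 0 := abs_nonpos_iff.1 h1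
      rw [h2]; simp
    · rw [smul_smul, div_mul_cancel₀ _ h.ne']

theorem letter_LB [DecidableEq ι] (X : ι → R.V) {r : ι → ℝ} (h0 : ∀ i, 0 ≤ r i) {i : ι} {x : ℝ}
    (hx : |x| ≤ r i) : x • X i ∈ LB X r := by
  have h1 := mem_LB_of_le X (r := r) (Pi.single i x) (fun j => by
    by_cases hj : j = i
    · subst hj; rw [Pi.single_eq_same]; exact hx
    · rw [Pi.single_eq_of_ne hj, abs_zero]; exact h0 j)
  rw [Finset.sum_eq_single i] at h1
  · rwa [Pi.single_eq_same] at h1
  · intro j _ hj; rw [Pi.single_eq_of_ne hj, zero_smul]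
  · intro h; exact absurd (mem_univ _) h

theorem map_LB (X : ι → R.V) {r r' : ι → ℝ} (φ : R.V →ₗ[ℝ] R.V)
    (h : ∀ i, ∃ a : ι → ℝ, φ (r i • X i) = ∑ j, a j • X j ∧
      ∀ j, |a j| * Fintype.card ι ≤ r' j) : ∀ v ∈ LB X r, φ v ∈ LB X r' := by
  classical
  rintro _ ⟨y, hy, rfl⟩
  choose a ha hb using h
  have h1 : φ (∑ i, y i • r i • X i) = ∑ j, (∑ i, y i * a i j) • X j := by
    rw [map_sum]
    have h2 : ∀ i ∈ (univ : Finset ι), φ (y i • r i • X i) = ∑ j, (y i * a i j) • X j := by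
      intro i _
      rw [map_smul, ha, smul_sum]
      exact sum_congr rfl fun j _ => by rw [smul_smul]
    rw [sum_congr rfl h2, sum_comm]
    exact sum_congr rfl fun j _ => by rw [sum_smul]
  rw [h1]
  refine mem_LB_of_le X _ fun j => ?_
  rcases isEmpty_or_nonempty ι with hE | hE
  · exact (hE.false j).elim
  · have hN : (0 : ℝ) < Fintype.card ι := by exact_mod_cast Fintype.card_pos
    refine (abs_sum_le_sum_abs _ _).trans ?_
    have h3 : ∀ i ∈ (univ : Finset ι), |y i * a i j| ≤ r' j / Fintype.card ι := by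
      intro i _
      rw [abs_mul, le_div_iff₀ hN]
      have h4 := hb i j
      have h5 := hy i
      have h6 : |y i| * |a i j| ≤ |a i j| := by
        have := abs_nonneg (a i j)
        nlinarith
      nlinarith
    refine (sum_le_sum h3).trans (le_of_eq ?_)
    rw [sum_const, nsmul_eq_mul, card_univ]
    field_simp

/-! ### compactness -/

end nbp

end Vale.Agent.P188.H615

end
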