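import Vale.Agent.P188.R.G065
import Vale.Agent.P188.R.G014
import Vale.Agent.P188.R.G083
import Vale.Agent.P188.R.G001
import Vale.Agent.P188.R.G063

section

/-!
The group `E = exp e` in `S`: lower central series and bounded generation by commutators.
-/

open Finset Filter Topology Pointwise
open scoped commutatorElement

universe u v

namespace Vale.Agent.P188.H615

open Vale.Agent.P188.H796 Agent.P188.H428

section linear

variable {N : Type u} [Group N] {d n : ℕ} {D : MB N d n} {A : Type v} [NormedRing A]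
  [NormedAlgebra ℝ A] [FiniteDimensional ℝ A] (R : RD D A)

theorem lin_bound (f : R.V →ₗ[ℝ] R.V) : ∃ C : ℝ, 0 ≤ C ∧ ∀ v, ‖((f v : R.V) : A)‖ ≤ C * ‖(v : A)‖ := by
  obtain ⟨g, hg⟩ := LinearMap.exists_extend (R.V.subtype.comp f)
  refine ⟨‖LinearMap.toContinuousLinearMap g‖, norm_nonneg _, fun v => ?_⟩
  have h1 := (LinearMap.toContinuousLinearMap g).le_opNorm (v : A)
  have h2 : (LinearMap.toContinuousLinearMap g) (v : A) = ((f v : R.V) : A) := by
    have := LinearMap.congr_fun hg v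
    exact this
  rwa [h2] at h1

variable {R}

/-- linear choice of commutator decompositions -/
theorem exists_decomp (e : Submodule ℝ R.V) (i : ℕ) : ∃ (q : ℕ) (u : Fin q → R.V)
    (Y : Fin q → (R.V →ₗ[ℝ] R.V)), (∀ j, u j ∈ e) ∧ (∀ j X, Y j X ∈ gam R e i) ∧
      ∀ X ∈ gam R e (i + 1), ∑ j, ⁅Y j X, u j⁆ = X := by
  classical
  let b := Module.finBasis ℝ e
  set q := Module.finrank ℝ e with hq
  let u : Fin q → R.V := fun j => (b j : R.V)
  let T : (Fin q → gam R e i) →ₗ[ℝ] R.V :=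
    { toFun := fun Y => ∑ j, ⁅(Y j : R.V), u j⁆
      map_add' := fun Y Y' => by
        rw [← sum_add_distrib]
        exact sum_congr rfl fun j _ => by rw [Pi.add_apply, Submodule.coe_add, add_lie]
      map_smul' := fun c Y => by
        rw [smul_sum]
        exact sum_congr rfl fun j _ => by
          rw [Pi.smul_apply, Submodule.coe_smul, smul_lie]; rfl }
  have hrange : gam R e (i + 1) ≤ LinearMap.range T := by
    rw [gam, Submodule.span_le]
    rintro _ ⟨x, hx, y, hy, rfl⟩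
    have h1 : x = ∑ j, (b.repr ⟨x, hx⟩ j) • u j := by
      have := b.sum_repr ⟨x, hx⟩
      have h2 := congrArg Subtype.val this
      rw [Submodule.coe_sum] at h2
      exact h2.symm
    refine ⟨fun j => ⟨-((b.repr ⟨x, hx⟩ j) • y), Submodule.neg_mem _ (Submodule.smul_mem _ _ hy)⟩, ?_⟩
    change ∑ j, ⁅-((b.repr ⟨x, hx⟩ j) • y), u j⁆ = ⁅x, y⁆
    conv_rhs => rw [h1]
    rw [sum_lie]
    refine sum_congr rfl fun j _ => ?_
    rw [neg_lie, smul_lie, smul_lie, ← lie_skew (u j) y, smul_neg]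
  obtain ⟨g, hg2⟩ := LinearMap.exists_rightInverse_of_surjective T.rangeRestrict
    (LinearMap.range_eq_top.2 T.surjective_rangeRestrict)
  obtain ⟨G, hG⟩ := LinearMap.exists_extend g
  refine ⟨q, u, fun j => (gam R e i).subtype.comp ((LinearMap.proj j).comp G),
    fun j => (b j).2, fun j X => (G X j).2, ?_⟩
  intro X hX
  have hXr : X ∈ LinearMap.range T := hrange hX
  have h1 : G X = g ⟨X, hXr⟩ := by rw [← hG]; rfl
  have h2 := LinearMap.congr_fun hg2 ⟨X, hXr⟩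
  have h3 : T (g ⟨X, hXr⟩) = X := congrArg Subtype.val h2
  rw [← h1] at h3
  exact h3

/-- commutators with the second entry in `e` -/
theorem Lo_comm_right {e : Submodule ℝ R.V} (he : ∀ x ∈ e, ∀ y ∈ e, ⁅x, y⁆ ∈ e) {i : ℕ}
    {v w : R.V} (hv : v ∈ gam R e i) (hw : w ∈ e) :
    R.Lo ⁅R.Ex v, R.Ex w⁆ - ⁅v, w⁆ ∈ gam R e (i + 2) := by
  have h := Lo_comm' R (gam_le he i) (gam_succ_le he i) (gam_succ_le he (i + 1))
    (fun x hx y hy => lie_mem_gam hx hy) (fun x hx y hy => lie_mem_gam hx hy) hw hv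
  have h2 : R.Lo ⁅R.Ex v, R.Ex w⁆ = - R.Lo ⁅R.Ex w, R.Ex v⁆ := by
    rw [← Lo_inv, commutatorElement_inv]
  rw [h2, ← lie_skew v w]
  have h3 := Submodule.neg_mem _ h
  have h4 : -(R.Lo ⁅R.Ex w, R.Ex v⁆ - ⁅w, v⁆) = -R.Lo ⁅R.Ex w, R.Ex v⁆ - -⁅w, v⁆ := by abel
  rwa [h4] at h3

/-- commutator products approximate sums of brackets -/
theorem prod_comm {e : Submodule ℝ R.V} (he : ∀ x ∈ e, ∀ y ∈ e, ⁅x, y⁆ ∈ e) {i : ℕ}
    {q : ℕ} {u Y : Fin q → R.V} (hu : ∀ j, u j ∈ e) (hY : ∀ j, Y j ∈ gam R e i) :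
    R.Lo ((List.finRange q).map fun j => ⁅R.Ex (Y j), R.Ex (u j)⁆).prod - ∑ j, ⁅Y j, u j⁆ ∈
      gam R e (i + 2) := by
  have h1 : ∀ j, R.Lo ⁅R.Ex (Y j), R.Ex (u j)⁆ ∈ gam R e (i + 1) := by
    intro j
    have h2 := Lo_comm_right he (hY j) (hu j)
    have h3 : ⁅Y j, u j⁆ ∈ gam R e (i + 1) := by
      rw [← lie_skew]
      exact Submodule.neg_mem _ (lie_mem_gam (hu j) (hY j))
    have h4 := Submodule.add_mem _ (gam_succ_le he (i + 1) h2) h3
    rwa [sub_add_cancel] at h4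
  have h2 := (Lo_list he (List.finRange q) (fun j => ⁅R.Ex (Y j), R.Ex (u j)⁆)
    fun j _ => h1 j).2
  have h3 : ((List.finRange q).map fun j => R.Lo ⁅R.Ex (Y j), R.Ex (u j)⁆).sum =
      ∑ j, R.Lo ⁅R.Ex (Y j), R.Ex (u j)⁆ := by
    rw [← List.ofFn_eq_map, List.sum_ofFn]
  rw [h3] at h2
  have h4 : ∑ j, R.Lo ⁅R.Ex (Y j), R.Ex (u j)⁆ - ∑ j, ⁅Y j, u j⁆ ∈ gam R e (i + 2) := by
    rw [← sum_sub_distrib]
    exact Submodule.sum_mem _ fun j _ => Lo_comm_right he (hY j) (hu j)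
  have h5 := Submodule.add_mem _ h2 h4
  rwa [sub_add_sub_cancel] at h5

end linear

section group

variable {Γ : Type u} [Group Γ] {N : Subgroup Γ} [hN : N.Normal] {d n : ℕ} {D : MB N d n}

omit hN in
theorem ideal_lie (e : LieIdeal ℝ D.R.V) :
    ∀ x ∈ e.toSubmodule, ∀ y ∈ e.toSubmodule, ⁅x, y⁆ ∈ e.toSubmodule := fun _ _ _ hy => e.lie_mem hy

/-- the subgroup `exp (gam i)` of `S` -/
noncomputable def ERi (e : LieIdeal ℝ D.R.V) (i : ℕ) : Subgroup D.S :=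
  (ExS D.R (gam D.R e.toSubmodule i) (fun _ hx _ hy =>
    gam_succ_le (ideal_lie e) i (lie_mem_gam (gam_le (ideal_lie e) i hx) hy))).map D.inN

/-- the subgroup `E` of `S` -/
noncomputable def ER (e : LieIdeal ℝ D.R.V) : Subgroup D.S := ERi e 0

theorem mem_ERi {e : LieIdeal ℝ D.R.V} {i : ℕ} {s : D.S} :
    s ∈ ERi e i ↔ ∃ X ∈ gam D.R e.toSubmodule i, D.ex X = s := by
  constructor
  · rintro ⟨k, hk, rfl⟩
    exact ⟨D.R.Lo k, hk, by rw [MB.ex, D.R.Ex_Lo]⟩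
  · rintro ⟨X, hX, rfl⟩
    exact ⟨D.R.Ex X, (mem_ExS D.R).2 (by rw [D.R.Lo_Ex]; exact hX), rfl⟩

theorem mem_ER {e : LieIdeal ℝ D.R.V} {s : D.S} : s ∈ ER e ↔ ∃ X ∈ e, D.ex X = s := mem_ERi

theorem ER_normal {e : LieIdeal ℝ D.R.V} (h : ∀ s : D.S, ∀ X ∈ e, D.Ad s X ∈ e) :
    (ER e).Normal where
  conj_mem := by
    intro x hx s
    obtain ⟨X, hX, rfl⟩ := mem_ER.1 hx
    exact mem_ER.2 ⟨D.Ad s X, h s X hX, D.ex_Ad s X⟩

/-- the lower central series of `E` is contained in the exponentials of the Lie version -/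
theorem lcs_le_ERi (e : LieIdeal ℝ D.R.V) (i : ℕ) : lcs (ER e) i ≤ ERi e i := by
  induction i with
  | zero => exact le_rfl
  | succ i ih =>
    change ⁅lcs (ER e) i, ER e⁆ ≤ _
    rw [Subgroup.commutator_le]
    intro a ha b hb
    obtain ⟨v, hv, rfl⟩ := mem_ERi.1 (ih ha)
    obtain ⟨w, hw, rfl⟩ := mem_ER.1 hb
    have h2 := Lo_comm_right (ideal_lie e) hv hw
    have h3 : ⁅v, w⁆ ∈ gam D.R e.toSubmodule (i + 1) := by
      rw [← lie_skew]
      exact Submodule.neg_mem _ (lie_mem_gam hw hv)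
    have h4 := Submodule.add_mem _ (gam_succ_le (ideal_lie e) (i + 1) h2) h3
    rw [sub_add_cancel] at h4
    refine mem_ERi.2 ⟨_, h4, ?_⟩
    rw [MB.ex, D.R.Ex_Lo, map_commutatorElement]
    rfl

/-- and conversely -/
theorem ERi_le_lcs (e : LieIdeal ℝ D.R.V) (i : ℕ) :
    ERi e i ≤ lcs (ER e) i := by
  induction i with
  | zero => exact le_rfl
  | succ i ih =>
    have key : ∀ k j, D.R.m ≤ j + 1 + k → i + 1 ≤ j → ERi e j ≤ lcs (ER e) (i + 1) := by
      intro k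
      induction k with
      | zero =>
        intro j hj _ s hs
        obtain ⟨X, hX, rfl⟩ := mem_ERi.1 hs
        rw [gam_eq_bot (by omega)] at hX
        rw [(Submodule.mem_bot ℝ).1 hX, MB.ex, D.R.Ex_zero, map_one]
        exact Subgroup.one_mem _
      | succ k ihk =>
        intro j hj hij s hs
        obtain ⟨j, rfl⟩ : ∃ j', j = j' + 1 := ⟨j - 1, by omega⟩
        obtain ⟨X, hX, rfl⟩ := mem_ERi.1 hs
        obtain ⟨q, u, Y, hu, hY, hdec⟩ := exists_decomp (R := D.R) e.toSubmodule j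
        have h1 := prod_comm (ideal_lie e) (u := u) (Y := fun j' => Y j' X) hu (fun j' => hY j' X)
        rw [hdec X hX] at h1
        set P := ((List.finRange q).map fun j' => ⁅D.R.Ex (Y j' X), D.R.Ex (u j')⁆).prod with hP
        -- the remainder
        have h2 := Lo_Ex_mul_Ex' D.R (gam_le (ideal_lie e) (j + 1))
          (gam_succ_le (ideal_lie e) (j + 1)) (fun x hx y hy => lie_mem_gam hx hy)
          (v := - D.R.Lo P) (w := X) (by
            have h3 := Submodule.add_mem _ (gam_succ_le (ideal_lie e) (j + 1) h1) hX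
            rw [sub_add_cancel] at h3
            exact Submodule.neg_mem _ (gam_le (ideal_lie e) (j + 1) h3)) hX
        rw [D.R.Ex_neg, D.R.Ex_Lo] at h2
        have h3 : D.R.Lo (P⁻¹ * D.R.Ex X) ∈ gam D.R e.toSubmodule (j + 2) := by
          have h4 : D.R.Lo (P⁻¹ * D.R.Ex X) = (D.R.Lo (P⁻¹ * D.R.Ex X) - -D.R.Lo P - X) -
            (D.R.Lo P - X) := by abel
          rw [h4]
          exact Submodule.sub_mem _ h2 h1
        have h5 : D.ex X = D.inN P * D.inN (P⁻¹ * D.R.Ex X) := by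
          rw [← map_mul, mul_inv_cancel_left]; rfl
        rw [h5]
        refine Subgroup.mul_mem _ ?_ (ihk (j + 2) (by omega) (by omega) ?_)
        · rw [hP, map_list_prod]
          refine Subgroup.list_prod_mem _ fun x hx => ?_
          rw [List.map_map, List.mem_map] at hx
          obtain ⟨j', _, rfl⟩ := hx
          rw [Function.comp_apply, map_commutatorElement]
          refine Subgroup.commutator_mem_commutator ?_ ?_
          · refine ih (mem_ERi.2 ⟨Y j' X, gam_anti (ideal_lie e) (by omega) (hY j' X), rfl⟩)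
          · exact mem_ER.2 ⟨u j', hu j', rfl⟩
        · exact ⟨_, h3, rfl⟩
    exact key D.R.m (i + 1) (by omega) le_rfl

theorem lcs_ER (e : LieIdeal ℝ D.R.V) (i : ℕ) :
    lcs (ER e) i = ERi e i := le_antisymm (lcs_le_ERi e i) (ERi_le_lcs e i)

/-- `E` is nilpotent -/
theorem lcs_ER_bot (e : LieIdeal ℝ D.R.V) :
    lcs (ER e) D.R.m = ⊥ := by
  rw [lcs_ER e, eq_bot_iff]
  intro s hs
  obtain ⟨X, hX, rfl⟩ := mem_ERi.1 hs
  rw [gam_eq_bot (by omega)] at hX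
  rw [(Submodule.mem_bot ℝ).1 hX, MB.ex, D.R.Ex_zero, map_one]
  exact Subgroup.one_mem _

theorem gen_len {l : D.S → ℕ} {e : LieIdeal ℝ D.R.V} {Cu Cl K : ℝ} (hCu : 0 ≤ Cu)
    (hup : ∀ X ∈ e, (l (D.ex X) : ℝ) ≤ Cu * (1 + Real.log (1 + ‖(X : D.Alg)‖))) (hCl : 0 ≤ Cl)
    (hlow : ∀ X ∈ e, Real.log (1 + ‖(X : D.Alg)‖) ≤ Cl * (1 + l (D.ex X))) (hK : 0 ≤ K)
    {X W : D.R.V} (hX : X ∈ e) (hW : W ∈ e) (hWX : ‖(W : D.Alg)‖ ≤ K * ‖(X : D.Alg)‖) {R : ℕ}
    (hR : 1 ≤ R) (hl : l (D.ex X) ≤ R) :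
    l (D.ex W) ≤ ⌈Cu * (1 + (Real.log (1 + K) + 2 * Cl))⌉₊ * R := by
  have hlK := log_one_add_nonneg hK
  have h1 := hlow X hX
  have h2 : (l (D.ex X) : ℝ) ≤ R := by exact_mod_cast hl
  have hR' : (1 : ℝ) ≤ R := by exact_mod_cast hR
  have h3 := hup W hW
  have h4 : Real.log (1 + ‖(W : D.Alg)‖) ≤ Real.log (1 + K) + Real.log (1 + ‖(X : D.Alg)‖) :=
    (Real.log_le_log (by positivity) (by linarith)).trans (log_mul_le (norm_nonneg _) hK)
  have h6 : Real.log (1 + ‖(X : D.Alg)‖) ≤ 2 * Cl * R := by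
    refine h1.trans ?_
    nlinarith
  have h5 : (l (D.ex W) : ℝ) ≤ Cu * (1 + (Real.log (1 + K) + 2 * Cl)) * R := by
    refine h3.trans ?_
    rw [mul_assoc]
    refine mul_le_mul_of_nonneg_left ?_ hCu
    nlinarith
  have h7 : Cu * (1 + (Real.log (1 + K) + 2 * Cl)) * R ≤
      ((⌈Cu * (1 + (Real.log (1 + K) + 2 * Cl))⌉₊ * R : ℕ) : ℝ) := by
    push_cast
    exact mul_le_mul_of_nonneg_right (Nat.le_ceil _) (by positivity)
  exact_mod_cast h5.trans h7

theorem gen_mem {e : LieIdeal ℝ D.R.V} {i : ℕ} {X : D.R.V}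
    (hX : X ∈ gam D.R e.toSubmodule (i + 1)) {P : D.R.NR}
    (h1 : D.R.Lo P - X ∈ gam D.R e.toSubmodule (i + 2)) :
    (D.ex X)⁻¹ * D.inN P ∈ ERi e (i + 2) := by
  have hXe : X ∈ e := gam_le (ideal_lie e) (i + 1) hX
  have hPm : D.R.Lo P ∈ gam D.R e.toSubmodule (i + 1) := by
    have h3 := Submodule.add_mem _ (gam_succ_le (ideal_lie e) (i + 1) h1) hX
    rwa [sub_add_cancel] at h3
  have h3 := Lo_Ex_mul_Ex' D.R (gam_le (ideal_lie e) (i + 1))
    (gam_succ_le (ideal_lie e) (i + 1)) (fun x hx y hy => lie_mem_gam hx hy)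
    (v := -X) (w := D.R.Lo P) (Submodule.neg_mem _ hXe) hPm
  rw [D.R.Ex_neg, D.R.Ex_Lo] at h3
  refine mem_ERi.2 ⟨D.R.Lo ((D.R.Ex X)⁻¹ * P), ?_, ?_⟩
  · have h4 : D.R.Lo ((D.R.Ex X)⁻¹ * P) = (D.R.Lo ((D.R.Ex X)⁻¹ * P) - -X - D.R.Lo P) +
        (D.R.Lo P - X) := by abel
    rw [h4]
    exact Submodule.add_mem _ h3 h1
  · rw [MB.ex, D.R.Ex_Lo, map_mul, map_inv]; rfl

theorem inN_prod_comm {q : ℕ} (u Y : Fin q → D.R.V) (L : List (Fin q)) :
    ((L.map fun j => (D.ex (Y j), D.ex (u j))).map fun q => ⁅q.1, q.2⁆).prod =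
      D.inN (L.map fun j' => ⁅D.R.Ex (Y j'), D.R.Ex (u j')⁆).prod := by
  induction L with
  | nil => simp
  | cons j L ih =>
    simp only [List.map_cons, List.prod_cons]
    rw [ih, map_mul, map_commutatorElement]
    rfl

theorem gen_level {l : D.S → ℕ} {e : LieIdeal ℝ D.R.V} (hM : Met D l e) (i : ℕ) :
    ∃ p Cg : ℕ, ∀ R : ℕ, 1 ≤ R → ∀ x ∈ lcs (ER e) (i + 1), l x ≤ R →
      ∃ ps : List (D.S × D.S), ps.length ≤ p ∧
      (∀ q ∈ ps, q.1 ∈ lcs (ER e) i ∧ q.2 ∈ ER e ∧ l q.1 ≤ Cg * R ∧ l q.2 ≤ Cg * R) ∧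
      x⁻¹ * (ps.map fun q => ⁅q.1, q.2⁆).prod ∈ lcs (ER e) (i + 2) := by
  obtain ⟨Cu, hCu, hup⟩ := hM.up
  obtain ⟨Cl, hCl, hlow⟩ := hM.low
  obtain ⟨q, u, Y, hu, hY, hdec⟩ := exists_decomp (R := D.R) e.toSubmodule i
  choose CY hCY0 hCY using fun j => lin_bound D.R (Y j)
  set K : ℝ := ∑ j, CY j with hK
  have hK0 : 0 ≤ K := sum_nonneg fun j _ => hCY0 j
  have hKj : ∀ j, CY j ≤ K := fun j => single_le_sum (fun j _ => hCY0 j) (mem_univ j)
  refine ⟨q, ⌈Cu * (1 + (Real.log (1 + K) + 2 * Cl))⌉₊ + ∑ j, l (D.ex (u j)),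
    fun R hR x hx hxR => ?_⟩
  rw [lcs_ER e] at hx
  obtain ⟨X, hX, rfl⟩ := mem_ERi.1 hx
  have hXe : X ∈ e := gam_le (ideal_lie e) (i + 1) hX
  refine ⟨(List.finRange q).map fun j => (D.ex (Y j X), D.ex (u j)), by simp, ?_, ?_⟩
  · intro p hp
    rw [List.mem_map] at hp
    obtain ⟨j, _, rfl⟩ := hp
    refine ⟨?_, mem_ER.2 ⟨u j, hu j, rfl⟩, ?_, ?_⟩
    · rw [lcs_ER e]
      exact mem_ERi.2 ⟨_, hY j X, rfl⟩
    · refine (gen_len hCu hup hCl hlow hK0 hXe (gam_le (ideal_lie e) i (hY j X)) ?_ hR hxR).trans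
        (Nat.mul_le_mul_right _ (Nat.le_add_right _ _))
      exact (hCY j X).trans (mul_le_mul_of_nonneg_right (hKj j) (norm_nonneg _))
    · have h1 : l (D.ex (u j)) ≤ ∑ j, l (D.ex (u j)) :=
        single_le_sum (f := fun j => l (D.ex (u j))) (fun j _ => Nat.zero_le _) (mem_univ j)
      calc l (D.ex (u j)) ≤ (⌈Cu * (1 + (Real.log (1 + K) + 2 * Cl))⌉₊ +
            ∑ j, l (D.ex (u j))) * 1 := by rw [mul_one]; exact h1.trans (Nat.le_add_left _ _)
        _ ≤ _ := Nat.mul_le_mul_left _ hR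
  · have h1 := prod_comm (ideal_lie e) (u := u) (Y := fun j' => Y j' X) hu (fun j' => hY j' X)
    rw [hdec X hX] at h1
    rw [inN_prod_comm, lcs_ER e]
    exact gen_mem hX h1

/-- **bounded generation by commutators** -/
theorem gen_ER {l : D.S → ℕ} {e : LieIdeal ℝ D.R.V} (hM : Met D l e) :
    ∃ p Cg : ℕ, 1 ≤ Cg ∧ Gen l (ER e) p Cg := by
  choose p Cg hpC using gen_level hM
  refine ⟨∑ i ∈ range D.R.m, p i, 1 + ∑ i ∈ range D.R.m, Cg i, by omega, ?_⟩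
  intro i R hR x hx hxR
  by_cases hi : i < D.R.m
  · obtain ⟨ps, h1, h2, h3⟩ := hpC i R hR x hx hxR
    have h4 : p i ≤ ∑ i ∈ range D.R.m, p i :=
      single_le_sum (f := p) (fun j _ => Nat.zero_le _) (mem_range.2 hi)
    have h5 : Cg i ≤ 1 + ∑ i ∈ range D.R.m, Cg i := by
      have := single_le_sum (f := Cg) (fun j _ => Nat.zero_le _) (mem_range.2 hi)
      omega
    refine ⟨ps, h1.trans h4, fun q hq => ?_, h3⟩
    obtain ⟨k1, k2, k3, k4⟩ := h2 q hq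
    exact ⟨k1, k2, k3.trans (Nat.mul_le_mul_right _ h5), k4.trans (Nat.mul_le_mul_right _ h5)⟩
  · refine ⟨[], by simp, by simp, ?_⟩
    rw [lcs_ER e] at hx
    obtain ⟨X, hX, rfl⟩ := mem_ERi.1 hx
    rw [gam_eq_bot (by omega)] at hX
    rw [(Submodule.mem_bot ℝ).1 hX, MB.ex, D.R.Ex_zero, map_one]
    simp

end group

end Vale.Agent.P188.H615

end

section

/-!
The metric facts for the word length of `U F`; change of length function.
-/

open Finset Filter Topology Pointwise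
open scoped commutatorElement

universe u v

namespace Vale.Agent.P188.H615

open Vale.Agent.P188.H796

section transfer

variable {Γ : Type u} [Group Γ] {N : Subgroup Γ} [hN : N.Normal] {d n : ℕ} {D : MB N d n}

end transfer

section inst

variable {Γ : Type u} [Group Γ] {k : ℕ} {η : Γ →* Multiplicative (Fin k → ℤ)} {d n : ℕ}
  {D : MB η.ker d n}

theorem subN_wl {S : Type*} [Group S] {Sg : Set S} (h : Subgroup.closure Sg = ⊤) :
    SubN (wl Sg) := ⟨wl_mul h, wl_inv h⟩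

/-- the word length of `U F` has letters in a finite set and a ball -/
theorem lt_wl {F : Set Γ} (hF : F.Finite) (hgen : Subgroup.closure F = ⊤) :
    ∃ T : Finset D.S, Lt D (wl (D.U F)) T 1 := by
  classical
  have hfin : (D.inΓ '' F ∪ (D.inΓ '' F)⁻¹).Finite := (hF.image _).union (hF.image _).inv
  refine ⟨hfin.toFinset, subN_wl (D.closure_U hgen), wl_one, fun s => ?_, 1, fun v hv => ?_⟩
  · obtain ⟨L, h1, h2, h3⟩ := wl_list (D.closure_U hgen) s
    refine ⟨L, h1.le, fun x hx => ?_, h3⟩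
    rcases D.mem_U (h2 x hx) with ⟨f, hf, rfl⟩ | ⟨v, hv, rfl⟩
    · left
      rw [Set.Finite.mem_toFinset]
      rcases hf with hf | hf
      · exact Or.inl ⟨f, hf, rfl⟩
      · right
        rw [Set.mem_inv]
        exact ⟨f⁻¹, hf, map_inv _ _⟩
    · exact Or.inr ⟨v, hv, rfl⟩
  · exact wl_le_one (Or.inr ⟨v, hv, rfl⟩)

/-- lower bound -/
theorem low_wl (hη : Function.Surjective η) {F : Set Γ} (hF : F.Finite)
    (hgen : Subgroup.closure F = ⊤) : ∃ C : ℝ, 0 ≤ C ∧ ∀ X : D.R.V,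
      Real.log (1 + ‖(X : D.Alg)‖) ≤ C * (1 + wl (D.U F) (D.ex X)) := by
  obtain ⟨C, hC, H⟩ := D.M2 hη F hF hgen
  refine ⟨C + 1, by positivity, fun X => ?_⟩
  have h1 := H (D.R.Ex X)
  rw [D.R.Lo_Ex] at h1
  have hw : (0 : ℝ) ≤ wl (D.U F) (D.inN (D.R.Ex X)) := Nat.cast_nonneg _
  set w : ℝ := ((wl (D.U F) (D.inN (D.R.Ex X)) : ℕ) : ℝ) with hwd
  have h2 : 1 + ‖(X : D.Alg)‖ ≤ Real.exp ((C + 1) * (1 + w)) := by
    have h3 : (1 : ℝ) ≤ Real.exp (C * (w + 1)) := Real.one_le_exp (by positivity)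
    have h4 : (2 : ℝ) ≤ Real.exp (1 + w) := by
      have := Real.add_one_le_exp (1 + w)
      linarith
    have h5 : Real.exp ((C + 1) * (1 + w)) = Real.exp (C * (w + 1)) * Real.exp (1 + w) := by
      rw [← Real.exp_add]; congr 1; ring
    rw [h5]
    nlinarith
  calc Real.log (1 + ‖(X : D.Alg)‖) ≤ Real.log (Real.exp ((C + 1) * (1 + w))) :=
        Real.log_le_log (by positivity) h2
    _ = (C + 1) * (1 + w) := Real.log_exp _

theorem habel_ker (a b : Γ) : ⁅a, b⁆ ∈ η.ker := comm_mem_ker η a b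

/-- **the exponential radical and the metric facts**; the hypothesis `had` is `Metr2` of 796 -/
theorem exists_met (hη : Function.Surjective η) {F : Set Γ} (hF : F.Finite)
    (hgen : Subgroup.closure F = ⊤)
    (had : ∃ C : ℝ, 0 ≤ C ∧ ∀ (s : D.S) (v : D.R.V),
      ‖((D.Ad s v : D.R.V) : D.Alg)‖ ≤ Real.exp (C * (wl (D.U F) s + 1)) * ‖(v : D.Alg)‖)
    {e : LieIdeal ℝ D.R.V} (hinv : ∀ g, ∀ x ∈ e, D.AdE g x ∈ e) {F' : Set D.S}
    (hPF : ∀ x, x ∈ H269.PF D.AdE F' ↔ x ∈ e) : Met D (wl (D.U F)) e where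
  sub := subN_wl (D.closure_U hgen)
  inv := fun s X hX => hinv s X hX
  up := M1 D (subN_wl (D.closure_U hgen)) 1 (fun v hv => wl_le_one (Or.inr ⟨v, hv, rfl⟩)) e F' hPF
  low := by
    obtain ⟨C, hC, H⟩ := low_wl (D := D) hη hF hgen
    exact ⟨C, hC, fun X _ => H X⟩
  ad := by
    obtain ⟨C, hC, H⟩ := had
    intro j
    refine ⟨Real.exp (C * (j + 1)), Real.one_le_exp (by positivity), fun s hs v => (H s v).trans ?_⟩
    refine mul_le_mul_of_nonneg_right (Real.exp_le_exp.2 ?_) (norm_nonneg _)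
    refine mul_le_mul_of_nonneg_left ?_ hC
    have : (wl (D.U F) s : ℝ) ≤ j := by exact_mod_cast hs
    linarith

/-- the decomposition into pieces -/
theorem exists_pieces {F : Set Γ} (hF : F.Finite)
    (hgen : Subgroup.closure F = ⊤) {e : LieIdeal ℝ D.R.V}
    (hE2 : ∀ (S : Finset D.S) (ε : ℝ), 0 < ε → ∃ q : Seminorm ℝ D.R.V, (∀ x, q x = 0 ↔ x ∈ e) ∧
      ∀ g ∈ S, ∀ x, q (D.AdE g x) ≤ Real.exp ε * q x) : Pieces D (wl (D.U F)) e := by
  obtain ⟨T, hT⟩ := lt_wl (D := D) hF hgen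
  exact pieces hT (D.comm_mem habel_ker) hE2

end inst

end Vale.Agent.P188.H615

end
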