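import Vale.Agent.P188.R.G074
import Vale.Agent.P188.R.G056
import Vale.Agent.P188.R.G048
import Vale.Agent.P188.R.G061
import Vale.Agent.P188.R.G062

section

/-!
Block RM-a of the real model: length, heights, exponential, adjoint action and their bounds.
-/

open Finset Filter Topology
open scoped commutatorElement Pointwise

universe u v w

namespace Vale.Agent.P188.H796

open H615 H131
open Agent.P188.H428 (IsLen)
open Vale.Agent.P188.H530 (hgt)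

section path

variable {G : Type u} [Group G] {U : Set G}

theorem wl_eq_zero (hgen : Subgroup.closure U = ⊤) {x : G} (hx : wl U x = 0) : x = 1 := by
  obtain ⟨l, e1, e2, e3⟩ := wl_list hgen x
  rw [hx] at e1
  rw [← e3, List.length_eq_zero_iff.1 e1, List.prod_nil]

theorem wl_path (hgen : Subgroup.closure U = ⊤) (x : G) :
    ∃ p : ℕ → G, p 0 = 1 ∧ p (wl U x) = x ∧ ∀ i, wl U ((p i)⁻¹ * p (i + 1)) ≤ 1 := by
  obtain ⟨l, e1, e2, e3⟩ := wl_list hgen x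
  refine ⟨fun i => (l.take i).prod, by simp, ?_, fun i => ?_⟩
  · change (l.take (wl U x)).prod = x
    rw [← e1, List.take_length, e3]
  · change wl U ((l.take i).prod⁻¹ * (l.take (i + 1)).prod) ≤ 1
    rcases Nat.lt_or_ge i l.length with h | h
    · have e4 : (l.take (i + 1)).prod = (l.take i).prod * l[i] := by
        rw [List.take_succ_eq_append_getElem h, List.prod_append, List.prod_singleton]
      rw [e4, inv_mul_cancel_left]
      rcases e2 _ (List.getElem_mem h) with h' | h'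
      · exact wl_le_one h'
      · rw [← wl_inv hgen]
        exact wl_le_one h'
    · rw [List.take_of_length_le h, List.take_of_length_le (Nat.le_succ_of_le h), inv_mul_cancel,
        wl_one]
      exact Nat.zero_le _

end path

section conc

variable {Γ : Type u} [Group Γ] {k : ℕ} {η : Γ →* Multiplicative (Fin k → ℤ)} {d n : ℕ}
  (D : MB η.ker d n)

/-- the norm on the Lie algebra -/
noncomputable def MB.nm : Seminorm ℝ D.R.V := normSeminorm ℝ D.R.V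

theorem MB.nm_eq (v : D.R.V) : D.nm v = ‖(v : D.Alg)‖ := rfl

theorem MB.nm_zero (v : D.R.V) (hv : D.nm v = 0) : v = 0 :=
  Subtype.ext (norm_eq_zero.1 hv)

/-- **the facts of block RM-a** -/
structure PartA (l : D.S → ℕ) (C : ℝ) : Prop where
  one_le : 1 ≤ C
  len : IsLen l
  l_zero : ∀ x, l x = 0 → x = 1
  l_path : ∀ x, ∃ p : ℕ → D.S, p 0 = 1 ∧ p (l x) = x ∧ ∀ i, l ((p i)⁻¹ * p (i + 1)) ≤ 1
  η_le : ∀ x, ‖hgt (D.θ η) x‖ ≤ C * l x
  Ad_le : ∀ s v, D.nm (D.AdE s v) ≤ Real.exp (C * l s) * D.nm v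
  Ad_ex_le : ∀ w v, D.nm (D.AdE (D.ex w) v) ≤ C * (1 + D.nm w) ^ C * D.nm v
  ex_mul_le : ∀ v w u, D.ex v * D.ex w = D.ex u → D.nm u ≤ C * (1 + D.nm v + D.nm w) ^ C
  met_V : ∀ v, (l (D.ex v) : ℝ) ≤ C * (1 + D.nm v)
  met_lo : ∀ v, D.nm v ≤ Real.exp (C * (1 + l (D.ex v)))

theorem PartA.mono {l : D.S → ℕ} {C C' : ℝ} (h : PartA D l C) (hC : C ≤ C') : PartA D l C' where
  one_le := h.one_le.trans hC
  len := h.len
  l_zero := h.l_zero
  l_path := h.l_path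
  η_le x := (h.η_le x).trans (mul_le_mul_of_nonneg_right hC (Nat.cast_nonneg _))
  Ad_le s v := (h.Ad_le s v).trans (mul_le_mul_of_nonneg_right
    (Real.exp_le_exp.2 (mul_le_mul_of_nonneg_right hC (Nat.cast_nonneg _))) (apply_nonneg D.nm _))
  Ad_ex_le w v := by
    have h0 : 0 ≤ D.nm w := apply_nonneg D.nm _
    have h1 := h.one_le
    refine (h.Ad_ex_le w v).trans (mul_le_mul_of_nonneg_right ?_ (apply_nonneg D.nm _))
    exact mul_le_mul hC (Real.rpow_le_rpow_of_exponent_le (by linarith) hC)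
      (Real.rpow_nonneg (by linarith) _) (by linarith)
  ex_mul_le v w u e := by
    have h0 : 0 ≤ D.nm w := apply_nonneg D.nm _
    have h0' : 0 ≤ D.nm v := apply_nonneg D.nm _
    have h1 := h.one_le
    refine (h.ex_mul_le v w u e).trans ?_
    exact mul_le_mul hC (Real.rpow_le_rpow_of_exponent_le (by linarith) hC)
      (Real.rpow_nonneg (by linarith) _) (by linarith)
  met_V v := (h.met_V v).trans (mul_le_mul_of_nonneg_right hC (by
    have : 0 ≤ D.nm v := apply_nonneg D.nm _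
    linarith))
  met_lo v := (h.met_lo v).trans (Real.exp_le_exp.2
    (mul_le_mul_of_nonneg_right hC (by positivity)))

theorem MB.hgt_ex (v : D.R.V) : hgt (D.θ η) (D.ex v) = 0 := by
  funext i
  change (((Multiplicative.toAdd (D.θ η (D.inN (D.R.Ex v))) i : ℤ)) : ℝ) = 0
  rw [D.θ_inN]
  simp

theorem MB.hgt_inΓ (g : Γ) : hgt (D.θ η) (D.inΓ g) = hgt η g := by
  funext i
  simp only [hgt, D.θ_inΓ]

theorem MB.hgt_comp : hgt ((D.θ η).comp D.inΓ) = hgt η := by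
  funext g i
  simp only [hgt, MonoidHom.comp_apply, D.θ_inΓ]

theorem MB.θ_comp : (D.θ η).comp D.inΓ = η := by
  ext g : 1
  exact D.θ_inΓ η g

theorem MB.θ_surjective (hη : Function.Surjective η) : Function.Surjective (D.θ η) := by
  intro w
  obtain ⟨g, hg⟩ := hη w
  exact ⟨D.inΓ g, by rw [D.θ_inΓ, hg]⟩

theorem MB.θ_ex (v : D.R.V) : D.θ η (D.ex v) = 1 := D.θ_inN η _

theorem MB.ex_of_θ (s : D.S) (hs : D.θ η s = 1) : ∃ v, D.ex v = s := by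
  have h : s ∈ (D.θ η).ker := hs
  rw [D.θ_ker] at h
  obtain ⟨y, rfl⟩ := h
  exact ⟨D.R.Lo y, by rw [MB.ex, D.R.Ex_Lo]⟩

theorem MB.ex_zero : D.ex 0 = 1 := by rw [MB.ex, D.R.Ex_zero, map_one]

theorem MB.ex_add (x y : ℝ) (v : D.R.V) : D.ex ((x + y) • v) = D.ex (x • v) * D.ex (y • v) := by
  rw [MB.ex, D.R.Ex_add, map_mul, MB.ex, MB.ex]

theorem MB.ex_AdE (s : D.S) (v : D.R.V) : D.ex (D.AdE s v) = s * D.ex v * s⁻¹ := D.ex_Ad s v

theorem MB.hgt_mul' (x y : D.S) : hgt (D.θ η) (x * y) = hgt (D.θ η) x + hgt (D.θ η) y :=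
  H530.hgt_mul _ _ _

/-- bound on heights -/
theorem MB.hgt_le {F : Set Γ} (hF : F.Finite) (hgen : Subgroup.closure F = ⊤) :
    ∃ C : ℝ, 0 < C ∧ ∀ x : D.S, ‖hgt (D.θ η) x‖ ≤ C * wl (D.U F) x := by
  have hF' : (F ∪ F⁻¹).Finite := hF.union hF.inv
  obtain ⟨M, hM⟩ := (hF'.image fun g => ‖hgt η g‖).bddAbove
  refine ⟨max M 1, by positivity, fun x => ?_⟩
  refine wl_le_mul_of_gen (D.closure_U hgen) (f := fun x => ‖hgt (D.θ η) x‖) ?_ ?_ x
  · have h1 : hgt (D.θ η) (1 : D.S) = 0 := by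
      have := D.hgt_ex 0
      rwa [D.ex_zero] at this
    simp only [h1, norm_zero, le_refl]
  · intro a x ha
    simp only [D.hgt_mul']
    refine (norm_add_le _ _).trans (add_le_add_left ?_ _)
    rcases D.mem_U ha with ⟨f, hf, rfl⟩ | ⟨v, hv, rfl⟩
    · rw [D.hgt_inΓ]
      exact (hM ⟨f, hf, rfl⟩).trans (le_max_left _ _)
    · have : hgt (D.θ η) (D.inN (D.R.Ex v)) = 0 := D.hgt_ex v
      rw [this, norm_zero]
      positivity

/-- polynomial bound on the adjoint action of exponentials -/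
theorem MB.Ad_ex_bound : ∃ C : ℝ, 0 < C ∧ ∀ w v : D.R.V,
    D.nm (D.AdE (D.ex w) v) ≤ C * (1 + D.nm w) ^ (2 * D.R.m) * D.nm v := by
  obtain ⟨C1, hC1, h1⟩ := RD.exists_ex_bound (A := D.Alg) D.R.m
  refine ⟨C1 * C1, by positivity, fun w v => ?_⟩
  have h0 : D.AdE (D.ex w) v = D.R.Adn (D.R.Ex w) v := D.Ad_inN _ _
  rw [h0, D.nm_eq, D.nm_eq, D.nm_eq, D.R.coe_Adn]
  have e1 : (((D.R.EU (D.R.Ex w))⁻¹ : D.Algˣ) : D.Alg) = H796.ex D.R.m ((-w : D.R.V) : D.Alg) := by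
    rw [← D.R.toA_inv, ← D.R.Ex_neg]
    exact D.R.toA_Ex (-w)
  have e2 : D.R.E (D.R.Ex w) = H796.ex D.R.m (w : D.Alg) := D.R.toA_Ex w
  rw [e1, e2]
  have e3 := h1 (w : D.Alg)
  have e4 := h1 ((-w : D.R.V) : D.Alg)
  have e5 : ‖((-w : D.R.V) : D.Alg)‖ = ‖(w : D.Alg)‖ := by simp
  rw [e5] at e4
  have h2 : 0 ≤ ‖(w : D.Alg)‖ := norm_nonneg _
  calc ‖H796.ex D.R.m (w : D.Alg) * v * H796.ex D.R.m ((-w : D.R.V) : D.Alg)‖
      ≤ ‖H796.ex D.R.m (w : D.Alg)‖ * ‖(v : D.Alg)‖ * ‖H796.ex D.R.m ((-w : D.R.V) : D.Alg)‖ :=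
        (norm_mul_le _ _).trans (mul_le_mul_of_nonneg_right (norm_mul_le _ _) (norm_nonneg _))
    _ ≤ (C1 * (1 + ‖(w : D.Alg)‖) ^ D.R.m) * ‖(v : D.Alg)‖ * (C1 * (1 + ‖(w : D.Alg)‖) ^ D.R.m) := by
        gcongr
    _ = C1 * C1 * (1 + ‖(w : D.Alg)‖) ^ (2 * D.R.m) * ‖(v : D.Alg)‖ := by ring

/-- polynomial bound on products -/
theorem MB.ex_mul_bound : ∃ C : ℝ, 0 < C ∧ ∀ v w u : D.R.V, D.ex v * D.ex w = D.ex u →
    D.nm u ≤ C * (1 + D.nm v + D.nm w) ^ (2 * D.R.m * D.R.m) := by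
  obtain ⟨C1, hC1, h1⟩ := RD.exists_ex_bound (A := D.Alg) D.R.m
  obtain ⟨C2, hC2, h2⟩ := D.R.exists_Lo_bound
  refine ⟨C2 * (1 + C1 * C1 + ‖(1 : D.Alg)‖) ^ D.R.m, by positivity, fun v w u e => ?_⟩
  have e' : D.R.Ex v * D.R.Ex w = D.R.Ex u := by
    apply D.P.inK_injective
    rw [map_mul]
    exact e
  have e1 := h2 (D.R.Ex u)
  rw [D.R.Lo_Ex] at e1
  rw [D.nm_eq, D.nm_eq, D.nm_eq]
  refine e1.trans ?_
  have hv : 0 ≤ ‖(v : D.Alg)‖ := norm_nonneg _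
  have hw : 0 ≤ ‖(w : D.Alg)‖ := norm_nonneg _
  set r : ℝ := 1 + ‖(v : D.Alg)‖ + ‖(w : D.Alg)‖ with hr
  have hr1 : 1 ≤ r := by linarith
  have h3 : ‖D.R.toA (D.R.Ex u)‖ ≤ C1 * C1 * r ^ (2 * D.R.m) := by
    rw [← e', map_mul]
    have e2 : D.R.toA (D.R.Ex v) = H796.ex D.R.m (v : D.Alg) := D.R.toA_Ex v
    have e3 : D.R.toA (D.R.Ex w) = H796.ex D.R.m (w : D.Alg) := D.R.toA_Ex w
    rw [e2, e3]
    calc ‖H796.ex D.R.m (v : D.Alg) * H796.ex D.R.m (w : D.Alg)‖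
        ≤ ‖H796.ex D.R.m (v : D.Alg)‖ * ‖H796.ex D.R.m (w : D.Alg)‖ := norm_mul_le _ _
      _ ≤ (C1 * (1 + ‖(v : D.Alg)‖) ^ D.R.m) * (C1 * (1 + ‖(w : D.Alg)‖) ^ D.R.m) :=
        mul_le_mul (h1 _) (h1 _) (norm_nonneg _) (by positivity)
      _ ≤ (C1 * r ^ D.R.m) * (C1 * r ^ D.R.m) := by
        gcongr <;> linarith
      _ = C1 * C1 * r ^ (2 * D.R.m) := by ring
  have hrp : 1 ≤ r ^ (2 * D.R.m) := one_le_pow₀ hr1
  have h4 : 1 + ‖D.R.toA (D.R.Ex u) - 1‖ ≤ (1 + C1 * C1 + ‖(1 : D.Alg)‖) * r ^ (2 * D.R.m) := by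
    have := norm_sub_le (D.R.toA (D.R.Ex u)) 1
    nlinarith [norm_nonneg (1 : D.Alg)]
  calc C2 * (1 + ‖D.R.toA (D.R.Ex u) - 1‖) ^ D.R.m
      ≤ C2 * ((1 + C1 * C1 + ‖(1 : D.Alg)‖) * r ^ (2 * D.R.m)) ^ D.R.m := by gcongr
    _ = C2 * (1 + C1 * C1 + ‖(1 : D.Alg)‖) ^ D.R.m * r ^ (2 * D.R.m * D.R.m) := by
      rw [mul_pow, ← pow_mul]; ring

/-- **block RM-a** -/
theorem MB.exists_partA (hη : Function.Surjective η) {F : Set Γ} (hF : F.Finite)
    (hgen : Subgroup.closure F = ⊤) : ∃ C : ℝ, PartA D (wl (D.U F)) C := by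
  obtain ⟨C1, hC1, h1⟩ := D.hgt_le hF hgen
  obtain ⟨C2, hC2, h2⟩ := D.Ad_bound hF hgen
  obtain ⟨C3, hC3, h3⟩ := D.Ad_ex_bound
  obtain ⟨C4, hC4, h4⟩ := D.ex_mul_bound
  obtain ⟨C5, hC5, h5⟩ := D.M2 hη F hF hgen
  set C : ℝ := 1 + C1 + C2 + C3 + C4 + C5 + (2 * D.R.m : ℕ) + (2 * D.R.m * D.R.m : ℕ) with hC
  have hm1 : (0 : ℝ) ≤ ((2 * D.R.m : ℕ) : ℝ) := Nat.cast_nonneg _
  have hm2 : (0 : ℝ) ≤ ((2 * D.R.m * D.R.m : ℕ) : ℝ) := Nat.cast_nonneg _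
  refine ⟨C, ?_⟩
  refine
    { one_le := by linarith
      len := D.isLen_S hgen
      l_zero := fun x hx => wl_eq_zero (D.closure_U hgen) hx
      l_path := fun x => wl_path (D.closure_U hgen) x
      η_le := fun x => (h1 x).trans (mul_le_mul_of_nonneg_right (by linarith) (Nat.cast_nonneg _))
      Ad_le := ?_
      Ad_ex_le := ?_
      ex_mul_le := ?_
      met_V := ?_
      met_lo := ?_ }
  · intro s v
    refine (h2 s v).trans (mul_le_mul_of_nonneg_right ?_ (norm_nonneg _))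
    exact Real.exp_le_exp.2 (mul_le_mul_of_nonneg_right (by linarith) (Nat.cast_nonneg _))
  · intro w v
    have hw : 0 ≤ D.nm w := apply_nonneg D.nm _
    refine (h3 w v).trans (mul_le_mul_of_nonneg_right ?_ (apply_nonneg D.nm _))
    rw [← Real.rpow_natCast]
    exact mul_le_mul (by linarith) (Real.rpow_le_rpow_of_exponent_le (by linarith) (by linarith))
      (Real.rpow_nonneg (by linarith) _) (by linarith)
  · intro v w u e
    have hw : 0 ≤ D.nm w := apply_nonneg D.nm _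
    have hv : 0 ≤ D.nm v := apply_nonneg D.nm _
    refine (h4 v w u e).trans ?_
    rw [← Real.rpow_natCast]
    exact mul_le_mul (by linarith) (Real.rpow_le_rpow_of_exponent_le (by linarith) (by linarith))
      (Real.rpow_nonneg (by linarith) _) (by linarith)
  · intro v
    have hv : 0 ≤ D.nm v := apply_nonneg D.nm _
    have h6 := D.wl_ex_le F v ⌈D.nm v⌉₊ (Nat.le_ceil _)
    have h7 : (wl (D.U F) (D.ex v) : ℝ) ≤ ⌈D.nm v⌉₊ := by exact_mod_cast h6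
    have h8 := (Nat.ceil_lt_add_one hv).le
    nlinarith
  · intro v
    have h6 := h5 (D.R.Ex v)
    rw [D.R.Lo_Ex] at h6
    refine (show D.nm v ≤ _ from h6).trans (Real.exp_le_exp.2 ?_)
    have h7 : (0 : ℝ) ≤ wl (D.U F) (D.inN (D.R.Ex v)) := Nat.cast_nonneg _
    change C5 * ((wl (D.U F) (D.inN (D.R.Ex v)) : ℝ) + 1) ≤
      C * (1 + (wl (D.U F) (D.inN (D.R.Ex v)) : ℝ))
    rw [add_comm (wl (D.U F) (D.inN (D.R.Ex v)) : ℝ) 1]
    exact mul_le_mul_of_nonneg_right (by linarith) (by linarith)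

end conc

end Vale.Agent.P188.H796

end

section

/-!
P188: the field `C_le` of the real model for the concrete group `D.S`.
-/

open scoped commutatorElement

namespace Agent.P188.H428

open Vale.Agent.P188.H269 Vale.Agent.P188.H796 Vale.Agent.P188.H615 Vale.Agent.P188.Z1
open Vale.Agent.P188.H530 (hgt)

section conc

variable {Γ : Type} [Group Γ] {k : ℕ} {η : Γ →* Multiplicative (Fin k → ℤ)} {d n : ℕ}
  (D : MB η.ker d n)

/-- letters of the Cartan words are uniformly bounded -/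
theorem letter_bound (h : Set D.R.V) (τ : (Fin k → ℤ) → D.S) :
    ∃ K : ℝ, 0 ≤ K ∧ ∀ a : D.S, ((∃ v ∈ h, D.nm v ≤ 1 ∧ D.ex v = a) ∨
      (∃ w : Fin k → ℤ, (∀ i, |w i| ≤ 1) ∧ (τ w = a ∨ (τ w)⁻¹ = a))) →
      ‖hgt (D.θ η) a‖ ≤ K ∧ ∀ v, D.nm (D.AdE a v) ≤ K * D.nm v := by
  classical
  obtain ⟨C, hC, h1⟩ := D.Ad_ex_bound
  have hdom : ∀ a : D.S, ∃ K : ℝ, 0 ≤ K ∧ ∀ v, D.nm (D.AdE a v) ≤ K * D.nm v := fun a =>
    sem_dom D.nm D.nm_zero (D.nm.comp (D.AdE a))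
  choose K hK0 hK using hdom
  have hfin : {w : Fin k → ℤ | ∀ i, |w i| ≤ 1}.Finite := by
    refine Set.Finite.subset (Set.Finite.pi' (t := fun _ : Fin k => Set.Icc (-1 : ℤ) 1)
      fun _ => Set.finite_Icc _ _) ?_
    intro w hw i
    exact abs_le.1 (hw i)
  obtain ⟨M, hM⟩ := (hfin.image fun w =>
    max (max (K (τ w)) (K (τ w)⁻¹)) (max ‖hgt (D.θ η) (τ w)‖ ‖hgt (D.θ η) (τ w)⁻¹‖)).bddAbove
  refine ⟨max (C * (1 + 1) ^ (2 * D.R.m)) M, le_max_of_le_left (by positivity), ?_⟩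
  rintro a (⟨v, _, hv1, rfl⟩ | ⟨w, hw, hw'⟩)
  · refine ⟨?_, fun x => ?_⟩
    · rw [D.hgt_ex, norm_zero]
      exact le_max_of_le_left (by positivity)
    · refine (h1 v x).trans (mul_le_mul_of_nonneg_right ?_ (apply_nonneg D.nm _))
      refine le_max_of_le_left (mul_le_mul_of_nonneg_left ?_ hC.le)
      have h0 : 0 ≤ D.nm v := apply_nonneg D.nm _
      exact pow_le_pow_left₀ (by linarith) (by linarith) _
  · have h2 := hM ⟨w, hw, rfl⟩
    simp only at h2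
    rcases hw' with rfl | rfl
    · refine ⟨le_max_of_le_right (le_trans ?_ h2), fun x => (hK _ x).trans
        (mul_le_mul_of_nonneg_right (le_max_of_le_right (le_trans ?_ h2)) (apply_nonneg D.nm _))⟩
      · exact (le_max_left _ _).trans (le_max_right _ _)
      · exact (le_max_left _ _).trans (le_max_left _ _)
    · refine ⟨le_max_of_le_right (le_trans ?_ h2), fun x => (hK _ x).trans
        (mul_le_mul_of_nonneg_right (le_max_of_le_right (le_trans ?_ h2)) (apply_nonneg D.nm _))⟩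
      · exact (le_max_right _ _).trans (le_max_right _ _)
      · exact (le_max_right _ _).trans (le_max_left _ _)

/-- letters of the Cartan words are in the Cartan group -/
theorem letter_mem (habel : ∀ a b : Γ, ⁅a, b⁆ ∈ η.ker) {t : D.S} {τ : (Fin k → ℤ) → D.S}
    (hτ : ∀ w, τ w ∈ (expS D habel).C t) {a : D.S}
    (ha : (∃ v ∈ (W D.AdE t 0 : Set D.R.V), D.nm v ≤ 1 ∧ D.ex v = a) ∨
      (∃ w : Fin k → ℤ, (∀ i, |w i| ≤ 1) ∧ (τ w = a ∨ (τ w)⁻¹ = a))) :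
    a ∈ (expS D habel).C t := by
  rcases ha with ⟨v, hv, _, rfl⟩ | ⟨w, _, rfl | rfl⟩
  · exact (expS D habel).E_mem_C hv
  · exact hτ w
  · exact ((expS D habel).C t).inv_mem (hτ w)

/-- **`C_le`** for one weight -/
theorem C_le_one (habel : ∀ a b : Γ, ⁅a, b⁆ ∈ η.ker) {t : D.S} (hs : Sep D.AdE t)
    {τ : (Fin k → ℤ) → D.S} (hτ : ∀ w, τ w ∈ (expS D habel).C t)
    (b : Ht k →L[ℝ] ℝ) {b' : D.S → ℝ} (hb' : b' ∈ Wts D.AdE ⊤)
    (hb : ∀ c, b' c = b (hgt (D.θ η) c)) :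
    ∃ (C : ℝ) (e : ℕ), 0 ≤ C ∧ ∀ m : ℕ, ∀ c ∈ CBall D.nm (W D.AdE t 0 : Set D.R.V) D.ex τ m,
      ∀ v ∈ W D.AdE t (b (hgt (D.θ η) t)),
      D.nm (D.AdE c v) ≤ C * (1 + m) ^ e * Real.exp (b (hgt (D.θ η) c)) * D.nm v := by
  obtain ⟨K, hK0, hK⟩ := letter_bound D (W D.AdE t 0 : Set D.R.V) τ
  obtain ⟨C, e, hC, h1⟩ := poly_cartan (expS D habel) hs hb' D.nm D.nm_zero
    {a | (∃ v ∈ (W D.AdE t 0 : Set D.R.V), D.nm v ≤ 1 ∧ D.ex v = a) ∨
      (∃ w : Fin k → ℤ, (∀ i, |w i| ≤ 1) ∧ (τ w = a ∨ (τ w)⁻¹ = a))}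
    (K := max K (‖b‖ * K)) (le_max_of_le_left hK0) (by
      intro c hc
      obtain ⟨h2, h3⟩ := hK c hc
      refine ⟨?_, fun v => (h3 v).trans
        (mul_le_mul_of_nonneg_right (le_max_left _ _) (apply_nonneg D.nm _))⟩
      rw [hb c]
      refine le_max_of_le_right ?_
      exact (b.le_opNorm _).trans (mul_le_mul_of_nonneg_left h2 (norm_nonneg _)))
  refine ⟨C, e, hC, ?_⟩
  rintro m c ⟨L, hL1, rfl, hL2⟩ v hv
  have h2 := h1 L (fun a ha => ⟨hL2 a ha, letter_mem D habel hτ (hL2 a ha)⟩) v (by rwa [hb t])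
  rw [hb L.prod] at h2
  refine h2.trans (mul_le_mul_of_nonneg_right (mul_le_mul_of_nonneg_right
    (mul_le_mul_of_nonneg_left ?_ hC) (Real.exp_pos _).le) (apply_nonneg D.nm _))
  refine pow_le_pow_left₀ (by positivity) ?_ _
  have : (L.length : ℝ) ≤ m := by exact_mod_cast hL1
  linarith

/-- **`C_le`** for a finite set of weights -/
theorem C_le (habel : ∀ a b : Γ, ⁅a, b⁆ ∈ η.ker) {t : D.S} (hs : Sep D.AdE t)
    {τ : (Fin k → ℤ) → D.S} (hτ : ∀ w, τ w ∈ (expS D habel).C t)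
    (Wt : Finset (Ht k →L[ℝ] ℝ))
    (hWt : ∀ b ∈ Wt, ∃ b' ∈ Wts D.AdE ⊤, ∀ c, b' c = b (hgt (D.θ η) c)) :
    ∃ (C : ℝ) (e : ℕ), 0 ≤ C ∧ ∀ m : ℕ, ∀ c ∈ CBall D.nm (W D.AdE t 0 : Set D.R.V) D.ex τ m,
      ∀ b ∈ Wt, ∀ v ∈ W D.AdE t (b (hgt (D.θ η) t)),
      D.nm (D.AdE c v) ≤ C * (1 + m) ^ e * Real.exp (b (hgt (D.θ η) c)) * D.nm v := by
  classical
  induction Wt using Finset.induction_on with
  | empty => exact ⟨0, 0, le_rfl, fun m c _ b hb => absurd hb (Finset.notMem_empty b)⟩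
  | insert b0 Wt _ ih =>
    obtain ⟨C, e, hC, h1⟩ := ih fun b hb => hWt b (Finset.mem_insert_of_mem hb)
    obtain ⟨b', hb', hb⟩ := hWt b0 (Finset.mem_insert_self _ _)
    obtain ⟨C', e', hC', h2⟩ := C_le_one D habel hs hτ b0 hb' hb
    refine ⟨C + C', e + e', by positivity, fun m c hc b hbW v hv => ?_⟩
    have hm : (1 : ℝ) ≤ 1 + m := by linarith [(Nat.cast_nonneg m : (0 : ℝ) ≤ m)]
    have key : ∀ (C₁ : ℝ) (e₁ : ℕ), 0 ≤ C₁ → C₁ ≤ C + C' → e₁ ≤ e + e' →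
        C₁ * (1 + m) ^ e₁ * Real.exp (b (hgt (D.θ η) c)) * D.nm v ≤
          (C + C') * (1 + m) ^ (e + e') * Real.exp (b (hgt (D.θ η) c)) * D.nm v := by
      intro C₁ e₁ h0 hc1 he1
      have h3 : (1 + (m : ℝ)) ^ e₁ ≤ (1 + m) ^ (e + e') := pow_le_pow_right₀ hm he1
      have h4 : 0 ≤ D.nm v := apply_nonneg D.nm _
      gcongr
    rcases Finset.mem_insert.1 hbW with rfl | hbW
    · exact (h2 m c hc v hv).trans (key C' e' hC' (by linarith) (by omega))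
    · exact (h1 m c hc b hbW v hv).trans (key C e hC (by linarith) (by omega))

end conc

end Agent.P188.H428

end
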