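import Vale.Agent.P188.R.G067
import Vale.Agent.P188.R.G069
import Vale.Agent.P188.R.G009

section

/-!
# P188, block DBOX: heights and windows
-/

set_option linter.all false

open MeasureTheory Set Filter
open Vale.Agent.P188.H530 (hgt hgt_mul)
open Vale.Agent.P188.H540 (vec vec_injective LP)
open scoped Pointwise

namespace Vale.Agent.P188.Z1.DB

variable {S : Type} [Group S] [MeasurableSpace S] {Γ : Type} [Group Γ]
  {V : Type} [AddCommGroup V] [Module ℝ V] {k : ℕ} (M : RModel S Γ V k)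

/-! ### heights -/

theorem θ_vec (w : Fin k → ℤ) : M.θ (M.τ w) = vec w := M.θ_τ w

theorem θ_eq_vec (z : S) : M.θ z = vec (Multiplicative.toAdd (M.η z)) := rfl

theorem θ_sec (z : S) : M.θ (M.sec z) = M.θ z := by
  unfold RModel.sec
  rw [θ_vec]
  rfl

theorem η_sec (z : S) : M.η (M.sec z) = M.η z := by
  unfold RModel.sec
  rw [M.η_τ]
  rfl

theorem η_of_θ {z : S} (h : M.θ z = 0) : M.η z = 1 := by
  have h1 : vec (Multiplicative.toAdd (M.η z)) = vec (0 : Fin k → ℤ) := by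
    rw [← θ_eq_vec, h]
    funext i
    simp [vec]
  have h2 := vec_injective h1
  exact Multiplicative.toAdd.injective h2

theorem θ_of_η {z : S} (h : M.η z = 1) : M.θ z = 0 := by
  rw [θ_eq_vec, h]
  funext i
  simp [vec]

/-! ### the window -/

theorem en_nonneg {k : ℕ} (b : Ht k →L[ℝ] ℝ) : 0 ≤ en b := Real.sqrt_nonneg _

theorem apply_eq_sum {k : ℕ} (b : Ht k →L[ℝ] ℝ) (x : Ht k) : b x = ∑ i, x i * sh b i := by
  have h : x = ∑ i, x i • (Pi.single i (1 : ℝ) : Ht k) := by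
    funext j
    simp [Finset.sum_apply, Pi.single_apply]
  conv_lhs => rw [h]
  rw [map_sum]
  refine Finset.sum_congr rfl fun i _ => ?_
  rw [map_smul]
  rfl

theorem en_pos {k : ℕ} {b : Ht k →L[ℝ] ℝ} (hb : b ≠ 0) : 0 < en b := by
  have h1 : ∃ i, sh b i ≠ 0 := by
    by_contra hcon
    push Not at hcon
    apply hb
    ext x
    rw [apply_eq_sum]
    simp [hcon]
  obtain ⟨i, hi⟩ := h1
  refine Real.sqrt_pos.2 ?_
  have h2 : 0 < sh b i ^ 2 := by positivity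
  exact lt_of_lt_of_le h2 (Finset.single_le_sum (f := fun i => sh b i ^ 2)
    (fun j _ => sq_nonneg _) (Finset.mem_univ i))

/-- the window is bounded -/
theorem exists_window_bdd : ∃ C : ℝ, 0 < C ∧ ∀ (x : Ht k) (t : ℝ), 0 ≤ t →
    (∀ b ∈ M.Φ, b x ≤ t * en b) → ‖x‖ ≤ C * t := by
  classical
  -- lower bounds
  set A : ℝ := ∑ b ∈ M.Φ, M.mult b * en b with hA
  have hA0 : 0 ≤ A := Finset.sum_nonneg fun b hb => mul_nonneg (M.mult_pos b hb).le (en_nonneg b)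
  have hlow : ∀ (x : Ht k) (t : ℝ), 0 ≤ t → (∀ b ∈ M.Φ, b x ≤ t * en b) → ∀ b ∈ M.Φ,
      |b x| ≤ t * (en b + A / M.mult b) := by
    intro x t ht hx b hb
    have h1 : ∑ b ∈ M.Φ, M.mult b * b x = 0 := by
      have := congrArg (fun f : Ht k →L[ℝ] ℝ => f x) M.unimod
      simpa [ContinuousLinearMap.sum_apply] using this
    have h2 : M.mult b * b x + ∑ b' ∈ M.Φ.erase b, M.mult b' * b' x = 0 := by
      exact (Finset.add_sum_erase M.Φ (fun b' => M.mult b' * b' x) hb).trans h1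
    have h3 : ∑ b' ∈ M.Φ.erase b, M.mult b' * b' x ≤ t * A := by
      calc ∑ b' ∈ M.Φ.erase b, M.mult b' * b' x
          ≤ ∑ b' ∈ M.Φ.erase b, M.mult b' * (t * en b') :=
            Finset.sum_le_sum fun b' hb' => mul_le_mul_of_nonneg_left
              (hx b' (Finset.mem_of_mem_erase hb')) (M.mult_pos b' (Finset.mem_of_mem_erase hb')).le
        _ ≤ ∑ b' ∈ M.Φ, M.mult b' * (t * en b') :=
            Finset.sum_le_sum_of_subset_of_nonneg (Finset.erase_subset _ _)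
              fun b' hb' _ => mul_nonneg (M.mult_pos b' hb').le (mul_nonneg ht (en_nonneg b'))
        _ = t * A := by
            rw [hA, Finset.mul_sum]
            exact Finset.sum_congr rfl fun b' _ => by ring
    have hm := M.mult_pos b hb
    have h4 : -(t * (A / M.mult b)) ≤ b x := by
      have h5 : -(t * A) ≤ M.mult b * b x := by linarith
      have h6 : -(t * (A / M.mult b)) = (-(t * A)) / M.mult b := by ring
      rw [h6, div_le_iff₀ hm]
      linarith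
    rw [abs_le]
    have h7 : 0 ≤ t * en b := mul_nonneg ht (en_nonneg b)
    have h8 : 0 ≤ t * (A / M.mult b) := by positivity
    constructor
    · have : t * (en b + A / M.mult b) = t * en b + t * (A / M.mult b) := by ring
      linarith
    · have : t * (en b + A / M.mult b) = t * en b + t * (A / M.mult b) := by ring
      linarith [hx b hb]
  -- the injective linear map
  set T : Ht k →ₗ[ℝ] (M.Φ → ℝ) := LinearMap.pi fun b => (b : Ht k →L[ℝ] ℝ).toLinearMap with hT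
  have hTker : LinearMap.ker T = ⊥ := by
    rw [LinearMap.ker_eq_bot']
    intro x hx
    apply M.Φ_span x
    intro b hb
    have := congrFun hx ⟨b, hb⟩
    simpa [hT] using this
  obtain ⟨K, hK0, hK⟩ := LinearMap.exists_antilipschitzWith T hTker
  set C' : ℝ := ∑ b ∈ M.Φ, (en b + A / M.mult b) with hC'
  have hterm : ∀ b ∈ M.Φ, 0 ≤ en b + A / M.mult b := fun b hb =>
    add_nonneg (en_nonneg b) (div_nonneg hA0 (M.mult_pos b hb).le)
  have hC'0 : 0 ≤ C' := Finset.sum_nonneg hterm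
  refine ⟨K * C' + 1, by positivity, fun x t ht hx => ?_⟩
  have h1 : ‖x‖ ≤ K * ‖T x‖ := by
    have := hK.le_mul_dist x 0
    rw [map_zero, dist_zero_right, dist_zero_right] at this
    exact this
  have h2 : ‖T x‖ ≤ t * C' := by
    rw [pi_norm_le_iff_of_nonneg (mul_nonneg ht hC'0)]
    rintro ⟨b, hb⟩
    have h3 := hlow x t ht hx b hb
    have h4 : en b + A / M.mult b ≤ C' := Finset.single_le_sum (f := fun b => en b + A / M.mult b)
      (fun b hb => hterm b hb) hb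
    calc ‖T x ⟨b, hb⟩‖ = |b x| := rfl
      _ ≤ t * (en b + A / M.mult b) := h3
      _ ≤ t * C' := mul_le_mul_of_nonneg_left h4 ht
  calc ‖x‖ ≤ K * ‖T x‖ := h1
    _ ≤ K * (t * C') := mul_le_mul_of_nonneg_left h2 K.2
    _ ≤ (K * C' + 1) * t := by nlinarith

end Vale.Agent.P188.Z1.DB

end

section

/-!
# P188, Z1, block DBOX: the box sets have small boundary
-/

set_option linter.all false

open MeasureTheory Set Filter
open Vale.Agent.P188.H530 (hgt hgt_mul)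
open Vale.Agent.P188.H540 (vec LP)
open scoped Pointwise

namespace Vale.Agent.P188.Z1

namespace RModel

variable {S : Type} [Group S] [MeasurableSpace S] {Γ : Type} [Group Γ]
  {V : Type} [AddCommGroup V] [Module ℝ V] {k : ℕ} {M : RModel S Γ V k}

/-- fine properties of the natural boxes (615's `qbchE`, `nb_smul_sub`, and volumes) -/
structure NatBox.Fine (B : M.NatBox) : Prop where
  fmul : ∀ ε : ℝ, 0 < ε → ∃ δ : ℝ, 0 < δ ∧ δ ≤ 1 ∧ ∀ R : M.ι → ℝ, (∀ i, 0 ≤ R i) →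
    ∀ x ∈ B.Bx R, ∀ y ∈ B.Bx (fun i => δ * R i),
      x * y ∈ B.Bx (fun i => (1 + ε) * R i) ∧ y * x ∈ B.Bx (fun i => (1 + ε) * R i)
  fvol : ∀ ε : ℝ, 0 < ε → ∃ δ : ℝ, 0 < δ ∧ ∀ R : M.ι → ℝ, (∀ i, 0 < R i) →
    M.μ (B.Bx fun i => (1 + δ) * R i) ≤ ENNReal.ofReal (1 + ε) * M.μ (B.Bx R)

/-! ### sets of the form (box of `N_R`) times (heights) -/

/-- `N_R`-part in `A`, heights in `W` -/
def BW (M : RModel S Γ V k) (A : Set S) (W : Set (Fin k → ℤ)) : Set S :=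
  {z | z * (M.sec z)⁻¹ ∈ A ∧ Multiplicative.toAdd (M.η z) ∈ W}

theorem sec_of_η {z : S} {w : Fin k → ℤ} (h : M.η z = Multiplicative.ofAdd w) :
    M.sec z = M.τ w := by
  unfold sec
  rw [h]
  rfl

theorem BW_eq {A : Set S} (hA : ∀ x ∈ A, M.η x = 1) (W : Set (Fin k → ℤ)) :
    BW M A W = ⋃ w ∈ W, (fun z => z * (M.τ w)⁻¹) ⁻¹' A := by
  ext z
  simp only [BW, mem_setOf_eq, mem_iUnion, mem_preimage, exists_prop]
  constructor
  · rintro ⟨h1, h2⟩
    exact ⟨_, h2, h1⟩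
  · rintro ⟨w, hw, h1⟩
    have h2 := hA _ h1
    rw [map_mul, map_inv, M.η_τ, mul_inv_eq_one] at h2
    rw [sec_of_η h2, h2]
    exact ⟨h1, hw⟩

theorem BW_meas {A : Set S} (hA : MeasurableSet A) (hA1 : ∀ x ∈ A, M.η x = 1)
    (W : Set (Fin k → ℤ)) : MeasurableSet (BW M A W) := by
  rw [BW_eq hA1]
  exact MeasurableSet.biUnion (Set.to_countable W) fun w _ => (M.mp _).measurable hA

/-- **measure of (box) x (heights)** -/
theorem BW_measure {A : Set S} (hA : MeasurableSet A) (hA1 : ∀ x ∈ A, M.η x = 1)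
    {W : Set (Fin k → ℤ)} (hW : W.Finite) : M.μ (BW M A W) = W.ncard * M.μ A := by
  rw [BW_eq hA1]
  have h1 : (⋃ w ∈ W, (fun z => z * (M.τ w)⁻¹) ⁻¹' A) =
      ⋃ w ∈ hW.toFinset, (fun z => z * (M.τ w)⁻¹) ⁻¹' A := by
    ext z; simp
  rw [h1, measure_biUnion_finset]
  · have h2 : ∀ w ∈ hW.toFinset, M.μ ((fun z => z * (M.τ w)⁻¹) ⁻¹' A) = M.μ A := fun w _ =>
      (M.mp _).measure_preimage hA.nullMeasurableSet
    rw [Finset.sum_congr rfl h2, Finset.sum_const, nsmul_eq_mul, ncard_eq_toFinset_card W hW]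
  · intro w _ w' _ hww
    show Disjoint _ _
    rw [Set.disjoint_left]
    intro z h2 h3
    have h4 := hA1 _ h2
    have h5 := hA1 _ h3
    rw [map_mul, map_inv, M.η_τ, mul_inv_eq_one] at h4 h5
    rw [h4] at h5
    exact hww (Multiplicative.ofAdd.injective h5)
  · intro w _
    exact (M.mp _).measurable hA

/-- multiplication by `g` on the right -/
theorem part_mul (z g : S) : z * g * (M.sec (z * g))⁻¹ =
    (z * (M.sec z)⁻¹) * (M.sec z * g * (M.sec (M.sec z * g))⁻¹) := by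
  have h0 : M.η (z * g) = M.η (M.sec z * g) := by rw [map_mul, map_mul, DB.η_sec]
  have h : M.sec (z * g) = M.sec (M.sec z * g) :=
    congrArg (fun t => M.τ (Multiplicative.toAdd t)) h0
  rw [h]
  group

/-! ### conjugates of small elements -/

theorem adm_two (y : ℝ) (hy : 1 ≤ y) : M.Adm (M.two 1 y) := by
  classical
  have h1 : ∀ i, 1 ≤ M.two 1 y i := by
    intro i
    unfold two
    split_ifs
    · exact le_rfl
    · exact hy
  have hone : ∀ L : List M.ι, 1 ≤ (L.map (M.two 1 y)).prod := by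
    intro L
    induction L with
    | nil => simp
    | cons i L ih =>
      rw [List.map_cons, List.prod_cons]
      nlinarith [h1 i]
  refine ⟨fun i => lt_of_lt_of_le one_pos (h1 i), ?_⟩
  intro i w hw hs
  by_cases hi : M.wt i = 0
  · have : M.two 1 y i = 1 := by unfold two; rw [if_pos hi]
    rw [this]
    exact hone w
  · have h2 : M.two 1 y i = y := by unfold two; rw [if_neg hi]
    rw [h2]
    -- the word has a letter of nonzero weight
    have h3 : ∃ j ∈ w, M.wt j ≠ 0 := by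
      by_contra hcon
      push Not at hcon
      apply hi
      rw [← hs]
      apply List.sum_eq_zero
      intro x hx
      rw [List.mem_map] at hx
      obtain ⟨j, hj, rfl⟩ := hx
      exact hcon j hj
    obtain ⟨j, hj, hj0⟩ := h3
    have h4 : ∀ L : List M.ι, j ∈ L → y ≤ (L.map (M.two 1 y)).prod := by
      intro L
      induction L with
      | nil => intro h; simp at h
      | cons i L ih =>
        intro h
        rw [List.map_cons, List.prod_cons]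
        rcases List.mem_cons.1 h with rfl | h5
        · have h6 : M.two 1 y j = y := by unfold two; rw [if_neg hj0]
          rw [h6]
          nlinarith [hone L]
        · nlinarith [h1 i, ih h5]
    exact h4 w hj

theorem conj_mem (B : M.NatBox) {w : Fin k → ℤ} {g c : S} {v y : V} {n : ℕ} {Ae A0 N : ℝ}
    (hv : v ∈ M.e) (hv' : M.nm v ≤ Ae) (hy : y ∈ M.Vw 0) (hy' : M.nm y ≤ A0) (hc : c ∈ M.CB n)
    (hg : g = M.ex v * (M.ex y * c))
    (hN : 1 + (⌈M.C0 * (1 + ‖vec w‖)⌉₊ : ℝ) + n + ⌈M.C0 * (1 + ‖vec w + M.θ g‖)⌉₊ ≤ N)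
    {R : M.ι → ℝ}
    (h0 : ∀ i, M.wt i = 0 → B.C * (1 + M.C0) * N ^ (B.dg + M.deg) * (1 + A0) ≤ R i)
    (h1 : ∀ i, M.wt i ≠ 0 → 1 ≤ R i ∧
      B.C * (1 + M.C0) * N ^ (B.dg + M.deg) * Real.exp (M.wt i (vec w)) *
        (B.C * (1 + Ae)) ≤ R i) :
    M.τ w * g * (M.sec (M.τ w * g))⁻¹ ∈ B.Bx (fun i => B.C * (B.C * R i)) := by
  classical
  have hC0 := M.one_le_C0
  have hBC := B.one_le
  have hAe : 0 ≤ Ae := (apply_nonneg _ _).trans hv'
  have hA0 : 0 ≤ A0 := (apply_nonneg _ _).trans hy'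
  set nw : ℕ := ⌈M.C0 * (1 + ‖vec w‖)⌉₊ with hnw
  set w'' : Fin k → ℤ := Multiplicative.toAdd (M.η (M.τ w * g)) with hw''
  set nw'' : ℕ := ⌈M.C0 * (1 + ‖vec w + M.θ g‖)⌉₊ with hnw''
  have hvw'' : vec w'' = vec w + M.θ g := by
    rw [hw'', ← DB.θ_eq_vec, M.θ_mul, (DB.θ_vec M)]
  have hτw : M.τ w ∈ M.CB nw := M.τ_CB w
  have hτw'' : M.τ w'' ∈ M.CB nw'' := by
    have := M.τ_CB w''
    have h5 : (fun i => (w'' i : ℝ)) = vec w + M.θ g := hvw''
    rw [h5] at this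
    exact this
  have hN1 : 1 ≤ N := by
    have : (0 : ℝ) ≤ nw := Nat.cast_nonneg _
    have : (0 : ℝ) ≤ n := Nat.cast_nonneg _
    have : (0 : ℝ) ≤ nw'' := Nat.cast_nonneg _
    linarith
  have hNd : ∀ a : ℕ, a ≤ B.dg + M.deg → N ^ a ≤ N ^ (B.dg + M.deg) := fun a ha =>
    pow_le_pow_right₀ hN1 ha
  have hNd1 : 1 ≤ N ^ (B.dg + M.deg) := one_le_pow₀ hN1
  set Q : ℝ := N ^ (B.dg + M.deg) with hQ
  have hQ0 : 0 ≤ Q := by linarith
  -- the three parts
  have e1 : M.τ w * g * (M.sec (M.τ w * g))⁻¹ =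
      (M.τ w * M.ex v * (M.τ w)⁻¹) * (M.τ w * M.ex y * (M.τ w)⁻¹) *
        (M.τ w * c * (M.τ w'')⁻¹) := by
    have : M.sec (M.τ w * g) = M.τ w'' := rfl
    rw [this, hg]
    group
  have hnwN : (1 + nw : ℝ) ≤ N := by
    have : (0 : ℝ) ≤ n := Nat.cast_nonneg _
    have : (0 : ℝ) ≤ nw'' := Nat.cast_nonneg _
    linarith
  have hRi : ∀ i, 0 ≤ R i := by
    intro i
    by_cases hi : M.wt i = 0
    · refine le_trans ?_ (h0 i hi)
      positivity
    · linarith [(h1 i hi).1]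
  -- first part
  have p1 : M.τ w * M.ex v * (M.τ w)⁻¹ ∈ B.Bx R := by
    have h2 := B.ball_e v hv
    have h3 := B.conj nw (M.τ w) hτw (M.two 1 (B.C * (1 + M.nm v)))
      (adm_two _ (by have := apply_nonneg M.nm v; nlinarith)) _ h2
    refine B.mono _ _ ?_ ?_ h3
    · intro i
      have : 0 ≤ M.two 1 (B.C * (1 + M.nm v)) i := by
        unfold two
        split_ifs
        · exact zero_le_one
        · have := apply_nonneg M.nm v; positivity
      positivity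
    · intro i
      rw [(DB.θ_vec M)]
      have hp : (1 + (nw : ℝ)) ^ B.dg ≤ Q :=
        (pow_le_pow_left₀ (by positivity) hnwN _).trans (hNd _ (by omega))
      by_cases hi : M.wt i = 0
      · refine le_trans ?_ (h0 i hi)
        have h4 : M.two 1 (B.C * (1 + M.nm v)) i = 1 := by unfold two; rw [if_pos hi]
        rw [h4, hi]
        simp only [ContinuousLinearMap.zero_apply, Real.exp_zero, mul_one]
        calc B.C * (1 + (nw : ℝ)) ^ B.dg ≤ B.C * Q := by gcongr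
          _ = B.C * 1 * Q * 1 := by ring
          _ ≤ B.C * (1 + M.C0) * Q * (1 + A0) := by
              gcongr
              · linarith
              · linarith
      · refine le_trans ?_ (h1 i hi).2
        have h4 : M.two 1 (B.C * (1 + M.nm v)) i = B.C * (1 + M.nm v) := by
          unfold two; rw [if_neg hi]
        rw [h4]
        have h5 : B.C * (1 + (nw : ℝ)) ^ B.dg ≤ B.C * (1 + M.C0) * Q := by
          calc B.C * (1 + (nw : ℝ)) ^ B.dg ≤ B.C * Q := by gcongr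
            _ = B.C * 1 * Q := by ring
            _ ≤ B.C * (1 + M.C0) * Q := by gcongr; linarith
        have h6 : B.C * (1 + M.nm v) ≤ B.C * (1 + Ae) := by gcongr
        have h7 : 0 ≤ B.C * (1 + M.nm v) := by have := apply_nonneg M.nm v; positivity
        gcongr
  -- second part
  have hAd : ∀ (a : V), a ∈ M.Vw 0 → M.nm (M.Ad (M.τ w) a) ≤ M.C0 * Q * M.nm a ∧
      M.Ad (M.τ w) a ∈ M.Vw 0 := by
    intro a ha
    refine ⟨?_, M.C_inv nw _ hτw 0 a ha⟩
    have h2 := M.C_le nw _ hτw 0 M.zero_mem_Wt a ha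
    simp only [ContinuousLinearMap.zero_apply, Real.exp_zero, mul_one] at h2
    refine h2.trans ?_
    have hp : (1 + (nw : ℝ)) ^ M.deg ≤ Q :=
      (pow_le_pow_left₀ (by positivity) hnwN _).trans (hNd _ (by omega))
    have := apply_nonneg M.nm a
    gcongr
  have key : ∀ a : V, a ∈ M.Vw 0 → M.nm a ≤ M.C0 * Q * (1 + A0) → M.ex a ∈ B.Bx R := by
    intro a ha hna
    have h2 := B.ball_0 a ha
    refine B.mono _ _ ?_ ?_ h2
    · intro i
      unfold two
      split_ifs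
      · have := apply_nonneg M.nm a; positivity
      · exact zero_le_one
    · intro i
      unfold two
      split_ifs with hi
      · refine le_trans ?_ (h0 i hi)
        have h3 : 1 + M.nm a ≤ (1 + M.C0) * Q * (1 + A0) := by
          have : (1 : ℝ) ≤ Q * (1 + A0) := by nlinarith
          nlinarith
        calc B.C * (1 + M.nm a) ≤ B.C * ((1 + M.C0) * Q * (1 + A0)) := by gcongr
          _ = _ := by ring
      · exact (h1 i hi).1
  have p2 : M.τ w * M.ex y * (M.τ w)⁻¹ ∈ B.Bx R := by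
    rw [← M.ex_Ad]
    obtain ⟨h2, h3⟩ := hAd y hy
    refine key _ h3 (h2.trans ?_)
    have : M.nm y ≤ 1 + A0 := by linarith
    gcongr
  -- third part
  have p3 : M.τ w * c * (M.τ w'')⁻¹ ∈ B.Bx R := by
    have h2 : M.τ w * c * (M.τ w'')⁻¹ ∈ M.CB (nw + n + nw'') :=
      M.CB_mul (M.CB_mul hτw hc) (M.CB_inv hτw'')
    have h3 : M.η (M.τ w * c * (M.τ w'')⁻¹) = 1 := by
      apply DB.η_of_θ M
      rw [M.θ_mul, M.θ_mul, M.θ_inv, (DB.θ_vec M), (DB.θ_vec M), hvw'']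
      have h4 : M.θ g = M.θ c := by
        rw [hg, M.θ_mul, M.θ_mul, DB.θ_of_η M (M.η_ex v), DB.θ_of_η M (M.η_ex y), zero_add, zero_add]
      rw [h4]
      abel
    obtain ⟨a, ha, ha1, ha2⟩ := M.C_ker _ _ h2 h3
    rw [← ha1]
    refine key a ha (ha2.trans ?_)
    have hp : (1 + ((nw + n + nw'' : ℕ) : ℝ)) ^ M.deg ≤ Q := by
      refine (pow_le_pow_left₀ (by positivity) ?_ _).trans (hNd _ (by omega))
      push_cast
      linarith
    calc M.C0 * (1 + ((nw + n + nw'' : ℕ) : ℝ)) ^ M.deg ≤ M.C0 * Q := by gcongr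
      _ = M.C0 * Q * 1 := by ring
      _ ≤ M.C0 * Q * (1 + A0) := by gcongr; linarith
  rw [e1]
  have hCR : ∀ i, 0 ≤ B.C * R i := fun i => mul_nonneg (by linarith) (hRi i)
  refine B.mul _ hCR _ (B.mul _ hRi _ p1 _ p2) _ (B.mono _ _ hRi ?_ p3)
  intro i
  nlinarith [hRi i]

end RModel

end Vale.Agent.P188.Z1

end

section

/-!
# P188, Z1, block DBOX: the theorems DBOX and DVOL
-/

set_option linter.all false

open MeasureTheory Set Filter
open Vale.Agent.P188.H530 (hgt hgt_mul)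
open Vale.Agent.P188.H540 (vec LP LP_finite lat_ratio vec_injective)
open scoped Pointwise

namespace Vale.Agent.P188.Z1

namespace DB

variable {S : Type} [Group S] [MeasurableSpace S] {Γ : Type} [Group Γ]
  {V : Type} [AddCommGroup V] [Module ℝ V] {k : ℕ} {M : RModel S Γ V k}

open RModel

/-- the integral heights of the window `t P` -/
def Wn (M : RModel S Γ V k) (t : ℝ) : Set (Fin k → ℤ) := {w | ∀ b ∈ M.Φ, b (vec w) ≤ t * en b}

/-- the window -/
def Pw (M : RModel S Γ V k) : Set (Ht k) := {x | ∀ b ∈ M.Φ, b x ≤ en b}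

theorem Pw_convex : Convex ℝ (Pw M) := by
  have : Pw M = ⋂ b ∈ M.Φ, {x : Ht k | b x ≤ en b} := by ext x; simp [Pw]
  rw [this]
  exact convex_iInter₂ fun b _ => convex_halfSpace_le b.toLinearMap.isLinear _

theorem Pw_closed : IsClosed (Pw M) := by
  have : Pw M = ⋂ b ∈ M.Φ, {x : Ht k | b x ≤ en b} := by ext x; simp [Pw]
  rw [this]
  exact isClosed_biInter fun b _ => isClosed_le b.continuous continuous_const

theorem Pw_bounded : Bornology.IsBounded (Pw M) := by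
  obtain ⟨C, _, hC⟩ := exists_window_bdd M
  rw [isBounded_iff_forall_norm_le]
  refine ⟨C * 1, fun x hx => hC x 1 zero_le_one fun b hb => ?_⟩
  rw [one_mul]
  exact hx b hb

theorem Pw_interior : (0 : Ht k) ∈ interior (Pw M) := by
  have h1 : IsOpen (⋂ b ∈ M.Φ, {x : Ht k | b x < en b}) :=
    isOpen_biInter_finset fun b _ => isOpen_lt b.continuous continuous_const
  have h2 : (⋂ b ∈ M.Φ, {x : Ht k | b x < en b}) ⊆ Pw M := by
    intro x hx b hb
    have := mem_iInter₂.1 hx b hb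
    exact le_of_lt this
  refine interior_maximal h2 h1 (mem_iInter₂.2 fun b hb => ?_)
  show b 0 < en b
  rw [map_zero]
  exact en_pos (M.Φ_ne b hb)

theorem Wn_eq {t : ℝ} (ht : 0 < t) : Wn M t = LP (Pw M) t := by
  ext w
  simp only [Wn, LP, mem_setOf_eq, mem_smul_set_iff_inv_smul_mem₀ ht.ne', Pw]
  refine forall₂_congr fun b _ => ?_
  rw [map_smul, smul_eq_mul, inv_mul_le_iff₀ ht]

theorem Wn_finite {t : ℝ} (ht : 0 < t) : (Wn M t).Finite := by
  rw [Wn_eq ht]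
  exact LP_finite Pw_bounded t

theorem Wn_ratio {ε : ℝ} (hε : 0 < ε) : ∃ t : ℝ, 1 < t ∧ ∃ s₀ : ℝ, 0 < s₀ ∧ ∀ s : ℝ, s₀ ≤ s →
    ((Wn M (t * s)).ncard : ℝ) ≤ (1 + ε) * (Wn M s).ncard := by
  obtain ⟨t, ht, s₀, hs₀, h⟩ := lat_ratio Pw_convex (Pw_bounded (M := M))
    Pw_closed.measurableSet Pw_interior hε
  refine ⟨t, ht, s₀, hs₀, fun s hs => ?_⟩
  have h1 : 0 < s := hs₀.trans_le hs
  rw [Wn_eq (M := M) h1, Wn_eq (M := M) (t := t * s) (by nlinarith)]
  exact h s hs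

theorem zero_mem_Wn {t : ℝ} (ht : 0 ≤ t) : (0 : Fin k → ℤ) ∈ Wn M t := by
  intro b hb
  have : vec (0 : Fin k → ℤ) = 0 := by funext i; simp [vec]
  rw [this, map_zero]
  exact mul_nonneg ht (en_nonneg b)

/-! ### small elements -/

/-- decomposition of a small element -/
theorem exists_dec_small (M : RModel S Γ V k) : ∃ C' : ℝ, 1 ≤ C' ∧ ∀ κ₁ δ s : ℝ, 0 < κ₁ → κ₁ ≤ 1 →
    0 < δ → 1 ≤ s → ∀ g : S, ((M.l g : ℝ) ≤ κ₁ * s ∨ g ∈ M.FB δ (κ₁ * s)) →
    ∃ (v y : V) (c₀ : S) (n : ℕ), v ∈ M.e ∧ M.nm v ≤ Real.exp (C' * (κ₁ * s + 1)) ∧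
      y ∈ M.Vw 0 ∧ M.nm y ≤ Real.exp (δ * (κ₁ * s)) ∧ c₀ ∈ M.CB n ∧
      (n : ℝ) ≤ M.C0 * (1 + M.C0 * s) + 1 ∧ g = M.ex v * (M.ex y * c₀) ∧
      ‖M.θ g‖ ≤ M.C0 * (κ₁ * s) := by
  obtain ⟨Cl, hCl1, hCl⟩ := M.l_CB
  have hC0 := M.one_le_C0
  set C' : ℝ := M.C0 * (1 + Cl * M.C0 + Cl) with hC'
  have hC'1 : 1 ≤ C' := by
    have : 1 ≤ 1 + Cl * M.C0 + Cl := by nlinarith
    nlinarith
  refine ⟨C', hC'1, ?_⟩
  intro κ₁ δ s hκ₁ hκ₁1 hδ hs1 g hg
  have hs0 : (0 : ℝ) ≤ s := by linarith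
  have hκ₁s : κ₁ * s ≤ s := by nlinarith
  have hκ₁s0 : 0 ≤ κ₁ * s := by positivity
  rcases hg with hg | hg
  · obtain ⟨v, hv, c₀, hc₀, hgv⟩ := M.dec g
    have hl0 : (0 : ℝ) ≤ M.l g := Nat.cast_nonneg _
    have hn : (⌈M.C0 * M.l g⌉₊ : ℝ) ≤ M.C0 * (κ₁ * s) + 1 := by
      have := (Nat.ceil_lt_add_one (a := M.C0 * M.l g) (by positivity)).le
      have h2 : M.C0 * M.l g ≤ M.C0 * (κ₁ * s) := mul_le_mul_of_nonneg_left hg (by linarith)
      linarith
    refine ⟨v, 0, c₀, _, hv, ?_, zero_mem _, ?_, hc₀, ?_, ?_, ?_⟩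
    · refine (M.met_lo v).trans (Real.exp_le_exp.2 ?_)
      have h1 : M.ex v = g * c₀⁻¹ := by rw [hgv]; group
      have h2 : (M.l (M.ex v) : ℝ) ≤ M.l g + M.l c₀ := by
        rw [h1]
        have := M.len.mul g c₀⁻¹
        rw [M.len.inv] at this
        exact_mod_cast this
      have h3 := hCl _ _ hc₀
      have h4 : Cl * (⌈M.C0 * M.l g⌉₊ : ℝ) ≤ Cl * (M.C0 * (κ₁ * s) + 1) :=
        mul_le_mul_of_nonneg_left hn (by linarith)
      have h5 : (1 + M.l (M.ex v) : ℝ) ≤ (1 + Cl * M.C0 + Cl) * (κ₁ * s + 1) := by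
        nlinarith
      calc M.C0 * (1 + M.l (M.ex v)) ≤ M.C0 * ((1 + Cl * M.C0 + Cl) * (κ₁ * s + 1)) :=
            mul_le_mul_of_nonneg_left h5 (by linarith)
        _ = C' * (κ₁ * s + 1) := by rw [hC']; ring
    · rw [map_zero]; exact (Real.exp_pos _).le
    · have : M.C0 * (κ₁ * s) ≤ M.C0 * (1 + M.C0 * s) :=
        mul_le_mul_of_nonneg_left (by nlinarith) (by linarith)
      linarith
    · rw [M.ex_zero, one_mul]; exact hgv
    · have h1 := M.η_le g
      exact h1.trans (mul_le_mul_of_nonneg_left hg (by linarith))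
  · obtain ⟨v, hv, hv', y, hy, hy', w', hw', rfl⟩ := hg
    have hnw' : ‖vec w'‖ ≤ κ₁ * s := by
      rw [pi_norm_le_iff_of_nonneg hκ₁s0]
      intro i
      exact hw' i
    have hθ : M.θ (M.ex v * M.ex y * M.τ w') = vec w' := by
      rw [M.θ_mul, M.θ_mul, M.θ_ex, M.θ_ex, θ_vec, zero_add, zero_add]
    refine ⟨v, y, M.τ w', _, hv, hv'.trans (Real.exp_le_exp.2 ?_), hy, hy', M.τ_CB w', ?_, ?_, ?_⟩
    · nlinarith
    · have h1 := (Nat.ceil_lt_add_one (a := M.C0 * (1 + ‖(fun i => (w' i : ℝ))‖))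
        (by positivity)).le
      have h2 : M.C0 * (1 + ‖(fun i => (w' i : ℝ))‖) ≤ M.C0 * (1 + M.C0 * s) := by
        apply mul_le_mul_of_nonneg_left _ (by linarith)
        have h3 : ‖(fun i => (w' i : ℝ))‖ ≤ κ₁ * s := hnw'
        nlinarith
      linarith
    · rw [mul_assoc]
    · rw [hθ]
      nlinarith

/-- number of letters -/
theorem count_le {C0 CP s x y n : ℝ} (hC0 : 1 ≤ C0) (hCP : 0 ≤ CP) (hs : 1 ≤ s)
    (hx0 : 0 ≤ x) (hx : x ≤ CP * s) (hy0 : 0 ≤ y) (hy : y ≤ CP * s + C0 * s)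
    (hn : n ≤ C0 * (1 + C0 * s) + 1) :
    1 + (⌈C0 * (1 + x)⌉₊ : ℝ) + n + ⌈C0 * (1 + y)⌉₊ ≤ (4 + 3 * C0 * (1 + CP + C0)) * (1 + s) := by
  have h1 := (Nat.ceil_lt_add_one (a := C0 * (1 + x)) (by positivity)).le
  have h2 := (Nat.ceil_lt_add_one (a := C0 * (1 + y)) (by positivity)).le
  have h3 : C0 * (1 + x) ≤ C0 * (1 + CP * s) := mul_le_mul_of_nonneg_left (by linarith) (by linarith)
  have h4 : C0 * (1 + y) ≤ C0 * (1 + (CP * s + C0 * s)) :=
    mul_le_mul_of_nonneg_left (by linarith) (by linarith)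
  have h5 : 0 ≤ C0 * CP * s := by positivity
  have h6 : 0 ≤ C0 * C0 * s := by positivity
  have h7 : 0 ≤ C0 * s := by positivity
  have h8 : (4 + 3 * C0 * (1 + CP + C0)) * (1 + s) =
    4 + 4 * s + 3 * C0 + 3 * (C0 * CP) + 3 * (C0 * C0) + 3 * (C0 * s) + 3 * (C0 * CP * s) +
      3 * (C0 * C0 * s) := by ring
  have h9 : 0 ≤ C0 * CP := by positivity
  have h10 : 0 ≤ C0 * C0 := by positivity
  rw [h8]
  linarith

/-- estimate for the neutral letters -/
theorem est_neutral {K c' X δ κ₁ d₁ s : ℝ} (hK : 0 ≤ K) (hX : 0 ≤ X) (hc' : 0 < c')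
    (hδ : 0 ≤ δ * (κ₁ * s))
    (h : (2 * K / c') * X ≤ Real.exp ((d₁ - δ * κ₁) * s)) :
    K * X * (1 + Real.exp (δ * (κ₁ * s))) ≤ c' * Real.exp (d₁ * s) := by
  have h2 : 1 + Real.exp (δ * (κ₁ * s)) ≤ 2 * Real.exp (δ * (κ₁ * s)) := by
    have : 1 ≤ Real.exp (δ * (κ₁ * s)) := Real.one_le_exp hδ
    linarith
  have h3 : 2 * K * X ≤ c' * Real.exp ((d₁ - δ * κ₁) * s) := by
    have := mul_le_mul_of_nonneg_left h hc'.le
    calc 2 * K * X = c' * ((2 * K / c') * X) := by field_simp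
      _ ≤ _ := this
  calc K * X * (1 + Real.exp (δ * (κ₁ * s)))
      ≤ K * X * (2 * Real.exp (δ * (κ₁ * s))) := by gcongr
    _ = 2 * K * X * Real.exp (δ * (κ₁ * s)) := by ring
    _ ≤ c' * Real.exp ((d₁ - δ * κ₁) * s) * Real.exp (δ * (κ₁ * s)) := by gcongr
    _ = c' * Real.exp (d₁ * s) := by
        rw [mul_assoc, ← Real.exp_add]
        congr 2
        ring

/-- estimate for the other letters -/
theorem est_other {K BC c' X C' κ κ₁ e s b : ℝ} (hK : 0 ≤ K) (hBC : 0 ≤ BC) (hX : 0 ≤ X)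
    (hc' : 0 < c') (hC' : 0 ≤ C' * (κ₁ * s + 1)) (hb : b ≤ (1 - κ) * s * e)
    (h : (2 * K * BC * Real.exp C' / c') * X ≤ Real.exp ((κ * e - C' * κ₁) * s)) :
    K * X * Real.exp b * (BC * (1 + Real.exp (C' * (κ₁ * s + 1)))) ≤ c' * Real.exp (s * e) := by
  have hb' : Real.exp b ≤ Real.exp ((1 - κ) * s * e) := Real.exp_le_exp.2 hb
  have h2 : 1 + Real.exp (C' * (κ₁ * s + 1)) ≤ 2 * (Real.exp C' * Real.exp (C' * κ₁ * s)) := by
    have h6 : Real.exp (C' * (κ₁ * s + 1)) = Real.exp C' * Real.exp (C' * κ₁ * s) := by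
      rw [← Real.exp_add]; congr 1; ring
    have : 1 ≤ Real.exp (C' * (κ₁ * s + 1)) := Real.one_le_exp hC'
    rw [← h6]
    linarith
  have h3 : 2 * K * BC * Real.exp C' * X ≤ c' * Real.exp ((κ * e - C' * κ₁) * s) := by
    have := mul_le_mul_of_nonneg_left h hc'.le
    calc 2 * K * BC * Real.exp C' * X = c' * ((2 * K * BC * Real.exp C' / c') * X) := by field_simp
      _ ≤ _ := this
  calc K * X * Real.exp b * (BC * (1 + Real.exp (C' * (κ₁ * s + 1))))
      ≤ K * X * Real.exp ((1 - κ) * s * e) *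
        (BC * (2 * (Real.exp C' * Real.exp (C' * κ₁ * s)))) := by gcongr
    _ = 2 * K * BC * Real.exp C' * X *
        (Real.exp ((1 - κ) * s * e) * Real.exp (C' * κ₁ * s)) := by ring
    _ ≤ c' * Real.exp ((κ * e - C' * κ₁) * s) *
        (Real.exp ((1 - κ) * s * e) * Real.exp (C' * κ₁ * s)) := by gcongr
    _ = c' * Real.exp (s * e) := by
        rw [mul_assoc, ← Real.exp_add, ← Real.exp_add]
        congr 2
        ring

theorem small_mem (B : M.NatBox) : ∃ C' : ℝ, 1 ≤ C' ∧ ∀ κ κ₁ δ d₁ c : ℝ, 0 < κ → κ < 1 →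
    0 < κ₁ → κ₁ ≤ 1 → (∀ b ∈ M.Φ, C' * κ₁ < κ * en b) → 0 < δ → δ * κ₁ < d₁ → 0 < c →
    ∀ᶠ s : ℝ in atTop, ∀ w ∈ Wn M ((1 - κ) * s), ∀ g : S,
      ((M.l g : ℝ) ≤ κ₁ * s ∨ g ∈ M.FB δ (κ₁ * s)) →
      M.τ w * g * (M.sec (M.τ w * g))⁻¹ ∈ B.Bx (fun i => c * M.sz d₁ s i) := by
  classical
  obtain ⟨CP, hCP0, hCP⟩ := exists_window_bdd M
  obtain ⟨C', hC'1, hdec⟩ := exists_dec_small M
  have hC0 := M.one_le_C0
  have hBC := B.one_le
  refine ⟨C', hC'1, ?_⟩
  intro κ κ₁ δ d₁ c hκ hκ1 hκ₁ hκ₁1 hκb hδ hδd hc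
  set P1 : ℝ := 4 + 3 * M.C0 * (1 + CP + M.C0) with hP1
  have hP10 : 0 < P1 := by positivity
  set D : ℕ := B.dg + M.deg with hD
  set K : ℝ := B.C * (1 + M.C0) * P1 ^ D with hK
  have hK0 : 0 < K := by positivity
  set c' : ℝ := c / (B.C * B.C) with hc'
  have hc'0 : 0 < c' := by positivity
  -- the estimates
  have hevA : ∀ᶠ s : ℝ in atTop, (2 * K / c') * (1 + s) ^ D ≤ Real.exp ((d₁ - δ * κ₁) * s) :=
    ev_poly _ _ (by linarith)
  have hevB : ∀ᶠ s : ℝ in atTop, ∀ b ∈ M.Φ,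
      (2 * K * B.C * Real.exp C' / c') * (1 + s) ^ D ≤ Real.exp ((κ * en b - C' * κ₁) * s) ∧
      (1 / c') * (1 + s) ^ 0 ≤ Real.exp (en b * s) := by
    rw [Filter.eventually_all_finset]
    intro b hb
    exact (ev_poly _ _ (by linarith [hκb b hb])).and (ev_poly _ _ (en_pos (M.Φ_ne b hb)))
  filter_upwards [hevA, hevB, eventually_ge_atTop 1] with s hsA hsB hs1 w hw g hg
  have hs0 : (0 : ℝ) ≤ s := by linarith
  obtain ⟨v, y, c₀, n, hv, hv', hy, hy', hc₀, hn, hgd, hθg⟩ := hdec κ₁ δ s hκ₁ hκ₁1 hδ hs1 g hg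
  -- heights
  have hws : ‖vec w‖ ≤ CP * s := by
    have h1 := hCP (vec w) ((1 - κ) * s) (by nlinarith) hw
    have h2 : CP * ((1 - κ) * s) ≤ CP * s := mul_le_mul_of_nonneg_left (by nlinarith) hCP0.le
    exact h1.trans h2
  have hκ₁s : κ₁ * s ≤ s := by nlinarith
  have hθg' : ‖M.θ g‖ ≤ M.C0 * s :=
    hθg.trans (mul_le_mul_of_nonneg_left hκ₁s (by linarith))
  have hN : 1 + (⌈M.C0 * (1 + ‖vec w‖)⌉₊ : ℝ) + n + ⌈M.C0 * (1 + ‖vec w + M.θ g‖)⌉₊ ≤
      P1 * (1 + s) :=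
    count_le hC0 hCP0.le hs1 (norm_nonneg _) hws (norm_nonneg _)
      ((norm_add_le _ _).trans (add_le_add hws hθg')) hn
  have hPow : (P1 * (1 + s)) ^ D = P1 ^ D * (1 + s) ^ D := mul_pow _ _ _
  have h1s : 0 ≤ (1 + s) ^ D := by positivity
  have hmain := conj_mem B (w := w) (g := g) (c := c₀) (N := P1 * (1 + s)) hv hv' hy hy' hc₀ hgd hN
    (R := fun i => c' * M.sz d₁ s i) ?_ ?_
  · have : (fun i => B.C * (B.C * (c' * M.sz d₁ s i))) = fun i => c * M.sz d₁ s i := by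
      funext i
      rw [hc']
      field_simp
    rw [this] at hmain
    exact hmain
  · -- neutral letters
    intro i hi
    have hsz : M.sz d₁ s i = Real.exp (d₁ * s) := by unfold sz; rw [if_pos hi]
    rw [hsz, hPow]
    have := est_neutral (K := K) hK0.le h1s hc'0 (by positivity) hsA
    calc B.C * (1 + M.C0) * (P1 ^ D * (1 + s) ^ D) * (1 + Real.exp (δ * (κ₁ * s)))
        = K * (1 + s) ^ D * (1 + Real.exp (δ * (κ₁ * s))) := by rw [hK]; ring
      _ ≤ _ := this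
  · -- the other letters
    intro i hi
    have hΦ : M.wt i ∈ M.Φ := (M.wt_mem i).resolve_right hi
    have hsz : M.sz d₁ s i = Real.exp (s * en (M.wt i)) := by unfold sz; rw [if_neg hi]
    obtain ⟨h4, h5⟩ := hsB _ hΦ
    rw [hsz]
    refine ⟨?_, ?_⟩
    · rw [pow_zero, mul_one, div_le_iff₀ hc'0] at h5
      calc (1 : ℝ) ≤ Real.exp (en (M.wt i) * s) * c' := h5
        _ = c' * Real.exp (s * en (M.wt i)) := by rw [mul_comm (en _) s]; ring
    · rw [hPow]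
      have := est_other (K := K) (BC := B.C) hK0.le (by linarith) h1s hc'0 (by positivity)
        (hw _ hΦ) h4
      calc B.C * (1 + M.C0) * (P1 ^ D * (1 + s) ^ D) * Real.exp (M.wt i (vec w)) *
            (B.C * (1 + Real.exp (C' * (κ₁ * s + 1))))
          = K * (1 + s) ^ D * Real.exp (M.wt i (vec w)) *
            (B.C * (1 + Real.exp (C' * (κ₁ * s + 1)))) := by rw [hK]; ring
        _ ≤ _ := this

end DB

end Vale.Agent.P188.Z1

end

section

/-!
# P188, Z1, block DBOX: the theorems DBOX and DVOL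
-/

set_option linter.all false

open MeasureTheory Set Filter Topology
open Vale.Agent.P188.H530 (hgt hgt_mul)
open Vale.Agent.P188.H540 (vec LP LP_finite lat_ratio vec_injective tendsto_LP)
open scoped Pointwise ENNReal

namespace Vale.Agent.P188.Z1

namespace DB

variable {S : Type} [Group S] [MeasurableSpace S] {Γ : Type} [Group Γ]
  {V : Type} [AddCommGroup V] [Module ℝ V] {k : ℕ} {M : RModel S Γ V k}

open RModel

theorem exists_pos_lt {α : Type*} (s : Finset α) (f : α → ℝ) (hf : ∀ a ∈ s, 0 < f a) :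
    ∃ x : ℝ, 0 < x ∧ x ≤ 1 ∧ ∀ a ∈ s, x < f a := by
  classical
  induction s using Finset.induction_on with
  | empty => exact ⟨1, one_pos, le_rfl, by simp⟩
  | insert a s ha ih =>
    obtain ⟨x, hx, hx1, h⟩ := ih fun b hb => hf b (Finset.mem_insert_of_mem hb)
    have h1 := hf a (Finset.mem_insert_self a s)
    refine ⟨min x (f a / 2), lt_min hx (by linarith), (min_le_left _ _).trans hx1, ?_⟩
    intro b hb
    rcases Finset.mem_insert.1 hb with rfl | hb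
    · have := min_le_right x (f b / 2)
      linarith
    · exact lt_of_le_of_lt (min_le_left _ _) (h b hb)

/-- multiplication of a point of the box set by a small element -/
theorem mul_mem_BW (B : M.NatBox) {d₁ s Λ ε δm t u : ℝ} (hΛ : 0 < Λ)
    (hmul : ∀ R : M.ι → ℝ, (∀ i, 0 ≤ R i) → ∀ x ∈ B.Bx R, ∀ y ∈ B.Bx (fun i => δm * R i),
      x * y ∈ B.Bx (fun i => (1 + ε) * R i) ∧ y * x ∈ B.Bx (fun i => (1 + ε) * R i))
    {z g : S} (hz : z ∈ BW M (B.Bx fun i => Λ * M.sz d₁ s i) (Wn M u))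
    (hx : M.τ (Multiplicative.toAdd (M.η z)) * g *
      (M.sec (M.τ (Multiplicative.toAdd (M.η z)) * g))⁻¹ ∈ B.Bx (fun i => (δm * Λ) * M.sz d₁ s i))
    (hg : ∀ b ∈ M.Φ, b (M.θ g) ≤ (t - 1) * u * en b) :
    z * g ∈ BW M (B.Bx fun i => (1 + ε) * (Λ * M.sz d₁ s i)) (Wn M (t * u)) := by
  have hsz : ∀ i, 0 ≤ Λ * M.sz d₁ s i := by
    intro i
    unfold sz
    split_ifs <;> positivity
  refine ⟨?_, ?_⟩
  · rw [part_mul]
    have h1 : (fun i => (δm * Λ) * M.sz d₁ s i) = fun i => δm * (Λ * M.sz d₁ s i) := by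
      funext i; ring
    rw [h1] at hx
    exact (hmul _ hsz _ hz.1 _ hx).1
  · intro b hb
    have h1 : b (M.θ z) ≤ u * en b := hz.2 b hb
    have h2 := hg b hb
    show b (M.θ (z * g)) ≤ t * u * en b
    rw [M.θ_mul, map_add]
    linarith

theorem natCast_le_ofReal {a b : ℕ} {c : ℝ} (hc : 0 ≤ c) (h : (a : ℝ) ≤ c * b) :
    (a : ℝ≥0∞) ≤ ENNReal.ofReal c * b := by
  rw [← ENNReal.ofReal_natCast, ← ENNReal.ofReal_natCast, ← ENNReal.ofReal_mul hc]
  exact ENNReal.ofReal_le_ofReal h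

/-- **DBOX** -/
theorem dbox (B : M.NatBox) (hB : B.Fine) : M.DBOX B := by
  classical
  intro κ hκ hκ1 Λ hΛ κ₂ hκ₂
  set κ' : ℝ := min κ₂ 1 / 4 with hκ'
  have hκ'0 : 0 < κ' := by have := lt_min hκ₂ one_pos; positivity
  have hκ'2 : (1 + κ') * (1 + κ') ≤ 1 + κ₂ := by
    have h1 : 4 * κ' ≤ κ₂ := by rw [hκ']; have := min_le_left κ₂ 1; linarith
    have h2 : 4 * κ' ≤ 1 := by rw [hκ']; have := min_le_right κ₂ 1; linarith
    nlinarith
  obtain ⟨t, ht, s₁, hs₁, hratio⟩ := Wn_ratio (M := M) hκ'0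
  obtain ⟨δv, hδv, hvol⟩ := hB.fvol κ' hκ'0
  obtain ⟨δm, hδm, hδm1, hmul⟩ := hB.fmul δv hδv
  obtain ⟨C', hC'1, hsmall⟩ := small_mem B
  obtain ⟨C'', hC''1, hdec⟩ := exists_dec_small M
  have hC0 := M.one_le_C0
  obtain ⟨κ₁, hκ₁, hκ₁1, hκ₁b⟩ := exists_pos_lt M.Φ
    (fun b => min (κ * en b / C') ((t - 1) * (1 - κ) * en b / (M.C0 * (‖b‖ + 1)))) (by
      intro b hb
      have := en_pos (M.Φ_ne b hb)
      refine lt_min (by positivity) ?_
      have h1 : 0 < t - 1 := by linarith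
      have h2 : 0 < 1 - κ := by linarith
      positivity)
  refine ⟨κ₁, hκ₁, ?_⟩
  intro d₁ δ hd₁ hδ hδd
  have hb1 : ∀ b ∈ M.Φ, C' * κ₁ < κ * en b := by
    intro b hb
    have h1 := lt_of_lt_of_le (hκ₁b b hb) (min_le_left _ _)
    rw [lt_div_iff₀ (by linarith)] at h1
    linarith
  have hb2 : ∀ b ∈ M.Φ, ‖b‖ * (M.C0 * κ₁) ≤ (t - 1) * (1 - κ) * en b := by
    intro b hb
    have h1 := lt_of_lt_of_le (hκ₁b b hb) (min_le_right _ _)
    rw [lt_div_iff₀ (by positivity)] at h1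
    have h2 := norm_nonneg b
    have h3 : 0 < M.C0 * κ₁ := by positivity
    nlinarith
  have hev := hsmall κ κ₁ δ d₁ (δm * Λ) hκ hκ1 hκ₁ hκ₁1 hb1 hδ hδd (by positivity)
  obtain ⟨s₀, hs₀⟩ := hev.exists_forall_of_atTop
  refine ⟨max (max s₀ 1) (s₁ / (1 - κ)), fun s hs => ?_⟩
  have hss₀ : s₀ ≤ s := (le_max_left _ _).trans ((le_max_left _ _).trans hs)
  have hs1 : 1 ≤ s := (le_max_right _ _).trans ((le_max_left _ _).trans hs)
  have hss₁ : s₁ ≤ (1 - κ) * s := by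
    have h1 : s₁ / (1 - κ) ≤ s := (le_max_right _ _).trans hs
    rw [div_le_iff₀ (by linarith)] at h1
    linarith
  have hu0 : 0 < (1 - κ) * s := hs₁.trans_le hss₁
  have hsz : ∀ i, 0 < Λ * M.sz d₁ s i := by
    intro i
    unfold sz
    split_ifs <;> positivity
  set D : Set S := BW M (B.Bx fun i => Λ * M.sz d₁ s i) (Wn M ((1 - κ) * s)) with hD
  set Dp : Set S := BW M (B.Bx fun i => (1 + δv) * (Λ * M.sz d₁ s i)) (Wn M (t * ((1 - κ) * s)))
    with hDp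
  have hsub : ∀ z ∈ D, ∀ g, ((M.l g : ℝ) ≤ κ₁ * s ∨ g ∈ M.FB δ (κ₁ * s)) → z * g ∈ Dp := by
    intro z hz g hg
    refine mul_mem_BW B hΛ hmul hz (hs₀ s hss₀ _ hz.2 g hg) ?_
    intro b hb
    obtain ⟨_, _, _, _, _, _, _, _, _, _, _, hθ⟩ := hdec κ₁ δ s hκ₁ hκ₁1 hδ hs1 g hg
    have h1 : b (M.θ g) ≤ ‖b‖ * ‖M.θ g‖ := (le_abs_self _).trans (b.le_opNorm _)
    have h2 : ‖b‖ * ‖M.θ g‖ ≤ ‖b‖ * (M.C0 * (κ₁ * s)) :=
      mul_le_mul_of_nonneg_left hθ (norm_nonneg _)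
    have h3 := mul_le_mul_of_nonneg_right (hb2 b hb) (by linarith : (0 : ℝ) ≤ s)
    calc b (M.θ g) ≤ ‖b‖ * (M.C0 * (κ₁ * s)) := h1.trans h2
      _ = ‖b‖ * (M.C0 * κ₁) * s := by ring
      _ ≤ (t - 1) * (1 - κ) * en b * s := h3
      _ = (t - 1) * ((1 - κ) * s) * en b := by ring
  have hμD : M.μ D = (Wn M ((1 - κ) * s)).ncard * M.μ (B.Bx fun i => Λ * M.sz d₁ s i) :=
    BW_measure (B.meas _) (B.sub _) (Wn_finite hu0)
  have hμDp : M.μ Dp = (Wn M (t * ((1 - κ) * s))).ncard *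
      M.μ (B.Bx fun i => (1 + δv) * (Λ * M.sz d₁ s i)) :=
    BW_measure (B.meas _) (B.sub _) (Wn_finite (by positivity))
  have hne : (Wn M ((1 - κ) * s)).ncard ≠ 0 :=
    ((Set.ncard_pos (Wn_finite hu0)).2 ⟨0, zero_mem_Wn hu0.le⟩).ne'
  refine ⟨Dp, ⟨⟨?_, ?_, ?_, ?_, ?_, ?_⟩, ?_⟩⟩
  · show MeasurableSet D
    exact BW_meas (B.meas _) (B.sub _) _
  · show MeasurableSet Dp
    exact BW_meas (B.meas _) (B.sub _) _
  · show M.μ D ≠ 0
    rw [hμD]
    exact mul_ne_zero (by exact_mod_cast hne) (B.pos _ hsz)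
  · show M.μ D ≠ ⊤
    rw [hμD]
    exact ENNReal.mul_ne_top (ENNReal.natCast_ne_top _) (B.fin _)
  · intro z hz g hg
    exact hsub z hz g (Or.inl hg)
  · show M.μ Dp ≤ ENNReal.ofReal (1 + κ₂) * M.μ D
    rw [hμD, hμDp]
    have h1 : ((Wn M (t * ((1 - κ) * s))).ncard : ℝ≥0∞) ≤
        ENNReal.ofReal (1 + κ') * (Wn M ((1 - κ) * s)).ncard :=
      natCast_le_ofReal (by linarith) (hratio _ hss₁)
    have h2 := hvol _ hsz
    calc ((Wn M (t * ((1 - κ) * s))).ncard : ℝ≥0∞) *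
          M.μ (B.Bx fun i => (1 + δv) * (Λ * M.sz d₁ s i))
        ≤ (ENNReal.ofReal (1 + κ') * (Wn M ((1 - κ) * s)).ncard) *
          (ENNReal.ofReal (1 + κ') * M.μ (B.Bx fun i => Λ * M.sz d₁ s i)) := mul_le_mul' h1 h2
      _ = (ENNReal.ofReal (1 + κ') * ENNReal.ofReal (1 + κ')) *
          ((Wn M ((1 - κ) * s)).ncard * M.μ (B.Bx fun i => Λ * M.sz d₁ s i)) := by ring
      _ ≤ ENNReal.ofReal (1 + κ₂) *
          ((Wn M ((1 - κ) * s)).ncard * M.μ (B.Bx fun i => Λ * M.sz d₁ s i)) := by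
          gcongr
          rw [← ENNReal.ofReal_mul (by linarith)]
          exact ENNReal.ofReal_le_ofReal hκ'2
  · intro z hz g hg
    exact hsub z hz g (Or.inr hg)

end DB

end Vale.Agent.P188.Z1

end
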