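import Vale.Agent.P188.R.G004
import Vale.Agent.P188.R.G078
import Vale.Agent.P188.R.G009
import Vale.Agent.P188.R.G041

section

/-!
# P188, route A, block hinput: the chart of `E`, natural boxes and their `E`-parts
-/

set_option linter.all false

open MeasureTheory Set Filter Topology
open scoped ENNReal
open Vale.Agent.P188.H530 (hgt)
open Vale.Agent.P188.Z1

namespace Vale.Agent.P188.H235

variable {S : Type} [Group S] [MeasurableSpace S] {Γ : Type} [Group Γ]
  {V : Type} [AddCommGroup V] [Module ℝ V] {k : ℕ} {M : RModel S Γ V k}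

/-- Exponential coordinates of the exponential radical. -/
structure EChart (M : RModel S Γ V k) (B : M.NatBox) (d : ℕ) where
  P : (Fin d → ℝ) → S
  meas : Measurable P
  mem : ∀ x, P x ∈ M.E
  neg : ∀ x, P (-x) = (P x)⁻¹
  right : ∀ g ∈ M.E, ∃ T : (Fin d → ℝ) → (Fin d → ℝ), MeasurePreserving T volume volume ∧
    ∀ x, P (T x) = P x * g
  add : ∀ x y, (P x * P y)⁻¹ * P (x + y) ∈ (⁅M.E, M.E⁆ : Subgroup S)
  cvx : ∀ R : M.ι → ℝ, (∀ i, 0 < R i) → Convex ℝ {x | P x ∈ B.Bx R}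
  cpt : ∀ R : M.ι → ℝ, (∀ i, 0 < R i) → IsCompact {x | P x ∈ B.Bx R}
  int : ∀ R : M.ι → ℝ, (∀ i, 0 < R i) → {x | P x ∈ B.Bx R} ∈ 𝓝 (0 : Fin d → ℝ)
  cont : ∀ C ρ : ℝ, 0 < ρ → ∃ δ : ℝ, 0 < δ ∧ ∀ x x', ‖x‖ ≤ C → ‖x' - x‖ ≤ δ →
    ∃ z : V, M.nm z ≤ ρ ∧ P x' = P x * M.ex z

namespace EChart

variable {B : M.NatBox} {d : ℕ} (c : EChart M B d)

/-- the measure of `E`, as a measure on `S` -/
noncomputable def ν : Measure S := (volume : Measure (Fin d → ℝ)).map c.P

instance : SFinite c.ν := by unfold ν; infer_instance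

theorem ν_apply {A : Set S} (hA : MeasurableSet A) : c.ν A = volume {x | c.P x ∈ A} := by
  unfold ν
  rw [Measure.map_apply c.meas hA]
  rfl

theorem emeas : EMeas M.E c.ν := by
  haveI := M.mm
  haveI := M.mi
  have hr : ∀ g ∈ M.E, MeasurePreserving (fun x => x * g) c.ν c.ν := by
    intro g hg
    obtain ⟨T, hT, hTP⟩ := c.right g hg
    refine ⟨measurable_mul_const g, ?_⟩
    have h1 : Measurable (fun x : S => x * g) := measurable_mul_const g
    unfold ν
    rw [Measure.map_map h1 c.meas]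
    have h2 : (fun x : S => x * g) ∘ c.P = c.P ∘ T := by
      funext x; exact (hTP x).symm
    rw [h2, ← Measure.map_map c.meas hT.measurable, hT.map_eq]
  refine ⟨inferInstance, hr, ?_, ?_⟩
  · intro g hg
    obtain ⟨T, hT, hTP⟩ := c.right g⁻¹ (M.E.inv_mem hg)
    have h1 : Measurable (fun x : S => g * x) := measurable_const_mul g
    refine ⟨h1, ?_⟩
    have hn : MeasurePreserving (fun x : Fin d → ℝ => -x) volume volume :=
      Measure.measurePreserving_neg volume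
    have hT' : MeasurePreserving ((fun x : Fin d → ℝ => -x) ∘ T ∘ fun x => -x) volume volume :=
      hn.comp (hT.comp hn)
    unfold ν
    rw [Measure.map_map h1 c.meas]
    have h2 : (fun x : S => g * x) ∘ c.P = c.P ∘ ((fun x : Fin d → ℝ => -x) ∘ T ∘ fun x => -x) := by
      funext x
      show g * c.P x = c.P (-(T (-x)))
      rw [c.neg, hTP, c.neg]
      group
    rw [h2, ← Measure.map_map c.meas hT'.measurable, hT'.map_eq]
  · intro A hA h0
    rw [c.ν_apply hA] at h0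
    obtain ⟨x, hx⟩ := nonempty_of_measure_ne_zero h0
    exact ⟨c.P x, c.mem x, hx⟩

end EChart

/-! ### products in boxes -/

theorem bx_mono (B : M.NatBox) {R R' : M.ι → ℝ} (hR : ∀ i, 0 ≤ R i) (h : ∀ i, R i ≤ R' i) {x : S}
    (hx : x ∈ B.Bx R) : x ∈ B.Bx R' := B.mono R R' hR h hx

theorem bx_mul (B : M.NatBox) {R : M.ι → ℝ} (hR : ∀ i, 0 ≤ R i) {a b e : ℝ} (ha : 0 ≤ a)
    (hb : 0 ≤ b) (h1 : B.C * a ≤ e) (h2 : B.C * b ≤ e) {x y : S}
    (hx : x ∈ B.Bx fun i => a * R i) (hy : y ∈ B.Bx fun i => b * R i) :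
    x * y ∈ B.Bx fun i => e * R i := by
  have hC := B.one_le
  have hm : 0 ≤ max a b := le_max_of_le_left ha
  have h3 := B.mul (fun i => max a b * R i) (fun i => mul_nonneg hm (hR i)) x
    (bx_mono B (fun i => mul_nonneg ha (hR i))
      (fun i => mul_le_mul_of_nonneg_right (le_max_left _ _) (hR i)) hx) y
    (bx_mono B (fun i => mul_nonneg hb (hR i))
      (fun i => mul_le_mul_of_nonneg_right (le_max_right _ _) (hR i)) hy)
  refine bx_mono B (fun i => mul_nonneg (by linarith) (mul_nonneg hm (hR i))) (fun i => ?_) h3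
  rw [← mul_assoc]
  refine mul_le_mul_of_nonneg_right ?_ (hR i)
  rcases le_total a b with h | h
  · rw [max_eq_right h]; exact h2
  · rw [max_eq_left h]; exact h1

theorem bx_inv (B : M.NatBox) {R : M.ι → ℝ} {x : S} (hx : x ∈ B.Bx R) : x⁻¹ ∈ B.Bx R :=
  B.inv R x hx

/-- `U U⁻¹` -/
theorem bx_div (B : M.NatBox) {R : M.ι → ℝ} (hR : ∀ i, 0 ≤ R i) {a : ℝ} (ha : 0 ≤ a) {x y : S}
    (hx : x ∈ B.Bx fun i => a * R i) (hy : y ∈ B.Bx fun i => a * R i) :
    x * y⁻¹ ∈ B.Bx fun i => (B.C * a) * R i :=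
  bx_mul B hR ha ha le_rfl le_rfl hx (bx_inv B hy)

/-! ### doubling -/

/-- iterated doubling of `μ` -/
theorem mu_poly (B : M.NatBox) : ∃ (C : ℝ) (D : ℕ), 1 ≤ C ∧ ∀ x : ℝ, 1 ≤ x → ∀ R : M.ι → ℝ,
    (∀ i, 0 < R i) → M.μ (B.Bx fun i => x * R i) ≤ ENNReal.ofReal (C * x ^ D) * M.μ (B.Bx R) := by
  obtain ⟨C', hC'⟩ := B.dbl 2 (by norm_num)
  set c2 : ℝ := max C' 1 with hc2
  have hc21 : 1 ≤ c2 := le_max_right _ _
  obtain ⟨D, hD⟩ : ∃ D : ℕ, c2 ≤ 2 ^ D := by
    obtain ⟨D, hD⟩ := pow_unbounded_of_one_lt c2 (by norm_num : (1 : ℝ) < 2)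
    exact ⟨D, hD.le⟩
  have hit : ∀ j : ℕ, ∀ R : M.ι → ℝ, (∀ i, 0 < R i) →
      M.μ (B.Bx fun i => 2 ^ j * R i) ≤ ENNReal.ofReal (c2 ^ j) * M.μ (B.Bx R) := by
    intro j
    induction j with
    | zero => intro R hR; simp
    | succ j ih =>
      intro R hR
      have h1 := hC' (fun i => 2 ^ j * R i) (fun i => by have := hR i; positivity)
      have e : (fun i => (2 : ℝ) ^ (j + 1) * R i) = fun i => 2 * (2 ^ j * R i) := by
        funext i; ring
      rw [e]
      refine h1.trans ?_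
      calc ENNReal.ofReal C' * M.μ (B.Bx fun i => 2 ^ j * R i)
          ≤ ENNReal.ofReal c2 * (ENNReal.ofReal (c2 ^ j) * M.μ (B.Bx R)) :=
            mul_le_mul' (ENNReal.ofReal_le_ofReal (le_max_left _ _)) (ih R hR)
        _ = ENNReal.ofReal (c2 ^ (j + 1)) * M.μ (B.Bx R) := by
            rw [← mul_assoc, ← ENNReal.ofReal_mul (by linarith), pow_succ, mul_comm c2]
  refine ⟨c2, D, hc21, fun x hx R hR => ?_⟩
  obtain ⟨j, hj1, hj2⟩ : ∃ j : ℕ, (2 : ℝ) ^ j ≤ x ∧ x < 2 ^ (j + 1) := by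
    obtain ⟨j, hj⟩ := exists_nat_pow_near hx (by norm_num : (1 : ℝ) < 2)
    exact ⟨j, hj⟩
  have h1 : M.μ (B.Bx fun i => x * R i) ≤ M.μ (B.Bx fun i => 2 ^ (j + 1) * R i) :=
    measure_mono fun y hy => bx_mono B (fun i => by have := hR i; positivity)
      (fun i => mul_le_mul_of_nonneg_right hj2.le (hR i).le) hy
  refine h1.trans ((hit (j + 1) R hR).trans (mul_le_mul' (ENNReal.ofReal_le_ofReal ?_) le_rfl))
  calc c2 ^ (j + 1) = c2 * c2 ^ j := by ring
    _ ≤ c2 * (2 ^ D) ^ j := by gcongr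
    _ = c2 * (2 ^ j) ^ D := by rw [← pow_mul, ← pow_mul, mul_comm D j]
    _ ≤ c2 * x ^ D := by gcongr

namespace EChart

variable {B : M.NatBox} {d : ℕ} (c : EChart M B d)

/-- doubling of `ν` -/
theorem nu_dbl (Λ : ℝ) (hΛ : 1 ≤ Λ) : ∃ m : ℕ, 1 ≤ m ∧ ∀ R : M.ι → ℝ, (∀ i, 0 < R i) →
    c.ν (B.Bx fun i => Λ * R i) ≤ m * c.ν (B.Bx R) := by
  haveI := M.mm
  haveI := M.mi
  have hC := B.one_le
  have hC0 : 0 < B.C := by linarith
  obtain ⟨C', hC'⟩ := B.dbl (B.C * Λ * B.C) (by nlinarith [mul_le_mul hC hΛ zero_le_one hC0.le])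
  refine ⟨⌈C'⌉₊ + 1, by omega, fun R hR => ?_⟩
  have hq : ∀ i, 0 < B.C⁻¹ * R i := fun i => by have := hR i; positivity
  refine EMeas.dbl (μ := M.μ) (Q := B.Bx fun i => B.C⁻¹ * R i) (Q' := B.Bx R)
    (W := B.Bx fun i => (B.C * Λ) * R i) c.emeas M.mpl
    (B.meas _) (B.meas _) (B.meas _) (B.pos _ hq) (B.fin _) ?_ ?_ ?_
  · intro n hn q hq
    refine bx_mul B (fun i => (hR i).le) (by linarith) (by positivity) le_rfl ?_ hn hq
    rw [mul_inv_cancel₀ hC0.ne']
    nlinarith [mul_le_mul hC hΛ zero_le_one hC0.le]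
  · intro p hp q hq
    have := bx_div B (fun i => (hR i).le) (by positivity) hp hq
    simpa [mul_inv_cancel₀ hC0.ne'] using this
  · have h1 := hC' (fun i => B.C⁻¹ * R i) hq
    have e : (fun i => B.C * Λ * B.C * (B.C⁻¹ * R i)) = fun i => (B.C * Λ) * R i := by
      funext i
      field_simp
    rw [e] at h1
    refine h1.trans (mul_le_mul' ?_ le_rfl)
    have h2 : C' ≤ ((⌈C'⌉₊ + 1 : ℕ) : ℝ) := by
      have := Nat.le_ceil C'
      push_cast; linarith
    calc ENNReal.ofReal C' ≤ ENNReal.ofReal ((⌈C'⌉₊ + 1 : ℕ) : ℝ) := ENNReal.ofReal_le_ofReal h2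
      _ = ((⌈C'⌉₊ + 1 : ℕ) : ℝ≥0∞) := ENNReal.ofReal_natCast _

/-- the section bound -/
theorem sup_le {R : M.ι → ℝ} (hR : ∀ i, 0 ≤ R i) (x : S) :
    c.ν {n | n⁻¹ * x ∈ B.Bx R} ≤ c.ν (B.Bx fun i => B.C * R i) := by
  haveI := M.mm
  haveI := M.mi
  refine c.emeas.sup (B.meas _) (B.meas _) (fun u hu v hv => ?_) x
  exact B.mul R hR u hu _ (B.inv R v hv)

end EChart

end Vale.Agent.P188.H235

end

section

/-!
# P188, route A, block hinput: splitting off the neutral letters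
-/

set_option linter.all false

open MeasureTheory Set Filter Topology
open scoped ENNReal
open Vale.Agent.P188.H530 (hgt)
open Vale.Agent.P188.Z1

namespace Vale.Agent.P188.H235

variable {S : Type} [Group S] [MeasurableSpace S] {Γ : Type} [Group Γ]
  {V : Type} [AddCommGroup V] [Module ℝ V] {k : ℕ} {M : RModel S Γ V k}

/-- product of letters -/
def lp (M : RModel S Γ V k) (L : List (M.ι × ℝ)) : S :=
  (L.map fun p => M.ex (p.2 • M.X p.1)).prod

theorem lp_nil : lp M [] = 1 := rfl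

theorem lp_cons (p : M.ι × ℝ) (L : List (M.ι × ℝ)) :
    lp M (p :: L) = M.ex (p.2 • M.X p.1) * lp M L := by
  simp [lp]

theorem letter_mem_E {i : M.ι} (h : M.wt i ≠ 0) (x : ℝ) : M.ex (x • M.X i) ∈ M.E :=
  (M.mem_E _).2 ⟨_, M.e.smul_mem x (M.Vw_e _ h (M.X_mem i)), rfl⟩

open Classical in
theorem split_list (L : List (M.ι × ℝ)) :
    ∃ e ∈ M.E, lp M L = e * lp M (L.filter fun p => M.wt p.1 = 0) := by
  induction L with
  | nil => exact ⟨1, M.E.one_mem, by simp [lp_nil]⟩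
  | cons p L ih =>
    obtain ⟨e, he, h⟩ := ih
    by_cases hp : M.wt p.1 = 0
    · refine ⟨M.ex (p.2 • M.X p.1) * e * (M.ex (p.2 • M.X p.1))⁻¹,
        M.E_normal.conj_mem _ he _, ?_⟩
      rw [List.filter_cons_of_pos (by simpa using hp), lp_cons, lp_cons, h]
      group
    · refine ⟨M.ex (p.2 • M.X p.1) * e, M.E.mul_mem (letter_mem_E hp _) he, ?_⟩
      rw [List.filter_cons_of_neg (by simpa using hp), lp_cons, h, mul_assoc]

theorem lp_mem (B : M.NatBox) {R : M.ι → ℝ} (hR : ∀ i, 0 ≤ R i) (L : List (M.ι × ℝ))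
    (hL : ∀ p ∈ L, |p.2| ≤ B.C * R p.1) :
    lp M L ∈ B.Bx fun i => B.C ^ (L.length + 1) * R i := by
  have hC := B.one_le
  induction L with
  | nil =>
    rw [lp_nil]
    exact B.one _ fun i => by have := hR i; positivity
  | cons p L ih =>
    rw [lp_cons]
    have h1 : M.ex (p.2 • M.X p.1) ∈ B.Bx fun i => B.C * R i :=
      B.letter _ (fun i => by have := hR i; positivity) _ _ (hL p (by simp))
    have h2 := ih fun q hq => hL q (by simp [hq])
    refine bx_mul B hR (by linarith) (by positivity) ?_ ?_ h1 h2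
    · rw [List.length_cons]
      calc B.C * B.C = B.C ^ 2 := by ring
        _ ≤ B.C ^ (L.length + 1 + 1) := pow_le_pow_right₀ hC (by omega)
    · rw [List.length_cons]
      apply le_of_eq; ring

/-- **Splitting an element of a natural box**: `E`-part times a short word in the neutral letters. -/
theorem split (B : M.NatBox) {R : M.ι → ℝ} (hR : ∀ i, 0 ≤ R i) {u : S} (hu : u ∈ B.Bx R) :
    ∃ e ∈ M.E, ∃ L : List (M.ι × ℝ), L.length ≤ B.m ∧
      (∀ p ∈ L, M.wt p.1 = 0 ∧ |p.2| ≤ B.C * R p.1) ∧ u = e * lp M L ∧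
      lp M L ∈ (B.Bx fun i => B.C ^ (B.m + 1) * R i) ∧
      e ∈ B.Bx fun i => B.C ^ (B.m + 2) * R i := by
  classical
  have hC := B.one_le
  obtain ⟨x, hx, hux⟩ := B.gen R hR u hu
  set L0 : List (M.ι × ℝ) := List.ofFn fun t => (B.J t, x t) with hL0
  have h1 : u = lp M L0 := by
    rw [hux, lp, hL0, List.map_ofFn]
    rfl
  obtain ⟨e, he, h2⟩ := split_list L0
  set L := L0.filter fun p => M.wt p.1 = 0 with hL
  have hlen : L.length ≤ B.m := by
    refine (List.length_filter_le _ _).trans ?_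
    rw [hL0, List.length_ofFn]
  have hmem : ∀ p ∈ L, M.wt p.1 = 0 ∧ |p.2| ≤ B.C * R p.1 := by
    intro p hp
    rw [hL, List.mem_filter] at hp
    refine ⟨by simpa using hp.2, ?_⟩
    rw [hL0, List.mem_ofFn] at hp
    obtain ⟨t, rfl⟩ := hp.1
    exact hx t
  have hlp : lp M L ∈ B.Bx fun i => B.C ^ (B.m + 1) * R i := by
    refine bx_mono B (fun i => by have := hR i; positivity) (fun i => ?_)
      (lp_mem B hR L fun p hp => (hmem p hp).2)
    exact mul_le_mul_of_nonneg_right (pow_le_pow_right₀ hC (by omega)) (hR i)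
  refine ⟨e, he, L, hlen, hmem, by rw [h1, h2], hlp, ?_⟩
  have he2 : e = u * (lp M L)⁻¹ := by rw [h1, h2]; group
  rw [he2]
  have hu' : u ∈ B.Bx fun i => 1 * R i := by simpa using hu
  refine bx_mul B hR zero_le_one (by positivity) ?_ ?_ hu' (bx_inv B hlp)
  · rw [mul_one]
    calc B.C = B.C ^ 1 := by ring
      _ ≤ B.C ^ (B.m + 2) := pow_le_pow_right₀ hC (by omega)
  · apply le_of_eq; ring

/-- Short words in the neutral letters are neutral exponentials. -/
theorem neutral_word (M : RModel S Γ V k) (n : ℕ) : ∃ C : ℝ, 1 ≤ C ∧ ∀ δ : ℝ, 0 < δ →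
    ∀ᶠ s : ℝ in atTop, ∀ L : List (M.ι × ℝ), L.length ≤ n →
      (∀ p ∈ L, M.wt p.1 = 0 ∧ |p.2| ≤ Real.exp (δ * s)) →
      ∃ y ∈ M.Vw 0, M.ex y = lp M L ∧ M.nm y ≤ Real.exp (C * δ * s) := by
  induction n with
  | zero =>
    refine ⟨1, le_rfl, fun δ hδ => Filter.Eventually.of_forall fun s L hL hp => ?_⟩
    have : L = [] := List.length_eq_zero_iff.1 (by omega)
    subst this
    refine ⟨0, Submodule.zero_mem _, by rw [M.ex_zero, lp_nil], ?_⟩
    rw [map_zero]
    positivity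
  | succ n ih =>
    obtain ⟨C1, hC1, h1⟩ := ih
    obtain ⟨C2, hC2, h2⟩ := M.ev_mul0
    refine ⟨C2 * C1, by nlinarith, fun δ hδ => ?_⟩
    filter_upwards [h1 δ hδ, h2 (C1 * δ) (by positivity), eventually_ge_atTop (0 : ℝ)] with s h3 h4 hs
    intro L hL hp
    match L with
    | [] =>
      refine ⟨0, Submodule.zero_mem _, by rw [M.ex_zero, lp_nil], ?_⟩
      rw [map_zero]
      positivity
    | p :: L =>
      rw [List.length_cons] at hL
      obtain ⟨y, hy, hye, hyn⟩ := h3 L (by omega) fun q hq => hp q (by simp [hq])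
      obtain ⟨hp0, hpx⟩ := hp p (by simp)
      have hv : p.2 • M.X p.1 ∈ M.Vw 0 := by
        have := M.X_mem p.1
        rw [hp0] at this
        exact Submodule.smul_mem _ _ this
      have hvn : M.nm (p.2 • M.X p.1) ≤ Real.exp (C1 * δ * s) := by
        rw [map_smul_eq_mul, Real.norm_eq_abs]
        have h5 := M.X_le p.1
        have h6 := M.nm_nonneg (M.X p.1)
        have h7 : Real.exp (δ * s) ≤ Real.exp (C1 * δ * s) := by
          apply Real.exp_le_exp.2
          have : 0 ≤ δ * s := by positivity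
          nlinarith
        calc |p.2| * M.nm (M.X p.1) ≤ Real.exp (δ * s) * 1 :=
              mul_le_mul hpx h5 h6 (Real.exp_pos _).le
          _ ≤ _ := by rw [mul_one]; exact h7
      obtain ⟨u, hu, hue, hun⟩ := h4 _ hv y hy hvn hyn
      refine ⟨u, hu, by rw [hue, lp_cons, hye], hun.trans (le_of_eq ?_)⟩
      congr 1; ring

/-- Length of a conjugate of a word in small letters. -/
theorem len_conj (g : S) (L : List (M.ι × ℝ)) (h : ∀ p ∈ L, M.nm (M.Ad g (p.2 • M.X p.1)) ≤ 1) :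
    (M.l (g * lp M L * g⁻¹) : ℝ) ≤ L.length * (2 * M.C0) := by
  induction L with
  | nil =>
    rw [lp_nil, mul_one, mul_inv_cancel, M.len.one]
    simp
  | cons p L ih =>
    have h1 := ih fun q hq => h q (by simp [hq])
    have e : g * lp M (p :: L) * g⁻¹ = M.ex (M.Ad g (p.2 • M.X p.1)) * (g * lp M L * g⁻¹) := by
      rw [lp_cons, M.ex_Ad]; group
    rw [e]
    have h2 : (M.l (M.ex (M.Ad g (p.2 • M.X p.1)) * (g * lp M L * g⁻¹)) : ℝ) ≤
        M.l (M.ex (M.Ad g (p.2 • M.X p.1))) + M.l (g * lp M L * g⁻¹) := by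
      exact_mod_cast M.len.mul _ _
    have h3 := M.met_V (M.Ad g (p.2 • M.X p.1))
    have h4 := h p (by simp)
    have h5 := M.C0_pos
    have h6 : M.C0 * (1 + M.nm (M.Ad g (p.2 • M.X p.1))) ≤ 2 * M.C0 := by nlinarith
    rw [List.length_cons]
    push_cast
    linarith

end Vale.Agent.P188.H235

end

section

/-!
# P188, route A, block hinput (D2): the grid of exponential coordinates gives `BoxesI`
-/

set_option linter.all false

open MeasureTheory Set Filter Topology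
open scoped Pointwise
open Vale.Agent.P188.Z1
open Vale.Agent.P188.H235
open Vale.Agent.P188.H382 (BoxesI)

namespace Vale.Agent.P188.H540

variable {S : Type} [Group S] [MeasurableSpace S] {Γ : Type} [Group Γ]
  {V : Type} [AddCommGroup V] [Module ℝ V] {k : ℕ} {M : RModel S Γ V k} {B : M.NatBox} {d : ℕ}

/-- the grid points are in the box -/
theorem mem_LP_iff {K : Set (Fin d → ℝ)} {q : ℝ} (hq : 0 < q) (n : Fin d → ℤ) :
    n ∈ LP K q ↔ q⁻¹ • vec n ∈ K := by
  show vec n ∈ q • K ↔ _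
  rw [Set.mem_smul_set_iff_inv_smul_mem₀ hq.ne']

/-- the shift of the grid, modulo commutators -/
theorem grid_shift (c : EChart M B d) (u v w : Fin d → ℝ) :
    (c.P u * ((c.P v)⁻¹ * c.P w))⁻¹ * c.P (u - v + w) ∈ (⁅M.E, M.E⁆ : Subgroup S) := by
  haveI := M.E_normal
  have h1 := c.add u (-v)
  have h2 := c.add (u + -v) w
  rw [c.neg] at h1
  have e1 : (c.P u * ((c.P v)⁻¹ * c.P w))⁻¹ * c.P (u - v + w) =
      ((c.P w)⁻¹ * ((c.P u * (c.P v)⁻¹)⁻¹ * c.P (u + -v)) * (c.P w)⁻¹⁻¹) *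
      ((c.P (u + -v) * c.P w)⁻¹ * c.P (u + -v + w)) := by
    rw [← sub_eq_add_neg u v]
    group
  rw [e1]
  refine Subgroup.mul_mem _ ?_ h2
  exact (inferInstance : (⁅M.E, M.E⁆ : Subgroup S).Normal).conj_mem _ h1 _

/-- **(D2a)** -/
theorem boxesI_grid (c : EChart M B d) {R : M.ι → ℝ} (hR : ∀ i, 0 < R i) {q : ℝ}
    (hq : GridP d {x | c.P x ∈ B.Bx R} q) {C1 R1 : ℕ}
    (hlen : ∀ x ∈ B.Bx R, x ∈ M.E → M.l x ≤ C1 * R1) :
    BoxesI (fun n : Fin d → ℤ => c.P (q⁻¹ • vec n)) M.l M.E C1 (Mg d) R1 hq.fin.toFinset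
      (hq.fin.subset hq.sub).toFinset := by
  classical
  have hq0 := hq.q_pos
  refine ⟨?_, ?_, ?_, ?_, ?_, ?_⟩
  · exact ⟨0, by rw [Set.Finite.mem_toFinset]; exact hq.ne⟩
  · intro n hn
    rw [Set.Finite.mem_toFinset] at hn ⊢
    exact hq.sub hn
  · intro n _
    exact c.mem _
  · intro n hn
    rw [Set.Finite.mem_toFinset, mem_LP_iff hq0] at hn
    exact hlen _ hn (c.mem _)
  · rw [← Set.ncard_eq_toFinset_card _ hq.fin, ← Set.ncard_eq_toFinset_card _ _]
    exact hq.card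
  · intro a ha b hb
    rw [Set.Finite.mem_toFinset] at ha hb
    have hfin : {n | n ∈ LP {x | c.P x ∈ B.Bx R} q ∧ n - a + b ∈ LP {x | c.P x ∈ B.Bx R} q}.Finite :=
      hq.fin.subset fun n hn => hn.1
    refine ⟨hfin.toFinset, fun n => n - a + b, ?_, ?_, ?_, ?_, ?_⟩
    · intro n hn
      rw [Set.Finite.mem_toFinset] at hn ⊢
      exact hn.1
    · rw [← Set.ncard_eq_toFinset_card _ hq.fin, ← Set.ncard_eq_toFinset_card _ hfin]
      exact hq.shift a ha b hb
    · intro n _ n' _ h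
      have h' : n - a + b = n' - a + b := h
      have h2 := add_right_cancel h'
      exact sub_left_injective h2
    · intro n hn
      rw [Set.Finite.mem_toFinset] at hn ⊢
      exact hn.2
    · intro n _
      have e1 : q⁻¹ • vec (n - a + b) = q⁻¹ • vec n - q⁻¹ • vec a + q⁻¹ • vec b := by
        rw [vec_shift, smul_add, smul_sub]
      show (c.P (q⁻¹ • vec n) * ((c.P (q⁻¹ • vec a))⁻¹ * c.P (q⁻¹ • vec b)))⁻¹ *
        c.P (q⁻¹ • vec (n - a + b)) ∈ _
      rw [e1]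
      exact grid_shift c _ _ _

/-- a product of `m` exponentials of vectors of size `T` -/
theorem prod_nm_le (M : RModel S Γ V k) (m : ℕ) : ∃ (A a : ℝ), 1 ≤ A ∧ 1 ≤ a ∧
    ∀ T : ℝ, 1 ≤ T → ∀ v : Fin m → V, (∀ t, M.nm (v t) ≤ T) →
      ∀ u, M.ex u = (List.ofFn fun t => M.ex (v t)).prod → M.nm u ≤ A * T ^ a := by
  have hC0 := M.one_le_C0
  induction m with
  | zero =>
    refine ⟨1, 1, le_rfl, le_rfl, fun T hT v _ u hu => ?_⟩
    rw [List.ofFn_zero, List.prod_nil, ← M.ex_zero] at hu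
    rw [M.ex_inj hu, map_zero]
    positivity
  | succ m ih =>
    obtain ⟨A, a, hA, ha, H⟩ := ih
    refine ⟨M.C0 * (2 + A) ^ M.C0, a * M.C0, ?_, by nlinarith, fun T hT v hv u hu => ?_⟩
    · have h1 : (1 : ℝ) ≤ (2 + A) ^ M.C0 := Real.one_le_rpow (by linarith) (by linarith)
      nlinarith
    rw [List.ofFn_succ, List.prod_cons] at hu
    obtain ⟨w, hw⟩ := M.ex_of_η (List.ofFn fun t => M.ex (v (Fin.succ t))).prod (by
      rw [map_list_prod]
      apply List.prod_eq_one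
      intro x hx
      rw [List.mem_map] at hx
      obtain ⟨y, hy, rfl⟩ := hx
      rw [List.mem_ofFn] at hy
      obtain ⟨t, rfl⟩ := hy
      exact M.η_ex _)
    rw [← hw] at hu
    have h1 := H T hT (fun t => v (Fin.succ t)) (fun t => hv _) w hw
    have h2 := M.ex_mul_le (v 0) w u hu.symm
    have hT0 : (0 : ℝ) < T := by linarith
    have h3 : T ≤ T ^ a := by
      conv_lhs => rw [← Real.rpow_one T]
      exact Real.rpow_le_rpow_of_exponent_le hT ha
    have h4 : (1 : ℝ) ≤ T ^ a := hT.trans h3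
    have h5 : 1 + M.nm (v 0) + M.nm w ≤ (2 + A) * T ^ a := by
      have := hv 0
      nlinarith
    have h6 : 0 ≤ 1 + M.nm (v 0) + M.nm w := by
      have := apply_nonneg M.nm (v 0)
      have := apply_nonneg M.nm w
      linarith
    calc M.nm u ≤ M.C0 * (1 + M.nm (v 0) + M.nm w) ^ M.C0 := h2
      _ ≤ M.C0 * ((2 + A) * T ^ a) ^ M.C0 := by
          apply mul_le_mul_of_nonneg_left _ (by linarith)
          exact Real.rpow_le_rpow h6 h5 (by linarith)
      _ = M.C0 * (2 + A) ^ M.C0 * T ^ (a * M.C0) := by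
          rw [Real.mul_rpow (by linarith) (by positivity), ← Real.rpow_mul hT0.le]
          ring

/-- **(D2b)** length of the elements of `E` in the natural boxes -/
theorem len_box (B : M.NatBox) {c₂ : ℝ} (hc₂ : 0 < c₂) : ∃ CL : ℝ, 0 < CL ∧ ∀ d₁ s : ℝ, 0 < d₁ →
    d₁ ≤ 1 → 1 ≤ s → ∀ h, M.HB c₂ h → ∀ x ∈ B.Bx (M.szh h d₁ s), x ∈ M.E →
      (M.l x : ℝ) ≤ CL * s := by
  classical
  have hC0 := M.one_le_C0
  have hBC := B.one_le
  obtain ⟨A, a, hA, ha, H⟩ := prod_nm_le M B.m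
  set c' : ℝ := max 1 c₂⁻¹ with hc'
  have hc'1 : 1 ≤ c' := le_max_left _ _
  have hlogA : 0 ≤ Real.log (2 * A) := Real.log_nonneg (by linarith)
  have hlogB : 0 ≤ Real.log B.C := Real.log_nonneg hBC
  refine ⟨M.C0 * (1 + Real.log (2 * A) + a * (Real.log B.C + c')), by positivity, ?_⟩
  intro d₁ s hd hd1 hs h hh x hx hxE
  obtain ⟨v, hv, hvx⟩ := (M.mem_E x).1 hxE
  obtain ⟨y, hy, hxy⟩ := B.gen _ (fun i => (by
    unfold RModel.szh
    split_ifs <;> positivity : 0 ≤ M.szh h d₁ s i)) x hx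
  have hsz : ∀ i, M.szh h d₁ s i ≤ Real.exp (c' * s) := by
    intro i
    unfold RModel.szh
    split_ifs with hi
    · apply Real.exp_le_exp.2
      nlinarith
    · apply Real.exp_le_exp.2
      have h1 := (hh _ ((M.wt_mem i).resolve_right hi)).2
      have h2 : c₂⁻¹ ≤ c' := le_max_right _ _
      nlinarith
  set T : ℝ := B.C * Real.exp (c' * s) with hT
  have hE1 : 1 ≤ Real.exp (c' * s) := Real.one_le_exp (by positivity)
  have hT1 : 1 ≤ T := by nlinarith
  have hT0 : 0 < T := by linarith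
  have h1 : M.nm v ≤ A * T ^ a := by
    refine H T hT1 (fun t => y t • M.X (B.J t)) (fun t => ?_) v (by rw [hvx]; exact hxy)
    rw [map_smul_eq_mul, Real.norm_eq_abs]
    calc |y t| * M.nm (M.X (B.J t)) ≤ (B.C * M.szh h d₁ s (B.J t)) * 1 := by
          refine mul_le_mul (hy t) (M.X_le _) (apply_nonneg _ _) ?_
          exact (abs_nonneg _).trans (hy t)
      _ ≤ T := by
          rw [mul_one, hT]
          exact mul_le_mul_of_nonneg_left (hsz _) (by linarith)
  have h2 := M.met_e v hv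
  rw [hvx] at h2
  have h3 : (1 : ℝ) ≤ T ^ a := Real.one_le_rpow hT1 (by linarith)
  have h4 : Real.log (1 + M.nm v) ≤ Real.log (2 * A) + a * (Real.log B.C + c' * s) := by
    have h5 : 1 + M.nm v ≤ 2 * A * T ^ a := by nlinarith
    have h6 : 0 < 1 + M.nm v := by
      have := apply_nonneg M.nm v
      linarith
    refine (Real.log_le_log h6 h5).trans (le_of_eq ?_)
    rw [Real.log_mul (by positivity) (by positivity), Real.log_rpow hT0, hT,
      Real.log_mul (by positivity) (Real.exp_pos _).ne', Real.log_exp]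
  have h5 : Real.log (2 * A) + a * (Real.log B.C + c' * s) ≤
      (Real.log (2 * A) + a * (Real.log B.C + c')) * s := by
    have e1 : Real.log (2 * A) * 1 ≤ Real.log (2 * A) * s := mul_le_mul_of_nonneg_left hs hlogA
    have e2 : a * Real.log B.C * 1 ≤ a * Real.log B.C * s :=
      mul_le_mul_of_nonneg_left hs (by positivity)
    linarith
  calc (M.l x : ℝ) ≤ M.C0 * (1 + Real.log (1 + M.nm v)) := h2
    _ ≤ M.C0 * (s + (Real.log (2 * A) + a * (Real.log B.C + c')) * s) := by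
        apply mul_le_mul_of_nonneg_left _ (by linarith)
        linarith
    _ = M.C0 * (1 + Real.log (2 * A) + a * (Real.log B.C + c')) * s := by ring

end Vale.Agent.P188.H540

end
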