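import Vale.Agent.P188.R.G069
import Vale.Agent.P188.R.G067
import Vale.Agent.P188.R.G043
import Vale.Agent.P188.R.G017
import Vale.Agent.P188.R.G068
import Vale.Agent.P188.R.G015
import Vale.Agent.P188.R.G064
import Vale.Agent.P188.R.G075

section

/-!
# P188, Z1, LIN: preparations
-/

set_option linter.all false

open MeasureTheory Set Filter
open scoped ENNReal
open Agent.P188.H428 (IsLen)
open Vale.Agent.P188.H530 (hgt hgt_mul)

namespace Vale.Agent.P188.Z1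

/-! ### real and extended measures -/

theorem real_le_of_le {S : Type*} [MeasurableSpace S] {μ : Measure S} {A B : Set S} {c : ℝ}
    (hB : μ B ≠ ∞) (hc : 0 ≤ c) (h : μ A ≤ ENNReal.ofReal c * μ B) : μ.real A ≤ c * μ.real B := by
  have h1 := ENNReal.toReal_mono (ENNReal.mul_ne_top ENNReal.ofReal_ne_top hB) h
  rwa [ENNReal.toReal_mul, ENNReal.toReal_ofReal hc] at h1

theorem le_of_real_le {S : Type*} [MeasurableSpace S] {μ : Measure S} {A B : Set S} {c : ℝ}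
    (hA : μ A ≠ ∞) (hB : μ B ≠ ∞) (hc : 0 ≤ c) (h : μ.real A ≤ c * μ.real B) :
    μ A ≤ ENNReal.ofReal c * μ B := by
  rw [← ENNReal.ofReal_toReal hA, ← ENNReal.ofReal_toReal hB, ← ENNReal.ofReal_mul hc]
  exact ENNReal.ofReal_le_ofReal h

/-! ### generic integral directions with a dual basis -/

/-- the integral vector `(n ^ j)_j` -/
def mom (k n : ℕ) : Fin k → ℤ := fun j => (n : ℤ) ^ (j : ℕ)

theorem finite_bad {k : ℕ} (b : Ht k →L[ℝ] ℝ) (hb : b ≠ 0) :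
    {n : ℕ | b (fun j => (mom k n j : ℝ)) = 0}.Finite := by
  set P : Polynomial ℝ := ∑ j : Fin k, Polynomial.C (b (Pi.single j 1)) * Polynomial.X ^ (j : ℕ)
    with hP
  have heval : ∀ n : ℕ, P.eval (n : ℝ) = b (fun j => (mom k n j : ℝ)) := by
    intro n
    have h1 : (fun j => (mom k n j : ℝ)) = ∑ j : Fin k, ((n : ℝ) ^ (j : ℕ)) • (Pi.single j (1 : ℝ)) := by
      funext i
      rw [Finset.sum_apply]
      simp only [Pi.smul_apply, smul_eq_mul, mom, Pi.single_apply]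
      rw [Finset.sum_eq_single i]
      · simp
      · intro j _ hj; rw [if_neg (Ne.symm hj), mul_zero]
      · intro h; exact absurd (Finset.mem_univ i) h
    rw [h1, map_sum, hP, Polynomial.eval_finset_sum]
    refine Finset.sum_congr rfl fun j _ => ?_
    rw [map_smul, smul_eq_mul, Polynomial.eval_mul, Polynomial.eval_C, Polynomial.eval_pow,
      Polynomial.eval_X, mul_comm]
  have hP0 : P ≠ 0 := by
    intro h0
    apply hb
    have hc : ∀ j : Fin k, b (Pi.single j 1) = 0 := by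
      intro j
      have h2 : P.coeff (j : ℕ) = b (Pi.single j 1) := by
        rw [hP, Polynomial.finset_sum_coeff, Finset.sum_eq_single j]
        · simp
        · intro i _ hi
          rw [Polynomial.coeff_C_mul_X_pow, if_neg]
          exact fun h => hi (Fin.ext h.symm)
        · intro h; exact absurd (Finset.mem_univ j) h
      rw [← h2, h0, Polynomial.coeff_zero]
    ext w
    have h1 : w = ∑ j : Fin k, (w j) • (Pi.single j (1 : ℝ)) := by
      funext i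
      rw [Finset.sum_apply]
      simp only [Pi.smul_apply, smul_eq_mul, Pi.single_apply]
      rw [Finset.sum_eq_single i]
      · simp
      · intro j _ hj; rw [if_neg (Ne.symm hj), mul_zero]
      · intro h; exact absurd (Finset.mem_univ i) h
    rw [h1, map_sum]
    simp [map_smul, hc]
  have h3 : ((fun n : ℕ => (n : ℝ)) ⁻¹' {x | P.IsRoot x}).Finite :=
    (Polynomial.finite_setOf_isRoot hP0).preimage (Nat.cast_injective.injOn)
  refine h3.subset ?_
  intro n hn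
  simp only [mem_preimage, mem_setOf_eq, Polynomial.IsRoot]
  rw [heval]; exact hn

theorem exists_mom (k : ℕ) (W : Finset (Ht k →L[ℝ] ℝ)) :
    ∃ (v : Fin k → Fin k → ℤ) (hh : Fin k → Ht k →L[ℝ] ℝ),
      (∀ i, ∀ b ∈ W, b ≠ 0 → b (fun j => (v i j : ℝ)) ≠ 0) ∧
      ∀ i j, hh j (fun l => (v i l : ℝ)) = if i = j then 1 else 0 := by
  classical
  have hfin : (⋃ b ∈ {b | b ∈ W ∧ b ≠ 0}, {n : ℕ | b (fun j => (mom k n j : ℝ)) = 0}).Finite := by
    refine Set.Finite.biUnion ?_ fun b hb => finite_bad b hb.2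
    exact W.finite_toSet.subset fun b hb => hb.1
  have hinf := hfin.infinite_compl
  haveI := hinf.to_subtype
  let φ := Infinite.natEmbedding
    ↑(⋃ b ∈ {b | b ∈ W ∧ b ≠ 0}, {n : ℕ | b (fun j => (mom k n j : ℝ)) = 0})ᶜ
  let n : Fin k → ℕ := fun i => (φ i : ℕ)
  have hninj : Function.Injective n := by
    intro i j hij
    exact Fin.ext (φ.injective (Subtype.ext hij))
  have hgen : ∀ i, ∀ b ∈ W, b ≠ 0 → b (fun j => (mom k (n i) j : ℝ)) ≠ 0 := by
    intro i b hb hb0 h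
    apply (φ i).2
    simp only [mem_iUnion]
    exact ⟨b, ⟨hb, hb0⟩, h⟩
  have hdet : (Matrix.vandermonde fun i : Fin k => (n i : ℝ)).det ≠ 0 := by
    rw [Matrix.det_vandermonde_ne_zero_iff]
    intro i j hij
    have hij' : ((n i : ℕ) : ℝ) = (n j : ℕ) := hij
    exact hninj (by exact_mod_cast hij')
  have hli : LinearIndependent ℝ fun i : Fin k => (fun j => (mom k (n i) j : ℝ) : Ht k) := by
    have h1 := Matrix.linearIndependent_rows_of_det_ne_zero hdet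
    have h2 : (fun i => Matrix.vandermonde (fun i : Fin k => (n i : ℝ)) i) =
        fun i : Fin k => (fun j => (mom k (n i) j : ℝ) : Ht k) := by
      funext i j
      simp [Matrix.vandermonde, mom]
    have h3 : LinearIndependent ℝ
        (fun i => Matrix.vandermonde (fun i : Fin k => (n i : ℝ)) i) := h1
    rwa [h2] at h3
  let B : Module.Basis (Fin k) ℝ (Ht k) := basisOfLinearIndependentOfCardEqFinrank' _ hli (by simp)
  have hB : ∀ i, B i = fun j => (mom k (n i) j : ℝ) := fun i => by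
    simp [B]
  refine ⟨fun i => mom k (n i), fun j => LinearMap.toContinuousLinearMap (B.coord j), hgen, ?_⟩
  intro i j
  rw [← hB]
  simp [Finsupp.single_apply]

namespace RModel

variable {S : Type} [Group S] [MeasurableSpace S] {Γ : Type} [Group Γ]
  {V : Type} [AddCommGroup V] [Module ℝ V] {k : ℕ} (M : RModel S Γ V k)

/-- neutral elements of size `exp (δ ρ)` -/
def Nt (δ ρ : ℝ) : Set S := {z | ∃ y ∈ M.Vw 0, M.nm y ≤ Real.exp (δ * ρ) ∧ M.ex y = z}

/-- neutral exponentials are in fat balls -/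
theorem ex_mem_FB : ∃ C : ℝ, 1 ≤ C ∧ ∀ δ : ℝ, 0 < δ → ∀ᶠ R : ℝ in atTop,
    M.Nt δ R ⊆ M.FB (C * δ) R := by
  obtain ⟨C, hC, hmul⟩ := M.ev_mul0
  refine ⟨C, hC, fun δ hδ => ?_⟩
  obtain ⟨z, hz, hze, hzn⟩ := M.τ_inv 0 (le_refl (0 : ℝ)) (by simp)
  obtain ⟨y0, hy0, hye0, _⟩ := M.C_ker _ _ (M.CB_inv (M.τ_CB 0)) (by
    rw [map_inv, M.η_τ, ofAdd_zero, inv_one])
  filter_upwards [eventually_ge_atTop (0 : ℝ), hmul δ hδ, ev_const (M.nm y0) hδ] with R hR h1 h2
  rintro _ ⟨y, hy, hyn, rfl⟩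
  obtain ⟨u, hu, hue, hun⟩ := h1 y hy y0 hy0 hyn h2
  refine ⟨0, zero_mem _, by simp [Real.exp_nonneg], u, hu, hun, 0, fun i => by simpa using hR, ?_⟩
  rw [M.ex_zero, one_mul, hue, hye0, inv_mul_cancel_right]

/-- **Neutral flatness for sets with small boundary.** -/
theorem NFp.apply (h : M.NFp) (K κ C₁ : ℝ) (hκ : 0 < κ) :
    ∃ (δ c₀ CR r₀ : ℝ), 0 < δ ∧ 0 < c₀ ∧ 0 ≤ CR ∧ ∀ r : ℝ, r₀ ≤ r →
    ∀ F F' : Γ → Γ, M.QIm K F F' → ∀ D Dp : Set S, MeasurableSet Dp → M.μ D ≠ 0 → M.μ D ≠ ⊤ →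
    M.μ Dp ≤ ENNReal.ofReal (1 + C₁) * M.μ D → ∀ y ∈ M.Vw 0, M.nm y ≤ Real.exp (δ * r) →
    (∀ z ∈ D, ∀ x : ℝ, 0 ≤ x → x ≤ 1 → ∀ g, (M.l g : ℝ) ≤ CR * r → z * M.ex (x • y) * g ∈ Dp) →
    M.μ {x | x ∈ D ∧ κ * r < ‖M.f F (x * M.ex y) - M.f F x‖} ≤
      ENNReal.ofReal (Real.exp (-(c₀ * r))) * M.μ Dp := by
  obtain ⟨δ, c₀, CR, r₀, hδ, hc₀, H⟩ := h K κ C₁ hκ
  have hC := M.C0_pos
  refine ⟨δ, c₀, |CR| + 2 * M.C0, max r₀ 1, hδ, hc₀, by positivity, ?_⟩
  intro r hr F F' hF D Dp hDp hD0 hDt hle y hy hyn hsub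
  have hr0 : r₀ ≤ r := (le_max_left _ _).trans hr
  have hr1 : 1 ≤ r := (le_max_right _ _).trans hr
  set Dm : Set S := M.cells (M.fl '' {w | ∃ z ∈ D, ∃ x : ℝ, 0 ≤ x ∧ x ≤ 1 ∧ w = z * M.ex (x • y)})
    with hDm
  have hmem : ∀ z ∈ D, ∀ x : ℝ, 0 ≤ x → x ≤ 1 → z * M.ex (x • y) ∈ Dm := by
    intro z hz x hx0 hx1
    exact ⟨z * M.ex (x • y), ⟨z, hz, x, hx0, hx1, rfl⟩, rfl⟩
  have hDDm : D ⊆ Dm := by
    intro z hz
    have := hmem z hz 0 le_rfl zero_le_one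
    rwa [zero_smul, M.ex_zero, mul_one] at this
  have hsubm : ∀ z' ∈ Dm, ∀ g, (M.l g : ℝ) ≤ |CR| * r → z' * g ∈ Dp := by
    rintro z' ⟨_, ⟨z, hz, x, hx0, hx1, rfl⟩, hfl⟩ g hg
    have h1 := M.fl_close (z * M.ex (x • y))
    have h2 := M.fl_close z'
    rw [← hfl] at h2
    have h3 := M.l_triR (z * M.ex (x • y)) (M.inG (M.fl (z * M.ex (x • y)))) z'
    rw [M.l_comm] at h1
    have h4 : (M.l ((z * M.ex (x • y))⁻¹ * z' * g) : ℝ) ≤
        M.l ((z * M.ex (x • y))⁻¹ * z') + M.l g := by exact_mod_cast M.len.mul _ _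
    have h5 := hsub z hz x hx0 hx1 ((z * M.ex (x • y))⁻¹ * z' * g) (by nlinarith)
    have e : z * M.ex (x • y) * ((z * M.ex (x • y))⁻¹ * z' * g) = z' * g := by group
    rwa [e] at h5
  have hDmDp : Dm ⊆ Dp := by
    intro z hz
    have := hsubm z hz 1 (by rw [M.len.one]; simp; positivity)
    rwa [mul_one] at this
  have hDpt : M.μ Dp ≠ ⊤ :=
    ne_top_of_le_ne_top (ENNReal.mul_ne_top ENNReal.ofReal_ne_top hDt) hle
  have hfat : M.Fat (CR * r) C₁ Dm Dp := by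
    refine ⟨M.measurableSet_cells _, hDp, fun h0 => hD0 (measure_mono_null hDDm h0),
      ne_top_of_le_ne_top hDpt (measure_mono hDmDp), fun z hz g hg => hsubm z hz g (hg.trans ?_),
      hle.trans ?_⟩
    · exact mul_le_mul_of_nonneg_right (le_abs_self _) (by linarith)
    · gcongr
  refine (H r hr0 F F' hF Dm Dp hfat y hy hyn D (fun z hz x hx0 hx1 => hmem z hz x hx0 hx1)).trans ?_
  gcongr

end RModel

end Vale.Agent.P188.Z1

end

section

/-!
# P188, Z1, block STRAIGHT, part A: elementary facts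
-/

set_option linter.all false

open MeasureTheory Set
open scoped ENNReal
open Vale.P188.H654

namespace Vale.Agent.P188.Z1

/-- a positive lower bound of finitely many positive numbers -/
theorem ln_pos_lb {α : Type} (s : Finset α) (f : α → ℝ) (hf : ∀ a ∈ s, 0 < f a) :
    ∃ c : ℝ, 0 < c ∧ ∀ a ∈ s, c ≤ f a := by
  classical
  induction s using Finset.induction_on with
  | empty => exact ⟨1, one_pos, by simp⟩
  | insert a s ha ih =>
    obtain ⟨c, hc, h⟩ := ih fun x hx => hf x (Finset.mem_insert_of_mem hx)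
    refine ⟨min c (f a), lt_min hc (hf a (Finset.mem_insert_self a s)), ?_⟩
    intro x hx
    rcases Finset.mem_insert.1 hx with rfl | hx
    · exact min_le_right _ _
    · exact (min_le_left _ _).trans (h x hx)

/-- an upper bound `≥ 1` of finitely many numbers -/
theorem ln_ub {α : Type} (s : Finset α) (f : α → ℝ) : ∃ c : ℝ, 1 ≤ c ∧ ∀ a ∈ s, f a ≤ c := by
  classical
  induction s using Finset.induction_on with
  | empty => exact ⟨1, le_rfl, by simp⟩
  | insert a s ha ih =>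
    obtain ⟨c, hc, h⟩ := ih
    refine ⟨max c (f a), le_max_of_le_left hc, ?_⟩
    intro x hx
    rcases Finset.mem_insert.1 hx with rfl | hx
    · exact le_max_right _ _
    · exact (h x hx).trans (le_max_left _ _)

/-- an upper bound `≥ 1` of finitely many natural numbers -/
theorem ln_ubN {α : Type} (s : Finset α) (f : α → ℕ) : ∃ c : ℕ, 1 ≤ c ∧ ∀ a ∈ s, f a ≤ c :=
  ⟨s.sup f + 1, by omega, fun a ha => (Finset.le_sup ha).trans (Nat.le_succ _)⟩

/-- polynomial times exponentially small -/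
theorem ln_poly_exp (C c ε : ℝ) (m : ℕ) (hc : 0 < c) (hε : 0 < ε) :
    ∃ s₀ : ℝ, 0 ≤ s₀ ∧ ∀ s : ℝ, s₀ ≤ s → C * (1 + s) ^ m * Real.exp (-(c * s)) ≤ ε := by
  have h1 : Filter.Tendsto (fun x : ℝ => x ^ m * Real.exp (-x)) Filter.atTop (nhds 0) :=
    Real.tendsto_pow_mul_exp_neg_atTop_nhds_zero m
  have h2 : Filter.Tendsto (fun s : ℝ => c * (1 + s)) Filter.atTop Filter.atTop :=
    (Filter.tendsto_atTop_add_const_left _ 1 Filter.tendsto_id).const_mul_atTop hc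
  have h3 := (h1.comp h2).const_mul (C * (c⁻¹) ^ m * Real.exp c)
  rw [mul_zero] at h3
  have h4 := (h3.eventually (gt_mem_nhds hε)).and (Filter.eventually_ge_atTop (0:ℝ))
  obtain ⟨s₀, hs₀⟩ := Filter.eventually_atTop.1 h4
  refine ⟨max s₀ 0, le_max_right _ _, fun s hs => ?_⟩
  have h5 := (hs₀ s ((le_max_left _ _).trans hs)).1.le
  refine le_trans (le_of_eq ?_) h5
  simp only [Function.comp_apply]
  have e1 : Real.exp (-(c * (1 + s))) = Real.exp (-(c * s)) * Real.exp (-c) := by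
    rw [← Real.exp_add]; congr 1; ring
  have e2 : Real.exp c * Real.exp (-c) = 1 := by rw [← Real.exp_add]; simp
  rw [e1, mul_pow]
  have hcm : c⁻¹ ^ m * c ^ m = 1 := by rw [← mul_pow, inv_mul_cancel₀ hc.ne', one_pow]
  linear_combination (-(C * (1 + s) ^ m * Real.exp (-(c * s)) * (Real.exp c * Real.exp (-c)))) * hcm
    + (-(C * (1 + s) ^ m * Real.exp (-(c * s)))) * e2

namespace RModel

variable {S : Type} [Group S] [MeasurableSpace S] {Γ : Type} [Group Γ]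
  {V : Type} [AddCommGroup V] [Module ℝ V] {k : ℕ} (M : RModel S Γ V k)

theorem ln_C0 : 0 ≤ M.C0 := zero_le_one.trans M.one_le_C0

theorem ln_θ_τ (w : Fin k → ℤ) : M.θ (M.τ w) = ht w := M.θ_τ w

theorem ln_θ_pow (x : S) (n : ℕ) : M.θ (x ^ n) = (n : ℝ) • M.θ x := by
  induction n with
  | zero => simp [M.θ_one]
  | succ n ih => rw [pow_succ, M.θ_mul, ih]; push_cast; rw [add_smul, one_smul]

theorem ln_θ_zpow (x : S) (n : ℤ) : M.θ (x ^ n) = (n : ℝ) • M.θ x := by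
  cases n with
  | ofNat n => rw [Int.ofNat_eq_natCast, zpow_natCast, M.ln_θ_pow]; simp
  | negSucc n =>
    rw [zpow_negSucc, M.θ_inv, M.ln_θ_pow, ← neg_smul]
    congr 1
    push_cast
    ring

theorem ln_one : M.l 1 = 0 := M.len.one

theorem ln_mulR (x y : S) : (M.l (x * y) : ℝ) ≤ M.l x + M.l y := by exact_mod_cast M.len.mul x y

theorem ln_pow (x : S) (n : ℕ) : M.l (x ^ n) ≤ n * M.l x := by
  induction n with
  | zero => simp [M.ln_one]
  | succ n ih =>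
    rw [pow_succ, Nat.succ_mul]
    exact (M.len.mul _ _).trans (Nat.add_le_add_right ih _)

theorem ln_zpow (x : S) (n : ℤ) : M.l (x ^ n) ≤ n.natAbs * M.l x := by
  cases n with
  | ofNat n => rw [Int.ofNat_eq_natCast, zpow_natCast]; exact M.ln_pow x n
  | negSucc n =>
    rw [zpow_negSucc, M.len.inv]
    exact M.ln_pow x (n + 1)

/-- Lipschitz constant of the height functions -/
noncomputable def lnLf (K : ℝ) : ℝ := M.C0 * (K * (2 * M.C0 + 2))

theorem lnLf_nonneg {K : ℝ} (hK : 0 ≤ K) : 0 ≤ M.lnLf K := by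
  have := M.ln_C0
  unfold lnLf; positivity

theorem QIm.ln_lip {M : RModel S Γ V k} {K : ℝ} {F F' : Γ → Γ} (h : M.QIm K F F') (z g : S) :
    ‖M.f F (z * g) - M.f F z‖ ≤ M.lnLf K * M.l g := by
  have hC0 := M.ln_C0
  have hK := h.K_nonneg
  rcases Nat.eq_zero_or_pos (M.l g) with h0 | h0
  · rw [M.l_zero g h0, mul_one, sub_self, norm_zero]
    have := M.lnLf_nonneg hK
    positivity
  · have h1 : (1 : ℝ) ≤ M.l g := by exact_mod_cast h0
    have e : M.f F (z * g) - M.f F z =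
        M.θ (M.inG ((F (M.fl z))⁻¹ * F (M.fl z * ((M.fl z)⁻¹ * M.fl (z * g))))) := by
      rw [mul_inv_cancel_left, map_mul, map_inv, M.θ_inv_mul]; rfl
    rw [e]
    refine (M.θ_le _).trans ?_
    unfold lnLf
    rw [mul_assoc]
    refine mul_le_mul_of_nonneg_left ?_ hC0
    refine (h.lip _ _).trans ?_
    rw [mul_assoc]
    refine mul_le_mul_of_nonneg_left ?_ hK
    rw [map_mul, map_inv]
    have t0 := M.fl_close z
    have t1 := M.fl_close (z * g)
    rw [M.l_comm] at t1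
    have t2 := M.l_triR (M.inG (M.fl z)) z (M.inG (M.fl (z * g)))
    have t3 := M.l_triR z (z * g) (M.inG (M.fl (z * g)))
    rw [inv_mul_cancel_left] at t3
    nlinarith

theorem ln_ri : RI M.μ := RI.of_measurable _ fun g A hA =>
  (M.mp g).measure_preimage hA.nullMeasurableSet

/-! ### inner sets -/

variable {M}

theorem ln_In_sub {r : ℝ} {D : Set S} (hr : 0 ≤ r) : M.In r D ⊆ D := by
  intro x hx
  have := hx 1 (by rw [M.ln_one]; simpa using hr)
  rwa [mul_one] at this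

theorem ln_In_mul {r r' : ℝ} {D : Set S} {x g : S} (hx : x ∈ M.In r D) (hg : (M.l g : ℝ) + r' ≤ r) :
    x * g ∈ M.In r' D := by
  intro g' hg'
  rw [mul_assoc]
  refine hx _ ((M.ln_mulR g g').trans ?_)
  linarith

theorem ln_In_mono {r r' : ℝ} {D : Set S} (h : r' ≤ r) : M.In r D ⊆ M.In r' D := by
  intro x hx g hg
  exact hx g (hg.trans h)

open Classical in
/-- union bound for finitely many translations -/
theorem ln_In_union {r r' : ℝ} {D A : Set S} {ι : Type} (I : Finset ι) (g : ι → S)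
    (hg : ∀ i ∈ I, (M.l (g i) : ℝ) + r' ≤ r) {e : ℝ≥0∞} (he : M.μ (M.In r' D \ A) ≤ e) :
    M.μ {x | x ∈ M.In r D ∧ ∃ i ∈ I, x * g i ∉ A} ≤ I.card * e := by
  have h1 : {x | x ∈ M.In r D ∧ ∃ i ∈ I, x * g i ∉ A} ⊆
      ⋃ i ∈ I, (fun x => x * g i) ⁻¹' (M.In r' D \ A) := by
    rintro x ⟨hx, i, hi, hxi⟩
    simp only [mem_iUnion]
    exact ⟨i, hi, ln_In_mul hx (hg i hi), hxi⟩
  refine (measure_mono h1).trans ((measure_biUnion_finset_le _ _).trans ?_)
  refine (Finset.sum_le_sum fun i _ => (M.ln_ri _ _).trans he).trans ?_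
  rw [Finset.sum_const, nsmul_eq_mul]

variable (M)

/-! ### words in the Cartan group -/

/-- a constant for all the directions: lengths and Cartan lengths of `τ v` -/
theorem ln_lm (V₁ : Finset (Fin k → ℤ)) : ∃ lm : ℕ, 1 ≤ lm ∧ (∀ v ∈ V₁, M.l (M.τ v) ≤ lm) ∧
    ∀ v ∈ V₁, M.τ v ∈ M.CB lm := by
  obtain ⟨c1, h1, h1'⟩ := ln_ubN V₁ fun v => M.l (M.τ v)
  obtain ⟨c2, h2, h2'⟩ := ln_ubN V₁ fun v => ⌈M.C0 * (1 + ‖(fun i => (v i : ℝ))‖)⌉₊
  refine ⟨c1 + c2, by omega, fun v hv => (h1' v hv).trans (by omega), fun v hv => ?_⟩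
  exact M.CB_mono ((h2' v hv).trans (by omega)) (M.τ_CB v)

end RModel

end Vale.Agent.P188.Z1

end

section

/-!
# P188, Z1, block SPREAD (owner 131): coordinates and spreading in the model
-/

set_option linter.all false

open MeasureTheory Set
open scoped ENNReal
open Vale.Agent.P188.H789 (Bl)
open Vale.Agent.P188.H530 (hgt Crossed)
open Vale.Agent.P188.H616 (Coord)
open Vale.Agent.P188.H893 (Cells Tgt dg dg_length)

namespace Vale.Agent.P188.Z1

namespace RModel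

variable {S : Type} [Group S] [MeasurableSpace S] {Γ : Type} [Group Γ]
  {V : Type} [AddCommGroup V] [Module ℝ V] {k : ℕ} (M : RModel S Γ V k)

variable {M} in
/-- crossed homomorphisms of `Γ` grow at most exponentially -/
theorem crossed_exp {b : Ht k →L[ℝ] ℝ} (c : Crossed (hgt (M.η.comp M.inG)) b) :
    ∃ C1 : ℝ, 0 ≤ C1 ∧ ∀ w : Γ, ‖c.D w‖ ≤ Real.exp (C1 * (M.l (M.inG w) + 1)) := by
  obtain ⟨D1, hD1⟩ := (M.md.fin.image fun a => ‖c.D a‖).bddAbove
  have hD1' : ∀ a ∈ M.A, ‖c.D a‖ ≤ D1 := fun a ha => hD1 ⟨a, ha, rfl⟩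
  have hD0 : 0 ≤ D1 := (norm_nonneg _).trans (hD1' 1 M.md.one)
  set β : ℝ := ‖b‖ * M.md.ℓ with hβ
  have hρ : ∀ a ∈ M.A, ‖c.ρ a‖ ≤ Real.exp β := by
    intro a ha
    rw [c.norm_ρ]
    refine Real.exp_le_exp.2 ?_
    calc b (hgt (M.η.comp M.inG) a) ≤ ‖b (hgt (M.η.comp M.inG) a)‖ := Real.le_norm_self _
      _ ≤ ‖b‖ * ‖hgt (M.η.comp M.inG) a‖ := b.le_opNorm _
      _ ≤ β := mul_le_mul_of_nonneg_left (M.md.hℓ a ha) (norm_nonneg _)
  set Λ : ℝ := 1 + D1 + Real.exp β with hΛ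
  have hΛ1 : 1 ≤ Λ := by have := Real.exp_pos β; linarith
  have key : ∀ L : List Γ, (∀ a ∈ L, a ∈ M.A) → ‖c.D L.prod‖ ≤ Λ ^ L.length - 1 := by
    intro L
    induction L with
    | nil => intro _; rw [List.prod_nil, c.D_one]; simp
    | cons a L ih =>
      intro h
      have h1 := ih fun x hx => h x (List.mem_cons_of_mem _ hx)
      have ha := h a List.mem_cons_self
      rw [List.prod_cons, c.D_mul, List.length_cons, pow_succ]
      refine (norm_add_le _ _).trans ?_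
      rw [norm_mul]
      have h2 := hD1' a ha
      have h3 := hρ a ha
      have hp : 1 ≤ Λ ^ L.length := one_le_pow₀ hΛ1
      have h4 : ‖c.ρ a‖ * ‖c.D L.prod‖ ≤ Real.exp β * (Λ ^ L.length - 1) := by gcongr
      have h5 := Real.exp_pos β
      nlinarith
  have hC0 : 0 ≤ M.C0 := zero_le_one.trans M.one_le_C0
  refine ⟨Real.log Λ * (M.C0 + 1), mul_nonneg (Real.log_nonneg hΛ1) (by linarith), fun w => ?_⟩
  obtain ⟨L, h1, h2, h3⟩ := M.wordG w
  have h4 : ∀ a ∈ L, a ∈ M.A := by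
    intro a ha
    rcases h2 a ha with h | h
    · exact h
    · have := M.md.inv _ h
      rwa [inv_inv] at this
  have h5 := key L h4
  rw [h3] at h5
  have h6 : Λ ^ L.length ≤ Real.exp (Real.log Λ * (M.C0 + 1) * (M.l (M.inG w) + 1)) := by
    have e1 : Λ ^ L.length = Real.exp (Real.log Λ * L.length) := by
      rw [mul_comm, Real.exp_nat_mul, Real.exp_log (by linarith)]
    rw [e1]
    refine Real.exp_le_exp.2 ?_
    rw [mul_assoc]
    refine mul_le_mul_of_nonneg_left ?_ (Real.log_nonneg hΛ1)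
    have e2 : (L.length : ℝ) ≤ ⌈M.C0 * (M.l (M.inG w) + 1)⌉₊ := by exact_mod_cast h1
    have hl : (0 : ℝ) ≤ M.l (M.inG w) := Nat.cast_nonneg _
    have e3 : (⌈M.C0 * (M.l (M.inG w) + 1)⌉₊ : ℝ) ≤ M.C0 * (M.l (M.inG w) + 1) + 1 :=
      (Nat.ceil_lt_add_one (by positivity)).le
    nlinarith
  linarith

variable {M} in
/-- displacement of the image -/
theorem QIm.disp {K : ℝ} {F F' : Γ → Γ} (h : M.QIm K F F') (z g : S) :
    (M.l (M.inG ((F (M.fl z))⁻¹ * F (M.fl (z * g)))) : ℝ) ≤ K * (M.l g + 2 * M.C0 + 1) := by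
  have hK0 : 0 ≤ K := le_trans (Nat.cast_nonneg _) (h.inv 1)
  have h1 := h.lip (M.fl z) ((M.fl z)⁻¹ * M.fl (z * g))
  rw [mul_inv_cancel_left] at h1
  refine h1.trans (mul_le_mul_of_nonneg_left ?_ hK0)
  rw [map_mul, map_inv]
  have h2 := M.fl_close z
  have h3 := M.fl_close (z * g)
  rw [M.l_comm] at h3
  have h4 := M.l_triR (M.inG (M.fl z)) z (M.inG (M.fl (z * g)))
  have h5 := M.l_triR z (z * g) (M.inG (M.fl (z * g)))
  rw [inv_mul_cancel_left] at h5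
  linarith

variable {M} in
theorem fb_eq {b : Ht k →L[ℝ] ℝ} (c : Crossed (hgt (M.η.comp M.inG)) b) (F : Γ → Γ) (z : S) :
    Real.exp (b (M.f F z)) = ‖c.ρ (F (M.fl z))‖ := (c.norm_ρ _).symm

variable {M} in
theorem fb_sub {b : Ht k →L[ℝ] ℝ} (F : Γ → Γ) (z g : S) :
    b (M.f F (z * g)) - b (M.f F z) =
      b (M.θ (M.inG ((F (M.fl z))⁻¹ * F (M.fl (z * g))))) := by
  have h1 : M.f F (z * g) = M.f F z + M.θ (M.inG ((F (M.fl z))⁻¹ * F (M.fl (z * g)))) := by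
    unfold f
    rw [← M.θ_mul, ← map_mul, mul_inv_cancel_left]
  rw [h1, map_add, add_sub_cancel_left]

variable {M} in
/-- the coordinate of a quasi-isometry -/
theorem coord_of {b : Ht k →L[ℝ] ℝ} (c : Crossed (hgt (M.η.comp M.inG)) b) (K : ℝ) :
    ∃ C : ℝ, 0 ≤ C ∧ ∀ C' : ℝ, C ≤ C' → ∀ F F' : Γ → Γ, M.QIm K F F' →
      Coord (fun z => (M.l z : ℝ)) (fun z => b (M.f F z)) (fun z => c.D (F (M.fl z))) C' C' := by
  obtain ⟨C1, hC1, h1⟩ := crossed_exp c
  have hC0 : 0 ≤ M.C0 := zero_le_one.trans M.one_le_C0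
  set A1 : ℝ := Real.exp (C1 * (|K| * (2 * M.C0 + 1) + 1)) with hA1
  set L1 : ℝ := C1 * |K| with hL1
  set L2 : ℝ := ‖b‖ * (M.C0 * (|K| * (2 * M.C0 + 2))) with hL2
  have hA0 : 0 ≤ A1 := (Real.exp_pos _).le
  have hL10 : 0 ≤ L1 := by positivity
  have hL20 : 0 ≤ L2 := by positivity
  refine ⟨A1 + L1 + L2, by positivity, fun C' hC' F F' h => ?_⟩
  have hK0 : 0 ≤ K := le_trans (Nat.cast_nonneg _) (h.inv 1)
  have hKa : |K| = K := abs_of_nonneg hK0
  refine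
    { A0 := by linarith
      L0 := by linarith
      l0 := fun g => Nat.cast_nonneg _
      linv := fun g => by rw [M.len.inv]
      step := fun z g => ?_
      lip := fun z g => ?_ }
  · set w := (F (M.fl z))⁻¹ * F (M.fl (z * g)) with hw
    have e1 : c.D (F (M.fl (z * g))) - c.D (F (M.fl z)) = c.ρ (F (M.fl z)) * c.D w := by
      have := c.D_mul (F (M.fl z)) w
      rw [hw, mul_inv_cancel_left] at this
      rw [this, add_sub_cancel_left]
    rw [e1, norm_mul, ← fb_eq c]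
    have hl : (0 : ℝ) ≤ M.l g := Nat.cast_nonneg _
    have e2 : ‖c.D w‖ ≤ A1 * Real.exp (L1 * M.l g) := by
      refine (h1 w).trans ?_
      rw [hA1, ← Real.exp_add]
      refine Real.exp_le_exp.2 ?_
      have := h.disp z g
      rw [← hw] at this
      rw [hL1, hKa]
      nlinarith
    calc Real.exp (b (M.f F z)) * ‖c.D w‖
        ≤ Real.exp (b (M.f F z)) * (A1 * Real.exp (L1 * M.l g)) := by gcongr
      _ = A1 * (1 * Real.exp (b (M.f F z) + L1 * M.l g)) := by rw [Real.exp_add]; ring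
      _ ≤ C' * ((1 + M.l g) * Real.exp (b (M.f F z) + C' * M.l g)) := by
          gcongr <;> linarith
      _ = C' * (1 + M.l g) * Real.exp (b (M.f F z) + C' * M.l g) := by ring
  · by_cases hg : M.l g = 0
    · have := M.l_zero g hg
      rw [this, mul_one, sub_self, abs_zero]
      have hC'0 : 0 ≤ C' := by linarith
      positivity
    · have hl1 : (1 : ℝ) ≤ M.l g := by exact_mod_cast Nat.one_le_iff_ne_zero.2 hg
      rw [fb_sub]
      have e1 := h.disp z g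
      calc |b (M.θ (M.inG ((F (M.fl z))⁻¹ * F (M.fl (z * g)))))|
          ≤ ‖b‖ * ‖M.θ (M.inG ((F (M.fl z))⁻¹ * F (M.fl (z * g))))‖ := b.le_opNorm _
        _ ≤ ‖b‖ * (M.C0 * (K * (M.l g + 2 * M.C0 + 1))) := by
            gcongr
            exact (M.θ_le _).trans (mul_le_mul_of_nonneg_left e1 hC0)
        _ ≤ L2 * M.l g := by
            rw [hL2, hKa]
            have e2 : (M.l g : ℝ) + 2 * M.C0 + 1 ≤ (2 * M.C0 + 2) * M.l g := by nlinarith
            calc ‖b‖ * (M.C0 * (K * (M.l g + 2 * M.C0 + 1)))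
                ≤ ‖b‖ * (M.C0 * (K * ((2 * M.C0 + 2) * M.l g))) := by gcongr
              _ = _ := by ring
        _ ≤ C' * M.l g := by gcongr; linarith

/-- an element of `Γ` expanded by `b` -/
theorem exists_t {b : Ht k →L[ℝ] ℝ} (hb : b ≠ 0) (B : ℝ) : ∃ t : Γ, B ≤ b (M.θ (M.inG t)) := by
  -- an integral vector with `b ≠ 0`
  have h1 : ∃ i : Fin k, b (Pi.single i 1) ≠ 0 := by
    by_contra hcon
    push Not at hcon
    apply hb
    refine ContinuousLinearMap.ext fun x => ?_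
    have e : x = ∑ i, x i • (Pi.single i 1 : Fin k → ℝ) := by
      funext j
      simp [Finset.sum_apply, Pi.single_apply]
    rw [e, map_sum]
    simp [hcon]
  obtain ⟨i, hi⟩ := h1
  have hC0 : 0 ≤ M.C0 := zero_le_one.trans M.one_le_C0
  obtain ⟨n, hn⟩ := exists_nat_gt ((B + ‖b‖ * (M.C0 * M.C0)) / |b (Pi.single i 1)|)
  have hbi : 0 < |b (Pi.single i 1)| := abs_pos.2 hi
  rw [div_lt_iff₀ hbi] at hn
  obtain ⟨m, hm⟩ : ∃ m : ℤ, (m : ℝ) * b (Pi.single i 1) = n * |b (Pi.single i 1)| := by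
    rcases le_or_gt 0 (b (Pi.single i 1)) with h | h
    · exact ⟨n, by rw [abs_of_nonneg h]; push_cast; ring⟩
    · exact ⟨-n, by rw [abs_of_neg h]; push_cast; ring⟩
  obtain ⟨s, hs⟩ := M.η_surj (Multiplicative.ofAdd (Pi.single i m))
  have h2 : M.θ s = (m : ℝ) • (Pi.single i 1 : Fin k → ℝ) := by
    funext j
    simp only [θ, hgt, hs, Pi.smul_apply, smul_eq_mul]
    by_cases hij : j = i
    · subst hij; simp
    · simp [Pi.single_apply, hij]
  refine ⟨M.fl s, ?_⟩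
  have h3 : M.θ s = M.θ (M.inG (M.fl s)) + M.θ ((M.inG (M.fl s))⁻¹ * s) := by
    rw [← M.θ_mul, mul_inv_cancel_left]
  have h4 : b (M.θ s) = n * |b (Pi.single i 1)| := by rw [h2, map_smul, smul_eq_mul, hm]
  have h5 : |b (M.θ ((M.inG (M.fl s))⁻¹ * s))| ≤ ‖b‖ * (M.C0 * M.C0) := by
    refine (b.le_opNorm _).trans ?_
    gcongr
    exact (M.θ_le _).trans (mul_le_mul_of_nonneg_left (M.fl_close s) hC0)
  rw [h3, map_add] at h4
  have := abs_le.1 h5
  linarith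

variable {M} in
/-- the cells of the points of the target -/
theorem QIm.cells {K : ℝ} {F F' : Γ → Γ} (h : M.QIm K F F') :
    Cells M.μ (fun z => F (M.fl z)) (fun g => M.fl ⁻¹' {F' g}) M.cv (M.mlt (2 * K) * M.cv)
      ⌈(M.mlt (2 * K)).toReal⌉₊ where
  m0_ne := M.cv_ne_zero
  m1_ne := ENNReal.mul_ne_top (M.mlt_ne_top _) M.cv_ne_top
  fib g := by
    have h1 := h.mu_le {g}
    rw [mu_cells, encard_singleton] at h1
    simp only [mem_singleton_iff, ENat.toENNReal_one, one_mul] at h1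
    exact h1
  big g := (M.mu_cell _).ge
  mult B := by
    classical
    have h1 : ∀ g ∈ B, M.μ (M.fl ⁻¹' {F' g}) = M.cv := fun g _ => M.mu_cell _
    rw [Finset.sum_congr rfl h1, Finset.sum_const, nsmul_eq_mul]
    have h2 : (⋃ g ∈ B, M.fl ⁻¹' {F' g}) = M.cells (F' '' B) := by
      ext z
      simp only [mem_iUnion, mem_preimage, mem_singleton_iff, RModel.cells, mem_image,
        Finset.mem_coe, exists_prop]
      exact ⟨fun ⟨g, hg, h⟩ => ⟨g, hg, h.symm⟩, fun ⟨g, hg, h⟩ => ⟨g, hg, h.symm⟩⟩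
    rw [h2]
    -- the cells of `B`
    have h3 := (h.symm).mu_le (F' '' B)
    have h4 : M.μ (M.cells (B : Set Γ)) ≤ M.μ {z | F' (M.fl z) ∈ F' '' B} :=
      measure_mono fun z hz => ⟨_, hz, rfl⟩
    rw [mu_cells, Set.encard_coe_eq_coe_finsetCard] at h4
    have h5 : ((B.card : ℕ∞) : ℝ≥0∞) = (B.card : ℝ≥0∞) := rfl
    have h6 := h4.trans h3
    refine (le_trans (le_of_eq ?_) h6).trans ?_
    · simp
    · refine mul_le_mul' ?_ le_rfl
      conv_lhs => rw [← ENNReal.ofReal_toReal (M.mlt_ne_top (2 * K))]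
      rw [← ENNReal.ofReal_natCast]
      exact ENNReal.ofReal_le_ofReal (Nat.le_ceil _)

/-- **SPREAD** -/
theorem spread_holds : M.SPREAD := by
  intro K
  -- constants for one class
  have main : ∀ b ∈ M.Φ, ∃ C : ℝ, 1 ≤ C ∧ ∀ C' : ℝ, C ≤ C' → ∀ F F' : Γ → Γ, M.QIm K F F' →
      ∃ X : S → ℂ, Coord (fun z => (M.l z : ℝ)) (fun z => b (M.f F z)) X C' C' ∧
      ∀ (q j N m' : ℕ) (θ : ENNReal) (DD Dp : Set S), M.μ DD ≠ ⊤ → M.μ Dp ≤ m' * M.μ DD →
      (∀ z ∈ DD, ∀ g, (M.l g : ℝ) ≤ C' * (q + 1) → z * g ∈ Dp) →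
      (N * 2 ^ j : ℕ) * (ENNReal.ofReal C' * m') < 2 ^ q * θ →
      ∀ Γ₀ : Set S, MeasurableSet Γ₀ → Γ₀ ⊆ DD → θ * M.μ DD ≤ M.μ Γ₀ → M.μ Γ₀ ≠ 0 → ∃ z0 : S,
      ∀ (Y : Finset S) (φ : S → S), Y.card ≤ N →
        (∀ z ∈ Γ₀ ∩ {z | (M.l (z0⁻¹ * z) : ℝ) ≤ C' * (q + 1)}, φ z ∈ Y) →
        ∃ z ∈ Γ₀ ∩ {z | (M.l (z0⁻¹ * z) : ℝ) ≤ C' * (q + 1)},
        ∃ z' ∈ Γ₀ ∩ {z | (M.l (z0⁻¹ * z) : ℝ) ≤ C' * (q + 1)},
          φ z = φ z' ∧ |b (M.f F z) - b (M.f F z')| ≤ 0 ∧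
            Real.exp (b (M.f F z) + (j - C')) < ‖X z - X z'‖ := by
    intro b hb
    obtain ⟨c, -⟩ := M.crossed b hb
    obtain ⟨t, ht⟩ := M.exists_t (M.Φ_ne b hb) (Real.log 3)
    obtain ⟨C2, hC2, hcoord⟩ := coord_of c K
    have hC0 : 0 ≤ M.C0 := zero_le_one.trans M.one_le_C0
    have T : Tgt c.ρ c.D t c.u :=
      { D_mul := c.D_mul
        ρ_mul := c.ρ_mul
        ρ_one := c.ρ_one
        ρ_u := c.ρ_ker _ c.θ_u
        D_u := c.D_u
        ρ_t := by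
          rw [c.norm_ρ]
          have : Real.log 3 ≤ b (hgt (M.η.comp M.inG) t) := ht
          calc (3 : ℝ) = Real.exp (Real.log 3) := (Real.exp_log (by norm_num)).symm
            _ ≤ _ := Real.exp_le_exp.2 this }
    set m : ℝ≥0∞ := M.mlt (2 * K) with hm
    have hmt : m ≠ ⊤ := M.mlt_ne_top _
    set CM : ℕ := ⌈m.toReal⌉₊ with hCM
    set W : ℝ := (M.l (M.inG c.u) : ℝ) + 2 * M.l (M.inG t) with hW
    have hW0 : 0 ≤ W := by positivity
    -- length constant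
    set C3 : ℝ := 2 * M.C0 + |K| + |K| * (W + 1) with hC3
    have hC30 : 0 ≤ C3 := by positivity
    set C4 : ℝ := |Real.log (‖c.D c.u‖ / 2)| with hC4
    have hC40 : 0 ≤ C4 := abs_nonneg _
    set C5 : ℝ := (CM : ℝ) * m.toReal with hC5
    have hC50 : 0 ≤ C5 := by positivity
    refine ⟨1 + C2 + C3 + C4 + C5, by linarith, fun C' hC' F F' h => ?_⟩
    have hK0 : 0 ≤ K := le_trans (Nat.cast_nonneg _) (h.inv 1)
    have hKa : |K| = K := abs_of_nonneg hK0
    refine ⟨fun z => c.D (F (M.fl z)), hcoord C' (by linarith) F F' h, ?_⟩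
    intro q j N m' θ DD Dp hDfin hDp hsub hbig Γ₀ hΓm hΓD hΓ hΓ0
    -- the key length estimate
    have hlen : ∀ z : S, ∀ J : Finset ℕ,
        (M.l (z⁻¹ * M.inG (F' (F (M.fl z) * (dg t c.u J q)⁻¹))) : ℝ) ≤
          M.C0 + K + K * (q * W + 1) := by
      intro z J
      have e1 : (M.l (M.inG (dg t c.u J q)) : ℝ) ≤ q * W := by
        have := dg_length (l := fun g : Γ => (M.l (M.inG g) : ℝ))
          (by simp [M.len.one]) (fun x y => by
            simp only [map_mul]; exact_mod_cast M.len.mul _ _)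
          (fun x => by simp only [map_inv, M.len.inv]) t c.u J q
        exact this
      have e2 := h.lip' (F (M.fl z)) (dg t c.u J q)⁻¹
      rw [map_inv M.inG (dg t c.u J q), M.len.inv] at e2
      have e3 := h.inv (M.fl z)
      have e4 := M.fl_close z
      rw [M.l_comm] at e4
      have e5 := M.l_triR z (M.inG (M.fl z)) (M.inG (F' (F (M.fl z) * (dg t c.u J q)⁻¹)))
      have e6 := M.l_triR (M.inG (M.fl z)) (M.inG (F' (F (M.fl z))))
        (M.inG (F' (F (M.fl z) * (dg t c.u J q)⁻¹)))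
      rw [map_mul, map_inv] at e2 e3
      have e7 : K * ((M.l (M.inG (dg t c.u J q)) : ℝ) + 1) ≤ K * (q * W + 1) := by gcongr
      linarith
    have hball : 2 * M.C0 + K + K * (q * W + 1) ≤ C' * (q + 1) := by
      have hq : (0 : ℝ) ≤ q := Nat.cast_nonneg _
      have e1 : 2 * M.C0 + K + K * (q * W + 1) ≤ C3 * (q + 1) := by
        rw [hC3, hKa]
        have : 0 ≤ K * W := by positivity
        nlinarith [mul_nonneg hK0 hq, mul_nonneg hC0 hq, mul_nonneg this hq]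
      refine e1.trans ?_
      gcongr
      linarith
    -- apply the abstract theorem
    have hκ : Real.exp ((j : ℝ) - C') < ‖c.D c.u‖ * ‖c.ρ t‖ ^ j / 2 := by
      have h3 : (3 : ℝ) ≤ ‖c.ρ t‖ := T.ρ_t
      have hDu : 0 < ‖c.D c.u‖ / 2 := by
        have := norm_pos_iff.2 c.D_u
        linarith
      have e1 : Real.exp (j : ℝ) ≤ ‖c.ρ t‖ ^ j := by
        have : Real.exp (j : ℝ) = Real.exp 1 ^ j := by rw [← Real.exp_nat_mul, mul_one]
        rw [this]
        have he : Real.exp 1 ≤ 3 := by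
          have := Real.exp_one_lt_d9
          linarith
        exact pow_le_pow_left₀ (Real.exp_pos _).le (he.trans h3) j
      have e2 : Real.exp (-C') < ‖c.D c.u‖ / 2 := by
        rw [← Real.exp_log hDu]
        refine Real.exp_lt_exp.2 ?_
        have := neg_abs_le (Real.log (‖c.D c.u‖ / 2))
        have h4 : C4 = |Real.log (‖c.D c.u‖ / 2)| := hC4
        linarith
      rw [sub_eq_add_neg, Real.exp_add]
      have e3 : 0 < Real.exp (j : ℝ) := Real.exp_pos _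
      calc Real.exp (j : ℝ) * Real.exp (-C') < Real.exp (j : ℝ) * (‖c.D c.u‖ / 2) := by gcongr
        _ ≤ ‖c.ρ t‖ ^ j * (‖c.D c.u‖ / 2) := by gcongr
        _ = _ := by ring
    have hbig' : (N * 2 ^ j : ℕ) * ((CM : ℝ≥0∞) * m' * (m * M.cv)) < 2 ^ q * (M.cv * θ) := by
      have e1 : (CM : ℝ≥0∞) * m ≤ ENNReal.ofReal C' := by
        have : (CM : ℝ≥0∞) * m = ENNReal.ofReal C5 := by
          rw [hC5, ENNReal.ofReal_mul (by positivity), ENNReal.ofReal_natCast,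
            ENNReal.ofReal_toReal hmt]
        rw [this]
        exact ENNReal.ofReal_le_ofReal (by linarith)
      calc ((N * 2 ^ j : ℕ) : ℝ≥0∞) * ((CM : ℝ≥0∞) * m' * (m * M.cv))
          = M.cv * (((N * 2 ^ j : ℕ) : ℝ≥0∞) * (((CM : ℝ≥0∞) * m) * m')) := by ring
        _ ≤ M.cv * (((N * 2 ^ j : ℕ) : ℝ≥0∞) * (ENNReal.ofReal C' * m')) := by gcongr
        _ < M.cv * (2 ^ q * θ) :=
            ENNReal.mul_lt_mul_right M.cv_ne_zero M.cv_ne_top hbig
        _ = _ := by ring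
    obtain ⟨z0, hz0⟩ := Vale.Agent.P188.H893.spread (μ := M.μ) T h.cells
      (h := fun z => b (M.f F z)) (X := fun z => c.D (F (M.fl z)))
      (fun z => fb_eq c F z) (fun z => rfl) (DD := DD) (Dp := Dp) (M := m') hDp hDfin
      (q := q) (j := j) (N := N) (κ0 := (j : ℝ) - C') (C0 := 0) le_rfl
      (by
        intro z hz J hJ x hx
        have hx' : M.fl x = F' (F (M.fl z) * (dg t c.u J q)⁻¹) := hx
        have e1 := hlen z J
        rw [← hx'] at e1
        have e2 := M.fl_close x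
        have e3 := M.l_triR z (M.inG (M.fl x)) x
        have e4 := hsub z hz (z⁻¹ * x) (by linarith)
        rwa [mul_inv_cancel_left] at e4)
      (B := fun z0 => {z | (M.l (z0⁻¹ * z) : ℝ) ≤ C' * (q + 1)}) (Φ' := fun g => M.inG (F' g))
      (by
        intro z hz J hJ
        show (M.l ((M.inG (F' (F (M.fl z) * (dg t c.u J q)⁻¹)))⁻¹ * z) : ℝ) ≤ C' * (q + 1)
        rw [M.l_comm]
        have e1 := hlen z J
        linarith)
      hbig' hκ Γ₀ hΓD hΓ hΓ0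
    exact ⟨z0, fun Y φ hY hφ => hz0 Y φ hY hφ⟩
  -- a common constant
  choose! Cb hCb1 hCb using main
  obtain ⟨C, hC⟩ := (M.Φ.image Cb).exists_le
  refine ⟨max C 1, le_max_right _ _, fun F F' h b hb => ?_⟩
  exact hCb b hb (max C 1) ((hC _ (Finset.mem_image_of_mem _ hb)).trans (le_max_left _ _)) F F' h

end RModel

end Vale.Agent.P188.Z1

end

section

/-!
# P188, Z1, block COH, part 1: most points transfer end points (maps of `Γ`)
-/

set_option linter.all false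

open MeasureTheory Set
open scoped ENNReal
open Agent.P188.H428 (IsLen)
open Vale.Agent.P188.H789 (Bl Bl_mono Bl_finite one_mem_Bl)
open Vale.Agent.P188.H530 (hgt hgt_mul Crossed Mod Tr TrP OrbMap LinAt)

namespace Vale.Agent.P188.Z1

namespace RModel

variable {S : Type} [Group S] [MeasurableSpace S] {Γ : Type} [Group Γ]
  {V : Type} [AddCommGroup V] [Module ℝ V] {k : ℕ} (M : RModel S Γ V k)

theorem C0_nn : 0 ≤ M.C0 := zero_le_one.trans M.one_le_C0

/-- length of the elements of the ball of `Γ` -/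
theorem l_Bl {n : ℕ} {g : Γ} (hg : g ∈ Bl M.A n) : (M.l (M.inG g) : ℝ) ≤ M.C0 * n := by
  obtain ⟨L, h1, h2, rfl⟩ := hg
  have key : ∀ L : List Γ, (∀ a ∈ L, a ∈ M.A ∨ a⁻¹ ∈ M.A) →
      (M.l (M.inG L.prod) : ℝ) ≤ M.C0 * L.length := by
    intro L
    induction L with
    | nil => intro _; simp [M.len.one]
    | cons a L ih =>
      intro h
      have h3 := ih fun b hb => h b (List.mem_cons_of_mem _ hb)
      have h4 : (M.l (M.inG a) : ℝ) ≤ M.C0 := by
        rcases h a List.mem_cons_self with h | h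
        · exact M.A_len a h
        · have := M.A_len _ h
          rwa [map_inv, M.len.inv] at this
      rw [List.prod_cons, map_mul, List.length_cons]
      have h5 : (M.l (M.inG a * M.inG L.prod) : ℝ) ≤ M.l (M.inG a) + M.l (M.inG L.prod) := by
        exact_mod_cast M.len.mul _ _
      push_cast
      linarith
  refine (key L h2).trans ?_
  have := M.C0_nn
  gcongr

/-- number of steps -/
noncomputable def stp (K : ℝ) : ℕ := ⌈M.C0 * (K * (3 * M.C0 + 1) + 1)⌉₊ + 1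

/-- bound of the fibres -/
noncomputable def cnt (K : ℝ) : ℕ := (Bl M.A ⌈M.C0 * (2 * M.C0 + 2 * K + 1)⌉₊).ncard

theorem QIm.nonneg {M : RModel S Γ V k} {K : ℝ} {F F' : Γ → Γ} (h : M.QIm K F F') : 0 ≤ K :=
  (Nat.cast_nonneg (M.l (M.inG (1⁻¹ * F' (F 1))))).trans (h.inv 1)

/-- distance between the floors -/
theorem fl_dist (x y : S) : (M.l (M.inG ((M.fl x)⁻¹ * M.fl y)) : ℝ) ≤ M.l (x⁻¹ * y) + 2 * M.C0 := by
  have h1 := M.fl_close x
  have h2 := M.fl_close y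
  rw [M.l_comm] at h2
  rw [map_mul, map_inv]
  have t1 := M.l_triR (M.inG (M.fl x)) x (M.inG (M.fl y))
  have t2 := M.l_triR x y (M.inG (M.fl y))
  linarith

theorem dist_fl (x y : S) : (M.l (x⁻¹ * y) : ℝ) ≤ M.l (M.inG ((M.fl x)⁻¹ * M.fl y)) + 2 * M.C0 := by
  have h1 := M.fl_close x
  have h2 := M.fl_close y
  rw [M.l_comm] at h1
  rw [map_mul, map_inv]
  have t1 := M.l_triR x (M.inG (M.fl x)) y
  have t2 := M.l_triR (M.inG (M.fl x)) (M.inG (M.fl y)) y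
  linarith

theorem QIm.lip2 {M : RModel S Γ V k} {K : ℝ} {F F' : Γ → Γ} (h : M.QIm K F F') (x y : S) :
    (M.l (M.inG ((F (M.fl x))⁻¹ * F (M.fl y))) : ℝ) ≤ K * (M.l (x⁻¹ * y) + 2 * M.C0 + 1) := by
  have h1 := h.lip (M.fl x) ((M.fl x)⁻¹ * M.fl y)
  rw [mul_inv_cancel_left] at h1
  refine h1.trans ?_
  have := M.fl_dist x y
  have := h.nonneg
  gcongr

/-- `F` is an orbit map. -/
theorem QIm.orbMap {M : RModel S Γ V k} {K : ℝ} {F F' : Γ → Γ} (h : M.QIm K F F') :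
    OrbMap M.A M.A (M.cnt K) (M.stp K) M.μ (fun x g => x * M.inG g) (fun x => F (M.fl x)) := by
  have hC0 := M.C0_nn
  have hK := h.nonneg
  refine ⟨fun x => by simp, fun x g g' => by simp [mul_assoc], fun g => M.mp _, ?_, ?_⟩
  · intro x a ha
    have h1 := h.lip2 x (x * M.inG a)
    rw [inv_mul_cancel_left] at h1
    have h2 := M.A_len a ha
    refine Bl_mono ?_ (M.wordG _)
    have h3 : M.C0 * (M.l (M.inG ((F (M.fl x))⁻¹ * F (M.fl (x * M.inG a)))) + 1) ≤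
        M.C0 * (K * (3 * M.C0 + 1) + 1) := by
      gcongr
      refine h1.trans ?_
      gcongr
      linarith
    exact (Nat.ceil_le_ceil h3).trans (Nat.le_succ _)
  · intro x y
    rcases Set.eq_empty_or_nonempty {g | F (M.fl (x * M.inG g)) = y} with he | ⟨g₀, hg₀⟩
    · rw [he]; simp
    · have hsub : (fun g => g₀⁻¹ * g) '' {g | F (M.fl (x * M.inG g)) = y} ⊆
          Bl M.A ⌈M.C0 * (2 * M.C0 + 2 * K + 1)⌉₊ := by
        rintro _ ⟨g, hg, rfl⟩
        refine Bl_mono (Nat.ceil_le_ceil ?_) (M.wordG _)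
        have hg' : F (M.fl (x * M.inG g)) = y := hg
        have hg₀' : F (M.fl (x * M.inG g₀)) = y := hg₀
        have h1 := h.mult (M.fl (x * M.inG g₀)) (M.fl (x * M.inG g)) (hg₀'.trans hg'.symm)
        have h2 := M.dist_fl (x * M.inG g₀) (x * M.inG g)
        have e : (x * M.inG g₀)⁻¹ * (x * M.inG g) = M.inG (g₀⁻¹ * g) := by
          rw [map_mul, map_inv]; group
        rw [e] at h2
        gcongr
        linarith
      have hfin : (Bl M.A ⌈M.C0 * (2 * M.C0 + 2 * K + 1)⌉₊).Finite := Bl_finite M.md.fin _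
      have hinj : Set.InjOn (fun g => g₀⁻¹ * g) {g | F (M.fl (x * M.inG g)) = y} :=
        fun a _ b _ hab => mul_left_cancel hab
      refine ⟨Set.Finite.of_finite_image (hfin.subset hsub) hinj, ?_⟩
      rw [← hinj.ncard_image]
      exact Set.ncard_le_ncard hsub hfin

/-- `f` is affine at distance at most `r` on the subset `D₀` of `D`, which has density at least
`1 - ε`. -/
structure LinOn (K L ε κ r R : ℝ) (F F' : Γ → Γ) (D Dp D₀ : Set S)
    (T : S → Ht k →L[ℝ] Ht k) : Prop where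
  qi : M.QIm K F F'
  fat : M.Fat R κ D Dp
  sub : D₀ ⊆ D
  most : M.μ (D \ D₀) ≤ ENNReal.ofReal ε * M.μ D
  T_le : ∀ x ∈ D₀, ‖T x‖ ≤ L
  lin : ∀ x ∈ D₀, ∀ x' ∈ D₀, (M.l (x⁻¹ * x') : ℝ) ≤ r →
    ‖M.f F x' - M.f F x - T x (M.θ (x⁻¹ * x'))‖ ≤ ε * r ∧ ‖T x' - T x‖ ≤ ε

variable {M}

theorem Fat.sub_self {R κ : ℝ} {D Dp : Set S} (h : M.Fat R κ D Dp) (hR : 0 ≤ R) : D ⊆ Dp := by
  intro z hz
  have := h.sub z hz 1 (by rw [M.len.one]; simpa using hR)
  rwa [mul_one] at this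

theorem Fat.top {R κ : ℝ} {D Dp : Set S} (h : M.Fat R κ D Dp) : M.μ Dp ≠ ⊤ :=
  ne_top_of_le_ne_top (ENNReal.mul_ne_top ENNReal.ofReal_ne_top h.fin) h.le

theorem Fat.diff {R κ : ℝ} {D Dp : Set S} (h : M.Fat R κ D Dp) (hR : 0 ≤ R) (hκ : 0 ≤ κ) :
    M.μ (Dp \ D) ≤ ENNReal.ofReal κ * M.μ D := by
  rw [measure_sdiff (h.sub_self hR) h.meas.nullMeasurableSet h.fin]
  refine tsub_le_iff_right.2 (h.le.trans ?_)
  rw [ENNReal.ofReal_add zero_le_one hκ, ENNReal.ofReal_one, add_mul, one_mul, add_comm]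

theorem real_of_le {A B : Set S} {c : ℝ} (hc : 0 ≤ c) (hB : M.μ B ≠ ⊤)
    (h : M.μ A ≤ ENNReal.ofReal c * M.μ B) : M.μ.real A ≤ c * M.μ.real B := by
  unfold Measure.real
  have h1 : ENNReal.ofReal c * M.μ B ≠ ⊤ := ENNReal.mul_ne_top ENNReal.ofReal_ne_top hB
  have := ENNReal.toReal_mono h1 h
  rwa [ENNReal.toReal_mul, ENNReal.toReal_ofReal hc] at this

theorem Fat.diffR {R κ : ℝ} {D Dp : Set S} (h : M.Fat R κ D Dp) (hR : 0 ≤ R) (hκ : 0 ≤ κ) :
    M.μ.real (Dp \ D) ≤ κ * M.μ.real D := real_of_le hκ h.fin (h.diff hR hκ)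

/-- right translations move few points out of a set with small boundary -/
theorem Fat.move {R κ : ℝ} {D Dp : Set S} (h : M.Fat R κ D Dp) (hR : 0 ≤ R) (hκ : 0 ≤ κ) {g : S}
    (hg : (M.l g : ℝ) ≤ R) : M.μ.real {x ∈ D | x * g ∉ D} ≤ κ * M.μ.real D := by
  refine le_trans ?_ (h.diffR hR hκ)
  have h1 : {x ∈ D | x * g ∉ D} ⊆ (fun x => x * g) ⁻¹' (Dp \ D) := fun x hx =>
    ⟨h.sub x hx.1 g hg, hx.2⟩
  have h2 : M.μ ((fun x => x * g) ⁻¹' (Dp \ D)) = M.μ (Dp \ D) :=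
    (M.mp g).measure_preimage (h.meas'.diff h.meas).nullMeasurableSet
  have h3 : M.μ (Dp \ D) ≠ ⊤ := ne_top_of_le_ne_top h.top (measure_mono Set.sdiff_subset)
  unfold Measure.real
  refine ENNReal.toReal_mono h3 ?_
  rw [← h2]
  exact measure_mono h1

theorem LinOn.mostR {K L ε κ r R : ℝ} {F F' : Γ → Γ} {D Dp D₀ : Set S}
    {T : S → Ht k →L[ℝ] Ht k} (h : M.LinOn K L ε κ r R F F' D Dp D₀ T) (hε : 0 ≤ ε) :
    M.μ.real (D \ D₀) ≤ ε * M.μ.real D := real_of_le hε h.fat.fin h.most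

/-- The set with affine behaviour, for `F`. -/
theorem LinOn.linAt {K L ε κ r R : ℝ} {F F' : Γ → Γ} {D Dp D₀ : Set S}
    {T : S → Ht k →L[ℝ] Ht k} (h : M.LinOn K L ε κ r R F F' D Dp D₀ T) (hε : 0 ≤ ε) (hκ : 0 ≤ κ)
    {N : ℕ} {δ ε₁ : ℝ} (hN : M.C0 * N ≤ r) (hrR : r ≤ R) (hδ : ε * r ≤ δ) (h1 : ε ≤ ε₁)
    (h2 : κ ≤ ε₁) :
    LinAt (hgt (M.η.comp M.inG)) M.A (hgt (M.η.comp M.inG)) L M.μ (fun x g => x * M.inG g)
      (fun x => F (M.fl x)) T D D₀ N δ ε₁ := by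
  have hC0 := M.C0_nn
  have hr0 : 0 ≤ r := le_trans (by positivity) hN
  refine ⟨h.T_le, h.fat.meas, h.fat.fin, ?_, ?_, ?_⟩
  · refine (h.mostR hε).trans ?_
    gcongr
  · intro g hg
    refine (h.fat.move (hr0.trans hrR) hκ ((M.l_Bl hg).trans (hN.trans hrR))).trans ?_
    gcongr
  · intro x hx g hg hxg
    have h3 := (h.lin x hx _ hxg (by
      rw [inv_mul_cancel_left]
      exact (M.l_Bl hg).trans hN)).1
    rw [inv_mul_cancel_left] at h3
    exact h3.trans hδ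

/-- **Most linear parts of `F` transfer end points.** -/
theorem occF (K L : ℝ) (hL : 0 ≤ L) {C W ε κ' : ℝ} (hC1 : 1 ≤ C) (hCL : L ≤ C) (hε : 0 < ε)
    (hκ' : 0 < κ') (P : Finset (ℕ × ℝ)) (hP : ∀ p ∈ P, 1 ≤ p.1 ∧ 1 ≤ p.2) :
    ∃ Λ₁ : ℝ, 0 < Λ₁ ∧ ∀ Λ₂ : ℝ, Λ₁ ≤ Λ₂ → ∃ (ε₀ : ℝ) (n₀ : ℕ), 0 < ε₀ ∧ ∀ n : ℕ, n₀ ≤ n →
      ∀ r : ℝ, Λ₂ * n ≤ r → r ≤ 2 * Λ₂ * n → ∀ ε' κ R : ℝ, 0 ≤ ε' → ε' ≤ ε₀ → 0 ≤ κ → κ ≤ ε₀ →
      r ≤ R → ∀ (F F' : Γ → Γ) (D Dp D₀ : Set S) (T : S → Ht k →L[ℝ] Ht k),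
      M.LinOn K L ε' κ r R F F' D Dp D₀ T →
      M.μ.real {x ∈ D | x ∈ D₀ ∧ ¬ TrP (hgt (M.η.comp M.inG)) M.A (hgt (M.η.comp M.inG)) M.A
        (2 * M.cnt K) (M.stp K) C W ε n P (T x)} ≤ κ' * M.μ.real D := by
  have hC0 := M.C0_nn
  obtain ⟨ε₁, Λ, n₁, hε₁, H⟩ := H530.occ M.md M.md (c₀ := M.cnt K) (K := M.stp K) (W := W) hL
    hC1 hCL hε hκ' P hP
  refine ⟨M.C0 * Λ + 1, by positivity, fun Λ₂ hΛ₂ => ?_⟩
  have hΛ₂0 : 0 < Λ₂ := lt_of_lt_of_le (by positivity) hΛ₂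
  refine ⟨min ε₁ (ε₁ / (2 * Λ₂)), n₁, lt_min hε₁ (by positivity), ?_⟩
  intro n hn r hr1 hr2 ε' κ R hε'0 hε' hκ0 hκ hrR F F' D Dp D₀ T h
  refine H n hn S M.μ _ _ T D D₀ h.qi.orbMap (h.linAt hε'0 hκ0 ?_ hrR ?_ ?_ ?_)
  · refine le_trans ?_ hr1
    push_cast
    have : M.C0 * Λ ≤ Λ₂ := by linarith
    calc M.C0 * (Λ * n) = (M.C0 * Λ) * n := by ring
      _ ≤ _ := by gcongr
  · have h1 : ε' ≤ ε₁ / (2 * Λ₂) := hε'.trans (min_le_right _ _)
    rw [le_div_iff₀ (by positivity)] at h1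
    calc ε' * r ≤ ε' * (2 * Λ₂ * n) := by gcongr
      _ = (ε' * (2 * Λ₂)) * n := by ring
      _ ≤ ε₁ * n := by gcongr
  · exact hε'.trans (min_le_left _ _)
  · exact hκ.trans (min_le_left _ _)

end RModel

end Vale.Agent.P188.Z1

end
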