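import Vale.Agent.P188.R.G081
import Vale.Agent.P188.R.G082
import Vale.Agent.P188.R.G067

section

/-!
# P188, Z1: decompositions of fat displacements, merging
-/

set_option linter.all false

open MeasureTheory Set
open Vale.Agent.P188.H530 (hgt hgt_mul)

namespace Vale.Agent.P188.Z1

namespace RModel

variable {S : Type} [Group S] [MeasurableSpace S] {Γ : Type} [Group Γ]
  {V : Type} [AddCommGroup V] [Module ℝ V] {k : ℕ} (M : RModel S Γ V k)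

theorem one_mem_Nt (δ ρ : ℝ) : (1 : S) ∈ M.Nt δ ρ :=
  ⟨0, Submodule.zero_mem _, by rw [map_zero]; exact (Real.exp_pos _).le, M.ex_zero⟩

theorem Nt_mono {δ δ' ρ ρ' : ℝ} (h : δ * ρ ≤ δ' * ρ') : M.Nt δ ρ ⊆ M.Nt δ' ρ' := by
  rintro z ⟨y, hy, hn, rfl⟩
  exact ⟨y, hy, hn.trans (Real.exp_le_exp.mpr h), rfl⟩

theorem conj_ex (s : S) (m : ℤ) (v : V) :
    s ^ (-m) * M.ex v * s ^ m = M.ex (M.Ad (s ^ (-m)) v) := by
  rw [M.ex_Ad, zpow_neg, inv_inv]

theorem exists_sign (r : ℝ) : ∃ σ : ℤ, (σ = 1 ∨ σ = -1) ∧ |r| ≤ σ * r := by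
  rcases le_total 0 r with h | h
  · exact ⟨1, Or.inl rfl, by rw [abs_of_nonneg h]; push_cast; linarith⟩
  · exact ⟨-1, Or.inr rfl, by rw [abs_of_nonpos h]; push_cast; linarith⟩

/-- contraction along a power -/
theorem contract {n₁ : ℕ} {w : Fin k → ℤ} (hw : M.τ w ∈ M.CB n₁) {b : Ht k →L[ℝ] ℝ}
    (hb : b ∈ M.Wt) {σ : ℤ} (hσ : σ = 1 ∨ σ = -1) {β : ℝ} (hβ : β ≤ σ * b (ht w)) (m : ℕ)
    {x : V} (hx : x ∈ M.Vw b) :
    M.nm (M.Ad (M.τ w ^ (-(σ * (m : ℤ)))) x) ≤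
      M.C0 * (1 + n₁ * m) ^ M.deg * Real.exp (-(β * m)) * M.nm x := by
  have h0 : (-(σ * (m : ℤ))).natAbs = m := by
    rcases hσ with rfl | rfl <;> simp
  have h1 := M.C_le (n₁ * m) (M.τ w ^ (-(σ * (m : ℤ)))) (by
    have := M.CB_zpow hw (-(σ * (m : ℤ)))
    rwa [h0] at this) b hb x hx
  rw [M.hgt_zpow, M.hgt_τ, map_smul, smul_eq_mul] at h1
  have h2 : ((-(σ * (m : ℤ)) : ℤ) : ℝ) * b (ht w) ≤ -(β * m) := by
    push_cast
    have : (0:ℝ) ≤ m := by positivity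
    nlinarith
  refine h1.trans ?_
  push_cast
  push_cast at h2
  have hC := M.one_le_C0
  refine mul_le_mul_of_nonneg_right ?_ (M.nm_nonneg _)
  refine mul_le_mul_of_nonneg_left (Real.exp_le_exp.mpr h2) (by positivity)

/-- neutral elements stay neutral -/
theorem neutral_conj {n₁ : ℕ} {w : Fin k → ℤ} (hw : M.τ w ∈ M.CB n₁)
    {σ : ℤ} (hσ : σ = 1 ∨ σ = -1) (m : ℕ) {x : V} (hx : x ∈ M.Vw 0) :
    M.Ad (M.τ w ^ (-(σ * (m : ℤ)))) x ∈ M.Vw 0 ∧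
    M.nm (M.Ad (M.τ w ^ (-(σ * (m : ℤ)))) x) ≤ M.C0 * (1 + n₁ * m) ^ M.deg * M.nm x := by
  refine ⟨M.C_inv _ _ (M.CB_zpow hw _) 0 x hx, ?_⟩
  have := M.contract hw M.zero_mem_Wt hσ (β := 0) (by simp) m hx
  simpa using this

/-- the coordinates of `gen_e` -/
theorem gen_bound {v : V} {R : ℝ} (hR : 0 ≤ R) (hv : M.nm v ≤ Real.exp R) :
    M.C0 * (1 + M.nm v) ^ M.C0 ≤ M.C0 * 2 ^ M.C0 * Real.exp (M.C0 * R) := by
  have hC := M.one_le_C0
  have h1 : 1 + M.nm v ≤ 2 * Real.exp R := by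
    have := Real.one_le_exp hR
    linarith
  have h2 : (1 + M.nm v) ^ M.C0 ≤ (2 * Real.exp R) ^ M.C0 :=
    Real.rpow_le_rpow (by have := M.nm_nonneg v; positivity) h1 (by linarith)
  rw [Real.mul_rpow (by norm_num) (Real.exp_pos _).le, ← Real.exp_mul, mul_comm R] at h2
  rw [mul_assoc]
  exact mul_le_mul_of_nonneg_left h2 (by linarith)

/-- length of a vector of `e` -/
theorem len_of_exp {v : V} (hv : v ∈ M.e) {B R : ℝ} (hB : 0 ≤ B) (hR : 0 ≤ R)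
    (h : M.nm v ≤ B * Real.exp R) :
    (M.l (M.ex v) : ℝ) ≤ M.C0 * (1 + Real.log (1 + B) + R) := by
  have hC := M.one_le_C0
  refine (M.met_e v hv).trans (mul_le_mul_of_nonneg_left ?_ (by linarith))
  have h1 : 1 + M.nm v ≤ (1 + B) * Real.exp R := by
    have := Real.one_le_exp hR
    nlinarith
  have h2 : Real.log (1 + M.nm v) ≤ Real.log ((1 + B) * Real.exp R) :=
    Real.log_le_log (by have := M.nm_nonneg v; positivity) h1
  rw [Real.log_mul (by positivity) (Real.exp_pos _).ne', Real.log_exp] at h2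
  linarith

/-- norm of an integral vector -/
theorem norm_int_le {w : Fin k → ℤ} {R : ℝ} (hR : 0 ≤ R) (h : ∀ i, |(w i : ℝ)| ≤ R) :
    ‖(fun i => (w i : ℝ) : Fin k → ℝ)‖ ≤ R := by
  rw [pi_norm_le_iff_of_nonneg hR]
  intro i
  rw [Real.norm_eq_abs]
  exact h i

/-- `τ w` as a word -/
theorem τ_word {w : Fin k → ℤ} {R : ℝ} (hR : 0 ≤ R) (h : ∀ i, |(w i : ℝ)| ≤ R) :
    ∃ n : ℕ, (n : ℝ) ≤ 2 * M.C0 * (1 + R) ∧ M.τ w ∈ M.CB n := by
  have hC := M.one_le_C0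
  refine ⟨_, ?_, M.τ_CB w⟩
  have h1 := norm_int_le hR h
  have h2 : 0 ≤ ‖(fun i => (w i : ℝ) : Fin k → ℝ)‖ := norm_nonneg _
  refine (Nat.ceil_lt_add_one (by positivity)).le.trans ?_
  nlinarith

/-- neutral words are exponentials of neutral vectors -/
theorem neutral_word {n : ℕ} {c : S} (hc : c ∈ M.CB n) (h : M.η c = 1) {K R ε : ℝ}
    (hn : (n : ℝ) ≤ K * R) (hR : M.C0 * (1 + K * R) ^ M.deg ≤ Real.exp (ε * R)) :
    c ∈ M.Nt ε R := by
  have hC := M.one_le_C0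
  obtain ⟨y, hy, rfl, h1⟩ := M.C_ker n c hc h
  refine ⟨y, hy, h1.trans (le_trans ?_ hR), rfl⟩
  refine mul_le_mul_of_nonneg_left ?_ (by linarith)
  exact pow_le_pow_left₀ (by positivity) (by linarith) _

/-- merging of the letters of nonzero weight -/
theorem mrg_letter {n₁ : ℕ} {w : Fin k → ℤ} (hw : M.τ w ∈ M.CB n₁) {β : ℝ} (hβ : 0 < β)
    (hwβ : ∀ b ∈ M.Φ, β ≤ |b (ht w)|) {δ : ℝ} {ρ : ℕ} {ε₁ : ℝ} {j : M.ι} (hj : M.wt j ≠ 0)
    {x : ℝ} {R : ℝ} (hx : |x| ≤ M.C0 * 2 ^ M.C0 * Real.exp (M.C0 * R))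
    (hR : M.C0 * R ≤ β / 4 * ρ)
    (hρ : M.C0 * (M.C0 * 2 ^ M.C0) * (1 + n₁ * (ρ : ℝ)) ^ M.deg ≤ Real.exp (β / 4 * ρ))
    (hρ' : 2 * M.C0 ≤ ε₁ * ρ) :
    P188.H882.Mrg (fun x => (M.l x : ℝ)) (M.Nt δ ρ) (M.τ w) ρ (ε₁ * ρ) (M.ex (x • M.X j)) := by
  have hC := M.one_le_C0
  have hΦ : M.wt j ∈ M.Φ := (M.wt_mem j).resolve_right hj
  obtain ⟨σ, hσ, hσ'⟩ := exists_sign (M.wt j (ht w))
  refine ⟨σ, hσ, fun m hm => ⟨M.τ w ^ (-(σ * (m:ℤ))) * M.ex (x • M.X j) * M.τ w ^ (σ * (m:ℤ)), 1,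
    by rw [mul_one], ?_, M.one_mem_Nt _ _⟩⟩
  have hm1 : m ≤ ρ := by omega
  have hm2 : ρ ≤ 2 * m := by omega
  have hm1R : (m:ℝ) ≤ ρ := by exact_mod_cast hm1
  have hm2R : (ρ:ℝ) ≤ 2 * m := by exact_mod_cast hm2
  rw [M.conj_ex]
  have hmem : x • M.X j ∈ M.Vw (M.wt j) := Submodule.smul_mem _ _ (M.X_mem j)
  have h1 := M.contract hw (M.Φ_sub hΦ) hσ (β := β) ((hwβ _ hΦ).trans hσ') m hmem
  have h2 : M.nm (M.Ad (M.τ w ^ (-(σ * (m:ℤ)))) (x • M.X j)) ≤ 1 := by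
    refine h1.trans ?_
    rw [M.nm_smul]
    have h3 : |x| * M.nm (M.X j) ≤ M.C0 * 2 ^ M.C0 * Real.exp (M.C0 * R) := by
      refine le_trans ?_ hx
      have := M.X_le j
      nlinarith [abs_nonneg x]
    have h4 : M.C0 * (1 + (n₁:ℝ) * m) ^ M.deg ≤ M.C0 * (1 + (n₁:ℝ) * ρ) ^ M.deg := by
      refine mul_le_mul_of_nonneg_left (pow_le_pow_left₀ (by positivity) ?_ _) (by linarith)
      have : (0:ℝ) ≤ n₁ := by positivity
      nlinarith
    have h5 : Real.exp (-(β * m)) ≤ Real.exp (-(β / 2 * ρ)) := by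
      refine Real.exp_le_exp.mpr ?_
      nlinarith
    have h6 : Real.exp (M.C0 * R) ≤ Real.exp (β / 4 * ρ) := Real.exp_le_exp.mpr hR
    have h2C : (0:ℝ) ≤ 2 ^ M.C0 := by positivity
    calc M.C0 * (1 + (n₁:ℝ) * m) ^ M.deg * Real.exp (-(β * m)) * (|x| * M.nm (M.X j))
        ≤ M.C0 * (1 + (n₁:ℝ) * ρ) ^ M.deg * Real.exp (-(β / 2 * ρ)) *
          (M.C0 * 2 ^ M.C0 * Real.exp (β / 4 * ρ)) := by
          refine mul_le_mul (mul_le_mul h4 h5 (Real.exp_pos _).le (by positivity))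
            (h3.trans (mul_le_mul_of_nonneg_left h6 (by positivity)))
            (mul_nonneg (abs_nonneg _) (M.nm_nonneg _)) (by positivity)
      _ = (M.C0 * (M.C0 * 2 ^ M.C0) * (1 + (n₁:ℝ) * ρ) ^ M.deg) *
          (Real.exp (-(β / 2 * ρ)) * Real.exp (β / 4 * ρ)) := by ring
      _ ≤ Real.exp (β / 4 * ρ) * (Real.exp (-(β / 2 * ρ)) * Real.exp (β / 4 * ρ)) :=
          mul_le_mul_of_nonneg_right hρ (by positivity)
      _ = 1 := by
          rw [← Real.exp_add, ← Real.exp_add, ← Real.exp_zero]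
          congr 1; ring
  have h7 := M.met_V (M.Ad (M.τ w ^ (-(σ * (m:ℤ)))) (x • M.X j))
  have : M.C0 * (1 + M.nm (M.Ad (M.τ w ^ (-(σ * (m:ℤ)))) (x • M.X j))) ≤ 2 * M.C0 := by
    nlinarith
  show (M.l _ : ℝ) ≤ _
  linarith

/-- merging of neutral elements -/
theorem mrg_neutral {n₁ : ℕ} {w : Fin k → ℤ} (hw : M.τ w ∈ M.CB n₁) {δ δ' : ℝ} {ρ : ℕ} {τ : ℝ}
    (hτ : 0 ≤ τ) {y : V} (hy : y ∈ M.Vw 0) (hyn : M.nm y ≤ Real.exp (δ * ρ))
    (hρ : M.C0 * (1 + n₁ * (ρ : ℝ)) ^ M.deg ≤ Real.exp (δ' * ρ)) :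
    P188.H882.Mrg (fun x => (M.l x : ℝ)) (M.Nt (δ + δ') ρ) (M.τ w) ρ τ (M.ex y) := by
  have hC := M.one_le_C0
  refine ⟨1, Or.inl rfl, fun m hm => ⟨1,
    M.τ w ^ (-(1 * (m:ℤ))) * M.ex y * M.τ w ^ (1 * (m:ℤ)), (one_mul _).symm, ?_, ?_⟩⟩
  · simpa [M.len.one] using hτ
  · rw [M.conj_ex]
    have hm1 : m ≤ ρ := by omega
    have hm1R : (m:ℝ) ≤ ρ := by exact_mod_cast hm1
    obtain ⟨h1, h2⟩ := M.neutral_conj hw (Or.inl rfl : (1:ℤ) = 1 ∨ (1:ℤ) = -1) m hy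
    refine ⟨_, h1, h2.trans ?_, rfl⟩
    have h4 : M.C0 * (1 + (n₁:ℝ) * m) ^ M.deg ≤ M.C0 * (1 + (n₁:ℝ) * ρ) ^ M.deg := by
      refine mul_le_mul_of_nonneg_left (pow_le_pow_left₀ (by positivity) ?_ _) (by linarith)
      have : (0:ℝ) ≤ n₁ := by positivity
      nlinarith
    calc _ ≤ Real.exp (δ' * ρ) * Real.exp (δ * ρ) :=
          mul_le_mul (h4.trans hρ) hyn (M.nm_nonneg _) (Real.exp_pos _).le
      _ = _ := by rw [← Real.exp_add]; congr 1; ring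

/-- merging of `τ w'` -/
theorem mrg_τ {n₁ n₂ : ℕ} {w : Fin k → ℤ} (hw : M.τ w ∈ M.CB n₁) {g : S} (hg : g ∈ M.CB n₂)
    {δ K : ℝ} {ρ : ℕ} {τ : ℝ} (hτ : (M.l g : ℝ) ≤ τ) (hK : (2 * n₁ * ρ + 2 * n₂ : ℝ) ≤ K * ρ)
    (hρ : M.C0 * (1 + K * (ρ : ℝ)) ^ M.deg ≤ Real.exp (δ * ρ)) :
    P188.H882.Mrg (fun x => (M.l x : ℝ)) (M.Nt δ ρ) (M.τ w) ρ τ g := by
  refine ⟨1, Or.inl rfl, fun m hm => ⟨g,
    g⁻¹ * (M.τ w ^ (-(1 * (m:ℤ))) * g * M.τ w ^ (1 * (m:ℤ))), by group, hτ, ?_⟩⟩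
  have hm1 : m ≤ ρ := by omega
  have hm1R : (m:ℝ) ≤ ρ := by exact_mod_cast hm1
  have h1 : g⁻¹ * (M.τ w ^ (-(1 * (m:ℤ))) * g * M.τ w ^ (1 * (m:ℤ))) ∈
      M.CB (n₂ + ((n₁ * m + n₂) + n₁ * m)) := by
    have e1 : (-(1 * (m:ℤ))).natAbs = m := by simp
    have e2 : (1 * (m:ℤ)).natAbs = m := by simp
    have a1 := M.CB_zpow hw (-(1 * (m:ℤ)))
    have a2 := M.CB_zpow hw (1 * (m:ℤ))
    rw [e1] at a1
    rw [e2] at a2
    exact M.CB_mul (M.CB_inv hg) (M.CB_mul (M.CB_mul a1 hg) a2)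
  refine M.neutral_word h1 ?_ (K := K) ?_ hρ
  · simp only [map_mul, map_inv, map_zpow]
    rw [mul_comm (M.η (M.τ w) ^ (-(1 * (m:ℤ)))) (M.η g), mul_assoc, ← zpow_add]
    simp
  · push_cast
    have : (0:ℝ) ≤ n₁ := by positivity
    nlinarith

end RModel

end Vale.Agent.P188.Z1

end

section

/-!
# P188, Z1, block LAB, part 2: averaging over locations

If `f - T θ` is almost constant on all left translates of a test box `D`, then on every set `D'` with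
small boundary at the scale of the diameter of `D` the function `f` is affine with linear part `T`
for all pairs of points of a large subset.
-/

set_option linter.all false

open MeasureTheory Set
open scoped ENNReal

namespace Vale.Agent.P188.Z1.Lab

variable {S : Type} [Group S] [MeasurableSpace S] {Γ : Type} [Group Γ]
  {V : Type} [AddCommGroup V] [Module ℝ V] {k : ℕ} {M : RModel S Γ V k}

/-- bad triples -/
def BadT (M : RModel S Γ V k) (f : S → Ht k) (T : Ht k →L[ℝ] Ht k) (δ : ℝ) : Set (S × (S × S)) :=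
  {q | 2 * δ < ‖f q.1 - f (q.1 * q.2.1⁻¹ * q.2.2) - T (M.θ q.2.1 - M.θ q.2.2)‖}

/-- bad triples, seen from the location -/
def BadY (M : RModel S Γ V k) (f : S → Ht k) (T : Ht k →L[ℝ] Ht k) (δ : ℝ) : Set (S × (S × S)) :=
  {q | 2 * δ < ‖f (q.1 * q.2.1) - f (q.1 * q.2.2) - T (M.θ q.2.1 - M.θ q.2.2)‖}

theorem measurable_BadT {f : S → Ht k} (hf : Measurable f) (T : Ht k →L[ℝ] Ht k) (δ : ℝ) :
    MeasurableSet (BadT M f T δ) := by
  haveI := M.mm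
  haveI := M.mi
  have hθ := M.measurable_θ
  have h1 : Measurable fun q : S × (S × S) => f q.1 := hf.comp measurable_fst
  have h2 : Measurable fun q : S × (S × S) => f (q.1 * q.2.1⁻¹ * q.2.2) :=
    hf.comp ((measurable_fst.mul (measurable_fst.comp measurable_snd).inv).mul
      (measurable_snd.comp measurable_snd))
  have h3 : Measurable fun q : S × (S × S) => T (M.θ q.2.1 - M.θ q.2.2) :=
    T.continuous.measurable.comp ((hθ.comp (measurable_fst.comp measurable_snd)).sub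
      (hθ.comp (measurable_snd.comp measurable_snd)))
  exact measurableSet_lt measurable_const ((h1.sub h2).sub h3).norm

theorem measurable_BadY {f : S → Ht k} (hf : Measurable f) (T : Ht k →L[ℝ] Ht k) (δ : ℝ) :
    MeasurableSet (BadY M f T δ) := by
  haveI := M.mm
  have hθ := M.measurable_θ
  have h1 : Measurable fun q : S × (S × S) => f (q.1 * q.2.1) :=
    hf.comp (measurable_fst.mul (measurable_fst.comp measurable_snd))
  have h2 : Measurable fun q : S × (S × S) => f (q.1 * q.2.2) :=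
    hf.comp (measurable_fst.mul (measurable_snd.comp measurable_snd))
  have h3 : Measurable fun q : S × (S × S) => T (M.θ q.2.1 - M.θ q.2.2) :=
    T.continuous.measurable.comp ((hθ.comp (measurable_fst.comp measurable_snd)).sub
      (hθ.comp (measurable_snd.comp measurable_snd)))
  exact measurableSet_lt measurable_const ((h1.sub h2).sub h3).norm

/-- at every location there are few bad pairs -/
theorem pairs_le {f : S → Ht k} (hf : Measurable f) {D : Set S} (hD : MeasurableSet D)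
    {T : Ht k →L[ℝ] Ht k} {δ ε : ℝ} {Y : S} (h : Flt M (fun z => f (Y * z)) D T δ ε) :
    ((M.μ.restrict D).prod (M.μ.restrict D)) {p | (Y, p) ∈ BadY M f T δ} ≤
      ENNReal.ofReal (2 * ε) * (M.μ D * M.μ D) := by
  haveI := M.mm
  obtain ⟨c, hc⟩ := h
  set E : Set S := {z | δ < ‖f (Y * z) - c - T (M.θ z)‖} with hE
  have hEm : MeasurableSet E :=
    measurableSet_lt measurable_const (((hf.comp (measurable_const.mul measurable_id)).sub
      measurable_const).sub (T.continuous.measurable.comp M.measurable_θ)).norm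
  have hsub : {p : S × S | (Y, p) ∈ BadY M f T δ} ⊆ E ×ˢ univ ∪ univ ×ˢ E := by
    rintro ⟨d, d'⟩ hp
    by_contra hcon
    simp only [mem_union, mem_prod, mem_univ, and_true, true_and, not_or, hE, mem_setOf_eq,
      not_lt] at hcon
    have hp' : 2 * δ < ‖f (Y * d) - f (Y * d') - T (M.θ d - M.θ d')‖ := hp
    have e : f (Y * d) - f (Y * d') - T (M.θ d - M.θ d') =
        (f (Y * d) - c - T (M.θ d)) - (f (Y * d') - c - T (M.θ d')) := by
      rw [map_sub]; abel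
    rw [e] at hp'
    have := norm_sub_le (f (Y * d) - c - T (M.θ d)) (f (Y * d') - c - T (M.θ d'))
    linarith [hcon.1, hcon.2]
  have hν : (M.μ.restrict D) E ≤ ENNReal.ofReal ε * M.μ D := by
    rw [Measure.restrict_apply hEm]
    refine le_trans (measure_mono ?_) hc
    rintro z ⟨h1, h2⟩
    exact ⟨h2, h1⟩
  have hu : (M.μ.restrict D) univ = M.μ D := by rw [Measure.restrict_apply_univ]
  refine (measure_mono hsub).trans ((measure_union_le _ _).trans ?_)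
  rw [Measure.prod_prod, Measure.prod_prod, hu]
  calc (M.μ.restrict D) E * M.μ D + M.μ D * (M.μ.restrict D) E
      ≤ ENNReal.ofReal ε * M.μ D * M.μ D + M.μ D * (ENNReal.ofReal ε * M.μ D) := by gcongr
    _ = ENNReal.ofReal (2 * ε) * (M.μ D * M.μ D) := by
        rw [ENNReal.ofReal_mul (by norm_num : (0:ℝ) ≤ 2), ENNReal.ofReal_ofNat]; ring

/-- the double counting -/
theorem count {f : S → Ht k} (hf : Measurable f) {r κ c A : ℝ} {D : Set S}
    (hD : TB M r κ c A D) {T : Ht k →L[ℝ] Ht k} {δ ε : ℝ}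
    (h : ∀ Y : S, Flt M (fun z => f (Y * z)) D T δ ε) {R κ' : ℝ} {D' Dp : Set S}
    (hD' : M.Fat R κ' D' Dp) (hR : ∀ z ∈ D, (M.l z : ℝ) ≤ R) :
    ∫⁻ z in D', ((M.μ.restrict D).prod (M.μ.restrict D)) {p | (z, p) ∈ BadT M f T δ} ∂M.μ ≤
      ENNReal.ofReal (2 * ε) * (M.μ D * M.μ D) * M.μ Dp := by
  haveI := M.mm
  set ν := M.μ.restrict D with hν
  have hT := measurable_BadT (M := M) hf T δ
  have hY := measurable_BadY (M := M) hf T δ
  change ∫⁻ z in D', (ν.prod ν) (Prod.mk z ⁻¹' BadT M f T δ) ∂M.μ ≤ _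
  rw [← Measure.prod_apply hT, Measure.prod_apply_symm hT]
  have hstep : ∀ᵐ p ∂(ν.prod ν), (M.μ.restrict D') ((fun z => (z, p)) ⁻¹' BadT M f T δ) ≤
      (M.μ.restrict Dp) ((fun z => (z, p)) ⁻¹' BadY M f T δ) := by
    have hmem : ∀ᵐ p ∂(ν.prod ν), p.1 ∈ D := by
      have h1 : ν.prod ν = (M.μ.prod M.μ).restrict (D ×ˢ D) := by
        rw [hν, Measure.prod_restrict]
      rw [h1]
      filter_upwards [ae_restrict_mem (hD.meas.prod hD.meas)] with p hp using hp.1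
    filter_upwards [hmem] with p hp
    rw [Measure.restrict_apply (measurable_prodMk_right hT),
      Measure.restrict_apply (measurable_prodMk_right hY),
      ← preimage_right (M := M) p.1 ((fun z => (z, p)) ⁻¹' BadT M f T δ ∩ D')]
    refine measure_mono ?_
    rintro Y ⟨h1, h2⟩
    constructor
    · have h3 : 2 * δ < ‖f (Y * p.1) - f (Y * p.1 * p.1⁻¹ * p.2) - T (M.θ p.1 - M.θ p.2)‖ := h1
      rw [mul_inv_cancel_right] at h3
      exact h3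
    · have h3 := hD'.sub _ h2 p.1⁻¹ (by rw [M.len.inv]; exact hR _ hp)
      rwa [mul_inv_cancel_right] at h3
  refine (lintegral_mono_ae hstep).trans ?_
  rw [← Measure.prod_apply_symm hY, Measure.prod_apply hY]
  calc ∫⁻ Y in Dp, (ν.prod ν) (Prod.mk Y ⁻¹' BadY M f T δ) ∂M.μ
      ≤ ∫⁻ Y in Dp, ENNReal.ofReal (2 * ε) * (M.μ D * M.μ D) ∂M.μ :=
        lintegral_mono fun Y => pairs_le hf hD.meas (h Y)
    _ = _ := by rw [lintegral_const, Measure.restrict_apply_univ]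

/-- **Averaging over locations.** -/
theorem avg {f : S → Ht k} (hf : Measurable f) {r κ c A : ℝ} {D : Set S}
    (hD : TB M r κ c A D) (hκ : κ ≤ 1 / 8) {T : Ht k →L[ℝ] Ht k} {δ ε : ℝ} (hε : 0 ≤ ε)
    (h : ∀ Y : S, Flt M (fun z => f (Y * z)) D T δ ε) {R κ' : ℝ} {D' Dp : Set S} (hκ' : 0 ≤ κ')
    (hD' : M.Fat R κ' D' Dp) (hR : ∀ z ∈ D, (M.l z : ℝ) ≤ R) :
    ∃ D₀ ⊆ D', MeasurableSet D₀ ∧
      M.μ (D' \ D₀) ≤ ENNReal.ofReal (16 * ε * (1 + κ')) * M.μ D' ∧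
      ∀ z ∈ D₀, ∀ z' ∈ D₀, (M.l (z⁻¹ * z') : ℝ) ≤ r →
        ‖f z' - f z - T (M.θ (z⁻¹ * z'))‖ ≤ 4 * δ := by
  haveI := M.mm
  set ν := M.μ.restrict D with hν
  set m := M.μ D with hm
  have hm0 : m ≠ 0 := hD.pos
  have hmt : m ≠ ⊤ := hD.fin
  have hT := measurable_BadT (M := M) hf T δ
  set b : S → ℝ≥0∞ := fun z => (ν.prod ν) {p | (z, p) ∈ BadT M f T δ} with hb
  have hbm : Measurable b := measurable_measure_prodMk_left hT
  have hcount := count hf hD h hD' hR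
  set t : ℝ≥0∞ := ENNReal.ofReal (1 / 8) * (m * m) with ht
  have ht0 : t ≠ 0 := mul_ne_zero (by simp) (mul_ne_zero hm0 hm0)
  have htt : t ≠ ⊤ := ENNReal.mul_ne_top ENNReal.ofReal_ne_top (ENNReal.mul_ne_top hmt hmt)
  refine ⟨{z | z ∈ D' ∧ b z < t}, fun z hz => hz.1, hD'.meas.inter (measurableSet_lt hbm
    measurable_const), ?_, ?_⟩
  · have h1 : D' \ {z | z ∈ D' ∧ b z < t} ⊆ {z | t ≤ b z} ∩ D' := by
      rintro z ⟨h1, h2⟩
      refine ⟨?_, h1⟩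
      by_contra h3
      exact h2 ⟨h1, not_le.1 h3⟩
    have h2 : t * (M.μ.restrict D') {z | t ≤ b z} ≤ ∫⁻ z in D', b z ∂M.μ :=
      mul_meas_ge_le_lintegral hbm t
    rw [Measure.restrict_apply (measurableSet_le measurable_const hbm)] at h2
    have h3 : t * M.μ (D' \ {z | z ∈ D' ∧ b z < t}) ≤
        t * (ENNReal.ofReal (16 * ε * (1 + κ')) * M.μ D') := by
      calc t * M.μ (D' \ {z | z ∈ D' ∧ b z < t}) ≤ t * M.μ ({z | t ≤ b z} ∩ D') := by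
            gcongr
        _ ≤ ENNReal.ofReal (2 * ε) * (m * m) * M.μ Dp := h2.trans hcount
        _ ≤ ENNReal.ofReal (2 * ε) * (m * m) * (ENNReal.ofReal (1 + κ') * M.μ D') := by
            gcongr; exact hD'.le
        _ = (m * m) * ((ENNReal.ofReal (2 * ε) * ENNReal.ofReal (1 + κ')) * M.μ D') := by ring
        _ = (m * m) * ((ENNReal.ofReal (1 / 8) * ENNReal.ofReal (16 * ε * (1 + κ'))) *
              M.μ D') := by
            congr 2
            rw [← ENNReal.ofReal_mul (by positivity), ← ENNReal.ofReal_mul (by positivity)]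
            congr 1; ring
        _ = _ := by rw [ht]; ring
    exact (ENNReal.mul_le_mul_iff_right ht0 htt).1 h3
  · rintro z ⟨hz, hbz⟩ z' ⟨hz', hbz'⟩ hl
    set g := z⁻¹ * z' with hg
    have hzg : z' = z * g := by rw [hg]; group
    -- existence of a good pair
    have hex : ∃ p : S × S, p.1 ∈ D ∧ p.1 * g ∈ D ∧ (z, p) ∉ BadT M f T δ ∧
        (z', (p.1 * g, p.2)) ∉ BadT M f T δ := by
      by_contra hcon
      push Not at hcon
      have hsub : (univ : Set (S × S)) ⊆ {p | (z, p) ∈ BadT M f T δ} ∪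
          ({p | p.1 ∉ D} ∪ ({z | z ∈ D ∧ z * g ∉ D} ×ˢ univ ∪
            {p | p.1 * g ∈ D ∧ (z', (p.1 * g, p.2)) ∈ BadT M f T δ})) := by
        intro p _
        by_contra hp
        simp only [mem_union, mem_setOf_eq, mem_prod, mem_univ, and_true, not_or, not_and,
          not_not] at hp
        obtain ⟨a1, a2, a3, a4⟩ := hp
        exact a4 (a3 a2) (hcon p a2 (a3 a2) a1)
      have hμ := (measure_mono (μ := ν.prod ν) hsub).trans ((measure_union_le _ _).trans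
        (add_le_add le_rfl ((measure_union_le _ _).trans (add_le_add le_rfl
          (measure_union_le _ _)))))
      have hu : ν univ = m := by rw [hν, Measure.restrict_apply_univ]
      have e0 : (ν.prod ν) univ = m * m := by
        rw [← univ_prod_univ, Measure.prod_prod, hu]
      have e2 : (ν.prod ν) {p | p.1 ∉ D} = 0 := by
        have : {p : S × S | p.1 ∉ D} = Dᶜ ×ˢ univ := by ext p; simp
        rw [this, Measure.prod_prod, hν, Measure.restrict_apply hD.meas.compl]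
        simp
      have e3 : (ν.prod ν) ({z | z ∈ D ∧ z * g ∉ D} ×ˢ univ) ≤
          ENNReal.ofReal (1 / 8) * (m * m) := by
        rw [Measure.prod_prod, hu]
        have h1 : ν {z | z ∈ D ∧ z * g ∉ D} ≤ ENNReal.ofReal κ * m := by
          refine (Measure.restrict_apply_le _ _).trans (hD.fol g hl)
        calc ν {z | z ∈ D ∧ z * g ∉ D} * m ≤ ENNReal.ofReal κ * m * m := by gcongr
          _ ≤ ENNReal.ofReal (1 / 8) * m * m := by gcongr
          _ = _ := by ring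
      have e4 : (ν.prod ν) {p | p.1 * g ∈ D ∧ (z', (p.1 * g, p.2)) ∈ BadT M f T δ} ≤ b z' := by
        have hmap : Measurable fun p : S × S => (z', (p.1 * g, p.2)) :=
          measurable_const.prodMk ((measurable_fst.mul measurable_const).prodMk measurable_snd)
        have hset : MeasurableSet {p : S × S | p.1 * g ∈ D ∧ (z', (p.1 * g, p.2)) ∈ BadT M f T δ} :=
          ((measurable_fst.mul measurable_const) hD.meas).inter (hmap hT)
        have hset2 : MeasurableSet {p : S × S | (z', p) ∈ BadT M f T δ} :=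
          measurable_prodMk_left hT
        show _ ≤ (ν.prod ν) {p | (z', p) ∈ BadT M f T δ}
        rw [Measure.prod_apply_symm hset, Measure.prod_apply_symm hset2]
        refine lintegral_mono fun d' => ?_
        have hs1 : MeasurableSet ((fun x => (x, d')) ⁻¹' {p : S × S | (z', p) ∈ BadT M f T δ}) :=
          measurable_prodMk_right hset2
        show ν _ ≤ ν _
        rw [hν, Measure.restrict_apply hs1,
          ← preimage_right (M := M) g ((fun x => (x, d')) ⁻¹' {p : S × S | (z', p) ∈ BadT M f T δ} ∩ D)]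
        refine (Measure.restrict_apply_le _ _).trans (measure_mono ?_)
        rintro d ⟨h1, h2⟩
        exact ⟨h2, h1⟩
      rw [e0, e2, zero_add] at hμ
      have hlt : (ν.prod ν) {p | (z, p) ∈ BadT M f T δ} +
          ((ν.prod ν) ({z | z ∈ D ∧ z * g ∉ D} ×ˢ univ) +
            (ν.prod ν) {p | p.1 * g ∈ D ∧ (z', (p.1 * g, p.2)) ∈ BadT M f T δ}) < m * m := by
        calc (ν.prod ν) {p | (z, p) ∈ BadT M f T δ} +
          ((ν.prod ν) ({z | z ∈ D ∧ z * g ∉ D} ×ˢ univ) +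
            (ν.prod ν) {p | p.1 * g ∈ D ∧ (z', (p.1 * g, p.2)) ∈ BadT M f T δ})
            ≤ t + (t + t) := by
              refine add_le_add hbz.le (add_le_add e3 (e4.trans hbz'.le))
          _ = ENNReal.ofReal (3 / 8) * (m * m) := by
              rw [ht, ← add_mul, ← add_mul, ← ENNReal.ofReal_add (by norm_num) (by norm_num),
                ← ENNReal.ofReal_add (by norm_num) (by norm_num)]
              norm_num
          _ < 1 * (m * m) := by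
              refine (ENNReal.mul_lt_mul_iff_left (mul_ne_zero hm0 hm0)
                (ENNReal.mul_ne_top hmt hmt)).2 ?_
              rw [← ENNReal.ofReal_one]
              exact (ENNReal.ofReal_lt_ofReal_iff one_pos).2 (by norm_num)
          _ = m * m := one_mul _
      exact absurd hlt (not_lt.2 hμ)
    obtain ⟨p, p1, p2, p3, p4⟩ := hex
    have q3 : ‖f z - f (z * p.1⁻¹ * p.2) - T (M.θ p.1 - M.θ p.2)‖ ≤ 2 * δ := not_lt.1 p3
    have q4 : ‖f z' - f (z' * (p.1 * g)⁻¹ * p.2) - T (M.θ (p.1 * g) - M.θ p.2)‖ ≤ 2 * δ :=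
      not_lt.1 p4
    have e1 : z' * (p.1 * g)⁻¹ * p.2 = z * p.1⁻¹ * p.2 := by rw [hzg]; group
    rw [e1, M.θ_mul] at q4
    have e2 : f z' - f z - T (M.θ g) =
        (f z' - f (z * p.1⁻¹ * p.2) - T (M.θ p.1 + M.θ g - M.θ p.2)) -
        (f z - f (z * p.1⁻¹ * p.2) - T (M.θ p.1 - M.θ p.2)) := by
      simp only [map_sub, map_add]; abel
    rw [e2]
    have := norm_sub_le (f z' - f (z * p.1⁻¹ * p.2) - T (M.θ p.1 + M.θ g - M.θ p.2))
      (f z - f (z * p.1⁻¹ * p.2) - T (M.θ p.1 - M.θ p.2))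
    linarith

end Vale.Agent.P188.Z1.Lab

end

section

/-!
# P188, Z1: crossed homomorphisms of `S` (field `crossS` of `RModel.Extra`)
-/

set_option linter.all false

open MeasureTheory Set Filter Topology
open Vale.Agent.P188.H530 (hgt Crossed)

namespace Vale.Agent.P188.Z1

namespace RModel

variable {S : Type} [Group S] [MeasurableSpace S] {Γ : Type} [Group Γ]
  {V : Type} [AddCommGroup V] [Module ℝ V] {k : ℕ} {M : RModel S Γ V k}

theorem cCB_mul {m n : ℕ} {x y : S} (hx : x ∈ M.CB m) (hy : y ∈ M.CB n) : x * y ∈ M.CB (m + n) := by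
  obtain ⟨L, h1, h2, h3⟩ := hx
  obtain ⟨L', h1', h2', h3'⟩ := hy
  refine ⟨L ++ L', by rw [List.length_append]; omega, by rw [List.prod_append, h2, h2'], ?_⟩
  intro a ha
  rcases List.mem_append.1 ha with h | h
  · exact h3 a h
  · exact h3' a h

theorem cCB_pow {m : ℕ} {x : S} (hx : x ∈ M.CB m) (n : ℕ) : x ^ n ∈ M.CB (n * m) := by
  induction n with
  | zero => exact ⟨[], by simp, by simp, by simp⟩
  | succ n ih =>
    rw [pow_succ, Nat.succ_mul]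
    exact cCB_mul ih hx

/-- two different functionals are separated by an integral vector -/
theorem exists_sepV {b b' : Ht k →L[ℝ] ℝ} (h : b' ≠ b) :
    ∃ w : Fin k → ℤ, b' (ht w) < b (ht w) := by
  have h1 : ∃ i : Fin k, (b - b') (Pi.single i 1) ≠ 0 := by
    by_contra hcon
    push Not at hcon
    apply h
    symm
    rw [← sub_eq_zero]
    refine ContinuousLinearMap.ext fun x => ?_
    have e : x = ∑ i, x i • (Pi.single i 1 : Fin k → ℝ) := by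
      funext j
      simp [Finset.sum_apply, Pi.single_apply]
    rw [e, map_sum]
    simp only [map_smul, hcon]
    simp
  obtain ⟨i, hi⟩ := h1
  have e1 : ht (Pi.single i 1 : Fin k → ℤ) = (Pi.single i 1 : Fin k → ℝ) := by
    funext j
    by_cases hij : j = i
    · subst hij; simp [ht]
    · simp [ht, Pi.single_apply, hij]
  have e2 : ht (-(Pi.single i 1) : Fin k → ℤ) = -(Pi.single i 1 : Fin k → ℝ) := by
    rw [← e1]
    funext j
    simp [ht]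
  rw [ContinuousLinearMap.sub_apply] at hi
  rcases lt_or_gt_of_ne hi with h2 | h2
  · refine ⟨-(Pi.single i 1), ?_⟩
    rw [e2, map_neg, map_neg]
    linarith
  · refine ⟨Pi.single i 1, ?_⟩
    rw [e1]
    linarith

theorem cθ_τ (w : Fin k → ℤ) : M.θ (M.τ w) = ht w := by
  funext i
  simp [θ, hgt, M.η_τ, ht]

theorem cθ_pow (x : S) (n : ℕ) : M.θ (x ^ n) = (n : ℝ) • M.θ x := by
  induction n with
  | zero => rw [pow_zero, M.θ_one, Nat.cast_zero, zero_smul]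
  | succ n ih => rw [pow_succ, M.θ_mul, ih, Nat.cast_succ, add_smul, one_smul]

/-- the functional of a crossed homomorphism of weight `b` vanishes on the other weight spaces -/
theorem lin_other {b : Ht k →L[ℝ] ℝ} (c : Crossed (hgt M.η) b) (L : V →ₗ[ℝ] ℂ)
    (hL : ∀ v, c.D (M.ex v) = L v) {CL : ℝ} (hLn : ∀ v, ‖L v‖ ≤ CL * M.nm v)
    {b' : Ht k →L[ℝ] ℝ} (hb' : b' ∈ M.Wt) (hne : b' ≠ b) {v : V} (hv : v ∈ M.Vw b') : L v = 0 := by
  obtain ⟨w, hw⟩ := exists_sepV hne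
  set N₀ : ℕ := ⌈M.C0 * (1 + ‖(fun i => (w i : ℝ))‖)⌉₊ with hN₀
  have hc : ∀ n : ℕ, M.τ w ^ n ∈ M.CB (n * N₀) := fun n => cCB_pow (M.τ_CB w) n
  have hc0 : c.ρ 1 = 1 := c.ρ_one
  have hAd : ∀ s : S, L (M.Ad s v) = c.ρ s * L v := by
    intro s
    rw [← hL, M.ex_Ad, c.D_mul, c.D_mul]
    have h1 : c.ρ (s * M.ex v) = c.ρ s := by
      rw [c.ρ_mul]
      have : c.ρ (M.ex v) = 1 := by
        refine c.ρ_ker _ ?_
        rw [H530.hgt_eq_zero_iff]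
        exact M.η_ex v
      rw [this, mul_one]
    have h2 : c.D s + c.ρ s * c.D s⁻¹ = 0 := by
      rw [← c.D_mul, mul_inv_cancel, c.D_one]
    rw [h1, ← hL]
    linear_combination h2
  have hCL : 0 ≤ |CL| := abs_nonneg _
  have hC0 : 0 ≤ M.C0 := zero_le_one.trans M.one_le_C0
  have hnm : 0 ≤ M.nm v := apply_nonneg M.nm v
  set δ : ℝ := b (ht w) - b' (ht w) with hδ
  have hδ0 : 0 < δ := by linarith
  have main : ∀ n : ℕ, ‖L v‖ ≤ (|CL| * M.C0 * M.nm v * (1 + N₀) ^ M.deg) *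
      ((1 + (n : ℝ)) ^ M.deg * Real.exp (-(δ * n))) := by
    intro n
    have h1 := hAd (M.τ w ^ n)
    have h2 : ‖c.ρ (M.τ w ^ n)‖ = Real.exp (n * b (ht w)) := by
      rw [c.norm_ρ]
      have : hgt M.η (M.τ w ^ n) = (n : ℝ) • ht w := by
        have := M.cθ_pow (M.τ w) n
        rw [cθ_τ] at this
        exact this
      rw [this, map_smul, smul_eq_mul]
    have h3 := M.C_le (n * N₀) (M.τ w ^ n) (hc n) b' hb' v hv
    have h3' : hgt M.η (M.τ w ^ n) = (n : ℝ) • ht w := by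
      have := M.cθ_pow (M.τ w) n
      rw [cθ_τ] at this
      exact this
    rw [h3', map_smul, smul_eq_mul] at h3
    have h4 : ‖L (M.Ad (M.τ w ^ n) v)‖ ≤ |CL| * M.nm (M.Ad (M.τ w ^ n) v) :=
      (hLn _).trans (mul_le_mul_of_nonneg_right (le_abs_self _) (apply_nonneg _ _))
    rw [h1, norm_mul, h2] at h4
    have h5 : Real.exp (n * b (ht w)) * ‖L v‖ ≤ |CL| * (M.C0 * (1 + (n * N₀ : ℕ)) ^ M.deg *
        Real.exp (n * b' (ht w)) * M.nm v) := h4.trans (mul_le_mul_of_nonneg_left h3 hCL)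
    have h6 : (1 + ((n * N₀ : ℕ) : ℝ)) ^ M.deg ≤ (1 + N₀) ^ M.deg * (1 + (n : ℝ)) ^ M.deg := by
      rw [← mul_pow]
      refine pow_le_pow_left₀ (by positivity) ?_ _
      push_cast
      have : (0 : ℝ) ≤ n := Nat.cast_nonneg _
      have : (0 : ℝ) ≤ N₀ := Nat.cast_nonneg _
      nlinarith
    have h7 : Real.exp (-(δ * n)) = Real.exp (n * b' (ht w)) * Real.exp (-(n * b (ht w))) := by
      rw [← Real.exp_add]
      congr 1
      rw [hδ]; ring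
    have h8 : ‖L v‖ = Real.exp (-(n * b (ht w))) * (Real.exp (n * b (ht w)) * ‖L v‖) := by
      rw [← mul_assoc, ← Real.exp_add, neg_add_cancel, Real.exp_zero, one_mul]
    rw [h8, h7]
    calc Real.exp (-(n * b (ht w))) * (Real.exp (n * b (ht w)) * ‖L v‖)
        ≤ Real.exp (-(n * b (ht w))) * (|CL| * (M.C0 * ((1 + N₀) ^ M.deg * (1 + (n : ℝ)) ^ M.deg) *
          Real.exp (n * b' (ht w)) * M.nm v)) := by
          refine mul_le_mul_of_nonneg_left (h5.trans ?_) (Real.exp_pos _).le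
          gcongr
      _ = _ := by ring
  have hlim : Tendsto (fun n : ℕ => (|CL| * M.C0 * M.nm v * (1 + N₀) ^ M.deg) *
      ((1 + (n : ℝ)) ^ M.deg * Real.exp (-(δ * n)))) atTop (𝓝 0) := by
    have h1 : Tendsto (fun x : ℝ => x ^ M.deg * Real.exp (-δ * x)) atTop (𝓝 0) := by
      have := tendsto_rpow_mul_exp_neg_mul_atTop_nhds_zero (M.deg : ℝ) δ hδ0
      refine this.congr fun x => ?_
      rw [Real.rpow_natCast]
    have h2 : Tendsto (fun n : ℕ => (1 + (n : ℝ))) atTop atTop :=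
      tendsto_atTop_add_const_left _ _ tendsto_natCast_atTop_atTop
    have h3 := (h1.comp h2).const_mul (Real.exp δ)
    rw [mul_zero] at h3
    have h4 : Tendsto (fun n : ℕ => (1 + (n : ℝ)) ^ M.deg * Real.exp (-(δ * n))) atTop (𝓝 0) := by
      refine h3.congr fun n => ?_
      simp only [Function.comp]
      rw [mul_left_comm, ← Real.exp_add]
      congr 2
      ring
    have := h4.const_mul (|CL| * M.C0 * M.nm v * (1 + N₀) ^ M.deg)
    rwa [mul_zero] at this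
  have h9 : ‖L v‖ ≤ 0 := ge_of_tendsto' hlim main
  exact norm_le_zero_iff.1 h9

/-- **crossS** from a crossed homomorphism of `S` whose restriction to `ker η` is linear -/
theorem crossS_of_lin {b : Ht k →L[ℝ] ℝ} (c : Crossed (hgt M.η) b) (hDm : Measurable c.D)
    (hρm : Measurable c.ρ) (L : V →ₗ[ℝ] ℂ) (hL : ∀ v, c.D (M.ex v) = L v) {CL : ℝ}
    (hLn : ∀ v, ‖L v‖ ≤ CL * M.nm v) (hLi : ∃ i, L (M.X i) ≠ 0) {C : ℝ}
    (hle : ∀ x, ‖c.D x‖ ≤ Real.exp (C * (M.l x + 1))) : Nonempty (M.CrossS b) := by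
  have hoth : ∀ j, M.wt j ≠ b → L (M.X j) = 0 := by
    intro j hj
    refine lin_other c L hL hLn (b' := M.wt j) ?_ hj (M.X_mem j)
    rcases M.wt_mem j with h | h
    · exact M.Φ_sub h
    · rw [h]; exact M.zero_mem_Wt
  obtain ⟨i, hi⟩ := hLi
  have hwi : M.wt i = b := by
    by_contra h
    exact hi (hoth i h)
  exact ⟨{
    D := c.D
    ρ := c.ρ
    D_meas := hDm
    ρ_meas := hρm
    D_mul := c.D_mul
    ρ_mul := c.ρ_mul
    norm_ρ := c.norm_ρ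
    ρ_ker := fun x hx => c.ρ_ker x (by rw [H530.hgt_eq_zero_iff]; exact hx)
    i := i
    wt_i := hwi
    d := L (M.X i)
    d_ne := hi
    D_ex := fun x => by rw [hL, map_smul, Complex.real_smul]
    D_other := fun j hj x => by rw [hL, map_smul, hoth j hj, smul_zero]
    C := C
    D_le := hle }⟩

end RModel

end Vale.Agent.P188.Z1

end

section

/-!
# P188, Z1, block LAB, part 3: the linear part of a composition
-/

set_option linter.all false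

open MeasureTheory Set
open scoped ENNReal

namespace Vale.Agent.P188.Z1.Lab

variable {S : Type} [Group S] [MeasurableSpace S] {Γ : Type} [Group Γ]
  {V : Type} [AddCommGroup V] [Module ℝ V] {k : ℕ} {M : RModel S Γ V k}

/-- the smallness constant of the composition law -/
noncomputable def cst (M : RModel S Γ V k) (K : ℝ) : ℝ :=
  1000 * (1 + (M.mlt (2 * K)).toReal ^ 2) ^ 2

theorem cst_pos (M : RModel S Γ V k) (K : ℝ) : 1 ≤ cst M K := by
  unfold cst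
  have : 0 ≤ (M.mlt (2 * K)).toReal ^ 2 := by positivity
  nlinarith

theorem θ_inG_close (M : RModel S Γ V k) (x : S) :
    ‖M.θ x - M.θ (M.inG (M.fl x))‖ ≤ M.C0 * M.C0 := by
  rw [← M.θ_inv_mul]
  exact (M.θ_le _).trans (mul_le_mul_of_nonneg_left (M.fl_close x) M.C0_pos.le)

theorem θ_inG_le (M : RModel S Γ V k) {g g' : Γ} {K : ℝ} (h : (M.l (M.inG (g⁻¹ * g')) : ℝ) ≤ K) :
    ‖M.θ (M.inG g') - M.θ (M.inG g)‖ ≤ M.C0 * K := by
  rw [← M.θ_inv_mul, ← map_inv, ← map_mul]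
  exact (M.θ_le _).trans (mul_le_mul_of_nonneg_left h M.C0_pos.le)

/-- two neighbouring good points of `Db` -/
theorem comp_pts {Db Dbp Bx : Set S} {R' η₁ : ℝ} (hR0 : 0 ≤ R') (hDb : M.Fat R' (1 / 8) Db Dbp)
    (hη₁0 : 0 ≤ η₁) (hBm : M.μ Bx ≤ ENNReal.ofReal η₁ * M.μ Db) (hη₁s : 2 * η₁ + 1 / 8 < 1)
    {u : S} (huR : (M.l u : ℝ) ≤ R') : ∃ x, x ∈ Db ∧ x ∉ Bx ∧ x * u ∈ Db ∧ x * u ∉ Bx := by
  by_contra hcon
  push Not at hcon
  have hsub : Db ⊆ Bx ∪ ({x | x ∈ Db ∧ x * u ∉ Db} ∪ {x | x * u ∈ Bx}) := by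
    intro x hx
    by_contra h
    simp only [mem_union, mem_setOf_eq, not_or, not_and, not_not] at h
    exact h.2.2 (hcon x hx h.1 (h.2.1 hx))
  have hBm' : M.μ {x | x * u ∈ Bx} ≤ ENNReal.ofReal η₁ * M.μ Db := by
    rw [preimage_right]; exact hBm
  have h1 := (measure_mono hsub).trans ((measure_union_le _ _).trans (add_le_add hBm
    ((measure_union_le _ _).trans (add_le_add (hDb.fol hR0 (by norm_num) huR) hBm'))))
  rw [← add_mul, ← add_mul, ← ENNReal.ofReal_add (by norm_num) hη₁0,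
    ← ENNReal.ofReal_add hη₁0 (by positivity)] at h1
  have h2 : ENNReal.ofReal (η₁ + (1 / 8 + η₁)) * M.μ Db < 1 * M.μ Db := by
    refine (ENNReal.mul_lt_mul_iff_left hDb.pos hDb.fin).2 ?_
    rw [← ENNReal.ofReal_one]
    exact (ENNReal.ofReal_lt_ofReal_iff one_pos).2 (by linarith)
  rw [one_mul] at h2
  exact absurd h2 (not_lt.2 h1)

/-- the final computation of the composition law -/
theorem comp_fin {K : ℝ} {F₁ F₂ F₂' F₃ : Γ → Γ} (h₂ : M.QIm K F₂ F₂')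
    (h₃ : ∀ g, (M.l (M.inG ((F₃ g)⁻¹ * F₁ (F₂ g))) : ℝ) ≤ K)
    {T₁ T₂ T₃ : Ht k →L[ℝ] Ht k} {δ L r : ℝ} (hδ : 0 ≤ δ) (hL : ‖T₁‖ ≤ L)
    {u : S} (hu' : K * (M.l u + 2 * M.C0 + 1) + 2 * M.C0 ≤ r) {x y y' : S}
    (hy : M.fl y = F₂ (M.fl x)) (hy' : M.fl y' = F₂ (M.fl (x * u)))
    (e1 : (M.l (y⁻¹ * y') : ℝ) ≤ r → ‖M.f F₁ y' - M.f F₁ y - T₁ (M.θ (y⁻¹ * y'))‖ ≤ 4 * δ)
    (e2 : ‖M.f F₂ (x * u) - M.f F₂ x - T₂ (M.θ u)‖ ≤ 4 * δ)
    (e3 : ‖M.f F₃ (x * u) - M.f F₃ x - T₃ (M.θ u)‖ ≤ 4 * δ) :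
    ‖(T₃ - T₁.comp T₂) (M.θ u)‖ ≤
      (8 + 4 * L) * δ + (2 * M.C0 * K + 2 * L * M.C0 * M.C0) := by
  have hC0 := M.C0_pos
  have hK := h₂.K_nonneg
  -- distances
  have hfl : (M.l (M.inG ((M.fl x)⁻¹ * M.fl (x * u))) : ℝ) ≤ M.l u + 2 * M.C0 := by
    have t1 := M.fl_close x
    have t2 := M.fl_close (x * u)
    have t3 := M.l_triR (M.inG (M.fl x)) x (M.inG (M.fl (x * u)))
    have t4 := M.l_triR x (x * u) (M.inG (M.fl (x * u)))
    rw [M.l_comm (x * u), inv_mul_cancel_left] at t4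
    rw [map_mul, map_inv]
    linarith
  have hlip := h₂.lip (M.fl x) ((M.fl x)⁻¹ * M.fl (x * u))
  rw [mul_inv_cancel_left] at hlip
  have hyy : (M.l (y⁻¹ * y') : ℝ) ≤ r := by
    have t1 := M.fl_close y
    have t2 := M.fl_close y'
    have t3 := M.l_triR y (M.inG (M.fl y)) y'
    have t4 := M.l_triR (M.inG (M.fl y)) (M.inG (M.fl y')) y'
    have t3' : (M.l (y⁻¹ * M.inG (M.fl y)) : ℝ) = M.l ((M.inG (M.fl y))⁻¹ * y) := by
      rw [M.l_comm]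
    have t5 : (M.l ((M.inG (M.fl y))⁻¹ * M.inG (M.fl y')) : ℝ) ≤
        K * (M.l u + 2 * M.C0 + 1) := by
      rw [hy, hy', ← map_inv, ← map_mul]
      exact hlip.trans (mul_le_mul_of_nonneg_left (by linarith) hK)
    linarith
  have e1 := e1 hyy
  -- comparison of the functions
  have c1 : ∀ (z w : S), M.fl w = F₂ (M.fl z) → ‖M.f F₁ w - M.f F₃ z‖ ≤ M.C0 * K := by
    intro z w hw
    have : M.f F₁ w = M.θ (M.inG (F₁ (F₂ (M.fl z)))) := by rw [← hw]; rfl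
    rw [this]
    exact θ_inG_le M (h₃ (M.fl z))
  have c2 : ∀ (z w : S), M.fl w = F₂ (M.fl z) → ‖M.θ w - M.f F₂ z‖ ≤ M.C0 * M.C0 := by
    intro z w hw
    have : M.f F₂ z = M.θ (M.inG (M.fl w)) := by rw [hw]; rfl
    rw [this]
    exact θ_inG_close M w
  have d1 := c1 x y hy
  have d1' := c1 (x * u) y' hy'
  have d2 := c2 x y hy
  have d2' := c2 (x * u) y' hy'
  rw [M.θ_inv_mul] at e1
  have hT : ∀ v : Ht k, ‖T₁ v‖ ≤ L * ‖v‖ := fun v =>
    (T₁.le_opNorm v).trans (mul_le_mul_of_nonneg_right hL (norm_nonneg _))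
  have hL0 : 0 ≤ L := (norm_nonneg _).trans hL
  set a := M.f F₃ (x * u) - M.f F₃ x - T₃ (M.θ u) with ha
  set b := M.f F₁ y' - M.f F₁ y - T₁ (M.θ y' - M.θ y) with hb
  set p := M.f F₁ y' - M.f F₃ (x * u) with hp
  set q := M.f F₁ y - M.f F₃ x with hq
  set v := M.θ y' - M.f F₂ (x * u) with hv
  set w := M.θ y - M.f F₂ x with hw
  set e := M.f F₂ (x * u) - M.f F₂ x - T₂ (M.θ u) with he
  have hfin : (T₃ - T₁.comp T₂) (M.θ u) = (b - a) + (q - p) + ((T₁ v - T₁ w) + T₁ e) := by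
    rw [ha, hb, hp, hq, hv, hw, he]
    simp only [ContinuousLinearMap.sub_apply, ContinuousLinearMap.comp_apply, map_sub]
    abel
  rw [hfin]
  have n1 := hT v
  have n2 := hT w
  have n3 := hT e
  have n1' : L * ‖v‖ ≤ L * (M.C0 * M.C0) := mul_le_mul_of_nonneg_left d2' hL0
  have n2' : L * ‖w‖ ≤ L * (M.C0 * M.C0) := mul_le_mul_of_nonneg_left d2 hL0
  have n3' : L * ‖e‖ ≤ L * (4 * δ) := mul_le_mul_of_nonneg_left e2 hL0
  have m1 := norm_add₃_le (a := b - a) (b := q - p) (c := (T₁ v - T₁ w) + T₁ e)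
  have m2 := norm_add_le (T₁ v - T₁ w) (T₁ e)
  have m3 := norm_sub_le b a
  have m4 := norm_sub_le q p
  have m5 := norm_sub_le (T₁ v) (T₁ w)
  have e4 : (8 + 4 * L) * δ + (2 * M.C0 * K + 2 * L * M.C0 * M.C0) =
    4 * δ + 4 * δ + M.C0 * K + M.C0 * K + L * (M.C0 * M.C0) + L * (M.C0 * M.C0) + L * (4 * δ) := by
    ring
  rw [e4]
  linarith

/-- the numerical smallness -/
theorem comp_num {mr ε η₁ : ℝ} (hmr0 : 0 ≤ mr) (hε : 0 ≤ ε)
    (hsm : 1000 * (1 + mr ^ 2) ^ 2 * ε ≤ 1) (hη₁ : η₁ = 16 * ε * (1 + 1 / 8) +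
      (16 * ε * (1 + 1 / 8) + mr * (16 * ε * (1 + mr ^ 2 * (1 / 8)) * (mr * (1 + 1 / 8))))) :
    2 * η₁ + 1 / 8 < 1 := by
  have h1 : η₁ ≤ 54 * ((1 + mr ^ 2) ^ 2) * ε := by
    have : η₁ = ε * (36 + 18 * mr ^ 2 + (9 / 4) * mr ^ 4) := by rw [hη₁]; ring
    rw [this]
    have h2 : 36 + 18 * mr ^ 2 + (9 / 4) * mr ^ 4 ≤ 54 * (1 + mr ^ 2) ^ 2 := by
      have : 0 ≤ mr ^ 2 := by positivity
      have : 0 ≤ mr ^ 4 := by positivity
      nlinarith
    nlinarith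
  nlinarith

/-- the bad set of the composition law -/
theorem comp_bad {K : ℝ} {F₁ F₂ F₂' F₃ : Γ → Γ} (h₂ : M.QIm K F₂ F₂')
    {r κ c A : ℝ} {D : Set S} (hD : TB M r κ c A D) (hκ : κ ≤ 1 / 8)
    {T₁ T₂ T₃ : Ht k →L[ℝ] Ht k} {δ ε : ℝ} (hε : 0 ≤ ε)
    (f₁ : ∀ Y : S, Flt M (fun z => M.f F₁ (Y * z)) D T₁ δ ε)
    (f₂ : ∀ Y : S, Flt M (fun z => M.f F₂ (Y * z)) D T₂ δ ε)
    (f₃ : ∀ Y : S, Flt M (fun z => M.f F₃ (Y * z)) D T₃ δ ε)
    (hsm : cst M K * ε ≤ 1) {R : ℝ} {Db Dbp : Set S} (hR0 : 0 ≤ R)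
    (hR : ∀ z ∈ D, (M.l z : ℝ) ≤ R)
    (hDb : M.Fat (R + 2 * M.C0 + K + K * (K + 2 * M.C0 + R + 1)) (1 / 8) Db Dbp) :
    ∃ (D₁ D₂ D₃ Bx : Set S) (η₁ : ℝ), 0 ≤ η₁ ∧ 2 * η₁ + 1 / 8 < 1 ∧
      M.μ Bx ≤ ENNReal.ofReal η₁ * M.μ Db ∧
      (∀ y : S, y ∈ Db → y ∉ Bx → y ∈ D₂ ∧ y ∈ D₃ ∧ ∃ y' ∈ D₁, M.fl y' = F₂ (M.fl y)) ∧
      (∀ z ∈ D₁, ∀ z' ∈ D₁, (M.l (z⁻¹ * z') : ℝ) ≤ r →
        ‖M.f F₁ z' - M.f F₁ z - T₁ (M.θ (z⁻¹ * z'))‖ ≤ 4 * δ) ∧
      (∀ z ∈ D₂, ∀ z' ∈ D₂, (M.l (z⁻¹ * z') : ℝ) ≤ r →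
        ‖M.f F₂ z' - M.f F₂ z - T₂ (M.θ (z⁻¹ * z'))‖ ≤ 4 * δ) ∧
      (∀ z ∈ D₃, ∀ z' ∈ D₃, (M.l (z⁻¹ * z') : ℝ) ≤ r →
        ‖M.f F₃ z' - M.f F₃ z - T₃ (M.θ (z⁻¹ * z'))‖ ≤ 4 * δ) := by
  have hC0 := M.C0_pos
  have hK := h₂.K_nonneg
  set m := M.mlt (2 * K) with hm
  have hmt : m ≠ ⊤ := M.mlt_ne_top _
  set mr := m.toReal with hmr
  have hmr0 : 0 ≤ mr := ENNReal.toReal_nonneg
  have hmo : m = ENNReal.ofReal mr := (ENNReal.ofReal_toReal hmt).symm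
  have hRb : R ≤ R + 2 * M.C0 + K + K * (K + 2 * M.C0 + R + 1) := by
    have : 0 ≤ K * (K + 2 * M.C0 + R + 1) := by positivity
    linarith
  have hRb0 : 0 ≤ R + 2 * M.C0 + K + K * (K + 2 * M.C0 + R + 1) := hR0.trans hRb
  -- the image
  have htr := h₂.trans (κ := 1 / 8) (by norm_num) hR0 hDb (le_refl K) (by linarith)
  obtain ⟨hFat', hmem, -, hGp⟩ := htr
  set G' : Set Γ := {γ | ∃ z ∈ Db, (M.l (M.inG (γ⁻¹ * F₂ (M.fl z))) : ℝ) ≤ K} with hG'
  set Gp' : Set Γ := {γ | ∃ z ∈ Db, (M.l (M.inG (γ⁻¹ * F₂ (M.fl z))) : ℝ) ≤ K + 2 * M.C0 + R}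
    with hGp'
  -- large subsets
  obtain ⟨D₁, D₁s, D₁m, D₁e, D₁p⟩ := avg (M.measurable_f F₁) hD hκ hε f₁
    (κ' := mr ^ 2 * (1 / 8)) (by positivity) hFat' hR
  obtain ⟨D₂, D₂s, D₂m, D₂e, D₂p⟩ := avg (M.measurable_f F₂) hD hκ hε f₂
    (κ' := 1 / 8) (by norm_num) (hDb.mono hRb le_rfl) hR
  obtain ⟨D₃, D₃s, D₃m, D₃e, D₃p⟩ := avg (M.measurable_f F₃) hD hκ hε f₃
    (κ' := 1 / 8) (by norm_num) (hDb.mono hRb le_rfl) hR
  -- bad cells
  set Gb : Set Γ := {γ | γ ∈ G' ∧ M.fl ⁻¹' {γ} ∩ D₁ = ∅} with hGb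
  have hGbm : M.μ (M.cells Gb) ≤ ENNReal.ofReal (16 * ε * (1 + mr ^ 2 * (1 / 8))) *
      (m * (ENNReal.ofReal (1 + 1 / 8) * M.μ Db)) := by
    have s1 : M.cells Gb ⊆ M.cells G' \ D₁ := by
      intro z hz
      have hz' : M.fl z ∈ G' ∧ M.fl ⁻¹' {M.fl z} ∩ D₁ = ∅ := hz
      refine ⟨hz'.1, fun h => ?_⟩
      have : z ∈ M.fl ⁻¹' {M.fl z} ∩ D₁ := ⟨rfl, h⟩
      rw [hz'.2] at this
      exact this
    have s2 : M.cells G' ⊆ M.cells Gp' := by
      apply preimage_mono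
      rintro γ ⟨z, hz, hzγ⟩
      exact ⟨z, hz, by linarith⟩
    calc M.μ (M.cells Gb) ≤ M.μ (M.cells G' \ D₁) := measure_mono s1
      _ ≤ ENNReal.ofReal (16 * ε * (1 + mr ^ 2 * (1 / 8))) * M.μ (M.cells G') := D₁e
      _ ≤ ENNReal.ofReal (16 * ε * (1 + mr ^ 2 * (1 / 8))) * (m * M.μ Dbp) := by
          gcongr
          exact (measure_mono s2).trans hGp
      _ ≤ _ := by
          gcongr
          exact hDb.le
  set Bx : Set S := (Db \ D₂) ∪ ((Db \ D₃) ∪ {z | F₂ (M.fl z) ∈ Gb}) with hBx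
  set η₁ : ℝ := 16 * ε * (1 + 1 / 8) + (16 * ε * (1 + 1 / 8) +
    mr * (16 * ε * (1 + mr ^ 2 * (1 / 8)) * (mr * (1 + 1 / 8)))) with hη₁
  have hη₁0 : 0 ≤ η₁ := by positivity
  have hBm : M.μ Bx ≤ ENNReal.ofReal η₁ * M.μ Db := by
    refine (measure_union_le _ _).trans ((add_le_add D₂e ((measure_union_le _ _).trans
      (add_le_add D₃e ((h₂.mu_le Gb).trans (mul_le_mul_right hGbm _))))).trans (le_of_eq ?_))
    have e1 : ENNReal.ofReal η₁ = ENNReal.ofReal (16 * ε * (1 + 1 / 8)) +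
        (ENNReal.ofReal (16 * ε * (1 + 1 / 8)) + ENNReal.ofReal mr *
          (ENNReal.ofReal (16 * ε * (1 + mr ^ 2 * (1 / 8))) *
            (ENNReal.ofReal mr * ENNReal.ofReal (1 + 1 / 8)))) := by
      rw [← ENNReal.ofReal_mul hmr0, ← ENNReal.ofReal_mul (by positivity),
        ← ENNReal.ofReal_mul hmr0, ← ENNReal.ofReal_add (by positivity) (by positivity),
        ← ENNReal.ofReal_add (by positivity) (by positivity)]
    rw [← hm, e1, hmo]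
    ring
  refine ⟨D₁, D₂, D₃, Bx, η₁, hη₁0, comp_num hmr0 hε hsm hη₁, hBm, ?_, D₁p, D₂p, D₃p⟩
  intro y hy hyB
  simp only [hBx, mem_union, mem_sdiff, mem_setOf_eq, not_or, not_and, not_not] at hyB
  refine ⟨hyB.1 hy, hyB.2.1 hy, ?_⟩
  have h1 := hmem y hy
  have h2 : F₂ (M.fl y) ∉ Gb := hyB.2.2
  have h3 : (M.fl ⁻¹' {F₂ (M.fl y)} ∩ D₁).Nonempty := by
    rw [Set.nonempty_iff_ne_empty]
    intro h
    exact h2 ⟨h1, h⟩
  obtain ⟨y', hy1, hy2⟩ := h3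
  exact ⟨y', hy2, hy1⟩

/-- **The linear part of a composition.** -/
theorem comp {K : ℝ} {F₁ F₂ F₂' F₃ : Γ → Γ} (h₂ : M.QIm K F₂ F₂')
    (h₃ : ∀ g, (M.l (M.inG ((F₃ g)⁻¹ * F₁ (F₂ g))) : ℝ) ≤ K)
    {r κ c A : ℝ} {D : Set S} (hD : TB M r κ c A D) (hκ : κ ≤ 1 / 8)
    {T₁ T₂ T₃ : Ht k →L[ℝ] Ht k} {δ ε L : ℝ} (hδ : 0 ≤ δ) (hε : 0 ≤ ε) (hL : ‖T₁‖ ≤ L)
    (f₁ : ∀ Y : S, Flt M (fun z => M.f F₁ (Y * z)) D T₁ δ ε)
    (f₂ : ∀ Y : S, Flt M (fun z => M.f F₂ (Y * z)) D T₂ δ ε)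
    (f₃ : ∀ Y : S, Flt M (fun z => M.f F₃ (Y * z)) D T₃ δ ε)
    (hsm : cst M K * ε ≤ 1) {R : ℝ} {Db Dbp : Set S} (hR0 : 0 ≤ R) (hrR : r ≤ R)
    (hR : ∀ z ∈ D, (M.l z : ℝ) ≤ R)
    (hDb : M.Fat (R + 2 * M.C0 + K + K * (K + 2 * M.C0 + R + 1)) (1 / 8) Db Dbp)
    {u : S} (hu : (M.l u : ℝ) ≤ r) (hu' : K * (M.l u + 2 * M.C0 + 1) + 2 * M.C0 ≤ r) :
    ‖(T₃ - T₁.comp T₂) (M.θ u)‖ ≤
      (8 + 4 * L) * δ + (2 * M.C0 * K + 2 * L * M.C0 * M.C0) := by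
  obtain ⟨D₁, D₂, D₃, Bx, η₁, hη₁0, hη₁s, hBm, key, D₁p, D₂p, D₃p⟩ :=
    comp_bad h₂ hD hκ hε f₁ f₂ f₃ hsm hR0 hR hDb
  have hC0 := M.C0_pos
  have hK := h₂.K_nonneg
  have hRb : R ≤ R + 2 * M.C0 + K + K * (K + 2 * M.C0 + R + 1) := by
    have : 0 ≤ K * (K + 2 * M.C0 + R + 1) := by positivity
    linarith
  obtain ⟨x, x1, x2, x3, x4⟩ := comp_pts (hR0.trans hRb) hDb hη₁0 hBm hη₁s
    (u := u) (hu.trans (hrR.trans hRb))
  obtain ⟨a2, a3, y, hyD, hy⟩ := key x x1 x2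
  obtain ⟨b2, b3, y', hyD', hy'⟩ := key (x * u) x3 x4
  have hxu : (M.l (x⁻¹ * (x * u)) : ℝ) ≤ r := by rwa [inv_mul_cancel_left]
  have e2 := D₂p x a2 (x * u) b2 hxu
  have e3 := D₃p x a3 (x * u) b3 hxu
  rw [inv_mul_cancel_left] at e2 e3
  exact comp_fin h₂ h₃ hδ hL hu' hy hy' (D₁p y hyD y' hyD') e2 e3

end Vale.Agent.P188.Z1.Lab

end
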