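import Vale.Agent.P188.R.G076
import Vale.Agent.P188.R.G050
import Vale.Agent.P188.R.G062

section

/-!
The bridge from the structure theorem Z0 to the Malcev data.
-/

open Finset Filter Topology
open scoped commutatorElement Pointwise

universe u v w

namespace Vale.Agent.P188.H796

open H754 (PolyZ.fg)

/-- all the standing facts about `Γ` used for the construction of the real group -/
theorem exists_MB_data {Γ : Type u} [Group Γ] {k : ℕ} (η : Γ →* Multiplicative (Fin k → ℤ))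
    (hnil : Group.IsNilpotent η.ker) (hZ : ∃ m, PolyZ m Γ) (hZ' : ∃ m, PolyZ m η.ker) :
    ∃ d n, Nonempty (MB η.ker d n) ∧
      ∃ F : Set Γ, F.Finite ∧ Subgroup.closure F = ⊤ ∧ (1 : Γ) ∈ F ∧ ∀ x ∈ F, x⁻¹ ∈ F := by
  obtain ⟨m, hm⟩ := hZ
  obtain ⟨d, hd⟩ := hZ'
  obtain ⟨n, hD⟩ := exists_MB d η.ker hd hnil
  obtain ⟨F₀, hF₀⟩ := (Group.fg_def.1 (H754.PolyZ.fg m hm))
  refine ⟨d, n, hD, insert 1 ((F₀ : Set Γ) ∪ (F₀ : Set Γ)⁻¹), ?_, ?_, Set.mem_insert _ _, ?_⟩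
  · exact (F₀.finite_toSet.union F₀.finite_toSet.inv).insert _
  · rw [eq_top_iff, ← hF₀]
    exact Subgroup.closure_mono (fun x hx => Or.inr (Or.inl hx))
  · rintro x (rfl | hx | hx)
    · rw [inv_one]; exact Set.mem_insert _ _
    · exact Or.inr (Or.inr (by rwa [Set.mem_inv, inv_inv]))
    · exact Or.inr (Or.inl hx)

/-- the same from `Z0` -/
theorem Z0_data {Γ : Type} [Group Γ] {k : ℕ} {η : Γ →* Multiplicative (Fin k → ℤ)}
    (h : H187.Z0 Γ k η) : ∃ d n, Nonempty (MB η.ker d n) ∧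
      ∃ F : Set Γ, F.Finite ∧ Subgroup.closure F = ⊤ ∧ (1 : Γ) ∈ F ∧ ∀ x ∈ F, x⁻¹ ∈ F :=
  exists_MB_data η h.nil h.polyZ h.ker_polyZ

end Vale.Agent.P188.H796

end

section

/-!
Products of exponentials, and neutral words in the Cartan group have polynomial size.
-/

open Finset Filter Topology
open scoped commutatorElement Pointwise

universe u v w

namespace Vale.Agent.P188.H796

open H615 H131
open Agent.P188.H428 (IsLen)
open Vale.Agent.P188.H530 (hgt)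
open Vale.Agent.P188.Z1 (CBall)

section conc

variable {Γ : Type u} [Group Γ] {k : ℕ} {η : Γ →* Multiplicative (Fin k → ℤ)} {d n : ℕ}
  (D : MB η.ker d n)

/-- **products of exponentials**: polynomial bound -/
theorem MB.ex_list_bound : ∃ (C : ℝ) (e : ℕ), 0 < C ∧ ∀ A : ℝ, 0 ≤ A → ∀ L : List D.R.V,
    (∀ v ∈ L, D.nm v ≤ A) → ∃ u, D.ex u = (L.map D.ex).prod ∧
      D.nm u ≤ C * (1 + A + L.length) ^ e := by
  obtain ⟨C1, hC1, h1⟩ := RD.exists_ex_bound (A := D.Alg) D.R.m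
  obtain ⟨C2, hC2, h2⟩ := D.R.exists_Lo_bound
  set B : ℝ := C1 + ‖(1 : D.Alg)‖ with hB
  have hB0 : 0 < B := by positivity
  refine ⟨C2 * (1 + ‖(1 : D.Alg)‖ + ‖(1 : D.Alg)‖ * D.R.m * (1 + B) ^ D.R.m) ^ D.R.m,
    (D.R.m + 1) * D.R.m * D.R.m, by positivity, fun A hA L hL => ?_⟩
  refine ⟨D.R.Lo (L.map D.R.Ex).prod, ?_, ?_⟩
  · rw [MB.ex, D.R.Ex_Lo, map_list_prod, List.map_map]
    rfl
  rw [D.nm_eq]
  set r : ℝ := 1 + A + L.length with hr
  have hl0 : (0 : ℝ) ≤ L.length := Nat.cast_nonneg _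
  have hr1 : 1 ≤ r := by linarith
  have hK : 0 ≤ B * (1 + A) ^ D.R.m := by positivity
  have h3 := D.R.norm_prod_le ((L.map D.R.Ex).map D.R.toA) hK (by
    intro u hu
    rw [List.mem_map] at hu
    obtain ⟨s, _, rfl⟩ := hu
    exact D.R.E_sub_one_mem s) (by
    intro u hu
    rw [List.mem_map] at hu
    obtain ⟨s, hs, rfl⟩ := hu
    rw [List.mem_map] at hs
    obtain ⟨v, hv, rfl⟩ := hs
    have e2 : D.R.toA (D.R.Ex v) = H796.ex D.R.m (v : D.Alg) := D.R.toA_Ex v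
    rw [e2]
    have h4 := h1 (v : D.Alg)
    have h5 : ‖(v : D.Alg)‖ ≤ A := hL v hv
    have h6 : (1 + ‖(v : D.Alg)‖) ^ D.R.m ≤ (1 + A) ^ D.R.m :=
      pow_le_pow_left₀ (by positivity) (by linarith) _
    have h7 : 1 ≤ (1 + A) ^ D.R.m := one_le_pow₀ (by linarith)
    refine (norm_sub_le _ _).trans ?_
    rw [hB, add_mul]
    refine add_le_add (h4.trans (mul_le_mul_of_nonneg_left h6 hC1.le)) ?_
    exact le_mul_of_one_le_right (norm_nonneg _) h7)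
  rw [← map_list_prod, List.length_map, List.length_map] at h3
  have h8 : 1 + (L.length : ℝ) * (B * (1 + A) ^ D.R.m) ≤ (1 + B) * r ^ (D.R.m + 1) := by
    have e1 : (1 + A) ^ D.R.m ≤ r ^ D.R.m := pow_le_pow_left₀ (by linarith) (by linarith) _
    have e2 : 1 ≤ r ^ (D.R.m + 1) := one_le_pow₀ hr1
    have e3 : (L.length : ℝ) * (1 + A) ^ D.R.m ≤ r ^ (D.R.m + 1) := by
      rw [pow_succ']
      exact mul_le_mul (by linarith) e1 (by positivity) (by linarith)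
    calc 1 + (L.length : ℝ) * (B * (1 + A) ^ D.R.m)
        = 1 + B * ((L.length : ℝ) * (1 + A) ^ D.R.m) := by ring
      _ ≤ r ^ (D.R.m + 1) + B * r ^ (D.R.m + 1) :=
          add_le_add e2 (mul_le_mul_of_nonneg_left e3 hB0.le)
      _ = _ := by ring
  have h9 : ‖D.R.toA (L.map D.R.Ex).prod‖ ≤
      ‖(1 : D.Alg)‖ * D.R.m * ((1 + B) ^ D.R.m * r ^ ((D.R.m + 1) * D.R.m)) := by
    refine h3.trans ?_
    refine mul_le_mul_of_nonneg_left ?_ (by positivity)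
    calc (1 + (L.length : ℝ) * (B * (1 + A) ^ D.R.m)) ^ D.R.m
        ≤ ((1 + B) * r ^ (D.R.m + 1)) ^ D.R.m := pow_le_pow_left₀ (by positivity) h8 _
      _ = _ := by rw [mul_pow, ← pow_mul]
  have hrp : 1 ≤ r ^ ((D.R.m + 1) * D.R.m) := one_le_pow₀ hr1
  have h10 : 1 + ‖D.R.toA (L.map D.R.Ex).prod - 1‖ ≤
      (1 + ‖(1 : D.Alg)‖ + ‖(1 : D.Alg)‖ * D.R.m * (1 + B) ^ D.R.m) *
        r ^ ((D.R.m + 1) * D.R.m) := by
    have e1 := norm_sub_le (D.R.toA (L.map D.R.Ex).prod) 1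
    have e2 : 1 + ‖(1 : D.Alg)‖ ≤ (1 + ‖(1 : D.Alg)‖) * r ^ ((D.R.m + 1) * D.R.m) :=
      le_mul_of_one_le_right (by positivity) hrp
    calc 1 + ‖D.R.toA (L.map D.R.Ex).prod - 1‖
        ≤ (1 + ‖(1 : D.Alg)‖) + ‖(1 : D.Alg)‖ * D.R.m * ((1 + B) ^ D.R.m *
            r ^ ((D.R.m + 1) * D.R.m)) := by linarith
      _ ≤ (1 + ‖(1 : D.Alg)‖) * r ^ ((D.R.m + 1) * D.R.m) +
            ‖(1 : D.Alg)‖ * D.R.m * ((1 + B) ^ D.R.m * r ^ ((D.R.m + 1) * D.R.m)) := by linarith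
      _ = _ := by ring
  refine (h2 _).trans ?_
  calc C2 * (1 + ‖D.R.toA (L.map D.R.Ex).prod - 1‖) ^ D.R.m
      ≤ C2 * ((1 + ‖(1 : D.Alg)‖ + ‖(1 : D.Alg)‖ * D.R.m * (1 + B) ^ D.R.m) *
        r ^ ((D.R.m + 1) * D.R.m)) ^ D.R.m := by gcongr
    _ = _ := by rw [mul_pow, ← pow_mul]; ring

end conc

end Vale.Agent.P188.H796

end

section

/-!
The fields `τ`, `τ_CB`, `C_inv`, `C_ker`, `dec` of the real model for the concrete group `D.S`.
-/

open Finset Filter Topology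
open scoped commutatorElement Pointwise

namespace Vale.Agent.P188.H796

open H615 H131 H269
open Agent.P188.H428 (IsLen C_le_one letter_mem sem_dom)
open Vale.Agent.P188.H530 (hgt)
open Vale.Agent.P188.Z1 (CBall)

section tau

variable {S : Type} [Group S] {k : ℕ}

/-- a section of `η` by sorted words -/
theorem exists_τ (η : S →* Multiplicative (Fin k → ℤ)) (Ct : Subgroup S)
    (hs : ∀ w, ∃ c ∈ Ct, η c = w) : ∃ τ : (Fin k → ℤ) → S, (∀ w, τ w ∈ Ct) ∧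
      (∀ w, η (τ w) = Multiplicative.ofAdd w) ∧ τ 0 = 1 ∧
      ∀ {V : Type} (nm : V → ℝ) (h : Set V) (ex : V → S) (w : Fin k → ℤ),
        τ w ∈ CBall nm h ex τ (∑ i, (w i).natAbs) := by
  choose t htC htη using fun i : Fin k => hs (Multiplicative.ofAdd (Pi.single i 1))
  have hηsw : ∀ (I : List (Fin k)) (w : Fin k → ℤ), Multiplicative.toAdd (η (sw t I w).prod) =
      (I.map fun i => (w i) • (Pi.single i (1 : ℤ) : Fin k → ℤ)).sum := by
    intro I w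
    induction I with
    | nil => simp [sw]
    | cons i I ih =>
      rw [sw_cons, List.prod_append, map_mul, toAdd_mul, ih, List.map_cons, List.sum_cons, zw_prod,
        map_zpow, toAdd_zpow, htη]
      rfl
  have hτs : ∀ j, (sg t (Pi.single j 1)).prod = t j := by
    intro j
    have h0 : Function.update (0 : Fin k → ℤ) j ((0 : Fin k → ℤ) j + 1) = Pi.single j 1 := by
      rw [Pi.zero_apply, zero_add]; rfl
    obtain ⟨P, Q, hP, hQ, hlen, hprod, hupd⟩ := sg_split t 0 j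
    have h1 : (sg t (0 : Fin k → ℤ)).length = 0 := by rw [sg_length]; simp
    rw [h1] at hlen
    have hP0 : P = [] := List.length_eq_zero_iff.1 (by omega)
    have hQ0 : Q = [] := List.length_eq_zero_iff.1 (by omega)
    have h2 := hupd 1
    rw [h0, hP0, hQ0] at h2
    simpa using h2
  refine ⟨fun w => (sg t w).prod, ?_, ?_, ?_, ?_⟩
  · intro w
    refine Ct.list_prod_mem fun a ha => ?_
    obtain ⟨j, rfl | rfl⟩ := sw_mem t ha
    · exact htC j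
    · exact Ct.inv_mem (htC j)
  · intro w
    apply Multiplicative.toAdd.injective
    simp only
    rw [sg, hηsw, ← Fin.sum_univ_def, toAdd_ofAdd]
    funext j
    rw [Finset.sum_apply, Finset.sum_eq_single j]
    · simp
    · intro i _ hij
      rw [Pi.smul_apply, Pi.single_eq_of_ne (Ne.symm hij), smul_zero]
    · intro hj
      exact absurd (Finset.mem_univ j) hj
  · exact sw_prod_zero t _
  · intro V nm h ex w
    rw [← sg_length t w]
    refine list_mem_CBall fun a ha => ?_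
    have hsingle : ∀ j i : Fin k, |(Pi.single j (1 : ℤ) : Fin k → ℤ) i| ≤ 1 := by
      intro j i
      by_cases hij : i = j
      · subst hij; simp
      · rw [Pi.single_eq_of_ne hij]; simp
    obtain ⟨j, rfl | rfl⟩ := sw_mem t ha
    · have := τ_mem_CBall (nm := nm) (h := h) (ex := ex) (τ := fun w => (sg t w).prod) (hsingle j)
      simp only [hτs] at this
      exact this
    · have := τ_inv_mem_CBall (nm := nm) (h := h) (ex := ex) (τ := fun w => (sg t w).prod)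
        (hsingle j)
      simp only [hτs] at this
      exact this

end tau

section conc

variable {Γ : Type} [Group Γ] {k : ℕ} {η : Γ →* Multiplicative (Fin k → ℤ)} {d n : ℕ}
  (D : MB η.ker d n)

/-- the Cartan group and the kernel -/
theorem C_ker_mem (habel : ∀ a b : Γ, ⁅a, b⁆ ∈ η.ker) {t c : D.S}
    (hc : c ∈ (expS D habel).C t) (hη : D.θ η c = 1) :
    ∃ v ∈ W D.AdE t 0, D.ex v = c := by
  obtain ⟨v, rfl⟩ := D.ex_of_θ c hη
  exact ⟨v, ((expS D habel).E_mem_C_iff t v).1 hc, rfl⟩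

/-- words are in the Cartan group -/
theorem CBall_le_C (habel : ∀ a b : Γ, ⁅a, b⁆ ∈ η.ker) {t : D.S} {τ : (Fin k → ℤ) → D.S}
    (hτ : ∀ w, τ w ∈ (expS D habel).C t) {m : ℕ} {c : D.S}
    (hc : c ∈ CBall D.nm (W D.AdE t 0 : Set D.R.V) D.ex τ m) : c ∈ (expS D habel).C t := by
  obtain ⟨L, _, rfl, hL⟩ := hc
  exact Subgroup.list_prod_mem _ fun a ha => letter_mem D habel hτ (hL a ha)

/-- **field `C_inv`** -/
theorem C_inv (habel : ∀ a b : Γ, ⁅a, b⁆ ∈ η.ker) {t : D.S} {τ : (Fin k → ℤ) → D.S}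
    (hτ : ∀ w, τ w ∈ (expS D habel).C t) {m : ℕ} {c : D.S}
    (hc : c ∈ CBall D.nm (W D.AdE t 0 : Set D.R.V) D.ex τ m) (r : ℝ) :
    ∀ v ∈ W D.AdE t r, D.AdE c v ∈ W D.AdE t r :=
  (expS D habel).C_inv (CBall_le_C D habel hτ hc) r

/-- `C_le` on the neutral space -/
theorem C_le_zero (habel : ∀ a b : Γ, ⁅a, b⁆ ∈ η.ker) {t : D.S} (hs : Sep D.AdE t)
    {τ : (Fin k → ℤ) → D.S} (hτ : ∀ w, τ w ∈ (expS D habel).C t) :
    ∃ (C : ℝ) (e : ℕ), 0 ≤ C ∧ ∀ m : ℕ, ∀ c ∈ CBall D.nm (W D.AdE t 0 : Set D.R.V) D.ex τ m,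
      ∀ v ∈ W D.AdE t 0, D.nm (D.AdE c v) ≤ C * (1 + m) ^ e * D.nm v := by
  by_cases h0 : W D.AdE t 0 = ⊥
  · refine ⟨0, 0, le_rfl, fun m c _ v hv => ?_⟩
    rw [h0, Submodule.mem_bot] at hv
    subst hv
    simp
  · obtain ⟨b, hb, hbt⟩ := (expS D habel).exists_weight t h0
    have hb0 : b = 0 := hs.1 b hb hbt
    obtain ⟨C, e, hC, h1⟩ := C_le_one D habel hs hτ (0 : Z1.Ht k →L[ℝ] ℝ) hb (by
      intro c
      rw [hb0]; rfl)
    refine ⟨C, e, hC, fun m c hc v hv => ?_⟩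
    have := h1 m c hc v hv
    simpa using this

/-- **field `C_ker`** -/
theorem C_ker (habel : ∀ a b : Γ, ⁅a, b⁆ ∈ η.ker) {t : D.S} (hs : Sep D.AdE t)
    {τ : (Fin k → ℤ) → D.S} (hτ : ∀ w, τ w ∈ (expS D habel).C t)
    (η_τ : ∀ w, D.θ η (τ w) = Multiplicative.ofAdd w) :
    ∃ (C : ℝ) (e : ℕ), 0 ≤ C ∧ ∀ m : ℕ, ∀ c ∈ CBall D.nm (W D.AdE t 0 : Set D.R.V) D.ex τ m,
      D.θ η c = 1 → ∃ v ∈ W D.AdE t 0, D.ex v = c ∧ D.nm v ≤ C * (1 + m) ^ e := by
  obtain ⟨C, e, hC, hle⟩ := C_le_zero D habel hs hτ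
  obtain ⟨C', e', hC', hlist⟩ := D.ex_list_bound
  exact ker_poly D.ex_injective D.ex_AdE D.θ_ex η_τ hτ
    (fun c hc h => C_ker_mem D habel hc h) (fun m c hc v hv => C_inv D habel hτ hc 0 v hv)
    hC hle hC'.le hlist (fun v hv => (expS D habel).E_mem_C hv)

/-- exponentials of neutral vectors are words -/
theorem ex_mem_CBall_ceil {t : D.S} {τ : (Fin k → ℤ) → D.S} {v : D.R.V} (hv : v ∈ W D.AdE t 0)
    {m : ℕ} (hm : D.nm v ≤ m) : D.ex v ∈ CBall D.nm (W D.AdE t 0 : Set D.R.V) D.ex τ m := by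
  rcases Nat.eq_zero_or_pos m with rfl | hm0
  · have h1 : D.nm v = 0 := le_antisymm (by simpa using hm) (apply_nonneg D.nm _)
    rw [D.nm_zero v h1, D.ex_zero]
    exact one_mem_CBall _
  · have hm0' : (0 : ℝ) < m := by exact_mod_cast hm0
    have h1 : D.ex v = (D.ex ((m : ℝ)⁻¹ • v)) ^ m := by
      change D.inN (D.R.Ex v) = (D.inN (D.R.Ex _)) ^ m
      rw [← map_pow, ← D.R.Ex_nsmul, smul_smul, mul_inv_cancel₀ hm0'.ne', one_smul]
    have h2 : D.ex ((m : ℝ)⁻¹ • v) ∈ CBall D.nm (W D.AdE t 0 : Set D.R.V) D.ex τ 1 := by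
      refine ex_mem_CBall (Submodule.smul_mem _ _ hv) ?_
      rw [map_smul_eq_mul, norm_inv, Real.norm_natCast, inv_mul_le_iff₀ hm0', mul_one]
      exact hm
    rw [h1]
    have h3 := list_mem_CBall (L := List.replicate m (D.ex ((m : ℝ)⁻¹ • v)))
      (fun a ha => by rw [List.eq_of_mem_replicate ha]; exact h2)
    rwa [List.prod_replicate, List.length_replicate] at h3

/-- elements of the Cartan group are words -/
theorem exists_CBall (habel : ∀ a b : Γ, ⁅a, b⁆ ∈ η.ker) {t : D.S} {τ : (Fin k → ℤ) → D.S}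
    (hτ : ∀ w, τ w ∈ (expS D habel).C t) (η_τ : ∀ w, D.θ η (τ w) = Multiplicative.ofAdd w)
    (hCB : ∀ w, ∃ m, τ w ∈ CBall D.nm (W D.AdE t 0 : Set D.R.V) D.ex τ m) {c : D.S}
    (hc : c ∈ (expS D habel).C t) : ∃ m, c ∈ CBall D.nm (W D.AdE t 0 : Set D.R.V) D.ex τ m := by
  set w := Multiplicative.toAdd (D.θ η c) with hw
  obtain ⟨v, hv, hvc⟩ := C_ker_mem D habel (c := c * (τ w)⁻¹)
    (Subgroup.mul_mem _ hc (Subgroup.inv_mem _ (hτ w))) (by
      rw [map_mul, map_inv, η_τ, hw, ofAdd_toAdd, mul_inv_cancel])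
  obtain ⟨m, hm⟩ := hCB w
  obtain ⟨m', hm'⟩ := exists_nat_ge (D.nm v)
  refine ⟨m' + m, ?_⟩
  have : c = D.ex v * τ w := by rw [hvc]; group
  rw [this]
  exact mul_mem_CBall (ex_mem_CBall_ceil D hv hm') hm

/-- linear neutral projection -/
theorem exists_proj (t : D.S) : ∃ π : D.R.V →ₗ[ℝ] D.R.V, (∀ v, π v ∈ W D.AdE t 0) ∧
    ∀ v, v - π v ∈ eId D.AdE t := by
  classical
  let e : Submodule ℝ D.R.V := (eId D.AdE t).toSubmodule
  let f : (W D.AdE t 0) →ₗ[ℝ] (D.R.V ⧸ e) := e.mkQ.comp (W D.AdE t 0).subtype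
  have hf : Function.Surjective f := by
    intro y
    obtain ⟨x, rfl⟩ := e.mkQ_surjective y
    obtain ⟨x0, hx0, hx⟩ := exists_neutral_add D.AdE t x
    refine ⟨⟨x0, hx0⟩, ?_⟩
    change e.mkQ x0 = e.mkQ x
    rw [Submodule.mkQ_apply, Submodule.mkQ_apply, eq_comm, Submodule.Quotient.eq]
    exact hx
  obtain ⟨g, hg⟩ := f.exists_rightInverse_of_surjective (LinearMap.range_eq_top.2 hf)
  refine ⟨(W D.AdE t 0).subtype.comp (g.comp e.mkQ), fun v => (g (e.mkQ v)).2, fun v => ?_⟩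
  have h1 : e.mkQ ((g (e.mkQ v) : W D.AdE t 0) : D.R.V) = e.mkQ v :=
    LinearMap.congr_fun hg (e.mkQ v)
  rw [eq_comm, Submodule.mkQ_apply, Submodule.mkQ_apply, Submodule.Quotient.eq] at h1
  exact h1

/-- **field `dec`** -/
theorem dec (habel : ∀ a b : Γ, ⁅a, b⁆ ∈ η.ker) {F : Set Γ} (hF : F.Finite)
    (hgen : Subgroup.closure F = ⊤) {t : D.S} {τ : (Fin k → ℤ) → D.S}
    (hτ : ∀ w, τ w ∈ (expS D habel).C t) (η_τ : ∀ w, D.θ η (τ w) = Multiplicative.ofAdd w)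
    (hCB : ∀ w, ∃ m, τ w ∈ CBall D.nm (W D.AdE t 0 : Set D.R.V) D.ex τ m) :
    ∃ K : ℕ, ∀ s : D.S, ∃ v ∈ eId D.AdE t,
      ∃ c ∈ CBall D.nm (W D.AdE t 0 : Set D.R.V) D.ex τ (K * wl (D.U F) s), s = D.ex v * c := by
  have hF' : (F ∪ F⁻¹).Finite := hF.union hF.inv
  have heinv : ∀ g, ∀ x ∈ eId D.AdE t, D.AdE g x ∈ eId D.AdE t := (expS D habel).lrep.eId_inv t
  -- letters from `Γ`
  have h1 : ∀ f : Γ, ∃ m : ℕ, ∃ v ∈ eId D.AdE t,
      ∃ c ∈ CBall D.nm (W D.AdE t 0 : Set D.R.V) D.ex τ m, D.inΓ f = D.ex v * c := by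
    intro f
    obtain ⟨x, hx, hxC⟩ := (expS D habel).exists_mul_mem_C t (D.inΓ f)
    obtain ⟨m, hm⟩ := exists_CBall D habel hτ η_τ hCB hxC
    refine ⟨m, -x, neg_mem hx, _, hm, ?_⟩
    rw [(expS D habel).neg, inv_mul_cancel_left]
  choose m hm using h1
  obtain ⟨K1, hK1⟩ := (hF'.image m).bddAbove
  -- letters from the ball
  obtain ⟨π, hπ, hπe⟩ := exists_proj D t
  obtain ⟨K2, hK20, hK2⟩ := sem_dom D.nm D.nm_zero (D.nm.comp π)
  obtain ⟨K3, hK3⟩ := exists_nat_ge K2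
  have hgenr : ∀ z : D.S, (z ∈ D.U F ∨ z⁻¹ ∈ D.U F) → ∃ v ∈ eId D.AdE t,
      ∃ c ∈ CBall D.nm (W D.AdE t 0 : Set D.R.V) D.ex τ (K1 + K3), z = D.ex v * c := by
    intro z hz
    rcases D.mem_U hz with ⟨f, hf, rfl⟩ | ⟨v, hv, rfl⟩
    · obtain ⟨x, hx, c, hc, e⟩ := hm f
      refine ⟨x, hx, c, CBall_mono ?_ hc, e⟩
      exact (hK1 ⟨f, hf, rfl⟩).trans (Nat.le_add_right _ _)
    · obtain ⟨y, hy, he⟩ := (expS D habel).exists_left (eId D.AdE t) (π v) v (hπe v)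
      refine ⟨y, hy, D.ex (π v), CBall_mono (Nat.le_add_left K3 K1)
        (ex_mem_CBall_ceil D (hπ v) ?_), he⟩
      have h2 : D.nm (π v) ≤ K2 * D.nm v := hK2 v
      have h3 : D.nm v ≤ 1 := hv
      have h4 : 0 ≤ D.nm v := apply_nonneg D.nm _
      nlinarith
  refine ⟨K1 + K3, fun s => ?_⟩
  obtain ⟨L, e1, e2, e3⟩ := wl_list (D.closure_U hgen) s
  rw [← e1, ← e3]
  clear e1 e3
  induction L with
  | nil =>
    refine ⟨0, zero_mem _, 1, one_mem_CBall _, ?_⟩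
    rw [List.prod_nil, D.ex_zero, one_mul]
  | cons a L ih =>
    obtain ⟨v, hv, c, hc, e⟩ := ih fun b hb => e2 b (List.mem_cons_of_mem _ hb)
    obtain ⟨v', hv', c', hc', e'⟩ := hgenr a (e2 a List.mem_cons_self)
    obtain ⟨z, hz, hez⟩ := (expS D habel).mul_mem_ideal (eId D.AdE t) hv' (heinv c' v hv)
    refine ⟨z, hz, c' * c, ?_, ?_⟩
    · rw [List.length_cons, mul_add, mul_one, add_comm]
      exact mul_mem_CBall hc' hc
    · rw [List.prod_cons, e, e', ← hez, D.ex_AdE]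
      group

end conc

end Vale.Agent.P188.H796

end
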