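import Vale.Agent.P188.R.G030
import Vale.Agent.P188.R.G020
import Vale.Agent.P188.R.G071

/-!
The measure, the floor and the volume of balls for the real model `D.S` (block RM-c).
-/

open MeasureTheory MeasureTheory.Measure Topology Set Filter Vale.Agent.P188.H796
  Vale.Agent.P188.H615
open scoped ENNReal Pointwise

set_option linter.unusedSectionVars false

universe u v

namespace Vale.Agent.P188.H131

variable {Γ : Type u} [Group Γ] {N : Subgroup Γ} [hN : N.Normal] {d n : ℕ} (D : MB N d n)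

/-- Lebesgue measure on the Lie algebra -/
noncomputable def volV : Measure D.R.V := Measure.addHaar

instance : (volV D).IsAddHaarMeasure := by unfold volV; infer_instance

/-- Haar measure on the real group, the image of Lebesgue measure -/
noncomputable def haarK : Measure D.R.NR := muK D.R (volV D)

instance : IsHaarMeasure (haarK D) := isHaar_muK D.R (volV D)

/-- the measure on `S` -/
noncomputable def muD : Measure D.S := muS D.P (haarK D)

theorem continuous_α (g : Γ) : Continuous (D.P.α g) := D.continuous_actM _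

theorem lat_P : Lat (D.P.ι : N →* D.R.NR).range := lat_range D.R

instance [Countable Γ] : SFinite (muD D) := by unfold muD; infer_instance

theorem muD_right [Countable Γ] (s : D.S) :
    MeasurePreserving (fun x : D.S => x * s) (muD D) (muD D) :=
  haar_mp_right D.P (lat_P D) (continuous_α D) (haarK D) s

theorem muD_left [Countable Γ] (s : D.S) :
    MeasurePreserving (fun x : D.S => s * x) (muD D) (muD D) :=
  measurePreserving_left D.P (haarK D) s

theorem ex_eq_gk (v : D.R.V) : D.ex v = gk D.P 1 (D.R.Ex v) := by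
  unfold gk
  rw [map_one, one_mul]; rfl

theorem inK_eq_gk (k : D.R.NR) : D.inN k = gk D.P 1 k := by
  unfold gk
  rw [map_one, one_mul]

theorem countable_of_gen {F : Set Γ} (hF : F.Finite) (hgen : Subgroup.closure F = ⊤) :
    Countable Γ := by
  have hF' : (F ∪ F⁻¹).Finite := hF.union hF.inv
  have : Countable ↥(F ∪ F⁻¹) := hF'.countable
  have hs : Function.Surjective (fun l : List ↥(F ∪ F⁻¹) => (l.map Subtype.val).prod) := by
    intro x
    obtain ⟨l, -, h2, h3⟩ := wl_list hgen x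
    have h4 : ∀ a ∈ l, a ∈ F ∪ F⁻¹ := fun a ha => h2 a ha
    refine ⟨l.attach.map fun a => ⟨a.1, h4 a.1 a.2⟩, ?_⟩
    show ((l.attach.map fun a => (⟨a.1, h4 a.1 a.2⟩ : ↥(F ∪ F⁻¹))).map Subtype.val).prod = x
    rw [List.map_map]
    have : (Subtype.val ∘ fun a : {a // a ∈ l} => (⟨a.1, h4 a.1 a.2⟩ : ↥(F ∪ F⁻¹))) =
      Subtype.val := rfl
    rw [this, List.attach_map_subtype_val, h3]
  exact hs.countable

/-- finitely many lattice points in a compact set -/
theorem finite_ι {C : Set D.R.NR} (hC : IsCompact C) : {y : N | D.R.ι y ∈ C}.Finite := by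
  have hb : ∃ M : ℕ, ∀ s ∈ C, ∀ i, |s i| ≤ M := by
    have hci : ∀ i : Fin d, Continuous (fun s : D.R.NR => s i) := fun i =>
      (continuous_apply i : Continuous (fun s : Fin d → ℝ => s i))
    have h0 : ∀ i : Fin d, ∃ M : ℝ, ∀ s ∈ C, |s i| ≤ M := by
      intro i
      obtain ⟨M, hM⟩ := (hC.image (hci i)).isBounded.exists_norm_le
      exact ⟨M, fun s hs => hM (s i) ⟨s, hs, rfl⟩⟩
    choose M hM using h0
    refine ⟨⌈∑ i, |M i|⌉₊, fun s hs i => ?_⟩
    have h2 : |M i| ≤ ∑ i, |M i| :=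
      Finset.single_le_sum (f := fun i => |M i|) (fun i _ => abs_nonneg _) (Finset.mem_univ i)
    exact (hM i s hs).trans ((le_abs_self _).trans (h2.trans (Nat.le_ceil _)))
  obtain ⟨M, hM⟩ := hb
  have hinj : Function.Injective (fun y : N => fun i => D.c i y) := by
    intro y z h
    rw [← D.prod_c y, ← D.prod_c z]
    have h' : ∀ i, D.c i y = D.c i z := fun i => congrFun h i
    simp only [h']
  refine Set.Finite.of_finite_image (f := fun y : N => fun i => D.c i y) ?_ hinj.injOn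
  refine (Set.Finite.pi' (ι := Fin d) (t := fun _ => Set.Icc (-(M : ℤ)) M) fun _ =>
    Set.finite_Icc _ _).subset ?_
  rintro _ ⟨y, hy, rfl⟩ i
  have h1 := hM _ hy i
  have h2 : |((D.c i y : ℤ) : ℝ)| ≤ M := h1
  have h3 : |D.c i y| ≤ (M : ℤ) := by exact_mod_cast h2
  exact abs_le.1 h3

theorem exists_F [Countable N] : ∃ F : Set D.R.NR, FundK D.P F ∧ ∃ C, IsCompact C ∧ F ⊆ C :=
  exists_fundK D.P (lat_P D)

variable {D}

/-- the floor of a compact set of `K` is finite -/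
theorem finite_fl {F : Set D.R.NR} (hF : FundK D.P F) {C : Set D.R.NR} (hC : IsCompact C)
    (hFC : F ⊆ C) (g : Γ) {C' : Set D.R.NR} (hC' : IsCompact C') :
    ((hF.fl) '' (gk D.P g '' C')).Finite := by
  have h1 : IsCompact (C * C'⁻¹) := hC.mul hC'.inv
  have h2 := finite_ι D h1
  refine (h2.image fun n : N => g * (n⁻¹ : N)).subset ?_
  rintro _ ⟨_, ⟨k, hk, rfl⟩, rfl⟩
  obtain ⟨n, hn, -⟩ := hF.ex k
  refine ⟨n, ?_, ?_⟩
  · refine ⟨D.P.ι n * k, hFC hn, k⁻¹, Set.inv_mem_inv.2 hk, ?_⟩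
    show D.P.ι n * k * k⁻¹ = D.R.ι n
    rw [mul_inv_cancel_right]; rfl
  · have h3 : gk D.P g k = gk D.P (g * (n⁻¹ : N)) (D.P.ι n * k) := by
      rw [gk_mul, ← mul_assoc, ← map_mul, inv_mul_cancel, map_one, one_mul]
    rw [h3, hF.fl_gk _ hn]

/-- **cocycle of the floor** -/
theorem fl_mul_eq {F : Set D.R.NR} (hF : FundK D.P F) (s a : D.S) :
    hF.fl (s * a) = hF.fl s * hF.fl (D.inN (hF.fr s) * a) := by
  rw [← hF.fl_inG_mul, ← mul_assoc]
  congr 2
  exact (hF.eq s).symm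

theorem finite_letters {F : Set D.R.NR} (hF : FundK D.P F) {C : Set D.R.NR} (hC : IsCompact C)
    (hFC : F ⊆ C) (T : Finset D.S) (ρ : ℝ) :
    {γ : Γ | ∃ k ∈ F, ∃ a : D.S, (a ∈ T ∨ ∃ v : D.R.V, ‖(v : D.Alg)‖ ≤ ρ ∧ D.ex v = a) ∧
      hF.fl (D.inN k * a) = γ}.Finite := by
  have hK : IsCompact {v : D.R.V | ‖(v : D.Alg)‖ ≤ ρ} := by
    have : {v : D.R.V | ‖(v : D.Alg)‖ ≤ ρ} = Metric.closedBall 0 ρ := by
      ext v
      rw [mem_closedBall_zero_iff]; rfl
    rw [this]; exact isCompact_closedBall _ _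
  have h1 : ∀ a : D.S, {γ : Γ | ∃ k ∈ F, hF.fl (D.inN k * a) = γ}.Finite := by
    intro a
    obtain ⟨g, k', rfl⟩ := exists_gk D.P a
    have hc : IsCompact ((fun k => D.P.α g⁻¹ k * k') '' C) :=
      hC.image ((continuous_α D g⁻¹).mul continuous_const)
    refine (finite_fl hF hC hFC g hc).subset ?_
    rintro _ ⟨k, hk, rfl⟩
    refine ⟨_, ⟨_, ⟨k, hFC hk, rfl⟩, rfl⟩, ?_⟩
    have : D.inN k * gk D.P g k' = gk D.P g (D.P.α g⁻¹ k * k') := inK_mul_gk D.P g k k'
    rw [this]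
  have h2 : {γ : Γ | ∃ k ∈ F, ∃ v : D.R.V, ‖(v : D.Alg)‖ ≤ ρ ∧
      hF.fl (D.inN k * D.ex v) = γ}.Finite := by
    have hc : IsCompact (C * (D.R.Ex '' {v : D.R.V | ‖(v : D.Alg)‖ ≤ ρ})) :=
      hC.mul (hK.image D.R.continuous_Ex)
    refine (finite_fl hF hC hFC 1 hc).subset ?_
    rintro _ ⟨k, hk, v, hv, rfl⟩
    refine ⟨_, ⟨_, ⟨k, hFC hk, D.R.Ex v, ⟨v, hv, rfl⟩, rfl⟩, rfl⟩, ?_⟩
    congr 1
    rw [← inK_eq_gk, map_mul]; rfl
  refine ((T.finite_toSet.biUnion fun a _ => h1 a).union h2).subset ?_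
  rintro γ ⟨k, hk, a, ha, rfl⟩
  rcases ha with ha | ⟨v, hv, rfl⟩
  · exact Or.inl (mem_biUnion ha ⟨k, hk, rfl⟩)
  · exact Or.inr ⟨k, hk, v, hv, rfl⟩

theorem exists_ofFn {α : Type*} {G0 : Finset α} (m : ℕ) (w : List α) (hw : w.length = m)
    (h : ∀ x ∈ w, x ∈ G0) : ∃ f : Fin m → α, (∀ i, f i ∈ G0) ∧ List.ofFn f = w := by
  subst hw
  exact ⟨w.get, fun i => h _ (List.get_mem _ _), List.ofFn_get w⟩

/-- **volume of balls** -/
theorem ball_lt [Countable Γ] {l : D.S → ℕ} {T : Finset D.S} {ρ : ℝ} (hl : Lt D l T ρ) :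
    ∃ C : ℝ, 0 ≤ C ∧ ∀ R : ℕ, muD D {x | l x ≤ R} ≤ ENNReal.ofReal (Real.exp (C * (R + 1))) := by
  classical
  obtain ⟨F, hF, C, hC, hFC⟩ := exists_F D
  have hfin := finite_letters hF hC hFC T ρ
  set G0 : Finset Γ := insert 1 (insert (hF.fl 1) hfin.toFinset) with hG0
  have hmem : ∀ (L : List D.S), (∀ x ∈ L, x ∈ T ∨ ∃ v : D.R.V, ‖(v : D.Alg)‖ ≤ ρ ∧ D.ex v = x) →
      ∃ w : List Γ, w.length = L.length + 1 ∧ (∀ x ∈ w, x ∈ G0) ∧ w.prod = hF.fl L.prod := by
    intro L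
    induction L using List.reverseRecOn with
    | nil =>
      intro _
      exact ⟨[hF.fl 1], rfl, by simp [hG0], by simp⟩
    | append_singleton L a ih =>
      intro h
      obtain ⟨w, hw1, hw2, hw3⟩ := ih fun x hx => h x (List.mem_append_left _ hx)
      refine ⟨w ++ [hF.fl (D.inN (hF.fr L.prod) * a)], by simp [hw1], ?_, ?_⟩
      · intro x hx
        rcases List.mem_append.1 hx with hx | hx
        · exact hw2 x hx
        · rw [List.mem_singleton] at hx
          subst hx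
          rw [hG0]
          refine Finset.mem_insert_of_mem (Finset.mem_insert_of_mem (hfin.mem_toFinset.2 ?_))
          exact ⟨_, hF.fr_mem _, a, h a (by simp), rfl⟩
      · rw [List.prod_append, List.prod_singleton, hw3, List.prod_append, List.prod_singleton]
        exact (fl_mul_eq hF _ _).symm
  have hcov : ∀ R : ℕ, {x : D.S | l x ≤ R} ⊆
      ⋃ w ∈ (Fintype.piFinset fun _ : Fin (R + 1) => G0), gk D.P (List.ofFn w).prod '' F := by
    intro R x hx
    obtain ⟨L, hL1, hL2, rfl⟩ := hl.word x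
    obtain ⟨w, hw1, hw2, hw3⟩ := hmem L hL2
    have hx' : l L.prod ≤ R := hx
    have hlen : w.length ≤ R + 1 := by omega
    let w' : List Γ := w ++ List.replicate (R + 1 - w.length) 1
    have hw' : w'.length = R + 1 := by simp [w']; omega
    have hp : w'.prod = hF.fl L.prod := by simp [w', hw3]
    have hm : ∀ x ∈ w', x ∈ G0 := by
      intro x hx
      rcases List.mem_append.1 hx with hx | hx
      · exact hw2 x hx
      · rw [List.eq_of_mem_replicate hx, hG0]
        exact Finset.mem_insert_self _ _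
    rw [mem_iUnion₂]
    obtain ⟨f, hf1, hf2⟩ := exists_ofFn (R + 1) w' hw' hm
    refine ⟨f, Fintype.mem_piFinset.2 hf1, ?_⟩
    rw [hf2, hp]
    exact ⟨hF.fr L.prod, hF.fr_mem _, hF.eq _⟩
  have hμF : haarK D F ≠ ⊤ := ((measure_mono hFC).trans_lt hC.measure_lt_top).ne
  have hcard : 1 ≤ (G0.card : ℝ) := by
    have : 0 < G0.card := Finset.card_pos.2 ⟨1, Finset.mem_insert_self _ _⟩
    exact_mod_cast this
  set a : ℝ := (haarK D F).toReal + 1 with ha
  have ha1 : 1 ≤ a := by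
    have : 0 ≤ (haarK D F).toReal := ENNReal.toReal_nonneg
    linarith
  refine ⟨Real.log G0.card + Real.log a, add_nonneg (Real.log_nonneg hcard) (Real.log_nonneg ha1),
    fun R => ?_⟩
  calc muD D {x | l x ≤ R} ≤ ∑ w ∈ (Fintype.piFinset fun _ : Fin (R + 1) => G0),
        muD D (gk D.P (List.ofFn w).prod '' F) :=
        (measure_mono (hcov R)).trans (measure_biUnion_finset_le _ _)
    _ = ∑ w ∈ (Fintype.piFinset fun _ : Fin (R + 1) => G0), haarK D F := by
        refine Finset.sum_congr rfl fun w _ => ?_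
        exact muS_image D.P (haarK D) hF.meas _
    _ = (G0.card ^ (R + 1) : ℕ) * haarK D F := by
        rw [Finset.sum_const, Fintype.card_piFinset, Finset.prod_const, Finset.card_univ,
          Fintype.card_fin, nsmul_eq_mul]
    _ ≤ ENNReal.ofReal ((G0.card : ℝ) ^ (R + 1)) * ENNReal.ofReal (a ^ (R + 1)) := by
        refine mul_le_mul' (le_of_eq ?_) ?_
        · rw [ENNReal.ofReal_pow (by positivity), ENNReal.ofReal_natCast]; push_cast; rfl
        · rw [← ENNReal.ofReal_toReal hμF]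
          refine ENNReal.ofReal_le_ofReal ?_
          calc (haarK D F).toReal ≤ a := by linarith
            _ ≤ a ^ (R + 1) := le_self_pow₀ ha1 (by omega)
    _ = ENNReal.ofReal (Real.exp ((Real.log G0.card + Real.log a) * (R + 1))) := by
        rw [← ENNReal.ofReal_mul (by positivity), ← mul_pow]
        congr 1
        rw [← Real.log_mul (by positivity) (by positivity), mul_comm (Real.log _)]
        have : Real.exp (((R : ℝ) + 1) * Real.log (G0.card * a)) =
            Real.exp (Real.log (G0.card * a)) ^ (R + 1) := by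
          rw [← Real.exp_nat_mul]; push_cast; rfl
        rw [this, Real.exp_log (by positivity)]

/-- length on a relatively compact subset of `K` -/
theorem len_compact {l : D.S → ℕ} {T : Finset D.S} {ρ : ℝ} (hl : Lt D l T ρ)
    {C : Set D.R.NR} (hC : IsCompact C) : ∃ B : ℕ, ∀ k ∈ C, l (D.inN k) ≤ B := by
  obtain ⟨C1, hC1⟩ := hl.short
  have h1 : IsCompact (D.R.Lo '' C) := hC.image D.R.continuous_Lo
  obtain ⟨M, hM⟩ := h1.isBounded.exists_norm_le
  refine ⟨(⌈M⌉₊ + 1) * C1, fun k hk => ?_⟩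
  set v := D.R.Lo k with hv
  have hvn : ‖(v : D.Alg)‖ ≤ ⌈M⌉₊ + 1 := by
    have h2 : ‖v‖ ≤ M := hM v ⟨k, hk, rfl⟩
    have h3 : ‖(v : D.Alg)‖ = ‖v‖ := rfl
    rw [h3]
    linarith [Nat.le_ceil M]
  obtain ⟨m, hm⟩ : ∃ m : ℕ, m = ⌈M⌉₊ + 1 := ⟨_, rfl⟩
  have hm0 : (0 : ℝ) < m := by rw [hm]; positivity
  have h4 : D.inN k = D.ex ((m : ℝ)⁻¹ • v) ^ m := by
    have h5 : ∀ j : ℕ, D.R.Ex ((m : ℝ)⁻¹ • v) ^ j = D.R.Ex (((j : ℝ) * (m : ℝ)⁻¹) • v) := by
      intro j
      induction j with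
      | zero => simp [D.R.Ex_zero]
      | succ j ih =>
        rw [pow_succ, ih, Nat.cast_add, Nat.cast_one, add_mul, one_mul, D.R.Ex_add]
    have h6 := h5 m
    rw [mul_inv_cancel₀ hm0.ne', one_smul, hv, D.R.Ex_Lo] at h6
    show D.inN k = (D.inN (D.R.Ex ((m : ℝ)⁻¹ • v))) ^ m
    rw [← map_pow, h6]
  rw [h4, ← hm]
  have h7 := hl.sub.pow (D.ex ((m : ℝ)⁻¹ • v)) m
  rw [hl.one, zero_add] at h7
  refine h7.trans (Nat.mul_le_mul_left _ (hC1 _ ?_))
  rw [Submodule.coe_smul, norm_smul, norm_inv, Real.norm_of_nonneg hm0.le, inv_mul_le_iff₀ hm0,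
    mul_one, hm]
  push_cast
  exact hvn

theorem ball_pos [Countable Γ] {l : D.S → ℕ} {T : Finset D.S} {ρ : ℝ} (hl : Lt D l T ρ) :
    ∃ C1 : ℕ, ∀ R : ℕ, C1 ≤ R → muD D {x | l x ≤ R} ≠ 0 := by
  obtain ⟨C1, hC1⟩ := hl.short
  refine ⟨C1, fun R hR => ?_⟩
  have ho : IsOpen (D.R.Lo ⁻¹' (Metric.ball (0 : D.R.V) 1)) :=
    Metric.isOpen_ball.preimage D.R.continuous_Lo
  have h1 : haarK D (D.R.Lo ⁻¹' (Metric.ball (0 : D.R.V) 1)) ≠ 0 :=
    ho.measure_ne_zero _ ⟨1, by rw [mem_preimage, Lo_one]; simp⟩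
  rw [← muS_image D.P (haarK D) ho.measurableSet 1] at h1
  intro h0
  refine h1 (measure_mono_null ?_ h0)
  rintro _ ⟨k, hk, rfl⟩
  have h2 : gk D.P 1 k = D.ex (D.R.Lo k) := by rw [ex_eq_gk, D.R.Ex_Lo]
  show l (gk D.P 1 k) ≤ R
  rw [h2]
  refine (hC1 _ ?_).trans hR
  have h3 : ‖D.R.Lo k‖ < 1 := mem_ball_zero_iff.1 hk
  exact h3.le

theorem measurable_ex : Measurable (D.ex : D.R.V → D.S) := by
  have : (D.ex : D.R.V → D.S) = fun v => gk D.P 1 (D.R.Ex v) := by
    funext v; exact ex_eq_gk D v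
  rw [this]
  exact (measurable_gk D.P 1).comp D.R.continuous_Ex.measurable

theorem measurable_α (g : Γ) : Measurable (D.P.α g) := (continuous_α D g).measurable

theorem gk_mul_gk (g g' : Γ) (k k' : D.R.NR) :
    gk D.P g k * gk D.P g' k' = gk D.P (g * g') (D.P.α g'⁻¹ k * k') := by
  rw [← gk_mul_inK, ← gk_mul_inG, mul_assoc]; rfl

theorem mm_aux [Countable Γ] (g : Γ) :
    Measurable fun p : D.S × D.R.NR => gk D.P g p.2 * p.1 := by
  obtain ⟨F, hF, -⟩ := exists_F D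
  refine measurable_S_prod D.P hF (f := fun p : D.S × D.R.NR => gk D.P g p.2 * p.1) fun g' => ?_
  have h : (fun p : D.R.NR × D.R.NR => gk D.P g p.2 * gk D.P g' p.1) =
      fun p : D.R.NR × D.R.NR => gk D.P (g * g') (D.P.α g'⁻¹ p.2 * p.1) := by
    funext p
    exact gk_mul_gk g g' _ _
  rw [h]
  have h2 : Measurable fun p : D.R.NR × D.R.NR => D.P.α g'⁻¹ p.2 * p.1 :=
    (((continuous_α D g'⁻¹).comp continuous_snd).mul continuous_fst).measurable
  exact (measurable_gk D.P _).comp h2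

theorem mm_aux2 [Countable Γ] (g : Γ) :
    Measurable fun p : D.R.NR × D.S => gk D.P g p.1 * p.2 := by
  have h1 : Measurable fun p : D.R.NR × D.S => (p.2, p.1) := measurable_snd.prodMk measurable_fst
  exact Measurable.comp (g := fun p : D.S × D.R.NR => gk D.P g p.2 * p.1)
    (f := fun p : D.R.NR × D.S => (p.2, p.1)) (mm_aux g) h1

theorem mm_aux3 [Countable Γ] : Measurable fun p : D.S × D.S => p.1 * p.2 := by
  obtain ⟨F, hF, -⟩ := exists_F D
  exact measurable_S_prod D.P hF (f := fun p : D.S × D.S => p.1 * p.2) fun g => mm_aux2 g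

theorem mm [Countable Γ] : MeasurableMul₂ D.S := ⟨mm_aux3⟩

theorem mi : MeasurableInv D.S := by
  refine ⟨(measurable_S D.P).2 fun g => ?_⟩
  have : (fun k : D.R.NR => (gk D.P g k)⁻¹) = fun k => gk D.P g⁻¹ (D.P.α g k⁻¹) := by
    funext k
    have h1 : (gk D.P g k)⁻¹ = D.P.inK k⁻¹ * gk D.P g⁻¹ 1 := by
      unfold gk
      rw [mul_inv_rev, map_inv, map_inv, map_one, mul_one]
    rw [h1, inK_mul_gk, inv_inv, mul_one]
  rw [this]
  exact (measurable_gk D.P _).comp ((measurable_α g).comp measurable_inv)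

/-- joint measurability of right translations along one parameter groups -/
theorem ex_meas [Countable Γ] (v : D.R.V) :
    Measurable fun q : D.S × ℝ => q.1 * D.ex (q.2 • v) := by
  obtain ⟨F, hF, -⟩ := exists_F D
  refine measurable_S_prod D.P hF fun g => ?_
  have : (fun p : D.R.NR × ℝ => gk D.P g p.1 * D.ex (p.2 • v)) =
      fun p : D.R.NR × ℝ => gk D.P g (p.1 * D.R.Ex (p.2 • v)) := by
    funext p
    exact gk_mul_inK D.P g _ _
  rw [this]
  refine (measurable_gk D.P g).comp (Continuous.measurable ?_)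
  exact continuous_fst.mul (D.R.continuous_Ex.comp (continuous_snd.smul continuous_const))

section model

variable {k : ℕ} {η : Γ →* Multiplicative (Fin k → ℤ)} {D : MB η.ker d n}

theorem θ_gk (g : Γ) (x : D.R.NR) : D.θ η (gk D.P g x) = η g := by
  have : gk D.P g x = D.inΓ g * D.inN x := rfl
  rw [this, map_mul, D.θ_inN, D.θ_inΓ, mul_one]

theorem η_meas (w : Multiplicative (Fin k → ℤ)) : MeasurableSet {x : D.S | D.θ η x = w} := by
  rw [measurableSet_S]
  intro g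
  by_cases h : η g = w
  · convert MeasurableSet.univ
    ext x
    simp only [mem_preimage, mem_ofPred_eq, θ_gk, h, mem_univ]
  · convert MeasurableSet.empty
    ext x
    simp only [mem_preimage, mem_ofPred_eq, θ_gk, h, mem_empty_iff_false]

/-- **RM-c**: the measure, the floor and the volume of balls. -/
structure PartC (D : MB η.ker d n) (l : D.S → ℕ) (fl : D.S → Γ) (C : ℝ) : Prop where
  one_le : 1 ≤ C
  sfin : SFinite (muD D)
  mp : ∀ w : D.S, MeasurePreserving (fun x => x * w) (muD D) (muD D)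
  mpl : ∀ w : D.S, MeasurePreserving (fun x => w * x) (muD D) (muD D)
  ball_pos : muD D {x | l x ≤ 2} ≠ 0
  ball_lt : ∀ R : ℕ, muD D {x | l x ≤ R} ≤ ENNReal.ofReal (Real.exp (C * (R + 1)))
  η_meas : ∀ w, MeasurableSet {x : D.S | D.θ η x = w}
  fl_mul : ∀ g z, fl (D.inΓ g * z) = g * fl z
  fl_meas : ∀ g, MeasurableSet (fl ⁻¹' {g})
  fl_close : ∀ z, (l ((D.inΓ (fl z))⁻¹ * z) : ℝ) ≤ C
  ex_meas : ∀ v, Measurable fun q : D.S × ℝ => q.1 * D.ex (q.2 • v)

theorem PartC.mono {l : D.S → ℕ} {fl : D.S → Γ} {C C' : ℝ} (h : PartC D l fl C) (hC : C ≤ C') :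
    PartC D l fl C' where
  one_le := h.one_le.trans hC
  sfin := h.sfin
  mp := h.mp
  mpl := h.mpl
  ball_pos := h.ball_pos
  ball_lt R := (h.ball_lt R).trans (ENNReal.ofReal_le_ofReal (Real.exp_le_exp.2
    (mul_le_mul_of_nonneg_right hC (by positivity))))
  η_meas := h.η_meas
  fl_mul := h.fl_mul
  fl_meas := h.fl_meas
  fl_close z := (h.fl_close z).trans hC
  ex_meas := h.ex_meas

theorem ball_pos_wl {F : Set Γ} {R : ℕ} (hR : 1 ≤ R) : muD D {x | wl (D.U F) x ≤ R} ≠ 0 := by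
  have ho : IsOpen (D.R.Lo ⁻¹' (Metric.ball (0 : D.R.V) 1)) :=
    Metric.isOpen_ball.preimage D.R.continuous_Lo
  have h1 : haarK D (D.R.Lo ⁻¹' (Metric.ball (0 : D.R.V) 1)) ≠ 0 :=
    ho.measure_ne_zero _ ⟨1, by rw [mem_preimage, Lo_one]; simp⟩
  rw [← muS_image D.P (haarK D) ho.measurableSet 1] at h1
  intro h0
  refine h1 (measure_mono_null ?_ h0)
  rintro _ ⟨k, hk, rfl⟩
  have h2 : gk D.P 1 k = D.ex (D.R.Lo k) := by rw [ex_eq_gk, D.R.Ex_Lo]
  show wl (D.U F) (gk D.P 1 k) ≤ R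
  rw [h2]
  refine (wl_le_one (x := D.ex (D.R.Lo k)) (Or.inr ⟨D.R.Lo k, ?_, rfl⟩)).trans hR
  have h3 : ‖D.R.Lo k‖ < 1 := mem_ball_zero_iff.1 hk
  exact h3.le

/-- **block RM-c** -/
theorem exists_partC {F : Set Γ} (hF : F.Finite) (hgen : Subgroup.closure F = ⊤) :
    ∃ (fl : D.S → Γ) (C : ℝ), PartC D (wl (D.U F)) fl C := by
  have hcount : Countable Γ := countable_of_gen hF hgen
  obtain ⟨T, hl⟩ := lt_wl (D := D) hF hgen
  obtain ⟨C1, hC1, h1⟩ := ball_lt hl
  obtain ⟨F0, hF0, C, hC, hFC⟩ := exists_F D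
  obtain ⟨C3, h3⟩ := len_compact hl hC
  have n3 := Nat.cast_nonneg (α := ℝ) C3
  refine ⟨hF0.fl, 1 + C1 + C3, ⟨by linarith, inferInstance, muD_right D, muD_left D,
    ball_pos_wl (by norm_num), ?_, η_meas, hF0.fl_inG_mul, ?_, ?_, ex_meas⟩⟩
  · intro R
    refine (h1 R).trans (ENNReal.ofReal_le_ofReal (Real.exp_le_exp.2 ?_))
    have := Nat.cast_nonneg (α := ℝ) R
    gcongr
    linarith
  · intro g
    exact hF0.measurableSet_fl g
  · intro z
    have h4 : (D.inΓ (hF0.fl z))⁻¹ * z = D.inN (hF0.fr z) := by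
      rw [inv_mul_eq_iff_eq_mul]
      exact (hF0.eq z).symm
    rw [h4]
    have h5 : (wl (D.U F) (D.inN (hF0.fr z)) : ℝ) ≤ C3 := by
      exact_mod_cast h3 _ (hFC (hF0.fr_mem z))
    linarith

end model

end Vale.Agent.P188.H131
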