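import Vale.Agent.P188.R.G083
import Vale.Agent.P188.R.G071
import Vale.Agent.P188.R.G076

section

/-!
Block RM-d of the real model: exponential radical, logarithmic lengths, bounded generation,
universal relations, generating set of the lattice.
-/

open Finset Filter Topology Pointwise
open scoped commutatorElement

namespace Vale.Agent.P188.H615

open Vale.Agent.P188.H796 Vale.Agent.P188.H329 H131
open Vale.Agent.P188.H530 (hgt Mod exists_mod)
open Vale.Agent.P188.H789 (Bl)

theorem rpow_mono_bound {C C' x : ℝ} (hC : 0 ≤ C) (hCC : C ≤ C') (hx : 1 ≤ x) :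
    C * x ^ C ≤ C' * x ^ C' := by
  have h1 : x ^ C ≤ x ^ C' := Real.rpow_le_rpow_of_exponent_le hx hCC
  exact mul_le_mul hCC h1 (Real.rpow_nonneg (by linarith) _) (hC.trans hCC)

theorem pow_bound_rpow {K : ℕ} {C x : ℝ} (hK : (K : ℝ) ≤ C) (hx : 1 ≤ x) :
    (K : ℝ) * x ^ K ≤ C * x ^ C := by
  rw [← Real.rpow_natCast x K]
  exact rpow_mono_bound (Nat.cast_nonneg K) hK hx

section prod

variable {N : Type} [Group N] {d n : ℕ} {D : MB N d n} {A : Type} [NormedRing A]
  [NormedAlgebra ℝ A] [FiniteDimensional ℝ A] (R : RD D A)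

/-- polynomial growth of `N` -/
theorem coord_bound : ∃ C : ℕ, ∀ L : List N,
    (∀ x ∈ L, x ∈ Set.range D.b ∨ x⁻¹ ∈ Set.range D.b) → ∀ i,
      (D.c i L.prod).natAbs ≤ C * (L.length + 1) ^ R.m := by
  obtain ⟨C1, hC1, h1⟩ := R.exists_ι_bound (Set.range D.b) (Set.finite_range _)
  obtain ⟨C2, hC2, h2⟩ := R.exists_coord_bound
  refine ⟨⌈C2 * C1⌉₊, fun L hL i => ?_⟩
  have h3 := h2 (fun i => (D.c i L.prod : ℝ)) i
  have h4 : R.toA (fun i => (D.c i L.prod : ℝ)) = R.ρ L.prod := R.E_coord L.prod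
  rw [h4] at h3
  have h5 := h1 L hL
  have h6 : |((D.c i L.prod : ℤ) : ℝ)| ≤ ((⌈C2 * C1⌉₊ * (L.length + 1) ^ R.m : ℕ) : ℝ) := by
    refine h3.trans ((mul_le_mul_of_nonneg_left h5 hC2.le).trans ?_)
    push_cast
    rw [← mul_assoc, add_comm (1 : ℝ)]
    exact mul_le_mul_of_nonneg_right (Nat.le_ceil _) (by positivity)
  rw [← Int.cast_abs, Int.abs_eq_natAbs] at h6
  exact_mod_cast h6

include R in
theorem growth_N : ∃ C D' : ℕ, ∀ n, (Bl (Set.range D.b) n).Finite ∧
    (Bl (Set.range D.b) n).ncard ≤ C * (n + 1) ^ D' := by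
  obtain ⟨C, hC⟩ := coord_bound R
  refine ⟨(2 * C + 1) ^ d, R.m * d, fun n => ?_⟩
  set B : ℕ := C * (n + 1) ^ R.m with hB
  let bx : Finset (Fin d → ℤ) := Fintype.piFinset fun _ => Finset.Icc (-(B : ℤ)) B
  have hinj : Function.Injective fun (y : N) (i : Fin d) => D.c i y := by
    intro y y' h
    rw [← D.prod_c y, ← D.prod_c y']
    congr 2
    funext i
    have h1 : D.c i y = D.c i y' := congrFun h i
    rw [h1]
  have hsub : (fun (y : N) (i : Fin d) => D.c i y) '' Bl (Set.range D.b) n ⊆ (bx : Set _) := by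
    rintro _ ⟨y, ⟨L, h1, h2, rfl⟩, rfl⟩
    rw [Finset.mem_coe, Fintype.mem_piFinset]
    intro i
    have h3 := hC L h2 i
    have h4 : (D.c i L.prod).natAbs ≤ B := h3.trans
      (Nat.mul_le_mul_left _ (Nat.pow_le_pow_left (by omega) _))
    change D.c i L.prod ∈ Finset.Icc (-(B : ℤ)) B
    rw [Finset.mem_Icc]
    constructor <;> omega
  have hfin : (Bl (Set.range D.b) n).Finite :=
    Set.Finite.of_finite_image ((Finset.finite_toSet bx).subset hsub) hinj.injOn
  refine ⟨hfin, ?_⟩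
  rw [← Set.ncard_image_of_injective _ hinj]
  refine (Set.ncard_le_ncard hsub (Finset.finite_toSet _)).trans ?_
  rw [Set.ncard_coe_finset, Fintype.card_piFinset_const, Int.card_Icc]
  have h5 : ((B : ℤ) + 1 - -(B : ℤ)).toNat = 2 * B + 1 := by omega
  rw [h5]
  calc (2 * B + 1) ^ d ≤ ((2 * C + 1) * (n + 1) ^ R.m) ^ d := by
        refine Nat.pow_le_pow_left ?_ _
        have : 1 ≤ (n + 1) ^ R.m := Nat.one_le_pow _ _ (Nat.succ_pos _)
        rw [hB]; nlinarith
    _ = _ := by rw [mul_pow, ← pow_mul]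

end prod

section inst

variable {Γ : Type} [Group Γ] {k : ℕ} {η : Γ →* Multiplicative (Fin k → ℤ)} {d n : ℕ}
  {D : MB η.ker d n}

/-- the metric facts for any ideal with the properties of `LRep.main` -/
theorem met_of (hη : Function.Surjective η) {F : Set Γ} (hF : F.Finite)
    (hgen : Subgroup.closure F = ⊤) {e : LieIdeal ℝ D.R.V} (hinv : ∀ g, ∀ x ∈ e, D.AdE g x ∈ e)
    {F' : Set D.S} (hPF : ∀ x, x ∈ H269.PF D.AdE F' ↔ x ∈ e) : Met D (wl (D.U F)) e := by
  obtain ⟨C, hC, H⟩ := D.Ad_bound hF hgen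
  refine exists_met hη hF hgen ⟨C, hC.le, fun s v => (H s v).trans ?_⟩ hinv hPF
  refine mul_le_mul_of_nonneg_right (Real.exp_le_exp.2 ?_) (norm_nonneg _)
  nlinarith

/-- field `met_e` -/
theorem Met.met_e {l : D.S → ℕ} {e : LieIdeal ℝ D.R.V} (h : Met D l e) : ∃ C : ℝ, 0 ≤ C ∧
    ∀ C' : ℝ, C ≤ C' → ∀ v ∈ e, (l (D.ex v) : ℝ) ≤ C' * (1 + Real.log (1 + D.nm v)) := by
  obtain ⟨C, hC, H⟩ := h.up
  refine ⟨C, hC, fun C' hC' v hv => (H v hv).trans ?_⟩
  rw [D.nm_eq]
  refine mul_le_mul_of_nonneg_right hC' ?_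
  have := Real.log_nonneg (show 1 ≤ 1 + ‖(v : D.Alg)‖ by
    linarith [norm_nonneg (v : D.Alg)])
  linarith

/-- the exponential radical as a subgroup: fields `E`, `mem_E`, `E_normal` -/
theorem mem_ER_ex {e : LieIdeal ℝ D.R.V} (s : D.S) : s ∈ ER e ↔ ∃ v ∈ e, D.ex v = s := by
  rw [mem_ER]

/-- field `rel` -/
theorem relS {ι : Type} [Finite ι] (X : ι → D.R.V) (r : ι → ℝ) :
    Rel ι D.R.m fun i x => D.ex ((r i * x) • X i) :=
  ((relV (R := D.R) X).map D.inN).scale id r

/-- fields `gen_e`, `gen_N`: bounded generation by the letters with a given property -/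
theorem gen_field {ι : Type} [Finite ι] (X : ι → D.R.V) (p : ι → Prop) (W : Submodule ℝ D.R.V)
    (hW : ∀ v ∈ W, v ∈ LieSubalgebra.lieSpan ℝ D.R.V (X '' {i | p i})) :
    ∃ (m : ℕ) (J : Fin m → ι) (C : ℝ), (∀ t, p (J t)) ∧ 1 ≤ C ∧ ∀ C' : ℝ, C ≤ C' → ∀ v ∈ W,
      ∃ x : Fin m → ℝ, (∀ t, |x t| ≤ C' * (1 + D.nm v) ^ C') ∧
        D.ex v = (List.ofFn fun t => D.ex (x t • X (J t))).prod := by
  obtain ⟨m, J, K, H⟩ := genV (R := D.R) (fun i : {i // p i} => X i) W (by
    intro v hv
    have h1 : Set.range (fun i : {i // p i} => X i) = X '' {i | p i} := by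
      ext x
      constructor
      · rintro ⟨i, rfl⟩
        exact ⟨i, i.2, rfl⟩
      · rintro ⟨i, hi, rfl⟩
        exact ⟨⟨i, hi⟩, rfl⟩
    rw [h1]
    exact hW v hv)
  refine ⟨m, fun t => (J t : ι), K + 1, fun t => (J t).2,
    by linarith [(Nat.cast_nonneg K : (0 : ℝ) ≤ K)], fun C' hC' v hv => ?_⟩
  obtain ⟨x, hx1, hx2⟩ := H v hv
  refine ⟨x, fun t => (hx1 t).trans (pow_bound_rpow (by linarith) ?_), ?_⟩
  · have : 0 ≤ ‖(v : D.Alg)‖ := norm_nonneg _
    linarith
  · rw [MB.ex, hx2, map_list_prod, List.map_ofFn]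
    rfl

/-- fields `A`, `md`, `A_len`, `wordG` -/
theorem exists_A (hη : Function.Surjective η) {F : Set Γ} (hF : F.Finite)
    (hgen : Subgroup.closure F = ⊤) (F1 : Finset Γ) {F0 : Set D.R.NR}
    (h0 : FundK D.P F0) {C : Set D.R.NR} (hC : IsCompact C) (hFC : F0 ⊆ C) :
    ∃ A : Set Γ, (F1 : Set Γ) ⊆ A ∧ Nonempty (Mod (hgt ((D.θ η).comp D.inΓ)) A) ∧
      ∃ M : ℝ, 1 ≤ M ∧ ∀ M' : ℝ, M ≤ M' →
        (∀ a ∈ A, (wl (D.U F) (D.inΓ a) : ℝ) ≤ M') ∧
        ∀ g : Γ, g ∈ Bl A ⌈M' * (wl (D.U F) (D.inΓ g) + 1)⌉₊ := by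
  classical
  obtain ⟨C', D', hgr⟩ := growth_N (D := D) D.R
  set A0 : Set Γ := η.ker.subtype '' Set.range D.b with hA0
  have hA0f : A0.Finite := (Set.finite_range _).image _
  have hcl : Subgroup.closure A0 = η.ker := by
    rw [hA0, ← MonoidHom.map_closure, D.closure_b, ← MonoidHom.range_eq_map,
      Subgroup.range_subtype]
  have hgr' : ∀ m, (Bl A0 m).ncard ≤ C' * (m + 1) ^ D' := by
    intro m
    have h1 : Bl A0 m ⊆ η.ker.subtype '' Bl (Set.range D.b) m := by
      rintro _ ⟨L, hL1, hL2, rfl⟩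
      have h2 : ∃ L' : List η.ker, L'.length = L.length ∧
          (∀ a ∈ L', a ∈ Set.range D.b ∨ a⁻¹ ∈ Set.range D.b) ∧
          η.ker.subtype L'.prod = L.prod := by
        clear hL1
        induction L with
        | nil => exact ⟨[], rfl, by simp, by simp⟩
        | cons a L ih =>
          obtain ⟨L', h3, h4, h5⟩ := ih fun b hb => hL2 b (List.mem_cons_of_mem _ hb)
          rcases hL2 a List.mem_cons_self with ⟨y, hy, rfl⟩ | ⟨y, hy, hya⟩
          · refine ⟨y :: L', by simp [h3], ?_, by rw [List.prod_cons, map_mul, h5, List.prod_cons]⟩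
            intro b hb
            rcases List.mem_cons.1 hb with rfl | hb
            · exact Or.inl hy
            · exact h4 b hb
          · refine ⟨y⁻¹ :: L', by simp [h3], ?_, ?_⟩
            · intro b hb
              rcases List.mem_cons.1 hb with rfl | hb
              · right; rwa [inv_inv]
              · exact h4 b hb
            · rw [List.prod_cons, map_mul, h5, List.prod_cons, map_inv, hya, inv_inv]
      obtain ⟨L', h3, h4, h5⟩ := h2
      exact ⟨L'.prod, ⟨L', h3.le.trans hL1, h4, rfl⟩, h5⟩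
    refine (Set.ncard_le_ncard h1 ((hgr m).1.image _)).trans ?_
    exact (Set.ncard_image_le (hgr m).1).trans (hgr m).2
  obtain ⟨A, hA, ⟨Md⟩⟩ := exists_mod η hη hA0f hcl hgr' (F1 ∪ hF.toFinset)
  rw [Finset.coe_union, Set.Finite.coe_toFinset] at hA
  have hFA : F ⊆ A := fun x hx => hA (Or.inr hx)
  refine ⟨A, fun x hx => hA (Or.inl hx), ⟨by rw [D.hgt_comp]; exact Md⟩, ?_⟩
  obtain ⟨M1, q1, q2, q3, q4⟩ := D.qi hF hgen h0 hC hFC
  obtain ⟨M2, hM2⟩ := (Md.fin.image fun a => wl (D.U F) (D.inΓ a)).bddAbove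
  refine ⟨M1 + M2 + 1, ?_, fun M' hM' => ⟨fun a ha => ?_, fun g => ?_⟩⟩
  · have h1 : (0 : ℝ) ≤ M1 := Nat.cast_nonneg _
    have h2 : (0 : ℝ) ≤ M2 := Nat.cast_nonneg _
    linarith
  · have h1 : wl (D.U F) (D.inΓ a) ≤ M2 := hM2 ⟨a, ha, rfl⟩
    have h2 : (wl (D.U F) (D.inΓ a) : ℝ) ≤ M2 := by exact_mod_cast h1
    have h3 : (0 : ℝ) ≤ M1 := Nat.cast_nonneg _
    linarith
  · obtain ⟨L, e1, e2, e3⟩ := wl_list hgen g
    refine ⟨L, ?_, fun a ha => ?_, e3⟩
    · rw [e1]
      refine (q1 g).trans ?_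
      have h1 : ((M1 * (wl (D.U F) (D.inΓ g) + 1) : ℕ) : ℝ) ≤
          ⌈M' * (wl (D.U F) (D.inΓ g) + 1)⌉₊ := by
        refine le_trans ?_ (Nat.le_ceil _)
        push_cast
        have h2 : (0 : ℝ) ≤ M2 := Nat.cast_nonneg _
        refine mul_le_mul_of_nonneg_right (by linarith) (by positivity)
      exact_mod_cast h1
    · rcases e2 a ha with h | h
      · exact Or.inl (hFA h)
      · exact Or.inr (hFA h)

end inst

end Vale.Agent.P188.H615

end

section

/-!
Natural boxes of letters: bracket coordinates, weighted bounded generation, absorption.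
-/

open Finset Filter Topology Pointwise

namespace Vale.Agent.P188.H615

open Vale.Agent.P188.H796 Vale.Agent.P188.H329

section words

variable {ι : Type} [Fintype ι] [DecidableEq ι]

/-- words of length `k` -/
def wds (ι : Type) [Fintype ι] [DecidableEq ι] : ℕ → Finset (List ι)
  | 0 => {[]}
  | k + 1 => (univ ×ˢ wds ι k).image fun p : ι × List ι => p.1 :: p.2

theorem mem_wds {k : ℕ} {w : List ι} : w ∈ wds ι k ↔ w.length = k := by
  induction k generalizing w with
  | zero => simp [wds]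
  | succ k ih =>
    rw [wds, Finset.mem_image]
    constructor
    · rintro ⟨⟨i, w'⟩, h, rfl⟩
      rw [Finset.mem_product] at h
      rw [List.length_cons, ih.1 h.2]
    · intro h
      cases w with
      | nil => simp at h
      | cons i w' =>
        refine ⟨(i, w'), ?_, rfl⟩
        rw [Finset.mem_product]
        exact ⟨mem_univ _, ih.2 (by simpa using h)⟩

theorem sum_wds_succ {M : Type*} [AddCommMonoid M] (k : ℕ) (f : List ι → M) :
    ∑ w ∈ wds ι (k + 1), f w = ∑ i, ∑ w ∈ wds ι k, f (i :: w) := by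
  rw [wds, Finset.sum_image, Finset.sum_product]
  rintro ⟨i, w⟩ _ ⟨i', w'⟩ _ h
  simp only [List.cons.injEq] at h
  rw [h.1, h.2]

theorem sum_UW {M : Type*} [AddCommMonoid M] (m : ℕ) (f : List ι → M) :
    ∑ u : UW ι m, f u.val = ∑ k ∈ range (m + 1), ∑ w ∈ wds ι k, f w := by
  have hdis : Set.PairwiseDisjoint (↑(range (m + 1))) (wds ι) := by
    intro i _ j _ hij
    rw [Function.onFun, Finset.disjoint_left]
    intro w hw hw'
    exact hij ((mem_wds.1 hw).symm.trans (mem_wds.1 hw'))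
  rw [← Finset.sum_biUnion hdis]
  refine Finset.sum_bij (fun u _ => u.val) ?_ ?_ ?_ ?_
  · intro u _
    rw [Finset.mem_biUnion]
    exact ⟨u.val.length, mem_range.2 (Nat.lt_succ_of_le u.prop), mem_wds.2 rfl⟩
  · intro u _ u' _ h
    exact UW.ext h
  · intro w hw
    rw [Finset.mem_biUnion] at hw
    obtain ⟨k, hk, hw⟩ := hw
    refine ⟨⟨w, ?_⟩, mem_univ _, rfl⟩
    rw [mem_wds.1 hw]
    exact Nat.le_of_lt_succ (mem_range.1 hk)
  · intro u _
    rfl

end words

section coord

variable {N : Type} [Group N] {d n : ℕ} {D : MB N d n} {A : Type} [NormedRing A]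
  [NormedAlgebra ℝ A] [FiniteDimensional ℝ A] {R : RD D A} {ι : Type} [Fintype ι] [DecidableEq ι]

/-- bracket coordinates of the layers -/
theorem nbk_coord (X : ι → R.V) (r : ι → ℝ) (j : ℕ) : ∀ v ∈ nbk (LB X r) j,
    ∃ y : List ι → ℝ, (∀ w, |y w| ≤ 1) ∧
      (v : A) = ∑ w ∈ wds ι (j + 1), y w • br (fun i => ((r i • X i : R.V) : A)) w := by
  set e : ι → A := fun i => ((r i • X i : R.V) : A) with he
  induction j with
  | zero =>
    rintro _ ⟨y, hy, rfl⟩
    refine ⟨fun w => match w with | [i] => y i | _ => 0, ?_, ?_⟩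
    · intro w
      cases w with
      | nil => simp
      | cons i w =>
        cases w with
        | nil => exact hy i
        | cons j w => simp
    · rw [zero_add, sum_wds_succ, Submodule.coe_sum]
      refine sum_congr rfl fun i _ => ?_
      simp only [wds, sum_singleton, br]
      rfl
  | succ j ih =>
    intro v hv
    have hconv : Convex ℝ {v : R.V | ∃ y : List ι → ℝ, (∀ w, |y w| ≤ 1) ∧
        (v : A) = ∑ w ∈ wds ι (j + 1 + 1), y w • br e w} := by
      rintro v ⟨y, hy, hv⟩ v' ⟨y', hy', hv'⟩ a b ha hb hab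
      refine ⟨fun w => a * y w + b * y' w, fun w => ?_, ?_⟩
      · refine (abs_add_le _ _).trans ?_
        rw [abs_mul, abs_mul, abs_of_nonneg ha, abs_of_nonneg hb]
        have := hy w
        have := hy' w
        nlinarith
      · rw [Submodule.coe_add, Submodule.coe_smul, Submodule.coe_smul, hv, hv', smul_sum,
          smul_sum, ← sum_add_distrib]
        exact sum_congr rfl fun w _ => by rw [add_smul, mul_smul, mul_smul]
    refine convexHull_min ?_ hconv hv
    rintro _ ⟨a, ⟨x, hx, rfl⟩, b, hb, rfl⟩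
    obtain ⟨y, hy, hb⟩ := ih b hb
    refine ⟨fun w => match w with | i :: w => x i * y w | [] => 0, ?_, ?_⟩
    · intro w
      cases w with
      | nil => simp
      | cons i w =>
        change |x i * y w| ≤ 1
        rw [abs_mul]
        exact mul_le_one₀ (hx i) (abs_nonneg _) (hy w)
    · rw [sum_wds_succ, R.coe_bracket, hb, Submodule.coe_sum, Finset.sum_mul, Finset.mul_sum]
      have e1 : ∀ i ∈ (univ : Finset ι), ((x i • r i • X i : R.V) : A) *
          ∑ w ∈ wds ι (j + 1), y w • br e w = ∑ w ∈ wds ι (j + 1), (x i * y w) • (e i * br e w) := by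
        intro i _
        rw [Finset.mul_sum]
        refine sum_congr rfl fun w _ => ?_
        rw [Submodule.coe_smul, smul_mul_smul_comm]
      have e2 : (∑ w ∈ wds ι (j + 1), y w • br e w) * ∑ i, ((x i • r i • X i : R.V) : A) =
          ∑ i, ∑ w ∈ wds ι (j + 1), (x i * y w) • (br e w * e i) := by
        rw [Finset.mul_sum]
        refine sum_congr rfl fun i _ => ?_
        rw [Finset.sum_mul]
        refine sum_congr rfl fun w _ => ?_
        rw [Submodule.coe_smul, smul_mul_smul_comm, mul_comm (y w)]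
      have e3 : (∑ i, ((x i • r i • X i : R.V) : A) * ∑ w ∈ wds ι (j + 1), y w • br e w) -
          (∑ w ∈ wds ι (j + 1), y w • br e w) * ∑ i, ((x i • r i • X i : R.V) : A) =
          ∑ i, ∑ w ∈ wds ι (j + 1), (x i * y w) • br e (i :: w) := by
        rw [e2, sum_congr rfl e1, ← sum_sub_distrib]
        refine sum_congr rfl fun i _ => ?_
        rw [← sum_sub_distrib]
        refine sum_congr rfl fun w hw => ?_
        rw [← smul_sub]
        congr 1
        cases w with
        | nil => simp [mem_wds] at hw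
        | cons k w => rfl
      rw [Finset.mul_sum] at e3
      exact e3

/-- bracket coordinates of the box -/
theorem nb_coord (X : ι → R.V) (r : ι → ℝ) {v : R.V} (hv : v ∈ nb (LB X r)) :
    ∃ y : UW ι R.m → ℝ, (∀ u, |y u| ≤ 1) ∧
      ∑ u : UW ι R.m, y u • br (fun i => ((r i • X i : R.V) : A)) u.val = (v : A) := by
  set e : ι → A := fun i => ((r i • X i : R.V) : A) with he
  obtain ⟨x, hx, rfl⟩ := hv
  choose y hy hxy using fun i : Fin R.m => nbk_coord X r i (x i) (hx i)
  let Y : List ι → ℝ := fun w => if h : w.length - 1 < R.m then y ⟨w.length - 1, h⟩ w else 0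
  have hY : ∀ w, |Y w| ≤ 1 := by
    intro w
    simp only [Y]
    split_ifs with h
    · exact hy _ w
    · simp
  refine ⟨fun u => Y u.val, fun u => hY u.val, ?_⟩
  rw [sum_UW R.m (fun w => Y w • br e w), sum_range_succ']
  have h0 : ∑ w ∈ wds ι 0, Y w • br e w = 0 := by
    simp [wds, br]
  rw [h0, add_zero, Submodule.coe_sum, Finset.sum_range]
  refine sum_congr rfl fun i _ => ?_
  rw [hxy i]
  refine sum_congr rfl fun w hw => ?_
  have h1 : w.length = (i : ℕ) + 1 := mem_wds.1 hw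
  congr 1
  have h2 : w.length - 1 < R.m := by rw [h1]; simp
  simp only [Y, dif_pos h2]
  congr 1
  have h3 : (⟨w.length - 1, h2⟩ : Fin R.m) = i := Fin.ext (by simp [h1])
  rw [h3]

/-- **weighted bounded generation** -/
theorem genW (ι : Type) [Fintype ι] (m : ℕ) : ∃ (p : ℕ) (J : Fin p → ι) (C : ℝ), 1 ≤ C ∧
    ∀ {N : Type} [Group N] {d n : ℕ} {D : MB N d n} {A : Type} [NormedRing A] [NormedAlgebra ℝ A]
      [FiniteDimensional ℝ A] {R : RD D A} (_ : R.m = m) (X : ι → R.V) (r : ι → ℝ),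
      (∀ i, 0 ≤ r i) → ∀ u : R.NR, R.Lo u ∈ nb (LB X r) → ∃ x : Fin p → ℝ,
        (∀ t, |x t| ≤ C * r (J t)) ∧ u = (List.ofFn fun t => R.Ex (x t • X (J t))).prod := by
  classical
  obtain ⟨p, J, K, x, _, hx, hgen⟩ := gen ι m
  refine ⟨p, J, K * (1 + 1) ^ K + 1, by
    have : (0 : ℝ) ≤ K * (1 + 1) ^ K := by positivity
    linarith, ?_⟩
  intro N _ d n D A _ _ _ R hm X r hr u hu
  subst hm
  obtain ⟨y, hy, hyu⟩ := nb_coord X r hu
  have hyn : ‖y‖ ≤ 1 := by
    rw [pi_norm_le_iff_of_nonneg zero_le_one]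
    exact fun u => hy u
  have h1 := hgen A (fun i => ((r i • X i : R.V) : A)) (nil_V fun i => r i • X i) y
  rw [hyu, rexp_V, R.Ex_Lo] at h1
  refine ⟨fun t => x y t * r (J t), fun t => ?_, ?_⟩
  · rw [abs_mul, abs_of_nonneg (hr _)]
    refine mul_le_mul_of_nonneg_right ?_ (hr _)
    refine (hx y t).trans ?_
    have h2 : (1 + ‖y‖) ^ K ≤ (1 + 1) ^ K := pow_le_pow_left₀ (by positivity) (by linarith) K
    have h3 : (K : ℝ) * (1 + ‖y‖) ^ K ≤ K * (1 + 1) ^ K :=
      mul_le_mul_of_nonneg_left h2 (Nat.cast_nonneg K)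
    linarith
  · apply R.toA_inj
    rw [h1, prS, map_list_prod]
    have h2 := map_list_prod (Units.coeHom A)
      (List.ofFn fun t => xu (nil_V fun i => r i • X i) (J t) (x y t))
    rw [Units.coeHom_apply] at h2
    rw [h2, List.map_ofFn, List.map_ofFn]
    congr 2
    funext t
    have h3 := xu_V (fun i => r i • X i) (J t) (x y t)
    simp only [Function.comp_apply]
    rw [Units.coeHom_apply, h3, smul_smul]

/-! ### brackets of letters inside boxes -/

/-- iterated bracket in `V` -/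
noncomputable def brV (X : ι → R.V) : List ι → R.V
  | [] => 0
  | [i] => X i
  | i :: j :: w => ⁅X i, brV X (j :: w)⁆

omit [Fintype ι] [DecidableEq ι] in
theorem coe_brV (X : ι → R.V) (w : List ι) : ((brV X w : R.V) : A) = br (fun i => (X i : A)) w := by
  induction w with
  | nil => rfl
  | cons i w ih =>
    cases w with
    | nil => rfl
    | cons j w =>
      rw [brV, R.coe_bracket, ih]
      rfl

theorem brV_mem (X : ι → R.V) {r : ι → ℝ} (hr : ∀ i, 0 ≤ r i) : ∀ (w : List ι) (_ : w ≠ []),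
    (w.map r).prod • brV X w ∈ nbk (LB X r) (w.length - 1) := by
  intro w
  induction w with
  | nil => intro h; exact absurd rfl h
  | cons i w ih =>
    intro _
    have hi : r i • X i ∈ LB X r :=
      letter_LB X hr (by rw [abs_of_nonneg (hr i)])
    cases w with
    | nil =>
      have h1 : brV X [i] = X i := rfl
      rw [h1, List.map_cons, List.map_nil, List.prod_cons, List.prod_nil, mul_one]
      exact hi
    | cons j w =>
      have h1 := ih (by simp)
      have h2 := lie_mem_nbk hi h1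
      have h3 : ((i :: j :: w).map r).prod • brV X (i :: j :: w) =
          ⁅r i • X i, ((j :: w).map r).prod • brV X (j :: w)⁆ := by
        rw [brV, smul_lie, lie_smul, smul_smul, List.map_cons, List.prod_cons]
      rw [h3]
      exact h2

theorem brV_mem_nb (X : ι → R.V) {r : ι → ℝ} (hr : ∀ i, 0 ≤ r i) (w : List ι) :
    (w.map r).prod • brV X w ∈ nb (LB X r) := by
  rcases eq_or_ne w [] with rfl | hw
  · have : brV X ([] : List ι) = 0 := rfl
    rw [this, smul_zero]
    exact (csy_nb (csy_LB X r)).zero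
  · have h1 := brV_mem X hr w hw
    by_cases hlen : w.length - 1 < R.m
    · exact nbk_sub_nb (csy_LB X r) ⟨w.length - 1, hlen⟩ h1
    · rw [nbk_eq_zero (by omega) h1]
      exact (csy_nb (csy_LB X r)).zero

/-- absorption: the boxes of a generating set of letters contain large balls -/
theorem absorb (X : ι → R.V) (W : Submodule ℝ R.V)
    (hW : ∀ v ∈ W, v ∈ LieSubalgebra.lieSpan ℝ R.V (Set.range X)) :
    ∃ C : ℝ, 1 ≤ C ∧ ∀ C' : ℝ, C ≤ C' → ∀ v ∈ W,
      v ∈ nb (LB X fun _ => C' * (1 + ‖(v : A)‖)) := by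
  set e : ι → A := fun i => (X i : A) with he
  let T : (UW ι R.m → ℝ) →ₗ[ℝ] A :=
    ∑ w : UW ι R.m, (LinearMap.proj w : (UW ι R.m → ℝ) →ₗ[ℝ] ℝ).smulRight (br e w.val)
  have hT : ∀ y, T y = ∑ w : UW ι R.m, y w • br e w.val := by
    intro y
    simp only [T, LinearMap.sum_apply, LinearMap.smulRight_apply, LinearMap.proj_apply]
  obtain ⟨g, hg⟩ := LinearMap.exists_rightInverse_of_surjective T.rangeRestrict
    (LinearMap.range_eq_top.2 T.surjective_rangeRestrict)
  obtain ⟨G, hG⟩ := LinearMap.exists_extend g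
  set c : ℝ := ‖LinearMap.toContinuousLinearMap G‖ with hc
  have hc0 : 0 ≤ c := norm_nonneg _
  set n0 : ℝ := ((Fintype.card (UW ι R.m) : ℕ) : ℝ) with hn0
  have hn00 : 0 ≤ n0 := Nat.cast_nonneg _
  refine ⟨1 + n0 * c, by nlinarith, fun C' hC' v hv => ?_⟩
  obtain ⟨y0, hy0⟩ := lieSpan_le_br X (hW v hv)
  have hvr : (v : A) ∈ LinearMap.range T := ⟨y0, by rw [hT, hy0]⟩
  have hTG : T (G (v : A)) = (v : A) := by
    have h1 : G (v : A) = g ⟨(v : A), hvr⟩ := by rw [← hG]; rfl
    have h2 := LinearMap.congr_fun hg ⟨(v : A), hvr⟩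
    have h3 : T (g ⟨(v : A), hvr⟩) = (v : A) := congrArg Subtype.val h2
    rw [h1, h3]
  set y := G (v : A) with hy
  have hyn : ∀ u, |y u| ≤ c * ‖(v : A)‖ := by
    intro u
    have h1 := (LinearMap.toContinuousLinearMap G).le_opNorm (v : A)
    have h2 : (LinearMap.toContinuousLinearMap G) (v : A) = y := rfl
    rw [h2] at h1
    exact (norm_le_pi_norm y u).trans h1
  set ρ : ℝ := C' * (1 + ‖(v : A)‖) with hρ
  have hv0 : 0 ≤ ‖(v : A)‖ := norm_nonneg _
  have hC'1 : 1 ≤ C' := by nlinarith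
  have hρ1 : 1 ≤ ρ := by nlinarith
  have hρ0 : 0 < ρ := by linarith
  have hsum : v = ∑ u : UW ι R.m, y u • brV X u.val := by
    apply Subtype.ext
    rw [Submodule.coe_sum, ← hTG, hT]
    exact sum_congr rfl fun u _ => by rw [Submodule.coe_smul, coe_brV]
  have hcs := csy_nb (csy_LB X fun _ => ρ)
  have hterm : ∀ u ∈ (univ : Finset (UW ι R.m)),
      y u • brV X u.val ∈ ((c * ‖(v : A)‖) / ρ) • nb (LB X fun _ => ρ) := by
    intro u _
    have h1 := brV_mem_nb X (r := fun _ => ρ) (fun _ => hρ0.le) u.val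
    rw [List.map_const', List.prod_replicate] at h1
    rcases eq_or_ne u.val [] with hu | hu
    · have : brV X u.val = 0 := by rw [hu]; rfl
      rw [this, smul_zero]
      exact ⟨0, hcs.zero, by simp⟩
    · have hlen : 1 ≤ u.val.length := List.length_pos_iff.2 hu
      have hp : 0 < ρ ^ u.val.length := by positivity
      set t : ℝ := y u / ρ ^ u.val.length with ht
      have h2 : y u • brV X u.val = t • (ρ ^ u.val.length • brV X u.val) := by
        rw [smul_smul, ht, div_mul_cancel₀ _ hp.ne']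
      have h3 : |t| ≤ (c * ‖(v : A)‖) / ρ := by
        rw [ht, abs_div, abs_of_pos hp]
        refine div_le_div₀ (by positivity) (hyn u) hρ0 ?_
        calc ρ = ρ ^ 1 := (pow_one ρ).symm
          _ ≤ ρ ^ u.val.length := pow_le_pow_right₀ hρ1 hlen
      rw [h2]
      rcases le_total 0 t with h0 | h0
      · rw [abs_of_nonneg h0] at h3
        exact hcs.mem_mono h0 h3 ⟨_, h1, rfl⟩
      · rw [abs_of_nonpos h0] at h3
        refine hcs.mem_mono (a := -t) (by linarith) h3 ⟨-(ρ ^ u.val.length • brV X u.val),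
          hcs.neg _ h1, ?_⟩
        simp only
        rw [neg_smul, smul_neg, neg_neg]
  have h1 := hcs.mem_sum (univ : Finset (UW ι R.m)) (fun _ => (c * ‖(v : A)‖) / ρ) _
    (fun _ _ => by positivity) hterm
  rw [← hsum, sum_const, nsmul_eq_mul, card_univ] at h1
  have h2 : (Fintype.card (UW ι R.m) : ℝ) * ((c * ‖(v : A)‖) / ρ) ≤ 1 := by
    rw [← hn0, ← mul_div_assoc, div_le_one hρ0, hρ]
    nlinarith [mul_nonneg hn00 hc0]
  have h3 := hcs.mem_mono (by positivity) h2 h1
  rwa [one_smul] at h3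

end coord

end Vale.Agent.P188.H615

end

section

/-!
Letters: bases of the weight spaces, scaled to norm at most one.
-/

open Finset Filter Topology Pointwise

namespace Vale.Agent.P188.H615

open Vale.Agent.P188.H796

section letters

variable {V : Type} [AddCommGroup V] [Module ℝ V] [FiniteDimensional ℝ V]

/-- **letters for a finite family of subspaces**: each subspace is spanned by its letters -/
theorem exists_letters {W : Type} (nm : Seminorm ℝ V) (Φ : Finset W) (Vw : W → Submodule ℝ V) :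
    ∃ (ι : Type) (_ : Fintype ι) (X : ι → V) (wt : ι → W),
      (∀ i, wt i ∈ Φ) ∧ (∀ i, X i ∈ Vw (wt i)) ∧ (∀ i, nm (X i) ≤ 1) ∧
      (∀ b ∈ Φ, ∃ i, wt i = b) ∧
      ∀ b ∈ Φ, Vw b ≤ Submodule.span ℝ (X '' {i | wt i = b}) := by
  classical
  let ι : Type := Σ b : {b // b ∈ Φ}, Option (Fin (Module.finrank ℝ (Vw (b : W))))
  let bs : ∀ b : W, Module.Basis (Fin (Module.finrank ℝ (Vw b))) ℝ (Vw b) :=
    fun b => Module.finBasis ℝ (Vw b)
  let X : ι → V := fun i => match i with
    | ⟨b, some j⟩ => (1 + nm (bs b j : V))⁻¹ • (bs b j : V)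
    | ⟨_, none⟩ => 0
  refine ⟨ι, inferInstance, X, fun i => (i.1 : W), fun i => i.1.2, ?_, ?_, ?_, ?_⟩
  · rintro ⟨b, _ | j⟩
    · exact Submodule.zero_mem _
    · exact Submodule.smul_mem _ _ (bs b j).2
  · rintro ⟨b, _ | j⟩
    · change nm 0 ≤ 1
      rw [map_zero]; exact zero_le_one
    · change nm ((1 + nm (bs b j : V))⁻¹ • (bs b j : V)) ≤ 1
      have h0 : 0 ≤ nm (bs b j : V) := apply_nonneg _ _
      rw [map_smul_eq_mul, norm_inv, Real.norm_of_nonneg (by linarith), inv_mul_le_iff₀ (by linarith)]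
      linarith
  · intro b hb
    exact ⟨⟨⟨b, hb⟩, none⟩, rfl⟩
  · intro b hb v hv
    have h1 : v = ∑ j, ((bs b).repr ⟨v, hv⟩ j) • (bs b j : V) := by
      have := congrArg Subtype.val ((bs b).sum_repr ⟨v, hv⟩)
      rw [Submodule.coe_sum] at this
      exact this.symm
    rw [h1]
    refine Submodule.sum_mem _ fun j _ => Submodule.smul_mem _ _ ?_
    have h0 : 0 ≤ nm (bs b j : V) := apply_nonneg _ _
    have h2 : (bs b j : V) = (1 + nm (bs b j : V)) • X ⟨⟨b, hb⟩, some j⟩ := by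
      change (bs b j : V) = (1 + nm (bs b j : V)) • ((1 + nm (bs b j : V))⁻¹ • (bs b j : V))
      rw [smul_inv_smul₀ (by linarith)]
    rw [h2]
    exact Submodule.smul_mem _ _ (Submodule.subset_span ⟨⟨⟨b, hb⟩, some j⟩, rfl, rfl⟩)

end letters

section lie

variable {V : Type} [LieRing V] [LieAlgebra ℝ V] {ι : Type} {W : Type} {X : ι → V} {wt : ι → W}
  {Vw : W → Submodule ℝ V}

/-- the letters of a set of weights generate the Lie algebra generated by the weight spaces -/
theorem mem_lieSpan_letters (p : W → Prop)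
    (hsp : ∀ b, p b → Vw b ≤ Submodule.span ℝ (X '' {i | wt i = b})) {v : V}
    (hv : v ∈ LieSubalgebra.lieSpan ℝ V {x | ∃ b, p b ∧ x ∈ Vw b}) :
    v ∈ LieSubalgebra.lieSpan ℝ V (X '' {i | p (wt i)}) := by
  refine (LieSubalgebra.lieSpan_le.2 ?_) hv
  rintro x ⟨b, hb, hx⟩
  have h1 := hsp b hb hx
  have h2 : X '' {i | wt i = b} ⊆
      ((LieSubalgebra.lieSpan ℝ V (X '' {i | p (wt i)})).toSubmodule : Set V) := by
    rintro _ ⟨i, hi, rfl⟩
    have hi' : wt i = b := hi
    exact LieSubalgebra.subset_lieSpan ⟨i, by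
      change p (wt i)
      rw [hi']; exact hb, rfl⟩
  exact Submodule.span_le.2 h2 h1

end lie

end Vale.Agent.P188.H615

end
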