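import Vale.Agent.P188.R.G087
import Vale.Agent.P188.R.G061

section

/-!
Block RM-b of the real model: generation by the generator weight spaces, crossed homomorphisms.
-/

open Finset
open scoped commutatorElement

universe u v w

namespace Vale.Agent.P188.H269

open Vale.Agent.P188.H796 Vale.Agent.P188.H615
open Vale.Agent.P188.H530 (hgt Crossed)
open Vale.Agent.P188.H754 (GenWeight)

section nil

variable {V : Type v} [LieRing V] [LieAlgebra ℝ V]

/-- a subalgebra which generates an ideal modulo its derived ideal is the whole ideal -/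
theorem le_of_le_sup (hnil : LieModule.IsNilpotent V V) (e : LieIdeal ℝ V)
    (P : LieSubalgebra ℝ V) (hPe : ∀ x ∈ P, x ∈ e)
    (h0 : e.toSubmodule ≤ P.toSubmodule ⊔ (⁅e, e⁆ : LieIdeal ℝ V).toSubmodule) :
    ∀ x ∈ e, x ∈ P := by
  let C : ℕ → LieIdeal ℝ V := fun k => Nat.rec e (fun _ I => ⁅e, I⁆) k
  have hC0 : C 0 = e := rfl
  have hCs : ∀ k, C (k + 1) = ⁅e, C k⁆ := fun k => rfl
  have hClcs : ∀ k, C k ≤ LieModule.lowerCentralSeries ℝ V V k := by
    intro k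
    induction k with
    | zero => rw [LieModule.lowerCentralSeries_zero]; exact le_top
    | succ k ih =>
      rw [hCs, LieModule.lowerCentralSeries_succ]
      exact LieSubmodule.mono_lie le_top ih
  have hCe : ∀ k, C k ≤ e := by
    intro k
    cases k with
    | zero => exact le_rfl
    | succ k => rw [hCs]; exact LieSubmodule.lie_le_left _ _
  have key : ∀ k, e.toSubmodule ≤ P.toSubmodule ⊔ (C k).toSubmodule := by
    intro k
    induction k with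
    | zero => rw [hC0]; exact le_sup_right
    | succ k ih =>
      have h1 : (⁅e, e⁆ : LieIdeal ℝ V).toSubmodule ≤ P.toSubmodule ⊔ (C (k + 1)).toSubmodule := by
        rw [LieSubmodule.lieIdeal_oper_eq_linear_span', Submodule.span_le]
        rintro _ ⟨a, ha, b, hb, rfl⟩
        obtain ⟨p, hp, c, hc, rfl⟩ := Submodule.mem_sup.1 (ih ha)
        obtain ⟨p', hp', c', hc', rfl⟩ := Submodule.mem_sup.1 (ih hb)
        have e1 : ⁅p + c, p' + c'⁆ = ⁅p, p'⁆ + (⁅p, c'⁆ - ⁅p', c⁆ + ⁅c, c'⁆) := by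
          rw [add_lie, lie_add, lie_add, ← lie_skew c p']; abel
        rw [e1]
        refine Submodule.add_mem _ (Submodule.mem_sup_left (P.lie_mem hp hp'))
          (Submodule.mem_sup_right ?_)
        rw [hCs]
        exact add_mem (sub_mem (LieSubmodule.lie_mem_lie (hPe p hp) hc')
          (LieSubmodule.lie_mem_lie (hPe p' hp') hc))
          (LieSubmodule.lie_mem_lie (hCe k hc) hc')
      exact h0.trans (sup_le le_sup_left h1)
  obtain ⟨k, hk⟩ := hnil.nilpotent ℝ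
  intro x hx
  have h6 := key k hx
  have h7 : C k = ⊥ := by
    rw [eq_bot_iff, ← hk]; exact hClcs k
  rw [h7] at h6
  simpa using h6

end nil

section gen

variable {Γ : Type} [Group Γ] {k : ℕ} {η : Γ →* Multiplicative (Fin k → ℤ)} {d n : ℕ}
  (D : MB η.ker d n) (hη : Function.Surjective η) {t : D.S}

/-- a nonzero modulus of `t` not contained in `[V, V]` comes from a generator weight -/
theorem exists_gen_of_not (hs : Sep D.AdE t) {r : ℝ} (hr : r ≠ 0)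
    (h : ¬ W D.AdE t r ≤ (⁅(⊤ : LieIdeal ℝ D.R.V), (⊤ : LieIdeal ℝ D.R.V)⁆ :
      LieIdeal ℝ D.R.V).toSubmodule) : ∃ b ∈ ΦF D hη, W D.AdE t r = Vwt D hη t b := by
  have hN := (HS D).normal
  obtain ⟨l, χ, hE, hbr, hlog⟩ := (HS D).lrep.exists_char t h
  obtain ⟨b, hb⟩ := exists_clm_of_Wts D hη (b' := fun s => Real.log ‖χ s‖)
    ⟨⊤, le_top, l, χ, hE, fun _ => rfl⟩
  have hbt : b (hgt (D.θ η) t) = r := by rw [hb, hlog]
  have hb0 : b ≠ 0 := by
    rintro rfl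
    apply hr
    rw [← hbt, _root_.zero_apply]
  have hbΦ : b ∈ ΦF D hη := (mem_ΦF D hη).2 ⟨hb0, l, χ, hE, hbr, hb⟩
  exact ⟨b, hbΦ, by rw [Vwt_of_mem D hη t (ΦF_sub D hη hbΦ), hbt]⟩

/-- **the generator weight spaces generate `e`** -/
theorem gen_e (hs : Sep D.AdE t) : ∀ v ∈ eId D.AdE t,
    v ∈ LieSubalgebra.lieSpan ℝ D.R.V {x | ∃ b, b ∈ ΦF D hη ∧ x ∈ Vwt D hη t b} := by
  set e := eId D.AdE t with he
  set P := LieSubalgebra.lieSpan ℝ D.R.V {x | ∃ b, b ∈ ΦF D hη ∧ x ∈ Vwt D hη t b} with hP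
  have hh := rho_inv_mul D.AdE t
  have hh' := rho_mul_inv D.AdE t
  have hsub : ∀ b ∈ ΦF D hη, Vwt D hη t b ≤ P.toSubmodule := fun b hb x hx =>
    LieSubalgebra.subset_lieSpan ⟨b, hb, hx⟩
  have hPe : ∀ x ∈ P, x ∈ e := by
    let K : LieSubalgebra ℝ D.R.V :=
      { e.toSubmodule with lie_mem' := fun {x y} _ hy => e.lie_mem hy }
    have h1 : P ≤ K := by
      rw [hP, LieSubalgebra.lieSpan_le]
      rintro x ⟨b, hb, hx⟩
      exact Vwt_e D hη hs (ΦF_ne D hη hb) hx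
    exact fun x hx => h1 hx
  refine le_of_le_sup (HS D).nil e P hPe ?_
  refine (eI_le hh hh' ((HS D).lie t) ((HS D).lie t⁻¹)).trans (sup_le ?_ le_sup_right)
  refine iSup_le fun r => ?_
  by_cases h : W D.AdE t (r : ℝ) ≤ (⁅(⊤ : LieIdeal ℝ D.R.V), (⊤ : LieIdeal ℝ D.R.V)⁆ :
      LieIdeal ℝ D.R.V).toSubmodule
  · exact (Wt_le_derived hh hh' ((HS D).lie t) ((HS D).lie t⁻¹) (HS D).nil r.2 h).trans
      le_sup_right
  · obtain ⟨b, hb, hbr⟩ := exists_gen_of_not D hη hs r.2 h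
    change W D.AdE t (r : ℝ) ≤ _
    rw [hbr]
    exact (hsub b hb).trans le_sup_left

/-! ### generator weights of `Γ` -/

/-- an eigenfunctional killing brackets is additive on the group -/
theorem l_Lo_mul {l : D.R.V →ₗ[ℝ] ℂ} (hl : ∀ x y : D.R.V, l ⁅x, y⁆ = 0) (x y : D.R.NR) :
    l (D.R.Lo (x * y)) = l (D.R.Lo x) + l (D.R.Lo y) := by
  have h := Lo_Ex_mul_Ex' D.R (H := ⊤) (I := ⊤)
      (I' := (⁅(⊤ : LieIdeal ℝ D.R.V), (⊤ : LieIdeal ℝ D.R.V)⁆ : LieIdeal ℝ D.R.V).toSubmodule)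
      le_rfl le_top (fun x _ y _ => LieSubmodule.lie_mem_lie (LieSubmodule.mem_top x)
        (LieSubmodule.mem_top y)) (v := D.R.Lo x) (w := D.R.Lo y) trivial trivial
  rw [D.R.Ex_Lo, D.R.Ex_Lo] at h
  have h2 : ∀ z ∈ (⁅(⊤ : LieIdeal ℝ D.R.V), (⊤ : LieIdeal ℝ D.R.V)⁆ :
      LieIdeal ℝ D.R.V).toSubmodule, l z = 0 := by
    intro z hz
    have h3 : (⁅(⊤ : LieIdeal ℝ D.R.V), (⊤ : LieIdeal ℝ D.R.V)⁆ :
      LieIdeal ℝ D.R.V).toSubmodule ≤ LinearMap.ker l := by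
      rw [LieSubmodule.lieIdeal_oper_eq_linear_span', Submodule.span_le]
      rintro _ ⟨a, _, b, _, rfl⟩
      exact hl a b
    exact h3 hz
  have h4 := h2 _ h
  rw [map_sub, map_sub] at h4
  linear_combination h4

theorem l_Lo_pow {l : D.R.V →ₗ[ℝ] ℂ} (hl : ∀ x y : D.R.V, l ⁅x, y⁆ = 0) (x : D.R.NR) (m : ℕ) :
    l (D.R.Lo (x ^ m)) = m * l (D.R.Lo x) := by
  have h0 : l (D.R.Lo 1) = 0 := by
    have := l_Lo_mul D hl 1 1
    rw [mul_one] at this
    linear_combination -this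
  induction m with
  | zero => rw [pow_zero, h0]; simp
  | succ m ih => rw [pow_succ, l_Lo_mul D hl, ih]; push_cast; ring

/-- an additive functional which vanishes on `N` vanishes -/
theorem l_zero_of_N {l : D.R.V →ₗ[ℝ] ℂ} (hl : ∀ x y : D.R.V, l ⁅x, y⁆ = 0)
    (h : ∀ y : η.ker, l (D.R.Lo (D.R.ι y)) = 0) : ∀ v, l v = 0 := by
  intro v
  obtain ⟨C, hC, hCc⟩ := H131.isCompact_closure_cube D.R
  obtain ⟨M, hM⟩ := D.R.exists_Lo_le hC
  let L : D.R.V →L[ℝ] ℂ := LinearMap.toContinuousLinearMap l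
  have hb : ∀ s ∈ D.R.cube, ‖l (D.R.Lo s)‖ ≤ ‖L‖ * M := by
    intro s hs
    refine (L.le_opNorm (D.R.Lo s)).trans ?_
    exact mul_le_mul_of_nonneg_left (hM s (hCc hs)) (norm_nonneg _)
  have hlog1 : l (D.R.Lo 1) = 0 := by
    have := l_Lo_mul D hl 1 1
    rw [mul_one] at this
    linear_combination -this
  have hb' : ∀ s : D.R.NR, ‖l (D.R.Lo s)‖ ≤ ‖L‖ * M := by
    intro s
    obtain ⟨x, c, hc, rfl⟩ := D.R.exists_cube_left s
    rw [l_Lo_mul D hl, h, zero_add]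
    have h1 : l (D.R.Lo c) = - l (D.R.Lo c⁻¹) := by
      have := l_Lo_mul D hl c c⁻¹
      rw [mul_inv_cancel, hlog1] at this
      linear_combination -this
    rw [h1, norm_neg]
    exact hb _ hc
  by_contra hv
  have hpos : 0 < ‖l v‖ := norm_pos_iff.2 hv
  obtain ⟨m, hm⟩ := exists_nat_gt (‖L‖ * M / ‖l v‖)
  have h2 := hb' ((D.R.Ex v) ^ m)
  rw [l_Lo_pow D hl, D.R.Lo_Ex, norm_mul, Complex.norm_natCast] at h2
  rw [div_lt_iff₀ hpos] at hm
  linarith

/-- **the generator weight of `Γ` attached to an eigenfunctional** -/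
theorem exists_genWeight_of {l : D.R.V →ₗ[ℝ] ℂ} {χ : D.S → ℂ} (hE : EigOn D.AdE ⊤ l χ)
    (hl : ∀ x y : D.R.V, l ⁅x, y⁆ = 0) :
    ∃ w : GenWeight η.ker, (∀ g, w.ρ g = χ (D.inΓ g)) ∧
      ∀ (y : Γ) (hy : y ∈ η.ker), w.φ y = l (D.R.Lo (D.R.ι ⟨y, hy⟩)) := by
  classical
  refine ⟨{
    ρ := { toFun := fun g => χ (D.inΓ g)
           map_one' := by rw [map_one, hE.one]
           map_mul' := fun a b => by rw [map_mul, hE.mul] }
    φ := fun y => if hy : y ∈ η.ker then l (D.R.Lo (D.R.ι ⟨y, hy⟩)) else 0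
    φ_mul := ?_
    φ_conj := ?_
    φ_ne := ?_ }, fun g => rfl, fun y hy => dif_pos hy⟩
  · intro x hx y hy
    rw [dif_pos hx, dif_pos hy, dif_pos (mul_mem hx hy), ← l_Lo_mul D hl, ← map_mul]
    rfl
  · intro g y hy
    have hgy : g * y * g⁻¹ ∈ η.ker := (MonoidHom.normal_ker η).conj_mem y hy g
    rw [dif_pos hy, dif_pos hgy]
    change _ = χ (D.inΓ g) * _
    rw [← hE.eig (D.inΓ g) (D.R.Lo (D.R.ι ⟨y, hy⟩)) trivial]
    congr 1
    apply D.ex_injective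
    rw [D.AdE_apply, D.ex_Ad, MB.ex, MB.ex, D.R.Ex_Lo, D.R.Ex_Lo]
    have h1 : ∀ z : η.ker, D.inN (D.R.ι z) = D.inΓ (z : Γ) := fun z => (D.P.inG_coe z).symm
    rw [h1, h1, ← map_inv, ← map_mul, ← map_mul]
  · by_contra hcon
    push Not at hcon
    obtain ⟨x, _, hx0⟩ := hE.ne
    apply hx0
    refine l_zero_of_N D hl (fun y => ?_) x
    have := hcon y y.2
    rwa [dif_pos y.2] at this

/-- **field `crossed`** -/
theorem exists_crossed_gen {b : (Fin k → ℝ) →L[ℝ] ℝ} (hb : b ∈ ΦF D hη) :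
    Nonempty (Crossed (hgt ((D.θ η).comp D.inΓ)) b) := by
  obtain ⟨hb0, l, χ, hE, hl, hχ⟩ := (mem_ΦF D hη).1 hb
  obtain ⟨w, hw, _⟩ := exists_genWeight_of D hE hl
  have h1 : ∀ g, b (hgt η g) = Real.log ‖w.ρ g‖ := by
    intro g
    rw [hw, ← hχ, D.hgt_inΓ]
  obtain ⟨c, _, _⟩ := H530.exists_crossed η w h1 hb0 hη
  rw [D.θ_comp]
  exact ⟨c⟩

/-- the finite set of elements needed in `A` for the field `crossed` -/
theorem exists_F1 : ∃ F1 : Finset Γ, ∀ b ∈ ΦF D hη,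
    ∃ c : Crossed (hgt ((D.θ η).comp D.inΓ)) b, c.u ∈ F1 := by
  classical
  refine ⟨(ΦF D hη).attach.image fun b => (Classical.choice (exists_crossed_gen D hη b.2)).u,
    fun b hb => ⟨Classical.choice (exists_crossed_gen D hη hb), ?_⟩⟩
  exact Finset.mem_image.2 ⟨⟨b, hb⟩, Finset.mem_attach _ _, rfl⟩

end gen

end Vale.Agent.P188.H269

end

section

/-!
Block RM-b of the real model: the generator weights span.
-/

open Module Finset
open scoped commutatorElement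

universe u v w

namespace Vale.Agent.P188.H269

open Vale.Agent.P188.H796 Vale.Agent.P188.H615
open Vale.Agent.P188.H530 (hgt Crossed)
open Vale.Agent.P188.H754 (GenWeight)

section approx

variable {k : ℕ}

/-- rational approximation: a vector killed by finitely many forms which bound the integral
vectors is zero -/
theorem eq_zero_of_bound (S : Finset ((Fin k → ℝ) →L[ℝ] ℝ)) {c : ℝ} (hc : 0 < c)
    (h : ∀ q : Fin k → ℤ, q ≠ 0 → ∃ b ∈ S, c * ‖q‖ ≤ |b (fun i => (q i : ℝ))|)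
    {w : Fin k → ℝ} (hw : ∀ b ∈ S, b w = 0) : w = 0 := by
  by_contra hne
  have hpos : 0 < ‖w‖ := norm_pos_iff.2 hne
  -- a bound of the norms
  obtain ⟨B, hB0, hB⟩ : ∃ B : ℝ, 0 ≤ B ∧ ∀ b ∈ S, ‖b‖ ≤ B :=
    ⟨∑ b ∈ S, ‖b‖, Finset.sum_nonneg fun _ _ => norm_nonneg _,
      fun b hb => Finset.single_le_sum (f := fun b => ‖b‖) (fun _ _ => norm_nonneg _) hb⟩
  obtain ⟨n, hn⟩ := exists_nat_gt ((B / c + 1) / ‖w‖)
  rw [div_lt_iff₀ hpos] at hn
  let q : Fin k → ℤ := fun i => round (n * w i)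
  have hq1 : ‖(fun i => (q i : ℝ)) - (n : ℝ) • w‖ ≤ 1 := by
    refine (pi_norm_le_iff_of_nonneg zero_le_one).2 fun i => ?_
    have h1 := abs_sub_round ((n : ℝ) * w i)
    have h2 : ((fun i => (q i : ℝ)) - (n : ℝ) • w) i = -((n : ℝ) * w i - round ((n : ℝ) * w i)) := by
      simp only [Pi.sub_apply, Pi.smul_apply, smul_eq_mul, q]
      ring
    rw [h2, norm_neg, Real.norm_eq_abs]
    linarith
  have hqn : ‖(fun i => (q i : ℝ))‖ = ‖q‖ := by
    rw [Pi.norm_def, Pi.norm_def]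
    congr 1
  have hq2 : (n : ℝ) * ‖w‖ ≤ ‖q‖ + 1 := by
    have h1 : (n : ℝ) * ‖w‖ = ‖(n : ℝ) • w‖ := by rw [norm_smul, Real.norm_natCast]
    rw [h1, ← hqn]
    have h2 := norm_sub_norm_le ((n : ℝ) • w) (fun i => (q i : ℝ))
    rw [norm_sub_rev] at h2
    linarith
  have hq0 : q ≠ 0 := by
    intro h0
    rw [h0, norm_zero, zero_add] at hq2
    have : 0 ≤ B / c := by positivity
    linarith
  obtain ⟨b, hb, hbq⟩ := h q hq0
  have h3 : b (fun i => (q i : ℝ)) = b ((fun i => (q i : ℝ)) - (n : ℝ) • w) := by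
    rw [map_sub, map_smul, hw b hb, smul_zero, sub_zero]
  have h4 : |b (fun i => (q i : ℝ))| ≤ B := by
    rw [h3, ← Real.norm_eq_abs]
    refine (b.le_opNorm _).trans ?_
    calc ‖b‖ * ‖(fun i => (q i : ℝ)) - (n : ℝ) • w‖ ≤ B * 1 :=
          mul_le_mul (hB b hb) hq1 (norm_nonneg _) hB0
      _ = B := mul_one B
  have h5 : ‖q‖ ≤ B / c := by
    rw [le_div_iff₀ hc]
    linarith
  linarith

end approx

section span

variable {Γ : Type} [Group Γ] {k : ℕ} {η : Γ →* Multiplicative (Fin k → ℤ)} {d n : ℕ}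
  (D : MB η.ker d n) (hη : Function.Surjective η)

/-- the generator weights of `N` are generator weights of `V` -/
theorem exists_gen_of_genWeight (w : GenWeight η.ker) :
    ∃ b : (Fin k → ℝ) →L[ℝ] ℝ, (∀ g, b (hgt η g) = Real.log ‖w.ρ g‖) ∧
      (b ≠ 0 → b ∈ ΦF D hη) := by
  have hE := H953.eigOn_lam D w
  obtain ⟨b, hb⟩ := exists_clm_of_Wts D hη
    (b' := fun s => Real.log ‖((H953.chS D w s : ℂˣ) : ℂ)‖)
    ⟨⊤, le_top, _, _, hE, fun _ => rfl⟩
  refine ⟨b, fun g => ?_, fun hb0 => (mem_ΦF D hη).2 ⟨hb0, _, _, hE, H953.lam_lie D w, hb⟩⟩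
  rw [← D.hgt_inΓ, hb, H953.chS_inΓ]

/-- **field `Φ_span`** -/
theorem Φ_span (hw : ∃ c : ℝ, 0 < c ∧ ∀ g : Γ, η g ≠ 1 → ∃ w : GenWeight η.ker,
      c * ‖Multiplicative.toAdd (η g)‖ ≤ |Real.log ‖w.ρ g‖|) :
    ∀ w : Fin k → ℝ, (∀ b ∈ ΦF D hη, b w = 0) → w = 0 := by
  obtain ⟨c, hc, hcb⟩ := hw
  intro w hwb
  refine eq_zero_of_bound (ΦF D hη) hc (fun q hq => ?_) hwb
  obtain ⟨g, hg⟩ := hη (Multiplicative.ofAdd q)
  have hg1 : η g ≠ 1 := by
    rw [hg]
    intro h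
    exact hq (Multiplicative.ofAdd.injective h)
  obtain ⟨ω, hω⟩ := hcb g hg1
  obtain ⟨b, hb, hbΦ⟩ := exists_gen_of_genWeight D hη ω
  have hq' : hgt η g = fun i => (q i : ℝ) := by
    funext i
    simp [hgt, hg]
  rw [hg, toAdd_ofAdd] at hω
  have hqpos : 0 < ‖q‖ := norm_pos_iff.2 hq
  refine ⟨b, hbΦ ?_, ?_⟩
  · rintro rfl
    have h1 := hb g
    rw [_root_.zero_apply] at h1
    rw [← h1, abs_zero] at hω
    nlinarith
  · rw [← hq', hb]
    exact hω

end span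

end Vale.Agent.P188.H269

end
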