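import Vale.Agent.P188.R.G052
import Vale.Agent.P188.R.G088
import Vale.Agent.P188.R.G094
import Vale.Agent.P188.R.G090
import Vale.Agent.P188.R.G091
import Vale.Agent.P188.R.G067

section

/-!
P188, Z1, RM-b: the weight spaces `Vw b` of the concrete group `D.S`.
-/

set_option linter.all false

open Finset Filter Topology
open scoped commutatorElement Pointwise

namespace Vale.Agent.P188.H953

open Vale.Agent.P188.H796 Vale.Agent.P188.H615 Vale.Agent.P188.H269 Vale.Agent.P188.Z1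
open Vale.Agent.P188.H530 (hgt)
open Agent.P188.H428 (C_le_one)

/-- linear forms on the heights are determined by their values on a group -/
theorem form_inj' {S : Type} [Group S] {k : ℕ} {θ : S →* Multiplicative (Fin k → ℤ)}
    (hθ : Function.Surjective θ) {b b' : Z1.Ht k →L[ℝ] ℝ} (h : ∀ s, b (hgt θ s) = b' (hgt θ s)) :
    b = b' := by
  refine ContinuousLinearMap.ext fun x => ?_
  have h2 : ∀ i : Fin k, b (Pi.single i 1) = b' (Pi.single i 1) := by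
    intro i
    obtain ⟨g, hg⟩ := hθ (Multiplicative.ofAdd (Pi.single i 1))
    have h3 := h g
    have e : hgt θ g = Pi.single i 1 := by
      funext j
      simp only [hgt, hg]
      by_cases hij : j = i
      · subst hij; simp
      · simp [Pi.single_apply, hij]
    rwa [e] at h3
  have e : x = ∑ i, x i • (Pi.single i 1 : Fin k → ℝ) := by
    funext j
    simp [Finset.sum_apply, Pi.single_apply]
  rw [e, map_sum, map_sum]
  simp [h2]

section conc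

variable {Γ : Type} [Group Γ] {k : ℕ} {η : Γ →* Multiplicative (Fin k → ℤ)} {d n : ℕ}
  (D : MB η.ker d n)

/-- the function on `S` of a form -/
noncomputable def fm (b : Z1.Ht k →L[ℝ] ℝ) : D.S → ℝ := fun s => b (hgt (D.θ η) s)

theorem fm_apply (b : Z1.Ht k →L[ℝ] ℝ) (s : D.S) : fm D b s = b (hgt (D.θ η) s) := rfl

theorem fm_inj (hη : Function.Surjective η) {b b' : Z1.Ht k →L[ℝ] ℝ} (h : fm D b = fm D b') :
    b = b' := form_inj' (D.θ_surjective hη) (fun s => congrFun h s)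

theorem fm_zero : fm D (0 : Z1.Ht k →L[ℝ] ℝ) = 0 := rfl

theorem fm_ne (hη : Function.Surjective η) {b : Z1.Ht k →L[ℝ] ℝ} (h : b ≠ 0) : fm D b ≠ 0 :=
  fun h0 => h (fm_inj D hη (h0.trans (fm_zero D).symm))

/-- the two properties of the finite sets of forms -/
structure Forms (WF Ph : Finset (Z1.Ht k →L[ℝ] ℝ)) : Prop where
  memW : ∀ b, b ∈ WF ↔ b = 0 ∨ fm D b ∈ Wts D.AdE ⊤
  memP : ∀ b, b ∈ Ph ↔ b ≠ 0 ∧ fm D b ∈ GW D.AdE
  form : ∀ b' ∈ Wts D.AdE ⊤, ∃ b : Z1.Ht k →L[ℝ] ℝ, b' = fm D b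

open Classical in
/-- the weight spaces -/
noncomputable def Vw (t : D.S) (WF : Finset (Z1.Ht k →L[ℝ] ℝ)) (b : Z1.Ht k →L[ℝ] ℝ) :
    Submodule ℝ D.R.V := if b ∈ WF then W D.AdE t (fm D b t) else ⊥

variable {D} {WF Ph : Finset (Z1.Ht k →L[ℝ] ℝ)} (hF : Forms D WF Ph) {t : D.S}

theorem Vw_of_mem {b : Z1.Ht k →L[ℝ] ℝ} (hb : b ∈ WF) : Vw D t WF b = W D.AdE t (fm D b t) :=
  if_pos hb

theorem Vw_of_not {b : Z1.Ht k →L[ℝ] ℝ} (hb : b ∉ WF) : Vw D t WF b = ⊥ := if_neg hb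

include hF

theorem Forms.zero_mem : (0 : Z1.Ht k →L[ℝ] ℝ) ∈ WF := (hF.memW 0).2 (Or.inl rfl)

theorem Forms.Vw_zero : Vw D t WF 0 = W D.AdE t 0 := by
  rw [Vw_of_mem hF.zero_mem, fm_zero, Pi.zero_apply]

theorem Forms.wts {b : Z1.Ht k →L[ℝ] ℝ} (hb : b ∈ WF) (h0 : b ≠ 0) : fm D b ∈ Wts D.AdE ⊤ :=
  ((hF.memW b).1 hb).resolve_left h0

theorem Forms.sub : Ph ⊆ WF := fun b hb =>
  (hF.memW b).2 (Or.inr (GW_sub ((hF.memP b).1 hb).2))

theorem Forms.fm_t_ne (hη : Function.Surjective η) (hs : Sep D.AdE t) {b : Z1.Ht k →L[ℝ] ℝ}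
    (hb : b ∈ WF) (h0 : b ≠ 0) : fm D b t ≠ 0 := fun h =>
  fm_ne D hη h0 (hs.1 _ (hF.wts hb h0) h)

theorem Forms.Vw_e (hη : Function.Surjective η) (hs : Sep D.AdE t) {b : Z1.Ht k →L[ℝ] ℝ}
    (h0 : b ≠ 0) : Vw D t WF b ≤ (eId D.AdE t).toSubmodule := by
  by_cases hb : b ∈ WF
  · rw [Vw_of_mem hb]
    exact fun x hx => Wt_le_eI (hF.fm_t_ne hη hs hb h0) hx
  · rw [Vw_of_not hb]; exact bot_le

theorem Forms.C_inv (habel : ∀ a b : Γ, ⁅a, b⁆ ∈ η.ker) {c : D.S} (hc : c ∈ (expS D habel).C t)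
    (b : Z1.Ht k →L[ℝ] ℝ) : ∀ v ∈ Vw D t WF b, D.AdE c v ∈ Vw D t WF b := by
  intro v hv
  by_cases hb : b ∈ WF
  · rw [Vw_of_mem hb] at hv ⊢
    exact (expS D habel).C_inv hc _ v hv
  · rw [Vw_of_not hb, Submodule.mem_bot] at hv
    rw [hv, map_zero]; exact Submodule.zero_mem _

/-- field `C_le` -/
theorem Forms.C_le (habel : ∀ a b : Γ, ⁅a, b⁆ ∈ η.ker) (hs : Sep D.AdE t)
    {τ : (Fin k → ℤ) → D.S} (hτ : ∀ w, τ w ∈ (expS D habel).C t) :
    ∃ (C : ℝ) (e : ℕ), 0 ≤ C ∧ ∀ m : ℕ, ∀ c ∈ CBall D.nm (Vw D t WF 0 : Set D.R.V) D.ex τ m,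
      ∀ b ∈ WF, ∀ v ∈ Vw D t WF b,
      D.nm (D.AdE c v) ≤ C * (1 + m) ^ e * Real.exp (b (hgt (D.θ η) c)) * D.nm v := by
  classical
  rw [hF.Vw_zero]
  obtain ⟨C0, e0, hC0, h0⟩ := H796.C_le_zero D habel hs hτ
  obtain ⟨C1, e1, hC1, h1⟩ := Agent.P188.H428.C_le D habel hs hτ (WF.erase 0) (by
    intro b hb
    rw [Finset.mem_erase] at hb
    exact ⟨fm D b, hF.wts hb.2 hb.1, fun c => rfl⟩)
  refine ⟨C0 + C1, e0 + e1, by positivity, fun m c hc b hb v hv => ?_⟩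
  have hm : (1 : ℝ) ≤ 1 + m := by linarith [(Nat.cast_nonneg m : (0 : ℝ) ≤ m)]
  have h4 : 0 ≤ D.nm v := apply_nonneg D.nm _
  rw [Vw_of_mem hb] at hv
  by_cases hb0 : b = 0
  · subst hb0
    rw [fm_zero, Pi.zero_apply] at hv
    have h2 := h0 m c hc v hv
    refine h2.trans ?_
    rw [ContinuousLinearMap.zero_apply, Real.exp_zero, mul_one]
    have h3 : (1 + (m : ℝ)) ^ e0 ≤ (1 + m) ^ (e0 + e1) := pow_le_pow_right₀ hm (by omega)
    have h5 : C0 ≤ C0 + C1 := by linarith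
    gcongr
  · have h2 := h1 m c hc b (Finset.mem_erase.2 ⟨hb0, hb⟩) v hv
    refine h2.trans ?_
    have h3 : (1 + (m : ℝ)) ^ e1 ≤ (1 + m) ^ (e0 + e1) := pow_le_pow_right₀ hm (by omega)
    have h5 : C1 ≤ C0 + C1 := by linarith
    gcongr

/-- generation of the ideal -/
theorem Forms.gen_e (habel : ∀ a b : Γ, ⁅a, b⁆ ∈ η.ker) (hη : Function.Surjective η)
    (hs : Sep D.AdE t) {v : D.R.V} (hv : v ∈ eId D.AdE t) :
    v ∈ LieSubalgebra.lieSpan ℝ D.R.V {x | ∃ b, (b ≠ 0 ∧ b ∈ Ph) ∧ x ∈ Vw D t WF b} := by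
  haveI := (expS D habel).normal
  have h1 := (mem_PG_iff (expS D habel).lrep hs v).2 hv
  refine (LieSubalgebra.lieSpan_le.2 ?_) h1
  intro x hx
  simp only [Set.mem_iUnion] at hx
  obtain ⟨b', hb', hx⟩ := hx
  obtain ⟨b, rfl⟩ := hF.form b' (GW_sub hb')
  have hb0 : b ≠ 0 := by
    rintro rfl
    exact hb'.1 (fm_zero D)
  have hbP : b ∈ Ph := (hF.memP b).2 ⟨hb0, hb'⟩
  refine LieSubalgebra.subset_lieSpan ⟨b, ⟨hb0, hbP⟩, ?_⟩
  rw [Vw_of_mem (hF.sub hbP)]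
  exact hx

open Classical in
/-- **unimodularity** -/
theorem Forms.exists_mult (habel : ∀ a b : Γ, ⁅a, b⁆ ∈ η.ker) (hη : Function.Surjective η)
    (hs : Sep D.AdE t) (hdet : ∀ s : D.S, |LinearMap.det (D.AdE s)| = 1) :
    ∃ m : (Z1.Ht k →L[ℝ] ℝ) → ℝ, (∀ b ∈ Ph, 0 < m b) ∧ ∑ b ∈ Ph, m b • b = 0 := by
  have hG : ((Ph.image (fm D) : Finset (D.S → ℝ)) : Set (D.S → ℝ)) = GW D.AdE := by
    ext b'
    rw [Finset.coe_image]
    constructor
    · rintro ⟨b, hb, rfl⟩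
      exact ((hF.memP b).1 hb).2
    · intro hb'
      obtain ⟨b, rfl⟩ := hF.form b' (GW_sub hb')
      refine ⟨b, (hF.memP b).2 ⟨?_, hb'⟩, rfl⟩
      rintro rfl
      exact hb'.1 (fm_zero D)
  obtain ⟨m, hm0, hm⟩ := H953.exists_mult (expS D habel) hs (Ph.image (fm D)) hG
  refine ⟨fun b => m (fm D b), fun b hb => ?_, ?_⟩
  · exact Nat.cast_pos.2 (hm0 _ (Finset.mem_image_of_mem _ hb))
  · refine form_inj' (D.θ_surjective hη) fun s => ?_
    obtain ⟨z, _, hz⟩ := (expS D habel).exists_mul_mem_C t s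
    have h1 := hm _ hz
    rw [hdet, Real.log_one, Finset.sum_image (fun b _ b' _ h => fm_inj D hη h)] at h1
    rw [ContinuousLinearMap.zero_apply, ContinuousLinearMap.sum_apply, ← h1]
    refine Finset.sum_congr rfl fun b _ => ?_
    rw [ContinuousLinearMap.smul_apply, smul_eq_mul, fm_apply, D.hgt_mul', D.hgt_ex, zero_add]

end conc

end Vale.Agent.P188.H953

end

section

/-!
# P188, Z1: existence of the real model

Assembly of the blocks RM-a (796), RM-b (269, 953, 428, 796), RM-c (131), RM-d (615).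
-/

set_option linter.all false

open MeasureTheory Set
open scoped commutatorElement

namespace Vale.Agent.P188.Z1

open Vale.Agent.P188.H796 Vale.Agent.P188.H615 Vale.Agent.P188.H269 Vale.Agent.P188.H131
open Vale.Agent.P188.H530 (hgt Crossed Mod)
open Vale.Agent.P188.H789 (Bl)

section inst

variable {Γ : Type} [Group Γ] {k : ℕ} {η : Γ →* Multiplicative (Fin k → ℤ)} {d n : ℕ}
  (D : MB η.ker d n)

/-- the sets of forms of 269 have the properties used by 953 -/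
theorem forms (hη : Function.Surjective η) : H953.Forms D (WtF D hη) (ΦF D hη) where
  memW b := mem_WtF D hη
  memP b := by
    rw [mem_ΦF D hη]
    exact ⟨fun h => ⟨h.1, H953.fm_ne D hη h.1, h.2⟩, fun h => ⟨h.1, h.2.2⟩⟩
  form b' hb' := by
    obtain ⟨b, hb⟩ := exists_clm_of_Wts D hη hb'
    exact ⟨b, funext fun s => (hb s).symm⟩

/-- **The relation between the abstract model and the concrete group.** -/
structure Conc (hη : Function.Surjective η) (F : Set Γ) (t : D.S)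
    (M : RModel D.S Γ D.R.V k) : Prop where
  sep : Sep D.AdE t
  l_eq : M.l = wl (D.U F)
  μ_eq : M.μ = muD D
  η_eq : M.η = D.θ η
  inG_eq : M.inG = D.inΓ
  nm_eq : M.nm = D.nm
  ex_eq : M.ex = D.ex
  Ad_eq : M.Ad = D.AdE
  e_eq : M.e = (eId D.AdE t).toSubmodule
  E_eq : M.E = ER (eId D.AdE t)
  Wt_eq : M.Wt = WtF D hη
  Φ_eq : M.Φ = ΦF D hη
  Vw_eq : M.Vw = Vwt D hη t
  τ_mem : ∀ w, M.τ w ∈ (HS D).C t
  τ_zero : M.τ 0 = 1
  τ_CB' : ∀ w : Fin k → ℤ, M.τ w ∈ M.CB (∑ i, (w i).natAbs)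
  cls_eq : M.cls = D.R.m
  /-- the letters of weight `b` span `Vw b` -/
  letters_span : ∀ b, (b ∈ M.Φ ∨ b = 0) → M.Vw b ≤ Submodule.span ℝ (M.X '' {i | M.wt i = b})

/-- bound of the length of the word `τ w` -/
theorem sum_natAbs_le (w : Fin k → ℤ) {C : ℝ} (hC : (k : ℝ) ≤ C) :
    ∑ i, (w i).natAbs ≤ ⌈C * (1 + ‖(fun i => (w i : ℝ))‖)⌉₊ := by
  have h1 : ((∑ i, (w i).natAbs : ℕ) : ℝ) ≤ C * (1 + ‖(fun i => (w i : ℝ))‖) := by
    push_cast
    have h2 : ∀ i, ((w i).natAbs : ℝ) ≤ ‖(fun i => (w i : ℝ))‖ := by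
      intro i
      rw [Nat.cast_natAbs, Int.cast_abs]
      exact norm_le_pi_norm (fun i => (w i : ℝ)) i
    have h3 : ∑ i, ((w i).natAbs : ℝ) ≤ k * ‖(fun i => (w i : ℝ))‖ := by
      refine (Finset.sum_le_sum fun i _ => h2 i).trans (le_of_eq ?_)
      rw [Finset.sum_const, Finset.card_univ, Fintype.card_fin, nsmul_eq_mul]
    have h4 : 0 ≤ ‖(fun i => (w i : ℝ))‖ := norm_nonneg _
    have h5 : (0 : ℝ) ≤ k := Nat.cast_nonneg k
    nlinarith
  exact_mod_cast h1.trans (Nat.le_ceil _)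

/-- monotone polynomial bounds -/
theorem poly_mono {C C' x y : ℝ} {e e' : ℕ} (hC0 : 0 ≤ C) (hC : C ≤ C') (he : e ≤ e') (hx : 1 ≤ x)
    (hy : 0 ≤ y) : C * x ^ e * y ≤ C' * x ^ e' * y := by
  have h1 : x ^ e ≤ x ^ e' := pow_le_pow_right₀ hx he
  have h2 : 0 ≤ x ^ e := pow_nonneg (by linarith) _
  exact mul_le_mul_of_nonneg_right (mul_le_mul hC h1 h2 (hC0.trans hC)) hy

/-- **Existence of the real model.** -/
theorem exists_rmodel (hη : Function.Surjective η) {F : Set Γ} (hF : F.Finite)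
    (hgen : Subgroup.closure F = ⊤)
    (hspan : ∀ w : Fin k → ℝ, (∀ b ∈ ΦF D hη, b w = 0) → w = 0)
    (hdet : ∀ s : D.S, |LinearMap.det (D.AdE s)| = 1) :
    ∃ (t : D.S) (M : RModel D.S Γ D.R.V k), Conc D hη F t M := by
  classical
  have habel := comm_mem_ker η
  haveI := (HS D).normal
  haveI hcount : Countable Γ := countable_of_gen hF hgen
  obtain ⟨t, hs⟩ := (HS D).lrep.exists_sep
  have hfm := forms D hη
  -- the ideal
  have hinv : ∀ g, ∀ x ∈ eId D.AdE t, D.AdE g x ∈ eId D.AdE t := (HS D).lrep.eId_inv t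
  have hmet : Met D (wl (D.U F)) (eId D.AdE t) := met_of hη hF hgen hinv
    ((HS D).lrep.mem_PF_iff hs (covers_of_sep hs))
  -- the Cartan group
  obtain ⟨τ, hτC, hτη, hτ0, hτCB⟩ := exists_τ (D.θ η) ((HS D).C t) (fun w => exists_C D hη w)
  -- constants
  obtain ⟨CA, hA⟩ := D.exists_partA hη hF hgen
  obtain ⟨fl, CC, hC⟩ := exists_partC (D := D) hF hgen
  obtain ⟨F₁, hF₁⟩ := exists_F1 D hη
  obtain ⟨F0, hF0, C₀, hC₀, hFC₀⟩ := exists_F D
  obtain ⟨A, hAF, ⟨md⟩, MA, hMA1, hMA⟩ := exists_A hη hF hgen F₁ hF0 hC₀ hFC₀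
  obtain ⟨Cm, hCm0, hCm⟩ := hmet.met_e
  obtain ⟨Cl, el, hCl0, hCl⟩ := hfm.C_le habel hs hτC
  obtain ⟨Ck, ek, hCk0, hCk⟩ := H796.C_ker D habel hs hτC hτη
  obtain ⟨K, hK⟩ := H796.dec D habel hF hgen hτC hτη (fun w => ⟨_, hτCB D.nm _ D.ex w⟩)
  obtain ⟨ι, hι, X, wt, hwt, hX, hX1, hwts, hspn⟩ :=
    exists_letters D.nm (insert 0 (ΦF D hη)) (Vwt D hη t)
  obtain ⟨mE, jE, CE, hjE, hCE1, hCE⟩ := gen_field (D := D) X (fun i => wt i ∈ ΦF D hη)
    (eId D.AdE t).toSubmodule (fun v hv => mem_lieSpan_letters (fun b => b ∈ ΦF D hη)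
      (fun b hb => hspn b (Finset.mem_insert_of_mem hb)) (gen_e D hη hs v hv))
  obtain ⟨mN, jN, CN, hjN, hCN1, hCN⟩ := gen_field (D := D) X (fun i => wt i = 0)
    (Vwt D hη t 0) (fun v hv => mem_lieSpan_letters (Vw := Vwt D hη t) (fun b => b = 0)
      (fun b hb => by rw [hb]; exact hspn 0 (Finset.mem_insert_self _ _))
      (LieSubalgebra.subset_lieSpan ⟨0, rfl, hv⟩))
  obtain ⟨mult, hmult, hsum⟩ := hfm.exists_mult habel hη hs hdet
  have hk0 : (0 : ℝ) ≤ k := Nat.cast_nonneg k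
  have hK0 : (0 : ℝ) ≤ K := Nat.cast_nonneg K
  have hCA1 := hA.one_le
  have hCC1 := hC.one_le
  set C : ℝ := CA + CC + MA + Cm + Cl + Ck + CE + CN + k + K with hCdef
  have hV0 : ∀ n : ℕ, CBall D.nm (Vwt D hη t 0 : Set D.R.V) D.ex τ n =
      CBall D.nm (W D.AdE t 0 : Set D.R.V) D.ex τ n := fun n => by rw [Vwt_zero]
  have hA' := hA.mono D (C' := C) (by linarith)
  have hC' := hC.mono (C' := C) (by linarith)
  have hMA' := hMA C (by linarith)
  have f_met := hCm C (by linarith)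
  have f_mem_E : ∀ s, s ∈ ER (eId D.AdE t) ↔ ∃ v ∈ (eId D.AdE t).toSubmodule, D.ex v = s :=
    fun s => mem_ER_ex s
  have f_crossed : ∀ b ∈ ΦF D hη, ∃ c : Crossed (hgt ((D.θ η).comp D.inΓ)) b, c.u ∈ A := by
    intro b hb
    obtain ⟨c, hc⟩ := hF₁ b hb
    exact ⟨c, hAF hc⟩
  have f_C_inv : ∀ n, ∀ c ∈ CBall D.nm (Vwt D hη t 0 : Set D.R.V) D.ex τ n, ∀ b,
      ∀ v ∈ Vwt D hη t b, D.AdE c v ∈ Vwt D hη t b := by
    intro n c hc b v hv
    rw [hV0] at hc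
    exact Vwt_inv D hη (CBall_le_C D habel hτC hc) hv
  have f_C_le : ∀ n : ℕ, ∀ c ∈ CBall D.nm (Vwt D hη t 0 : Set D.R.V) D.ex τ n,
      ∀ b ∈ WtF D hη, ∀ v ∈ Vwt D hη t b,
      D.nm (D.AdE c v) ≤ C * (1 + n) ^ (el + ek) * Real.exp (b (hgt (D.θ η) c)) * D.nm v := by
    intro n c hc b hb v hv
    have h1 := hCl n c hc b hb v hv
    rw [mul_assoc] at h1 ⊢
    refine h1.trans (poly_mono hCl0 (by linarith) (Nat.le_add_right _ _) ?_ ?_)
    · linarith [(Nat.cast_nonneg n : (0 : ℝ) ≤ n)]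
    · exact mul_nonneg (Real.exp_pos _).le (apply_nonneg D.nm _)
  have f_C_ker : ∀ n : ℕ, ∀ c ∈ CBall D.nm (Vwt D hη t 0 : Set D.R.V) D.ex τ n, D.θ η c = 1 →
      ∃ v ∈ Vwt D hη t 0, D.ex v = c ∧ D.nm v ≤ C * (1 + n) ^ (el + ek) := by
    intro n c hc h1
    rw [hV0] at hc
    obtain ⟨v, hv, hvc, hvn⟩ := hCk n c hc h1
    refine ⟨v, by rw [Vwt_zero]; exact hv, hvc, hvn.trans ?_⟩
    have := poly_mono (y := 1) (x := 1 + (n : ℝ)) hCk0 (C' := C) (by linarith)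
      (Nat.le_add_left ek el) (by linarith [(Nat.cast_nonneg n : (0 : ℝ) ≤ n)]) zero_le_one
    rwa [mul_one, mul_one] at this
  have f_τ_CB' : ∀ w : Fin k → ℤ, τ w ∈ CBall D.nm (Vwt D hη t 0 : Set D.R.V) D.ex τ
      (∑ i, (w i).natAbs) := fun w => hτCB D.nm _ D.ex w
  have f_τ_CB : ∀ w : Fin k → ℤ, τ w ∈ CBall D.nm (Vwt D hη t 0 : Set D.R.V) D.ex τ
      ⌈C * (1 + ‖(fun i => (w i : ℝ))‖)⌉₊ := fun w =>
    CBall_mono (sum_natAbs_le w (by linarith)) (f_τ_CB' w)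
  have f_dec : ∀ s, ∃ v ∈ (eId D.AdE t).toSubmodule,
      ∃ c ∈ CBall D.nm (Vwt D hη t 0 : Set D.R.V) D.ex τ ⌈C * wl (D.U F) s⌉₊, s = D.ex v * c := by
    intro s
    obtain ⟨v, hv, c, hc, e⟩ := hK s
    refine ⟨v, hv, c, ?_, e⟩
    rw [hV0]
    refine CBall_mono ?_ hc
    have h1 : ((K * wl (D.U F) s : ℕ) : ℝ) ≤ C * wl (D.U F) s := by
      push_cast
      exact mul_le_mul_of_nonneg_right (by linarith) (Nat.cast_nonneg _)
    exact_mod_cast h1.trans (Nat.le_ceil _)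
  have f_gen_e := hCE C (by linarith)
  have f_gen_N := hCN C (by linarith)
  have f_wt : ∀ i, wt i ∈ ΦF D hη ∨ wt i = 0 := fun i =>
    (Finset.mem_insert.1 (hwt i)).symm
  refine ⟨t, {
    C0 := C
    one_le_C0 := by linarith
    l := wl (D.U F)
    len := hA'.len
    l_zero := hA'.l_zero
    l_path := hA'.l_path
    μ := muD D
    sfin := hC'.sfin
    mm := mm
    mi := mi
    mp := hC'.mp
    mpl := hC'.mpl
    ball_pos := hC'.ball_pos
    ball_lt := hC'.ball_lt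
    η := D.θ η
    η_surj := D.θ_surjective hη
    η_meas := hC'.η_meas
    η_le := hA'.η_le
    inG := D.inΓ
    inG_inj := D.P.inG_injective
    countable := hcount
    fl := fl
    fl_mul := hC'.fl_mul
    fl_meas := hC'.fl_meas
    fl_close := hC'.fl_close
    A := A
    md := md
    A_len := hMA'.1
    wordG := hMA'.2
    nm := D.nm
    nm_zero := D.nm_zero
    ex := D.ex
    ex_zero := D.ex_zero
    ex_inj := D.ex_injective
    ex_add := D.ex_add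
    ex_meas := hC'.ex_meas
    η_ex := D.θ_ex
    ex_of_η := D.ex_of_θ
    Ad := D.AdE
    ex_Ad := D.ex_AdE
    Ad_le := hA'.Ad_le
    Ad_ex_le := hA'.Ad_ex_le
    e := (eId D.AdE t).toSubmodule
    E := ER (eId D.AdE t)
    mem_E := f_mem_E
    E_normal := ER_normal hinv
    ex_mul_le := hA'.ex_mul_le
    met_V := hA'.met_V
    met_e := f_met
    met_lo := hA'.met_lo
    Wt := WtF D hη
    Vw := Vwt D hη t
    Vw_e := fun b hb => Vwt_e D hη hs hb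
    Φ := ΦF D hη
    Φ_sub := ΦF_sub D hη
    Φ_ne := fun b hb => ΦF_ne D hη hb
    Φ_span := hspan
    crossed := f_crossed
    mult := mult
    mult_pos := hmult
    unimod := hsum
    τ := τ
    η_τ := hτη
    C_inv := f_C_inv
    deg := el + ek
    C_le := f_C_le
    zero_mem_Wt := zero_mem_WtF D hη
    C_ker := f_C_ker
    τ_CB := f_τ_CB
    dec := f_dec
    ι := ι
    fin_ι := hι
    X := X
    wt := wt
    wt_mem := f_wt
    X_mem := hX
    X_le := hX1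
    wt_surj := fun b hb => hwts b (Finset.mem_insert_of_mem hb)
    cls := D.R.m
    rel := fun R => relS X R
    mE := mE
    jE := jE
    jE_ne := fun s => ΦF_ne D hη (hjE s)
    gen_e := f_gen_e
    mN := mN
    jN := jN
    jN_eq := hjN
    gen_N := f_gen_N }, ?_⟩
  exact {
    sep := hs
    l_eq := rfl
    μ_eq := rfl
    η_eq := rfl
    inG_eq := rfl
    nm_eq := rfl
    ex_eq := rfl
    Ad_eq := rfl
    e_eq := rfl
    E_eq := rfl
    Wt_eq := rfl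
    Φ_eq := rfl
    Vw_eq := rfl
    τ_mem := hτC
    τ_zero := hτ0
    τ_CB' := f_τ_CB'
    cls_eq := rfl
    letters_span := by
      rintro b (hb | rfl)
      · exact hspn b (Finset.mem_insert_of_mem hb)
      · exact hspn 0 (Finset.mem_insert_self _ _) }

end inst

end Vale.Agent.P188.Z1

end
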