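import Vale.Agent.P188.R.G030
import Vale.Agent.P188.R.G090
import Vale.Agent.P188.R.G056
import Vale.Agent.P188.R.G091
import Vale.Agent.P188.R.G078
import Vale.Agent.P188.R.G098
import Vale.Agent.P188.R.G085
import Vale.Agent.P188.R.G094
import Vale.Agent.P188.R.G102
import Vale.Agent.P188.R.G088
import Vale.Agent.P188.R.G065

section

/-!
Crossed homomorphisms of the real group `S` from generator weights of `Γ`.
-/

open MeasureTheory Topology Set Filter Vale.Agent.P188.H796 Vale.Agent.P188.H615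
open Vale.Agent.P188.H530 (hgt Crossed)
open Vale.Agent.P188.H754 (GenWeight)

set_option linter.unusedSectionVars false

universe u v

namespace Vale.Agent.P188.H131

variable {Γ : Type u} [Group Γ] {k : ℕ} {η : Γ →* Multiplicative (Fin k → ℤ)} {d n : ℕ}
  {D : MB η.ker d n}

theorem w_hom (w : GenWeight η.ker) (x y : η.ker) :
    w.φ ((x * y : η.ker) : Γ) = w.φ x + w.φ y := w.φ_mul _ x.2 _ y.2

variable (D) in
/-- the extension of the weight functional to the real group -/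
noncomputable def wR (w : GenWeight η.ker) (s : D.R.NR) : ℂ := PhiR D.R (fun x : η.ker => w.φ x) s

theorem wR_ι (w : GenWeight η.ker) (y : η.ker) : wR D w (D.R.ι y) = w.φ y :=
  PhiR_ι D.R (w_hom w) y

theorem wR_mul (w : GenWeight η.ker) (s t : D.R.NR) : wR D w (s * t) = wR D w s + wR D w t :=
  PhiR_mul D.R (w_hom w) s t

theorem wR_α (w : GenWeight η.ker) (g : Γ) (s : D.R.NR) :
    wR D w (D.P.α g s) = w.ρ g * wR D w s := by
  refine D.R.dens (f := fun s => wR D w (D.P.α g s)) (g := fun s => w.ρ g * wR D w s) ?_ ?_ ?_ s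
  · intro γ hγ
    let γ' : ℝ → D.R.NR := fun t => γ t
    refine PC_PhiR D.R _ (γ := fun t => D.P.α g (γ' t)) fun i => ?_
    refine PC_coord D.R (γ := fun t => D.P.α g (γ' t)) ?_ i
    refine ((D.R.PC_E hγ).map (D.Th (MulAut.conjNormal g)).toLinearMap).congr fun t => ?_
    exact D.toA_actM _ (γ' t)
  · intro γ hγ
    refine ((PC_PhiR D.R (fun x : η.ker => w.φ x) hγ).map
      (LinearMap.mulLeft ℝ (w.ρ g))).congr fun t => ?_
    rfl
  · intro y
    have h1 : D.P.α g (D.R.ι y) = D.R.ι ⟨g * y * g⁻¹, (inferInstance : η.ker.Normal).conj_mem y y.2 g⟩ :=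
      D.αΓ_ι g y
    rw [h1, wR_ι, wR_ι]
    exact w.φ_conj g y y.2

/-- the character on `S` -/
noncomputable def rS (D : MB η.ker d n) (w : GenWeight η.ker) : D.S →* ℂ :=
  (Units.coeHom ℂ).comp (D.P.lift w.ρ.toHomUnits (fun x => Units.ext (by
    rw [MonoidHom.coe_toHomUnits, w.ρ_of_mem x.2]; rfl)))

theorem rS_inΓ (w : GenWeight η.ker) (g : Γ) : rS D w (D.inΓ g) = w.ρ g := by
  unfold rS
  rw [MonoidHom.comp_apply, D.P.lift_inG]
  rfl

theorem rS_inN (w : GenWeight η.ker) (x : D.R.NR) : rS D w (D.inN x) = 1 := by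
  unfold rS
  rw [MonoidHom.comp_apply, D.P.lift_inK]
  rfl

theorem rS_gk (w : GenWeight η.ker) (g : Γ) (x : D.R.NR) : rS D w (gk D.P g x) = w.ρ g := by
  have : gk D.P g x = D.inΓ g * D.inN x := rfl
  rw [this, map_mul, rS_inN, rS_inΓ, mul_one]

open Classical in
/-- the functional on the kernel -/
noncomputable def fS (D : MB η.ker d n) (w : GenWeight η.ker) (s : D.S) : ℂ :=
  if h : ∃ x : D.R.NR, D.inN x = s then wR D w h.choose else 0

theorem fS_inN (w : GenWeight η.ker) (x : D.R.NR) : fS D w (D.inN x) = wR D w x := by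
  have h : ∃ y : D.R.NR, D.inN y = D.inN x := ⟨x, rfl⟩
  unfold fS
  rw [dif_pos h, D.P.inK_injective h.choose_spec]

theorem mem_ker_iff (s : D.S) : s ∈ (D.θ η).ker ↔ ∃ x : D.R.NR, D.inN x = s := by
  rw [D.θ_ker]; rfl

/-- **generator weights of `S`** -/
noncomputable def wS (D : MB η.ker d n) (w : GenWeight η.ker) : GenWeight (D.θ η).ker where
  ρ := rS D w
  φ := fS D w
  φ_mul := by
    intro s hs t ht
    obtain ⟨x, rfl⟩ := (mem_ker_iff s).1 hs
    obtain ⟨y, rfl⟩ := (mem_ker_iff t).1 ht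
    rw [← map_mul, fS_inN, fS_inN, fS_inN, wR_mul]
  φ_conj := by
    intro s t ht
    obtain ⟨y, rfl⟩ := (mem_ker_iff t).1 ht
    obtain ⟨g, x, rfl⟩ := exists_gk D.P s
    have h1 : gk D.P g x * D.inN y * (gk D.P g x)⁻¹ = D.inN (D.P.α g (x * y * x⁻¹)) := by
      have h2 : gk D.P g x = D.inΓ g * D.inN x := rfl
      have h3 := D.P.inG_conj g (x * y * x⁻¹)
      have h4 : D.inN (D.P.α g (x * y * x⁻¹)) = D.inΓ g * D.inN (x * y * x⁻¹) * (D.inΓ g)⁻¹ :=
        h3.symm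
      rw [h4, h2, map_mul, map_mul, map_inv]
      group
    rw [h1, fS_inN, fS_inN, wR_α, wR_mul, wR_mul, rS_gk]
    have h5 : wR D w x⁻¹ = - wR D w x := PhiR_inv D.R (w_hom w) x
    rw [h5]
    ring
  φ_ne := by
    obtain ⟨y, hy, h⟩ := w.φ_ne
    refine ⟨D.inN (D.R.ι ⟨y, hy⟩), (mem_ker_iff _).2 ⟨_, rfl⟩, ?_⟩
    rw [fS_inN, wR_ι]
    exact h

theorem exists_crossedS (w : GenWeight η.ker) (hη : Function.Surjective η)
    {b : (Fin k → ℝ) →L[ℝ] ℝ} (hb : ∀ g, b (hgt η g) = Real.log ‖w.ρ g‖) (hb0 : b ≠ 0) :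
    ∃ (c : Crossed (hgt (D.θ η)) b) (L : D.R.V →ₗ[ℝ] ℂ), (∀ v, c.D (D.ex v) = L v) ∧
      (∀ x y : D.R.V, L ⁅x, y⁆ = 0) ∧ (∃ v, L v ≠ 0) ∧ (∀ g, c.ρ (D.inΓ g) = w.ρ g) ∧
      (∀ x : η.ker, c.D (D.inΓ x) = w.φ x) := by
  have hb' : ∀ s, b (hgt (D.θ η) s) = Real.log ‖(wS D w).ρ s‖ := by
    intro s
    obtain ⟨g, x, rfl⟩ := exists_gk D.P s
    have h1 : hgt (D.θ η) (gk D.P g x) = hgt η g := by
      unfold hgt
      rw [θ_gk]
    have h2 : (wS D w).ρ (gk D.P g x) = w.ρ g := rS_gk w g x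
    rw [h1, h2, hb]
  have hη' : Function.Surjective (D.θ η) := by
    intro z
    obtain ⟨g, hg⟩ := hη z
    exact ⟨D.inΓ g, by rw [D.θ_inΓ, hg]⟩
  obtain ⟨c, hc1, hc2⟩ := Vale.Agent.P188.H530.exists_crossed (D.θ η) (wS D w) hb' hb0 hη'
  obtain ⟨L, hL⟩ := exists_lin D.R (φ := fun x : η.ker => w.φ x) (w_hom w)
  have h1 : ∀ x : D.R.NR, c.D (D.inN x) = wR D w x := by
    intro x
    rw [hc2 _ ((mem_ker_iff _).2 ⟨x, rfl⟩)]
    exact fS_inN w x
  refine ⟨c, L, fun v => ?_, lin_lie D.R (w_hom w) hL, ?_, fun g => ?_, fun x => ?_⟩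
  · rw [hL]
    exact h1 _
  · obtain ⟨y, hy, h⟩ := w.φ_ne
    refine ⟨D.R.Lo (D.R.ι ⟨y, hy⟩), ?_⟩
    rw [hL, D.R.Ex_Lo, PhiR_ι D.R (w_hom w)]
    exact h
  · rw [hc1]
    exact rS_inΓ w g
  · have h2 : D.inΓ (x : Γ) = D.inN (D.R.ι x) := D.P.inG_coe x
    rw [h2, h1, wR_ι]

theorem meas_crossed {b : (Fin k → ℝ) →L[ℝ] ℝ} (c : Crossed (hgt (D.θ η)) b)
    {L : D.R.V →ₗ[ℝ] ℂ} (hL : ∀ v, c.D (D.ex v) = L v) : Measurable c.D ∧ Measurable c.ρ := by
  have hρ : ∀ g x, c.ρ (gk D.P g x) = c.ρ (D.inΓ g) := by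
    intro g x
    have h1 : gk D.P g x = D.inΓ g * D.inN x := rfl
    have h2 : c.ρ (D.inN x) = 1 := by
      refine c.ρ_ker _ ?_
      rw [H530.hgt_eq_zero_iff]
      exact (mem_ker_iff _).2 ⟨x, rfl⟩
    rw [h1, c.ρ_mul, h2, mul_one]
  constructor
  · rw [measurable_S]
    intro g
    have h1 : (fun x : D.R.NR => c.D (gk D.P g x)) =
        fun x : D.R.NR => c.D (D.inΓ g) + c.ρ (D.inΓ g) * L (D.R.Lo x) := by
      funext x
      have h1 : gk D.P g x = D.inΓ g * D.inN x := rfl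
      have h2 : D.inN x = D.ex (D.R.Lo x) := by rw [MB.ex, D.R.Ex_Lo]
      rw [h1, c.D_mul, h2, hL]
    rw [h1]
    have h3 : Continuous fun x : D.R.NR => L (D.R.Lo x) :=
      (LinearMap.continuous_of_finiteDimensional L).comp D.R.continuous_Lo
    exact (continuous_const.add (continuous_const.mul h3)).measurable
  · rw [measurable_S]
    intro g
    have h1 : (fun x : D.R.NR => c.ρ (gk D.P g x)) = fun x : D.R.NR => c.ρ (D.inΓ g) := by
      funext x; exact hρ g x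
    rw [h1]
    exact measurable_const

/-- exponential bound -/
theorem crossed_le {b : (Fin k → ℝ) →L[ℝ] ℝ} (c : Crossed (hgt (D.θ η)) b)
    {L : D.R.V →ₗ[ℝ] ℂ} (hL : ∀ v, c.D (D.ex v) = L v) {F : Set Γ} (hF : F.Finite)
    (hgen : Subgroup.closure F = ⊤) :
    ∃ C : ℝ, 0 ≤ C ∧ ∀ x, ‖c.D x‖ ≤ Real.exp (C * (wl (D.U F) x + 1)) := by
  have hF' : (F ∪ F⁻¹).Finite := hF.union hF.inv
  obtain ⟨D1, hD1⟩ := (hF'.image fun f => ‖c.D (D.inΓ f)‖).bddAbove
  obtain ⟨E1, hE1⟩ := (hF'.image fun f => ‖c.ρ (D.inΓ f)‖).bddAbove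
  set Lc : D.R.V →L[ℝ] ℂ := LinearMap.toContinuousLinearMap L with hLc
  set Λ : ℝ := 1 + (|D1| + ‖Lc‖) + (1 + |E1|) with hΛ
  have hΛ1 : 1 ≤ Λ := by
    have := abs_nonneg D1
    have := abs_nonneg E1
    have := norm_nonneg Lc
    linarith
  have hz : ∀ z : D.S, (z ∈ D.U F ∨ z⁻¹ ∈ D.U F) →
      ‖c.D z‖ ≤ |D1| + ‖Lc‖ ∧ ‖c.ρ z‖ ≤ 1 + |E1| := by
    intro z hz
    rcases D.mem_U hz with ⟨f, hf, rfl⟩ | ⟨v, hv, rfl⟩
    · have hf' : f ∈ F ∪ F⁻¹ := by
        rcases hf with h | h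
        · exact Or.inl h
        · exact Or.inr h
      have h1 : ‖c.D (D.inΓ f)‖ ≤ D1 := hD1 ⟨f, hf', rfl⟩
      have h2 : ‖c.ρ (D.inΓ f)‖ ≤ E1 := hE1 ⟨f, hf', rfl⟩
      have := le_abs_self D1
      have := le_abs_self E1
      have := norm_nonneg Lc
      exact ⟨by linarith, by linarith⟩
    · have h0 : D.inN (D.R.Ex v) = D.ex v := rfl
      have h1 : ‖c.D (D.ex v)‖ ≤ ‖Lc‖ := by
        rw [hL]
        have h3 : ‖v‖ ≤ 1 := hv
        calc ‖Lc v‖ ≤ ‖Lc‖ * ‖v‖ := Lc.le_opNorm v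
          _ ≤ ‖Lc‖ * 1 := by gcongr
          _ = ‖Lc‖ := mul_one _
      have h2 : c.ρ (D.ex v) = 1 := by
        refine c.ρ_ker _ ?_
        rw [H530.hgt_eq_zero_iff]
        exact (mem_ker_iff _).2 ⟨_, rfl⟩
      rw [h0, h2, norm_one]
      have := abs_nonneg D1
      have := abs_nonneg E1
      exact ⟨by linarith, by linarith⟩
  have key : ∀ l : List D.S, (∀ a ∈ l, a ∈ D.U F ∨ a⁻¹ ∈ D.U F) →
      ‖c.D l.prod‖ ≤ Λ ^ l.length - 1 := by
    intro l
    induction l with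
    | nil => intro _; rw [List.prod_nil, c.D_one]; simp
    | cons a l ih =>
      intro h
      have h1 := ih fun x hx => h x (List.mem_cons_of_mem _ hx)
      obtain ⟨h2, h3⟩ := hz a (h a List.mem_cons_self)
      rw [List.prod_cons, c.D_mul, List.length_cons, pow_succ]
      refine (norm_add_le _ _).trans ?_
      rw [norm_mul]
      have hp : 1 ≤ Λ ^ l.length := one_le_pow₀ hΛ1
      have h4 : ‖c.ρ a‖ * ‖c.D l.prod‖ ≤ (1 + |E1|) * (Λ ^ l.length - 1) := by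
        refine mul_le_mul h3 h1 (norm_nonneg _) (by positivity)
      have h5 : 0 ≤ |E1| := abs_nonneg _
      have h6 : 0 ≤ |D1| + ‖Lc‖ := by positivity
      nlinarith [mul_nonneg h6 (sub_nonneg.2 hp)]
  refine ⟨Real.log Λ, Real.log_nonneg hΛ1, fun x => ?_⟩
  obtain ⟨l, h1, h2, h3⟩ := wl_list (D.closure_U hgen) x
  have h4 := key l h2
  rw [h3, h1] at h4
  have h5 : Λ ^ (wl (D.U F) x) ≤ Real.exp (Real.log Λ * (wl (D.U F) x + 1)) := by
    have e1 : Λ ^ (wl (D.U F) x) = Real.exp (Real.log Λ * wl (D.U F) x) := by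
      rw [mul_comm, Real.exp_nat_mul, Real.exp_log (by linarith)]
    rw [e1]
    refine Real.exp_le_exp.2 (mul_le_mul_of_nonneg_left (by linarith) (Real.log_nonneg hΛ1))
  linarith

end Vale.Agent.P188.H131

end

section

/-!
Natural boxes of the real nilpotent group: measurability and volumes.
-/

open MeasureTheory MeasureTheory.Measure Topology Set Filter Vale.Agent.P188.H796
  Vale.Agent.P188.H615
open scoped ENNReal Pointwise

set_option linter.unusedSectionVars false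

universe u v

namespace Vale.Agent.P188.H131

section nbx

variable {N : Type u} [Group N] {d n : ℕ} {D : MB N d n} {A : Type v} [NormedRing A]
  [NormedAlgebra ℝ A] [FiniteDimensional ℝ A] {R : RD D A} {ι : Type} [Fintype ι]

/-- the box spanned by letters `X i` of sizes `r i` -/
def Gb (X : ι → R.V) (r : ι → ℝ) : Set R.V :=
  {v | ∃ y : ι → ℝ, (∀ i, |y i| ≤ 1) ∧ v = ∑ i, (y i * r i) • X i}

theorem csy_Gb (X : ι → R.V) (r : ι → ℝ) : CSy (Gb X r) where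
  conv := by
    rintro _ ⟨y, hy, rfl⟩ _ ⟨z, hz, rfl⟩ a b ha hb hab
    refine ⟨fun i => a * y i + b * z i, fun i => ?_, ?_⟩
    · calc |a * y i + b * z i| ≤ |a * y i| + |b * z i| := abs_add_le _ _
        _ = a * |y i| + b * |z i| := by rw [abs_mul, abs_mul, abs_of_nonneg ha, abs_of_nonneg hb]
        _ ≤ a * 1 + b * 1 := by gcongr <;> [exact hy i; exact hz i]
        _ = 1 := by rw [mul_one, mul_one, hab]
    · rw [Finset.smul_sum, Finset.smul_sum, ← Finset.sum_add_distrib]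
      refine Finset.sum_congr rfl fun i _ => ?_
      rw [smul_smul, smul_smul, ← add_smul]
      congr 1; ring
  zero := ⟨0, by simp, by simp⟩
  neg := by
    rintro _ ⟨y, hy, rfl⟩
    refine ⟨fun i => -y i, fun i => by rw [abs_neg]; exact hy i, ?_⟩
    rw [← Finset.sum_neg_distrib]
    refine Finset.sum_congr rfl fun i _ => ?_
    rw [neg_mul, neg_smul]

theorem Gb_smul (X : ι → R.V) (c : ℝ) (r : ι → ℝ) : Gb X (fun i => c * r i) = c • Gb X r := by
  ext v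
  constructor
  · rintro ⟨y, hy, rfl⟩
    refine ⟨_, ⟨y, hy, rfl⟩, ?_⟩
    simp only
    rw [Finset.smul_sum]
    refine Finset.sum_congr rfl fun i _ => ?_
    rw [smul_smul]; congr 1; ring
  · rintro ⟨_, ⟨y, hy, rfl⟩, rfl⟩
    refine ⟨y, hy, ?_⟩
    simp only
    rw [Finset.smul_sum]
    refine Finset.sum_congr rfl fun i _ => ?_
    rw [smul_smul]; congr 1; ring

theorem mem_Gb_letter (X : ι → R.V) {r : ι → ℝ} {i : ι} {x : ℝ} (hx : |x| ≤ r i) :
    x • X i ∈ Gb X r := by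
  classical
  refine ⟨Pi.single i (x / r i), fun j => ?_, ?_⟩
  · by_cases h : j = i
    · subst h
      rw [Pi.single_eq_same, abs_div]
      have h0 : |x| ≤ |r j| := hx.trans (le_abs_self _)
      exact div_le_one_of_le₀ h0 (abs_nonneg _)
    · rw [Pi.single_eq_of_ne h, abs_zero]; exact zero_le_one
  · rw [Finset.sum_eq_single i]
    · rw [Pi.single_eq_same]
      by_cases h : r i = 0
      · rw [h] at hx ⊢
        have : x = 0 := abs_nonpos_iff.1 hx
        rw [this]; simp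
      · rw [div_mul_cancel₀ _ h]
    · intro j _ hj
      rw [Pi.single_eq_of_ne hj, zero_mul, zero_smul]
    · intro h; exact absurd (Finset.mem_univ i) h

theorem Gb_mono (X : ι → R.V) {r r' : ι → ℝ} (h0 : ∀ i, 0 ≤ r i) (h : ∀ i, r i ≤ r' i) :
    Gb X r ⊆ Gb X r' := by
  rintro _ ⟨y, hy, rfl⟩
  refine ⟨fun i => y i * r i / r' i, fun i => ?_, ?_⟩
  · rw [abs_div, abs_mul]
    have h1 : |r i| ≤ |r' i| := by
      rw [abs_of_nonneg (h0 i), abs_of_nonneg ((h0 i).trans (h i))]; exact h i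
    refine div_le_one_of_le₀ ?_ (abs_nonneg _)
    calc |y i| * |r i| ≤ 1 * |r' i| := mul_le_mul (hy i) h1 (abs_nonneg _) zero_le_one
      _ = |r' i| := one_mul _
  · refine Finset.sum_congr rfl fun i _ => ?_
    by_cases h2 : r' i = 0
    · have h3 : r i = 0 := le_antisymm (h2 ▸ h i) (h0 i)
      rw [h3, mul_zero, h2, mul_zero]
    · rw [div_mul_cancel₀ _ h2]

/-- the box is the convex hull of a finite set -/
theorem Gb_hull (X : ι → R.V) (r : ι → ℝ) : ∃ s : Set R.V, s.Finite ∧ Gb X r = convexHull ℝ s := by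
  classical
  let T : (ι → ℝ) →ₗ[ℝ] R.V :=
    ∑ i, (LinearMap.proj i : (ι → ℝ) →ₗ[ℝ] ℝ).smulRight (r i • X i)
  have hT : ∀ y, T y = ∑ i, (y i * r i) • X i := by
    intro y
    simp only [T, LinearMap.sum_apply, LinearMap.smulRight_apply, LinearMap.proj_apply, smul_smul]
  have hfin : (Set.pi univ fun _ : ι => ({-1, 1} : Set ℝ)).Finite :=
    Set.Finite.pi fun _ => by simp
  refine ⟨T '' (Set.pi univ fun _ : ι => ({-1, 1} : Set ℝ)), hfin.image _, ?_⟩
  rw [← LinearMap.image_convexHull, convexHull_pi]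
  ext v
  constructor
  · rintro ⟨y, hy, rfl⟩
    refine ⟨y, fun i _ => ?_, hT y⟩
    rw [convexHull_pair, segment_eq_Icc (by norm_num)]
    exact abs_le.1 (hy i)
  · rintro ⟨y, hy, rfl⟩
    refine ⟨y, fun i => ?_, hT y⟩
    have := hy i (mem_univ i)
    rw [convexHull_pair, segment_eq_Icc (by norm_num)] at this
    exact abs_le.2 this

theorem nbk_hull {G : Set R.V} (hG : ∃ s : Set R.V, s.Finite ∧ G = convexHull ℝ s) (j : ℕ) :
    ∃ s : Set R.V, s.Finite ∧ nbk G j = convexHull ℝ s := by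
  induction j with
  | zero => exact hG
  | succ j ih =>
    obtain ⟨s, hs, h1⟩ := hG
    obtain ⟨t, ht, h2⟩ := ih
    refine ⟨(fun p : R.V × R.V => ⁅p.1, p.2⁆) '' (s ×ˢ t), (hs.prod ht).image _, ?_⟩
    show convexHull ℝ {z | ∃ x ∈ G, ∃ y ∈ nbk G j, ⁅x, y⁆ = z} = _
    apply subset_antisymm
    · refine convexHull_min ?_ (convex_convexHull ℝ _)
      rintro _ ⟨x, hx, y, hy, rfl⟩
      rw [h1] at hx
      rw [h2] at hy
      set H := convexHull ℝ ((fun p : R.V × R.V => ⁅p.1, p.2⁆) '' (s ×ˢ t)) with hH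
      have e1 : ∀ a ∈ s, ⁅a, y⁆ ∈ H := by
        intro a ha
        have e2 : t ⊆ (LieAlgebra.ad ℝ R.V a : R.V →ₗ[ℝ] R.V) ⁻¹' H := by
          intro b hb
          exact subset_convexHull ℝ _ ⟨(a, b), ⟨ha, hb⟩, rfl⟩
        have e3 := convexHull_min e2 ((convex_convexHull ℝ _).linear_preimage
          (LieAlgebra.ad ℝ R.V a : R.V →ₗ[ℝ] R.V))
        exact e3 hy
      have e2 : s ⊆ (-(LieAlgebra.ad ℝ R.V y : R.V →ₗ[ℝ] R.V)) ⁻¹' H := by
        intro a ha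
        have := e1 a ha
        rw [← lie_skew] at this
        exact this
      have e3 := convexHull_min e2 ((convex_convexHull ℝ _).linear_preimage
          (-(LieAlgebra.ad ℝ R.V y : R.V →ₗ[ℝ] R.V)))
      have e4 := e3 hx
      have e5 : (-(LieAlgebra.ad ℝ R.V y : R.V →ₗ[ℝ] R.V)) x = ⁅x, y⁆ := by
        rw [LinearMap.neg_apply, LieAlgebra.ad_apply, lie_skew]
      rw [mem_preimage, e5] at e4
      exact e4
    · refine convexHull_mono ?_
      rintro _ ⟨⟨a, b⟩, ⟨ha, hb⟩, rfl⟩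
      exact ⟨a, by rw [h1]; exact subset_convexHull ℝ _ ha, b,
        by rw [h2]; exact subset_convexHull ℝ _ hb, rfl⟩

theorem isCompact_nb {G : Set R.V} (hG : ∃ s : Set R.V, s.Finite ∧ G = convexHull ℝ s) :
    IsCompact (nb G) := by
  have h : nb G = (fun x : Fin R.m → R.V => ∑ i, x i) '' (Set.pi univ fun i : Fin R.m => nbk G i) := by
    ext v
    constructor
    · rintro ⟨x, hx, rfl⟩
      exact ⟨x, fun i _ => hx i, rfl⟩
    · rintro ⟨x, hx, rfl⟩
      exact ⟨x, fun i => hx i (mem_univ i), rfl⟩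
  rw [h]
  refine (isCompact_univ_pi fun i => ?_).image (by fun_prop)
  obtain ⟨s, hs, h1⟩ := nbk_hull hG i
  rw [h1]
  exact hs.isCompact_convexHull ℝ

theorem isCompact_nbGb (X : ι → R.V) (r : ι → ℝ) : IsCompact (nb (Gb X r)) :=
  isCompact_nb (Gb_hull X r)

/-- natural boxes span the Lie algebra generated by the letters -/
theorem span_nb (X : ι → R.V) {r : ι → ℝ} (hr : ∀ i, 0 < r i)
    (hX : ∀ v, v ∈ LieSubalgebra.lieSpan ℝ R.V (Set.range X)) :
    Submodule.span ℝ (nb (Gb X r)) = ⊤ := by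
  have hcsv := csv_nb (csy_Gb X r)
  set C0 : ℝ := (R.m ^ 2 * 2 ^ R.m : ℝ) with hC0
  let W : LieSubalgebra ℝ R.V :=
    { Submodule.span ℝ (nb (Gb X r)) with
      lie_mem' := by
        intro x y hx hy
        have key : ∀ x ∈ nb (Gb X r), ∀ y ∈ Submodule.span ℝ (nb (Gb X r)),
            ⁅x, y⁆ ∈ Submodule.span ℝ (nb (Gb X r)) := by
          intro x hx y hy
          induction hy using Submodule.span_induction with
          | mem y hy =>
            obtain ⟨z, hz, h⟩ := hcsv.br x hx y hy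
            rw [← h]
            exact Submodule.smul_mem _ _ (Submodule.subset_span hz)
          | zero => rw [lie_zero]; exact Submodule.zero_mem _
          | add a b _ _ ha hb => rw [lie_add]; exact Submodule.add_mem _ ha hb
          | smul t a _ ha => rw [lie_smul]; exact Submodule.smul_mem _ t ha
        have hx' : x ∈ Submodule.span ℝ (nb (Gb X r)) := hx
        have hy' : y ∈ Submodule.span ℝ (nb (Gb X r)) := hy
        show ⁅x, y⁆ ∈ Submodule.span ℝ (nb (Gb X r))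
        clear hx hy
        induction hx' using Submodule.span_induction with
        | mem x hx => exact key x hx y hy'
        | zero => rw [zero_lie]; exact Submodule.zero_mem _
        | add a b _ _ ha hb => rw [add_lie]; exact Submodule.add_mem _ ha hb
        | smul t a _ ha => rw [smul_lie]; exact Submodule.smul_mem _ t ha }
  have h1 : LieSubalgebra.lieSpan ℝ R.V (Set.range X) ≤ W := by
    refine LieSubalgebra.lieSpan_le.2 ?_
    rintro _ ⟨i, rfl⟩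
    have h2 : r i • X i ∈ nb (Gb X r) :=
      sub_nb (csy_Gb X r) (mem_Gb_letter X (by rw [abs_of_pos (hr i)]))
    have h3 := (Submodule.span ℝ (nb (Gb X r))).smul_mem (r i)⁻¹ (Submodule.subset_span h2)
    rwa [inv_smul_smul₀ (hr i).ne'] at h3
  rw [eq_top_iff]
  intro v _
  exact h1 (hX v)

theorem interior_nb (X : ι → R.V) {r : ι → ℝ} (hr : ∀ i, 0 < r i)
    (hX : ∀ v, v ∈ LieSubalgebra.lieSpan ℝ R.V (Set.range X)) :
    (interior (nb (Gb X r))).Nonempty := by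
  have hc := csy_nb (csy_Gb X r)
  rw [hc.conv.interior_nonempty_iff_affineSpan_eq_top,
    AffineSubspace.affineSpan_eq_top_iff_vectorSpan_eq_top_of_nonempty ℝ R.V R.V ⟨0, hc.zero⟩,
    eq_top_iff, ← span_nb X hr hX]
  refine Submodule.span_le.2 fun v hv => ?_
  have := vsub_mem_vectorSpan ℝ hv hc.zero
  simpa using this

end nbx

section vol

variable {N : Type u} [Group N] {d n : ℕ} {D : MB N d n} {A : Type v} [NormedRing A]
  [NormedAlgebra ℝ A] [FiniteDimensional ℝ A] {R : RD D A} {ι : Type} [Fintype ι]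
  [MeasurableSpace A] [BorelSpace A] (μ : Measure R.V) [μ.IsAddHaarMeasure]

theorem vol_nb_pos (X : ι → R.V) {r : ι → ℝ} (hr : ∀ i, 0 < r i)
    (hX : ∀ v, v ∈ LieSubalgebra.lieSpan ℝ R.V (Set.range X)) : μ (nb (Gb X r)) ≠ 0 := by
  intro h
  have h1 := (isOpen_interior (s := nb (Gb X r))).measure_ne_zero μ (interior_nb X hr hX)
  exact h1 (measure_mono_null interior_subset h)

theorem vol_nb_fin (X : ι → R.V) (r : ι → ℝ) : μ (nb (Gb X r)) ≠ ⊤ :=
  (isCompact_nbGb X r).measure_lt_top.ne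

theorem vol_nb_smul (X : ι → R.V) (r : ι → ℝ) {c : ℝ} (hc : 1 ≤ c) :
    μ (nb (Gb X fun i => c * r i)) ≤
      ENNReal.ofReal (c ^ (R.m * Module.finrank ℝ R.V)) * μ (nb (Gb X r)) := by
  rw [Gb_smul]
  refine (measure_mono (nb_smul_sub (csy_Gb X r) hc)).trans (le_of_eq ?_)
  rw [addHaar_smul_of_nonneg _ (by positivity), ← pow_mul]

end vol

section S

variable {Γ : Type u} [Group Γ] {N : Subgroup Γ} [hN : N.Normal] {d n : ℕ} (D : MB N d n)
  {ι : Type} [Fintype ι]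

theorem ex_image (A : Set D.R.V) : D.ex '' A = gk D.P 1 '' (D.R.Ex '' A) := by
  rw [image_image]
  exact image_congr fun v _ => ex_eq_gk D v

/-- volume of subsets of `ker η` in logarithmic coordinates -/
theorem muD_ex {A : Set D.R.V} (hA : IsCompact A) : muD D (D.ex '' A) = volV D A := by
  have h1 : IsCompact (D.R.Ex '' A) := hA.image D.R.continuous_Ex
  rw [ex_image]
  refine (muS_image D.P (haarK D) h1.measurableSet 1).trans ?_
  unfold haarK muK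
  rw [map_apply D.R.continuous_Ex.measurable h1.measurableSet,
    preimage_image_eq _ D.R.Ex_injective]

theorem meas_ex [Countable Γ] {A : Set D.R.V} (hA : IsCompact A) :
    MeasurableSet (D.ex '' A) := by
  obtain ⟨F, hF, -⟩ := exists_F D
  have h1 : IsCompact (D.R.Ex '' A) := hA.image D.R.continuous_Ex
  rw [ex_image]
  exact measurableSet_gk_image hF 1 h1.measurableSet

/-- **natural boxes** -/
noncomputable def NBx (X : ι → D.R.V) (r : ι → ℝ) : Set D.S := D.ex '' nb (Gb X r)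

theorem mem_NBx_Ex {X : ι → D.R.V} {r : ι → ℝ} {k : D.R.NR} :
    D.inN k ∈ NBx D X r ↔ D.R.Lo k ∈ nb (Gb X r) := by
  constructor
  · rintro ⟨v, hv, h⟩
    have := D.P.inK_injective h
    rw [← this, D.R.Lo_Ex]; exact hv
  · intro h
    exact ⟨_, h, by show D.inN (D.R.Ex (D.R.Lo k)) = D.inN k; rw [D.R.Ex_Lo]⟩

theorem meas_NBx [Countable Γ] (X : ι → D.R.V) (r : ι → ℝ) : MeasurableSet (NBx D X r) :=
  meas_ex D (isCompact_nbGb X r)

theorem fin_NBx (X : ι → D.R.V) (r : ι → ℝ) : muD D (NBx D X r) ≠ ⊤ := by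
  unfold NBx
  rw [muD_ex D (isCompact_nbGb X r)]
  exact vol_nb_fin (volV D) X r

theorem pos_NBx (X : ι → D.R.V) (hX : ∀ v, v ∈ LieSubalgebra.lieSpan ℝ D.R.V (Set.range X))
    {r : ι → ℝ} (hr : ∀ i, 0 < r i) : muD D (NBx D X r) ≠ 0 := by
  unfold NBx
  rw [muD_ex D (isCompact_nbGb X r)]
  exact vol_nb_pos (volV D) X hr hX

theorem smul_NBx (X : ι → D.R.V) (r : ι → ℝ) {c : ℝ} (hc : 1 ≤ c) :
    muD D (NBx D X fun i => c * r i) ≤
      ENNReal.ofReal (c ^ (D.R.m * Module.finrank ℝ D.R.V)) * muD D (NBx D X r) := by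
  unfold NBx
  rw [muD_ex D (isCompact_nbGb X _), muD_ex D (isCompact_nbGb X _)]
  exact vol_nb_smul (volV D) X r hc

/-- field `dbl` -/
theorem dbl_NBx (X : ι → D.R.V) : ∀ Λ : ℝ, 1 ≤ Λ → ∃ C' : ℝ, ∀ r : ι → ℝ,
    muD D (NBx D X fun i => Λ * r i) ≤ ENNReal.ofReal C' * muD D (NBx D X r) :=
  fun Λ hΛ => ⟨_, fun r => smul_NBx D X r hΛ⟩

/-- field `fvol` -/
theorem fvol_NBx (X : ι → D.R.V) : ∀ ε : ℝ, 0 < ε → ∃ δ : ℝ, 0 < δ ∧ ∀ r : ι → ℝ,
    muD D (NBx D X fun i => (1 + δ) * r i) ≤ ENNReal.ofReal (1 + ε) * muD D (NBx D X r) := by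
  intro ε hε
  set M := D.R.m * Module.finrank ℝ D.R.V with hM
  have h1 : Tendsto (fun δ : ℝ => (1 + δ) ^ M) (𝓝[>] 0) (𝓝 1) := by
    have : Tendsto (fun δ : ℝ => (1 + δ) ^ M) (𝓝 0) (𝓝 ((1 + 0) ^ M)) :=
      ((continuous_const.add continuous_id).pow M).tendsto 0
    rw [add_zero, one_pow] at this
    exact this.mono_left nhdsWithin_le_nhds
  have h2 : ∀ᶠ δ : ℝ in 𝓝[>] 0, (1 + δ) ^ M < 1 + ε := h1.eventually_lt_const (by linarith)
  obtain ⟨δ, hδ, hδ0⟩ := (h2.and self_mem_nhdsWithin).exists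
  have hδ0' : 0 < δ := hδ0
  refine ⟨δ, hδ0', fun r => ?_⟩
  refine (smul_NBx D X r (by linarith)).trans ?_
  gcongr

end S

section fine

variable {N : Type u} [Group N] {d n : ℕ} {D : MB N d n} {A : Type v} [NormedRing A]
  [NormedAlgebra ℝ A] [FiniteDimensional ℝ A] (R : RD D A)

theorem nb_small {G : Set R.V} (h : CSy G) {c : ℝ} (hc0 : 0 < c) (hc : c ≤ 1) :
    nb (c • G) ⊆ c • nb G := by
  have h1 : CSy (c • G) := by
    refine ⟨h.conv.smul c, ⟨0, h.zero, by simp⟩, ?_⟩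
    rintro _ ⟨x, hx, rfl⟩
    exact ⟨-x, h.neg x hx, by simp⟩
  have h2 := smul_nb_sub h1 (c := c⁻¹) (one_le_inv₀ hc0 |>.2 hc)
  rw [inv_smul_smul₀ hc0.ne'] at h2
  intro x hx
  have h3 := h2 ⟨x, hx, rfl⟩
  exact ⟨_, h3, by simp only [smul_inv_smul₀ hc0.ne']⟩

/-- **products with small boxes** -/
theorem fmul_nb : ∃ C : ℝ, 0 ≤ C ∧ ∀ G : Set R.V, CSy G → ∀ c : ℝ, 0 < c → c ≤ 1 →
    ∀ x y : R.NR, R.Lo x ∈ nb G → R.Lo y ∈ nb (c • G) →
      R.Lo (x * y) ∈ nb ((1 + C * c) • G) ∧ R.Lo (y * x) ∈ nb ((1 + C * c) • G) := by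
  obtain ⟨C, hC, H⟩ := qbchE R (C0 := (R.m ^ 2 * 2 ^ R.m : ℝ)) (by positivity)
  refine ⟨C, hC, fun G hG c hc0 hc1 x y hx hy => ?_⟩
  obtain ⟨h1, h2, -⟩ := H (nb G) (csv_nb hG) c hc0.le hc1
  have hy' := nb_small R hG hc0 hc1 hy
  have key : ∀ z : R.V, z - R.Lo x ∈ (C * c) • nb G → z ∈ nb ((1 + C * c) • G) := by
    intro z hz
    have hcc : 0 ≤ C * c := by positivity
    refine smul_nb_sub hG (c := 1 + C * c) (by linarith) ?_
    have h3 : z = R.Lo x + (z - R.Lo x) := by abel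
    rw [h3, (csy_nb hG).conv.add_smul zero_le_one hcc, one_smul]
    exact Set.add_mem_add hx hz
  exact ⟨key _ (h1 x hx y hy'), key _ (h2 x hx y hy')⟩

end fine

section SF

variable {Γ : Type u} [Group Γ] {N : Subgroup Γ} [hN : N.Normal] {d n : ℕ} (D : MB N d n)
  {ι : Type} [Fintype ι]

/-- field `fmul` (both sides) -/
theorem fmul_NBx (X : ι → D.R.V) : ∀ ε : ℝ, 0 < ε → ∃ δ : ℝ, 0 < δ ∧ δ ≤ 1 ∧ ∀ r : ι → ℝ,
    ∀ x ∈ NBx D X r, ∀ y ∈ NBx D X (fun i => δ * r i),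
      x * y ∈ NBx D X (fun i => (1 + ε) * r i) ∧ y * x ∈ NBx D X (fun i => (1 + ε) * r i) := by
  obtain ⟨C, hC, H⟩ := fmul_nb D.R
  intro ε hε
  refine ⟨min 1 (ε / (C + 1)), by positivity, min_le_left _ _, ?_⟩
  intro r x hx y hy
  set δ := min 1 (ε / (C + 1)) with hδ
  have hδ0 : 0 < δ := by positivity
  have hCδ : C * δ ≤ ε := by
    have h1 : δ ≤ ε / (C + 1) := min_le_right _ _
    have h2 : (C + 1) * δ ≤ ε := by
      rw [le_div_iff₀ (by positivity)] at h1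
      linarith
    nlinarith
  obtain ⟨v, hv, rfl⟩ := hx
  obtain ⟨w, hw, rfl⟩ := hy
  rw [Gb_smul] at hw
  obtain ⟨h1, h2⟩ := H (Gb X r) (csy_Gb X r) δ hδ0 (min_le_left _ _) (D.R.Ex v) (D.R.Ex w)
    (by rw [D.R.Lo_Ex]; exact hv) (by rw [D.R.Lo_Ex]; exact hw)
  have key : ∀ k : D.R.NR, D.R.Lo k ∈ nb ((1 + C * δ) • Gb X r) →
      D.inN k ∈ NBx D X (fun i => (1 + ε) * r i) := by
    intro k hk
    rw [mem_NBx_Ex, Gb_smul]
    refine nb_mono ?_ hk
    rintro _ ⟨u, hu, rfl⟩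
    exact (csy_Gb X r).mem_mono (by positivity) (by linarith) ⟨u, hu, rfl⟩
  refine ⟨?_, ?_⟩
  · show D.inN (D.R.Ex v) * D.inN (D.R.Ex w) ∈ _
    rw [← map_mul]
    exact key _ h1
  · show D.inN (D.R.Ex w) * D.inN (D.R.Ex v) ∈ _
    rw [← map_mul]
    exact key _ h2

end SF

end Vale.Agent.P188.H131

end

section

/-!
The natural boxes of the real model.
-/

open Finset Filter Topology MeasureTheory
open scoped Pointwise

namespace Vale.Agent.P188.H615

open Vale.Agent.P188.H796 Vale.Agent.P188.H131 Vale.Agent.P188.Z1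

section coordR

variable {N : Type} [Group N] {d n : ℕ} {D : MB N d n} {A : Type} [NormedRing A]
  [NormedAlgebra ℝ A] [FiniteDimensional ℝ A] {R : RD D A} {ι : Type} [Fintype ι]

/-- coordinates in a family of vectors -/
theorem span_coord (X : ι → R.V) (p : ι → Prop)
    (W : Submodule ℝ R.V) (hW : W ≤ Submodule.span ℝ (X '' {i | p i})) :
    ∃ C : ℝ, 0 ≤ C ∧ ∀ v ∈ W, ∃ a : ι → ℝ, v = ∑ i, a i • X i ∧ (∀ i, ¬ p i → a i = 0) ∧
      ∀ i, |a i| ≤ C * ‖(v : A)‖ := by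
  classical
  let T : ({i // p i} → ℝ) →ₗ[ℝ] A :=
    ∑ i : {i // p i}, (LinearMap.proj i : ({i // p i} → ℝ) →ₗ[ℝ] ℝ).smulRight (X i : A)
  have hT : ∀ y, T y = ∑ i : {i // p i}, y i • (X i : A) := by
    intro y
    simp only [T, LinearMap.sum_apply, LinearMap.smulRight_apply, LinearMap.proj_apply]
  obtain ⟨g, hg⟩ := LinearMap.exists_rightInverse_of_surjective T.rangeRestrict
    (LinearMap.range_eq_top.2 T.surjective_rangeRestrict)
  obtain ⟨G, hG⟩ := LinearMap.exists_extend g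
  set c : ℝ := ‖LinearMap.toContinuousLinearMap G‖ with hc
  have hc0 : 0 ≤ c := norm_nonneg _
  refine ⟨c, hc0, fun v hv => ?_⟩
  have hvr : (v : A) ∈ LinearMap.range T := by
    have h1 : Submodule.span ℝ (X '' {i | p i}) ≤ (LinearMap.range T).comap R.V.subtype := by
      refine Submodule.span_le.2 ?_
      rintro _ ⟨i, hi, rfl⟩
      refine ⟨Pi.single ⟨i, hi⟩ 1, ?_⟩
      rw [hT, Finset.sum_eq_single (⟨i, hi⟩ : {i // p i})]
      · rw [Pi.single_eq_same, one_smul]; rfl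
      · intro j _ hj
        rw [Pi.single_eq_of_ne hj, zero_smul]
      · intro h; exact absurd (mem_univ _) h
    exact h1 (hW hv)
  have hTG : T (G (v : A)) = (v : A) := by
    have h1 : G (v : A) = g ⟨(v : A), hvr⟩ := by rw [← hG]; rfl
    have h2 := LinearMap.congr_fun hg ⟨(v : A), hvr⟩
    have h3 : T (g ⟨(v : A), hvr⟩) = (v : A) := congrArg Subtype.val h2
    rw [h1, h3]
  refine ⟨fun i => if h : p i then G (v : A) ⟨i, h⟩ else 0, ?_, fun i hi => dif_neg hi,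
    fun i => ?_⟩
  · apply Subtype.ext
    set a := G (v : A) with ha
    rw [← hTG, hT, Submodule.coe_sum]
    rw [← Fintype.sum_subtype_add_sum_subtype p (fun i => (((if h : p i then
      a ⟨i, h⟩ else 0) • X i : R.V) : A))]
    have h1 : ∑ i : {i // ¬ p i}, (((if h : p (i : ι) then
        a ⟨i, h⟩ else 0) • X i : R.V) : A) = 0 := by
      refine Finset.sum_eq_zero fun i _ => ?_
      rw [dif_neg i.2, zero_smul]; rfl
    rw [h1, add_zero]
    refine Finset.sum_congr rfl fun i _ => ?_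
    rw [dif_pos i.2]; rfl
  · by_cases h : p i
    · simp only [dif_pos h]
      have h1 := (LinearMap.toContinuousLinearMap G).le_opNorm (v : A)
      have h2 : (LinearMap.toContinuousLinearMap G) (v : A) = G (v : A) := rfl
      rw [h2] at h1
      exact (norm_le_pi_norm (G (v : A)) ⟨i, h⟩).trans h1
    · simp only [dif_neg h, abs_zero]
      exact mul_nonneg hc0 (norm_nonneg _)

end coordR

section folner

/-- invariance of the boxes under small boxes, from products and volumes -/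
theorem fol_of {S : Type} [Group S] [MeasurableSpace S] (μ : Measure S) {ι : Type}
    (Bx : (ι → ℝ) → Set S) (hmeas : ∀ R, MeasurableSet (Bx R)) (hfin : ∀ R, μ (Bx R) ≠ ⊤)
    (hmono : ∀ R R', (∀ i, 0 ≤ R i) → (∀ i, R i ≤ R' i) → Bx R ⊆ Bx R')
    (mp : ∀ w : S, MeasurePreserving (fun x => x * w) μ μ)
    (mpl : ∀ w : S, MeasurePreserving (fun x => w * x) μ μ)
    (fmul : ∀ ε : ℝ, 0 < ε → ∃ δ : ℝ, 0 < δ ∧ δ ≤ 1 ∧ ∀ R : ι → ℝ, (∀ i, 0 ≤ R i) →
      ∀ x ∈ Bx R, ∀ y ∈ Bx (fun i => δ * R i),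
        x * y ∈ Bx (fun i => (1 + ε) * R i) ∧ y * x ∈ Bx (fun i => (1 + ε) * R i))
    (fvol : ∀ ε : ℝ, 0 < ε → ∃ δ : ℝ, 0 < δ ∧ ∀ R : ι → ℝ, (∀ i, 0 < R i) →
      μ (Bx fun i => (1 + δ) * R i) ≤ ENNReal.ofReal (1 + ε) * μ (Bx R)) :
    ∀ ε : ℝ, 0 < ε → ∃ δ : ℝ, 0 < δ ∧ δ ≤ 1 ∧ ∀ R, (∀ i, 0 < R i) →
      ∀ x ∈ Bx (fun i => δ * R i), ∀ y ∈ Bx (fun i => δ * R i),
        μ {v | v ∈ Bx R ∧ x * v * y ∉ Bx R} ≤ ENNReal.ofReal ε * μ (Bx R) := by
  intro ε hε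
  obtain ⟨e, he, H⟩ := fvol ε hε
  set e1 : ℝ := min 1 (e / 3) with he1
  have he10 : 0 < e1 := by positivity
  have he11 : e1 ≤ 1 := min_le_left _ _
  have he12 : e1 ≤ e / 3 := min_le_right _ _
  have he13 : (1 + e1) * (1 + e1) ≤ 1 + e := by nlinarith
  obtain ⟨δ, hδ, hδ1, F⟩ := fmul e1 he10
  refine ⟨δ, hδ, hδ1, fun R hR x hx y hy => ?_⟩
  have hR0 : ∀ i, 0 ≤ R i := fun i => (hR i).le
  have hsub : Bx R ⊆ Bx fun i => (1 + e) * R i := hmono _ _ hR0 fun i => by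
    have := hR i
    nlinarith
  have key : ∀ v ∈ Bx R, x * v * y ∈ Bx fun i => (1 + e) * R i := by
    intro v hv
    have h1 := (F R hR0 v hv y hy).1
    have h2 := (F (fun i => (1 + e1) * R i) (fun i => mul_nonneg (by linarith) (hR0 i)) _ h1 x
      (hmono _ _ (fun i => mul_nonneg hδ.le (hR0 i)) (fun i => by
        have := hR i
        have : R i ≤ (1 + e1) * R i := by nlinarith
        exact mul_le_mul_of_nonneg_left this hδ.le) hx)).2
    rw [mul_assoc]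
    refine hmono _ _ (fun i => ?_) (fun i => ?_) h2
    · exact mul_nonneg (by linarith) (mul_nonneg (by linarith) (hR0 i))
    · rw [← mul_assoc]
      exact mul_le_mul_of_nonneg_right he13 (hR0 i)
  have hT : MeasurePreserving (fun v => x * v * y) μ μ := by
    have := (mp y).comp (mpl x)
    exact this
  have h1 : {v | v ∈ Bx R ∧ x * v * y ∉ Bx R} ⊆
      (fun v => x * v * y) ⁻¹' ((Bx fun i => (1 + e) * R i) \ Bx R) := by
    rintro v ⟨hv, hv2⟩
    exact ⟨key v hv, hv2⟩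
  refine (measure_mono h1).trans ?_
  rw [hT.measure_preimage ((hmeas _).diff (hmeas _)).nullMeasurableSet,
    measure_sdiff hsub (hmeas _).nullMeasurableSet (hfin _)]
  refine tsub_le_iff_right.2 ((H R hR).trans (le_of_eq ?_))
  rw [ENNReal.ofReal_add zero_le_one hε.le, ENNReal.ofReal_one, add_mul, one_mul, add_comm]

end folner

section nati

variable {Γ : Type} [Group Γ] {k : ℕ} {η : Γ →* Multiplicative (Fin k → ℤ)} {d n : ℕ}
  {D : MB η.ker d n}

theorem Gb_eq_LB {ι : Type} [Fintype ι] (X : ι → D.R.V) (r : ι → ℝ) : Gb X r = LB X r := by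
  ext v
  constructor
  · rintro ⟨y, hy, rfl⟩
    exact ⟨y, hy, sum_congr rfl fun i _ => by rw [smul_smul]⟩
  · rintro ⟨y, hy, rfl⟩
    exact ⟨y, hy, sum_congr rfl fun i _ => by rw [smul_smul]⟩

/-- the model is the concrete one, and the letters span the weight spaces -/
structure NatHyp (M : RModel D.S Γ D.R.V k) : Prop where
  hex : ∀ v, M.ex v = D.ex v
  hAd : ∀ s v, M.Ad s v = D.AdE s v
  hη : ∀ s, M.η s = D.θ η s
  hnm : ∀ v, M.nm v = D.nm v
  hμ : M.μ = muD D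
  span : ∀ b, (b ∈ M.Φ ∨ b = 0) → M.Vw b ≤ Submodule.span ℝ (M.X '' {i | M.wt i = b})
  e_gen : ∀ v ∈ M.e, v ∈ LieSubalgebra.lieSpan ℝ D.R.V (M.X '' {i | M.wt i ≠ 0})
  gen : ∀ v, v ∈ LieSubalgebra.lieSpan ℝ D.R.V (Set.range M.X)

variable (M : RModel D.S Γ D.R.V k)

theorem mulC {ι : Type} [Fintype ι] (X : ι → D.R.V) : ∃ C : ℝ, 1 ≤ C ∧ ∀ C' : ℝ, C ≤ C' →
    ∀ r : ι → ℝ, ∀ x ∈ NBx D X r, ∀ y ∈ NBx D X r, x * y ∈ NBx D X fun i => C' * r i := by
  obtain ⟨C, hC, H⟩ := fmul_nb D.R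
  refine ⟨1 + C, by linarith, fun C' hC' r => ?_⟩
  rintro _ ⟨v, hv, rfl⟩ _ ⟨w, hw, rfl⟩
  have h1 := (H (Gb X r) (csy_Gb X r) 1 one_pos le_rfl (D.R.Ex v) (D.R.Ex w)
    (by rw [D.R.Lo_Ex]; exact hv) (by rw [D.R.Lo_Ex, one_smul]; exact hw)).1
  change D.inN (D.R.Ex v) * D.inN (D.R.Ex w) ∈ _
  rw [← map_mul, mem_NBx_Ex, Gb_smul]
  refine nb_mono ?_ h1
  intro u hu
  exact (csy_Gb X r).mem_mono (by linarith) (by linarith) hu

theorem genC (ι : Type) [Fintype ι] : ∃ (p : ℕ) (J : Fin p → ι) (C : ℝ), 1 ≤ C ∧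
    ∀ C' : ℝ, C ≤ C' → ∀ (X : ι → D.R.V) (r : ι → ℝ), (∀ i, 0 ≤ r i) → ∀ u ∈ NBx D X r,
      ∃ x : Fin p → ℝ, (∀ t, |x t| ≤ C' * r (J t)) ∧
        u = (List.ofFn fun t => D.ex (x t • X (J t))).prod := by
  obtain ⟨p, J, C, hC, H⟩ := genW ι D.R.m
  refine ⟨p, J, C, hC, fun C' hC' X r hr => ?_⟩
  rintro _ ⟨v, hv, rfl⟩
  rw [Gb_eq_LB] at hv
  obtain ⟨x, hx, h⟩ := H (R := D.R) rfl X r hr (D.R.Ex v) (by rw [D.R.Lo_Ex]; exact hv)
  refine ⟨x, fun t => (hx t).trans (mul_le_mul_of_nonneg_right hC' (hr _)), ?_⟩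
  change D.inN (D.R.Ex v) = _
  rw [h, map_list_prod, List.map_ofFn]
  rfl

theorem conjC (h : NatHyp M) : ∃ C : ℝ, 0 ≤ C ∧ ∀ C' : ℝ, C ≤ C' →
    ∀ m, ∀ c ∈ M.CB m, ∀ r, M.Adm r → ∀ u ∈ NBx D M.X r,
      c * u * c⁻¹ ∈ NBx D M.X
        (fun i => C' * (1 + m) ^ M.deg * Real.exp (M.wt i (M.θ c)) * r i) := by
  classical
  have hco : ∀ i : M.ι, ∃ C : ℝ, 0 ≤ C ∧ ∀ v ∈ M.Vw (M.wt i), ∃ a : M.ι → ℝ,
      v = ∑ j, a j • M.X j ∧ (∀ j, M.wt j ≠ M.wt i → a j = 0) ∧ ∀ j, |a j| ≤ C * D.nm v := by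
    intro i
    exact span_coord M.X (fun j => M.wt j = M.wt i) (M.Vw (M.wt i)) (h.span _ (M.wt_mem i))
  choose Ci hCi0 hCi using hco
  set K : ℝ := (∑ i, Ci i) * M.C0 * Fintype.card M.ι with hK
  have hS0 : 0 ≤ ∑ i, Ci i := sum_nonneg fun i _ => hCi0 i
  have hC00 : 0 ≤ M.C0 := by linarith [M.one_le_C0]
  refine ⟨K, by positivity, fun C' hC' m c hc r hr => ?_⟩
  rintro _ ⟨v, hv, rfl⟩
  have e1 : c * D.ex v * c⁻¹ = D.ex (D.AdE c v) := (D.ex_AdE c v).symm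
  rw [e1]
  refine ⟨D.AdE c v, ?_, rfl⟩
  rw [Gb_eq_LB] at hv ⊢
  refine nb_map (D.AdE c) (D.Ad_lie c) ?_ hv
  refine map_LB M.X (D.AdE c) fun i => ?_
  have h1 : M.Ad c (M.X i) ∈ M.Vw (M.wt i) := M.C_inv m c hc _ _ (M.X_mem i)
  have hWt : M.wt i ∈ M.Wt := by
    rcases M.wt_mem i with h | h
    · exact M.Φ_sub h
    · rw [h]; exact M.zero_mem_Wt
  have h2 := M.C_le m c hc _ hWt _ (M.X_mem i)
  rw [h.hAd] at h1 h2
  rw [h.hnm, h.hnm] at h2
  obtain ⟨a, ha1, ha2, ha3⟩ := hCi i _ h1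
  have hX1 : D.nm (M.X i) ≤ 1 := by rw [← h.hnm]; exact M.X_le i
  refine ⟨fun j => r i * a j, ?_, fun j => ?_⟩
  · rw [map_smul]
    conv_lhs => rw [ha1]
    rw [smul_sum]
    exact sum_congr rfl fun j _ => by rw [smul_smul]
  · by_cases hj : M.wt j = M.wt i
    · have hrij : r i ≤ r j := by
        have := hr.le i [j] (by simp) (by simp [hj])
        simpa using this
      have hri := hr.pos i
      have hrj := hr.pos j
      set E : ℝ := Real.exp (M.wt i (M.θ c)) with hE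
      have hE0 : 0 < E := Real.exp_pos _
      have h3 : |a j| ≤ (∑ i, Ci i) * (M.C0 * (1 + m) ^ M.deg * E) := by
        refine (ha3 j).trans ?_
        refine mul_le_mul (single_le_sum (fun i _ => hCi0 i) (mem_univ i)) ?_
          (apply_nonneg _ _) hS0
        refine h2.trans ?_
        have : M.C0 * (1 + (m : ℝ)) ^ M.deg * E * D.nm (M.X i) ≤
            M.C0 * (1 + (m : ℝ)) ^ M.deg * E * 1 :=
          mul_le_mul_of_nonneg_left hX1 (by positivity)
        rw [mul_one] at this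
        exact this
      rw [abs_mul, abs_of_pos hri, hj]
      have h4 : r i * |a j| ≤ r j * ((∑ i, Ci i) * (M.C0 * (1 + m) ^ M.deg * E)) :=
        mul_le_mul hrij h3 (abs_nonneg _) hrj.le
      calc r i * |a j| * Fintype.card M.ι
          ≤ r j * ((∑ i, Ci i) * (M.C0 * (1 + m) ^ M.deg * E)) * Fintype.card M.ι :=
            mul_le_mul_of_nonneg_right h4 (Nat.cast_nonneg _)
        _ = K * ((1 + m) ^ M.deg * E * r j) := by rw [hK]; ring
        _ ≤ C' * ((1 + m) ^ M.deg * E * r j) :=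
            mul_le_mul_of_nonneg_right hC' (by positivity)
        _ = _ := by ring
    · have h3 : r i * a j = 0 := by rw [ha2 j hj, mul_zero]
      simp only [h3, abs_zero, zero_mul]
      have := hr.pos j
      have hC'0 : 0 ≤ C' := le_trans (by positivity) hC'
      positivity

theorem ballE (h : NatHyp M) : ∃ C : ℝ, 1 ≤ C ∧ ∀ C' : ℝ, C ≤ C' → ∀ v ∈ M.e,
    M.ex v ∈ NBx D M.X (M.two 1 (C' * (1 + M.nm v))) := by
  classical
  obtain ⟨C, hC, H⟩ := absorb (R := D.R) (fun i : {i // M.wt i ≠ 0} => M.X i) M.e (by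
    intro v hv
    have h1 : Set.range (fun i : {i // M.wt i ≠ 0} => M.X i) = M.X '' {i | M.wt i ≠ 0} := by
      ext x
      constructor
      · rintro ⟨i, rfl⟩
        exact ⟨i, i.2, rfl⟩
      · rintro ⟨i, hi, rfl⟩
        exact ⟨⟨i, hi⟩, rfl⟩
    rw [h1]
    exact h.e_gen v hv)
  refine ⟨C, hC, fun C' hC' v hv => ?_⟩
  rw [h.hex, h.hnm]
  refine ⟨v, ?_, rfl⟩
  have h1 := H C' hC' v hv
  refine nb_mono ?_ h1
  rintro _ ⟨y, hy, rfl⟩
  refine ⟨fun i => if h : M.wt i ≠ 0 then y ⟨i, h⟩ else 0, fun i => ?_, ?_⟩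
  · by_cases hi : M.wt i ≠ 0
    · simp only [dif_pos hi]; exact hy _
    · simp only [dif_neg hi, abs_zero]; exact zero_le_one
  · rw [← Fintype.sum_subtype_add_sum_subtype (fun i => M.wt i ≠ 0)]
    have h2 : ∑ i : {i // ¬ M.wt i ≠ 0}, ((if h : M.wt (i : M.ι) ≠ 0 then y ⟨i, h⟩ else 0) *
        M.two 1 (C' * (1 + D.nm v)) i) • M.X i = 0 := by
      refine Finset.sum_eq_zero fun i _ => ?_
      rw [dif_neg i.2, zero_mul, zero_smul]
    rw [h2, add_zero]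
    refine Finset.sum_congr rfl fun i _ => ?_
    simp only [dif_pos i.2]
    rw [RModel.two, if_neg i.2, smul_smul]
    rfl

theorem ball0 (h : NatHyp M) : ∃ C : ℝ, 0 ≤ C ∧ ∀ C' : ℝ, C ≤ C' → ∀ v ∈ M.Vw 0,
    M.ex v ∈ NBx D M.X (M.two (C' * (1 + M.nm v)) 1) := by
  classical
  obtain ⟨C, hC, H⟩ := span_coord M.X (fun i => M.wt i = 0) (M.Vw 0) (h.span 0 (Or.inr rfl))
  refine ⟨C, hC, fun C' hC' v hv => ?_⟩
  obtain ⟨a, ha1, ha2, ha3⟩ := H v hv
  rw [h.hex, h.hnm]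
  refine ⟨v, ?_, rfl⟩
  refine sub_nb (csy_Gb _ _) ?_
  rw [Gb_eq_LB]
  rw [ha1]
  refine mem_LB_of_le M.X a fun i => ?_
  have hn0 : 0 ≤ D.nm v := apply_nonneg _ _
  by_cases hi : M.wt i = 0
  · rw [RModel.two, if_pos hi, ← ha1]
    refine (ha3 i).trans ?_
    change C * D.nm v ≤ _
    nlinarith
  · rw [RModel.two, if_neg hi, ha2 i hi, abs_zero]
    exact zero_le_one

/-- **the natural boxes of the real model** -/
theorem exists_natBox (h : NatHyp M) : ∃ B : M.NatBox, B.Bx = NBx D M.X ∧ B.Fine := by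
  classical
  have := M.countable
  obtain ⟨C1, hC1, hmul⟩ := mulC (D := D) M.X
  obtain ⟨p, J, C2, hC2, hgen⟩ := genC (D := D) M.ι
  obtain ⟨C3, hC3, hconj⟩ := conjC M h
  obtain ⟨C4, hC4, hbe⟩ := ballE M h
  obtain ⟨C5, hC5, hb0⟩ := ball0 M h
  set C : ℝ := C1 + C2 + C3 + C4 + C5 with hC
  have hmono : ∀ R R' : M.ι → ℝ, (∀ i, 0 ≤ R i) → (∀ i, R i ≤ R' i) →
      NBx D M.X R ⊆ NBx D M.X R' := fun R R' h0 h1 =>
    Set.image_mono (nb_mono (Gb_mono M.X h0 h1))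
  have hmeas : ∀ R, MeasurableSet (NBx D M.X R) := meas_NBx D M.X
  have hfin : ∀ R, M.μ (NBx D M.X R) ≠ ⊤ := by
    intro R; rw [h.hμ]; exact fin_NBx D M.X R
  have hfmul : ∀ ε : ℝ, 0 < ε → ∃ δ : ℝ, 0 < δ ∧ δ ≤ 1 ∧ ∀ R : M.ι → ℝ, (∀ i, 0 ≤ R i) →
      ∀ x ∈ NBx D M.X R, ∀ y ∈ NBx D M.X (fun i => δ * R i),
        x * y ∈ NBx D M.X (fun i => (1 + ε) * R i) ∧
          y * x ∈ NBx D M.X (fun i => (1 + ε) * R i) := by
    intro ε hε
    obtain ⟨δ, h1, h2, h3⟩ := fmul_NBx D M.X ε hε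
    exact ⟨δ, h1, h2, fun R _ => h3 R⟩
  have hfvol : ∀ ε : ℝ, 0 < ε → ∃ δ : ℝ, 0 < δ ∧ ∀ R : M.ι → ℝ, (∀ i, 0 < R i) →
      M.μ (NBx D M.X fun i => (1 + δ) * R i) ≤ ENNReal.ofReal (1 + ε) * M.μ (NBx D M.X R) := by
    intro ε hε
    obtain ⟨δ, h1, h2⟩ := fvol_NBx D M.X ε hε
    exact ⟨δ, h1, fun R _ => by rw [h.hμ]; exact h2 R⟩
  let B : M.NatBox :=
    { C := C
      one_le := by linarith
      Bx := NBx D M.X
      meas := hmeas
      sub := by
        rintro R _ ⟨v, _, rfl⟩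
        rw [h.hη]; exact D.θ_ex v
      one := fun R hR => ⟨0, (csy_nb (csy_Gb _ _)).zero, D.ex_zero⟩
      mono := hmono
      inv := by
        rintro R _ ⟨v, hv, rfl⟩
        refine ⟨-v, (csy_nb (csy_Gb _ _)).neg v hv, ?_⟩
        change D.inN (D.R.Ex (-v)) = (D.inN (D.R.Ex v))⁻¹
        rw [D.R.Ex_neg, map_inv]
      mul := fun R hR x hx y hy => hmul C (by linarith) R x hx y hy
      letter := by
        intro R hR i x hx
        rw [h.hex]
        exact ⟨_, sub_nb (csy_Gb _ _) (mem_Gb_letter M.X hx), rfl⟩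
      m := p
      J := J
      gen := by
        intro R hR u hu
        obtain ⟨x, hx1, hx2⟩ := hgen C (by linarith) M.X R hR u hu
        exact ⟨x, hx1, by rw [hx2]; simp only [h.hex]⟩
      dg := M.deg
      conj := fun n c hc R hR u hu => hconj C (by linarith) n c hc R hR u hu
      ball_e := hbe C (by linarith)
      ball_0 := hb0 C (by linarith)
      fol := fol_of M.μ (NBx D M.X) hmeas hfin hmono M.mp M.mpl hfmul hfvol
      dbl := by
        intro Λ hΛ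
        obtain ⟨C', hC'⟩ := dbl_NBx D M.X Λ hΛ
        exact ⟨C', fun R _ => by rw [h.hμ]; exact hC' R⟩
      pos := by
        intro R hR
        rw [h.hμ]; exact pos_NBx D M.X h.gen hR
      fin := hfin }
  exact ⟨B, rfl, ⟨hfmul, hfvol⟩⟩

end nati

end Vale.Agent.P188.H615

end

section

/-!
# P188, Z1: the real model of a group with the data `Z0`, with the additional facts `Extra`
-/

set_option linter.all false

open MeasureTheory Set
open scoped commutatorElement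

namespace Vale.Agent.P188.Z1

open Vale.Agent.P188.H796 Vale.Agent.P188.H615 Vale.Agent.P188.H269 Vale.Agent.P188.H131
open Vale.Agent.P188.H530 (hgt Crossed Mod)

section inst

variable {Γ : Type} [Group Γ] {k : ℕ} {η : Γ →* Multiplicative (Fin k → ℤ)} {d n : ℕ}
  {D : MB η.ker d n}

/-- a functional which kills the brackets and all letters is zero -/
theorem Conc.lin_zero {hη : Function.Surjective η} {F : Set Γ} {t : D.S}
    {M : RModel D.S Γ D.R.V k} (hM : Conc D hη F t M) (L : D.R.V →ₗ[ℝ] ℂ)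
    (hL : ∀ x y : D.R.V, L ⁅x, y⁆ = 0) (hX : ∀ i, L (M.X i) = 0) (v : D.R.V) : L v = 0 := by
  -- the kernel is a subalgebra
  let K : LieSubalgebra ℝ D.R.V :=
    { LinearMap.ker L with lie_mem' := fun {x y} _ _ => hL x y }
  have hspan : ∀ b, (b ∈ M.Φ ∨ b = 0) → ∀ x ∈ M.Vw b, L x = 0 := by
    intro b hb x hx
    have h1 := hM.letters_span b hb hx
    have h2 : Submodule.span ℝ (M.X '' {i | M.wt i = b}) ≤ LinearMap.ker L := by
      rw [Submodule.span_le]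
      rintro _ ⟨i, _, rfl⟩
      exact hX i
    exact h2 h1
  rw [hM.Φ_eq, hM.Vw_eq] at hspan
  obtain ⟨x0, hx0, hx⟩ := exists_neutral_add D.AdE t v
  have h1 : L x0 = 0 := hspan 0 (Or.inr rfl) x0 (by rw [Vwt_zero]; exact hx0)
  have h2 : v - x0 ∈ K := by
    refine (LieSubalgebra.lieSpan_le.2 ?_) (gen_e D hη hM.sep (v - x0) hx)
    rintro x ⟨b, hb, hx⟩
    exact hspan b (Or.inl hb) x hx
  have h3 : L (v - x0) = 0 := h2
  rw [map_sub, h1, sub_zero] at h3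
  exact h3

/-- the additional facts -/
theorem Conc.extra {hη : Function.Surjective η} {F : Set Γ} (hF : F.Finite)
    (hgen : Subgroup.closure F = ⊤) {t : D.S}
    {M : RModel D.S Γ D.R.V k} (hM : Conc D hη F t M) : M.Extra where
  ex_list := by
    obtain ⟨C, e, _, h⟩ := D.ex_list_bound
    rw [hM.nm_eq, hM.ex_eq]
    exact ⟨C, e, h⟩
  crossS := by
    intro b hb
    rw [hM.Φ_eq, mem_ΦF] at hb
    obtain ⟨hb0, l, χ, hE, hl, hlog⟩ := hb
    obtain ⟨w, hw, _⟩ := exists_genWeight_of D hE hl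
    obtain ⟨c, L, hcL, hLb, ⟨v, hv⟩, _, _⟩ := exists_crossedS (D := D) w hη (b := b) (by
      intro g
      rw [hw, ← hlog, D.hgt_inΓ]) hb0
    obtain ⟨hm1, hm2⟩ := meas_crossed c hcL
    obtain ⟨C, _, hC⟩ := crossed_le c hcL hF hgen
    have c' : Crossed (hgt M.η) b := by rw [hM.η_eq]; exact c
    have key : ∀ (θ : D.S →* Multiplicative (Fin k → ℤ)) (hθ : M.η = θ)
        (c : Crossed (hgt θ) b), Measurable c.D → Measurable c.ρ →
        (∀ v, c.D (M.ex v) = L v) → (∀ x, ‖c.D x‖ ≤ Real.exp (C * (M.l x + 1))) →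
        Nonempty (M.CrossS b) := by
      rintro θ rfl c h1 h2 h3 h4
      refine RModel.crossS_of_lin c h1 h2 L h3 (CL := ‖LinearMap.toContinuousLinearMap L‖) ?_ ?_ h4
      · intro v
        rw [hM.nm_eq]
        exact (LinearMap.toContinuousLinearMap L).le_opNorm v
      · by_contra hcon
        push Not at hcon
        exact hv (hM.lin_zero L hLb hcon v)
    refine key (D.θ η) hM.η_eq c hm1 hm2 ?_ ?_
    · rw [hM.ex_eq]; exact hcL
    · rw [hM.l_eq]; exact hC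

end inst

/-- **The real model of `Γ`.** -/
theorem exists_model {Γ : Type} [Group Γ] {k : ℕ} {η : Γ →* Multiplicative (Fin k → ℤ)}
    (h : H187.Z0 Γ k η) : ∃ (d n : ℕ) (D : MB η.ker d n) (F : Set Γ) (t : D.S)
      (M : RModel D.S Γ D.R.V k), Conc D h.surj F t M ∧ M.Extra ∧ M.η.comp M.inG = η ∧
      F.Finite ∧ Subgroup.closure F = ⊤ := by
  obtain ⟨d, n, ⟨D⟩, F, hF, hgen, _, _⟩ := Z0_data h
  obtain ⟨t, M, hM⟩ := exists_rmodel D h.surj hF hgen (Φ_span D h.surj h.weights)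
    (H796.abs_det_AdE D)
  refine ⟨d, n, D, F, t, M, hM, hM.extra hF hgen, ?_, hF, hgen⟩
  rw [hM.η_eq, hM.inG_eq, D.θ_comp]

end Vale.Agent.P188.Z1

end

section

/-!
# P188, route A, block hinput: natural boxes in exponential coordinates of `E`
-/

set_option linter.all false

open MeasureTheory Set Filter Topology
open scoped Pointwise

namespace Vale.Agent.P188.H235

open Vale.Agent.P188.H796 Vale.Agent.P188.H131 Vale.Agent.P188.Z1 Vale.Agent.P188.H615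

variable {Γ : Type} [Group Γ] {k : ℕ} {η : Γ →* Multiplicative (Fin k → ℤ)} {d n : ℕ}
  {D : MB η.ker d n} {M : RModel D.S Γ D.R.V k} {B : M.NatBox}

theorem chart_pre (h : NatHyp M) (hB : B.Bx = NBx D M.X) {m : ℕ} (T : (Fin m → ℝ) →ₗ[ℝ] D.R.V)
    (R : M.ι → ℝ) : {x | M.ex (T x) ∈ B.Bx R} = T ⁻¹' (nb (Gb M.X R)) := by
  ext x
  show M.ex (T x) ∈ B.Bx R ↔ T x ∈ nb (Gb M.X R)
  rw [hB]
  constructor
  · rintro ⟨v, hv, hvx⟩
    rw [← h.hex] at hvx
    rwa [← M.ex_inj hvx]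
  · intro hx
    exact ⟨T x, hx, (h.hex _).symm⟩

theorem chart_cvx (h : NatHyp M) (hB : B.Bx = NBx D M.X) {m : ℕ} (T : (Fin m → ℝ) →ₗ[ℝ] D.R.V)
    (R : M.ι → ℝ) : Convex ℝ {x | M.ex (T x) ∈ B.Bx R} := by
  rw [chart_pre h hB]
  exact (csy_nb (csy_Gb M.X R)).conv.linear_preimage T

theorem chart_cpt (h : NatHyp M) (hB : B.Bx = NBx D M.X) {m : ℕ} (T : (Fin m → ℝ) →ₗ[ℝ] D.R.V)
    (hT : Function.Injective T) (R : M.ι → ℝ) : IsCompact {x | M.ex (T x) ∈ B.Bx R} := by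
  rw [chart_pre h hB]
  exact (LinearMap.isClosedEmbedding_of_injective (LinearMap.ker_eq_bot.2 hT)).isCompact_preimage
    (isCompact_nbGb M.X R)

theorem nb_nhds (h : NatHyp M) {R : M.ι → ℝ} (hR : ∀ i, 0 < R i) :
    nb (Gb M.X R) ∈ 𝓝 (0 : D.R.V) := by
  have hc := csy_nb (csy_Gb M.X R)
  obtain ⟨x, hx⟩ := interior_nb M.X hR h.gen
  have h1 := hc.neg x (interior_subset hx)
  have h2 := hc.conv.combo_interior_self_mem_interior hx h1 (a := 1 / 2) (b := 1 / 2)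
    (by norm_num) (by norm_num) (by norm_num)
  rw [smul_neg, add_neg_cancel] at h2
  exact mem_interior_iff_mem_nhds.1 h2

theorem chart_int (h : NatHyp M) (hB : B.Bx = NBx D M.X) {m : ℕ} (T : (Fin m → ℝ) →ₗ[ℝ] D.R.V)
    {R : M.ι → ℝ} (hR : ∀ i, 0 < R i) : {x | M.ex (T x) ∈ B.Bx R} ∈ 𝓝 (0 : Fin m → ℝ) := by
  rw [chart_pre h hB]
  have hc : Continuous T := T.continuous_of_finiteDimensional
  refine hc.continuousAt.preimage_mem_nhds ?_
  rw [map_zero]
  exact nb_nhds h hR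

end Vale.Agent.P188.H235

end

section

/-!
Matching boxes for the real model.
-/

open Finset Filter Topology Pointwise

namespace Vale.Agent.P188.H615

open Vale.Agent.P188.H796 Vale.Agent.P188.H131 Vale.Agent.P188.Z1 Vale.Agent.P188.H269

section hyp

variable {Γ : Type} [Group Γ] {k : ℕ} {η : Γ →* Multiplicative (Fin k → ℤ)} {d n : ℕ}
  {D : MB η.ker d n}

/-- products in homogeneous boxes -/
theorem hb_mulE (e : LieIdeal ℝ D.R.V) {r : ℝ} (hr1 : 1 ≤ r) : ∃ D' : ℝ, 1 ≤ D' ∧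
    ∀ ρ : ℝ, ∀ x ∈ EK D.R (r • hb D.R e.toSubmodule ρ),
      ∀ y ∈ EK D.R (r • hb D.R e.toSubmodule ρ),
      x * y ∈ EK D.R (D' • hb D.R e.toSubmodule ρ) := by
  have hr0 : 0 < r := by linarith
  have he : ∀ x ∈ e.toSubmodule, ∀ y ∈ e.toSubmodule, ⁅x, y⁆ ∈ e.toSubmodule :=
    fun x _ y hy => e.lie_mem hy
  obtain ⟨C2, hC2, H2⟩ := qbchE D.R (C0 := r * (2 * (D.R.m : ℝ) ^ 2)) (by positivity)
  refine ⟨(C2 + 1) * r, by nlinarith, fun ρ x hx y hy => ?_⟩
  have hK := (csv_hb (R := D.R) (e := e.toSubmodule) ρ).smul hr0.le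
  have h3 := (H2 _ hK 1 zero_le_one le_rfl).1 x hx y (by rw [one_smul]; exact hy)
  rw [mul_one] at h3
  have h4 : D.R.Lo x ∈ (1 : ℝ) • r • hb D.R e.toSubmodule ρ := by rw [one_smul]; exact hx
  have h5 := hK.mem_add hC2 zero_le_one h3 h4
  rw [sub_add_cancel, smul_smul] at h5
  exact h5

theorem lo_mem_of_hb {e : LieIdeal ℝ D.R.V} {c ρ : ℝ} {x : D.R.NR}
    (hx : x ∈ EK D.R (c • hb D.R e.toSubmodule ρ)) : D.R.Lo x ∈ e := by
  have he : ∀ x ∈ e.toSubmodule, ∀ y ∈ e.toSubmodule, ⁅x, y⁆ ∈ e.toSubmodule :=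
    fun x _ y hy => e.lie_mem hy
  obtain ⟨w, hw, hw2⟩ := hx
  rw [← hw2]
  exact e.smul_mem _ (hb_le he hw)

theorem mem_one_hb {e : LieIdeal ℝ D.R.V} {c ρ : ℝ} (hc : 1 ≤ c) {x : D.R.NR}
    (hx : x ∈ EK D.R (hb D.R e.toSubmodule ρ)) : x ∈ EK D.R (c • hb D.R e.toSubmodule ρ) := by
  have h1 : D.R.Lo x ∈ (1 : ℝ) • hb D.R e.toSubmodule ρ := by rw [one_smul]; exact hx
  exact (csv_hb _).mem_mono zero_le_one hc h1

open Classical in
/-- **matching boxes**, with all the lengths and memberships -/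
theorem hypBoxE {l : D.S → ℕ} {e : LieIdeal ℝ D.R.V} (hM : Met D l e) (hP : Pieces D l e) :
    ∃ M C : ℕ, ∀ ε : ℝ, 0 < ε → ∃ Cε : ℝ, ∀ R : ℕ, ∃ (P : Finset D.S) (X1 X2 : Finset D.R.NR),
      (P.card : ℝ) ≤ Cε * Real.exp (ε * R) ∧ X1.Nonempty ∧ X2.card ≤ M * X1.card ∧
      (∀ x ∈ X1, D.R.Lo x ∈ e) ∧ (∀ x ∈ X2, D.R.Lo x ∈ e) ∧
      (∀ x ∈ X1, l (D.inN x) ≤ C * (R + 1)) ∧ (∀ x ∈ X2, l (D.inN x) ≤ C * (R + 1)) ∧
      (∀ p ∈ P, l p ≤ C * (R + 1)) ∧
      ∀ s : D.S, l s ≤ R → ∃ p ∈ P, ∃ Φ : D.R.NR → D.R.NR, (∀ x ∈ X1, Φ x ∈ X2) ∧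
        (∀ y ∈ X2, (X1.filter fun x => Φ x = y).card ≤ M) ∧
        ∀ x ∈ X1, l ((s * D.inN x)⁻¹ * (p * D.inN (Φ x))) ≤ C := by
  obtain ⟨CP, hCP⟩ := hP
  obtain ⟨Cu, hCu, hup⟩ := hM.up
  obtain ⟨Cl, hCl, hlow⟩ := hM.low
  obtain ⟨r, hr1, hr⟩ := hM.ad CP
  have he : ∀ x ∈ e.toSubmodule, ∀ y ∈ e.toSubmodule, ⁅x, y⁆ ∈ e.toSubmodule :=
    fun x _ y hy => e.lie_mem hy
  obtain ⟨D', hD'1, hmul⟩ := hb_mulE e hr1
  obtain ⟨M, hMn⟩ := netE (R := D.R) (e := e.toSubmodule) he hD'1 (by linarith : 0 < r)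
  have hK0 : 0 ≤ Cl * (1 + (2 * (CP : ℝ) + 1)) := by positivity
  obtain ⟨C3, hC3⟩ := len_hb (D := D) (e := e) hCu hup hD'1 hK0
  obtain ⟨C4, hC4⟩ : ∃ C4 : ℕ, C4 = CP + C3 + ⌈Cu * (1 + Real.log (1 + 1))⌉₊ := ⟨_, rfl⟩
  have hC41 : C3 ≤ C4 := by omega
  have hC42 : CP ≤ C4 := by omega
  have hC43 : CP + ⌈Cu * (1 + Real.log (1 + 1))⌉₊ ≤ C4 := by omega
  refine ⟨M, C4, fun ε hε => ?_⟩
  obtain ⟨Cε, hCε⟩ := hCP ε hε
  refine ⟨Cε, fun R => ?_⟩
  obtain ⟨P, hP1, hP2, hP3⟩ := hCε R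
  have hρ1 : 1 ≤ Real.exp (Cl * (1 + (2 * (CP : ℝ) + 1)) * (R + 1)) :=
    Real.one_le_exp (by positivity)
  obtain ⟨X1, X2, hX1n, hX1, hX2, hX12, hX2c, hX1f⟩ := hMn _ hρ1
  refine ⟨P, X1, X2, hP1, hX1n, hX12, fun x hx => lo_mem_of_hb (mem_one_hb le_rfl (hX1 x hx)),
    fun x hx => lo_mem_of_hb (hX2 x hx), fun x hx =>
      (hC3 R x (mem_one_hb hD'1 (hX1 x hx))).trans (Nat.mul_le_mul_right _ hC41),
    fun x hx => (hC3 R x (hX2 x hx)).trans (Nat.mul_le_mul_right _ hC41),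
    fun p hp => (hP2 p hp).trans (Nat.mul_le_mul_right _ hC42), fun s hs => ?_⟩
  obtain ⟨p, hp, X, hX, b, hsb, hb'⟩ := hP3 s hs
  have hXρ := mem_hb_of_len (D := D) (e := e) hM.sub hCl hlow CP R s p b X hX hs (hP2 p hp) hb' hsb
  obtain ⟨Φ, h1, h2, h3⟩ := match_aux hM hCu hup hr1 (hmul _) hX1 hX2c hX1f s p b X hXρ hb' hsb hr
  exact ⟨p, hp, Φ, h1, h2, fun x hx => (h3 x hx).trans hC43⟩

/-- the metric facts for the exponential radical of the model -/
theorem met_conc {hη : Function.Surjective η} {F : Set Γ} (hF : F.Finite)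
    (hgen : Subgroup.closure F = ⊤) {t : D.S} {M : RModel D.S Γ D.R.V k}
    (hM : Conc D hη F t M) : Met D (wl (D.U F)) (eId D.AdE t) :=
  haveI := (HS D).normal
  met_of hη hF hgen ((HS D).lrep.eId_inv t)
    ((HS D).lrep.mem_PF_iff hM.sep (covers_of_sep hM.sep))

/-- the decomposition into pieces for the exponential radical of the model -/
theorem pieces_conc {hη : Function.Surjective η} {F : Set Γ} (hF : F.Finite)
    (hgen : Subgroup.closure F = ⊤) {t : D.S} {M : RModel D.S Γ D.R.V k}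
    (hM : Conc D hη F t M) : Pieces D (wl (D.U F)) (eId D.AdE t) :=
  haveI := (HS D).normal
  exists_pieces hF hgen fun S _ hε => (HS D).lrep.exists_seminorm hM.sep S hε

open Classical in
/-- **Matching boxes in the real model.** -/
theorem hypBox_model {hη : Function.Surjective η} {F : Set Γ} (hF : F.Finite)
    (hgen : Subgroup.closure F = ⊤) {t : D.S} {M : RModel D.S Γ D.R.V k}
    (hM : Conc D hη F t M) : ∃ M' C : ℕ, ∀ ε : ℝ, 0 < ε → ∃ Cε : ℝ, ∀ R : ℕ,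
      ∃ P X1 X2 : Finset D.S,
      (P.card : ℝ) ≤ Cε * Real.exp (ε * R) ∧ X1.Nonempty ∧ X2.card ≤ M' * X1.card ∧
      (∀ x ∈ X1, x ∈ M.E) ∧ (∀ x ∈ X2, x ∈ M.E) ∧
      (∀ x ∈ X1, M.l x ≤ C * (R + 1)) ∧ (∀ x ∈ X2, M.l x ≤ C * (R + 1)) ∧
      (∀ p ∈ P, M.l p ≤ C * (R + 1)) ∧
      ∀ s : D.S, M.l s ≤ R → ∃ p ∈ P, ∃ Φ : D.S → D.S, (∀ x ∈ X1, Φ x ∈ X2) ∧
        (∀ y ∈ X2, (X1.filter fun x => Φ x = y).card ≤ M') ∧
        ∀ x ∈ X1, M.l ((s * x)⁻¹ * (p * Φ x)) ≤ C := by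
  obtain ⟨M', C, H⟩ := hypBoxE (met_conc hF hgen hM) (pieces_conc hF hgen hM)
  refine ⟨M', C, fun ε hε => ?_⟩
  obtain ⟨Cε, H⟩ := H ε hε
  refine ⟨Cε, fun R => ?_⟩
  obtain ⟨P, X1, X2, h1, h2, h3, h4, h5, h6, h7, h8, h10⟩ := H R
  have hinj : Function.Injective (D.inN : D.R.NR → D.S) := D.P.inK_injective
  have hE : ∀ x : D.R.NR, D.R.Lo x ∈ eId D.AdE t → D.inN x ∈ M.E := by
    intro x hx
    rw [hM.E_eq, mem_ER]
    refine ⟨_, hx, ?_⟩
    change D.inN (D.R.Ex (D.R.Lo x)) = _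
    rw [D.R.Ex_Lo]
  rw [hM.l_eq]
  refine ⟨P, X1.image D.inN, X2.image D.inN, h1, h2.image _, ?_, ?_, ?_, ?_, ?_, h8, ?_⟩
  · rw [card_image_of_injective _ hinj, card_image_of_injective _ hinj]; exact h3
  · intro x hx
    obtain ⟨y, hy, rfl⟩ := Finset.mem_image.1 hx
    exact hE y (h4 y hy)
  · intro x hx
    obtain ⟨y, hy, rfl⟩ := Finset.mem_image.1 hx
    exact hE y (h5 y hy)
  · intro x hx
    obtain ⟨y, hy, rfl⟩ := Finset.mem_image.1 hx
    exact h6 y hy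
  · intro x hx
    obtain ⟨y, hy, rfl⟩ := Finset.mem_image.1 hx
    exact h7 y hy
  · intro s hs
    obtain ⟨p, hp, Φ, e1, e2, e3⟩ := h10 s hs
    have hinv : ∀ x : D.R.NR, Function.invFun (D.inN : D.R.NR → D.S) (D.inN x) = x :=
      Function.leftInverse_invFun hinj
    refine ⟨p, hp, fun z => D.inN (Φ (Function.invFun (D.inN : D.R.NR → D.S) z)), ?_, ?_, ?_⟩
    · intro x hx
      obtain ⟨y, hy, rfl⟩ := Finset.mem_image.1 hx
      simp only [hinv]
      exact mem_image_of_mem _ (e1 y hy)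
    · intro z hz
      obtain ⟨y, hy, rfl⟩ := Finset.mem_image.1 hz
      refine le_trans ?_ (e2 y hy)
      refine le_trans (Finset.card_le_card ?_) (Finset.card_image_le (f := D.inN))
      intro x hx
      rw [Finset.mem_filter] at hx
      obtain ⟨x', hx', rfl⟩ := Finset.mem_image.1 hx.1
      have h11 := hx.2
      simp only [hinv] at h11
      exact mem_image_of_mem _ (Finset.mem_filter.2 ⟨hx', hinj h11⟩)
    · intro x hx
      obtain ⟨y, hy, rfl⟩ := Finset.mem_image.1 hx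
      simp only [hinv]
      exact e3 y hy

end hyp

end Vale.Agent.P188.H615

end

section

/-!
# P188, Z1: the natural boxes of the real model
-/

set_option linter.all false

open MeasureTheory Set
open scoped commutatorElement

namespace Vale.Agent.P188.Z1

open Vale.Agent.P188.H796 Vale.Agent.P188.H615 Vale.Agent.P188.H269 Vale.Agent.P188.H131
open Vale.Agent.P188.H530 (hgt Crossed Mod)

section inst

variable {Γ : Type} [Group Γ] {k : ℕ} {η : Γ →* Multiplicative (Fin k → ℤ)} {d n : ℕ}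
  {D : MB η.ker d n}

/-- 615's hypotheses hold for the real model -/
theorem Conc.natHyp {hη : Function.Surjective η} {F : Set Γ} {t : D.S}
    {M : RModel D.S Γ D.R.V k} (hM : Conc D hη F t M) : NatHyp M := by
  have hgenE : ∀ v ∈ eId D.AdE t,
      v ∈ LieSubalgebra.lieSpan ℝ D.R.V (M.X '' {i | M.wt i ≠ 0}) := by
    intro v hv
    have h1 := mem_lieSpan_letters (X := M.X) (wt := M.wt) (Vw := Vwt D hη t)
      (fun b => b ∈ ΦF D hη) (fun b hb => by
        have := hM.letters_span b (Or.inl (by rw [hM.Φ_eq]; exact hb))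
        rwa [hM.Vw_eq] at this) (gen_e D hη hM.sep v hv)
    refine LieSubalgebra.lieSpan_mono ?_ h1
    rintro _ ⟨i, hi, rfl⟩
    exact ⟨i, ΦF_ne D hη hi, rfl⟩
  exact {
    hex := fun v => by rw [hM.ex_eq]
    hAd := fun s v => by rw [hM.Ad_eq]
    hη := fun s => by rw [hM.η_eq]
    hnm := fun v => by rw [hM.nm_eq]
    hμ := hM.μ_eq
    span := hM.letters_span
    e_gen := by
      rw [hM.e_eq]
      exact hgenE
    gen := by
      intro v
      obtain ⟨x0, hx0, hx⟩ := exists_neutral_add D.AdE t v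
      have h1 : v - x0 ∈ LieSubalgebra.lieSpan ℝ D.R.V (Set.range M.X) :=
        LieSubalgebra.lieSpan_mono (Set.image_subset_range _ _) (hgenE _ hx)
      have h2 : x0 ∈ LieSubalgebra.lieSpan ℝ D.R.V (Set.range M.X) := by
        have h3 : x0 ∈ M.Vw 0 := by
          rw [hM.Vw_eq, Vwt_zero]; exact hx0
        have h4 := hM.letters_span 0 (Or.inr rfl) h3
        have h5 : Submodule.span ℝ (M.X '' {i | M.wt i = 0}) ≤
            (LieSubalgebra.lieSpan ℝ D.R.V (Set.range M.X)).toSubmodule := by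
          rw [Submodule.span_le]
          rintro _ ⟨i, _, rfl⟩
          exact LieSubalgebra.subset_lieSpan ⟨i, rfl⟩
        exact h5 h4
      have h6 := add_mem h1 h2
      rwa [sub_add_cancel] at h6 }

end inst

/-- **The real model of `Γ` with its natural boxes.** -/
theorem exists_model_box {Γ : Type} [Group Γ] {k : ℕ} {η : Γ →* Multiplicative (Fin k → ℤ)}
    (h : H187.Z0 Γ k η) : ∃ (d n : ℕ) (D : MB η.ker d n) (F : Set Γ) (t : D.S)
      (M : RModel D.S Γ D.R.V k) (B : M.NatBox), Conc D h.surj F t M ∧ M.Extra ∧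
      M.η.comp M.inG = η ∧ F.Finite ∧ Subgroup.closure F = ⊤ ∧ NatHyp M ∧
      B.Bx = NBx D M.X ∧ B.Fine := by
  obtain ⟨d, n, D, F, t, M, hM, hE, hc, hF, hgen⟩ := exists_model h
  obtain ⟨B, hB, hB'⟩ := exists_natBox M hM.natHyp
  exact ⟨d, n, D, F, t, M, B, hM, hE, hc, hF, hgen, hM.natHyp, hB, hB'⟩

end Vale.Agent.P188.Z1

end
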