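import Vale.Agent.P188.R.G067
import Vale.Agent.P188.R.G069
import Mathlib.Analysis.InnerProductSpace.PiL2
import Vale.Agent.P188.R.G004
import Vale.Agent.P188.R.G036
import Mathlib.Analysis.SpecialFunctions.Exp
import Mathlib.Analysis.Asymptotics.SpecificAsymptotics

section

/-!
# P188, FLAT in the model, part 1: windows, Cartan words, paths
-/

set_option linter.all false

open MeasureTheory Set
open Vale.Agent.P188.H530 (hgt)

namespace Vale.Agent.P188.Z1.RModel.F6

/-! ### linear algebra of the window -/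

section lin

variable {k : ℕ}

theorem apply_eq (b : Ht k →L[ℝ] ℝ) (w : Ht k) : b w = ∑ i, sh b i * w i := by
  have h : w = ∑ i, w i • (Pi.single i (1 : ℝ) : Ht k) := by
    ext j
    simp [Finset.sum_apply, Pi.single_apply]
  conv_lhs => rw [h]
  rw [map_sum]
  refine Finset.sum_congr rfl fun i _ => ?_
  rw [map_smul, smul_eq_mul, mul_comm]
  rfl

/-- the functional as a Euclidean vector -/
noncomputable def eu (b : Ht k →L[ℝ] ℝ) : EuclideanSpace ℝ (Fin k) := WithLp.toLp 2 (sh b)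

theorem en_eq (b : Ht k →L[ℝ] ℝ) : en b = ‖eu b‖ := by
  rw [EuclideanSpace.norm_eq, en]
  congr 1
  refine Finset.sum_congr rfl fun i _ => ?_
  rw [Real.norm_eq_abs, sq_abs]
  rfl

theorem eu_smul (t : ℝ) (b : Ht k →L[ℝ] ℝ) : eu (t • b) = t • eu b := by
  ext i; rfl

theorem eu_zero : eu (0 : Ht k →L[ℝ] ℝ) = 0 := by
  ext i; rfl

theorem eu_inj {b b' : Ht k →L[ℝ] ℝ} (h : eu b = eu b') : b = b' := by
  ext w
  rw [apply_eq, apply_eq]
  refine Finset.sum_congr rfl fun i _ => ?_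
  have : sh b i = sh b' i := by
    have := congrArg (fun v : EuclideanSpace ℝ (Fin k) => v i) h
    exact this
  rw [this]

theorem en_nonneg (b : Ht k →L[ℝ] ℝ) : 0 ≤ en b := Real.sqrt_nonneg _

theorem en_pos {b : Ht k →L[ℝ] ℝ} (hb : b ≠ 0) : 0 < en b := by
  rw [en_eq, norm_pos_iff]
  intro h
  exact hb (eu_inj (h.trans eu_zero.symm))

theorem en_smul (t : ℝ) (ht : 0 ≤ t) (b : Ht k →L[ℝ] ℝ) : en (t • b) = t * en b := by
  rw [en_eq, en_eq, eu_smul, norm_smul, Real.norm_eq_abs, abs_of_nonneg ht]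

/-- the direction of the facet of `b` -/
noncomputable def fd (b : Ht k →L[ℝ] ℝ) : Ht k := fun i => sh b i / en b

theorem apply_fd (b b' : Ht k →L[ℝ] ℝ) : b' (fd b) = inner ℝ (eu b') (eu b) / en b := by
  rw [apply_eq, PiLp.inner_apply, Finset.sum_div]
  refine Finset.sum_congr rfl fun i _ => ?_
  show sh b' i * (sh b i / en b) = inner ℝ (sh b' i) (sh b i) / en b
  rw [RCLike.inner_apply, conj_trivial]
  ring

theorem fd_self {b : Ht k →L[ℝ] ℝ} (hb : b ≠ 0) : b (fd b) = en b := by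
  rw [apply_fd, real_inner_self_eq_norm_sq, ← en_eq, sq]
  exact mul_div_cancel_right₀ _ (en_pos hb).ne'

theorem fd_le {b : Ht k →L[ℝ] ℝ} (hb : b ≠ 0) (b' : Ht k →L[ℝ] ℝ) : b' (fd b) ≤ en b' := by
  rw [apply_fd, div_le_iff₀ (en_pos hb), en_eq, en_eq]
  exact real_inner_le_norm _ _

theorem fd_lt {b b' : Ht k →L[ℝ] ℝ} (hb : b ≠ 0) (hb' : b' ≠ 0)
    (h : ∀ t : ℝ, 0 < t → b' ≠ t • b) : b' (fd b) < en b' := by
  refine lt_of_le_of_ne (fd_le hb b') fun heq => ?_
  rw [apply_fd, div_eq_iff (en_pos hb).ne', en_eq b', en_eq b, inner_eq_norm_mul_iff_real,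
    ← en_eq, ← en_eq] at heq
  have h1 := en_pos hb
  have h2 := en_pos hb'
  refine h (en b' / en b) (div_pos h2 h1) (eu_inj ?_)
  rw [eu_smul, div_eq_inv_mul, mul_smul]
  rw [← heq, smul_smul, inv_mul_cancel₀ h1.ne', one_smul]

theorem fd_norm_le {b : Ht k →L[ℝ] ℝ} (hb : b ≠ 0) : ‖fd b‖ ≤ 1 := by
  rw [pi_norm_le_iff_of_nonneg zero_le_one]
  intro i
  rw [fd, Real.norm_eq_abs, abs_div, abs_of_pos (en_pos hb), div_le_one (en_pos hb), en_eq]
  have := EuclideanSpace.norm_eq (eu b)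
  rw [this]
  refine Real.abs_le_sqrt ?_
  refine le_trans (le_of_eq ?_) (Finset.single_le_sum (f := fun j => ‖eu b j‖ ^ 2)
    (fun j _ => by positivity) (Finset.mem_univ i))
  show sh b i ^ 2 = ‖sh b i‖ ^ 2
  rw [Real.norm_eq_abs, sq_abs]

end lin

/-! ### good windows -/

section good

variable {S : Type} [Group S] [MeasurableSpace S] {Γ : Type} [Group Γ]
  {V : Type} [AddCommGroup V] [Module ℝ V] {k : ℕ} (M : RModel S Γ V k)

/-- a lower bound for the support function on the classes -/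
theorem exists_en_lower : ∃ e₀ : ℝ, 0 < e₀ ∧ ∀ b ∈ M.Φ, e₀ ≤ en b := by
  classical
  by_cases h : M.Φ.Nonempty
  · obtain ⟨b, hb, hmin⟩ := M.Φ.exists_min_image en h
    exact ⟨en b, en_pos (M.Φ_ne b hb), hmin⟩
  · rw [Finset.not_nonempty_iff_eq_empty] at h
    exact ⟨1, one_pos, fun b hb => by rw [h] at hb; simp at hb⟩

/-- the gap between different facets -/
theorem exists_gap : ∃ g : ℝ, 0 < g ∧ ∀ b ∈ M.Φ, ∀ b' ∈ M.Φ, (∃ t : ℝ, 0 < t ∧ b' = t • b) ∨
    b' (fd b) ≤ en b' - g := by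
  classical
  set P := (M.Φ ×ˢ M.Φ).filter fun q => ∀ t : ℝ, 0 < t → q.2 ≠ t • q.1 with hP
  by_cases h : P.Nonempty
  · obtain ⟨q, hq, hmin⟩ := P.exists_min_image (fun q => en q.2 - q.2 (fd q.1)) h
    have hq' := Finset.mem_filter.1 hq
    have hq1 := Finset.mem_product.1 hq'.1
    refine ⟨en q.2 - q.2 (fd q.1), sub_pos.2 (fd_lt (M.Φ_ne _ hq1.1) (M.Φ_ne _ hq1.2) hq'.2), ?_⟩
    intro b hb b' hb'
    by_cases hc : ∃ t : ℝ, 0 < t ∧ b' = t • b
    · exact Or.inl hc
    · right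
      have h1 := hmin (b, b') (Finset.mem_filter.2 ⟨Finset.mem_product.2 ⟨hb, hb'⟩, fun t ht h =>
        hc ⟨t, ht, h⟩⟩)
      simp only at h1
      linarith
  · rw [Finset.not_nonempty_iff_eq_empty] at h
    refine ⟨1, one_pos, fun b hb b' hb' => ?_⟩
    by_contra hcon
    rw [not_or] at hcon
    have : (b, b') ∈ P := Finset.mem_filter.2 ⟨Finset.mem_product.2 ⟨hb, hb'⟩, fun t ht h =>
        hcon.1 ⟨t, ht, h⟩⟩
    rw [h] at this
    simp at this

/-- **small perturbations of the ball are good windows** -/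
theorem exists_hgood : ∃ c δ₀ : ℝ, 0 < c ∧ 0 < δ₀ ∧ ∀ h : (Ht k →L[ℝ] ℝ) → ℝ,
    (∀ b ∈ M.Φ, |h b - en b| ≤ δ₀) →
    (∀ b ∈ M.Φ, ∀ b' ∈ M.Φ, ∀ t : ℝ, 0 < t → b' = t • b → h b' = t * h b) → M.HGood c h := by
  classical
  obtain ⟨e₀, he0, he⟩ := exists_en_lower M
  obtain ⟨g, hg0, hg⟩ := exists_gap M
  set N : ℝ := 1 + ∑ b ∈ M.Φ, (‖b‖ + en b) with hN
  have hNb : ∀ b ∈ M.Φ, ‖b‖ + en b + 1 ≤ N := by
    intro b hb
    have := Finset.single_le_sum (f := fun b : Ht k →L[ℝ] ℝ => ‖b‖ + en b)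
      (fun b _ => add_nonneg (norm_nonneg _) (en_nonneg b)) hb
    rw [hN]; linarith
  have hN1 : 1 ≤ N := by
    have := Finset.sum_nonneg (s := M.Φ) (f := fun b : Ht k →L[ℝ] ℝ => ‖b‖ + en b)
      (fun b _ => add_nonneg (norm_nonneg _) (en_nonneg b))
    rw [hN]; linarith
  set δ₀ : ℝ := min (e₀ / 2) (min 1 (g / (2 * (1 + N / e₀)))) with hδ
  have hq : 0 < 2 * (1 + N / e₀) := by positivity
  have hδ0 : 0 < δ₀ := lt_min (by linarith) (lt_min one_pos (by positivity))
  have hδ1 : δ₀ ≤ e₀ / 2 := min_le_left _ _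
  have hδ2 : δ₀ ≤ 1 := (min_le_right _ _).trans (min_le_left _ _)
  have hδ3 : δ₀ ≤ g / (2 * (1 + N / e₀)) := (min_le_right _ _).trans (min_le_right _ _)
  set c : ℝ := min (e₀ / 2) (min (g / 2) (min N⁻¹ (2⁻¹))) with hc
  have hc0 : 0 < c := lt_min (by linarith) (lt_min (by linarith) (lt_min (by positivity)
    (by norm_num)))
  have hc1 : c ≤ e₀ / 2 := min_le_left _ _
  have hc2 : c ≤ g / 2 := (min_le_right _ _).trans (min_le_left _ _)
  have hc3 : c ≤ N⁻¹ := (min_le_right _ _).trans ((min_le_right _ _).trans (min_le_left _ _))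
  have hc4 : c ≤ 2⁻¹ := (min_le_right _ _).trans ((min_le_right _ _).trans (min_le_right _ _))
  have hc3' : N ≤ c⁻¹ := by rw [le_inv_comm₀ (by linarith) hc0]; exact hc3
  have hc4' : 2 ≤ c⁻¹ := by rw [le_inv_comm₀ (by norm_num) hc0]; exact hc4
  refine ⟨c, δ₀, hc0, hδ0, fun h hh hray => ⟨fun b hb => ?_, hray, fun b hb => ?_⟩⟩
  · have h1 := abs_le.1 (hh b hb)
    have h2 := he b hb
    have h3 := hNb b hb
    have h4 := norm_nonneg b
    exact ⟨by linarith [h1.1], by linarith [h1.2]⟩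
  · have h1 := abs_le.1 (hh b hb)
    have h2 := he b hb
    have hb0 := M.Φ_ne b hb
    have hen := en_pos hb0
    refine ⟨(h b / en b) • fd b, ?_, ?_, ?_⟩
    · rw [norm_smul, Real.norm_eq_abs, abs_div, abs_of_pos hen]
      have h3 : |h b| ≤ 2 * en b := by
        rw [abs_le]; constructor <;> linarith [h1.1, h1.2]
      have h4 : |h b| / en b ≤ 2 := by rw [div_le_iff₀ hen]; exact h3
      calc |h b| / en b * ‖fd b‖ ≤ 2 * 1 := mul_le_mul h4 (fd_norm_le hb0) (norm_nonneg _) (by norm_num)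
        _ ≤ c⁻¹ := by linarith
    · rw [map_smul, smul_eq_mul, fd_self hb0, div_mul_cancel₀ _ hen.ne']
    · intro b' hb'
      rcases hg b hb b' hb' with h3 | h3
      · exact Or.inl h3
      · right
        rw [map_smul, smul_eq_mul]
        have h4 := abs_le.1 (hh b' hb')
        have h5 : |b' (fd b)| ≤ N := by
          rw [← Real.norm_eq_abs]
          refine (b'.le_opNorm _).trans ?_
          have h6 := fd_norm_le hb0
          have h7 := hNb b' hb'
          have h8 := en_nonneg b'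
          nlinarith [norm_nonneg b', norm_nonneg (fd b)]
        have h6 : |(h b / en b - 1) * b' (fd b)| ≤ δ₀ / e₀ * N := by
          rw [abs_mul]
          refine mul_le_mul ?_ h5 (abs_nonneg _) (by positivity)
          have h7 : h b / en b - 1 = (h b - en b) / en b := by field_simp
          rw [h7, abs_div, abs_of_pos hen]
          exact div_le_div₀ hδ0.le (hh b hb) he0 h2
        have h7 : δ₀ * (2 * (1 + N / e₀)) ≤ g := by rwa [le_div_iff₀ hq] at hδ3
        have h8 : δ₀ / e₀ * N = δ₀ * (N / e₀) := by ring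
        have h9 := (abs_le.1 h6).2
        rw [h8] at h9
        have h10 : h b / en b * b' (fd b) = b' (fd b) + (h b / en b - 1) * b' (fd b) := by ring
        rw [h10]
        nlinarith [h4.1]

theorem exists_hgood_en : ∃ c : ℝ, 0 < c ∧ M.HGood c en := by
  obtain ⟨c, δ, hc, hδ, h⟩ := exists_hgood M
  refine ⟨c, hc, h en (fun b _ => by rw [sub_self, abs_zero]; exact hδ.le) ?_⟩
  intro b _ b' _ t ht hbt
  rw [hbt, en_smul t ht.le]

end good

end Vale.Agent.P188.Z1.RModel.F6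

end

section

/-!
# P188, FLAT in the model, part 2: Cartan words, admissible sizes, paths
-/

set_option linter.all false

open MeasureTheory Set
open Vale.Agent.P188.H530 (hgt)

namespace Vale.Agent.P188.Z1.RModel.F6

variable {S : Type} [Group S] [MeasurableSpace S] {Γ : Type} [Group Γ]
  {V : Type} [AddCommGroup V] [Module ℝ V] {k : ℕ} (M : RModel S Γ V k)

theorem θ_eq_zero {x : S} (h : M.η x = 1) : M.θ x = 0 := by
  funext i
  show ((Multiplicative.toAdd (M.η x) i : ℤ) : ℝ) = 0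
  rw [h]; simp

theorem θ_τht (w : Fin k → ℤ) : M.θ (M.τ w) = ht w := M.θ_τ w

/-! ### Cartan words -/

theorem τ_mem_CB1 {w : Fin k → ℤ} (h : ∀ i, |w i| ≤ 1) : M.τ w ∈ M.CB 1 :=
  ⟨[M.τ w], by simp, by simp, by simpa using Or.inr ⟨w, h, Or.inl rfl⟩⟩

/-- every word is the end of a path with steps in `CB 1` -/
theorem CB_path {n : ℕ} {c : S} (h : c ∈ M.CB n) : ∃ q : ℕ → S, q 0 = 1 ∧ q n = c ∧
    (∀ i, (q i)⁻¹ * q (i + 1) ∈ M.CB 1) ∧ ∀ i, q i ∈ M.CB i := by
  obtain ⟨L, hL, hp, ha⟩ := h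
  refine ⟨fun i => (L.take i).prod, by simp, ?_, ?_, ?_⟩
  · show (L.take n).prod = c
    rw [List.take_of_length_le hL, hp]
  · intro i
    show ((L.take i).prod)⁻¹ * (L.take (i + 1)).prod ∈ M.CB 1
    by_cases hi : i < L.length
    · rw [List.take_succ_eq_append_getElem hi, List.prod_append, inv_mul_cancel_left]
      refine ⟨[L[i]], by simp, by simp, ?_⟩
      intro a h
      rw [List.mem_singleton] at h
      rw [h]
      exact ha _ (List.getElem_mem hi)
    · rw [List.take_of_length_le (by omega), List.take_of_length_le (by omega), inv_mul_cancel]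
      exact M.one_mem_CB 1
  · intro i
    exact ⟨L.take i, List.length_take_le _ _, rfl, fun a h => ha a (List.mem_of_mem_take h)⟩

/-- a path along which the heights follow a segment -/
theorem exists_path (h : Ht k) {n : ℕ} (hn : 2 * ‖h‖ ≤ n) : ∃ q : ℕ → S, q 0 = 1 ∧
    (∀ i < n, (q i)⁻¹ * q (i + 1) ∈ M.CB 1) ∧ (∀ i, q i ∈ M.CB i) ∧
    ∀ i ≤ n, ‖M.θ (q i) - ((i : ℝ) / n) • h‖ ≤ 1 / 2 := by
  classical
  set w : ℕ → Fin k → ℤ := fun i j => round ((i : ℝ) / n * h j) with hw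
  have hw0 : w 0 = 0 := by
    funext j
    simp [hw]
  set st : ℕ → S := fun i => if i < n then M.τ (w (i + 1) - w i) else 1 with hst
  set q : ℕ → S := fun i => (List.ofFn fun j : Fin i => st j).prod with hq
  have hq0 : q 0 = 1 := by simp [hq]
  have hqs : ∀ i, q (i + 1) = q i * st i := by
    intro i
    simp only [hq]
    rw [List.ofFn_succ_last, List.prod_append]
    simp
  have hsmall : ∀ i < n, ∀ j, |(w (i + 1) - w i) j| ≤ 1 := by
    intro i hi j
    have hn0 : (0 : ℝ) < n := by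
      have : 0 < n := by omega
      exact_mod_cast this
    have h1 := abs_sub_round (((i + 1 : ℕ) : ℝ) / n * h j)
    have h2 := abs_sub_round ((i : ℝ) / n * h j)
    have h3 : |((i + 1 : ℕ) : ℝ) / n * h j - (i : ℝ) / n * h j| ≤ 1 / 2 := by
      have e : ((i + 1 : ℕ) : ℝ) / n * h j - (i : ℝ) / n * h j = h j / n := by
        push_cast; ring
      rw [e, abs_div, abs_of_pos hn0, div_le_div_iff₀ hn0 (by norm_num)]
      have := norm_le_pi_norm h j
      rw [Real.norm_eq_abs] at this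
      linarith
    have h4 : |(((w (i + 1) - w i) j : ℤ) : ℝ)| < 2 := by
      have e : (((w (i + 1) - w i) j : ℤ) : ℝ) =
          (round (((i + 1 : ℕ) : ℝ) / n * h j) : ℝ) - (round ((i : ℝ) / n * h j) : ℝ) := by
        simp [hw]
      rw [e]
      rw [abs_le] at h1 h2 h3
      rw [abs_lt]
      constructor <;> linarith [h1.1, h1.2, h2.1, h2.2, h3.1, h3.2]
    have h5 : |(w (i + 1) - w i) j| < 2 := by exact_mod_cast h4
    omega
  have hst1 : ∀ i, st i ∈ M.CB 1 := by
    intro i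
    simp only [hst]
    split_ifs with hi
    · exact τ_mem_CB1 M (hsmall i hi)
    · exact M.one_mem_CB 1
  refine ⟨q, hq0, fun i _ => ?_, ?_, ?_⟩
  · rw [hqs, inv_mul_cancel_left]
    exact hst1 i
  · intro i
    induction i with
    | zero => rw [hq0]; exact M.one_mem_CB 0
    | succ i ih => rw [hqs]; exact M.CB_mul ih (hst1 i)
  · have hθ : ∀ i ≤ n, M.θ (q i) = ht (w i) := by
      intro i
      induction i with
      | zero =>
        intro _
        rw [hq0, M.θ_one, hw0]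
        funext j
        simp [ht]
      | succ i ih =>
        intro hi
        rw [hqs, M.θ_mul, ih (by omega)]
        simp only [hst]
        rw [if_pos (by omega), θ_τht]
        funext j
        simp [ht]
    intro i hi
    rw [hθ i hi, pi_norm_le_iff_of_nonneg (by norm_num)]
    intro j
    have h2 := abs_sub_round ((i : ℝ) / n * h j)
    show ‖(w i j : ℝ) - (i : ℝ) / n * h j‖ ≤ 1 / 2
    rw [Real.norm_eq_abs, abs_sub_comm]
    exact h2

/-! ### sizes -/

theorem wt_cases (i : M.ι) : M.wt i = 0 ∨ (M.wt i ∈ M.Φ ∧ M.wt i ≠ 0) := by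
  rcases M.wt_mem i with h | h
  · exact Or.inr ⟨h, M.Φ_ne _ h⟩
  · exact Or.inl h

variable {M} {h : (Ht k →L[ℝ] ℝ) → ℝ} {c d₁ s : ℝ}

theorem szh_pos (i : M.ι) : 0 < M.szh h d₁ s i := by
  unfold szh
  split_ifs <;> exact Real.exp_pos _

theorem szh_zero {i : M.ι} (hi : M.wt i = 0) : M.szh h d₁ s i = Real.exp (d₁ * s) := by
  unfold szh; rw [if_pos hi]

theorem szh_ne {i : M.ι} (hi : M.wt i ≠ 0) : M.szh h d₁ s i = Real.exp (s * h (M.wt i)) := by
  unfold szh; rw [if_neg hi]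

/-- the exponent of the natural size -/
noncomputable def sxh (M : RModel S Γ V k) (h : (Ht k →L[ℝ] ℝ) → ℝ) (d₁ : ℝ) (i : M.ι) : ℝ :=
  open Classical in if M.wt i = 0 then d₁ else h (M.wt i)

theorem sxh_zero {i : M.ι} (hi : M.wt i = 0) : sxh M h d₁ i = d₁ := by
  unfold sxh; rw [if_pos hi]

theorem sxh_ne {i : M.ι} (hi : M.wt i ≠ 0) : sxh M h d₁ i = h (M.wt i) := by
  unfold sxh; rw [if_neg hi]

theorem szh_eq (i : M.ι) : M.szh h d₁ s i = Real.exp (s * sxh M h d₁ i) := by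
  unfold szh sxh
  split_ifs
  · rw [mul_comm]
  · rfl

theorem map_exp_prod {α : Type*} (f : α → ℝ) (w : List α) :
    (w.map fun i => Real.exp (f i)).prod = Real.exp (w.map f).sum := by
  induction w with
  | nil => simp
  | cons i w ih => simp [ih, Real.exp_add]

/-- exponentials of subadditive exponents are admissible sizes -/
theorem adm_exp {f : M.ι → ℝ}
    (hf : ∀ (i : M.ι) (w : List M.ι), w ≠ [] → (w.map M.wt).sum = M.wt i → f i ≤ (w.map f).sum) :
    M.Adm fun i => Real.exp (f i) where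
  pos i := Real.exp_pos _
  le i w hw hsum := by
    rw [map_exp_prod, Real.exp_le_exp]
    exact hf i w hw hsum

theorem adm_two' {x y : ℝ} (hx : 1 ≤ x) (hxy : x ≤ y) : M.Adm (M.two x y) where
  pos i := by unfold two; split_ifs <;> linarith
  le i w hw hsum := by
    have hge : ∀ j, x ≤ M.two x y j := by
      intro j; unfold two; split_ifs
      · exact le_rfl
      · exact hxy
    have hone : ∀ l : List M.ι, 1 ≤ (l.map (M.two x y)).prod := by
      intro l
      induction l with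
      | nil => simp
      | cons j l ih =>
        rw [List.map_cons, List.prod_cons]
        exact one_le_mul_of_one_le_of_one_le (hx.trans (hge j)) ih
    by_cases hi : M.wt i = 0
    · have e : M.two x y i = x := by unfold two; rw [if_pos hi]
      rw [e]
      obtain ⟨j, w', rfl⟩ := List.exists_cons_of_ne_nil hw
      rw [List.map_cons, List.prod_cons]
      have h1 := hge j
      have h2 := hone w'
      nlinarith
    · have e : M.two x y i = y := by unfold two; rw [if_neg hi]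
      rw [e]
      -- some letter is not neutral
      obtain ⟨j, hj, hj0⟩ : ∃ j ∈ w, M.wt j ≠ 0 := by
        by_contra hcon
        push Not at hcon
        refine hi ?_
        rw [← hsum]
        refine List.sum_eq_zero fun b hb => ?_
        obtain ⟨j, hj, rfl⟩ := List.mem_map.1 hb
        exact hcon j hj
      obtain ⟨l₁, l₂, rfl⟩ := List.append_of_mem hj
      rw [List.map_append, List.map_cons, List.prod_append, List.prod_cons]
      have e' : M.two x y j = y := by unfold two; rw [if_neg hj0]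
      rw [e']
      have h1 := hone l₁
      have h2 := hone l₂
      have hy : 0 < y := by linarith
      calc y = 1 * (y * 1) := by ring
        _ ≤ _ := by gcongr

end Vale.Agent.P188.Z1.RModel.F6

end

section

/-!
# P188, FLAT in the model, part 3: positions, small elements, conjugations
-/

set_option linter.all false

open MeasureTheory Set Filter
open Vale.Agent.P188.H530 (hgt)
open Vale.Agent.P188.H616 (Coord Sec Phi slide)

namespace Vale.Agent.P188.Z1.RModel.F6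

/-! ### polynomials against exponentials -/

theorem ev_pow_le_exp (n : ℕ) {a : ℝ} (ha : 0 < a) (C : ℝ) :
    ∀ᶠ s : ℝ in atTop, C * s ^ n ≤ Real.exp (a * s) := by
  have h := (isLittleO_pow_exp_pos_mul_atTop n ha).bound (c := 1 / (|C| + 1)) (by positivity)
  filter_upwards [h, eventually_ge_atTop (0 : ℝ)] with s hs hs0
  rw [Real.norm_eq_abs, Real.norm_eq_abs, abs_of_nonneg (pow_nonneg hs0 n), Real.abs_exp] at hs
  have h1 : C * s ^ n ≤ (|C| + 1) * s ^ n := by
    have : C ≤ |C| + 1 := by linarith [le_abs_self C]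
    exact mul_le_mul_of_nonneg_right this (pow_nonneg hs0 n)
  refine h1.trans ?_
  have h2 : (0 : ℝ) < |C| + 1 := by positivity
  rw [one_div, inv_mul_eq_div, le_div_iff₀ h2] at hs
  linarith

theorem ev_polyA (C A : ℝ) (n : ℕ) {a : ℝ} (ha : 0 < a) :
    ∀ᶠ s : ℝ in atTop, C * (1 + A * s) ^ n ≤ Real.exp (a * s) := by
  filter_upwards [ev_pow_le_exp n ha (|C| * (1 + |A|) ^ n), eventually_ge_atTop (1 : ℝ)] with s hs hs1
  refine le_trans ?_ hs
  have h1 : |1 + A * s| ≤ (1 + |A|) * s := by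
    calc |1 + A * s| ≤ |1| + |A * s| := abs_add_le _ _
      _ = 1 + |A| * s := by rw [abs_one, abs_mul, abs_of_nonneg (by linarith : (0 : ℝ) ≤ s)]
      _ ≤ (1 + |A|) * s := by nlinarith [abs_nonneg A]
  calc C * (1 + A * s) ^ n ≤ |C * (1 + A * s) ^ n| := le_abs_self _
    _ = |C| * |1 + A * s| ^ n := by rw [abs_mul, abs_pow]
    _ ≤ |C| * ((1 + |A|) * s) ^ n := by gcongr
    _ = _ := by rw [mul_pow]; ring

/-- polynomial factors times a small power are small -/
theorem ev_polyB (C A : ℝ) (n : ℕ) {a δ : ℝ} (ha : 0 < a) (hδ : 0 < δ) :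
    ∀ᶠ s : ℝ in atTop, C * (1 + A * s) ^ n ≤ δ * Real.exp (a * s) := by
  filter_upwards [ev_polyA (C / δ) A n ha] with s hs
  rw [div_mul_eq_mul_div, div_le_iff₀ hδ] at hs
  linarith

/-- constants against exponentials -/
theorem ev_constB (C : ℝ) {a δ : ℝ} (ha : 0 < a) (hδ : 0 < δ) :
    ∀ᶠ s : ℝ in atTop, C ≤ δ * Real.exp (a * s) := by
  filter_upwards [ev_polyB C 0 0 ha hδ] with s hs
  simpa using hs

/-- constants against linear functions -/
theorem ev_linB (C : ℝ) {a : ℝ} (ha : 0 < a) : ∀ᶠ s : ℝ in atTop, C ≤ a * s := by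
  filter_upwards [eventually_ge_atTop (C / a)] with s hs
  rw [div_le_iff₀ ha] at hs
  linarith

variable {S : Type} [Group S] [MeasurableSpace S] {Γ : Type} [Group Γ]
  {V : Type} [AddCommGroup V] [Module ℝ V] {k : ℕ} (M : RModel S Γ V k)

/-! ### the section -/

theorem η_sec (z : S) : M.η (M.sec z) = M.η z := by
  unfold sec
  rw [M.η_τ]; rfl

theorem θ_sec (z : S) : M.θ (M.sec z) = M.θ z := by
  unfold sec
  rw [M.θ_τ]; rfl

theorem isSec : Sec M.η.ker M.sec where
  mem z := by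
    rw [MonoidHom.mem_ker, map_mul, map_inv, η_sec, mul_inv_cancel]
  inv e he z := by
    unfold sec
    rw [map_mul, (MonoidHom.mem_ker).1 he, one_mul]

theorem sec_congr {x y : S} (h : M.η x = M.η y) : M.sec x = M.sec y := by
  unfold sec; rw [h]

theorem θ_CB {n : ℕ} {c : S} (h : c ∈ M.CB n) : ‖M.θ c‖ ≤ n := by
  obtain ⟨L, hL, rfl, ha⟩ := h
  have key : ∀ L : List S, (∀ a ∈ L, (∃ v ∈ (M.Vw 0 : Set V), M.nm v ≤ 1 ∧ M.ex v = a) ∨
      (∃ w : Fin k → ℤ, (∀ i, |w i| ≤ 1) ∧ (M.τ w = a ∨ (M.τ w)⁻¹ = a))) →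
      ‖M.θ L.prod‖ ≤ L.length := by
    intro L
    induction L with
    | nil => intro _; simp [M.θ_one]
    | cons a L ih =>
      intro ha
      rw [List.prod_cons, M.θ_mul, List.length_cons, Nat.cast_add, Nat.cast_one]
      have h1 := ih fun b hb => ha b (by simp [hb])
      have h2 : ‖M.θ a‖ ≤ 1 := by
        have hw : ∀ w : Fin k → ℤ, (∀ i, |w i| ≤ 1) → ‖(ht w : Ht k)‖ ≤ 1 := by
          intro w hw
          rw [pi_norm_le_iff_of_nonneg zero_le_one]
          intro i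
          rw [ht, Real.norm_eq_abs]
          exact_mod_cast hw i
        rcases ha a (by simp) with ⟨v, _, _, rfl⟩ | ⟨w, hw1, hw2⟩
        · rw [θ_eq_zero M (M.η_ex v), norm_zero]; exact zero_le_one
        · rcases hw2 with rfl | rfl
          · rw [θ_τht]; exact hw w hw1
          · rw [M.θ_inv, θ_τht, norm_neg]; exact hw w hw1
      calc _ ≤ ‖M.θ a‖ + ‖M.θ L.prod‖ := norm_add_le _ _
        _ ≤ _ := by linarith
  exact (key L ha).trans (by exact_mod_cast hL)

theorem sec_mem_CB (z : S) {n : ℕ} (h : M.C0 * (1 + ‖M.θ z‖) ≤ n) : M.sec z ∈ M.CB n := by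
  have h1 := M.τ_CB (Multiplicative.toAdd (M.η z))
  refine M.CB_mono ?_ h1
  exact Nat.ceil_le.2 h

/-- the error of the section is a Cartan word -/
theorem cocycle_mem {z g : S} {n N : ℕ} {A : ℝ} (hg : g ∈ M.CB n) (hz : ‖M.θ z‖ ≤ A)
    (hN : 2 * (M.C0 * (2 + A + n)) + n ≤ N) :
    M.sec z * g * (M.sec (z * g))⁻¹ ∈ M.CB N := by
  have hA : 0 ≤ A := (norm_nonneg _).trans hz
  have hC := M.C0_pos
  have hθ : ‖M.θ (z * g)‖ ≤ A + n := by
    rw [M.θ_mul]
    exact (norm_add_le _ _).trans (add_le_add hz (θ_CB M hg))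
  set m := ⌈M.C0 * (1 + A + n)⌉₊ with hm
  have h1 : M.sec z ∈ M.CB m := by
    refine sec_mem_CB M z (le_trans ?_ (Nat.le_ceil _))
    have : (0 : ℝ) ≤ n := Nat.cast_nonneg n
    exact mul_le_mul_of_nonneg_left (by linarith) hC.le
  have h2 : M.sec (z * g) ∈ M.CB m := by
    refine sec_mem_CB M _ (le_trans ?_ (Nat.le_ceil _))
    exact mul_le_mul_of_nonneg_left (by linarith) hC.le
  refine M.CB_mono ?_ (M.CB_mul (M.CB_mul h1 hg) (M.CB_inv h2))
  have h3 : (m : ℝ) < M.C0 * (1 + A + n) + 1 := Nat.ceil_lt_add_one (by positivity)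
  have h4 : ((m + n + m : ℕ) : ℝ) ≤ N := by
    push_cast
    have : (1 : ℝ) ≤ M.C0 := M.one_le_C0
    nlinarith
  exact_mod_cast h4

theorem η_cocycle (z g : S) : M.η (M.sec z * g * (M.sec (z * g))⁻¹) = 1 := by
  rw [map_mul, map_mul, map_inv, η_sec, η_sec, map_mul, mul_inv_cancel]

/-! ### small elements -/

variable {M} (B : M.NatBox) {h : (Ht k →L[ℝ] ℝ) → ℝ} {c₂ : ℝ}

theorem C_pos : 0 < B.C := lt_of_lt_of_le one_pos B.one_le

theorem Bx_mul {R R₁ R₂ : M.ι → ℝ} (h1 : ∀ i, 0 ≤ R₁ i) (h2 : ∀ i, 0 ≤ R₂ i)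
    (h1' : ∀ i, R₁ i ≤ R i) (h2' : ∀ i, R₂ i ≤ R i) {x y : S} (hx : x ∈ B.Bx R₁)
    (hy : y ∈ B.Bx R₂) : x * y ∈ B.Bx fun i => B.C * R i :=
  B.mul R (fun i => (h1 i).trans (h1' i)) x (B.mono _ _ h1 h1' hx) y (B.mono _ _ h2 h2' hy)

/-- product of two elements of `Bx (δ / C)` -/
theorem Bx_mul_half {R : M.ι → ℝ} (hR : ∀ i, 0 ≤ R i) {δ : ℝ} (hδ : 0 ≤ δ) {x y : S}
    (hx : x ∈ B.Bx fun i => δ / B.C * R i) (hy : y ∈ B.Bx fun i => δ / B.C * R i) :
    x * y ∈ B.Bx fun i => δ * R i := by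
  have hC := C_pos B
  have h1 := B.mul (fun i => δ / B.C * R i)
    (fun i => mul_nonneg (div_nonneg hδ hC.le) (hR i)) _ hx _ hy
  have e : (fun i => B.C * (δ / B.C * R i)) = fun i => δ * R i := by
    funext i
    field_simp
  rwa [e] at h1

/-- a neutral Cartan word is small -/
theorem ker_mem {n : ℕ} {c : S} (hc : c ∈ M.CB n) (hη : M.η c = 1) :
    c ∈ B.Bx (M.two (B.C * (1 + M.C0) * (1 + (n : ℝ)) ^ M.deg) 1) := by
  obtain ⟨v, hv, rfl, hvn⟩ := M.C_ker n c hc hη
  have hC := C_pos B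
  have hC0 := M.C0_pos
  refine B.mono _ _ ?_ ?_ (B.ball_0 v hv)
  · intro i
    unfold two
    split_ifs
    · have := apply_nonneg M.nm v
      positivity
    · exact zero_le_one
  · intro i
    unfold two
    split_ifs with hi
    · have h4 : (1 : ℝ) ≤ (1 + (n : ℝ)) ^ M.deg := by
        have : (0 : ℝ) ≤ n := Nat.cast_nonneg n
        exact one_le_pow₀ (by linarith)
      calc B.C * (1 + M.nm v) ≤ B.C * ((1 + (n : ℝ)) ^ M.deg + M.C0 * (1 + (n : ℝ)) ^ M.deg) := by
            gcongr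
        _ = _ := by ring
    · exact le_rfl

/-- neutral Cartan words of linear length are in small boxes -/
theorem ev_ker {d₁ δ : ℝ} (hc : 0 < c₂) (hd : 0 < d₁) (A : ℝ) (hδ : 0 < δ) :
    ∀ᶠ s : ℝ in atTop, ∀ h : (Ht k →L[ℝ] ℝ) → ℝ, M.HB c₂ h → ∀ n : ℕ, (n : ℝ) ≤ A * s →
      ∀ c ∈ M.CB n, M.η c = 1 → c ∈ B.Bx fun i => δ * M.szh h d₁ s i := by
  filter_upwards [ev_polyB (B.C * (1 + M.C0)) A M.deg hd hδ, ev_constB 1 hc hδ,
    eventually_ge_atTop (0 : ℝ)] with s h1 h2 hs h hh n hn c hc hη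
  have hC := C_pos B
  have hC0 := M.C0_pos
  refine B.mono _ _ ?_ ?_ (ker_mem B hc hη)
  · intro i
    unfold two
    split_ifs
    · positivity
    · exact zero_le_one
  · intro i
    unfold two
    split_ifs with hi
    · rw [szh_zero hi]
      refine le_trans ?_ h1
      have h3 : (1 + (n : ℝ)) ^ M.deg ≤ (1 + A * s) ^ M.deg := by
        have : (0 : ℝ) ≤ n := Nat.cast_nonneg n
        gcongr
      gcongr
    · rw [szh_ne hi]
      refine h2.trans ?_
      refine mul_le_mul_of_nonneg_left (Real.exp_le_exp.2 ?_) hδ.le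
      rw [mul_comm]
      refine mul_le_mul_of_nonneg_left ?_ hs
      rcases wt_cases M i with h | h
      · exact absurd h hi
      · exact (hh _ h.1).1

variable (M) in
/-- the `N_R`-part -/
def np (z : S) : S := z * (M.sec z)⁻¹

variable (M) in
theorem np_mul (z g : S) : np M (z * g) = np M z * (M.sec z * g * (M.sec (z * g))⁻¹) := by
  unfold np; group

/-- the cocycle of a Cartan word of linear length is small -/
theorem ev_cocycle {d₁ δ : ℝ} (hc : 0 < c₂) (hd : 0 < d₁) (A : ℝ) (hδ : 0 < δ) :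
    ∀ᶠ s : ℝ in atTop, ∀ h : (Ht k →L[ℝ] ℝ) → ℝ, M.HB c₂ h → ∀ z : S, ‖M.θ z‖ ≤ A * s →
      ∀ n : ℕ, (n : ℝ) ≤ A * s → ∀ g ∈ M.CB n,
        M.sec z * g * (M.sec (z * g))⁻¹ ∈ B.Bx fun i => δ * M.szh h d₁ s i := by
  have hC0 := M.C0_pos
  have hC1 := M.one_le_C0
  filter_upwards [ev_ker B (d₁ := d₁) hc hd (6 * M.C0 * (A + 1)) hδ, eventually_ge_atTop (2 : ℝ)]
    with s h1 hs h hh z hθ n hn g hg
  have hn0 : (0 : ℝ) ≤ n := Nat.cast_nonneg n
  have hA : 0 ≤ A * s := hn0.trans hn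
  have hA0 : 0 ≤ A := by nlinarith
  have h2 : M.sec z * g * (M.sec (z * g))⁻¹ ∈ M.CB ⌊6 * M.C0 * (A + 1) * s⌋₊ := by
    refine cocycle_mem M hg hθ ?_
    have h3 := Nat.lt_floor_add_one (6 * M.C0 * (A + 1) * s)
    have h4 : 2 * (M.C0 * (2 + A * s + n)) + n ≤ 6 * M.C0 * (A + 1) * s - 1 := by
      have e1 : M.C0 * (2 + A * s + n) ≤ M.C0 * (2 + 2 * (A * s)) :=
        mul_le_mul_of_nonneg_left (by linarith) hC0.le
      have e2 : A * s ≤ M.C0 * (A * s) := le_mul_of_one_le_left hA hC1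
      have e3 : 2 * M.C0 ≤ M.C0 * s := by nlinarith
      nlinarith
    linarith
  exact h1 h hh _ (Nat.floor_le (by positivity)) _ h2 (η_cocycle M z g)

/-! ### conjugations -/

theorem ev_conj {d₁ δ ν : ℝ} (A : ℝ) (hδ : 0 < δ) (hν : 0 < ν) :
    ∀ᶠ s : ℝ in atTop, ∀ h : (Ht k →L[ℝ] ℝ) → ℝ, ∀ n : ℕ, (n : ℝ) ≤ A * s → ∀ c ∈ M.CB n,
      ∀ R, M.Adm R →
      (∀ i, Real.exp (M.wt i (M.θ c)) * R i ≤ Real.exp ((sxh M h d₁ i - ν) * s)) →
      ∀ u ∈ B.Bx R, c * u * c⁻¹ ∈ B.Bx fun i => δ * M.szh h d₁ s i := by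
  filter_upwards [ev_polyB B.C A B.dg hν hδ] with s h1 h n hn c hc R hR hle u hu
  have hC := C_pos B
  refine B.mono _ _ ?_ ?_ (B.conj n c hc R hR u hu)
  · intro i
    have := hR.pos i
    positivity
  · intro i
    rw [szh_eq]
    have h2 : B.C * (1 + (n : ℝ)) ^ B.dg ≤ δ * Real.exp (ν * s) := by
      refine le_trans ?_ h1
      have : (0 : ℝ) ≤ n := Nat.cast_nonneg n
      gcongr
    calc B.C * (1 + (n : ℝ)) ^ B.dg * Real.exp (M.wt i (M.θ c)) * R i
        = (B.C * (1 + (n : ℝ)) ^ B.dg) * (Real.exp (M.wt i (M.θ c)) * R i) := by ring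
      _ ≤ (δ * Real.exp (ν * s)) * Real.exp ((sxh M h d₁ i - ν) * s) := by
          refine mul_le_mul h2 (hle i) ?_ (by positivity)
          have := hR.pos i
          positivity
      _ = δ * Real.exp (s * sxh M h d₁ i) := by
          rw [mul_assoc, ← Real.exp_add]
          congr 2
          ring

end Vale.Agent.P188.Z1.RModel.F6

end
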