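import Vale.Agent.P188.R.G069
import Vale.Agent.P188.R.G051
import Vale.Agent.P188.R.G067

section

/-!
# P188, block NEU: paths of polynomial length in the Cartan group

Every Cartan word `c ∈ CB n` is joined to `1` by a path with at most `C (n+1)^D` bounded steps,
inside the ball of radius `C (n+1)`, with heights at most `C ‖θ c‖`.
-/

set_option linter.all false

open Set
open Agent.P188.H428 (IsLen)
open Vale.Agent.P188.H530 (hgt hgt_mul)
open Vale.Agent.P188.Z1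

namespace Vale.Agent.P188.H754

variable {S : Type} [Group S] [MeasurableSpace S] {Γ : Type} [Group Γ]
  {V : Type} [AddCommGroup V] [Module ℝ V] {k : ℕ} (M : RModel S Γ V k)

/-- paths from `1` to `g` with `m` steps of length at most `C`, in the ball of radius `r`, heights
at most `h` -/
def NP (C r h : ℝ) (m : ℕ) (g : S) : Prop :=
  ∃ p : ℕ → S, p 0 = 1 ∧ p m = g ∧ (∀ i < m, (M.l ((p i)⁻¹ * p (i + 1)) : ℝ) ≤ C) ∧
    ∀ i ≤ m, (M.l (p i) : ℝ) ≤ r ∧ ‖M.θ (p i)‖ ≤ h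

variable {M}

theorem NP.θ_le {C r h : ℝ} {m : ℕ} {g : S} (H : NP M C r h m g) : ‖M.θ g‖ ≤ h := by
  obtain ⟨p, h0, h1, h2, h3⟩ := H
  rw [← h1]; exact (h3 m le_rfl).2

variable (M)

theorem NP.one {C r h : ℝ} (hr : 0 ≤ r) (hh : 0 ≤ h) : NP M C r h 0 1 :=
  ⟨fun _ => 1, rfl, rfl, fun i hi => absurd hi (Nat.not_lt_zero _), fun i _ =>
    ⟨by simp [M.len.one, hr], by simp [M.θ_one, hh]⟩⟩

variable {M}

theorem NP.mul {C r₁ r₂ r h₁ h₂ h : ℝ} {m₁ m₂ : ℕ} {g₁ g₂ : S} (H₁ : NP M C r₁ h₁ m₁ g₁)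
    (H₂ : NP M C r₂ h₂ m₂ g₂) (hr₁ : r₁ ≤ r) (hr₂ : M.l g₁ + r₂ ≤ r) (hh₁ : h₁ ≤ h)
    (hh₂ : ‖M.θ g₁‖ + h₂ ≤ h) : NP M C r h (m₁ + m₂) (g₁ * g₂) := by
  obtain ⟨p, a0, a1, a2, a3⟩ := H₁
  obtain ⟨q, b0, b1, b2, b3⟩ := H₂
  obtain ⟨s, hs1, hs2⟩ : ∃ s : ℕ → S, (∀ i ≤ m₁, s i = p i) ∧ ∀ i, s (m₁ + i) = g₁ * q i := by
    refine ⟨fun i => if i ≤ m₁ then p i else g₁ * q (i - m₁), fun i hi => if_pos hi, fun i => ?_⟩
    rcases Nat.eq_zero_or_pos i with rfl | hi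
    · simp only [add_zero, le_refl, if_true]
      rw [a1, b0, mul_one]
    · simp only
      rw [if_neg (by omega), Nat.add_sub_cancel_left]
  refine ⟨s, by rw [hs1 0 (Nat.zero_le _), a0], by rw [hs2, b1], ?_, ?_⟩
  · intro i hi
    rcases lt_or_ge i m₁ with h | h
    · rw [hs1 i h.le, hs1 (i + 1) h]
      exact a2 i h
    · obtain ⟨j, rfl⟩ := Nat.exists_eq_add_of_le h
      have e : s (m₁ + j + 1) = g₁ * q (j + 1) := by rw [add_assoc, hs2]
      rw [e, hs2]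
      have e2 : (g₁ * q j)⁻¹ * (g₁ * q (j + 1)) = (q j)⁻¹ * q (j + 1) := by group
      rw [e2]
      exact b2 j (by omega)
  · intro i hi
    rcases le_or_gt i m₁ with h | h
    · rw [hs1 i h]
      exact ⟨(a3 i h).1.trans hr₁, (a3 i h).2.trans hh₁⟩
    · obtain ⟨j, rfl⟩ := Nat.exists_eq_add_of_le h.le
      rw [hs2]
      have h5 : (M.l (g₁ * q j) : ℝ) ≤ M.l g₁ + M.l (q j) := by exact_mod_cast M.len.mul _ _
      refine ⟨?_, ?_⟩
      · linarith [(b3 j (by omega)).1]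
      · rw [M.θ_mul]
        refine (norm_add_le _ _).trans ?_
        linarith [(b3 j (by omega)).2]

variable (M)

end Vale.Agent.P188.H754

end

section

/-!
# P188, block NEU: the instance `NM` from the real model, metric part
-/

set_option linter.all false

open Set
open Agent.P188.H428 (IsLen)
open Vale.Agent.P188.H530 (hgt hgt_mul Crossed)
open Vale.Agent.P188.H789 (Bl Bl_mono Bl_finite)
open Vale.Agent.P188.Z1

namespace Vale.Agent.P188.H754

variable {S : Type} [Group S] [MeasurableSpace S] {Γ : Type} [Group Γ]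
  {V : Type} [AddCommGroup V] [Module ℝ V] {k : ℕ} (M : RModel S Γ V k)

/-- products of many elements of `E` -/
theorem E_prod_R (hX : M.Extra) : ∃ C : ℝ, 0 ≤ C ∧ ∀ (L : ℝ) (es : List S), 0 ≤ L →
    (∀ e ∈ es, e ∈ M.E ∧ (M.l e : ℝ) ≤ L) →
    (M.l es.prod : ℝ) ≤ C * (L + Real.log (es.length + 1) + 1) := by
  classical
  obtain ⟨C, e', hC⟩ := hX.ex_list
  have hC0 := M.C0_pos
  refine ⟨2 * M.C0 * (|C| + e' * (1 + 2 * M.C0 + 1) + 1), by positivity, ?_⟩
  intro L es hL hes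
  have hφ : ∀ s : S, ∃ v : V, s ∈ M.E → v ∈ M.e ∧ M.ex v = s := by
    intro s
    by_cases h : s ∈ M.E
    · obtain ⟨v, hv, hv2⟩ := (M.mem_E s).1 h
      exact ⟨v, fun _ => ⟨hv, hv2⟩⟩
    · exact ⟨0, fun h' => absurd h' h⟩
  choose φ hφ using hφ
  have h1 : (es.map φ).map M.ex = es := by
    rw [List.map_map]
    conv_rhs => rw [← List.map_id es]
    refine List.map_congr_left fun a ha => ?_
    exact (hφ a (hes a ha).1).2
  obtain ⟨u, hu1, hu2⟩ := hC (Real.exp (M.C0 * (1 + L))) (Real.exp_pos _).le (es.map φ) (by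
    intro v hv
    obtain ⟨a, ha, rfl⟩ := List.mem_map.1 hv
    refine (M.met_lo _).trans ?_
    rw [(hφ a (hes a ha).1).2]
    refine Real.exp_le_exp.2 ?_
    have := (hes a ha).2
    gcongr)
  rw [h1] at hu1
  rw [List.length_map] at hu2
  have hmem : es.prod ∈ M.E := by
    refine Subgroup.list_prod_mem _ fun a ha => (hes a ha).1
  have hue : u ∈ M.e := by
    obtain ⟨v, hv, hv2⟩ := (M.mem_E _).1 hmem
    rw [← hu1] at hv2
    rwa [M.ex_inj hv2] at hv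
  obtain ⟨n, hn⟩ : ∃ n : ℝ, n = es.length := ⟨_, rfl⟩
  have hn0 : 0 ≤ n := by rw [hn]; exact Nat.cast_nonneg _
  rw [← hn] at hu2 ⊢
  have hlog : 0 ≤ Real.log (n + 1) := Real.log_nonneg (by linarith)
  have hE1 : (1 : ℝ) ≤ Real.exp (M.C0 * (1 + L)) := Real.one_le_exp (by positivity)
  have hx : 1 + Real.exp (M.C0 * (1 + L)) + n ≤
      Real.exp (1 + M.C0 * (1 + L) + Real.log (n + 1)) := by
    rw [Real.exp_add, Real.exp_add, Real.exp_log (by linarith)]
    have h2 : (2 : ℝ) ≤ Real.exp 1 := by have := Real.add_one_le_exp (1 : ℝ); linarith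
    have h3 : 1 + Real.exp (M.C0 * (1 + L)) + n ≤ (2 * Real.exp (M.C0 * (1 + L))) * (n + 1) := by
      nlinarith
    refine h3.trans ?_
    gcongr
  have hnm : M.nm u ≤ Real.exp (|C| + e' * (1 + M.C0 * (1 + L) + Real.log (n + 1))) := by
    refine hu2.trans ?_
    rw [Real.exp_add, Real.exp_nat_mul]
    have h2 : C ≤ Real.exp |C| := (le_abs_self C).trans
      ((by linarith : |C| ≤ |C| + 1).trans (Real.add_one_le_exp _))
    have h3 : (0 : ℝ) ≤ 1 + Real.exp (M.C0 * (1 + L)) + n := by positivity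
    calc C * (1 + Real.exp (M.C0 * (1 + L)) + n) ^ e' ≤
        Real.exp |C| * (1 + Real.exp (M.C0 * (1 + L)) + n) ^ e' := by gcongr
      _ ≤ _ := by gcongr
  rw [← hu1]
  refine (M.len_e hue (by positivity) hnm).trans ?_
  rw [mul_assoc (2 * M.C0)]
  refine mul_le_mul_of_nonneg_left ?_ (by positivity)
  obtain ⟨X, hXd⟩ : ∃ X : ℝ, X = L + Real.log (n + 1) + 1 := ⟨_, rfl⟩
  have hX1 : 1 ≤ X := by rw [hXd]; linarith
  have a1 : |C| + 1 ≤ (|C| + 1) * X := le_mul_of_one_le_right (by positivity) hX1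
  have a2 : 1 + M.C0 * (1 + L) + Real.log (n + 1) ≤ (1 + 2 * M.C0 + 1) * X := by
    have b1 : M.C0 * (1 + L) ≤ 2 * M.C0 * X := by
      have : M.C0 * (1 + L) ≤ M.C0 * (2 * X) := by
        refine mul_le_mul_of_nonneg_left ?_ hC0.le
        rw [hXd]; linarith
      linarith
    have b2 : Real.log (n + 1) ≤ X := by rw [hXd]; linarith
    linarith
  have a3 : (e' : ℝ) * (1 + M.C0 * (1 + L) + Real.log (n + 1)) ≤
      e' * ((1 + 2 * M.C0 + 1) * X) := mul_le_mul_of_nonneg_left a2 (Nat.cast_nonneg _)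
  rw [← hXd]
  linarith

/-- conjugation of elements of `E` by Cartan words -/
theorem con_R : ∃ C : ℝ, 0 ≤ C ∧ ∀ n : ℕ, ∀ c ∈ M.CB n, ∀ s ∈ M.E,
    (M.l (c * s * c⁻¹) : ℝ) ≤ C * (M.l s + ‖M.θ c‖ + Real.log (n + 1) + 1) := by
  classical
  have hC0 := M.C0_pos
  obtain ⟨Cb, hCb0, hCb⟩ : ∃ Cb : ℝ, 0 ≤ Cb ∧ ∀ b ∈ M.Φ, ‖b‖ ≤ Cb := by
    refine ⟨∑ b ∈ M.Φ, ‖b‖, Finset.sum_nonneg fun _ _ => norm_nonneg _, fun b hb => ?_⟩
    exact Finset.single_le_sum (f := fun b : Z1.Ht k →L[ℝ] ℝ => ‖b‖) (fun _ _ => norm_nonneg _) hb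
  obtain ⟨Cz, hCz⟩ : ∃ Cz : ℝ, Cz = M.C0 * (1 + M.C0) + 2 * M.C0 + M.deg + Cb := ⟨_, rfl⟩
  have hCz0 : 0 ≤ Cz := by rw [hCz]; positivity
  refine ⟨M.mE * (2 * M.C0 * (Cz + 1)), by positivity, ?_⟩
  intro n c hc s hs
  obtain ⟨v, hv, rfl⟩ := (M.mem_E s).1 hs
  obtain ⟨x, hx, hvx⟩ := M.gen_e v hv
  obtain ⟨ℓ, hℓ⟩ : ∃ ℓ : ℝ, ℓ = M.l (M.ex v) := ⟨_, rfl⟩
  have hℓ0 : 0 ≤ ℓ := by rw [hℓ]; exact Nat.cast_nonneg _
  rw [← hℓ]
  have hn0 : (0 : ℝ) ≤ n := Nat.cast_nonneg _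
  have hlog : 0 ≤ Real.log ((n : ℝ) + 1) := Real.log_nonneg (by linarith)
  obtain ⟨X, hXd⟩ : ∃ X : ℝ, X = ℓ + ‖M.θ c‖ + Real.log (n + 1) + 1 := ⟨_, rfl⟩
  have hθ0 := norm_nonneg (M.θ c)
  have hX1 : 1 ≤ X := by rw [hXd]; linarith
  rw [← hXd]
  -- one letter
  have hone : ∀ t, (M.l (c * M.ex (x t • M.X (M.jE t)) * c⁻¹) : ℝ) ≤
      2 * M.C0 * (Cz + 1) * X := by
    intro t
    have hb : M.wt (M.jE t) ∈ M.Φ := (M.wt_mem _).resolve_right (M.jE_ne t)
    rw [← M.ex_Ad, map_smul]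
    have h1 : M.Ad c (M.X (M.jE t)) ∈ M.Vw (M.wt (M.jE t)) := M.Ad_CB hc (M.X_mem _)
    have h2 : x t • M.Ad c (M.X (M.jE t)) ∈ M.e :=
      Submodule.smul_mem _ _ (M.Vw_e _ (M.jE_ne t) h1)
    have h3 := M.C_le n c hc _ (M.Φ_sub hb) _ (M.X_mem (M.jE t))
    have hnm : M.nm (x t • M.Ad c (M.X (M.jE t))) ≤ Real.exp (Cz * X) := by
      rw [map_smul_eq_mul, Real.norm_eq_abs]
      have b1 : |x t| ≤ Real.exp M.C0 * Real.exp ((1 + M.C0 * (1 + ℓ)) * M.C0) := by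
        refine (hx t).trans ?_
        have c1 : M.C0 ≤ Real.exp M.C0 :=
          (by linarith : M.C0 ≤ M.C0 + 1).trans (Real.add_one_le_exp _)
        have c2 : 1 + M.nm v ≤ Real.exp (1 + M.C0 * (1 + ℓ)) := by
          have := M.met_lo v
          rw [← hℓ] at this
          rw [Real.exp_add]
          have h2 : (2 : ℝ) ≤ Real.exp 1 := by have := Real.add_one_le_exp (1 : ℝ); linarith
          have h3 : 1 ≤ Real.exp (M.C0 * (1 + ℓ)) := Real.one_le_exp (by positivity)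
          nlinarith
        have c3 : (1 + M.nm v) ^ M.C0 ≤ Real.exp ((1 + M.C0 * (1 + ℓ)) * M.C0) := by
          rw [Real.exp_mul]
          exact Real.rpow_le_rpow (by have := M.nm_nonneg v; linarith) c2 hC0.le
        have c4 : 0 ≤ (1 + M.nm v) ^ M.C0 := Real.rpow_nonneg (by
          have := M.nm_nonneg v; linarith) _
        gcongr
      have b2 : M.nm (M.Ad c (M.X (M.jE t))) ≤ Real.exp M.C0 *
          Real.exp (M.deg * Real.log ((n : ℝ) + 1)) * Real.exp (Cb * ‖M.θ c‖) := by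
        refine h3.trans ?_
        have c1 : M.C0 ≤ Real.exp M.C0 :=
          (by linarith : M.C0 ≤ M.C0 + 1).trans (Real.add_one_le_exp _)
        have c2 : (1 + (n : ℝ)) ^ M.deg = Real.exp (M.deg * Real.log ((n : ℝ) + 1)) := by
          rw [Real.exp_nat_mul, Real.exp_log (by linarith), add_comm]
        have c3 : (M.wt (M.jE t)) (hgt M.η c) ≤ Cb * ‖M.θ c‖ := by
          refine (le_abs_self _).trans ?_
          rw [← Real.norm_eq_abs]
          refine ((M.wt (M.jE t)).le_opNorm _).trans ?_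
          exact mul_le_mul_of_nonneg_right (hCb _ hb) (norm_nonneg _)
        rw [c2]
        have c4 := M.X_le (M.jE t)
        have c5 := M.nm_nonneg (M.X (M.jE t))
        calc M.C0 * Real.exp (M.deg * Real.log ((n : ℝ) + 1)) *
              Real.exp ((M.wt (M.jE t)) (hgt M.η c)) * M.nm (M.X (M.jE t)) ≤
            Real.exp M.C0 * Real.exp (M.deg * Real.log ((n : ℝ) + 1)) *
              Real.exp (Cb * ‖M.θ c‖) * 1 := by gcongr
          _ = _ := mul_one _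
      have b3 : (0 : ℝ) ≤ M.nm (M.Ad c (M.X (M.jE t))) := M.nm_nonneg _
      calc |x t| * M.nm (M.Ad c (M.X (M.jE t))) ≤
          (Real.exp M.C0 * Real.exp ((1 + M.C0 * (1 + ℓ)) * M.C0)) * (Real.exp M.C0 *
            Real.exp (M.deg * Real.log ((n : ℝ) + 1)) * Real.exp (Cb * ‖M.θ c‖)) := by gcongr
        _ = Real.exp (M.C0 + (1 + M.C0 * (1 + ℓ)) * M.C0 + (M.C0 +
            M.deg * Real.log ((n : ℝ) + 1) + Cb * ‖M.θ c‖)) := by
            rw [← Real.exp_add, ← Real.exp_add, ← Real.exp_add, ← Real.exp_add]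
        _ ≤ _ := by
            refine Real.exp_le_exp.2 ?_
            have d1 : 2 * M.C0 ≤ 2 * M.C0 * X := le_mul_of_one_le_right (by positivity) hX1
            have d2 : (1 + M.C0 * (1 + ℓ)) * M.C0 ≤ M.C0 * (1 + M.C0) * X := by
              have e1 : 1 + M.C0 * (1 + ℓ) ≤ (1 + M.C0) * X := by
                have e2 : 1 + ℓ ≤ X := by rw [hXd]; linarith
                have e3 : M.C0 * (1 + ℓ) ≤ M.C0 * X := by gcongr
                linarith
              calc (1 + M.C0 * (1 + ℓ)) * M.C0 ≤ (1 + M.C0) * X * M.C0 := by gcongr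
                _ = _ := by ring
            have d3 : (M.deg : ℝ) * Real.log ((n : ℝ) + 1) ≤ M.deg * X := by
              refine mul_le_mul_of_nonneg_left ?_ (Nat.cast_nonneg _)
              rw [hXd]; linarith
            have d4 : Cb * ‖M.θ c‖ ≤ Cb * X := by
              refine mul_le_mul_of_nonneg_left ?_ hCb0
              rw [hXd]; linarith
            rw [hCz]
            linarith
    have h4 := M.len_e h2 (by positivity : 0 ≤ Cz * X) hnm
    refine h4.trans ?_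
    rw [mul_assoc (2 * M.C0)]
    refine mul_le_mul_of_nonneg_left ?_ (by positivity)
    linarith
  -- the product
  have hlist : ∀ L : List S, (∀ a ∈ L, (M.l (c * a * c⁻¹) : ℝ) ≤ 2 * M.C0 * (Cz + 1) * X) →
      (M.l (c * L.prod * c⁻¹) : ℝ) ≤ L.length * (2 * M.C0 * (Cz + 1) * X) := by
    intro L
    induction L with
    | nil =>
      intro _
      have e : c * ([] : List S).prod * c⁻¹ = 1 := by simp
      rw [e, M.len.one]; simp
    | cons a L ih =>
      intro h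
      have e : c * (a :: L).prod * c⁻¹ = (c * a * c⁻¹) * (c * L.prod * c⁻¹) := by
        rw [List.prod_cons]; group
      rw [e]
      have a1 : (M.l ((c * a * c⁻¹) * (c * L.prod * c⁻¹)) : ℝ) ≤
          M.l (c * a * c⁻¹) + M.l (c * L.prod * c⁻¹) := by exact_mod_cast M.len.mul _ _
      have a2 := h a (by simp)
      have a3 := ih fun b hb => h b (List.mem_cons_of_mem _ hb)
      rw [List.length_cons]
      push_cast
      linarith
  have h5 := hlist (List.ofFn fun t => M.ex (x t • M.X (M.jE t))) (by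
    intro a ha
    obtain ⟨t, rfl⟩ := (List.mem_ofFn' _ _).1 ha
    exact hone t)
  rw [List.length_ofFn, ← hvx] at h5
  refine h5.trans (le_of_eq ?_)
  ring

end Vale.Agent.P188.H754

end

section

/-!
# Route A: slab paths

A path of length at most `exp (c R)` with heights at most `2 R` ends at a point `s' * ex y` with `s'`
of length `O(R)` and `ex y` neutral of size at most `exp (δ R)`.
-/

set_option linter.all false

open MeasureTheory Set
open Vale.Agent.P188.Z1 (RModel)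
open Vale.Agent.P188.H530 (hgt)

namespace Vale.Agent.P188.H789

variable {S : Type} [Group S] [MeasurableSpace S] {Γ : Type} [Group Γ]
  {V : Type} [AddCommGroup V] [Module ℝ V] {k : ℕ} (M : RModel S Γ V k)

/-- decomposition of a path -/
theorem path_dec (n₀ : ℕ) (p : ℕ → S) (j : ℕ) (h0 : p 0 = 1)
    (hst : ∀ i < j, ∃ v ∈ M.e, ∃ d ∈ M.CB n₀, (p i)⁻¹ * p (i + 1) = M.ex v * d ∧
      (M.l (M.ex v) : ℝ) ≤ n₀) :
    ∃ (c e : ℕ → S), (∀ i ≤ j, c i ∈ M.CB (i * n₀)) ∧ (∀ i ≤ j, M.θ (c i) = M.θ (p i)) ∧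
      (∀ i < j, e i ∈ M.E ∧ (M.l (e i) : ℝ) ≤ n₀) ∧
      ∀ i ≤ j, p i = ((List.range i).map fun t => c t * e t * (c t)⁻¹).prod * c i := by
  classical
  have hst' : ∀ i, ∃ v ∈ M.e, ∃ d : S, i < j → (d ∈ M.CB n₀ ∧ (p i)⁻¹ * p (i + 1) = M.ex v * d ∧
      (M.l (M.ex v) : ℝ) ≤ n₀) := by
    intro i
    by_cases hi : i < j
    · obtain ⟨v, hv, d, hd, h1, h2⟩ := hst i hi
      exact ⟨v, hv, d, fun _ => ⟨hd, h1, h2⟩⟩
    · exact ⟨0, zero_mem _, 1, fun h => absurd h hi⟩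
  choose v hv d hd using hst'
  set c : ℕ → S := fun i => ((List.range i).map d).prod with hc
  have hcs : ∀ i, c (i + 1) = c i * d i := by
    intro i
    simp only [hc, List.range_succ, List.map_append, List.prod_append, List.map_singleton,
      List.prod_singleton]
  have hc0 : c 0 = 1 := by simp [hc]
  have hθe : ∀ i, M.θ (M.ex (v i)) = 0 := fun i => M.θ_ex _
  refine ⟨c, fun i => M.ex (v i), ?_, ?_, ?_, ?_⟩
  · intro i
    induction i with
    | zero => intro _; rw [hc0]; exact M.one_mem_CB _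
    | succ i ih =>
      intro hi
      rw [hcs, Nat.succ_mul]
      exact M.CB_mul (ih (by omega)) (hd i (by omega)).1
  · intro i
    induction i with
    | zero => intro _; rw [hc0, h0]
    | succ i ih =>
      intro hi
      have h1 := (hd i (by omega)).2.1
      have h2 : p (i + 1) = p i * (M.ex (v i) * d i) := by rw [← h1]; group
      rw [hcs, h2, M.θ_mul, M.θ_mul, M.θ_mul, ih (by omega), hθe, zero_add]
  · intro i hi
    exact ⟨(M.mem_E _).2 ⟨v i, hv i, rfl⟩, (hd i hi).2.2⟩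
  · intro i
    induction i with
    | zero => intro _; simp [hc0, h0]
    | succ i ih =>
      intro hi
      have h1 := (hd i (by omega)).2.1
      have h2 : p (i + 1) = p i * (M.ex (v i) * d i) := by rw [← h1]; group
      rw [h2, ih (by omega), hcs]
      simp only [List.range_succ, List.map_append, List.prod_append, List.map_singleton,
        List.prod_singleton]
      group

/-- an integral vector with bounded coordinates -/
theorem exists_int (c : S) {R : ℝ} (h : ‖M.θ c‖ ≤ R) :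
    ∃ w : Fin k → ℤ, (∀ i, |(w i : ℝ)| ≤ R) ∧ M.η c = Multiplicative.ofAdd w := by
  refine ⟨Multiplicative.toAdd (M.η c), fun i => ?_, rfl⟩
  have h1 := (norm_le_pi_norm (M.θ c) i).trans h
  rw [Real.norm_eq_abs] at h1
  exact h1

/-- the size of the neutral part -/
theorem poly_bd {C0 R c δ n₀ j m : ℝ} {deg : ℕ} (hC0 : 1 ≤ C0) (hR : 0 ≤ R) (hc0 : 0 < c)
    (hc2 : c * (2 * (deg + 1)) ≤ δ) (hn0 : 0 ≤ n₀) (hj0 : 0 ≤ j) (hj : j ≤ Real.exp (c * R))
    (h : (n₀ + 3 * C0 + 3) * (1 + R) ≤ Real.exp (c * R))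
    (hm : m ≤ C0 * (1 + 2 * R) + 1 + j * n₀) (hm0 : 0 ≤ m) :
    C0 * (1 + m) ^ deg ≤ Real.exp (δ * R) := by
  set X := Real.exp (c * R) with hX
  have hX1 : 1 ≤ X := Real.one_le_exp (by positivity)
  have g1 : 1 + m ≤ X ^ 2 := by
    have g5 : j * n₀ ≤ X * n₀ := mul_le_mul_of_nonneg_right hj hn0
    have g7 : (n₀ + 3 * C0 + 3) * (1 + R) * X ≤ X * X :=
      mul_le_mul_of_nonneg_right h (by positivity)
    have g8 : (3 * C0 + 3) * (1 + R) * 1 ≤ (3 * C0 + 3) * (1 + R) * X :=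
      mul_le_mul_of_nonneg_left hX1 (by positivity)
    have g9 : X * n₀ ≤ n₀ * (1 + R) * X := by
      have : 0 ≤ n₀ * X * R := by positivity
      nlinarith
    have g10 : C0 * (1 + 2 * R) + 2 ≤ (3 * C0 + 3) * (1 + R) := by nlinarith
    rw [sq]
    nlinarith
  have g10 : (1 + m) ^ deg ≤ X ^ (2 * deg) := by
    rw [pow_mul]
    exact pow_le_pow_left₀ (by linarith) g1 _
  have g11 : C0 ≤ X := by
    refine le_trans ?_ h
    nlinarith [mul_nonneg hn0 hR]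
  calc C0 * (1 + m) ^ deg ≤ X * X ^ (2 * deg) :=
        mul_le_mul g11 g10 (by positivity) (by positivity)
    _ = X ^ (2 * deg + 1) := by ring
    _ = Real.exp (((2 * deg + 1 : ℕ) : ℝ) * (c * R)) := by rw [hX, ← Real.exp_nat_mul]
    _ ≤ Real.exp (δ * R) := by
        refine Real.exp_le_exp.2 ?_
        have g12 := mul_le_mul_of_nonneg_right hc2 hR
        have g13 : 0 ≤ c * R := by positivity
        push_cast
        nlinarith

/-- **Slab paths.** -/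
theorem slab_dec (hX : M.Extra) : ∃ C' : ℕ, ∀ (A : ℕ) (δ : ℝ), 0 < δ → ∃ c : ℝ, 0 < c ∧
    ∃ R1 : ℕ, ∀ R : ℕ, R1 ≤ R → ∀ j : ℕ, (j : ℝ) ≤ Real.exp (c * R) → ∀ z : ℕ → S,
    (∀ i < j, M.l ((z i)⁻¹ * z (i + 1)) ≤ A) → (∀ i ≤ j, ‖M.θ (z i) - M.θ (z 0)‖ ≤ 2 * R) →
    ∃ s', ∃ y ∈ M.Vw 0, (z 0)⁻¹ * z j = s' * M.ex y ∧ M.l s' ≤ C' * R ∧
      M.nm y ≤ Real.exp (δ * R) := by
  have hC0 := M.one_le_C0
  obtain ⟨Cl, hCl1, hCl⟩ := M.l_CB
  obtain ⟨Ct, hCt1, hCt⟩ := M.l_τ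
  obtain ⟨Cp, hCp0, hCp⟩ := H754.E_prod_R M hX
  obtain ⟨Cc, hCc0, hCc⟩ := H754.con_R M
  refine ⟨⌈Cp * (Cc * 4 + 3) + 4 * Ct⌉₊, fun A δ hδ => ?_⟩
  -- constants
  set n₀ : ℕ := ⌈M.C0 * A⌉₊ + A + ⌈Cl * ⌈M.C0 * A⌉₊⌉₊ with hn₀
  set c : ℝ := min (1 / 2) (δ / (2 * (M.deg + 1))) with hc
  have hc0 : 0 < c := by positivity
  have hc1 : c ≤ 1 / 2 := min_le_left _ _
  have hc2 : c * (2 * (M.deg + 1)) ≤ δ := by
    have := min_le_right (1 / 2) (δ / (2 * ((M.deg : ℝ) + 1)))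
    rw [← hc, le_div_iff₀ (by positivity)] at this
    exact this
  -- largeness of `R`
  obtain ⟨r1, hr1⟩ := Filter.eventually_atTop.1 (Z1.ev_poly ((n₀ : ℝ) + 3 * M.C0 + 3) 1
    (ε := c) hc0)
  obtain ⟨R1, hR1⟩ := exists_nat_ge (max r1 ((n₀ : ℝ) + Real.log (n₀ + 1) + 2))
  refine ⟨c, hc0, R1, fun R hR j hj z hst hht => ?_⟩
  have hR' : (R1 : ℝ) ≤ R := by exact_mod_cast hR
  have hRr : r1 ≤ R := ((le_max_left _ _).trans hR1).trans hR'
  have hRn : (n₀ : ℝ) + Real.log (n₀ + 1) + 2 ≤ R := ((le_max_right _ _).trans hR1).trans hR'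
  have hn0 : (0 : ℝ) ≤ n₀ := Nat.cast_nonneg _
  have hlogn : 0 ≤ Real.log ((n₀ : ℝ) + 1) := Real.log_nonneg (by linarith)
  have hR2 : (2 : ℝ) ≤ R := by linarith
  have hj0 : (0 : ℝ) ≤ j := Nat.cast_nonneg _
  have hexp1 : 1 ≤ Real.exp (c * R) := Real.one_le_exp (by positivity)
  have hlogj : Real.log ((j : ℝ) + 1) ≤ R / 2 + 1 := by
    rw [Real.log_le_iff_le_exp (by linarith)]
    have h1 : Real.exp (c * R) ≤ Real.exp (R / 2) := Real.exp_le_exp.2 (by nlinarith)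
    have h2 : (2 : ℝ) ≤ Real.exp 1 := by have := Real.add_one_le_exp (1 : ℝ); linarith
    have h3 : 1 ≤ Real.exp (R / 2) := hexp1.trans h1
    rw [Real.exp_add]
    nlinarith
  have hlogj0 : 0 ≤ Real.log ((j : ℝ) + 1) := Real.log_nonneg (by linarith)
  -- the path
  obtain ⟨cc, e, h1, h2, h3, h4⟩ := path_dec M n₀ (fun i => (z 0)⁻¹ * z i) j (by simp) (by
    intro i hi
    have e1 : ((z 0)⁻¹ * z i)⁻¹ * ((z 0)⁻¹ * z (i + 1)) = (z i)⁻¹ * z (i + 1) := by group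
    simp only [e1]
    obtain ⟨v, hv, d, hd, hs⟩ := M.dec ((z i)⁻¹ * z (i + 1))
    have hl : (M.l ((z i)⁻¹ * z (i + 1)) : ℝ) ≤ A := by exact_mod_cast hst i hi
    have hd' : d ∈ M.CB ⌈M.C0 * A⌉₊ :=
      M.CB_mono (Nat.ceil_mono (mul_le_mul_of_nonneg_left hl (by linarith))) hd
    refine ⟨v, hv, d, M.CB_mono (by omega) hd', hs, ?_⟩
    have e2 : M.ex v = ((z i)⁻¹ * z (i + 1)) * d⁻¹ := by rw [hs]; group
    have h5 : (M.l (M.ex v) : ℝ) ≤ M.l ((z i)⁻¹ * z (i + 1)) + M.l d⁻¹ := by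
      rw [e2]; exact_mod_cast M.len.mul _ _
    rw [M.len.inv] at h5
    have h6 := hCl _ d hd'
    have h7 := Nat.le_ceil (Cl * (⌈M.C0 * A⌉₊ : ℝ))
    have h8 : (n₀ : ℝ) = ⌈M.C0 * A⌉₊ + A + ⌈Cl * ⌈M.C0 * A⌉₊⌉₊ := by rw [hn₀]; push_cast; ring
    have h9 : (0 : ℝ) ≤ ⌈M.C0 * A⌉₊ := Nat.cast_nonneg _
    linarith)
  have hθc : ∀ i ≤ j, ‖M.θ (cc i)‖ ≤ 2 * R := by
    intro i hi
    rw [h2 i hi, M.θ_inv_mul]
    exact hht i hi
  set L : ℝ := Cc * (n₀ + 2 * R + (Real.log (n₀ + 1) + Real.log (j + 1)) + 1) with hL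
  have hL0 : 0 ≤ L := by positivity
  set es : List S := (List.range j).map fun t => cc t * e t * (cc t)⁻¹ with hes
  have hesl : es.length = j := by rw [hes]; simp
  have h5 : (M.l es.prod : ℝ) ≤ Cp * (L + Real.log (es.length + 1) + 1) := by
    refine hCp L es hL0 fun x hx => ?_
    rw [hes, List.mem_map] at hx
    obtain ⟨t, ht, rfl⟩ := hx
    rw [List.mem_range] at ht
    obtain ⟨g1, g2⟩ := h3 t ht
    refine ⟨M.E_normal.conj_mem _ g1 _, ?_⟩
    refine (hCc _ _ (h1 t ht.le) _ g1).trans ?_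
    rw [hL]
    refine mul_le_mul_of_nonneg_left ?_ hCc0
    have g3 := hθc t ht.le
    have g4 : Real.log (((t * n₀ : ℕ) : ℝ) + 1) ≤ Real.log (n₀ + 1) + Real.log (j + 1) := by
      rw [← Real.log_mul (by linarith) (by linarith)]
      refine Real.log_le_log (by positivity) ?_
      push_cast
      have g5 : (t : ℝ) ≤ j := by exact_mod_cast ht.le
      nlinarith
    linarith
  rw [hesl] at h5
  have hLR : L ≤ Cc * 4 * R := by
    rw [hL, mul_assoc]
    refine mul_le_mul_of_nonneg_left ?_ hCc0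
    linarith
  have h6 : (M.l es.prod : ℝ) ≤ Cp * (Cc * 4 + 3) * R := by
    refine h5.trans ?_
    rw [mul_assoc]
    refine mul_le_mul_of_nonneg_left ?_ hCp0
    nlinarith
  -- the Cartan part
  obtain ⟨w, hw, hηw⟩ := exists_int M (cc j) (hθc j le_rfl)
  have h7 := hCt w (2 * R) (by positivity) hw
  have hcb := M.CB_mul (M.CB_inv (M.τ_mem_CB (by positivity : (0 : ℝ) ≤ 2 * R) hw)) (h1 j le_rfl)
  obtain ⟨y, hy, hy1, hy2⟩ := M.C_ker _ _ hcb (by
    rw [map_mul, map_inv, M.η_τ, hηw, inv_mul_cancel])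
  refine ⟨es.prod * M.τ w, y, hy, ?_, ?_, ?_⟩
  · have h40 : (z 0)⁻¹ * z j = es.prod * cc j := h4 j le_rfl
    rw [h40, hy1]
    group
  · have h8 : (M.l (es.prod * M.τ w) : ℝ) ≤ M.l es.prod + M.l (M.τ w) := by
      exact_mod_cast M.len.mul _ _
    have h9 : (M.l (es.prod * M.τ w) : ℝ) ≤ (Cp * (Cc * 4 + 3) + 4 * Ct) * R := by
      nlinarith
    have h10 : (M.l (es.prod * M.τ w) : ℝ) ≤
        ((⌈Cp * (Cc * 4 + 3) + 4 * Ct⌉₊ * R : ℕ) : ℝ) := by
      push_cast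
      exact h9.trans (mul_le_mul_of_nonneg_right (Nat.le_ceil _) (by linarith))
    exact_mod_cast h10
  · refine hy2.trans ?_
    have g2 := (Nat.ceil_lt_add_one (by positivity : (0 : ℝ) ≤ M.C0 * (1 + 2 * R))).le
    have g4 := hr1 R hRr
    rw [pow_one] at g4
    exact poly_bd hC0 (by linarith) hc0 hc2 hn0 hj0 hj g4 (by
      push_cast
      linarith) (by positivity)

end Vale.Agent.P188.H789

end
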