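import Vale.Agent.P188.R.G079

section

/-!
# P188, FLAT in the model, part 4: short elements
-/

set_option linter.all false

open MeasureTheory Set Filter
open Vale.Agent.P188.H530 (hgt)
open Vale.Agent.P188.H616 (Coord Sec Phi slide)

namespace Vale.Agent.P188.Z1.RModel.F6

variable {S : Type} [Group S] [MeasurableSpace S] {Γ : Type} [Group Γ]
  {V : Type} [AddCommGroup V] [Module ℝ V] {k : ℕ} (M : RModel S Γ V k)

/-- decomposition of an arbitrary element -/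
theorem exists_dec : ∃ C : ℝ, 1 ≤ C ∧ ∀ (g : S) (r : ℝ), (M.l g : ℝ) ≤ r → ∃ v ∈ M.e,
    M.nm v ≤ Real.exp (C * (1 + r)) ∧ ∃ n : ℕ, (n : ℝ) ≤ C * (1 + r) ∧ ∃ c ∈ M.CB n,
      g = M.ex v * c := by
  obtain ⟨C₁, hC₁, hl⟩ := M.l_CB
  have hC0 := M.C0_pos
  have hC01 := M.one_le_C0
  refine ⟨M.C0 * (1 + 1 + C₁ * (M.C0 + 1)) + M.C0 + 1, by nlinarith [mul_pos hC0 (by linarith : 0 < C₁)], ?_⟩
  intro g r hr
  have hr0 : 0 ≤ r := (Nat.cast_nonneg _).trans hr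
  obtain ⟨v, hv, c, hc, rfl⟩ := M.dec g
  have hn : ((⌈M.C0 * (M.l (M.ex v * c) : ℝ)⌉₊ : ℕ) : ℝ) ≤ M.C0 * r + 1 := by
    refine (Nat.ceil_lt_add_one (by positivity)).le.trans ?_
    have := mul_le_mul_of_nonneg_left hr hC0.le
    linarith
  refine ⟨v, hv, ?_, _, ?_, c, hc, rfl⟩
  · refine (M.met_lo v).trans (Real.exp_le_exp.2 ?_)
    have h1 : (M.l (M.ex v) : ℝ) ≤ M.l (M.ex v * c) + M.l c := by
      have e : M.ex v = (M.ex v * c) * c⁻¹ := by group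
      have h2 := M.len.mul (M.ex v * c) c⁻¹
      rw [← e, M.len.inv] at h2
      exact_mod_cast h2
    have h2 := hl _ c hc
    have h3 : (M.l c : ℝ) ≤ C₁ * (M.C0 * r + 1) := h2.trans (mul_le_mul_of_nonneg_left hn (by linarith))
    have h4 : C₁ * (M.C0 * r + 1) ≤ C₁ * (M.C0 + 1) * (1 + r) := by
      have : 0 ≤ C₁ * M.C0 := by positivity
      nlinarith
    have h5 : 1 + (M.l (M.ex v) : ℝ) ≤ (1 + 1 + C₁ * (M.C0 + 1)) * (1 + r) := by nlinarith
    calc M.C0 * (1 + (M.l (M.ex v) : ℝ)) ≤ M.C0 * ((1 + 1 + C₁ * (M.C0 + 1)) * (1 + r)) :=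
          mul_le_mul_of_nonneg_left h5 hC0.le
      _ ≤ _ := by nlinarith
  · refine hn.trans ?_
    have : 0 ≤ M.C0 * (1 + 1 + C₁ * (M.C0 + 1)) := by positivity
    nlinarith

/-- the windows: `b (w) ≤ (1 - κ) s h b` for all classes -/
def WinH (h : (Ht k →L[ℝ] ℝ) → ℝ) (κ s : ℝ) (w : Ht k) : Prop :=
  ∀ b ∈ M.Φ, b w ≤ (1 - κ) * s * h b

variable {M} in
theorem WinH.mono {h : (Ht k →L[ℝ] ℝ) → ℝ} {c κ κ' s : ℝ} (hc : 0 ≤ c) (hh : M.HB c h) (hs : 0 ≤ s)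
    (hk : κ' ≤ κ) {w : Ht k} (hw : WinH M h κ s w) : WinH M h κ' s w := by
  intro b hb
  refine (hw b hb).trans ?_
  have := (hh b hb).1
  have h1 : (1 - κ) * s ≤ (1 - κ') * s := mul_le_mul_of_nonneg_right (by linarith) hs
  exact mul_le_mul_of_nonneg_right h1 (by linarith)

/-- right translation by a short element moves the `N_R`-part by a small element -/
theorem exists_cocycle (B : M.NatBox) : ∃ C : ℝ, 1 ≤ C ∧ ∀ (c₂ d₁ κ κ₁ A δ : ℝ), 0 < c₂ → 0 < d₁ →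
    0 < κ → 0 ≤ κ₁ → C * κ₁ < κ * c₂ → 0 < δ → ∀ᶠ s : ℝ in atTop,
      ∀ h : (Ht k →L[ℝ] ℝ) → ℝ, M.HB c₂ h → ∀ z : S, WinH M h κ s (M.θ z) →
      ‖M.θ z‖ ≤ A * s → ∀ g : S, (M.l g : ℝ) ≤ κ₁ * s →
        M.sec z * g * (M.sec (z * g))⁻¹ ∈ B.Bx fun i => δ * M.szh h d₁ s i := by
  obtain ⟨C₁, hC₁, hdec⟩ := exists_dec M
  have hC0 := M.C0_pos
  have hC01 := M.one_le_C0
  have hBC := C_pos B
  refine ⟨C₁, hC₁, ?_⟩
  intro c₂ d₁ κ κ₁ A δ hc₂ hd hκ hκ₁ hCκ hδ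
  -- the exponent left
  set ν₀ : ℝ := κ * c₂ - C₁ * κ₁ with hν₀
  have hν₀pos : 0 < ν₀ := by
    rw [hν₀]
    linarith
  set ν : ℝ := min (ν₀ / 2) (d₁ / 2) with hν
  have hνpos : 0 < ν := lt_min (by linarith) (by linarith)
  have hδ' : 0 < δ / B.C := by positivity
  -- the constants of the small exponential
  have hev2 : ∀ᶠ s : ℝ in atTop, B.C * (1 + Real.exp (C₁ * (1 + κ₁ * s))) ≤
      Real.exp (C₁ * κ₁ * s) * Real.exp (ν₀ / 2 * s) := by
    filter_upwards [ev_constB (B.C * (1 + Real.exp C₁)) (half_pos hν₀pos) one_pos,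
      eventually_ge_atTop (0 : ℝ)] with s h1 hs
    simp only [one_mul] at h1
    have h2 : (1 : ℝ) ≤ Real.exp (C₁ * κ₁ * s) := Real.one_le_exp (by positivity)
    have h3 : Real.exp (C₁ * (1 + κ₁ * s)) = Real.exp C₁ * Real.exp (C₁ * κ₁ * s) := by
      rw [← Real.exp_add]; congr 1; ring
    rw [h3]
    calc B.C * (1 + Real.exp C₁ * Real.exp (C₁ * κ₁ * s))
        ≤ B.C * (Real.exp (C₁ * κ₁ * s) + Real.exp C₁ * Real.exp (C₁ * κ₁ * s)) := by gcongr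
      _ = Real.exp (C₁ * κ₁ * s) * (B.C * (1 + Real.exp C₁)) := by ring
      _ ≤ _ := mul_le_mul_of_nonneg_left h1 (Real.exp_pos _).le
  set A' : ℝ := M.C0 * (|A| + 2) with hA'
  set A'' : ℝ := |A| + C₁ * (1 + κ₁) with hA''
  filter_upwards [ev_conj B (d₁ := d₁) A' hδ' hνpos, ev_cocycle B hc₂ hd A'' hδ', hev2,
    eventually_ge_atTop (2 : ℝ)] with s h1 h2 h3 hs h hh z hw hz g hg
  obtain ⟨v, hv, hvn, n, hn, c, hc, rfl⟩ := hdec g (κ₁ * s) hg
  have hηg : M.η (z * (M.ex v * c)) = M.η (z * c) := by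
    rw [map_mul, map_mul, M.η_ex, one_mul, map_mul]
  have hsplit : M.sec z * (M.ex v * c) * (M.sec (z * (M.ex v * c)))⁻¹ =
      (M.sec z * M.ex v * (M.sec z)⁻¹) * (M.sec z * c * (M.sec (z * c))⁻¹) := by
    rw [sec_congr M hηg]; group
  rw [hsplit]
  have hzA : ‖M.θ z‖ ≤ |A| * s := hz.trans (mul_le_mul_of_nonneg_right (le_abs_self A) (by linarith))
  have hAs : 0 ≤ |A| * s := by positivity
  have hn0 : (0 : ℝ) ≤ n := Nat.cast_nonneg n
  have hC₁0 : 0 ≤ C₁ * (1 + κ₁) := by positivity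
  -- first factor
  have hf1 : M.sec z * M.ex v * (M.sec z)⁻¹ ∈ B.Bx fun i => δ / B.C * M.szh h d₁ s i := by
    refine h1 h ⌈M.C0 * (1 + |A| * s)⌉₊ ?_ _ (sec_mem_CB M z (le_trans
      (mul_le_mul_of_nonneg_left (by linarith) hC0.le) (Nat.le_ceil _)))
      (M.two 1 (B.C * (1 + M.nm v))) (adm_two' le_rfl ?_) ?_ _ (B.ball_e v hv)
    · refine (Nat.ceil_lt_add_one (by positivity)).le.trans ?_
      rw [hA']
      nlinarith [mul_nonneg hC0.le hAs]
    · have h4 := apply_nonneg M.nm v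
      have := B.one_le
      nlinarith
    · intro i
      rw [θ_sec]
      unfold two sxh
      split_ifs with hi
      · rw [hi]
        simp only [ContinuousLinearMap.zero_apply, Real.exp_zero, mul_one]
        refine Real.one_le_exp (mul_nonneg ?_ (by linarith))
        have := min_le_right (ν₀ / 2) (d₁ / 2)
        rw [hν]; linarith
      · rcases wt_cases M i with h0 | ⟨hΦ, _⟩
        · exact absurd h0 hi
        have h5 := hw _ hΦ
        have h6 := (hh _ hΦ).1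
        have h7 : B.C * (1 + M.nm v) ≤ Real.exp (C₁ * κ₁ * s) * Real.exp (ν₀ / 2 * s) := by
          refine le_trans ?_ h3
          gcongr
        calc Real.exp (M.wt i (M.θ z)) * (B.C * (1 + M.nm v))
            ≤ Real.exp ((1 - κ) * s * h (M.wt i)) *
              (Real.exp (C₁ * κ₁ * s) * Real.exp (ν₀ / 2 * s)) := by
              gcongr
          _ = Real.exp ((1 - κ) * s * h (M.wt i) + (C₁ * κ₁ * s + ν₀ / 2 * s)) := by
              rw [Real.exp_add, Real.exp_add]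
          _ ≤ _ := by
              rw [Real.exp_le_exp]
              have h8 := min_le_left (ν₀ / 2) (d₁ / 2)
              have h9 : κ * c₂ ≤ κ * h (M.wt i) := mul_le_mul_of_nonneg_left h6 hκ.le
              have h10 : C₁ * κ₁ + ν₀ / 2 - κ * h (M.wt i) + ν ≤ 0 := by
                rw [hν]
                linarith
              have h11 : (C₁ * κ₁ + ν₀ / 2 - κ * h (M.wt i) + ν) * s ≤ 0 :=
                mul_nonpos_of_nonpos_of_nonneg h10 (by linarith)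
              nlinarith
  -- second factor
  have hf2 : M.sec z * c * (M.sec (z * c))⁻¹ ∈ B.Bx fun i => δ / B.C * M.szh h d₁ s i := by
    refine h2 h hh z (hzA.trans ?_) n (hn.trans ?_) c hc
    · rw [hA'']; nlinarith
    · rw [hA'']
      have e1 : C₁ * (1 + κ₁ * s) ≤ C₁ * (1 + κ₁) * s := by nlinarith
      nlinarith
  exact Bx_mul_half B (fun i => (szh_pos i).le) hδ.le hf1 hf2

end Vale.Agent.P188.Z1.RModel.F6

end

section

/-!
# P188, FLATG in the model: the letters of a box element (`hus`)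
-/

set_option linter.all false

open MeasureTheory Set Filter
open Vale.Agent.P188.H530 (hgt)
open Vale.Agent.P188.H616 (Coord Sec Phi slide Script)

namespace Vale.Agent.P188.Z1.RModel.F6

variable {S : Type} [Group S] [MeasurableSpace S] {Γ : Type} [Group Γ]
  {V : Type} [AddCommGroup V] [Module ℝ V] {k : ℕ} {M : RModel S Γ V k}

/-- prefixes of a product of letters stay in a box -/
theorem pre_of (B : M.NatBox) {R : M.ι → ℝ} (hR : ∀ i, 0 ≤ R i) :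
    ∀ (us : List (M.ι × S)) (U : S) (j N : ℕ), 1 ≤ j → j + us.length ≤ N →
      U ∈ B.Bx (fun i => B.C ^ j * R i) →
      (∀ q ∈ us, q.2 ∈ B.Bx fun i => B.C * R i) →
      Script.Pre (B.Bx fun i => B.C ^ N * R i) U us := by
  have hC := B.one_le
  have hmono : ∀ a b : ℕ, a ≤ b → ∀ x ∈ B.Bx (fun i => B.C ^ a * R i),
      x ∈ B.Bx (fun i => B.C ^ b * R i) := by
    intro a b hab x hx
    refine B.mono _ _ (fun i => mul_nonneg (by positivity) (hR i)) (fun i => ?_) hx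
    exact mul_le_mul_of_nonneg_right (pow_le_pow_right₀ hC hab) (hR i)
  intro us
  induction us with
  | nil =>
    intro U j N _ hN hU _
    exact hmono _ _ (by simpa using hN) _ hU
  | cons q us ih =>
    intro U j N hj hN hU hus
    rw [List.length_cons] at hN
    refine ⟨hmono _ _ (by omega) _ hU, ?_⟩
    refine ih _ (j + 1) N (by omega) (by omega) ?_ fun q' hq' => hus q' (by simp [hq'])
    have h1 : q.2 ∈ B.Bx fun i => B.C ^ j * R i := by
      refine hmono 1 j hj _ ?_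
      have := hus q (by simp)
      simpa using this
    have h2 := B.mul (fun i => B.C ^ j * R i) (fun i => mul_nonneg (by positivity) (hR i)) _ hU _ h1
    have e : (fun i => B.C * (B.C ^ j * R i)) = fun i => B.C ^ (j + 1) * R i := by
      funext i; rw [pow_succ]; ring
    rwa [e] at h2

/-- **every element of a box is a product of `m` letters, all prefixes in the box times `C ^ (m+1)`** -/
theorem exists_us (B : M.NatBox) {R : M.ι → ℝ} (hR : ∀ i, 0 ≤ R i) {u : S} (hu : u ∈ B.Bx R) :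
    ∃ us : List (M.ι × S), us.length ≤ B.m ∧
      (∀ q ∈ us, ∃ x : ℝ, |x| ≤ B.C * R q.1 ∧ q.2 = M.ex (x • M.X q.1)) ∧
      Script.Pre (B.Bx fun i => B.C ^ (B.m + 1) * R i) 1 us ∧ (us.map Prod.snd).prod = u := by
  obtain ⟨x, hx, hprod⟩ := B.gen R hR u hu
  have hC := B.one_le
  have hC0 : 0 ≤ B.C := by linarith
  refine ⟨List.ofFn fun t => (B.J t, M.ex (x t • M.X (B.J t))), by simp, ?_, ?_, ?_⟩
  · intro q hq
    obtain ⟨t, rfl⟩ := (List.mem_ofFn' _ _).1 hq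
    exact ⟨x t, hx t, rfl⟩
  · refine pre_of B hR _ 1 1 (B.m + 1) le_rfl (by simp [Nat.add_comm]) ?_ ?_
    · exact B.one _ fun i => mul_nonneg (by positivity) (hR i)
    · intro q hq
      obtain ⟨t, rfl⟩ := (List.mem_ofFn' _ _).1 hq
      exact B.letter _ (fun i => mul_nonneg hC0 (hR i)) _ _ (hx t)
  · rw [hprod, List.map_ofFn]
    rfl

end Vale.Agent.P188.Z1.RModel.F6

end

section

/-!
# P188, FLATG in the model: decomposition of the end frames (`hG`)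
-/

set_option linter.all false

open MeasureTheory Set Filter
open Vale.Agent.P188.H530 (hgt)
open Vale.Agent.P188.H616 (Coord Sec Phi slide Script)

namespace Vale.Agent.P188.Z1.RModel.F6

/-- finite nets of fixed cardinality at every scale -/
theorem exists_net (k : ℕ) (A κ₅ : ℝ) (hκ : 0 < κ₅) : ∃ n : ℕ, ∀ s : ℝ, 0 < s → ∀ W : Set (Ht k),
    (∀ w ∈ W, ‖w‖ ≤ A * s) → W.Nonempty → ∃ u : Fin n → Ht k, (∀ i, u i ∈ W) ∧
      ∀ w ∈ W, ∃ i, ‖w - u i‖ ≤ κ₅ * s := by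
  classical
  have hcpt : IsCompact (Metric.closedBall (0 : Ht k) A) := isCompact_closedBall 0 A
  obtain ⟨t, ht1, ht2, ht3⟩ := hcpt.finite_cover_balls (half_pos hκ)
  refine ⟨ht2.toFinset.card, fun s hs W hW hne => ?_⟩
  obtain ⟨w₀, hw₀⟩ := hne
  set e := ht2.toFinset.equivFin with he
  -- for every center, a point of `W` in the scaled ball, if there is one
  have hch : ∀ c : Ht k, ∃ u ∈ W, (∃ w ∈ W, ‖s⁻¹ • w - c‖ ≤ κ₅ / 2) → ‖s⁻¹ • u - c‖ ≤ κ₅ / 2 := by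
    intro c
    by_cases h : ∃ w ∈ W, ‖s⁻¹ • w - c‖ ≤ κ₅ / 2
    · obtain ⟨w, hw, h2⟩ := h
      exact ⟨w, hw, fun _ => h2⟩
    · exact ⟨w₀, hw₀, fun h' => absurd h' h⟩
  choose u hu hu2 using hch
  refine ⟨fun i => u (e.symm i), fun i => hu _, fun w hw => ?_⟩
  have h1 : s⁻¹ • w ∈ Metric.closedBall (0 : Ht k) A := by
    rw [mem_closedBall_zero_iff, norm_smul, norm_inv, Real.norm_eq_abs, abs_of_pos hs,
      inv_mul_le_iff₀ hs, mul_comm]
    exact hW w hw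
  have h2 := ht3 h1
  simp only [mem_iUnion, Metric.mem_ball, exists_prop] at h2
  obtain ⟨c, hc, h3⟩ := h2
  rw [dist_eq_norm] at h3
  have hc' : c ∈ ht2.toFinset := by simpa using hc
  refine ⟨e ⟨c, hc'⟩, ?_⟩
  show ‖w - u (e.symm (e ⟨c, hc'⟩))‖ ≤ κ₅ * s
  rw [Equiv.symm_apply_apply]
  have h4 := hu2 c ⟨w, hw, h3.le⟩
  have h5 : ‖s⁻¹ • w - s⁻¹ • u c‖ ≤ κ₅ := by
    calc ‖s⁻¹ • w - s⁻¹ • u c‖ = ‖(s⁻¹ • w - c) - (s⁻¹ • u c - c)‖ := by congr 1; abel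
      _ ≤ ‖s⁻¹ • w - c‖ + ‖s⁻¹ • u c - c‖ := norm_sub_le _ _
      _ ≤ κ₅ := by linarith
  rw [← smul_sub, norm_smul, norm_inv, Real.norm_eq_abs, abs_of_pos hs, inv_mul_le_iff₀ hs] at h5
  rw [mul_comm]
  exact h5

variable {S : Type} [Group S] [MeasurableSpace S] {Γ : Type} [Group Γ]
  {V : Type} [AddCommGroup V] [Module ℝ V] {k : ℕ} {M : RModel S Γ V k}

/-- the `N_R`-part of a short element is small -/
theorem exists_np_short (B : M.NatBox) : ∃ C : ℝ, 1 ≤ C ∧ ∀ (c₂ d₁ c₁ δ : ℝ), 0 < c₂ → 0 < d₁ →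
    0 ≤ c₁ → C * c₁ < c₂ → 0 < δ → ∀ᶠ s : ℝ in atTop, ∀ h : (Ht k →L[ℝ] ℝ) → ℝ, M.HB c₂ h →
      ∀ x : S, (M.l x : ℝ) ≤ c₁ * s → np M x ∈ B.Bx fun i => δ * M.szh h d₁ s i := by
  obtain ⟨C, hC, hco⟩ := exists_cocycle M B
  refine ⟨2 * C, by linarith, fun c₂ d₁ c₁ δ hc₂ hd hc₁ hlt hδ => ?_⟩
  have hBC := C_pos B
  have hδ' : 0 < δ / B.C := by positivity
  filter_upwards [hco c₂ d₁ (1 / 2) c₁ 0 (δ / B.C) hc₂ hd (by norm_num) hc₁ (by linarith) hδ',
    ev_ker B (d₁ := d₁) hc₂ hd (M.C0 + 1) hδ', eventually_ge_atTop (1 : ℝ)] with s h1 h2 hs h hh x hx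
  have hw : WinH M h (1 / 2) s (M.θ (1 : S)) := by
    intro b hb
    rw [M.θ_one, map_zero]
    have := (hh b hb).1
    have : 0 ≤ h b := by linarith
    positivity
  have h3 := h1 h hh 1 hw (by rw [M.θ_one, norm_zero, zero_mul]) x hx
  rw [one_mul] at h3
  have h4 : (M.sec (1 : S))⁻¹ ∈ B.Bx fun i => δ / B.C * M.szh h d₁ s i := by
    refine h2 h hh ⌈M.C0 * (1 + 0)⌉₊ ?_ _ (M.CB_inv (sec_mem_CB M 1 ?_)) ?_
    · rw [add_zero, mul_one]
      refine (Nat.ceil_lt_add_one M.C0_pos.le).le.trans ?_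
      nlinarith [M.C0_pos]
    · rw [M.θ_one, norm_zero]
      exact Nat.le_ceil _
    · rw [map_inv, η_sec, map_one, inv_one]
  have h5 := Bx_mul_half B (fun i => (szh_pos i).le) hδ.le h4 h3
  have e : (M.sec (1 : S))⁻¹ * (M.sec 1 * x * (M.sec x)⁻¹) = np M x := by
    unfold np; group
  rwa [e] at h5

/-- the `N_R`-part of a Cartan word is small -/
theorem ev_np_CB (B : M.NatBox) {c₂ d₁ δ : ℝ} (hc : 0 < c₂) (hd : 0 < d₁) (A : ℝ) (hδ : 0 < δ) :
    ∀ᶠ s : ℝ in atTop, ∀ h : (Ht k →L[ℝ] ℝ) → ℝ, M.HB c₂ h → ∀ n : ℕ, (n : ℝ) ≤ A * s →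
      ∀ x ∈ M.CB n, np M x ∈ B.Bx fun i => δ * M.szh h d₁ s i := by
  have hC0 := M.C0_pos
  filter_upwards [ev_ker B (d₁ := d₁) hc hd (|A| + M.C0 * (1 + |A|) + 1) hδ,
    eventually_ge_atTop (1 : ℝ)] with s h1 hs h hh n hn x hx
  have hn0 : (0 : ℝ) ≤ n := Nat.cast_nonneg n
  have hA : (n : ℝ) ≤ |A| * s := hn.trans (mul_le_mul_of_nonneg_right (le_abs_self A) (by linarith))
  have hθ := θ_CB M hx
  refine h1 h hh (n + ⌈M.C0 * (1 + |A| * s)⌉₊) ?_ _ ?_ ?_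
  · push_cast
    have h2 : ((⌈M.C0 * (1 + |A| * s)⌉₊ : ℕ) : ℝ) ≤ M.C0 * (1 + |A| * s) + 1 :=
      (Nat.ceil_lt_add_one (by positivity)).le
    have h3 : M.C0 * (1 + |A| * s) ≤ M.C0 * (1 + |A|) * s := by
      have : 0 ≤ M.C0 * |A| := by positivity
      nlinarith
    nlinarith
  · unfold np
    refine M.CB_mul hx (M.CB_inv (sec_mem_CB M x ?_))
    refine le_trans ?_ (Nat.le_ceil _)
    exact mul_le_mul_of_nonneg_left (by linarith) hC0.le
  · unfold np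
    rw [map_mul, map_inv, η_sec, mul_inv_cancel]

/-- **decomposition of an end frame** -/
theorem exists_frame (B : M.NatBox) : ∃ C : ℝ, 1 ≤ C ∧ ∀ (c₂ d₁ A κ₅ δ : ℝ), 0 < c₂ → 0 < d₁ →
    0 < κ₅ → 0 < δ → ∀ᶠ s : ℝ in atTop, ∀ h : (Ht k →L[ℝ] ℝ) → ℝ, M.HB c₂ h →
      ∀ z x : S, ‖M.θ z‖ ≤ A * s → ‖M.θ x‖ ≤ A * s →
      np M x ∈ B.Bx (fun i => δ / B.C * M.szh h d₁ s i) →
      ∀ m : ℕ, (m : ℝ) ≤ A * s → ∀ g ∈ M.CB m, ‖M.θ x - M.θ z - M.θ g‖ ≤ κ₅ * s →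
      ∃ e' r : S, M.η e' = 1 ∧ (M.l r : ℝ) ≤ C * (κ₅ * s) ∧ x = e' * M.sec z * g * r ∧
        e' ∈ B.Bx (fun i => δ * M.szh h d₁ s i) := by
  obtain ⟨C, hC, hτ⟩ := M.l_τ
  refine ⟨2 * C, by linarith, fun c₂ d₁ A κ₅ δ hc₂ hd hκ hδ => ?_⟩
  have hBC := C_pos B
  have hC0 := M.C0_pos
  have hδ' : 0 < δ / B.C := by positivity
  set A' : ℝ := M.C0 * (1 + |A|) * 2 + M.C0 * (1 + κ₅) + |A| + 3 with hA'
  filter_upwards [ev_ker B (d₁ := d₁) hc₂ hd A' hδ', eventually_ge_atTop (1 : ℝ),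
    eventually_ge_atTop (1 / κ₅)] with s h1 hs hs2 h hh z x hz hx hnp m hm g hg hclose
  have hm0 : (0 : ℝ) ≤ m := Nat.cast_nonneg m
  have hAle : A * s ≤ |A| * s := mul_le_mul_of_nonneg_right (le_abs_self A) (by linarith)
  have hκs : 1 ≤ κ₅ * s := by
    rw [div_le_iff₀ hκ] at hs2
    linarith
  set w : Fin k → ℤ := Multiplicative.toAdd (M.η (g⁻¹ * (M.sec z)⁻¹ * x)) with hw
  have hητ : M.η (M.τ w) = M.η (g⁻¹ * (M.sec z)⁻¹ * x) := by
    rw [M.η_τ, hw]; rfl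
  have hwθ : (fun i => (w i : ℝ)) = M.θ x - M.θ z - M.θ g := by
    have e1 : M.θ (g⁻¹ * (M.sec z)⁻¹ * x) = (fun i => (w i : ℝ)) := rfl
    rw [← e1, M.θ_mul, M.θ_mul, M.θ_inv, M.θ_inv, θ_sec]
    abel
  have hwn : ∀ i, |(w i : ℝ)| ≤ κ₅ * s := by
    intro i
    have h2 := norm_le_pi_norm (fun i => (w i : ℝ)) i
    rw [Real.norm_eq_abs] at h2
    refine h2.trans ?_
    rw [hwθ]
    exact hclose
  have hr := hτ w (κ₅ * s) (by linarith) hwn
  refine ⟨x * (M.τ w)⁻¹ * g⁻¹ * (M.sec z)⁻¹, M.τ w, ?_, ?_, by group, ?_⟩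
  · rw [map_mul, map_mul, map_mul, map_inv, map_inv, map_inv, hητ, η_sec]
    rw [map_mul, map_mul, map_inv, map_inv, η_sec]
    generalize M.η x = X
    generalize M.η g = G
    generalize M.η z = Z
    skip
    group
  · refine hr.trans ?_
    nlinarith
  · have e : x * (M.τ w)⁻¹ * g⁻¹ * (M.sec z)⁻¹ =
        np M x * (M.sec x * (M.τ w)⁻¹ * g⁻¹ * (M.sec z)⁻¹) := by
      unfold np; group
    rw [e]
    refine Bx_mul_half B (fun i => (szh_pos i).le) hδ.le hnp ?_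
    set N : ℕ := ⌈M.C0 * (1 + |A| * s)⌉₊ with hN
    have hNle : (N : ℝ) ≤ M.C0 * (1 + |A| * s) + 1 := (Nat.ceil_lt_add_one (by positivity)).le
    have hN2 : ((⌈M.C0 * (1 + κ₅ * s)⌉₊ : ℕ) : ℝ) ≤ M.C0 * (1 + κ₅ * s) + 1 :=
      (Nat.ceil_lt_add_one (by positivity)).le
    refine h1 h hh (N + ⌈M.C0 * (1 + κ₅ * s)⌉₊ + m + N) ?_ _ ?_ ?_
    · push_cast
      rw [hA']
      have h3 : M.C0 * (1 + |A| * s) ≤ M.C0 * (1 + |A|) * s := by
        have : 0 ≤ M.C0 * |A| := by positivity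
        nlinarith
      have h4 : M.C0 * (1 + κ₅ * s) ≤ M.C0 * (1 + κ₅) * s := by
        have : 0 ≤ M.C0 * κ₅ := by positivity
        nlinarith
      nlinarith
    · refine M.CB_mul (M.CB_mul (M.CB_mul ?_ (M.CB_inv (M.τ_mem_CB (by linarith) hwn))) (M.CB_inv hg))
        (M.CB_inv ?_)
      · refine sec_mem_CB M x (le_trans ?_ (Nat.le_ceil _))
        exact mul_le_mul_of_nonneg_left (by linarith) hC0.le
      · refine sec_mem_CB M z (le_trans ?_ (Nat.le_ceil _))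
        exact mul_le_mul_of_nonneg_left (by linarith) hC0.le
    · rw [map_mul, map_mul, map_mul, map_inv, map_inv, map_inv, hητ, η_sec, η_sec]
      rw [map_mul, map_mul, map_inv, map_inv, η_sec]
      generalize M.η x = X
      generalize M.η g = G
      generalize M.η z = Z
      skip
      group

end Vale.Agent.P188.Z1.RModel.F6

end
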