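import Vale.Agent.P188.R.G097
import Vale.Agent.P188.R.G092
import Vale.Agent.P188.R.G029
import Vale.Agent.P188.R.G082

section

/-!
# P188, FLAT in the model, part 7: merging at the facet
-/

set_option linter.all false

open MeasureTheory Set Filter
open Vale.Agent.P188.H530 (hgt)
open Vale.Agent.P188.H616 (Coord Sec Phi slide)

namespace Vale.Agent.P188.Z1.RModel.F6

variable {S : Type} [Group S] [MeasurableSpace S] {Γ : Type} [Group Γ]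
  {V : Type} [AddCommGroup V] [Module ℝ V] {k : ℕ} (M : RModel S Γ V k)

/-- constants of the finite set of directions -/
theorem exists_dirs {Φ₁ : Finset (Ht k →L[ℝ] ℝ)} {V₁ : Finset (Fin k → ℤ)} (hV : M.Dirs Φ₁ V₁) :
    ∃ (βm Vm : ℝ) (nv : ℕ), 0 < βm ∧ 1 ≤ Vm ∧ 1 ≤ nv ∧ (∀ v ∈ V₁, ‖(ht v : Ht k)‖ ≤ Vm) ∧
      (∀ v ∈ V₁, ∀ b ∈ M.Φ, βm ≤ |b (ht v)|) ∧ ∀ v ∈ V₁, M.τ v ∈ M.CB nv := by
  classical
  obtain ⟨βm, hβ, hβ2⟩ : ∃ βm : ℝ, 0 < βm ∧ ∀ v ∈ V₁, ∀ b ∈ M.Φ, βm ≤ |b (ht v)| := by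
    set P := V₁ ×ˢ M.Φ with hP
    by_cases hne : P.Nonempty
    · obtain ⟨q, hq, hmin⟩ := P.exists_min_image (fun q => |q.2 (ht q.1)|) hne
      have hq1 := Finset.mem_product.1 hq
      refine ⟨|q.2 (ht q.1)|, abs_pos.2 (hV.generic _ hq1.1 _ (M.Φ_sub hq1.2) (M.Φ_ne _ hq1.2)), ?_⟩
      intro v hv b hb
      exact hmin (v, b) (Finset.mem_product.2 ⟨hv, hb⟩)
    · rw [Finset.not_nonempty_iff_eq_empty] at hne
      refine ⟨1, one_pos, fun v hv b hb => ?_⟩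
      have : (v, b) ∈ P := Finset.mem_product.2 ⟨hv, hb⟩
      rw [hne] at this
      simp at this
  refine ⟨βm, 1 + ∑ v ∈ V₁, ‖(ht v : Ht k)‖,
    1 + ∑ v ∈ V₁, ⌈M.C0 * (1 + ‖(fun i => ((v i : ℤ) : ℝ))‖)⌉₊, hβ, ?_, ?_, ?_, hβ2, ?_⟩
  · have := Finset.sum_nonneg (s := V₁) (f := fun v => ‖(ht v : Ht k)‖) fun _ _ => norm_nonneg _
    linarith
  · omega
  · intro v hv
    have := Finset.single_le_sum (f := fun v => ‖(ht v : Ht k)‖) (fun _ _ => norm_nonneg _) hv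
    linarith
  · intro v hv
    have := Finset.single_le_sum (f := fun v : Fin k → ℤ =>
      ⌈M.C0 * (1 + ‖(fun i => ((v i : ℤ) : ℝ))‖)⌉₊) (fun _ _ => Nat.zero_le _) hv
    refine M.CB_mono ?_ (M.τ_CB v)
    omega

/-- conjugates of letters by Cartan words -/
theorem nm_Ad_le {n : ℕ} {c : S} (hc : c ∈ M.CB n) (i : M.ι) (x : ℝ) :
    M.nm (M.Ad c (x • M.X i)) ≤ M.C0 * (1 + n) ^ M.deg * Real.exp (M.wt i (M.θ c)) * |x| := by
  have hwt : M.wt i ∈ M.Wt := by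
    rcases M.wt_mem i with h | h
    · exact M.Φ_sub h
    · rw [h]; exact M.zero_mem_Wt
  have h1 := M.C_le n c hc (M.wt i) hwt (x • M.X i) (Submodule.smul_mem _ _ (M.X_mem i))
  refine h1.trans ?_
  have h2 : M.nm (x • M.X i) ≤ |x| := by
    rw [map_smul_eq_mul, Real.norm_eq_abs]
    have := M.X_le i
    nlinarith [abs_nonneg x]
  have hC := M.C0_pos
  refine mul_le_mul_of_nonneg_left h2 ?_
  positivity

theorem Ad_mem_Vw {n : ℕ} {c : S} (hc : c ∈ M.CB n) (i : M.ι) (x : ℝ) :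
    M.Ad c (x • M.X i) ∈ M.Vw (M.wt i) :=
  M.C_inv n c hc _ _ (Submodule.smul_mem _ _ (M.X_mem i))

variable {M} {c₂ : ℝ}

/-- **merging at the top** -/
theorem ev_top (hc : 0 < c₂) {κ' κp κ6 A Λ Vb : ℝ} (hκp : 0 < κp) (h6 : bΦ M * κ6 ≤ κp * c₂)
    (hΛ : 0 < Λ) :
    ∀ᶠ s : ℝ in atTop, ∀ h : (Ht k →L[ℝ] ℝ) → ℝ, M.HGood c₂ h → ∀ i, M.wt i ≠ 0 →
      ∀ u, Fct M h c₂ (M.wt i) u → ∀ (v : Fin k → ℤ) (m : ℕ),
      (κ' - 2 * κp) * s * h (M.wt i) - Vb ≤ m * M.wt i (ht v) →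
      ∀ n : ℕ, (n : ℝ) ≤ A * s → ∀ c : S, c * M.τ v ^ m ∈ M.CB n →
      ‖M.θ c - ((1 - κ') * s) • u‖ ≤ κ6 * s → ∀ x : ℝ, |x| ≤ Λ * Real.exp (s * h (M.wt i)) →
      (M.l ((M.τ v ^ m)⁻¹ * (c⁻¹ * M.ex (x • M.X i) * c) * M.τ v ^ m) : ℝ) ≤
        10 * M.C0 * (κp * (c₂ + c₂⁻¹)) * s := by
  have hC := M.C0_pos
  have hci : 0 < c₂⁻¹ := inv_pos.2 hc
  have hb1 := one_le_bΦ M
  set C₂ := κp * (c₂ + c₂⁻¹) with hC₂
  have hC₂0 : 0 < C₂ := by positivity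
  filter_upwards [ev_polyB (M.C0 * Real.exp Vb * Λ) A M.deg hC₂0 one_pos,
    ev_linB 1 hC₂0, eventually_ge_atTop (0 : ℝ)] with s h1 h2 hs h hg i hi u hF v m hm n hn c hcn hθ x hx
  rw [one_mul] at h1
  have hΦ : M.wt i ∈ M.Φ := by
    rcases wt_cases M i with h0 | h0
    · exact absurd h0 hi
    · exact h0.1
  have e1 : (M.τ v ^ m)⁻¹ * (c⁻¹ * M.ex (x • M.X i) * c) * M.τ v ^ m =
      M.ex (M.Ad (c * M.τ v ^ m)⁻¹ (x • M.X i)) := by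
    rw [M.ex_Ad]; group
  rw [e1]
  have hcn' := M.CB_inv hcn
  have h3 := nm_Ad_le M hcn' i x
  have h4 : M.θ (c * M.τ v ^ m)⁻¹ = -(M.θ c + (m : ℝ) • ht v) := by
    rw [M.θ_inv, M.θ_mul]
    congr 2
    have : ∀ m : ℕ, M.θ (M.τ v ^ m) = (m : ℝ) • (ht v : Ht k) := by
      intro m
      induction m with
      | zero => simp [M.θ_one]
      | succ m ih => rw [pow_succ, M.θ_mul, ih, θ_τht, Nat.cast_succ, add_smul, one_smul]
    exact this m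
  have h5 : M.wt i (M.θ (c * M.τ v ^ m)⁻¹) ≤ -(s * h (M.wt i)) + (3 * C₂ * s + Vb) := by
    rw [h4, map_neg, map_add, map_smul, smul_eq_mul]
    have e2 : M.wt i (M.θ c) = (1 - κ') * s * M.wt i u + M.wt i (M.θ c - ((1 - κ') * s) • u) := by
      rw [map_sub, map_smul, smul_eq_mul]; ring
    have e3 : -(bΦ M * (κ6 * s)) ≤ M.wt i (M.θ c - ((1 - κ') * s) • u) :=
      (abs_le.1 ((abs_le_bΦ M hΦ _).trans (mul_le_mul_of_nonneg_left hθ (by linarith)))).1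
    rw [e2, hF.eq]
    have e4 : bΦ M * (κ6 * s) ≤ κp * c₂ * s := by
      calc bΦ M * (κ6 * s) = (bΦ M * κ6) * s := by ring
        _ ≤ _ := mul_le_mul_of_nonneg_right h6 hs
    have e5 : κp * s * h (M.wt i) ≤ κp * s * c₂⁻¹ :=
      mul_le_mul_of_nonneg_left (hg.bd _ hΦ).2 (by positivity)
    have e6 : 2 * (κp * s * c₂⁻¹) + κp * c₂ * s ≤ 3 * C₂ * s := by
      rw [hC₂]
      have : 0 ≤ κp * c₂ * s := by positivity
      have : 0 ≤ κp * c₂⁻¹ * s := by positivity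
      nlinarith
    nlinarith
  have h6' : (1 + (n : ℝ)) ^ M.deg ≤ (1 + A * s) ^ M.deg := by
    have : (0 : ℝ) ≤ n := Nat.cast_nonneg n
    gcongr
  have hAs : 0 ≤ 1 + A * s := by
    have : (0 : ℝ) ≤ n := Nat.cast_nonneg n
    linarith
  have h7 : M.nm (M.Ad (c * M.τ v ^ m)⁻¹ (x • M.X i)) ≤ Real.exp (4 * C₂ * s) := by
    refine h3.trans ?_
    have hP := pow_nonneg hAs M.deg
    calc M.C0 * (1 + n) ^ M.deg * Real.exp (M.wt i (M.θ (c * M.τ v ^ m)⁻¹)) * |x|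
        ≤ M.C0 * (1 + A * s) ^ M.deg * Real.exp (-(s * h (M.wt i)) + (3 * C₂ * s + Vb)) *
          (Λ * Real.exp (s * h (M.wt i))) := by gcongr
      _ = (M.C0 * Real.exp Vb * Λ * (1 + A * s) ^ M.deg) * Real.exp (3 * C₂ * s) := by
          rw [Real.exp_add, Real.exp_add, Real.exp_neg]
          field_simp
      _ ≤ Real.exp (C₂ * s) * Real.exp (3 * C₂ * s) := by gcongr
      _ = _ := by rw [← Real.exp_add]; congr 1; ring
  have h8 : M.Ad (c * M.τ v ^ m)⁻¹ (x • M.X i) ∈ M.e := M.Vw_e _ hi (Ad_mem_Vw M hcn' i x)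
  have h9 := M.len_e h8 (by positivity) h7
  refine h9.trans ?_
  have h10 : M.C0 * 1 ≤ M.C0 * (C₂ * s) := mul_le_mul_of_nonneg_left h2 hC.le
  nlinarith

/-- sizes of the letters which merge along `v` -/
noncomputable def Rm (M : RModel S Γ V k) (v : Fin k → ℤ) (m : ℕ) (j : M.ι) : ℝ :=
  Real.exp (m * |M.wt j (ht v)|)

theorem adm_Rm (v : Fin k → ℤ) (m : ℕ) : M.Adm (Rm M v m) := by
  refine adm_exp ?_
  intro i w hw0 hsum
  rw [← hsum]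
  clear hsum hw0
  induction w with
  | nil => simp
  | cons j w ih =>
    rw [List.map_cons, List.sum_cons, List.map_cons, List.sum_cons]
    have h1 : |(M.wt j + (w.map M.wt).sum) (ht v)| ≤ |M.wt j (ht v)| + |(w.map M.wt).sum (ht v)| := by
      rw [ContinuousLinearMap.add_apply]
      exact abs_add_le _ _
    have h2 := mul_le_mul_of_nonneg_left h1 (Nat.cast_nonneg (α := ℝ) m)
    linarith

theorem one_le_Rm (v : Fin k → ℤ) (m : ℕ) (j : M.ι) : 1 ≤ Rm M v m j :=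
  Real.one_le_exp (by positivity)

theorem Rm_zero {v : Fin k → ℤ} {m : ℕ} {j : M.ι} (hj : M.wt j = 0) : Rm M v m j = 1 := by
  unfold Rm
  rw [hj]
  simp

theorem θ_τpow (v : Fin k → ℤ) (m : ℕ) : M.θ (M.τ v ^ m) = (m : ℝ) • (ht v : Ht k) := by
  induction m with
  | zero => simp [M.θ_one]
  | succ m ih => rw [pow_succ, M.θ_mul, ih, θ_τht, Nat.cast_succ, add_smul, one_smul]

/-- **the letters merge** along `v` -/
theorem ev_merge {A d' : ℝ} (nv : ℕ) (hd : 0 < d') :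
    ∀ᶠ s : ℝ in atTop, ∀ v : Fin k → ℤ, M.τ v ∈ M.CB nv → ∀ m : ℕ, (m : ℝ) ≤ A * s →
      ∀ (j : M.ι) (x : ℝ), |x| ≤ 1 →
      (M.l ((M.τ v ^ m)⁻¹ * M.ex ((Rm M v m j * x) • M.X j) * M.τ v ^ m) : ℝ) ≤ d' * s ∨
      (M.l (((M.τ v)⁻¹ ^ m)⁻¹ * M.ex ((Rm M v m j * x) • M.X j) * (M.τ v)⁻¹ ^ m) : ℝ) ≤ d' * s ∨
      (M.l (M.ex ((Rm M v m j * x) • M.X j)) : ℝ) ≤ d' * s := by
  have hC := M.C0_pos
  have ha : 0 < d' / (4 * M.C0) := by positivity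
  filter_upwards [ev_polyB M.C0 (A * nv) M.deg ha one_pos, ev_linB (4 * M.C0) hd,
    eventually_ge_atTop (0 : ℝ)] with s h1 h2 hs v hv m hm j x hx
  rw [one_mul] at h1
  have hpow : (M.τ v) ^ m ∈ M.CB (m * nv) := M.CB_pow hv m
  have hbd : M.C0 * (1 + ((m * nv : ℕ) : ℝ)) ^ M.deg ≤ Real.exp (d' / (4 * M.C0) * s) := by
    refine le_trans ?_ h1
    have h3 : ((m * nv : ℕ) : ℝ) ≤ A * nv * s := by
      push_cast
      have : (0 : ℝ) ≤ nv := Nat.cast_nonneg nv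
      nlinarith
    have : (0 : ℝ) ≤ ((m * nv : ℕ) : ℝ) := Nat.cast_nonneg _
    gcongr
  -- general estimate
  have key : ∀ c ∈ M.CB (m * nv), M.wt j ≠ 0 → M.wt j (M.θ c) = -(m * |M.wt j (ht v)|) →
      (M.l (M.ex (M.Ad c ((Rm M v m j * x) • M.X j))) : ℝ) ≤ d' * s := by
    intro c hc hj hθ
    have h3 := nm_Ad_le M hc j (Rm M v m j * x)
    have h4 : M.nm (M.Ad c ((Rm M v m j * x) • M.X j)) ≤ Real.exp (d' / (4 * M.C0) * s) := by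
      refine h3.trans (le_trans ?_ hbd)
      rw [hθ, abs_mul, abs_of_pos (lt_of_lt_of_le one_pos (one_le_Rm v m j))]
      unfold Rm
      rw [mul_assoc, ← mul_assoc (Real.exp _) (Real.exp _), ← Real.exp_add, neg_add_cancel,
        Real.exp_zero, one_mul]
      exact mul_le_of_le_one_right (by positivity) hx
    have h5 : M.Ad c ((Rm M v m j * x) • M.X j) ∈ M.e := M.Vw_e _ hj (Ad_mem_Vw M hc j _)
    refine (M.len_e h5 (by positivity) h4).trans ?_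
    have e : 2 * M.C0 * (d' / (4 * M.C0) * s + 1) = d' * s / 2 + 2 * M.C0 := by
      field_simp
      ring
    rw [e]
    linarith
  by_cases hj : M.wt j = 0
  · right; right
    rw [Rm_zero hj, one_mul]
    have h3 := M.met_V (x • M.X j)
    have h4 : M.nm (x • M.X j) ≤ 1 := by
      rw [map_smul_eq_mul, Real.norm_eq_abs]
      have := M.X_le j
      nlinarith [abs_nonneg x, apply_nonneg M.nm (M.X j)]
    refine h3.trans (le_trans ?_ h2)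
    nlinarith
  · rcases le_or_gt 0 (M.wt j (ht v)) with h3 | h3
    · left
      have e1 : (M.τ v ^ m)⁻¹ * M.ex ((Rm M v m j * x) • M.X j) * M.τ v ^ m =
          M.ex (M.Ad (M.τ v ^ m)⁻¹ ((Rm M v m j * x) • M.X j)) := by
        rw [M.ex_Ad, inv_inv]
      rw [e1]
      refine key _ (M.CB_inv hpow) hj ?_
      rw [M.θ_inv, θ_τpow, map_neg, map_smul, smul_eq_mul, abs_of_nonneg h3]
    · right; left
      have e1 : ((M.τ v)⁻¹ ^ m)⁻¹ * M.ex ((Rm M v m j * x) • M.X j) * (M.τ v)⁻¹ ^ m =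
          M.ex (M.Ad (M.τ v ^ m) ((Rm M v m j * x) • M.X j)) := by
        rw [M.ex_Ad]; group
      rw [e1]
      refine key _ hpow hj ?_
      rw [θ_τpow, map_smul, smul_eq_mul, abs_of_neg h3]
      ring

/-- **positions after a merging letter** -/
theorem ev_q (B : M.NatBox) (hc : 0 < c₂) {d₁ κp A δ : ℝ} (hd : 0 < d₁) (hκp : 0 < κp)
    (hδ : 0 < δ) :
    ∀ᶠ s : ℝ in atTop, ∀ h : (Ht k →L[ℝ] ℝ) → ℝ, M.HB c₂ h → ∀ (v : Fin k → ℤ) (m : ℕ) (z : S),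
      WinH M h κp s (M.θ z + (m : ℝ) • ht v) → WinH M h κp s (M.θ z - (m : ℝ) • ht v) →
      ‖M.θ z‖ ≤ A * s → ∀ (j : M.ι) (x : ℝ), |x| ≤ 1 →
        M.sec z * M.ex ((Rm M v m j * x) • M.X j) * (M.sec z)⁻¹ ∈
          B.Bx fun i => δ * M.szh h d₁ s i := by
  have hC := M.C0_pos
  set ν := min (κp * c₂) d₁ with hν
  have hν0 : 0 < ν := lt_min (by positivity) hd
  filter_upwards [ev_conj B (d₁ := d₁) (M.C0 * (|A| + 2)) hδ hν0, eventually_ge_atTop (1 : ℝ)]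
    with s h1 hs h hh v m z hw1 hw2 hz j x hx
  have hz' : ‖M.θ z‖ ≤ |A| * s := hz.trans (mul_le_mul_of_nonneg_right (le_abs_self A) (by linarith))
  have hAs : 0 ≤ |A| * s := by positivity
  refine h1 h ⌈M.C0 * (1 + |A| * s)⌉₊ ?_ _ (sec_mem_CB M z (le_trans
      (mul_le_mul_of_nonneg_left (by linarith) hC.le) (Nat.le_ceil _))) _ (adm_Rm v m) ?_ _
      (B.letter _ (fun i => (zero_le_one.trans (one_le_Rm v m i))) j _ ?_)
  · refine (Nat.ceil_lt_add_one (by positivity)).le.trans ?_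
    have := M.one_le_C0
    nlinarith [mul_nonneg hC.le hAs]
  · intro i
    rw [θ_sec]
    unfold Rm
    rw [← Real.exp_add, Real.exp_le_exp]
    rcases wt_cases M i with h0 | ⟨hΦ, h0⟩
    · rw [h0, sxh_zero h0]
      simp only [ContinuousLinearMap.zero_apply, abs_zero, mul_zero, add_zero]
      refine mul_nonneg ?_ (by linarith)
      have := min_le_right (κp * c₂) d₁
      linarith
    · rw [sxh_ne h0]
      have e1 := hw1 _ hΦ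
      have e2 := hw2 _ hΦ
      rw [map_add, map_smul, smul_eq_mul] at e1
      rw [map_sub, map_smul, smul_eq_mul] at e2
      have e3 : M.wt i (M.θ z) + m * |M.wt i (ht v)| ≤ (1 - κp) * s * h (M.wt i) := by
        rcases abs_choice (M.wt i (ht v)) with h3 | h3
        · rw [h3]; exact e1
        · rw [h3]; linarith
      refine e3.trans ?_
      have e4 := min_le_left (κp * c₂) d₁
      have e5 : κp * c₂ ≤ κp * h (M.wt i) := mul_le_mul_of_nonneg_left (hh _ hΦ).1 hκp.le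
      have e6 : ν * s ≤ κp * h (M.wt i) * s := mul_le_mul_of_nonneg_right (e4.trans e5) (by linarith)
      nlinarith
  · rw [abs_mul, abs_of_pos (lt_of_lt_of_le one_pos (one_le_Rm v m j))]
    exact mul_le_of_le_one_right (zero_le_one.trans (one_le_Rm v m j)) hx

end Vale.Agent.P188.Z1.RModel.F6

end

section

/-!
# P188, FLAT in the model, part 8: paths and straightness at a fixed scale
-/

set_option linter.all false

open MeasureTheory Set Filter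
open Vale.Agent.P188.H530 (hgt)
open Vale.Agent.P188.H616 (Coord Sec Phi slide StrAt badR badL)

namespace Vale.Agent.P188.Z1.RModel.F6

variable {S : Type} [Group S] [MeasurableSpace S] {Γ : Type} [Group Γ]
  {V : Type} [AddCommGroup V] [Module ℝ V] {k : ℕ} (M : RModel S Γ V k)

/-- path along the powers of a Cartan word -/
theorem pow_path {n₁ : ℕ} (hn : 1 ≤ n₁) {g : S} (hg : g ∈ M.CB n₁) : ∃ q : ℕ → S, q 0 = 1 ∧
    (∀ j, q (j * n₁) = g ^ j) ∧ (∀ i, (q i)⁻¹ * q (i + 1) ∈ M.CB 1) ∧ (∀ i, q i ∈ M.CB i) ∧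
    ∀ i, ‖M.θ (q i) - ((i / n₁ : ℕ) : ℝ) • M.θ g‖ ≤ n₁ := by
  obtain ⟨q₀, h0, h1, h2, h3⟩ := CB_path M hg
  have hθp : ∀ j : ℕ, M.θ (g ^ j) = (j : ℝ) • M.θ g := by
    intro j
    induction j with
    | zero => simp [M.θ_one]
    | succ j ih => rw [pow_succ, M.θ_mul, ih, Nat.cast_succ, add_smul, one_smul]
  refine ⟨fun i => g ^ (i / n₁) * q₀ (i % n₁), by simp [h0], ?_, ?_, ?_, ?_⟩
  · intro j
    show g ^ (j * n₁ / n₁) * q₀ (j * n₁ % n₁) = g ^ j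
    rw [Nat.mul_div_cancel _ (by omega), Nat.mul_mod_left, h0, mul_one]
  · intro i
    show (g ^ (i / n₁) * q₀ (i % n₁))⁻¹ * (g ^ ((i + 1) / n₁) * q₀ ((i + 1) % n₁)) ∈ M.CB 1
    have hlt := Nat.mod_lt i (show n₁ > 0 by omega)
    by_cases hi : i % n₁ + 1 = n₁
    · have e1 : (i + 1) / n₁ = i / n₁ + 1 := by
        rw [Nat.succ_div]
        have : n₁ ∣ i + 1 := by
          have := Nat.div_add_mod i n₁
          exact ⟨i / n₁ + 1, by rw [Nat.mul_add, mul_one]; omega⟩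
        rw [if_pos this]
      have e2 : (i + 1) % n₁ = 0 := by
        have : n₁ ∣ i + 1 := by
          have := Nat.div_add_mod i n₁
          exact ⟨i / n₁ + 1, by rw [Nat.mul_add, mul_one]; omega⟩
        exact Nat.mod_eq_zero_of_dvd this
      rw [e1, e2, h0, mul_one, pow_succ, mul_inv_rev]
      have e3 : (q₀ (i % n₁))⁻¹ * (g ^ (i / n₁))⁻¹ * (g ^ (i / n₁) * g) =
          (q₀ (i % n₁))⁻¹ * q₀ (i % n₁ + 1) := by
        rw [hi, h1]; group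
      rw [e3]
      exact h2 _
    · have e1 : (i + 1) / n₁ = i / n₁ := by
        rw [Nat.succ_div, if_neg]
        · rfl
        · rintro ⟨c, hc⟩
          have h4 := Nat.div_add_mod i n₁
          have h5 : i + 1 = n₁ * (i / n₁) + (i % n₁ + 1) := by omega
          have h6 : i % n₁ + 1 < n₁ := by omega
          have h7 : (i + 1) % n₁ = i % n₁ + 1 := by
            rw [h5, Nat.mul_add_mod, Nat.mod_eq_of_lt h6]
          have h8 : (i + 1) % n₁ = 0 := by rw [hc]; exact Nat.mul_mod_right _ _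
          omega
      have e2 : (i + 1) % n₁ = i % n₁ + 1 := by
        have h4 := Nat.div_add_mod i n₁
        have h5 : i + 1 = n₁ * (i / n₁) + (i % n₁ + 1) := by omega
        rw [h5, Nat.mul_add_mod, Nat.mod_eq_of_lt (by omega)]
      rw [e1, e2, mul_inv_rev]
      have e3 : (q₀ (i % n₁))⁻¹ * (g ^ (i / n₁))⁻¹ * (g ^ (i / n₁) * q₀ (i % n₁ + 1)) =
          (q₀ (i % n₁))⁻¹ * q₀ (i % n₁ + 1) := by group
      rw [e3]
      exact h2 _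
  · intro i
    show g ^ (i / n₁) * q₀ (i % n₁) ∈ M.CB i
    have h4 := M.CB_mul (M.CB_pow hg (i / n₁)) (h3 (i % n₁))
    have h5 : i / n₁ * n₁ + i % n₁ = i := by
      rw [mul_comm]; exact Nat.div_add_mod i n₁
    rwa [h5] at h4
  · intro i
    show ‖M.θ (g ^ (i / n₁) * q₀ (i % n₁)) - _‖ ≤ n₁
    rw [M.θ_mul, hθp, add_sub_cancel_left]
    refine (θ_CB M (h3 _)).trans ?_
    exact_mod_cast (Nat.mod_lt i (show n₁ > 0 by omega)).le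

/-- the reversed path -/
theorem rev_path {n : ℕ} {q : ℕ → S} (h0 : q 0 = 1)
    (hs : ∀ i < n, (q i)⁻¹ * q (i + 1) ∈ M.CB 1) :
    ((q n)⁻¹ * q (n - 0) = 1) ∧ ((q n)⁻¹ * q (n - n) = (q n)⁻¹) ∧
    ∀ i < n, ((q n)⁻¹ * q (n - i))⁻¹ * ((q n)⁻¹ * q (n - (i + 1))) ∈ M.CB 1 := by
  refine ⟨by simp, by simp [h0], fun i hi => ?_⟩
  have e1 : ((q n)⁻¹ * q (n - i))⁻¹ * ((q n)⁻¹ * q (n - (i + 1))) =
      ((q (n - (i + 1)))⁻¹ * q (n - (i + 1) + 1))⁻¹ := by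
    have : n - (i + 1) + 1 = n - i := by omega
    rw [this]; group
  rw [e1]
  exact M.CB_inv (hs _ (by omega))

/-- straightness at a fixed scale: `f` is affine along most Cartan paths and constant along most
neutral moves inside `D` -/
structure StrSc {Λ : Type*} (σ : S → Λ) (T : Λ → Ht k →L[ℝ] Ht k) (f : S → Ht k) (D : Set S)
    (A ε κ dm s : ℝ) : Prop where
  path : ∀ n : ℕ, (n : ℝ) ≤ A * s → ∀ q : ℕ → S, q 0 = 1 →
    (∀ i < n, (q i)⁻¹ * q (i + 1) ∈ M.CB 1) →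
    ∀ Din : Set S, (∀ z ∈ Din, ∀ i ≤ n, z * q i ∈ M.In (κ * s) D) →
      M.μ {z | z ∈ Din ∧ (σ (z * q n) ≠ σ z ∨
        ∃ i ≤ n, ε * s < ‖f (z * q i) - f z - T (σ z) (M.θ (q i))‖)} ≤
        ENNReal.ofReal ε * M.μ D
  neut : ∀ y : Multiplicative (Fin k → ℤ) → V,
    (∀ w, y w ∈ M.Vw 0 ∧ M.nm (y w) ≤ Real.exp (dm * s)) →
    ∀ Din : Set S,
      (∀ z ∈ Din, ∀ x : ℝ, 0 ≤ x → x ≤ 1 → z * M.ex (x • y (M.η z)) ∈ M.In (κ * s) D) →
      M.μ {z | z ∈ Din ∧ (σ (z * M.ex (y (M.η z))) ≠ σ z ∨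
        ε * s < ‖f (z * M.ex (y (M.η z))) - f z‖)} ≤ ENNReal.ofReal ε * M.μ D

variable {M} {Λ : Type*} {σ : S → Λ} {T : Λ → Ht k →L[ℝ] Ht k} {f : S → Ht k} {D : Set S}
  {A ε κ dm s : ℝ}

/-- additive maps -/
def Ta (T : Λ → Ht k →L[ℝ] Ht k) (a : Λ) : Ht k →+ Ht k := (T a).toLinearMap.toAddMonoidHom

/-- linear maps -/
def Tl (T : Λ → Ht k →L[ℝ] Ht k) (a : Λ) : Ht k →ₗ[ℝ] Ht k := (T a).toLinearMap

theorem Tl_apply (T : Λ → Ht k →L[ℝ] Ht k) (a : Λ) (w : Ht k) : Tl T a w = T a w := rfl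

theorem StrSc.go (h : StrSc M σ T f D A ε κ dm s) {n : ℕ} (hn : (n : ℝ) ≤ A * s) {q : ℕ → S}
    (h0 : q 0 = 1) (hs : ∀ i < n, (q i)⁻¹ * q (i + 1) ∈ M.CB 1) {Dm : Set S}
    (hD : ∀ z ∈ Dm, ∀ i ≤ n, z * q i ∈ M.In (κ * s) D) :
    M.μ (Dm ∩ badR σ f (Ta T) M.θ (q n) (ε * s)) ≤ ENNReal.ofReal ε * M.μ D := by
  refine le_trans (measure_mono ?_) (h.path n hn q h0 hs Dm hD)
  rintro z ⟨hz, hz2⟩
  refine ⟨hz, ?_⟩
  rcases hz2 with h1 | h1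
  · exact Or.inl h1
  · exact Or.inr ⟨n, le_rfl, h1⟩

theorem StrSc.back (h : StrSc M σ T f D A ε κ dm s) {n : ℕ} (hn : (n : ℝ) ≤ A * s) {q : ℕ → S}
    (h0 : q 0 = 1) (hs : ∀ i < n, (q i)⁻¹ * q (i + 1) ∈ M.CB 1) {Dm : Set S}
    (hD : ∀ z ∈ Dm, ∀ i ≤ n, z * (q n)⁻¹ * q i ∈ M.In (κ * s) D) :
    M.μ (Dm ∩ badR σ f (Ta T) M.θ (q n)⁻¹ (ε * s)) ≤ ENNReal.ofReal ε * M.μ D := by
  obtain ⟨h1, h2, h3⟩ := rev_path M h0 hs
  have h4 := h.go hn (q := fun i => (q n)⁻¹ * q (n - i)) h1 h3 (Dm := Dm) (by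
    intro z hz i hi
    have := hD z hz (n - i) (by omega)
    rwa [mul_assoc] at this)
  simp only [h2] at h4
  exact h4

/-- **straight lines** -/
theorem StrSc.strAt (h : StrSc M σ T f D A ε κ dm s) {v : Fin k → ℤ} {nv : ℕ} (hnv : 1 ≤ nv)
    (hv : M.τ v ∈ M.CB nv) {m : ℕ} (hm : ((m * nv : ℕ) : ℝ) ≤ A * s) {Din : Set S}
    (hD : ∀ z ∈ Din, ∀ i ≤ m * nv, ∀ g ∈ M.CB i, (∃ j ≤ m, ‖M.θ g - (j : ℝ) • ht v‖ ≤ nv ∨
      ‖M.θ g + (j : ℝ) • ht v‖ ≤ nv) → z * g ∈ M.In (κ * s) D) :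
    M.μ {z | z ∈ Din ∧ ¬ StrAt f σ (Tl T) (M.τ v) (ht v) m (ε * s) z} ≤
      2 * (ENNReal.ofReal ε * M.μ D) := by
  obtain ⟨q, q0, qj, qs, qC, qθ⟩ := pow_path M hnv hv
  obtain ⟨q', q0', qj', qs', qC', qθ'⟩ := pow_path M hnv (M.CB_inv hv)
  have hdiv : ∀ i ≤ m * nv, i / nv ≤ m := fun i hi =>
    Nat.div_le_of_le_mul (by rwa [mul_comm])
  have h1 := h.path (m * nv) hm q q0 (fun i _ => qs i) Din (by
    intro z hz i hi
    refine hD z hz i hi _ (qC i) ⟨i / nv, hdiv i hi, Or.inl ?_⟩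
    have := qθ i
    rwa [θ_τht] at this)
  have h2 := h.path (m * nv) hm q' q0' (fun i _ => qs' i) Din (by
    intro z hz i hi
    refine hD z hz i hi _ (qC' i) ⟨i / nv, hdiv i hi, Or.inr ?_⟩
    have := qθ' i
    rwa [M.θ_inv, θ_τht, smul_neg, sub_neg_eq_add] at this)
  rw [two_mul]
  refine le_trans (measure_mono ?_) ((measure_union_le _ _).trans (add_le_add h1 h2))
  rintro z ⟨hz, hz2⟩
  by_contra hcon
  rw [mem_union, not_or] at hcon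
  obtain ⟨h3, h4⟩ := hcon
  simp only [mem_setOf_eq, not_and, not_or, not_not, not_exists, not_lt] at h3 h4
  apply hz2
  intro j hj
  have hjm : j * nv ≤ m * nv := Nat.mul_le_mul_right _ hj
  have h5 := (h3 hz).2 (j * nv) hjm
  have h6 := (h4 hz).2 (j * nv) hjm
  rw [qj, θ_τpow] at h5
  rw [qj'] at h6
  have e6 : M.θ ((M.τ v)⁻¹ ^ j) = -((j : ℝ) • (ht v : Ht k)) := by
    rw [inv_pow, M.θ_inv, θ_τpow]
  rw [e6] at h6
  constructor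
  · rw [Tl_apply, ← map_smul]
    exact h5
  · rw [Tl_apply, ← map_smul]
    rw [map_neg, sub_neg_eq_add] at h6
    exact h6

end Vale.Agent.P188.Z1.RModel.F6

end

section

/-!
# P188, FLAT in the model, part 9: the cover of the slid points by few boxes
-/

set_option linter.all false

open MeasureTheory Set Filter
open Vale.Agent.P188.H530 (hgt)
open Vale.Agent.P188.H616 (Coord Sec Phi slide)
open Vale.Agent.P188.H329 (InP prS)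

namespace Vale.Agent.P188.Z1.RModel.F6

variable {S : Type} [Group S] [MeasurableSpace S] {Γ : Type} [Group Γ]
  {V : Type} [AddCommGroup V] [Module ℝ V] {k : ℕ} {M : RModel S Γ V k}

theorem cov_adm (θc : Ht k) (v : Fin k → ℤ) (m : ℕ) {a : ℝ} (ha : 0 ≤ a) :
    M.Adm fun j => Real.exp (M.wt j θc + m * |M.wt j (ht v)| + a) := by
  refine adm_exp ?_
  intro i w hw0 hsum
  have key : ∀ w : List M.ι, (w.map M.wt).sum θc + m * |(w.map M.wt).sum (ht v)| +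
      w.length * a ≤ (w.map fun j => M.wt j θc + m * |M.wt j (ht v)| + a).sum := by
    intro w
    induction w with
    | nil => simp
    | cons j w ih =>
      rw [List.map_cons, List.sum_cons, List.map_cons, List.sum_cons, List.length_cons]
      have h1 : |(M.wt j + (w.map M.wt).sum) (ht v)| ≤
          |M.wt j (ht v)| + |(w.map M.wt).sum (ht v)| := by
        rw [ContinuousLinearMap.add_apply]
        exact abs_add_le _ _
      have h2 := mul_le_mul_of_nonneg_left h1 (Nat.cast_nonneg (α := ℝ) m)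
      have h3 : (M.wt j + (w.map M.wt).sum) θc = M.wt j θc + (w.map M.wt).sum θc := rfl
      rw [h3, Nat.cast_add, Nat.cast_one]
      linarith
  have h1 := key w
  rw [hsum] at h1
  have h2 : (1 : ℝ) ≤ w.length := by
    have := List.length_pos_of_ne_nil hw0
    exact_mod_cast this
  have h3 : a ≤ w.length * a := le_mul_of_one_le_left ha h2
  linarith

theorem cov1 (B : M.NatBox) {s κ'' : ℝ} (hs : 0 ≤ s) (hκ : 0 ≤ κ'') {n : ℕ}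
    (hn : B.C * (1 + (n : ℝ)) ^ B.dg ≤ Real.exp (κ'' * s)) {c : S} (hc : c ∈ M.CB n)
    (v : Fin k → ℤ) (m : ℕ) {i : M.ι} {x : ℝ}
    (hx : |x| ≤ Real.exp (M.wt i (M.θ c) + m * |M.wt i (ht v)| + κ'' * s)) :
    c⁻¹ * M.ex (x • M.X i) * c ∈ B.Bx fun j => Real.exp (2 * κ'' * s) * Rm M v m j := by
  have h1 := B.conj n c⁻¹ (M.CB_inv hc) _ (cov_adm (M.θ c) v m (mul_nonneg hκ hs)) _
    (B.letter _ (fun j => (Real.exp_pos _).le) i x hx)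
  rw [inv_inv] at h1
  have hBC := C_pos B
  refine B.mono _ _ (fun j => by positivity) (fun j => ?_) h1
  calc B.C * (1 + (n : ℝ)) ^ B.dg * Real.exp (M.wt j (M.θ c⁻¹)) *
        Real.exp (M.wt j (M.θ c) + m * |M.wt j (ht v)| + κ'' * s)
      ≤ Real.exp (κ'' * s) * Real.exp (M.wt j (M.θ c⁻¹)) *
        Real.exp (M.wt j (M.θ c) + m * |M.wt j (ht v)| + κ'' * s) := by gcongr
    _ = _ := by
        rw [M.θ_inv, map_neg]
        unfold Rm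
        rw [← Real.exp_add, ← Real.exp_add, ← Real.exp_add]
        congr 1
        ring

theorem cov_size {c₂ κ' κp κ6 κ'' Λ Vb s : ℝ} (hc : 0 < c₂) (hs : 0 ≤ s) (hκp : 0 < κp)
    {h : (Ht k →L[ℝ] ℝ) → ℝ} (hg : M.HGood c₂ h) {i : M.ι} (hΦ : M.wt i ∈ M.Φ) {u : Ht k}
    (hF : Fct M h c₂ (M.wt i) u) {v : Fin k → ℤ} {m : ℕ}
    (hm : (κ' - 2 * κp) * s * h (M.wt i) - Vb ≤ m * M.wt i (ht v)) {θc : Ht k}
    (hθ : ‖θc - ((1 - κ') * s) • u‖ ≤ κ6 * s)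
    (hΛ : Λ * Real.exp Vb ≤ Real.exp ((κ'' - (2 * κp * c₂⁻¹ + bΦ M * κ6)) * s)) :
    Λ * Real.exp (s * h (M.wt i)) ≤
      Real.exp (M.wt i θc + m * |M.wt i (ht v)| + κ'' * s) := by
  have hb1 := one_le_bΦ M
  have e2 : M.wt i θc = (1 - κ') * s * M.wt i u + M.wt i (θc - ((1 - κ') * s) • u) := by
    rw [map_sub, map_smul, smul_eq_mul]; ring
  have e3 : -(bΦ M * (κ6 * s)) ≤ M.wt i (θc - ((1 - κ') * s) • u) :=
    (abs_le.1 ((abs_le_bΦ M hΦ _).trans (mul_le_mul_of_nonneg_left hθ (by linarith)))).1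
  have e4 : (m : ℝ) * M.wt i (ht v) ≤ m * |M.wt i (ht v)| :=
    mul_le_mul_of_nonneg_left (le_abs_self _) (Nat.cast_nonneg m)
  have e5 : κp * s * h (M.wt i) ≤ κp * s * c₂⁻¹ :=
    mul_le_mul_of_nonneg_left (hg.bd _ hΦ).2 (by positivity)
  have e1 : s * h (M.wt i) + ((κ'' - (2 * κp * c₂⁻¹ + bΦ M * κ6)) * s - Vb) ≤
      M.wt i θc + m * |M.wt i (ht v)| + κ'' * s := by
    rw [e2, hF.eq]
    linarith
  calc Λ * Real.exp (s * h (M.wt i))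
      = Real.exp (s * h (M.wt i)) * (Λ * Real.exp Vb) * Real.exp (-Vb) := by
        rw [Real.exp_neg]; field_simp
    _ ≤ Real.exp (s * h (M.wt i)) *
        Real.exp ((κ'' - (2 * κp * c₂⁻¹ + bΦ M * κ6)) * s) * Real.exp (-Vb) := by gcongr
    _ = Real.exp (s * h (M.wt i) + ((κ'' - (2 * κp * c₂⁻¹ + bΦ M * κ6)) * s - Vb)) := by
        rw [← Real.exp_add, ← Real.exp_add]; congr 1; ring
    _ ≤ _ := Real.exp_le_exp.2 e1

theorem cov2 (B : M.NatBox) {R : M.ι → ℝ} {n₂ : ℕ} {w : Fin k → ℤ} (hτw : M.τ w ∈ M.CB n₂)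
    {W : ℝ} (hw : ‖(ht w : Ht k)‖ ≤ W) {vg : V} (hvg : vg ∈ M.e)
    (h0 : ∀ j, M.wt j = 0 → B.C * (1 + (n₂ : ℝ)) ^ B.dg ≤ R j)
    (h1 : ∀ j, M.wt j ≠ 0 → B.C * (1 + (n₂ : ℝ)) ^ B.dg * Real.exp (bΦ M * W) *
      (B.C * (1 + M.nm vg)) ≤ R j) : (M.τ w)⁻¹ * M.ex vg * M.τ w ∈ B.Bx R := by
  have hBC := C_pos B
  have hBC1 := B.one_le
  have hb1 := one_le_bΦ M
  have hnm := apply_nonneg M.nm vg
  have h2 : 1 ≤ B.C * (1 + M.nm vg) := by nlinarith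
  have h3 := B.conj n₂ (M.τ w)⁻¹ (M.CB_inv hτw) _ (adm_two' (M := M) le_rfl h2) _ (B.ball_e vg hvg)
  rw [inv_inv] at h3
  refine B.mono _ _ (fun j => ?_) (fun j => ?_) h3
  · have : 0 ≤ M.two 1 (B.C * (1 + M.nm vg)) j := by unfold two; split_ifs <;> linarith
    positivity
  · unfold two
    split_ifs with hj
    · have h4 := h0 j hj
      rw [hj]
      simpa using h4
    · refine le_trans ?_ (h1 j hj)
      have e1 : M.wt j (M.θ (M.τ w)⁻¹) ≤ bΦ M * W := by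
        refine (le_abs_self _).trans ((abs_wt_le M j _).trans ?_)
        rw [M.θ_inv, norm_neg, θ_τht]
        exact mul_le_mul_of_nonneg_left hw (by linarith)
      gcongr

theorem cov3 (B : M.NatBox) {R : M.ι → ℝ} {n₂ n₃ : ℕ} {w : Fin k → ℤ} (hτw : M.τ w ∈ M.CB n₂)
    {cg : S} (hcg : cg ∈ M.CB n₃) (hη : M.η cg = Multiplicative.ofAdd w)
    (h0 : ∀ j, M.wt j = 0 → B.C * (1 + M.C0) * (1 + ((n₂ + n₃ : ℕ) : ℝ)) ^ M.deg ≤ R j)
    (h1 : ∀ j, M.wt j ≠ 0 → 1 ≤ R j) : (M.τ w)⁻¹ * cg ∈ B.Bx R := by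
  have hBC := C_pos B
  have hC0 := M.C0_pos
  have h2 : (M.τ w)⁻¹ * cg ∈ M.CB (n₂ + n₃) := M.CB_mul (M.CB_inv hτw) hcg
  have h3 : M.η ((M.τ w)⁻¹ * cg) = 1 := by
    rw [map_mul, map_inv, M.η_τ, hη, inv_mul_cancel]
  refine B.mono _ _ (fun j => ?_) (fun j => ?_) (ker_mem B h2 h3)
  · unfold two; split_ifs
    · positivity
    · exact zero_le_one
  · unfold two
    split_ifs with hj
    · exact h0 j hj
    · exact h1 j hj

theorem cov4 (B : M.NatBox) {v : Fin k → ℤ} {m : ℕ} {E : ℝ} (hE : 1 ≤ E) {w : Fin k → ℤ}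
    {z0 z y cg : S} {vg : V} (hz : z0⁻¹ * z = M.ex vg * cg)
    (h1 : y ∈ B.Bx fun j => E * Rm M v m j)
    (h2 : (M.τ w)⁻¹ * M.ex vg * M.τ w ∈ B.Bx fun j => E * Rm M v m j)
    (h3 : (M.τ w)⁻¹ * cg ∈ B.Bx fun j => E * Rm M v m j) :
    InP (fun j x => M.ex ((Rm M v m j * x) • M.X j)) B.m (B.C ^ 3 * E) (z0 * M.τ w) (z * y) := by
  have hBC := C_pos B
  have hBC1 := B.one_le
  have hRm1 : ∀ j, 1 ≤ Rm M v m j := one_le_Rm v m
  set R : M.ι → ℝ := fun j => E * Rm M v m j with hR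
  have hR1 : ∀ j, 1 ≤ R j := fun j => one_le_mul_of_one_le_of_one_le hE (hRm1 j)
  have hR0 : ∀ j, 0 ≤ R j := fun j => zero_le_one.trans (hR1 j)
  have hY : (M.τ w)⁻¹ * (z0⁻¹ * z) * y ∈ B.Bx fun j => B.C * (B.C * R j) := by
    have e1 : (M.τ w)⁻¹ * (z0⁻¹ * z) * y =
        ((M.τ w)⁻¹ * M.ex vg * M.τ w) * ((M.τ w)⁻¹ * cg) * y := by
      rw [hz]; group
    rw [e1]
    refine B.mul _ (fun j => mul_nonneg hBC.le (hR0 j)) _ (B.mul _ hR0 _ h2 _ h3) _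
      (B.mono _ _ hR0 (fun j => ?_) h1)
    exact le_mul_of_one_le_left (hR0 j) hBC1
  obtain ⟨y', hy, hyeq⟩ := B.gen _ (fun j => mul_nonneg hBC.le (mul_nonneg hBC.le (hR0 j))) _ hY
  refine ⟨B.J, fun t => y' t / Rm M v m (B.J t), fun t => ?_, ?_⟩
  · have hp : 0 < Rm M v m (B.J t) := lt_of_lt_of_le one_pos (hRm1 _)
    rw [abs_div, abs_of_pos hp, div_le_iff₀ hp]
    refine (hy t).trans (le_of_eq ?_)
    rw [hR]
    ring
  · have e1 : prS (fun j x => M.ex ((Rm M v m j * x) • M.X j)) B.J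
        (fun t => y' t / Rm M v m (B.J t)) =
        (List.ofFn fun t => M.ex (y' t • M.X (B.J t))).prod := by
      unfold prS
      congr 2
      funext t
      have hp : Rm M v m (B.J t) ≠ 0 := (lt_of_lt_of_le one_pos (hRm1 _)).ne'
      show M.ex ((Rm M v m (B.J t) * (y' t / Rm M v m (B.J t))) • M.X (B.J t)) = _
      rw [mul_div_cancel₀ _ hp]
    rw [e1, ← hyeq]
    group

variable (M) in
theorem ev_cov (B : M.NatBox) : ∃ C : ℝ, 1 ≤ C ∧ ∀ {c₂ κ' κp κ6 κc κm κ'' A Λ Vb : ℝ}, 0 < c₂ →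
    0 < κp → 0 < κ'' → 2 * κp * c₂⁻¹ + bΦ M * κ6 < κ'' → 0 ≤ κc → C * κc < κm → 0 < Λ →
    ∀ᶠ s : ℝ in atTop, ∀ h : (Ht k →L[ℝ] ℝ) → ℝ, M.HGood c₂ h → ∀ i, M.wt i ≠ 0 →
      ∀ u, Fct M h c₂ (M.wt i) u → ∀ (v : Fin k → ℤ) (m : ℕ),
      (κ' - 2 * κp) * s * h (M.wt i) - Vb ≤ m * M.wt i (ht v) →
      (∀ j, M.wt j ≠ 0 → κm * s ≤ m * |M.wt j (ht v)|) →
      ∀ z0 : S, ∃ F : Finset S, (F.card : ℝ) ≤ (2 * |M.C0 * (κc * s)| + 1) ^ k ∧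
      ∀ z : S, (M.l (z0⁻¹ * z) : ℝ) ≤ κc * s → ∀ n : ℕ, (n : ℝ) ≤ A * s → ∀ c ∈ M.CB n,
      ‖M.θ c - ((1 - κ') * s) • u‖ ≤ κ6 * s → ∀ x : ℝ, |x| ≤ Λ * Real.exp (s * h (M.wt i)) →
      ∃ z1 ∈ F, InP (fun j x => M.ex ((Rm M v m j * x) • M.X j)) B.m
        (B.C ^ 3 * Real.exp (2 * κ'' * s)) z1 (z * (c⁻¹ * M.ex (x • M.X i) * c)) := by
  classical
  obtain ⟨C₁, hC₁, hdec⟩ := exists_dec M
  have hC0 := M.C0_pos
  have hC01 := M.one_le_C0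
  have hb1 := one_le_bΦ M
  have hBC := C_pos B
  have hBC1 := B.one_le
  refine ⟨C₁ + bΦ M * M.C0, by nlinarith [mul_pos (by linarith : 0 < bΦ M) hC0], ?_⟩
  intro c₂ κ' κp κ6 κc κm κ'' A Λ Vb hc hκp hκ'' hκ''1 hκc hκm hΛ
  have hci : 0 < c₂⁻¹ := inv_pos.2 hc
  have hε₁0 : 0 < κ'' - (2 * κp * c₂⁻¹ + bΦ M * κ6) := by linarith
  have hε₂0 : 0 < κm - (C₁ + bΦ M * M.C0) * κc := by linarith
  set ε₂ : ℝ := κm - (C₁ + bΦ M * M.C0) * κc with hε₂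
  set A₂ : ℝ := 3 * (M.C0 * (1 + M.C0 * κc)) + C₁ * (1 + κc) with hA₂
  filter_upwards [ev_polyB B.C A B.dg hκ'' one_pos, ev_constB (Λ * Real.exp Vb) hε₁0 one_pos,
    ev_polyB B.C A₂ B.dg (show 0 < 2 * κ'' by positivity) one_pos,
    ev_polyB (B.C * (B.C * (1 + Real.exp C₁))) A₂ B.dg hε₂0 one_pos,
    ev_polyB (B.C * (1 + M.C0)) A₂ M.deg (show 0 < 2 * κ'' by positivity) one_pos,
    eventually_ge_atTop (1 : ℝ)] with s p1 p2 p3 p4 p5 hs h hg i hi u hF v m hm hmj z0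
  rw [one_mul] at p1 p2 p3 p4 p5
  have hs0 : 0 ≤ s := by linarith
  have hΦ : M.wt i ∈ M.Φ := by
    rcases wt_cases M i with h0 | h0
    · exact absurd h0 hi
    · exact h0.1
  obtain ⟨hfin, hcard⟩ := ball_finite (k := k) 0 (M.C0 * (κc * s))
  refine ⟨hfin.toFinset.image fun w => z0 * M.τ w, ?_, ?_⟩
  · refine le_trans ?_ hcard
    have h1 := Finset.card_image_le (s := hfin.toFinset) (f := fun w => z0 * M.τ w)
    rw [ncard_eq_toFinset_card _ hfin]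
    exact_mod_cast h1
  intro z hz n hn c hc' hθ x hx
  set g := z0⁻¹ * z with hgdef
  set w : Fin k → ℤ := Multiplicative.toAdd (M.η g) with hw
  have hηw : M.η g = Multiplicative.ofAdd w := rfl
  have hθg : M.θ g = ht w := rfl
  have hκcs : 0 ≤ κc * s := by positivity
  have hθg' : ‖(ht w : Ht k)‖ ≤ M.C0 * (κc * s) := by
    rw [← hθg]
    exact (M.θ_le g).trans (mul_le_mul_of_nonneg_left hz hC0.le)
  refine ⟨z0 * M.τ w, ?_, ?_⟩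
  · rw [Finset.mem_image]
    refine ⟨w, ?_, rfl⟩
    rw [Set.Finite.mem_toFinset, mem_setOf_eq, sub_zero]
    exact hθg'
  obtain ⟨vg, hvg, hvn, n₃, hn₃, cg, hcg, hgeq⟩ := hdec g (κc * s) hz
  have hE1 : 1 ≤ Real.exp (2 * κ'' * s) := Real.one_le_exp (by positivity)
  have hRm1 : ∀ j, 1 ≤ Rm M v m j := one_le_Rm v m
  set n₂ : ℕ := ⌈M.C0 * (1 + M.C0 * (κc * s))⌉₊ with hn₂
  have hq1 : 0 ≤ M.C0 * (1 + M.C0 * κc) := by positivity
  have hn₂' : (n₂ : ℝ) ≤ 2 * (M.C0 * (1 + M.C0 * κc)) * s := by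
    have e1 : (n₂ : ℝ) < M.C0 * (1 + M.C0 * (κc * s)) + 1 := Nat.ceil_lt_add_one (by positivity)
    have e2 : 0 ≤ M.C0 * (M.C0 * κc) * s := by positivity
    have e3 : M.C0 * 1 ≤ M.C0 * s := mul_le_mul_of_nonneg_left hs hC0.le
    have e4 : (1 : ℝ) ≤ M.C0 * s := by nlinarith
    linarith
  have hn₃' : (n₃ : ℝ) ≤ C₁ * (1 + κc) * s := by
    refine hn₃.trans ?_
    have e1 : C₁ * 1 ≤ C₁ * s := mul_le_mul_of_nonneg_left hs (by linarith)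
    linarith
  have hq2 : 0 ≤ M.C0 * (1 + M.C0 * κc) * s := by positivity
  have hq3 : 0 ≤ C₁ * (1 + κc) * s := by positivity
  have hA23 : ((n₂ + n₃ : ℕ) : ℝ) ≤ A₂ * s := by
    push_cast
    rw [hA₂]
    linarith
  have hn20 : (0 : ℝ) ≤ n₂ := Nat.cast_nonneg _
  have hn30 : (0 : ℝ) ≤ n₃ := Nat.cast_nonneg _
  have hA2 : (n₂ : ℝ) ≤ A₂ * s := by
    push_cast at hA23
    linarith
  have hτw : M.τ w ∈ M.CB n₂ := by
    refine M.CB_mono ?_ (M.τ_CB w)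
    refine Nat.ceil_mono (mul_le_mul_of_nonneg_left ?_ hC0.le)
    have : ‖(fun i => ((w i : ℤ) : ℝ))‖ ≤ M.C0 * (κc * s) := hθg'
    linarith
  have hpow2 : (1 + (n₂ : ℝ)) ^ B.dg ≤ (1 + A₂ * s) ^ B.dg :=
    pow_le_pow_left₀ (by linarith) (by linarith) _
  have hpow3 : (1 + ((n₂ + n₃ : ℕ) : ℝ)) ^ M.deg ≤ (1 + A₂ * s) ^ M.deg :=
    pow_le_pow_left₀ (by positivity) (by linarith) _
  refine cov4 B hE1 hgeq ?_ ?_ ?_
  · refine cov1 B hs0 hκ''.le ?_ hc' v m (hx.trans (cov_size hc hs0 hκp hg hΦ hF hm hθ p2))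
    refine le_trans ?_ p1
    have e0 : (0 : ℝ) ≤ n := Nat.cast_nonneg n
    exact mul_le_mul_of_nonneg_left (pow_le_pow_left₀ (by linarith) (by linarith) _) hBC.le
  · refine cov2 B hτw hθg' hvg (fun j hj => ?_) (fun j hj => ?_)
    · rw [Rm_zero hj, mul_one]
      exact le_trans (mul_le_mul_of_nonneg_left hpow2 hBC.le) p3
    · have hnm := apply_nonneg M.nm vg
      have e2 : B.C * (1 + M.nm vg) ≤ B.C * (1 + Real.exp C₁) * Real.exp (C₁ * (κc * s)) := by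
        have e3 : Real.exp (C₁ * (1 + κc * s)) = Real.exp C₁ * Real.exp (C₁ * (κc * s)) := by
          rw [← Real.exp_add]; congr 1; ring
        have e4 : (1 : ℝ) ≤ Real.exp (C₁ * (κc * s)) := Real.one_le_exp (by positivity)
        rw [mul_assoc]
        refine mul_le_mul_of_nonneg_left ?_ hBC.le
        rw [e3] at hvn
        linarith
      have e5 : Real.exp (ε₂ * s) * (Real.exp (bΦ M * (M.C0 * (κc * s))) *
          Real.exp (C₁ * (κc * s))) ≤ Rm M v m j := by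
        unfold Rm
        rw [← Real.exp_add, ← Real.exp_add, Real.exp_le_exp]
        refine le_trans (le_of_eq ?_) (hmj j hj)
        rw [hε₂]; ring
      have e6 : Rm M v m j ≤ Real.exp (2 * κ'' * s) * Rm M v m j :=
        le_mul_of_one_le_left (zero_le_one.trans (hRm1 j)) hE1
      refine le_trans ?_ (e5.trans e6)
      calc B.C * (1 + (n₂ : ℝ)) ^ B.dg * Real.exp (bΦ M * (M.C0 * (κc * s))) *
            (B.C * (1 + M.nm vg))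
          ≤ B.C * (1 + A₂ * s) ^ B.dg * Real.exp (bΦ M * (M.C0 * (κc * s))) *
            (B.C * (1 + Real.exp C₁) * Real.exp (C₁ * (κc * s))) := by
            gcongr
        _ = (B.C * (B.C * (1 + Real.exp C₁)) * (1 + A₂ * s) ^ B.dg) *
            (Real.exp (bΦ M * (M.C0 * (κc * s))) * Real.exp (C₁ * (κc * s))) := by ring
        _ ≤ Real.exp (ε₂ * s) *
            (Real.exp (bΦ M * (M.C0 * (κc * s))) * Real.exp (C₁ * (κc * s))) := by gcongr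
  · refine cov3 B hτw hcg ?_ (fun j hj => ?_) (fun j hj => ?_)
    · rw [← hηw, hgeq, map_mul, M.η_ex, one_mul]
    · rw [Rm_zero hj, mul_one]
      refine le_trans ?_ p5
      exact mul_le_mul_of_nonneg_left hpow3 (by positivity)
    · exact one_le_mul_of_one_le_of_one_le hE1 (hRm1 j)

end Vale.Agent.P188.Z1.RModel.F6

end

section

/-!
# P188, FLAT in the model, part 10: numerics
-/

set_option linter.all false

open MeasureTheory Set Filter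

namespace Vale.Agent.P188.Z1.RModel.F6

theorem num_big {κq C d' e' lt : ℝ} {n : ℕ} (A : ℝ) (hκq : 0 < κq) (hC : 1 ≤ C) (hd : 0 ≤ d')
    (he : 0 ≤ e') (hlt : 0 ≤ lt)
    (hco : (n + 1) * (C * d' + 2 * e') + 3 * e' + 2 * C * d' ≤ κq / 8) :
    ∀ᶠ s : ℝ in atTop, ∀ m : ℕ, (m : ℝ) ≤ A * s →
      2 * ((n + 1) * ((2 * m + 1) * (C * (1 + d' * s + lt) *
        Real.exp (0 + (n + 1) * (C * (d' * s) + 2 * (e' * s)) + 3 * (e' * s) +
          2 * C * (d' * s + lt))))) ≤ Real.exp ((⌊κq * s / 2⌋₊ : ℝ) - C) := by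
  have h8 : 0 < κq / 8 := by positivity
  filter_upwards [ev_polyB (2 * (n + 1) * (C * (1 + lt) * Real.exp (2 * C * lt))) (2 * A + d') 2 h8
    one_pos, ev_linB (1 + C) (show 0 < κq / 4 by positivity), eventually_ge_atTop (0 : ℝ)]
    with s h1 h2 hs m hm
  have hm0 : (0 : ℝ) ≤ m := Nat.cast_nonneg m
  have hA : 0 ≤ A * s := hm0.trans hm
  have hds : 0 ≤ d' * s := mul_nonneg hd hs
  have e1 : (2 * (m : ℝ) + 1) * (1 + d' * s + lt) ≤ (1 + lt) * (1 + (2 * A + d') * s) ^ 2 := by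
    have a1 : 2 * (m : ℝ) + 1 ≤ 1 + (2 * A + d') * s := by nlinarith
    have a2 : 1 + d' * s + lt ≤ (1 + lt) * (1 + (2 * A + d') * s) := by
      nlinarith [mul_nonneg hlt hds, mul_nonneg hlt hA]
    calc (2 * (m : ℝ) + 1) * (1 + d' * s + lt)
        ≤ (1 + (2 * A + d') * s) * ((1 + lt) * (1 + (2 * A + d') * s)) := by
          refine mul_le_mul a1 a2 (by positivity) ?_
          nlinarith
      _ = _ := by ring
  have e2 : (0 : ℝ) + (n + 1) * (C * (d' * s) + 2 * (e' * s)) + 3 * (e' * s) +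
      2 * C * (d' * s + lt) = ((n + 1) * (C * d' + 2 * e') + 3 * e' + 2 * C * d') * s +
        2 * C * lt := by ring
  have e3 : Real.exp ((0 : ℝ) + (n + 1) * (C * (d' * s) + 2 * (e' * s)) + 3 * (e' * s) +
      2 * C * (d' * s + lt)) ≤ Real.exp (κq / 8 * s) * Real.exp (2 * C * lt) := by
    rw [e2, ← Real.exp_add, Real.exp_le_exp]
    have := mul_le_mul_of_nonneg_right hco hs
    linarith
  have hn0 : (0 : ℝ) ≤ n := Nat.cast_nonneg n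
  calc 2 * ((n + 1) * ((2 * m + 1) * (C * (1 + d' * s + lt) *
        Real.exp (0 + (n + 1) * (C * (d' * s) + 2 * (e' * s)) + 3 * (e' * s) +
          2 * C * (d' * s + lt)))))
      = 2 * (n + 1) * C * ((2 * m + 1) * (1 + d' * s + lt)) *
        Real.exp (0 + (n + 1) * (C * (d' * s) + 2 * (e' * s)) + 3 * (e' * s) +
          2 * C * (d' * s + lt)) := by ring
    _ ≤ 2 * (n + 1) * C * ((1 + lt) * (1 + (2 * A + d') * s) ^ 2) *
        (Real.exp (κq / 8 * s) * Real.exp (2 * C * lt)) := by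
        have hC0 : 0 ≤ C := by linarith
        gcongr
    _ = (2 * (n + 1) * (C * (1 + lt) * Real.exp (2 * C * lt)) * (1 + (2 * A + d') * s) ^ 2) *
        Real.exp (κq / 8 * s) := by ring
    _ ≤ (1 * Real.exp (κq / 8 * s)) * Real.exp (κq / 8 * s) := by gcongr
    _ = Real.exp (κq / 4 * s) := by
        rw [one_mul, ← Real.exp_add]; congr 1; ring
    _ ≤ _ := by
        rw [Real.exp_le_exp]
        have := Nat.lt_floor_add_one (κq * s / 2)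
        linarith

theorem two_pow_ge {a : ℝ} (n : ℕ) (h : a ≤ n) : Real.exp (a / 2) ≤ 2 ^ n := by
  have h1 : Real.exp (a / 2) ≤ Real.exp (n / 2) := Real.exp_le_exp.2 (by linarith)
  refine h1.trans ?_
  have h2 : Real.exp ((n : ℝ) / 2) = Real.exp (1 / 2) ^ n := by
    rw [← Real.exp_nat_mul]; congr 1; ring
  rw [h2]
  refine pow_le_pow_left₀ (Real.exp_pos _).le ?_ n
  have h3 : Real.exp (1 / 2) ^ 2 ≤ 2 ^ 2 := by
    rw [← Real.exp_nat_mul]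
    have := Real.exp_one_lt_d9
    norm_num
    linarith
  exact le_of_sq_le_sq h3 (by norm_num)
where
  le_of_sq_le_sq {a b : ℝ} (h : a ^ 2 ≤ b ^ 2) (hb : 0 ≤ b) : a ≤ b := by
    nlinarith [sq_nonneg (a - b)]

theorem num_spread {κq C a₁ a₂ κ'' C₃ C' θ θ' : ℝ} {k K : ℕ} (hκq : 0 < κq) (hC : 1 ≤ C)
    (ha₁ : 0 ≤ a₁) (ha₂ : 0 ≤ a₂) (hκ'' : 0 ≤ κ'') (hC₃ : 0 ≤ C₃) (hC' : 0 ≤ C') (hθ : 0 < θ)
    (hθ' : 0 < θ') (hK : 2 * κ'' * K ≤ κq / 8) :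
    ∀ᶠ s : ℝ in atTop, ∀ N m' : ℕ, (N : ℝ) ≤ (2 * |a₁ * s| + 1) ^ k *
        (K * (1 + C₃ * Real.exp (2 * κ'' * s)) / θ') ^ K →
      (m' : ℝ) ≤ C' * (2 * |a₂ * s| + 1) ^ k + 1 →
      ((N * 2 ^ ⌊κq * s / 2⌋₊ : ℕ) : ENNReal) * (ENNReal.ofReal C * m') <
        2 ^ ⌊κq * s⌋₊ * ENNReal.ofReal θ := by
  have h8 : 0 < κq / 8 := by positivity
  filter_upwards [ev_polyB ((K * (1 + C₃) / θ') ^ K * (C * (C' + 1))) (2 * a₁ + 2 * a₂) (2 * k) h8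
    (show 0 < θ / 8 by positivity), eventually_ge_atTop (0 : ℝ)] with s h1 hs N m' hN hm'
  have hE : 1 ≤ Real.exp (2 * κ'' * s) := Real.one_le_exp (by positivity)
  set P : ℝ := 1 + (2 * a₁ + 2 * a₂) * s with hP
  have hP1 : 1 ≤ P := by
    rw [hP]
    have : 0 ≤ (2 * a₁ + 2 * a₂) * s := by positivity
    linarith
  have e1 : (2 * |a₁ * s| + 1) ^ k ≤ P ^ k := by
    refine pow_le_pow_left₀ (by positivity) ?_ k
    rw [abs_of_nonneg (by positivity), hP]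
    have : 0 ≤ 2 * a₂ * s := by positivity
    linarith
  have e2 : (2 * |a₂ * s| + 1) ^ k ≤ P ^ k := by
    refine pow_le_pow_left₀ (by positivity) ?_ k
    rw [abs_of_nonneg (by positivity), hP]
    have : 0 ≤ 2 * a₁ * s := by positivity
    linarith
  have e3 : (K * (1 + C₃ * Real.exp (2 * κ'' * s)) / θ') ^ K ≤
      (K * (1 + C₃) / θ') ^ K * Real.exp (κq / 8 * s) := by
    have a1 : K * (1 + C₃ * Real.exp (2 * κ'' * s)) / θ' ≤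
        K * (1 + C₃) / θ' * Real.exp (2 * κ'' * s) := by
      rw [div_mul_eq_mul_div]
      have : (1 + C₃ * Real.exp (2 * κ'' * s)) ≤ (1 + C₃) * Real.exp (2 * κ'' * s) := by nlinarith
      have h5 := mul_le_mul_of_nonneg_left this (Nat.cast_nonneg (α := ℝ) K)
      rw [← mul_assoc] at h5
      gcongr
    refine (pow_le_pow_left₀ (by positivity) a1 K).trans ?_
    rw [mul_pow, ← Real.exp_nat_mul]
    refine mul_le_mul_of_nonneg_left (Real.exp_le_exp.2 ?_) (by positivity)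
    have := mul_le_mul_of_nonneg_right hK hs
    linarith
  have e4 : (N : ℝ) ≤ P ^ k * ((K * (1 + C₃) / θ') ^ K * Real.exp (κq / 8 * s)) :=
    hN.trans (mul_le_mul e1 e3 (by positivity) (by positivity))
  have e5 : (m' : ℝ) ≤ (C' + 1) * P ^ k := by
    refine hm'.trans ?_
    have h6 : 1 ≤ P ^ k := one_le_pow₀ hP1
    have h7 := mul_le_mul_of_nonneg_left e2 hC'
    linarith
  have e6 : (N : ℝ) * (C * m') ≤ θ / 8 * Real.exp (κq * s / 4) := by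
    calc (N : ℝ) * (C * m') ≤ (P ^ k * ((K * (1 + C₃) / θ') ^ K * Real.exp (κq / 8 * s))) *
          (C * ((C' + 1) * P ^ k)) := by gcongr
      _ = ((K * (1 + C₃) / θ') ^ K * (C * (C' + 1)) * P ^ (2 * k)) * Real.exp (κq / 8 * s) := by
          rw [two_mul, pow_add]; ring
      _ ≤ (θ / 8 * Real.exp (κq / 8 * s)) * Real.exp (κq / 8 * s) := by gcongr
      _ = _ := by
          rw [mul_assoc, ← Real.exp_add]; congr 2; ring
  set q := ⌊κq * s⌋₊ with hq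
  set j := ⌊κq * s / 2⌋₊ with hj
  have hκs : 0 ≤ κq * s := by positivity
  have hjq : j ≤ q := Nat.floor_mono (by linarith)
  have e7 : Real.exp (κq * s / 4) ≤ 2 * 2 ^ (q - j) := by
    have h5 : κq * s / 2 ≤ ((q - j + 1 : ℕ) : ℝ) := by
      push_cast [Nat.cast_sub hjq]
      have h6 := Nat.lt_floor_add_one (κq * s)
      have h7 := Nat.floor_le (show 0 ≤ κq * s / 2 by positivity)
      linarith
    have h8 := two_pow_ge _ h5
    rw [pow_succ] at h8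
    have h9 : κq * s / 2 / 2 = κq * s / 4 := by ring
    rw [h9] at h8
    linarith
  have e8 : (N : ℝ) * 2 ^ j * (C * m') < 2 ^ q * θ := by
    have h5 : (2 : ℝ) ^ q = 2 ^ j * 2 ^ (q - j) := by rw [← pow_add]; congr 1; omega
    rw [h5]
    calc (N : ℝ) * 2 ^ j * (C * m') = 2 ^ j * (N * (C * m')) := by ring
      _ ≤ 2 ^ j * (θ / 8 * (2 * 2 ^ (q - j))) := by
          refine mul_le_mul_of_nonneg_left (e6.trans ?_) (by positivity)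
          exact mul_le_mul_of_nonneg_left e7 (by positivity)
      _ = 2 ^ j * 2 ^ (q - j) * (θ / 4) := by ring
      _ < 2 ^ j * 2 ^ (q - j) * θ := by
          refine mul_lt_mul_of_pos_left (by linarith) (by positivity)
  have hC0 : 0 ≤ C := by linarith
  have e9 : ((N * 2 ^ j : ℕ) : ENNReal) * (ENNReal.ofReal C * m') =
      ENNReal.ofReal ((N : ℝ) * 2 ^ j * (C * m')) := by
    rw [ENNReal.ofReal_mul (by positivity), ENNReal.ofReal_mul hC0,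
      ENNReal.ofReal_mul (Nat.cast_nonneg _), ENNReal.ofReal_pow (by norm_num)]
    simp
  have e10 : (2 : ENNReal) ^ q * ENNReal.ofReal θ = ENNReal.ofReal (2 ^ q * θ) := by
    rw [ENNReal.ofReal_mul (by positivity), ENNReal.ofReal_pow (by norm_num)]
    simp
  rw [e9, e10]
  exact (ENNReal.ofReal_lt_ofReal_iff (by positivity)).2 e8

end Vale.Agent.P188.Z1.RModel.F6

end

section

/-!
# P188, FLAT in the model, part 11: the domains at a frame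
-/

set_option linter.all false

open MeasureTheory Set Filter
open Vale.Agent.P188.H530 (hgt)
open Vale.Agent.P188.H616 (Coord Sec Phi slide)

namespace Vale.Agent.P188.Z1.RModel.F6

variable {S : Type} [Group S] [MeasurableSpace S] {Γ : Type} [Group Γ]
  {V : Type} [AddCommGroup V] [Module ℝ V] {k : ℕ} {M : RModel S Γ V k}

/-- positions at the frame `g` -/
def DF (B : M.NatBox) (h : (Ht k →L[ℝ] ℝ) → ℝ) (Λ d₁ κ4 s : ℝ) (g : S) : Set S :=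
  {z | np M (z * g⁻¹) ∈ B.Bx (fun i => Λ * M.szh h d₁ s i) ∧ ‖M.θ (z * g⁻¹)‖ ≤ κ4 * s}

/-- positions with heights near `a` -/
def DA (B : M.NatBox) (h : (Ht k →L[ℝ] ℝ) → ℝ) (Λ d₁ s : ℝ) (a : Ht k) (R : ℝ) : Set S :=
  {z | np M z ∈ B.Bx (fun i => Λ * M.szh h d₁ s i) ∧ ‖M.θ z - a‖ ≤ R}

variable (B : M.NatBox) {h : (Ht k →L[ℝ] ℝ) → ℝ} {Λ d₁ κ4 s : ℝ} {g : S}

theorem DA_eq (a : Ht k) (R : ℝ) : DA B h Λ d₁ s a R =
    BW M (B.Bx (fun i => Λ * M.szh h d₁ s i)) {w | ‖(ht w : Ht k) - a‖ ≤ R} := rfl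

theorem DA_meas (a : Ht k) (R : ℝ) : MeasurableSet (DA B h Λ d₁ s a R) := by
  rw [DA_eq]
  exact BW_meas M (B.meas _) (B.sub _) _

theorem DA_measure (a : Ht k) (R : ℝ) : M.μ (DA B h Λ d₁ s a R) =
    {w : Fin k → ℤ | ‖(ht w : Ht k) - a‖ ≤ R}.ncard * M.μ (B.Bx (fun i => Λ * M.szh h d₁ s i)) := by
  rw [DA_eq]
  exact BW_measure M (B.meas _) (B.sub _) (ball_finite a R).1

theorem DF_eq : DF B h Λ d₁ κ4 s g = (fun z => z * g⁻¹) ⁻¹' (DA B h Λ d₁ s 0 (κ4 * s)) := by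
  ext z
  simp only [DF, DA, mem_setOf_eq, mem_preimage, sub_zero]

theorem DF_meas : MeasurableSet (DF B h Λ d₁ κ4 s g) := by
  rw [DF_eq]
  exact (M.mp _).measurable (DA_meas B _ _)

theorem DF_measure : M.μ (DF B h Λ d₁ κ4 s g) = M.μ (DA B h Λ d₁ s 0 (κ4 * s)) := by
  rw [DF_eq]
  exact (M.mp _).measure_preimage (DA_meas B _ _).nullMeasurableSet

theorem DF_ge (hs : 0 ≤ κ4 * s) : M.μ (B.Bx (fun i => Λ * M.szh h d₁ s i)) ≤
    M.μ (DF B h Λ d₁ κ4 s g) := by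
  rw [DF_measure, DA_measure]
  refine le_mul_of_one_le_left zero_le' ?_
  have h1 : 1 ≤ {w : Fin k → ℤ | ‖(ht w : Ht k) - 0‖ ≤ κ4 * s}.ncard := by
    rw [Nat.one_le_iff_ne_zero]
    refine Set.ncard_ne_zero_of_mem (a := 0) ?_ (ball_finite 0 (κ4 * s)).1
    rw [mem_setOf_eq, sub_zero]
    have : (ht (0 : Fin k → ℤ) : Ht k) = 0 := by
      funext i
      simp [ht]
    rw [this, norm_zero]
    exact hs
  exact_mod_cast h1

theorem DF_ne_top : M.μ (DF B h Λ d₁ κ4 s g) ≠ ⊤ := by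
  rw [DF_measure, DA_measure]
  exact ENNReal.mul_ne_top (ENNReal.natCast_ne_top _) (B.fin _)

theorem DF_mono {Λ' : ℝ} (hΛ : 0 ≤ Λ) (hΛ' : Λ ≤ Λ') :
    DF B h Λ d₁ κ4 s g ⊆ DF B h Λ' d₁ κ4 s g := by
  rintro z ⟨h1, h2⟩
  refine ⟨B.mono _ _ (fun i => ?_) (fun i => ?_) h1, h2⟩
  · have := szh_pos (M := M) (h := h) (d₁ := d₁) (s := s) i
    positivity
  · exact mul_le_mul_of_nonneg_right hΛ' (szh_pos (M := M) i).le

/-- ratio of the measures -/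
theorem DA_le {C' : ℝ} (hC' : M.μ (B.Bx (fun i => Λ * M.szh h d₁ s i)) ≤
    ENNReal.ofReal C' * M.μ (B.Bx (fun i => κ4 * M.szh h d₁ s i))) (hC0 : 0 ≤ C') (a : Ht k) (R : ℝ) :
    M.μ (DA B h Λ d₁ s a R) ≤
      ((⌈C' * (2 * |R| + 1) ^ k⌉₊ : ℕ) : ENNReal) * M.μ (B.Bx (fun i => κ4 * M.szh h d₁ s i)) := by
  rw [DA_measure]
  refine (mul_le_mul_right hC' _).trans ?_
  rw [← mul_assoc]
  refine mul_le_mul_left ?_ _
  have h1 := (ball_finite (k := k) a R).2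
  have h2 : (({w : Fin k → ℤ | ‖(ht w : Ht k) - a‖ ≤ R}.ncard : ℕ) : ENNReal) =
      ENNReal.ofReal ({w : Fin k → ℤ | ‖(ht w : Ht k) - a‖ ≤ R}.ncard : ℕ) := by simp
  rw [h2, ← ENNReal.ofReal_mul (Nat.cast_nonneg _)]
  have h3 : ((⌈C' * (2 * |R| + 1) ^ k⌉₊ : ℕ) : ENNReal) =
      ENNReal.ofReal ((⌈C' * (2 * |R| + 1) ^ k⌉₊ : ℕ) : ℝ) := by simp
  rw [h3]
  refine ENNReal.ofReal_le_ofReal (le_trans ?_ (Nat.le_ceil _))
  rw [mul_comm]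
  exact mul_le_mul_of_nonneg_left h1 hC0

/-- slides keep the domains -/
theorem slide_eq (u z : S) : slide M.sec u g z * g⁻¹ = np M (z * g⁻¹) * u * M.sec (z * g⁻¹) := by
  unfold slide np
  group

theorem η_slide {u : S} (hu : M.η u = 1) (z : S) : M.η (slide M.sec u g z * g⁻¹) = M.η (z * g⁻¹) := by
  rw [slide_eq, map_mul, map_mul, hu, mul_one]
  unfold np
  rw [map_mul, map_inv]
  group

theorem np_slide {u : S} (hu : M.η u = 1) (z : S) :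
    np M (slide M.sec u g z * g⁻¹) = np M (z * g⁻¹) * u := by
  have h1 := sec_congr M (η_slide (g := g) hu z)
  have h2 := slide_eq (M := M) (g := g) u z
  unfold np at h2 ⊢
  rw [h1, h2]
  group

theorem θ_slide {u : S} (hu : M.η u = 1) (z : S) :
    M.θ (slide M.sec u g z * g⁻¹) = M.θ (z * g⁻¹) := M.θ_of_η (η_slide hu z)

theorem slide_DF (hΛ : 0 ≤ Λ) {u : S} (hu : u ∈ B.Bx (fun i => Λ * M.szh h d₁ s i)) {z : S}
    (hz : z ∈ DF B h Λ d₁ κ4 s g) : slide M.sec u g z ∈ DF B h (B.C * Λ) d₁ κ4 s g := by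
  have hη := B.sub _ _ hu
  refine ⟨?_, ?_⟩
  · rw [np_slide hη]
    have h1 := B.mul _ (fun i => mul_nonneg hΛ (szh_pos (M := M) i).le) _ hz.1 _ hu
    have e : (fun i => B.C * Λ * M.szh h d₁ s i) = fun i => B.C * (Λ * M.szh h d₁ s i) := by
      funext i; ring
    rw [e]; exact h1
  · rw [θ_slide hη]
    exact hz.2

/-- the `N_R`-part of a position at a frame -/
theorem ev_DF {c₂ A : ℝ} (hc : 0 < c₂) (hd : 0 < d₁) (hκ : κ4 ≤ A) (hΛ : 1 ≤ Λ) :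
    ∀ᶠ s : ℝ in atTop, ∀ h : (Ht k →L[ℝ] ℝ) → ℝ, M.HB c₂ h → ∀ n : ℕ, (n : ℝ) ≤ A * s →
      ∀ g ∈ M.CB n, ∀ z ∈ DF B h Λ d₁ κ4 s g, np M z ∈ B.Bx fun i => B.C * Λ * M.szh h d₁ s i := by
  filter_upwards [ev_cocycle B hc hd A one_pos, eventually_ge_atTop (0 : ℝ)] with s h1 hs h hh n hn g
    hg z hz
  have h2 := h1 h hh (z * g⁻¹) (hz.2.trans (mul_le_mul_of_nonneg_right hκ hs)) n hn g hg
  have h3 : np M z = np M (z * g⁻¹) * (M.sec (z * g⁻¹) * g * (M.sec (z * g⁻¹ * g))⁻¹) := by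
    have := np_mul M (z * g⁻¹) g
    rw [inv_mul_cancel_right] at this ⊢
    exact this
  rw [h3]
  have h4 := Bx_mul B (R := fun i => Λ * M.szh h d₁ s i)
    (fun i => by have := szh_pos (M := M) (h := h) (d₁ := d₁) (s := s) i; positivity)
    (fun i => by have := szh_pos (M := M) (h := h) (d₁ := d₁) (s := s) i; positivity)
    (fun i => le_rfl) (fun i => by
      have := (szh_pos (M := M) (h := h) (d₁ := d₁) (s := s) i).le
      nlinarith) hz.1 h2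
  have e : (fun i => B.C * Λ * M.szh h d₁ s i) = fun i => B.C * (Λ * M.szh h d₁ s i) := by
    funext i; ring
  rw [e]; exact h4

end Vale.Agent.P188.Z1.RModel.F6

end

section

/-!
# P188, FLATG in the model: the script
-/

set_option linter.all false

open MeasureTheory Set Filter
open Vale.Agent.P188.H530 (hgt)
open Vale.Agent.P188.H616 (Coord Sec Phi slide Script badR badL)

namespace Vale.Agent.P188.Z1.RModel.F6

variable {S : Type} [Group S] [MeasurableSpace S] {Γ : Type} [Group Γ]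
  {V : Type} [AddCommGroup V] [Module ℝ V] {k : ℕ} {M : RModel S Γ V k}

/-! ### positions -/

theorem Phi_eq (U g z : S) : Phi M.sec U g z * g⁻¹ = np M z * U * M.sec z := by
  unfold Phi np
  group

theorem η_Phi' {U : S} (hU : M.η U = 1) (g z : S) : M.η (Phi M.sec U g z * g⁻¹) = M.η z := by
  rw [Phi_eq, map_mul, map_mul, hU, mul_one]
  unfold np
  rw [map_mul, map_inv]
  group

theorem np_Phi' {U : S} (hU : M.η U = 1) (g z : S) :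
    np M (Phi M.sec U g z * g⁻¹) = np M z * U := by
  have h1 := sec_congr M (η_Phi' (g := g) hU z)
  have h2 := Phi_eq (M := M) U g z
  unfold np at h2 ⊢
  rw [h1, h2]
  group

theorem θ_Phi' {U : S} (hU : M.η U = 1) (g z : S) :
    M.θ (Phi M.sec U g z * g⁻¹) = M.θ z := M.θ_of_η (η_Phi' hU g z)

/-- positions of the script -/
theorem Phi_DF (B : M.NatBox) {h : (Ht k →L[ℝ] ℝ) → ℝ} {δ Λ₁ d₁ κ4 s : ℝ} (hδ0 : 0 ≤ δ)
    (hδ : δ ≤ Λ₁) {U : S} (hU : U ∈ B.Bx (fun i => Λ₁ * M.szh h d₁ s i)) {z : S}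
    (hz : z ∈ DF B h δ d₁ κ4 s 1) (g : S) : Phi M.sec U g z ∈ DF B h (B.C * Λ₁) d₁ κ4 s g := by
  have hη := B.sub _ _ hU
  obtain ⟨h1, h2⟩ := hz
  rw [inv_one, mul_one] at h1 h2
  refine ⟨?_, ?_⟩
  · rw [np_Phi' hη]
    have hpos : ∀ i, 0 < M.szh h d₁ s i := szh_pos
    have h3 := Bx_mul B (R := fun i => Λ₁ * M.szh h d₁ s i)
      (fun i => mul_nonneg hδ0 (hpos i).le)
      (fun i => mul_nonneg (hδ0.trans hδ) (hpos i).le)
      (fun i => mul_le_mul_of_nonneg_right hδ (hpos i).le) (fun i => le_rfl) h1 hU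
    have e : (fun i => B.C * Λ₁ * M.szh h d₁ s i) = fun i => B.C * (Λ₁ * M.szh h d₁ s i) := by
      funext i; ring
    rw [e]; exact h3
  · rw [θ_Phi' hη]
    exact h2

/-- the letters of the script -/
def LtS (B : M.NatBox) (h : (Ht k →L[ℝ] ℝ) → ℝ) (d₁ s : ℝ) (i : M.ι) : Set S :=
  {u | ∃ x : ℝ, |x| ≤ B.C * M.szh h d₁ s i ∧ u = M.ex (x • M.X i)}

/-- monotonicity of the bad sets -/
theorem badR_mono {Λ : Type*} (σ : S → Λ) (f : S → Ht k) (T : Λ → Ht k →+ Ht k) (θ : S → Ht k)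
    (g : S) {a b : ℝ} (h : a ≤ b) : badR σ f T θ g b ⊆ badR σ f T θ g a := by
  rintro z hz
  rcases hz with h1 | h1
  · exact Or.inl h1
  · exact Or.inr (lt_of_le_of_lt h h1)

/-- **neutral letters in the script** -/
theorem neutral_letter {Λ : Type*} {σ : S → Λ} {T : Λ → Ht k →L[ℝ] Ht k} {f : S → Ht k}
    {D : Set S} {A ε κ dm s : ℝ} (hSt : StrSc M σ T f D A ε κ dm s) (B : M.NatBox)
    {h : (Ht k →L[ℝ] ℝ) → ℝ} {d₁ κ4 Λm : ℝ} (hΛm : B.C ≤ Λm)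
    (hIn : ∀ z, np M z ∈ B.Bx (fun i => B.C * Λm * M.szh h d₁ s i) → ‖M.θ z‖ ≤ κ4 * s →
      z ∈ M.In (κ * s) D)
    {i : M.ι} (hi : M.wt i = 0) {x : ℝ} (hx : |x| ≤ B.C * M.szh h d₁ s i)
    (hAd : ∀ z, ‖M.θ z‖ ≤ κ4 * s → M.nm (M.Ad (M.sec z)⁻¹ (x • M.X i)) ≤ Real.exp (dm * s)) :
    M.μ (DF B h Λm d₁ κ4 s 1 ∩ badL σ f (slide M.sec (M.ex (x • M.X i)) 1) (ε * s)) ≤
      ENNReal.ofReal ε * M.μ D := by
  classical
  set y : Multiplicative (Fin k → ℤ) → V := fun w =>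
    if M.nm (M.Ad (M.τ (Multiplicative.toAdd w))⁻¹ (x • M.X i)) ≤ Real.exp (dm * s) then
      M.Ad (M.τ (Multiplicative.toAdd w))⁻¹ (x • M.X i) else 0 with hy
  have hXi : x • M.X i ∈ M.Vw 0 := by
    refine Submodule.smul_mem _ _ ?_
    have := M.X_mem i
    rwa [hi] at this
  have hy0 : ∀ w, y w ∈ M.Vw 0 ∧ M.nm (y w) ≤ Real.exp (dm * s) := by
    intro w
    simp only [hy]
    split_ifs with h1
    · exact ⟨M.Ad_CB (M.CB_inv (M.τ_CB _)) hXi, h1⟩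
    · refine ⟨Submodule.zero_mem _, ?_⟩
      rw [map_zero]
      exact (Real.exp_pos _).le
  have hyz : ∀ z, ‖M.θ z‖ ≤ κ4 * s → y (M.η z) = M.Ad (M.sec z)⁻¹ (x • M.X i) := by
    intro z hz
    simp only [hy]
    rw [if_pos]
    · rfl
    · exact hAd z hz
  have hmv : ∀ z, ‖M.θ z‖ ≤ κ4 * s → ∀ r : ℝ, z * M.ex (r • y (M.η z)) =
      slide M.sec (M.ex ((r * x) • M.X i)) 1 z := by
    intro z hz r
    rw [hyz z hz, ← map_smul, smul_smul, M.ex_Ad]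
    unfold slide
    simp only [inv_one, mul_one, inv_inv]
  have hmain := hSt.neut y hy0 (DF B h Λm d₁ κ4 s 1) (by
    rintro z ⟨h1, h2⟩ r hr0 hr1
    rw [inv_one, mul_one] at h1 h2
    rw [hmv z h2 r]
    have hu : M.ex ((r * x) • M.X i) ∈ B.Bx fun i => Λm * M.szh h d₁ s i := by
      refine B.letter _ (fun j => ?_) i _ ?_
      · exact mul_nonneg ((zero_le_one.trans B.one_le).trans hΛm) (szh_pos (M := M) j).le
      · rw [abs_mul, abs_of_nonneg hr0]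
        have h3 : r * |x| ≤ 1 * |x| := mul_le_mul_of_nonneg_right hr1 (abs_nonneg x)
        have h4 : B.C * M.szh h d₁ s i ≤ Λm * M.szh h d₁ s i :=
          mul_le_mul_of_nonneg_right hΛm (szh_pos (M := M) i).le
        linarith
    have hΛ0 : 0 ≤ Λm := (zero_le_one.trans B.one_le).trans hΛm
    have h5 := slide_DF B (κ4 := κ4) (g := 1) hΛ0 hu (z := z) ⟨by rwa [inv_one, mul_one], by
      rwa [inv_one, mul_one]⟩
    obtain ⟨h6, h7⟩ := h5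
    rw [inv_one, mul_one] at h6 h7
    exact hIn _ h6 h7)
  refine le_trans (measure_mono ?_) hmain
  rintro z ⟨hz, hz2⟩
  refine ⟨hz, ?_⟩
  have h2 : ‖M.θ z‖ ≤ κ4 * s := by
    have := hz.2
    rwa [inv_one, mul_one] at this
  have h3 := hmv z h2 1
  rw [one_smul, one_mul] at h3
  rw [h3]
  exact hz2

/-- sizes of the neutral letters at the positions -/
theorem ev_hAd (B : M.NatBox) {d₁ dm A : ℝ} (hd : d₁ < dm) :
    ∀ᶠ s : ℝ in atTop, ∀ h : (Ht k →L[ℝ] ℝ) → ℝ, ∀ i, M.wt i = 0 →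
      ∀ x : ℝ, |x| ≤ B.C * M.szh h d₁ s i → ∀ z : S, ‖M.θ z‖ ≤ A * s →
      M.nm (M.Ad (M.sec z)⁻¹ (x • M.X i)) ≤ Real.exp (dm * s) := by
  have hC0 := M.C0_pos
  have hBC := C_pos B
  set A' : ℝ := M.C0 * (1 + |A|) + 1 with hA'
  filter_upwards [ev_polyA (M.C0 * B.C) A' M.deg (a := dm - d₁) (by linarith),
    eventually_ge_atTop (1 : ℝ)] with s h1 hs h i hi x hx z hz
  have hzA : ‖M.θ z‖ ≤ |A| * s := hz.trans (mul_le_mul_of_nonneg_right (le_abs_self A) (by linarith))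
  have hc : M.sec z ∈ M.CB ⌈M.C0 * (1 + |A| * s)⌉₊ := sec_mem_CB M z (le_trans
    (mul_le_mul_of_nonneg_left (by linarith) hC0.le) (Nat.le_ceil _))
  have hXi : x • M.X i ∈ M.Vw 0 := by
    refine Submodule.smul_mem _ _ ?_
    have := M.X_mem i
    rwa [hi] at this
  have h2 := M.C_le _ _ (M.CB_inv hc) 0 M.zero_mem_Wt _ hXi
  refine h2.trans ?_
  rw [ContinuousLinearMap.zero_apply, Real.exp_zero, mul_one]
  have h3 : M.nm (x • M.X i) ≤ B.C * Real.exp (d₁ * s) := by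
    rw [map_smul_eq_mul, Real.norm_eq_abs]
    rw [szh_zero hi] at hx
    have h4 := M.X_le i
    have h5 := apply_nonneg M.nm (M.X i)
    calc |x| * M.nm (M.X i) ≤ (B.C * Real.exp (d₁ * s)) * 1 :=
          mul_le_mul hx h4 h5 (by positivity)
      _ = _ := mul_one _
  have hn : ((⌈M.C0 * (1 + |A| * s)⌉₊ : ℕ) : ℝ) ≤ A' * s := by
    refine (Nat.ceil_lt_add_one (by positivity)).le.trans ?_
    rw [hA']
    have : 0 ≤ M.C0 * |A| := by positivity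
    nlinarith
  calc M.C0 * (1 + ((⌈M.C0 * (1 + |A| * s)⌉₊ : ℕ) : ℝ)) ^ M.deg * M.nm (x • M.X i)
      ≤ M.C0 * (1 + A' * s) ^ M.deg * (B.C * Real.exp (d₁ * s)) := by
        have : (0 : ℝ) ≤ ((⌈M.C0 * (1 + |A| * s)⌉₊ : ℕ) : ℝ) := Nat.cast_nonneg _
        gcongr
    _ = (M.C0 * B.C * (1 + A' * s) ^ M.deg) * Real.exp (d₁ * s) := by ring
    _ ≤ Real.exp ((dm - d₁) * s) * Real.exp (d₁ * s) :=
        mul_le_mul_of_nonneg_right h1 (Real.exp_pos _).le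
    _ = Real.exp (dm * s) := by
        rw [← Real.exp_add]; congr 1; ring

/-- **the script in the model**, form with a family of paths (530) -/
theorem script' {Λ : Type*} {σ : S → Λ} {T : Λ → Ht k →L[ℝ] Ht k} {f : S → Ht k}
    {D : Set S} {A ε κS dm s : ℝ} (hSt : StrSc M σ T f D A ε κS dm s) (B : M.NatBox)
    {h : (Ht k →L[ℝ] ℝ) → ℝ} {d₁ κ4 δ Λ₁ η : ℝ} {e : ENNReal} (hs : 0 ≤ s) (hδ0 : 0 ≤ δ)
    (hδ : δ ≤ Λ₁) (hΛ₁ : 1 ≤ Λ₁) (hεη : ε ≤ η) (hεe : ENNReal.ofReal ε * M.μ D ≤ e)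
    {q : M.ι → ℕ → S} {nn : ℕ} (hnn : (nn : ℝ) ≤ A * s) (hq0 : ∀ i, q i 0 = 1)
    (hqs : ∀ i, ∀ j < nn, (q i j)⁻¹ * q i (j + 1) ∈ M.CB 1)
    (hg0 : ∀ i, M.wt i = 0 → q i nn = 1)
    (hpos : ∀ z, np M z ∈ B.Bx (fun i => B.C * (B.C * Λ₁) * M.szh h d₁ s i) →
      ‖M.θ z‖ ≤ κ4 * s → ∀ i, ∀ j ≤ nn, z * q i j ∈ M.In (κS * s) D)
    (hAd : ∀ i, M.wt i = 0 → ∀ x : ℝ, |x| ≤ B.C * M.szh h d₁ s i → ∀ z, ‖M.θ z‖ ≤ κ4 * s →
      M.nm (M.Ad (M.sec z)⁻¹ (x • M.X i)) ≤ Real.exp (dm * s))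
    (hNF : ∀ i, M.wt i ≠ 0 → ∀ x : ℝ, |x| ≤ B.C * M.szh h d₁ s i →
      M.μ (DF B h (B.C * Λ₁) d₁ κ4 s (q i nn) ∩
        badL σ f (slide M.sec (M.ex (x • M.X i)) (q i nn)) (η * s)) ≤ e) :
    Script M.μ M.η.ker M.sec σ f (Ta T) M.θ (fun i => q i nn) (LtS B h d₁ s)
      (DF B h δ d₁ κ4 s 1)
      (DF B h (B.C * Λ₁) d₁ κ4 s 1) (fun i => DF B h (B.C * Λ₁) d₁ κ4 s (q i nn))
      (B.Bx fun i => Λ₁ * M.szh h d₁ s i) (η * s) e := by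
  have hpos1 : ∀ z, np M z ∈ B.Bx (fun i => B.C * Λ₁ * M.szh h d₁ s i) →
      ‖M.θ z‖ ≤ κ4 * s → ∀ i, ∀ j ≤ nn, z * q i j ∈ M.In (κS * s) D := by
    intro z hz
    refine hpos z (B.mono _ _ (fun i => ?_) (fun i => ?_) hz)
    · have := szh_pos (M := M) (h := h) (d₁ := d₁) (s := s) i
      have := B.one_le
      positivity
    · have h1 := szh_pos (M := M) (h := h) (d₁ := d₁) (s := s) i
      have h2 := B.one_le
      refine mul_le_mul_of_nonneg_right ?_ h1.le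
      exact le_mul_of_one_le_left (by positivity) h2
  exact {
    sec := isSec M
    mp := fun u hu g A => mp_le M (Phi_mp M ((MonoidHom.mem_ker).1 hu) g) A
    θ_mul := M.θ_mul
    LtE := by
      rintro i u ⟨x, _, rfl⟩
      exact (MonoidHom.mem_ker).2 (M.η_ex _)
    PEE := fun u hu => (MonoidHom.mem_ker).2 (B.sub _ _ hu)
    inDm := fun z hz U hU => Phi_DF B hδ0 hδ hU hz 1
    inDs := fun z hz U hU i => Phi_DF B hδ0 hδ hU hz (q i nn)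
    go := by
      intro i
      have h1 := hSt.go hnn (hq0 i) (hqs i) (Dm := DF B h (B.C * Λ₁) d₁ κ4 s 1) (by
        rintro z ⟨h1, h2⟩ j hj
        rw [inv_one, mul_one] at h1 h2
        exact hpos1 z h1 h2 i j hj)
      exact (measure_mono (inter_subset_inter_right _ (badR_mono σ f _ _ _
        (mul_le_mul_of_nonneg_right hεη hs)))).trans (h1.trans hεe)
    back := by
      intro i
      have h1 := hSt.back hnn (hq0 i) (hqs i) (Dm := DF B h (B.C * Λ₁) d₁ κ4 s (q i nn)) (by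
        rintro z ⟨h1, h2⟩ j hj
        exact hpos1 _ h1 h2 i j hj)
      exact (measure_mono (inter_subset_inter_right _ (badR_mono σ f _ _ _
        (mul_le_mul_of_nonneg_right hεη hs)))).trans (h1.trans hεe)
    nofold := by
      rintro i u ⟨x, hx, rfl⟩
      by_cases hi : M.wt i = 0
      · have hΛm : B.C ≤ B.C * Λ₁ := le_mul_of_one_le_right (zero_le_one.trans B.one_le) hΛ₁
        have h1 := neutral_letter hSt B (κ4 := κ4) hΛm (by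
          intro z hz1 hz2
          have := hpos z hz1 hz2 i 0 (Nat.zero_le _)
          rwa [hq0, mul_one] at this) hi hx (hAd i hi x hx)
        simp only [hg0 i hi]
        refine le_trans (measure_mono (inter_subset_inter_right _ ?_)) (h1.trans hεe)
        rintro z hz
        rcases hz with h2 | h2
        · exact Or.inl h2
        · exact Or.inr (lt_of_le_of_lt (mul_le_mul_of_nonneg_right hεη hs) h2)
      · exact hNF i hi x hx }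

end Vale.Agent.P188.Z1.RModel.F6

end

section

/-!
# P188, FLAT in the model, part 12: NOFOLD for one pair of labels
-/

set_option linter.all false

open MeasureTheory Set Filter
open Vale.Agent.P188.H530 (hgt)
open Vale.Agent.P188.H616 (Coord Sec Phi slide StrAt nofold_fill Up3)
open Vale.Agent.P188.H329 (InP prS Rel win Reach)

namespace Vale.Agent.P188.Z1.RModel.F6

variable {S : Type} [Group S] [MeasurableSpace S] {Γ : Type} [Group Γ]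
  {V : Type} [AddCommGroup V] [Module ℝ V] {k : ℕ} {M : RModel S Γ V k}

/-- the conclusion of FILL for the letters of sizes `R` -/
def FillC (M : RModel S Γ V k) (R : M.ι → ℝ) (n : ℕ) (θ' : ENNReal) (c : ℕ) (CI : ℝ) (N0 : ℕ) : Prop :=
  ∀ G : Set S, MeasurableSet G →
    (∀ z ∈ G, ∀ i, θ' ≤ win (fun j x => M.ex ((R j * x) • M.X j)) i G z) → ∀ z0 : S,
    ∃ T : Finset S, T.card ≤ N0 ∧ ∀ z ∈ G, InP (fun j x => M.ex ((R j * x) • M.X j)) c CI z0 z →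
      ∃ t ∈ T, Reach (fun j x => M.ex ((R j * x) • M.X j)) G n z t

/-- the conclusion of SPREAD for the coordinate `X` -/
def SprC (M : RModel S Γ V k) (h : S → ℝ) (X : S → ℂ) (C : ℝ) : Prop :=
  ∀ (q j N m' : ℕ) (θ : ENNReal) (DD Dp : Set S), M.μ DD ≠ ⊤ → M.μ Dp ≤ m' * M.μ DD →
  (∀ z ∈ DD, ∀ g, (M.l g : ℝ) ≤ C * (q + 1) → z * g ∈ Dp) →
  (N * 2 ^ j : ℕ) * (ENNReal.ofReal C * m') < 2 ^ q * θ →
  ∀ Γ₀ : Set S, MeasurableSet Γ₀ → Γ₀ ⊆ DD → θ * M.μ DD ≤ M.μ Γ₀ → M.μ Γ₀ ≠ 0 → ∃ z0 : S,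
  ∀ (Y : Finset S) (φ : S → S), Y.card ≤ N →
    (∀ z ∈ Γ₀ ∩ {z | (M.l (z0⁻¹ * z) : ℝ) ≤ C * (q + 1)}, φ z ∈ Y) →
    ∃ z ∈ Γ₀ ∩ {z | (M.l (z0⁻¹ * z) : ℝ) ≤ C * (q + 1)},
    ∃ z' ∈ Γ₀ ∩ {z | (M.l (z0⁻¹ * z) : ℝ) ≤ C * (q + 1)},
      φ z = φ z' ∧ |h z - h z'| ≤ 0 ∧ Real.exp (h z + (j - C)) < ‖X z - X z'‖

theorem pair_core {Λ : Type*} [Countable Λ] [MeasurableSpace Λ] [MeasurableSingletonClass Λ]
    {F : Γ → Γ} {b : Ht k →L[ℝ] ℝ} (hb : b ∈ M.Φ) {X : S → ℂ} {CS : ℝ} (hCS : 1 ≤ CS)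
    (hX : Coord (fun z => (M.l z : ℝ)) (fun z => b (M.f F z)) X CS CS)
    (hSp : SprC M (fun z => b (M.f F z)) X CS)
    {v : Fin k → ℤ} {m n N0 N p cI q j m' : ℕ} {d lt CI e₁ θr θr' : ℝ} {u g : S}
    (hu : M.η u = 1)
    (hlt : (M.l (M.τ v) : ℝ) ≤ lt) (hd0 : 0 ≤ d) (he₁ : 0 ≤ e₁)
    (hmerge : ∀ (j : M.ι) (x : ℝ), |x| ≤ 1 →
      (M.l ((M.τ v ^ m)⁻¹ * M.ex ((Rm M v m j * x) • M.X j) * M.τ v ^ m) : ℝ) ≤ d ∨
      (M.l (((M.τ v)⁻¹ ^ m)⁻¹ * M.ex ((Rm M v m j * x) • M.X j) * (M.τ v)⁻¹ ^ m) : ℝ) ≤ d ∨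
      (M.l (M.ex ((Rm M v m j * x) • M.X j)) : ℝ) ≤ d)
    {DD Dq Dp : Set S} (hDDm : MeasurableSet DD) (hDqm : MeasurableSet Dq) (hDD : M.μ DD ≠ ⊤)
    (hDp : M.μ Dp ≤ m' * M.μ DD) (hDp2 : ∀ z ∈ DD, ∀ g, (M.l g : ℝ) ≤ CS * (q + 1) → z * g ∈ Dp)
    (hq : ∀ z ∈ DD, ∀ j x, |x| ≤ 1 → z * M.ex ((Rm M v m j * x) • M.X j) ∈ Dq)
    (htop : ∀ z ∈ DD, (M.l ((z * M.τ v ^ m)⁻¹ * (slide M.sec u g z * M.τ v ^ m)) : ℝ) ≤ d)
    (hfill : FillC M (Rm M v m) n (ENNReal.ofReal θr') cI CI N0)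
    (hcov : ∀ z0 : S, ∃ F : Finset S, F.card ≤ p ∧
      ∀ z ∈ DD, (M.l (z0⁻¹ * z) : ℝ) ≤ CS * (q + 1) →
        ∃ z1 ∈ F, InP (fun j x => M.ex ((Rm M v m j * x) • M.X j)) cI CI z1 (slide M.sec u g z))
    (hN : p * N0 ≤ N)
    (hnum : ((N * 2 ^ j : ℕ) : ENNReal) * (ENNReal.ofReal CS * m') < 2 ^ q * ENNReal.ofReal θr)
    (hbig : 2 * ((n + 1) * ((2 * m + 1) * (CS * (1 + d + lt) *
      Real.exp (0 + (n + 1) * (CS * d + 2 * (2 * (bΦ M * e₁))) + 3 * (2 * (bΦ M * e₁)) +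
        2 * CS * (d + lt))))) ≤ Real.exp (j - CS))
    {σ : S → Λ} (hσ : Measurable σ) {T : Λ → Ht k →L[ℝ] Ht k} {s1 s2 : Λ}
    (h1 : 0 ≤ b (T s1 (ht v))) (h2 : b (T s2 (ht v)) ≤ 0) :
    M.μ {z | (z ∈ DD ∧ σ z = s2 ∧ StrAt (M.f F) σ (Tl T) (M.τ v) (ht v) m e₁ z) ∧
      (slide M.sec u g z ∈ DD ∧ σ (slide M.sec u g z) = s1 ∧
        StrAt (M.f F) σ (Tl T) (M.τ v) (ht v) m e₁ (slide M.sec u g z))} ≤
      ENNReal.ofReal θr * M.μ DD + Nat.card M.ι * (ENNReal.ofReal θr' * M.μ Dq) := by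
  haveI := M.mm
  have hb1 := one_le_bΦ M
  have hStrm : MeasurableSet {z | StrAt (M.f F) σ (Tl T) (M.τ v) (ht v) m e₁ z} :=
    StrAt.measurable (Tl T) (M.τ v) (ht v) m e₁ (M.measurable_f F) hσ fun g => (M.mp g).measurable
  have hm : ∀ i, Measurable fun q : S × ℝ => q.1 * M.ex ((Rm M v m i * q.2) • M.X i) := by
    intro i
    have h3 := M.ex_meas (Rm M v m i • M.X i)
    have e : (fun q : S × ℝ => q.1 * M.ex ((Rm M v m i * q.2) • M.X i)) =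
        fun q : S × ℝ => q.1 * M.ex (q.2 • Rm M v m i • M.X i) := by
      funext q
      rw [smul_smul, mul_comm q.2]
    rw [e]; exact h3
  have habs : ∀ x : Ht k, |(b : Ht k →ₗ[ℝ] ℝ) x| ≤ bΦ M * ‖x‖ := fun x => abs_le_bΦ M hb x
  refine nofold_fill (ι := M.ι) (S := S) M.μ hX (s := fun j x => M.ex ((Rm M v m j * x) • M.X j))
    (t := M.τ v) (m := m) (n := n) (N0 := N0) (N := N) (p := p) (cI := cI)
    (err := 2 * (bΦ M * e₁)) (s0 := m * b (T s1 (ht v))) (s1 := 2 * (m * b (T s1 (ht v)))) (d := d)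
    (lt := lt) (C0 := 0) (CI := CI) (κ0 := j - CS) hlt ?_ hd0 (by positivity) le_rfl hmerge ?_ ?_ hm
    (fun i x => M.mp _) (D := DD) (Dq := Dq)
    (Γ1 := {z | z ∈ DD ∧ σ z = s1 ∧ StrAt (M.f F) σ (Tl T) (M.τ v) (ht v) m e₁ z})
    (Γ2 := {z | z ∈ DD ∧ σ z = s2 ∧ StrAt (M.f F) σ (Tl T) (M.τ v) (ht v) m e₁ z})
    (τ := slide M.sec u g) (θ := ENNReal.ofReal θr) (θ' := ENNReal.ofReal θr')
    (B := fun z0 => {z | (M.l (z0⁻¹ * z) : ℝ) ≤ CS * (q + 1)}) ?_ ?_ (slide_mp M hu g) hDqm ?_ ?_ ?_ ?_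
    ?_ hfill ?_ hN ?_ hbig
  · rw [M.len.inv]; exact hlt
  · intro i x y
    rw [mul_add, M.ex_add]
  · intro i
    rw [mul_zero, zero_smul, M.ex_zero]
  · exact hDDm.inter ((hσ (measurableSet_singleton s2)).inter hStrm)
  · exact hDDm.inter ((hσ (measurableSet_singleton s1)).inter hStrm)
  · exact fun z hz => hq z hz.1
  · exact fun z hz => hz.1
  · rintro z ⟨hz1, hz2, hz3⟩
    have h3 := hz3.up3 (b := (b : Ht k →ₗ[ℝ] ℝ)) habs (by linarith)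
      (by rw [hz2]; exact h1)
    rw [hz2] at h3
    exact h3
  · rintro z ⟨hz1, hz2, hz3⟩
    exact hz3.down (b := (b : Ht k →ₗ[ℝ] ℝ)) habs (by linarith) (by rw [hz2]; exact h2)
  · exact fun z hz => htop z hz.1
  · intro z0
    obtain ⟨F, hF, hF2⟩ := hcov z0
    exact ⟨F, hF, fun z hz => hF2 z hz.1.1 hz.2⟩
  · intro Γ₀ hΓm hΓ1 hΓ2 hΓ3
    exact hSp q j N m' _ DD Dp hDD hDp hDp2 hnum Γ₀ hΓm hΓ1 hΓ2 hΓ3

end Vale.Agent.P188.Z1.RModel.F6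

end

section

/-!
# P188, FLATG in the model, final assembly, part A: one scale
-/

set_option linter.all false

open MeasureTheory Set Filter
open Vale.Agent.P188.H530 (hgt)
open Vale.Agent.P188.H616 (Coord Sec Phi slide Script StrAt badR badL)

namespace Vale.Agent.P188.Z1.RModel.F6

variable {S : Type} [Group S] [MeasurableSpace S] {Γ : Type} [Group Γ]
  {V : Type} [AddCommGroup V] [Module ℝ V] {k : ℕ} {M : RModel S Γ V k}

/-- **All slices are flat, one scale.** -/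
theorem flat_at (B : M.NatBox) {Λ : Type} [MeasurableSpace Λ] [Countable Λ]
    [MeasurableSingletonClass Λ] {σ : S → Λ} (hσ : Measurable σ) {T : Λ → Ht k →L[ℝ] Ht k}
    {f : S → Ht k} (hf : Measurable f) {h : (Ht k →L[ℝ] ℝ) → ℝ} {δ d₁ s η : ℝ}
    {J : Type} {g : J → S} {Lt : J → Set S} {D0 Dm : Set S} {Ds : J → Set S} {PE : Set S}
    {e : ENNReal}
    (Sc : Script M.μ M.η.ker M.sec σ f (Ta T) M.θ g Lt D0 Dm Ds PE (η * s) e)
    (hD0 : ∀ z ∈ D0, np M z ∈ B.Bx fun i => δ * M.szh h d₁ s i)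
    (hD0m : MeasurableSet D0) (h0 : M.μ D0 ≠ 0) (h1 : M.μ D0 ≠ ⊤)
    (hη : 0 ≤ η) (hs : 0 ≤ s) (hδ : 0 ≤ δ) {m : ℕ}
    (hus : ∀ u ∈ B.Bx (M.szh h d₁ s), ∃ us : List (J × S), us.length ≤ m ∧
      (∀ q ∈ us, q.2 ∈ Lt q.1) ∧ Script.Pre PE 1 us ∧ (us.map Prod.snd).prod = u)
    {n : ℕ} {hh : Fin n → S} (hgo : ∀ i, M.μ (Dm ∩ badR σ f (Ta T) M.θ (hh i) (η * s)) ≤ e)
    {ε' : ENNReal} (hε : (3 * m + 1 : ℕ) * e ≤ ε' * M.μ D0)
    (ν : Measure M.η.ker) [SFinite ν]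
    (hν : ∀ A : Set S, ν (Subtype.val ⁻¹' A) = M.μ (A ∩ M.η.ker))
    (hνi : ∀ (n e : M.η.ker) (A : Set M.η.ker), ν {v | n * v * e ∈ A} ≤ ν A)
    {L Lf κr : ℝ} (hLf : 0 ≤ Lf) (hlip : ∀ z g, ‖f (z * g) - f z‖ ≤ Lf * M.l g)
    (hL : ∀ a, ‖T a‖ ≤ L) (hL0 : 0 ≤ L) {G : Set S} {ε2 : ENNReal}
    (hG : ∀ z ∈ D0, ∀ x ∈ G, ∃ i, ∃ e' r : S, M.η e' = 1 ∧ (M.l r : ℝ) ≤ κr ∧
      x = e' * M.sec z * hh i * r ∧ e' ∈ B.Bx (fun i => δ * M.szh h d₁ s i))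
    (hfol : ∀ x ∈ B.Bx (fun i => δ * M.szh h d₁ s i), ∀ y ∈ B.Bx (fun i => δ * M.szh h d₁ s i),
      M.μ {v | v ∈ B.Bx (M.szh h d₁ s) ∧ x * v * y ∉ B.Bx (M.szh h d₁ s)} ≤ ε2) :
    ∃ a : Λ, ∃ c : Ht k, ∀ x ∈ G, M.μ {v | v ∈ B.Bx (M.szh h d₁ s) ∧
      (3 * m + 1 : ℕ) * (η * s) + Lf * κr + L * (M.C0 * κr) < ‖f (v * x) - c - T a (M.θ x)‖} ≤
        n * ε' * M.μ (B.Bx (M.szh h d₁ s)) + ε2 := by
  classical
  haveI := M.mm
  haveI := M.mi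
  haveI : MeasurableSingletonClass Λ := inferInstance
  have hC0 := M.C0_pos
  have hsub : ∀ A : Set S, A ⊆ B.Bx (M.szh h d₁ s) → A ∩ M.η.ker = A := by
    intro A hA
    exact inter_eq_left.2 fun x hx => B.sub _ _ (hA hx)
  have hBx : ν (Subtype.val ⁻¹' B.Bx (M.szh h d₁ s)) = M.μ (B.Bx (M.szh h d₁ s)) := by
    rw [hν, hsub _ subset_rfl]
  have key := Script.flat Sc (mul_nonneg hη hs) (M := m) (by
      show Measurable fun z => M.τ (Multiplicative.toAdd (M.η z))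
      exact measurable_of_η M fun w => M.τ (Multiplicative.toAdd w)) hσ hf (h := hh) hgo ν
    (Bx := Subtype.val ⁻¹' B.Bx (M.szh h d₁ s)) (measurable_subtype_coe (B.meas _))
    (fun u hu => hus u hu) hD0m h0 h1 (ε := ε') hε hνi (l := fun x => (M.l x : ℝ)) (L := Lf)
    (K := L * (M.C0 * κr)) (κ := κr) hlip hLf (fun e he => θ_eq_zero M he)
    (fun a r hr => by
      show ‖T a (M.θ r)‖ ≤ _
      refine ((T a).le_opNorm _).trans (mul_le_mul (hL a) ?_ (norm_nonneg _) hL0)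
      exact (M.θ_le r).trans (mul_le_mul_of_nonneg_left hr hC0.le))
    (G := G) (ε2 := ε2) (by
      intro z hz x hx
      obtain ⟨i, e', r, he', hr, hxe, heB⟩ := hG z hz x hx
      refine ⟨i, ⟨e', he'⟩, r, hr, hxe, ?_⟩
      have h3 := hfol (np M z)⁻¹ (B.inv _ _ (hD0 z hz)) e' heB
      refine le_trans (le_of_eq ?_) h3
      rw [← hsub {v | v ∈ B.Bx (M.szh h d₁ s) ∧ (np M z)⁻¹ * v * e' ∉ B.Bx (M.szh h d₁ s)}
        fun v hv => hv.1, ← hν]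
      rfl)
  obtain ⟨a, c, hac⟩ := key
  refine ⟨a, c, fun x hx => ?_⟩
  have h3 := hac x hx
  rw [hBx, Fintype.card_fin] at h3
  refine le_trans (le_of_eq ?_) h3
  rw [← hsub {v | v ∈ B.Bx (M.szh h d₁ s) ∧ (3 * m + 1 : ℕ) * (η * s) + Lf * κr +
    L * (M.C0 * κr) < ‖f (v * x) - c - T a (M.θ x)‖} fun v hv => hv.1, ← hν]
  rfl

end Vale.Agent.P188.Z1.RModel.F6

end

section

/-!
# P188, FLATG in the model, final assembly, part B: positions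
-/

set_option linter.all false

open MeasureTheory Set Filter
open Vale.Agent.P188.H530 (hgt)
open Vale.Agent.P188.H616 (Coord Sec Phi slide Script StrAt badR badL)

namespace Vale.Agent.P188.Z1.RModel.F6

variable {S : Type} [Group S] [MeasurableSpace S] {Γ : Type} [Group Γ]
  {V : Type} [AddCommGroup V] [Module ℝ V] {k : ℕ} {M : RModel S Γ V k}

/-- **positions after a Cartan word are inner points of `D`** -/
theorem exists_posCB (B : M.NatBox) : ∃ C : ℝ, 1 ≤ C ∧ ∀ (c₂ d₁ κa κS A Λ : ℝ), 0 < c₂ → 0 < d₁ →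
    0 < κa → 0 ≤ κS → C * κS < κa * c₂ → 1 ≤ Λ → ∀ᶠ s : ℝ in atTop,
      ∀ h : (Ht k →L[ℝ] ℝ) → ℝ, M.HB c₂ h → ∀ z : S, np M z ∈ B.Bx (fun i => Λ * M.szh h d₁ s i) →
      ‖M.θ z‖ ≤ A * s → ∀ n : ℕ, (n : ℝ) ≤ A * s → ∀ g ∈ M.CB n,
      WinH M h κa s (M.θ z + M.θ g) →
      z * g ∈ M.In (κS * s) (B.DboxH h (B.C * (B.C * Λ)) d₁ (κa / 2) s) := by
  obtain ⟨C, hC, hIn⟩ := exists_In M B
  refine ⟨C, hC, ?_⟩
  intro c₂ d₁ κa κS A Λ hc₂ hd hκa hκS hlt hΛ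
  have hBC := B.one_le
  filter_upwards [hIn c₂ d₁ κa κS (2 * A) (B.C * Λ) hc₂ hd hκa hκS hlt (by nlinarith),
    ev_cocycle B (d₁ := d₁) hc₂ hd A one_pos] with s h1 h2 h hh z hz hθ n hn g hg hw
  have e1 : M.θ (z * g) = M.θ z + M.θ g := M.θ_mul z g
  refine h1 h hh (z * g) ?_ (by rw [e1]; exact hw) ?_
  · rw [np_mul]
    have h3 := h2 h hh z hθ n hn g hg
    have h4 := Bx_mul B (R := fun i => Λ * M.szh h d₁ s i)
      (fun i => by have := szh_pos (M := M) (h := h) (d₁ := d₁) (s := s) i; positivity)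
      (fun i => by have := szh_pos (M := M) (h := h) (d₁ := d₁) (s := s) i; positivity)
      (fun i => le_rfl) (fun i => by
        have := (szh_pos (M := M) (h := h) (d₁ := d₁) (s := s) i).le
        nlinarith) hz h3
    have e : (fun i => B.C * Λ * M.szh h d₁ s i) = fun i => B.C * (Λ * M.szh h d₁ s i) := by
      funext i; ring
    rw [e]; exact h4
  · rw [e1]
    refine (norm_add_le _ _).trans ?_
    have := (θ_CB M hg).trans hn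
    linarith

/-- heights near a segment from `0` to a point of the window -/
theorem win_seg {h : (Ht k →L[ℝ] ℝ) → ℝ} {c₂ κw κ4 s t : ℝ} (hc : 0 < c₂) (hh : M.HB c₂ h)
    (hs : 0 ≤ s) (hκw : 0 ≤ κw) (hκw1 : κw ≤ 1) (ht0 : 0 ≤ t) (ht1 : t ≤ 1)
    (h4 : bΦ M * κ4 ≤ κw / 4 * c₂) (h5 : bΦ M ≤ κw / 4 * c₂ * s) {u x y : Ht k}
    (hu : WinH M h κw s u) (hx : ‖x‖ ≤ κ4 * s) (hy : ‖y - t • u‖ ≤ 1 / 2) :
    WinH M h (κw / 2) s (x + y) := by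
  intro b hb
  have hb1 := one_le_bΦ M
  have hbh := (hh b hb).1
  have hb0 : 0 ≤ h b := by linarith
  have e1 : b (x + y) = b x + (t * b u + b (y - t • u)) := by
    rw [map_add, map_sub, map_smul, smul_eq_mul]; ring
  have e2 : b x ≤ bΦ M * (κ4 * s) :=
    (le_abs_self _).trans ((abs_le_bΦ M hb _).trans (mul_le_mul_of_nonneg_left hx (by linarith)))
  have e3 : b (y - t • u) ≤ bΦ M * (1 / 2) :=
    (le_abs_self _).trans ((abs_le_bΦ M hb _).trans (mul_le_mul_of_nonneg_left hy (by linarith)))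
  have e4 : t * b u ≤ (1 - κw) * s * h b := by
    have h6 := hu b hb
    have h7 : 0 ≤ (1 - κw) * s * h b := mul_nonneg (mul_nonneg (by linarith) hs) hb0
    calc t * b u ≤ t * ((1 - κw) * s * h b) := mul_le_mul_of_nonneg_left h6 ht0
      _ ≤ 1 * ((1 - κw) * s * h b) := mul_le_mul_of_nonneg_right ht1 h7
      _ = _ := one_mul _
  have e5 : bΦ M * (κ4 * s) ≤ κw / 4 * c₂ * s := by
    rw [← mul_assoc]
    exact mul_le_mul_of_nonneg_right h4 hs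
  have e6 : κw / 4 * c₂ * s ≤ κw / 4 * h b * s :=
    mul_le_mul_of_nonneg_right (mul_le_mul_of_nonneg_left hbh (by linarith)) hs
  rw [e1]
  nlinarith

/-- **net of end frames**: finitely many Cartan paths inside the window, ending near every height of
the window. -/
theorem exists_net_frames (B : M.NatBox) : ∃ C : ℝ, 1 ≤ C ∧ ∀ (c₂ κw κ₅ : ℝ), 0 < c₂ → 0 < κw →
    κw ≤ 1 → 0 < κ₅ → ∃ (n : ℕ) (A : ℝ), 0 < A ∧ ∀ (d₁ κS κ4 Λ : ℝ), 0 < d₁ →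
    0 ≤ κS → C * κS < κw / 2 * c₂ → 1 ≤ Λ → 0 ≤ κ4 → κ4 ≤ A → bΦ M * κ4 ≤ κw / 4 * c₂ →
    ∀ᶠ s : ℝ in atTop, ∀ h : (Ht k →L[ℝ] ℝ) → ℝ, M.HB c₂ h →
      ∃ (nn : ℕ) (q : Fin n → ℕ → S), (nn : ℝ) ≤ A * s ∧ (∀ i, q i 0 = 1) ∧
        (∀ i, ∀ j < nn, (q i j)⁻¹ * q i (j + 1) ∈ M.CB 1) ∧ (∀ i, q i nn ∈ M.CB nn) ∧
        (∀ z : S, np M z ∈ B.Bx (fun i => Λ * M.szh h d₁ s i) → ‖M.θ z‖ ≤ κ4 * s →
          ∀ i, ∀ j ≤ nn, z * q i j ∈ M.In (κS * s)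
            (B.DboxH h (B.C * (B.C * Λ)) d₁ (κw / 4) s)) ∧
        ∀ w : Ht k, WinH M h κw s w → ‖w‖ ≤ A * s ∧ ∃ i, ‖w - M.θ (q i nn)‖ ≤ κ₅ * s := by
  obtain ⟨C, hC, hpos⟩ := exists_posCB B
  refine ⟨C, hC, ?_⟩
  intro c₂ κw κ₅ hc₂ hκw hκw1 hκ₅
  obtain ⟨Cw, hCw, hwin⟩ := exists_win_bdd M hc₂
  obtain ⟨n, hn⟩ := exists_net k Cw (κ₅ / 2) (by linarith)
  refine ⟨n, 2 * Cw + 1, by linarith, ?_⟩
  intro d₁ κS κ4 Λ hd hκS hlt hΛ hκ4 hκ4A h4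
  have hκc : 0 < κw / 4 * c₂ := by positivity
  filter_upwards [hpos c₂ d₁ (κw / 2) κS (2 * Cw + 1) Λ hc₂ hd (by linarith) hκS hlt hΛ,
    eventually_ge_atTop (1 : ℝ), eventually_ge_atTop (bΦ M / (κw / 4 * c₂)),
    eventually_ge_atTop (1 / κ₅)] with s h1 hs h5 h6 h hh
  rw [div_le_iff₀ hκc, mul_comm s] at h5
  rw [div_le_iff₀ hκ₅] at h6
  have hs0 : 0 < s := by linarith
  have hW0 : WinH M h κw s 0 := by
    intro b hb
    rw [map_zero]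
    have := (hh b hb).1
    exact mul_nonneg (mul_nonneg (by linarith) hs0.le) (by linarith)
  have hbd : ∀ w ∈ {w : Ht k | WinH M h κw s w}, ‖w‖ ≤ Cw * s := fun w hw =>
    hwin h hh κw s hκw.le hκw1 hs0.le w hw
  obtain ⟨u, hu, hcov⟩ := hn s hs0 {w | WinH M h κw s w} hbd ⟨0, hW0⟩
  set nn : ℕ := ⌈2 * Cw * s⌉₊ with hnn
  have hnn1 : 2 * Cw * s ≤ nn := Nat.le_ceil _
  have hnn2 : (nn : ℝ) ≤ (2 * Cw + 1) * s := by
    have := (Nat.ceil_lt_add_one (show 0 ≤ 2 * Cw * s by positivity)).le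
    rw [← hnn] at this
    linarith
  have hnn0 : (0 : ℝ) < nn := lt_of_lt_of_le (by positivity) hnn1
  have hpath := fun i => exists_path M (u i) (n := nn) (by
    have := hbd _ (hu i)
    linarith)
  choose q q0 qs qC qθ using hpath
  refine ⟨nn, q, hnn2, q0, qs, fun i => qC i nn, ?_, ?_⟩
  · intro z hz hθ i j hj
    have h7 : WinH M h (κw / 2) s (M.θ z + M.θ (q i j)) := by
      refine win_seg hc₂ hh hs0.le hκw.le hκw1 (t := (j : ℝ) / nn) (by positivity) ?_ h4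
        h5 (hu i) hθ (qθ i j hj)
      rw [div_le_one hnn0]
      exact_mod_cast hj
    have h8 := h1 h hh z hz (hθ.trans (mul_le_mul_of_nonneg_right hκ4A hs0.le)) j
      ((Nat.cast_le.2 hj).trans hnn2) (q i j) (qC i j) h7
    have e : κw / 2 / 2 = κw / 4 := by ring
    rwa [e] at h8
  · intro w hw
    refine ⟨(hbd w hw).trans (mul_le_mul_of_nonneg_right (by linarith) hs0.le), ?_⟩
    obtain ⟨i, hi⟩ := hcov w hw
    refine ⟨i, ?_⟩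
    have h9 := qθ i nn le_rfl
    rw [div_self hnn0.ne', one_smul] at h9
    have e : w - M.θ (q i nn) = (w - u i) - (M.θ (q i nn) - u i) := by abel
    rw [e]
    refine (norm_sub_le _ _).trans ?_
    linarith

end Vale.Agent.P188.Z1.RModel.F6

end

section

/-!
# P188, FLAT in the model, part 13: NOFOLD for one pair of labels, at every large scale
-/

set_option linter.all false

open MeasureTheory Set Filter
open Vale.Agent.P188.H530 (hgt)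
open Vale.Agent.P188.H616 (Coord Sec Phi slide StrAt nofold_fill Up3)
open Vale.Agent.P188.H329 (InP prS Rel win Reach fillQ)

namespace Vale.Agent.P188.Z1.RModel.F6

variable {S : Type} [Group S] [MeasurableSpace S] {Γ : Type} [Group Γ]
  {V : Type} [AddCommGroup V] [Module ℝ V] {k : ℕ} {M : RModel S Γ V k}

/-- the data of a frame and a direction -/
structure Frm (M : RModel S Γ V k) (h : (Ht k →L[ℝ] ℝ) → ℝ) (c₂ κ' κp κm Y A Vb s : ℝ) (nv : ℕ)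
    (i : M.ι) (u : Ht k) (v : Fin k → ℤ) (m : ℕ) (g : S) : Prop where
  wt_ne : M.wt i ≠ 0
  fct : Fct M h c₂ (M.wt i) u
  τ_mem : M.τ v ∈ M.CB nv
  pos : 0 < M.wt i (ht v)
  m_lo : (κ' - 2 * κp) * s * h (M.wt i) - Vb ≤ m * M.wt i (ht v)
  m_hi : m * M.wt i (ht v) ≤ (κ' - 2 * κp) * s * h (M.wt i)
  m_Y : m * ‖(ht v : Ht k)‖ ≤ κ' * Y * s
  m_A : ((m * nv : ℕ) : ℝ) ≤ A * s
  m_j : ∀ j, M.wt j ≠ 0 → κm * s ≤ m * |M.wt j (ht v)|
  g_mem : ∃ n : ℕ, (n : ℝ) ≤ A * s ∧ g ∈ M.CB n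
  g_θ : ‖M.θ g - ((1 - κ') * s) • u‖ ≤ 1 / 2

theorem Frm.mem_Φ {h : (Ht k →L[ℝ] ℝ) → ℝ} {c₂ κ' κp κm Y A Vb s : ℝ} {nv : ℕ}
    {i : M.ι} {u : Ht k} {v : Fin k → ℤ} {m : ℕ} {g : S}
    (hF : Frm M h c₂ κ' κp κm Y A Vb s nv i u v m g) : M.wt i ∈ M.Φ := by
  rcases wt_cases M i with h0 | h0
  · exact absurd h0 hF.wt_ne
  · exact h0.1

/-- positions at a frame -/
theorem ev_frm {c₂ κ' κp κm κ4 Y A Vb : ℝ} (nv : ℕ) (hc : 0 < c₂) (hκ0 : 0 < κ') (hκ' : κ' ≤ 1 / 2)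
    (hκp : 0 < κp) (hκp' : 2 * κp ≤ κ') (h4 : 0 < κ4) (h6 : bΦ M * (2 * κ4) ≤ κp * c₂)
    (hY : bΦ M * (2 * κ4 + κ' * Y) ≤ c₂ / 2) (hA : κ4 ≤ A) :
    ∀ᶠ s : ℝ in atTop, ∀ h : (Ht k →L[ℝ] ℝ) → ℝ, M.HGood c₂ h → ∀ i u v m g,
      Frm M h c₂ κ' κp κm Y A Vb s nv i u v m g → ∀ z : S, ‖M.θ (z * g⁻¹)‖ ≤ κ4 * s →
      ‖M.θ z - ((1 - κ') * s) • u‖ ≤ 2 * κ4 * s ∧
      ‖M.θ z‖ ≤ (M.C0 * (2 + A) + 2 * A) * s ∧
      WinH M h (κ' / 2) s (M.θ z) ∧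
      (∀ y : Ht k, ‖y‖ ≤ κ' * Y * s → M.wt i y ≤ (κ' - 2 * κp) * s * h (M.wt i) →
        WinH M h κp s (M.θ z + y)) ∧
      ∃ n : ℕ, (n : ℝ) ≤ (M.C0 * (2 + A) + 2 * A) * s ∧ M.sec (z * g⁻¹) * g ∈ M.CB n ∧
        M.sec (z * g⁻¹) * g * M.τ v ^ m ∈ M.CB n := by
  have hC0 := M.C0_pos
  have hC1 := M.one_le_C0
  filter_upwards [ev_linB (1 / 2) h4, eventually_ge_atTop (1 : ℝ)] with s h1 hs h hg i u v m g hF z hz
  have hs0 : 0 ≤ s := by linarith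
  have hA0 : 0 ≤ A := by linarith
  obtain ⟨ng, hng, hgm⟩ := hF.g_mem
  have e0 : M.θ z = M.θ (z * g⁻¹) + M.θ g := by
    rw [← M.θ_mul, inv_mul_cancel_right]
  have e1 : ‖M.θ z - ((1 - κ') * s) • u‖ ≤ 2 * κ4 * s := by
    have : M.θ z - ((1 - κ') * s) • u = M.θ (z * g⁻¹) + (M.θ g - ((1 - κ') * s) • u) := by
      rw [e0]; abel
    rw [this]
    refine (norm_add_le _ _).trans ?_
    have := hF.g_θ
    linarith
  have hm0 : (0 : ℝ) ≤ m := Nat.cast_nonneg m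
  have hCA : 0 ≤ M.C0 * (2 + A) * s := by positivity
  refine ⟨e1, ?_, ?_, ?_, ?_⟩
  · rw [e0]
    refine (norm_add_le _ _).trans ?_
    have h2 := (θ_CB M hgm).trans hng
    have h3 : κ4 * s ≤ A * s := mul_le_mul_of_nonneg_right hA hs0
    nlinarith
  · refine hF.fct.way hg hc hF.mem_Φ (κ' := κ') (κ6 := 2 * κ4) hs0 (by linarith) hκ0 zero_le_one
      le_rfl ?_ ?_
    · refine h6.trans ?_
      exact mul_le_mul_of_nonneg_right (by linarith) hc.le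
    · rw [one_mul]; exact e1
  · intro y hy1 hy2
    exact hF.fct.win hg hc hF.mem_Φ hs0 hκ' hκp (by linarith) h6 hY e1 hy1 hy2
  · have h2 : M.sec (z * g⁻¹) ∈ M.CB ⌈M.C0 * (1 + κ4 * s)⌉₊ := by
      refine sec_mem_CB M _ (le_trans ?_ (Nat.le_ceil _))
      exact mul_le_mul_of_nonneg_left (by linarith) hC0.le
    have h3 : (⌈M.C0 * (1 + κ4 * s)⌉₊ : ℝ) ≤ M.C0 * (2 + A) * s := by
      refine (Nat.ceil_lt_add_one (by positivity)).le.trans ?_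
      have e2 : M.C0 * (κ4 * s) ≤ M.C0 * (A * s) :=
        mul_le_mul_of_nonneg_left (mul_le_mul_of_nonneg_right hA hs0) hC0.le
      have e3 : M.C0 * 1 ≤ M.C0 * s := mul_le_mul_of_nonneg_left hs hC0.le
      nlinarith
    have h5 := M.CB_mul h2 hgm
    have h7 := M.CB_mul h5 (M.CB_pow hF.τ_mem m)
    have hmA := hF.m_A
    push_cast at hmA
    refine ⟨⌈M.C0 * (1 + κ4 * s)⌉₊ + ng + m * nv, ?_, M.CB_mono (by omega) h5, h7⟩
    push_cast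
    linarith

end Vale.Agent.P188.Z1.RModel.F6

end

section

/-!
# P188, FLATG in the model, final assembly, part C: frames of the letters
-/

set_option linter.all false

open MeasureTheory Set Filter
open Vale.Agent.P188.H530 (hgt)
open Vale.Agent.P188.H616 (Coord Sec Phi slide Script StrAt badR badL)

namespace Vale.Agent.P188.Z1.RModel.F6

variable {S : Type} [Group S] [MeasurableSpace S] {Γ : Type} [Group Γ]
  {V : Type} [AddCommGroup V] [Module ℝ V] {k : ℕ} {M : RModel S Γ V k}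

/-- **frames of the letters**: paths to the facets -/
theorem exists_letter_frames (B : M.NatBox) : ∃ C : ℝ, 1 ≤ C ∧ ∀ (c₂ κ' κ4 κS Λ d₁ : ℝ), 0 < c₂ →
    0 < κ' → κ' ≤ 1 / 2 → 0 ≤ κ4 → κ4 ≤ 1 → 4 * (bΦ M * κ4) ≤ κ' * c₂ → 0 < d₁ → 0 ≤ κS →
    C * κS < κ' / 2 * c₂ → 1 ≤ Λ →
    ∀ᶠ s : ℝ in atTop, ∀ h : (Ht k →L[ℝ] ℝ) → ℝ, M.HGood c₂ h →
      ∃ (nn : ℕ) (q : M.ι → ℕ → S), (nn : ℝ) ≤ (2 * c₂⁻¹ + 1) * s ∧ (∀ i, q i 0 = 1) ∧
        (∀ i, ∀ j < nn, (q i j)⁻¹ * q i (j + 1) ∈ M.CB 1) ∧ (∀ i, q i nn ∈ M.CB nn) ∧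
        (∀ i, M.wt i = 0 → ∀ j, q i j = 1) ∧
        (∀ i, M.wt i ≠ 0 → ∃ u : Ht k, Fct M h c₂ (M.wt i) u ∧
          ‖M.θ (q i nn) - ((1 - κ') * s) • u‖ ≤ 1 / 2) ∧
        ∀ z : S, np M z ∈ B.Bx (fun i => Λ * M.szh h d₁ s i) → ‖M.θ z‖ ≤ κ4 * s →
          ∀ i, ∀ j ≤ nn, z * q i j ∈ M.In (κS * s)
            (B.DboxH h (B.C * (B.C * Λ)) d₁ (κ' / 4) s) := by
  classical
  obtain ⟨C, hC, hpos⟩ := exists_posCB B
  refine ⟨C, hC, ?_⟩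
  intro c₂ κ' κ4 κS Λ d₁ hc₂ hκ' hκ'2 hκ4 hκ41 h4 hd hκS hlt hΛ
  have hb1 := one_le_bΦ M
  have hci : 0 < c₂⁻¹ := inv_pos.2 hc₂
  have hx0 : 0 < κ' * c₂ / (4 * bΦ M) := by positivity
  filter_upwards [hpos c₂ d₁ (κ' / 2) κS (2 * c₂⁻¹ + 1) Λ hc₂ hd (by linarith) hκS hlt hΛ,
    eventually_ge_atTop (1 : ℝ), eventually_ge_atTop (1 / (κ' * c₂ / (4 * bΦ M)))]
    with s h1 hs h5 h hh
  rw [div_le_iff₀ hx0] at h5
  have hs0 : 0 < s := by linarith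
  obtain ⟨nn, hnn⟩ : ∃ nn : ℕ, nn = ⌈2 * c₂⁻¹ * s⌉₊ := ⟨_, rfl⟩
  have hnn1 : 2 * c₂⁻¹ * s ≤ nn := by rw [hnn]; exact Nat.le_ceil _
  have hnn2 : (nn : ℝ) ≤ (2 * c₂⁻¹ + 1) * s := by
    have := (Nat.ceil_lt_add_one (show 0 ≤ 2 * c₂⁻¹ * s by positivity)).le
    rw [← hnn] at this
    linarith
  have hnn0 : (0 : ℝ) < nn := lt_of_lt_of_le (by positivity) hnn1
  -- one letter
  have hone : ∀ i : M.ι, ∃ q : ℕ → S, q 0 = 1 ∧ (∀ j < nn, (q j)⁻¹ * q (j + 1) ∈ M.CB 1) ∧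
      (∀ j, q j ∈ M.CB j) ∧ (M.wt i = 0 → ∀ j, q j = 1) ∧
      (M.wt i ≠ 0 → ∃ u : Ht k, Fct M h c₂ (M.wt i) u ∧ ∀ j ≤ nn,
        ‖M.θ (q j) - (((j : ℝ) / nn) * ((1 - κ') * s)) • u‖ ≤ 1 / 2) := by
    intro i
    by_cases hi : M.wt i = 0
    · refine ⟨fun _ => 1, rfl, fun j _ => ?_, fun j => M.one_mem_CB j, fun _ _ => rfl,
        fun h' => absurd hi h'⟩
      rw [inv_one, one_mul]; exact M.one_mem_CB 1
    · have hiΦ : M.wt i ∈ M.Φ := by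
        rcases wt_cases M i with h' | h'
        · exact absurd h' hi
        · exact h'.1
      obtain ⟨u, hu1, hu2, hu3⟩ := hh.facet (M.wt i) hiΦ
      obtain ⟨q, q0, qs, qC, qθ⟩ := exists_path M (((1 - κ') * s) • u) (n := nn) (by
        rw [norm_smul, Real.norm_of_nonneg (mul_nonneg (by linarith) hs0.le)]
        have h7 : (1 - κ') * s * ‖u‖ ≤ s * c₂⁻¹ :=
          mul_le_mul (by nlinarith) hu1 (norm_nonneg _) hs0.le
        linarith)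
      refine ⟨q, q0, qs, qC, fun h' => absurd h' hi, fun _ => ⟨u, ⟨hu1, hu2, hu3⟩, ?_⟩⟩
      intro j hj
      have := qθ j hj
      rwa [smul_smul] at this
  choose q q0 qs qC qz qθ using hone
  refine ⟨nn, q, hnn2, q0, qs, fun i => qC i nn, qz, ?_, ?_⟩
  · intro i hi
    obtain ⟨u, hu, h7⟩ := qθ i hi
    refine ⟨u, hu, ?_⟩
    have := h7 nn le_rfl
    rwa [div_self hnn0.ne', one_mul] at this
  · intro z hz hθ i j hj
    have hA1 : κ4 ≤ 2 * c₂⁻¹ + 1 := by linarith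
    have h7 : WinH M h (κ' / 2) s (M.θ z + M.θ (q i j)) := by
      by_cases hi : M.wt i = 0
      · rw [qz i hi j, M.θ_one, add_zero]
        intro b hb
        have hbh := (hh.bd b hb).1
        have e2 : b (M.θ z) ≤ bΦ M * (κ4 * s) := (le_abs_self _).trans
          ((abs_le_bΦ M hb _).trans (mul_le_mul_of_nonneg_left hθ (by linarith)))
        have e3 : bΦ M * (κ4 * s) ≤ κ' * c₂ / 4 * s := by
          rw [← mul_assoc]
          exact mul_le_mul_of_nonneg_right (by linarith) hs0.le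
        have e4 : κ' * c₂ / 4 * s ≤ (1 - κ' / 2) * s * h b := by
          calc κ' * c₂ / 4 * s ≤ (1 - κ' / 2) * c₂ * s := by
                refine mul_le_mul_of_nonneg_right ?_ hs0.le
                nlinarith
            _ = (1 - κ' / 2) * s * c₂ := by ring
            _ ≤ (1 - κ' / 2) * s * h b :=
                mul_le_mul_of_nonneg_left hbh (mul_nonneg (by linarith) hs0.le)
        linarith
      · have hiΦ : M.wt i ∈ M.Φ := by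
          rcases wt_cases M i with h' | h'
          · exact absurd h' hi
          · exact h'.1
        obtain ⟨u, hu, h8⟩ := qθ i hi
        refine Fct.way hu hh hc₂ hiΦ hs0.le (by linarith) hκ' (t := (j : ℝ) / nn)
          (κ6 := κ4 + κ' * c₂ / (4 * bΦ M)) (by positivity) ?_ ?_ ?_
        · rw [div_le_one hnn0]
          exact_mod_cast hj
        · have e1 : bΦ M * (κ4 + κ' * c₂ / (4 * bΦ M)) = bΦ M * κ4 + κ' * c₂ / 4 := by
            have : bΦ M ≠ 0 := by linarith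
            field_simp
          rw [e1]
          linarith
        · have e1 : M.θ z + M.θ (q i j) - ((j : ℝ) / nn * ((1 - κ') * s)) • u =
              M.θ z + (M.θ (q i j) - ((j : ℝ) / nn * ((1 - κ') * s)) • u) := by abel
          rw [e1]
          refine (norm_add_le _ _).trans ?_
          have h9 := h8 j hj
          rw [add_mul]
          linarith
    have h8 := h1 h hh.bd z hz (hθ.trans (mul_le_mul_of_nonneg_right hA1 hs0.le)) j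
      ((Nat.cast_le.2 hj).trans hnn2) (q i j) (qC i j) h7
    have e : κ' / 2 / 2 = κ' / 4 := by ring
    rwa [e] at h8

end Vale.Agent.P188.Z1.RModel.F6

end

section

/-!
# P188, FLAT in the model, part 14: NOFOLD for one pair of labels, at every large scale (2)
-/

set_option linter.all false

open MeasureTheory Set Filter
open Vale.Agent.P188.H530 (hgt)
open Vale.Agent.P188.H616 (Coord Sec Phi slide StrAt nofold_fill Up3)
open Vale.Agent.P188.H329 (InP prS Rel win Reach fillQ)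

namespace Vale.Agent.P188.Z1.RModel.F6

variable {S : Type} [Group S] [MeasurableSpace S] {Γ : Type} [Group Γ]
  {V : Type} [AddCommGroup V] [Module ℝ V] {k : ℕ} {M : RModel S Γ V k}

/-- positions for the fill letters and for the enlarged set -/
theorem ev_frm2 (B : M.NatBox) : ∃ C : ℝ, 1 ≤ C ∧
    ∀ {c₂ κ' κp κm κ4 κc Y A Vb d₁ Λ2 : ℝ} (nv : ℕ), 0 < c₂ → 0 < κ' → κ' ≤ 1 / 2 →
    0 < κp → 2 * κp ≤ κ' → 0 < κ4 → bΦ M * (2 * κ4) ≤ κp * c₂ →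
    bΦ M * (2 * κ4 + κ' * Y) ≤ c₂ / 2 → κ4 ≤ A → 0 < d₁ → 1 ≤ Λ2 → 0 ≤ κc →
    C * κc < κ' / 2 * c₂ →
    ∀ᶠ s : ℝ in atTop, ∀ h : (Ht k →L[ℝ] ℝ) → ℝ, M.HGood c₂ h → ∀ i u v m g,
      Frm M h c₂ κ' κp κm Y A Vb s nv i u v m g → ∀ z ∈ DF B h Λ2 d₁ κ4 s g,
      (∀ (j : M.ι) (x : ℝ), |x| ≤ 1 → z * M.ex ((Rm M v m j * x) • M.X j) ∈
        DA B h (B.C * (B.C * Λ2)) d₁ s (M.θ g) (κ4 * s)) ∧
      (∀ g' : S, (M.l g' : ℝ) ≤ κc * s → z * g' ∈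
        DA B h (B.C * (B.C * Λ2)) d₁ s (M.θ g) ((κ4 + M.C0 * κc) * s)) := by
  obtain ⟨C₁, hC₁, hco⟩ := exists_cocycle M B
  have hC0 := M.C0_pos
  have hBC := B.one_le
  refine ⟨C₁, hC₁, ?_⟩
  intro c₂ κ' κp κm κ4 κc Y A Vb d₁ Λ2 nv hc hκ0 hκ' hκp hκp' h4 h6 hY hA hd hΛ hκc hCκc
  filter_upwards [ev_frm (Vb := Vb) (κm := κm) nv hc hκ0 hκ' hκp hκp' h4 h6 hY hA,
    ev_DF B hc hd hA hΛ,
    ev_q B hc (A := M.C0 * (2 + A) + 2 * A) hd hκp one_pos,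
    hco c₂ d₁ (κ' / 2) κc (M.C0 * (2 + A) + 2 * A) 1 hc hd (by positivity) hκc hCκc one_pos,
    eventually_ge_atTop (0 : ℝ)] with s f1 f2 f3 f4 hs h hg i u v m g hF z hz
  obtain ⟨a1, a2, a3, a4, -⟩ := f1 h hg i u v m g hF z hz.2
  obtain ⟨ng, hng, hgm⟩ := hF.g_mem
  have b1 := f2 h hg.bd ng hng g hgm z hz
  have e0 : M.θ z - M.θ g = M.θ (z * g⁻¹) := by
    rw [M.θ_mul, M.θ_inv]; abel
  have hm0 : (0 : ℝ) ≤ m := Nat.cast_nonneg m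
  have hszp : ∀ i, 0 < M.szh h d₁ s i := szh_pos
  have hR : ∀ i, 0 ≤ B.C * Λ2 * M.szh h d₁ s i := fun i => by
    have := hszp i
    positivity
  have eR : (fun i => B.C * (B.C * Λ2) * M.szh h d₁ s i) =
      fun i => B.C * (B.C * Λ2 * M.szh h d₁ s i) := by
    funext i; ring
  have hle : ∀ i, 1 * M.szh h d₁ s i ≤ B.C * Λ2 * M.szh h d₁ s i := fun i =>
    mul_le_mul_of_nonneg_right (one_le_mul_of_one_le_of_one_le hBC hΛ) (hszp i).le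
  constructor
  · intro j x hx
    have hw1 : WinH M h κp s (M.θ z + (m : ℝ) • ht v) := by
      refine a4 _ ?_ ?_
      · rw [norm_smul, Real.norm_eq_abs, abs_of_nonneg hm0]
        exact hF.m_Y
      · rw [map_smul, smul_eq_mul]
        exact hF.m_hi
    have hw2 : WinH M h κp s (M.θ z - (m : ℝ) • ht v) := by
      rw [sub_eq_add_neg]
      refine a4 _ ?_ ?_
      · rw [norm_neg, norm_smul, Real.norm_eq_abs, abs_of_nonneg hm0]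
        exact hF.m_Y
      · rw [map_neg, map_smul, smul_eq_mul]
        have h1 : 0 ≤ (m : ℝ) * M.wt i (ht v) := mul_nonneg hm0 hF.pos.le
        have h2 := (hg.bd _ hF.mem_Φ).1
        have h3 : 0 ≤ (κ' - 2 * κp) * s * h (M.wt i) :=
          mul_nonneg (mul_nonneg (by linarith) hs) (by linarith)
        linarith
    have c1 := f3 h hg.bd v m z hw1 hw2 a2 j x hx
    have hη : M.η (z * M.ex ((Rm M v m j * x) • M.X j)) = M.η z := by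
      rw [map_mul, M.η_ex, mul_one]
    refine ⟨?_, ?_⟩
    · have e1 : np M (z * M.ex ((Rm M v m j * x) • M.X j)) =
          np M z * (M.sec z * M.ex ((Rm M v m j * x) • M.X j) * (M.sec z)⁻¹) := by
        unfold np
        rw [sec_congr M hη]
        group
      rw [e1, eR]
      exact Bx_mul B hR (fun i => by have := hszp i; positivity) (fun i => le_rfl) hle b1 c1
    · rw [M.θ_of_η hη, e0]
      exact hz.2
  · intro g' hg'
    have c1 := f4 h hg.bd z a3 a2 g' hg'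
    refine ⟨?_, ?_⟩
    · rw [np_mul, eR]
      exact Bx_mul B hR (fun i => by have := hszp i; positivity) (fun i => le_rfl) hle b1 c1
    · have e1 : M.θ (z * g') - M.θ g = M.θ (z * g⁻¹) + M.θ g' := by
        rw [← e0, M.θ_mul]; abel
      rw [e1]
      refine (norm_add_le _ _).trans ?_
      have h1 := (M.θ_le g').trans (mul_le_mul_of_nonneg_left hg' hC0.le)
      have h2 := hz.2
      linarith

/-- the measure of the enlarged set -/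
theorem DA_le' (B : M.NatBox) {Λ2 : ℝ} (hΛ : 1 ≤ Λ2) : ∃ C' : ℝ, 0 ≤ C' ∧
    ∀ (h : (Ht k →L[ℝ] ℝ) → ℝ) (d₁ s κ4 : ℝ) (g : S) (a : Ht k) (R : ℝ), 0 ≤ κ4 * s →
      M.μ (DA B h (B.C * (B.C * Λ2)) d₁ s a R) ≤
        ((⌈C' * (2 * |R| + 1) ^ k⌉₊ : ℕ) : ENNReal) * M.μ (DF B h Λ2 d₁ κ4 s g) := by
  obtain ⟨C', hC'⟩ := B.dbl (B.C * B.C) (one_le_mul_of_one_le_of_one_le B.one_le B.one_le)
  refine ⟨|C'|, abs_nonneg _, fun h d₁ s κ4 g a R hs => ?_⟩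
  have h1 : M.μ (B.Bx (fun i => B.C * (B.C * Λ2) * M.szh h d₁ s i)) ≤
      ENNReal.ofReal |C'| * M.μ (B.Bx (fun i => Λ2 * M.szh h d₁ s i)) := by
    have h2 := hC' (fun i => Λ2 * M.szh h d₁ s i) fun i => by
      have := szh_pos (M := M) (h := h) (d₁ := d₁) (s := s) i
      positivity
    have e : (fun i => B.C * (B.C * Λ2) * M.szh h d₁ s i) =
        fun i => B.C * B.C * (Λ2 * M.szh h d₁ s i) := by
      funext i; ring
    rw [e]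
    refine h2.trans ?_
    gcongr
    exact le_abs_self _
  exact (DA_le B h1 (abs_nonneg _) a R).trans (mul_le_mul_right (DF_ge B hs) _)

end Vale.Agent.P188.Z1.RModel.F6

end

section

/-!
# P188, FLATG in the model, final assembly, part D: one scale, with the script
-/

set_option linter.all false

open MeasureTheory Set Filter
open Vale.Agent.P188.H530 (hgt)
open Vale.Agent.P188.H616 (Coord Sec Phi slide Script StrAt badR badL)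

namespace Vale.Agent.P188.Z1.RModel.F6

variable {S : Type} [Group S] [MeasurableSpace S] {Γ : Type} [Group Γ]
  {V : Type} [AddCommGroup V] [Module ℝ V] {k : ℕ} {M : RModel S Γ V k}

theorem DF_one (B : M.NatBox) (h : (Ht k →L[ℝ] ℝ) → ℝ) (δ d₁ κ4 s : ℝ) :
    DF B h δ d₁ κ4 s 1 = B.DsmH h δ d₁ κ4 s := by
  ext z
  unfold DF NatBox.DsmH np
  rw [mem_setOf_eq, mem_setOf_eq, inv_one, mul_one]

/-- the constant `Λ₁` of the positions -/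
noncomputable def L1 (B : M.NatBox) : ℝ := B.C ^ (B.m + 1)

theorem one_le_L1 (B : M.NatBox) : 1 ≤ L1 B := one_le_pow₀ B.one_le

/-- **One scale**: from straightness at the scale `s`, the frames and the net. -/
theorem flat_one (B : M.NatBox) {K : ℝ} {F F' : Γ → Γ} (hQ : M.QIm K F F') {Λ : Type} [Fintype Λ]
    [MeasurableSpace Λ] [MeasurableSingletonClass Λ] {σ : S → Λ} (hσ : Measurable σ)
    {T : Λ → Ht k →L[ℝ] Ht k} {L : ℝ} (hL0 : 0 ≤ L) (hL : ∀ a, ‖T a‖ ≤ L) {D : Set S}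
    {A ε₀ κS dm s : ℝ} (hSt : StrSc M σ T (M.f F) D A ε₀ κS dm s) {h : (Ht k →L[ℝ] ℝ) → ℝ}
    {d₁ κ4 δ η θ ε CV : ℝ} (hs : 0 ≤ s) (hδ0 : 0 < δ) (hδ : δ ≤ 1) (hη0 : 0 ≤ η) (hε₀η : ε₀ ≤ η)
    (hε₀θ : ε₀ ≤ θ) (hκ4 : 0 ≤ κ4) (hε0 : 0 ≤ ε) (hθ0 : 0 ≤ θ) (hCV : 0 ≤ CV)
    {ql : M.ι → ℕ → S} {nl : ℕ} (hnl : (nl : ℝ) ≤ A * s) (hl0 : ∀ i, ql i 0 = 1)
    (hls : ∀ i, ∀ j < nl, (ql i j)⁻¹ * ql i (j + 1) ∈ M.CB 1)
    (hg0 : ∀ i, M.wt i = 0 → ql i nl = 1)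
    (hlpos : ∀ z, np M z ∈ B.Bx (fun i => B.C * (B.C * L1 B) * M.szh h d₁ s i) →
        ‖M.θ z‖ ≤ κ4 * s → ∀ i, ∀ j ≤ nl, z * ql i j ∈ M.In (κS * s) D)
    (hAd : ∀ i, M.wt i = 0 → ∀ x : ℝ, |x| ≤ B.C * M.szh h d₁ s i → ∀ z, ‖M.θ z‖ ≤ κ4 * s →
      M.nm (M.Ad (M.sec z)⁻¹ (x • M.X i)) ≤ Real.exp (dm * s))
    (hNF : ∀ i, M.wt i ≠ 0 → ∀ x : ℝ, |x| ≤ B.C * M.szh h d₁ s i →
      M.μ (DF B h (B.C * L1 B) d₁ κ4 s (ql i nl) ∩
        badL σ (M.f F) (slide M.sec (M.ex (x • M.X i)) (ql i nl)) (η * s)) ≤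
          ENNReal.ofReal θ * M.μ D)
    {n nn : ℕ} {q : Fin n → ℕ → S} (hnn : (nn : ℝ) ≤ A * s) (hq0 : ∀ i, q i 0 = 1)
    (hqs : ∀ i, ∀ j < nn, (q i j)⁻¹ * q i (j + 1) ∈ M.CB 1)
    (hqpos : ∀ z, np M z ∈ B.Bx (fun i => B.C * L1 B * M.szh h d₁ s i) →
      ‖M.θ z‖ ≤ κ4 * s → ∀ i, ∀ j ≤ nn, z * q i j ∈ M.In (κS * s) D)
    {G : Set S} {κr : ℝ}
    (hG : ∀ z, np M z ∈ B.Bx (fun i => δ * M.szh h d₁ s i) → ‖M.θ z‖ ≤ κ4 * s → ∀ x ∈ G,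
      ∃ i, ∃ e' r : S, M.η e' = 1 ∧ (M.l r : ℝ) ≤ κr ∧
      x = e' * M.sec z * q i nn * r ∧ e' ∈ B.Bx (fun i => δ * M.szh h d₁ s i))
    (hfol : ∀ x ∈ B.Bx (fun i => δ * M.szh h d₁ s i), ∀ y ∈ B.Bx (fun i => δ * M.szh h d₁ s i),
      M.μ {v | v ∈ B.Bx (M.szh h d₁ s) ∧ x * v * y ∉ B.Bx (M.szh h d₁ s)} ≤
        ENNReal.ofReal (ε / 2) * M.μ (B.Bx (M.szh h d₁ s)))
    (hvol : M.μ D ≤ ENNReal.ofReal CV * M.μ (B.DsmH h δ d₁ κ4 s))
    (hθ : n * ((3 * B.m + 1 : ℕ) * θ * CV) ≤ ε / 2) :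
    ∃ a : Λ, ∃ c : Ht k, ∀ x ∈ G, M.μ {v | v ∈ B.Bx (M.szh h d₁ s) ∧
      (3 * B.m + 1 : ℕ) * (η * s) + M.lnLf K * κr + L * (M.C0 * κr) <
        ‖M.f F (v * x) - c - T a (M.θ x)‖} ≤ ENNReal.ofReal ε * M.μ (B.Bx (M.szh h d₁ s)) := by
  classical
  have hBC := B.one_le
  have hΛ₁ : (1 : ℝ) ≤ L1 B := one_le_L1 B
  have Sc := script' hSt B (h := h) (d₁ := d₁) (κ4 := κ4) (δ := δ) (Λ₁ := L1 B) (η := η)
    (e := ENNReal.ofReal θ * M.μ D) hs hδ0.le (hδ.trans hΛ₁) hΛ₁ hε₀η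
    (mul_le_mul_left (ENNReal.ofReal_le_ofReal hε₀θ) _) hnl hl0 hls hg0 hlpos hAd hNF
  have hD0 : M.μ (DF B h δ d₁ κ4 s 1) ≠ 0 := by
    have h1 := DF_ge B (h := h) (Λ := δ) (d₁ := d₁) (κ4 := κ4) (s := s) (g := 1)
      (mul_nonneg hκ4 hs)
    have h2 := B.pos (fun i => δ * M.szh h d₁ s i) fun i => mul_pos hδ0 (szh_pos (M := M) i)
    exact fun h0 => h2 (le_antisymm (h1.trans h0.le) bot_le)
  have hgo : ∀ i, M.μ (DF B h (B.C * L1 B) d₁ κ4 s 1 ∩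
      badR σ (M.f F) (Ta T) M.θ (q i nn) (η * s)) ≤ ENNReal.ofReal θ * M.μ D := by
    intro i
    have h1 := hSt.go hnn (hq0 i) (hqs i) (Dm := DF B h (B.C * L1 B) d₁ κ4 s 1) (by
      rintro z ⟨h1, h2⟩ j hj
      rw [inv_one, mul_one] at h1 h2
      exact hqpos z h1 h2 i j hj)
    refine le_trans (measure_mono (inter_subset_inter_right _ (badR_mono σ (M.f F) _ _ _
      (mul_le_mul_of_nonneg_right hε₀η hs)))) (h1.trans ?_)
    exact mul_le_mul_left (ENNReal.ofReal_le_ofReal hε₀θ) _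
  have hus : ∀ u ∈ B.Bx (M.szh h d₁ s), ∃ us : List (M.ι × S), us.length ≤ B.m ∧
      (∀ q ∈ us, q.2 ∈ LtS B h d₁ s q.1) ∧
      Script.Pre (B.Bx fun i => L1 B * M.szh h d₁ s i) 1 us ∧
      (us.map Prod.snd).prod = u := fun u hu =>
    exists_us B (fun i => (szh_pos (M := M) i).le) hu
  have hε : (3 * B.m + 1 : ℕ) * (ENNReal.ofReal θ * M.μ D) ≤
      ENNReal.ofReal ((3 * B.m + 1 : ℕ) * θ * CV) * M.μ (DF B h δ d₁ κ4 s 1) := by
    rw [DF_one]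
    calc ((3 * B.m + 1 : ℕ) : ENNReal) * (ENNReal.ofReal θ * M.μ D)
        ≤ ((3 * B.m + 1 : ℕ) : ENNReal) * (ENNReal.ofReal θ *
          (ENNReal.ofReal CV * M.μ (B.DsmH h δ d₁ κ4 s))) := by gcongr
      _ = ENNReal.ofReal ((3 * B.m + 1 : ℕ) * θ * CV) * M.μ (B.DsmH h δ d₁ κ4 s) := by
          rw [ENNReal.ofReal_mul (mul_nonneg (Nat.cast_nonneg _) hθ0),
            ENNReal.ofReal_mul (Nat.cast_nonneg _), ENNReal.ofReal_natCast]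
          ring
  obtain ⟨a, c, hac⟩ := flat_at B hσ (M.measurable_f F) (η := η) (s := s) Sc (by
      rintro z ⟨h1, _⟩
      rwa [inv_one, mul_one] at h1) (DF_meas B) hD0 (DF_ne_top B) hη0 hs hδ0.le hus hgo hε (nuK M)
    (nuK_preimage M) (nuK_inv M)
    (M.lnLf_nonneg hQ.K_nonneg) (fun z g => hQ.ln_lip z g) hL hL0 (G := G) (κr := κr) (by
      rintro z ⟨h1, h2⟩ x hx
      rw [inv_one, mul_one] at h1 h2
      exact hG z h1 h2 x hx) hfol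
  refine ⟨a, c, fun x hx => (hac x hx).trans ?_⟩
  have hT0 : 0 ≤ (3 * B.m + 1 : ℕ) * θ * CV :=
    mul_nonneg (mul_nonneg (Nat.cast_nonneg _) hθ0) hCV
  calc (n : ENNReal) * ENNReal.ofReal ((3 * B.m + 1 : ℕ) * θ * CV) * M.μ (B.Bx (M.szh h d₁ s)) +
        ENNReal.ofReal (ε / 2) * M.μ (B.Bx (M.szh h d₁ s))
      = ENNReal.ofReal (n * ((3 * B.m + 1 : ℕ) * θ * CV) + ε / 2) *
        M.μ (B.Bx (M.szh h d₁ s)) := by
        rw [ENNReal.ofReal_add (mul_nonneg (Nat.cast_nonneg _) hT0) (by linarith),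
          ENNReal.ofReal_mul (Nat.cast_nonneg n), ENNReal.ofReal_natCast, add_mul]
    _ ≤ ENNReal.ofReal ε * M.μ (B.Bx (M.szh h d₁ s)) := by
        gcongr
        linarith

end Vale.Agent.P188.Z1.RModel.F6

end

section

/-!
# P188, FLAT in the model, part 15: NOFOLD for one pair of labels, at every large scale (3)
-/

set_option linter.all false

open MeasureTheory Set Filter
open Vale.Agent.P188.H530 (hgt)
open Vale.Agent.P188.H616 (Coord Sec Phi slide StrAt nofold_fill Up3)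
open Vale.Agent.P188.H329 (InP prS Rel win Reach fillQ)

namespace Vale.Agent.P188.Z1.RModel.F6

variable {S : Type} [Group S] [MeasurableSpace S] {Γ : Type} [Group Γ]
  {V : Type} [AddCommGroup V] [Module ℝ V] {k : ℕ} {M : RModel S Γ V k}

/-- FILL for the merging letters -/
theorem exists_fillC (M : RModel S Γ V k) (c : ℕ) : ∃ (n K : ℕ), 1 ≤ K ∧
    ∀ θ' : ℝ, 0 < θ' → θ' ≤ 1 → ∀ (R : M.ι → ℝ) (CI : ℝ), 0 ≤ CI →
      FillC M R n (ENNReal.ofReal θ') c CI ⌊((K : ℝ) * (1 + CI) / θ') ^ K⌋₊ := by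
  obtain ⟨n, hn⟩ := fillQ M.ι M.cls
  obtain ⟨K, hK, hK2⟩ := hn c
  refine ⟨n + n, K, hK, fun θ' h1 h2 R CI hCI G hG hwin z0 => ?_⟩
  have hm : ∀ i, Measurable fun q : S × ℝ => q.1 * M.ex ((R i * q.2) • M.X i) := by
    intro i
    have h3 := M.ex_meas (R i • M.X i)
    have e : (fun q : S × ℝ => q.1 * M.ex ((R i * q.2) • M.X i)) =
        fun q : S × ℝ => q.1 * M.ex (q.2 • R i • M.X i) := by
      funext q
      rw [smul_smul, mul_comm q.2]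
    rw [e]; exact h3
  obtain ⟨T, hT1, hT2, hT3⟩ := hK2 θ' h1 h2 CI hCI S _ (M.rel R) hm G hG hwin z0
  exact ⟨T, Nat.le_floor hT1, hT3⟩

/-- merging at the top for the slides -/
theorem ev_slide_top {c₂ κ' κp κm κ4 Y A Vb Λ : ℝ} (nv : ℕ) (hc : 0 < c₂) (hκ0 : 0 < κ')
    (hκ' : κ' ≤ 1 / 2)
    (hκp : 0 < κp) (hκp' : 2 * κp ≤ κ') (h4 : 0 < κ4) (h6 : bΦ M * (2 * κ4) ≤ κp * c₂)
    (hY : bΦ M * (2 * κ4 + κ' * Y) ≤ c₂ / 2) (hA : κ4 ≤ A) (hΛ : 0 < Λ) :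
    ∀ᶠ s : ℝ in atTop, ∀ h : (Ht k →L[ℝ] ℝ) → ℝ, M.HGood c₂ h → ∀ i u v m g,
      Frm M h c₂ κ' κp κm Y A Vb s nv i u v m g → ∀ x : ℝ, |x| ≤ Λ * Real.exp (s * h (M.wt i)) →
      ∀ z : S, ‖M.θ (z * g⁻¹)‖ ≤ κ4 * s →
      (M.l ((z * M.τ v ^ m)⁻¹ * (slide M.sec (M.ex (x • M.X i)) g z * M.τ v ^ m)) : ℝ) ≤
        10 * M.C0 * (κp * (c₂ + c₂⁻¹)) * s := by
  filter_upwards [ev_frm (Vb := Vb) (κm := κm) nv hc hκ0 hκ' hκp hκp' h4 h6 hY hA,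
    ev_top (M := M) (c₂ := c₂) (κ' := κ') (κp := κp) (κ6 := 2 * κ4)
      (A := M.C0 * (2 + A) + 2 * A) (Vb := Vb) hc hκp h6 hΛ] with s f1 f2 h hg i u v m g hF x hx z hz
  obtain ⟨a1, a2, a3, a4, n, hn, hc1, hc2⟩ := f1 h hg i u v m g hF z hz
  have e1 : (z * M.τ v ^ m)⁻¹ * (slide M.sec (M.ex (x • M.X i)) g z * M.τ v ^ m) =
      (M.τ v ^ m)⁻¹ * ((M.sec (z * g⁻¹) * g)⁻¹ * M.ex (x • M.X i) * (M.sec (z * g⁻¹) * g)) *
        M.τ v ^ m := by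
    unfold slide
    group
  rw [e1]
  refine f2 h hg i hF.wt_ne u hF.fct v m hF.m_lo n hn _ hc2 ?_ x hx
  have e2 : M.θ (M.sec (z * g⁻¹) * g) = M.θ z := by
    rw [M.θ_mul, θ_sec, ← M.θ_mul, inv_mul_cancel_right]
  rw [e2]
  exact a1

/-- the cover for the slides -/
theorem ev_slide_cov (B : M.NatBox) : ∃ C : ℝ, 1 ≤ C ∧
    ∀ {c₂ κ' κp κm κ4 κc κ'' Y A Vb Λ : ℝ} (nv : ℕ), 0 < c₂ → 0 < κ' → κ' ≤ 1 / 2 →
    0 < κp → 2 * κp ≤ κ' → 0 < κ4 → bΦ M * (2 * κ4) ≤ κp * c₂ →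
    bΦ M * (2 * κ4 + κ' * Y) ≤ c₂ / 2 → κ4 ≤ A → 0 < Λ → 0 < κ'' →
    2 * κp * c₂⁻¹ + bΦ M * (2 * κ4) < κ'' → 0 ≤ κc → C * κc < κm →
    ∀ᶠ s : ℝ in atTop, ∀ h : (Ht k →L[ℝ] ℝ) → ℝ, M.HGood c₂ h → ∀ i u v m g,
      Frm M h c₂ κ' κp κm Y A Vb s nv i u v m g → ∀ x : ℝ, |x| ≤ Λ * Real.exp (s * h (M.wt i)) →
      ∀ z0 : S, ∃ F : Finset S, (F.card : ℝ) ≤ (2 * |M.C0 * (κc * s)| + 1) ^ k ∧
      ∀ z : S, ‖M.θ (z * g⁻¹)‖ ≤ κ4 * s → (M.l (z0⁻¹ * z) : ℝ) ≤ κc * s →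
      ∃ z1 ∈ F, InP (fun j x => M.ex ((Rm M v m j * x) • M.X j)) B.m
        (B.C ^ 3 * Real.exp (2 * κ'' * s)) z1 (slide M.sec (M.ex (x • M.X i)) g z) := by
  obtain ⟨C, hC, hcov⟩ := ev_cov M B
  refine ⟨C, hC, ?_⟩
  intro c₂ κ' κp κm κ4 κc κ'' Y A Vb Λ nv hc hκ0 hκ' hκp hκp' h4 h6 hY hA hΛ hκ'' hκ''1 hκc hCκ
  filter_upwards [ev_frm (Vb := Vb) (κm := κm) nv hc hκ0 hκ' hκp hκp' h4 h6 hY hA,
    hcov (κ' := κ') (κ6 := 2 * κ4) (A := M.C0 * (2 + A) + 2 * A) (Vb := Vb) hc hκp hκ'' hκ''1 hκc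
      hCκ hΛ] with s f1 f2 h hg i u v m g hF x hx z0
  obtain ⟨F, hF1, hF2⟩ := f2 h hg i hF.wt_ne u hF.fct v m hF.m_lo hF.m_j z0
  refine ⟨F, hF1, fun z hz hl => ?_⟩
  obtain ⟨a1, a2, a3, a4, n, hn, hc1, hc2⟩ := f1 h hg i u v m g hF z hz
  have e2 : M.θ (M.sec (z * g⁻¹) * g) = M.θ z := by
    rw [M.θ_mul, θ_sec, ← M.θ_mul, inv_mul_cancel_right]
  exact hF2 z hl n hn _ hc1 (by rw [e2]; exact a1) x hx

end Vale.Agent.P188.Z1.RModel.F6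

end

section

/-!
# P188, FLATG in the model, final assembly, part E: the cover, the constants
-/

set_option linter.all false

open MeasureTheory Set Filter
open Vale.Agent.P188.H530 (hgt)
open Vale.Agent.P188.H616 (Coord Sec Phi slide Script StrAt badR badL)

namespace Vale.Agent.P188.Z1.RModel.F6

variable {S : Type} [Group S] [MeasurableSpace S] {Γ : Type} [Group Γ]
  {V : Type} [AddCommGroup V] [Module ℝ V] {k : ℕ} {M : RModel S Γ V k}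

theorem In_mono {r : ℝ} {D D' : Set S} (h : D ⊆ D') : M.In r D ⊆ M.In r D' :=
  fun _ hx g hg => h (hx g hg)

theorem DboxH_mono (B : M.NatBox) {h : (Ht k →L[ℝ] ℝ) → ℝ} {c₂ Λ Λ' d₁ κ κ' s : ℝ} (hc : 0 ≤ c₂)
    (hh : M.HB c₂ h) (hs : 0 ≤ s) (hΛ0 : 0 ≤ Λ) (hΛ : Λ ≤ Λ') (hκ : κ' ≤ κ) :
    B.DboxH h Λ d₁ κ s ⊆ B.DboxH h Λ' d₁ κ' s := by
  rintro z ⟨h1, h2⟩
  refine ⟨B.mono _ _ (fun i => ?_) (fun i => ?_) h1, WinH.mono (M := M) hc hh hs hκ h2⟩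
  · have := szh_pos (M := M) (h := h) (d₁ := d₁) (s := s) i
    positivity
  · exact mul_le_mul_of_nonneg_right hΛ (szh_pos (M := M) i).le

theorem DboxH_bdd (B : M.NatBox) {c₂ : ℝ} (hc : 0 < c₂) : ∃ C : ℝ, 0 < C ∧
    ∀ (h : (Ht k →L[ℝ] ℝ) → ℝ), M.HB c₂ h → ∀ (Λ d₁ κ s : ℝ), 0 ≤ κ → κ ≤ 1 → 0 ≤ s →
      ∀ z ∈ B.DboxH h Λ d₁ κ s, ‖M.θ z‖ ≤ C * s := by
  obtain ⟨C, hC, h1⟩ := exists_win_bdd M hc
  exact ⟨C, hC, fun h hh Λ d₁ κ s h0 h1' hs z hz => h1 h hh κ s h0 h1' hs _ hz.2⟩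

/-- the right translations of the slices -/
def GG (M : RModel S Γ V k) (h : (Ht k →L[ℝ] ℝ) → ℝ) (κ A c₁ s : ℝ) : Set S :=
  {x | (M.l x : ℝ) ≤ c₁ * s ∨ ∃ n : ℕ, (n : ℝ) ≤ A * s ∧ x ∈ M.CB n ∧ WinH M h κ s (M.θ x)}

/-- **all right translations of the slices are near frames** -/
theorem exists_cover (B : M.NatBox) : ∃ C : ℝ, 1 ≤ C ∧
    ∀ (c₂ d₁ c₁ δ κ κw κ4 κ₅ A AN : ℝ), 0 < c₂ → 0 < d₁ → 0 ≤ c₁ → C * c₁ < c₂ → 0 < δ → 0 < κ₅ →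
    0 ≤ κw → κw ≤ κ → κw ≤ 1 / 2 → 0 ≤ κ4 → κ4 ≤ κ₅ → 0 ≤ AN → ∀ᶠ s : ℝ in atTop,
      ∀ h : (Ht k →L[ℝ] ℝ) → ℝ, M.HB c₂ h → ∀ (n nn : ℕ) (q : Fin n → ℕ → S),
      (nn : ℝ) ≤ AN * s → (∀ i, q i nn ∈ M.CB nn) →
      (∀ w : Ht k, WinH M h κw s w → ‖w‖ ≤ AN * s ∧ ∃ i, ‖w - M.θ (q i nn)‖ ≤ κ₅ * s) →
      ∀ z : S, ‖M.θ z‖ ≤ κ4 * s → ∀ x ∈ GG M h κ A c₁ s,
        ∃ i, ∃ e' r : S, M.η e' = 1 ∧ (M.l r : ℝ) ≤ C * (κ₅ * s) ∧
          x = e' * M.sec z * q i nn * r ∧ e' ∈ B.Bx (fun i => δ * M.szh h d₁ s i) := by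
  obtain ⟨C₁, hC₁, hfr⟩ := exists_frame (M := M) B
  obtain ⟨C₂, hC₂, hsh⟩ := exists_np_short (M := M) B
  have hC0 := M.C0_pos
  have hb1 := one_le_bΦ M
  have hBC := C_pos B
  refine ⟨2 * C₁ + C₂ + 2 * (bΦ M * M.C0), by nlinarith [mul_pos (by linarith : 0 < bΦ M) hC0], ?_⟩
  intro c₂ d₁ c₁ δ κ κw κ4 κ₅ A AN hc₂ hd hc₁ hC hδ hκ₅ hκw hκwκ hκw2 hκ4 hκ45 hAN
  have hbC : 0 < bΦ M * M.C0 := mul_pos (by linarith) hC0
  have h0 : 0 ≤ C₁ * c₁ := by positivity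
  have h0' : 0 ≤ C₂ * c₁ := by positivity
  have h0'' : 0 ≤ bΦ M * M.C0 * c₁ := by positivity
  have hC1 : C₂ * c₁ < c₂ := by nlinarith
  have hC2 : 2 * (bΦ M * M.C0 * c₁) < c₂ := by nlinarith
  have hδ' : 0 < δ / B.C := by positivity
  filter_upwards [hfr c₂ d₁ (AN + κ4) (2 * κ₅) δ hc₂ hd (by linarith) hδ,
    hsh c₂ d₁ c₁ (δ / B.C) hc₂ hd hc₁ hC1 hδ', ev_np_CB B (d₁ := d₁) hc₂ hd A hδ',
    eventually_ge_atTop (0 : ℝ)] with s h1 h2 h3 hs h hh n nn q hnn hq hcov z hz x hx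
  have hnp : np M x ∈ B.Bx fun i => δ / B.C * M.szh h d₁ s i := by
    rcases hx with hx | ⟨j, hj, hx, -⟩
    · exact h2 h hh x hx
    · exact h3 h hh j hj x hx
  have hw : WinH M h κw s (M.θ x) := by
    rcases hx with hx | ⟨j, hj, hx, hw⟩
    · intro b hb
      have hbh := (hh b hb).1
      have h4 : ‖M.θ x‖ ≤ M.C0 * (c₁ * s) :=
        (M.θ_le x).trans (mul_le_mul_of_nonneg_left hx hC0.le)
      have h5 : b (M.θ x) ≤ bΦ M * (M.C0 * (c₁ * s)) :=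
        (le_abs_self _).trans ((abs_le_bΦ M hb _).trans
          (mul_le_mul_of_nonneg_left h4 (by linarith)))
      have h6 : bΦ M * (M.C0 * (c₁ * s)) ≤ c₂ / 2 * s := by
        have : bΦ M * (M.C0 * (c₁ * s)) = bΦ M * M.C0 * c₁ * s := by ring
        rw [this]
        exact mul_le_mul_of_nonneg_right (by linarith) hs
      have h7 : c₂ / 2 * s ≤ (1 - κw) * s * h b := by
        have e1 : c₂ / 2 * s = (1 / 2 * s) * c₂ := by ring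
        rw [e1]
        exact mul_le_mul (mul_le_mul_of_nonneg_right (by linarith) hs) hbh hc₂.le
          (mul_nonneg (by linarith) hs)
      linarith
    · exact WinH.mono (M := M) hc₂.le hh hs hκwκ hw
  obtain ⟨h8, i, hi⟩ := hcov _ hw
  have hκs : 0 ≤ κ4 * s := mul_nonneg hκ4 hs
  have hANs : 0 ≤ AN * s := mul_nonneg hAN hs
  obtain ⟨e', r, he, hr, hxe, heB⟩ := h1 h hh z x (by linarith [add_mul AN κ4 s])
    (by linarith [add_mul AN κ4 s]) hnp nn (by linarith [add_mul AN κ4 s]) (q i nn) (hq i) (by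
      have e1 : M.θ x - M.θ z - M.θ (q i nn) = (M.θ x - M.θ (q i nn)) - M.θ z := by abel
      rw [e1]
      refine (norm_sub_le _ _).trans ?_
      have := mul_le_mul_of_nonneg_right hκ45 hs
      linarith)
  refine ⟨i, e', r, he, hr.trans ?_, hxe, heB⟩
  have h9 : 0 ≤ κ₅ * s := mul_nonneg hκ₅.le hs
  nlinarith

end Vale.Agent.P188.Z1.RModel.F6

end

section

/-!
# P188, FLAT in the model, part 16: NOFOLD for one pair of labels, at every large scale (4)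
-/

set_option linter.all false

open MeasureTheory Set Filter
open Vale.Agent.P188.H530 (hgt)
open Vale.Agent.P188.H616 (Coord Sec Phi slide StrAt nofold_fill Up3)
open Vale.Agent.P188.H329 (InP prS Rel win Reach fillQ)

namespace Vale.Agent.P188.Z1.RModel.F6

variable {S : Type} [Group S] [MeasurableSpace S] {Γ : Type} [Group Γ]
  {V : Type} [AddCommGroup V] [Module ℝ V] {k : ℕ} {M : RModel S Γ V k}

/-- the constants of NOFOLD: `C` is a large constant -/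
structure NC (M : RModel S Γ V k) (C c₂ κ' κc κm κ'' κp κ4 ε Y A Λ Λ2 : ℝ) : Prop where
  hc : 0 < c₂
  hκ0 : 0 < κ'
  hκ' : κ' ≤ 1 / 2
  hκc0 : 0 < κc
  hκc : C * κc < κ' * c₂
  hκm : C * κc < κm
  hκ''0 : 0 < κ''
  hκ'' : C * κ'' ≤ κc
  hκp0 : 0 < κp
  hκp' : 2 * κp ≤ κ'
  hκp : C * (κp * (c₂ + c₂⁻¹)) ≤ κ''
  hκ40 : 0 < κ4
  hκ4 : C * κ4 ≤ κp * c₂
  hY : bΦ M * (2 * κ4 + κ' * Y) ≤ c₂ / 2
  hA : κ4 ≤ A
  hε0 : 0 < ε
  hε : C * ε ≤ κc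
  hΛ : 0 < Λ
  hΛ2 : 1 ≤ Λ2

theorem NC.aux {C c₂ κ' κc κm κ'' κp κ4 ε Y A Λ Λ2 : ℝ}
    (H : NC M C c₂ κ' κc κm κ'' κp κ4 ε Y A Λ Λ2) {C₁ C₂ : ℝ} (hC₁ : 2 * C₁ ≤ C) (hC₂ : C₂ ≤ C)
    (hb : 2 * bΦ M ≤ C) (h4 : 4 ≤ C) :
    bΦ M * (2 * κ4) ≤ κp * c₂ ∧ C₁ * κc < κ' / 2 * c₂ ∧ C₂ * κc < κm ∧
      2 * κp * c₂⁻¹ + bΦ M * (2 * κ4) < κ'' := by
  have hci : 0 < c₂⁻¹ := inv_pos.2 H.hc
  have e0 := H.hκc0
  have e00 := H.hκp0
  have a1 : 2 * bΦ M * κ4 ≤ C * κ4 := mul_le_mul_of_nonneg_right hb H.hκ40.le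
  have a2 : 2 * C₁ * κc ≤ C * κc := mul_le_mul_of_nonneg_right hC₁ H.hκc0.le
  have a3 : C₂ * κc ≤ C * κc := mul_le_mul_of_nonneg_right hC₂ H.hκc0.le
  have q1 : bΦ M * (2 * κ4) ≤ κp * c₂ := by
    have := H.hκ4
    linarith
  refine ⟨q1, ?_, ?_, ?_⟩
  · have := H.hκc
    linarith
  · have := H.hκm
    linarith
  · have hP : 0 < κp * (c₂ + c₂⁻¹) := mul_pos H.hκp0 (by linarith [H.hc])
    have a4 : 4 * (κp * (c₂ + c₂⁻¹)) ≤ C * (κp * (c₂ + c₂⁻¹)) := mul_le_mul_of_nonneg_right h4 hP.le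
    have a5 : 0 < κp * c₂ := mul_pos H.hκp0 H.hc
    have a6 : 0 < κp * c₂⁻¹ := mul_pos H.hκp0 hci
    have := H.hκp
    linarith

theorem NC.aux2 {C c₂ κ' κc κm κ'' κp κ4 ε Y A Λ Λ2 : ℝ}
    (H : NC M C c₂ κ' κc κm κ'' κp κ4 ε Y A Λ Λ2) {CS n Kf : ℝ} (hCS : 0 < CS) (hn : 0 ≤ n)
    (hKf : 0 ≤ Kf) (h1 : 32 * CS * ((n + 3) * (CS * (10 * M.C0))) ≤ C)
    (h2 : 32 * CS * ((2 * n + 5) * (2 * bΦ M)) ≤ C) (h3 : 32 * CS * Kf ≤ C) (h4 : 4 ≤ C) :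
    (n + 1) * (CS * (10 * M.C0 * (κp * (c₂ + c₂⁻¹))) + 2 * (2 * (bΦ M * ε))) +
      3 * (2 * (bΦ M * ε)) + 2 * CS * (10 * M.C0 * (κp * (c₂ + c₂⁻¹))) ≤ κc / (2 * CS) / 8 ∧
    2 * κ'' * Kf ≤ κc / (2 * CS) / 8 := by
  have hci : 0 < c₂⁻¹ := inv_pos.2 H.hc
  have hκc0 := H.hκc0
  set P : ℝ := κp * (c₂ + c₂⁻¹) with hP
  have hP0 : 0 < P := mul_pos H.hκp0 (by linarith [H.hc])
  have b1 : 4 * κ'' ≤ C * κ'' := mul_le_mul_of_nonneg_right h4 H.hκ''0.le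
  have b2 := H.hκ''
  have b3 := H.hκp
  constructor
  · have e1 : 32 * CS * ((n + 3) * (CS * (10 * M.C0))) * P ≤ κc / 4 :=
      (mul_le_mul_of_nonneg_right h1 hP0.le).trans (by linarith)
    have e2 : 32 * CS * ((2 * n + 5) * (2 * bΦ M)) * ε ≤ κc :=
      (mul_le_mul_of_nonneg_right h2 H.hε0.le).trans H.hε
    rw [div_div, le_div_iff₀ (by positivity)]
    have e4 : ((n + 1) * (CS * (10 * M.C0 * P) + 2 * (2 * (bΦ M * ε))) +
        3 * (2 * (bΦ M * ε)) + 2 * CS * (10 * M.C0 * P)) * (2 * CS * 8) =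
        (32 * CS * ((n + 3) * (CS * (10 * M.C0))) * P +
          32 * CS * ((2 * n + 5) * (2 * bΦ M)) * ε) / 2 := by ring
    rw [e4]
    linarith
  · rw [div_div, le_div_iff₀ (by positivity)]
    have e1 : 32 * CS * Kf * κ'' ≤ κc := (mul_le_mul_of_nonneg_right h3 H.hκ''0.le).trans b2
    have e2 : 2 * κ'' * Kf * (2 * CS * 8) = 32 * CS * Kf * κ'' := by ring
    rw [e2]
    exact e1

theorem one_le_nv {h : (Ht k →L[ℝ] ℝ) → ℝ} {c₂ κ' κp κm Y A Vb s : ℝ} {nv : ℕ}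
    {i : M.ι} {u : Ht k} {v : Fin k → ℤ} {m : ℕ} {g : S}
    (hfr : Frm M h c₂ κ' κp κm Y A Vb s nv i u v m g) : 1 ≤ nv := by
  by_contra h4
  have h4 : nv = 0 := by omega
  have h5 := hfr.τ_mem
  rw [h4] at h5
  have h6 := θ_CB M h5
  rw [θ_τht] at h6
  have h7 : (ht v : Ht k) = 0 := norm_le_zero_iff.1 (by simpa using h6)
  have h8 := hfr.pos
  rw [h7, map_zero] at h8
  exact lt_irrefl _ h8

theorem m_le {h : (Ht k →L[ℝ] ℝ) → ℝ} {c₂ κ' κp κm Y A Vb s : ℝ} {nv : ℕ}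
    {i : M.ι} {u : Ht k} {v : Fin k → ℤ} {m : ℕ} {g : S}
    (hfr : Frm M h c₂ κ' κp κm Y A Vb s nv i u v m g) : (m : ℝ) ≤ A * s := by
  refine le_trans ?_ hfr.m_A
  exact_mod_cast Nat.le_mul_of_pos_right m (one_le_nv hfr)

theorem ev_pair (hS : M.SPREAD) (B : M.NatBox) (K : ℝ) : ∃ C : ℝ, 1 ≤ C ∧
    ∀ {c₂ κ' κc κm κ'' κp κ4 ε Y A Λ Λ2 : ℝ}, NC M C c₂ κ' κc κm κ'' κp κ4 ε Y A Λ Λ2 →
    ∀ (nv : ℕ) (Vb d₁ θ θ' : ℝ), 0 < d₁ → 0 < θ → 0 < θ' → θ' ≤ 1 →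
    ∀ᶠ s : ℝ in atTop, ∀ h : (Ht k →L[ℝ] ℝ) → ℝ, M.HGood c₂ h → ∀ F F' : Γ → Γ, M.QIm K F F' →
      ∀ i u v m g, Frm M h c₂ κ' κp κm Y A Vb s nv i u v m g →
      ∀ x : ℝ, |x| ≤ Λ * Real.exp (s * h (M.wt i)) →
      ∀ {Lb : Type} [Countable Lb] [MeasurableSpace Lb] [MeasurableSingletonClass Lb]
        {σ : S → Lb} (_ : Measurable σ) {T : Lb → Ht k →L[ℝ] Ht k} {s1 s2 : Lb}
        {b : Ht k →L[ℝ] ℝ} (_ : b ∈ M.Φ) (_ : 0 ≤ b (T s1 (ht v))) (_ : b (T s2 (ht v)) ≤ 0),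
      M.μ {z | (z ∈ DF B h Λ2 d₁ κ4 s g ∧ σ z = s2 ∧
            StrAt (M.f F) σ (Tl T) (M.τ v) (ht v) m (ε * s) z) ∧
          (slide M.sec (M.ex (x • M.X i)) g z ∈ DF B h Λ2 d₁ κ4 s g ∧
            σ (slide M.sec (M.ex (x • M.X i)) g z) = s1 ∧
            StrAt (M.f F) σ (Tl T) (M.τ v) (ht v) m (ε * s)
              (slide M.sec (M.ex (x • M.X i)) g z))} ≤
        ENNReal.ofReal θ * M.μ (DF B h Λ2 d₁ κ4 s g) +
          Nat.card M.ι * (ENNReal.ofReal θ' *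
            M.μ (DA B h (B.C * (B.C * Λ2)) d₁ s (M.θ g) (κ4 * s))) := by
  obtain ⟨CS, hCS, hSp⟩ := hS K
  obtain ⟨n, Kf, hKf, hfill⟩ := exists_fillC M B.m
  obtain ⟨C₁, hC₁, hfrm2⟩ := ev_frm2 (M := M) B
  obtain ⟨C₂, hC₂, hcov⟩ := ev_slide_cov (M := M) B
  obtain ⟨Cl, hCl, hlC⟩ := M.l_CB
  have hC0 := M.C0_pos
  have hC01 := M.one_le_C0
  have hb1 := one_le_bΦ M
  have hb0 : 0 < bΦ M := by linarith
  have hCS0 : 0 < CS := by linarith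
  have hn0 : (0 : ℝ) ≤ n := Nat.cast_nonneg n
  have hKf0 : (0 : ℝ) ≤ Kf := Nat.cast_nonneg Kf
  set G₁ : ℝ := 32 * CS * ((n + 3) * (CS * (10 * M.C0))) with hG₁
  set G₂ : ℝ := 32 * CS * ((2 * n + 5) * (2 * bΦ M)) with hG₂
  set G₃ : ℝ := 32 * CS * Kf with hG₃
  have hG₁0 : 0 ≤ G₁ := by rw [hG₁]; positivity
  have hG₂0 : 0 ≤ G₂ := by rw [hG₂]; positivity
  have hG₃0 : 0 ≤ G₃ := by rw [hG₃]; positivity
  refine ⟨2 * C₁ + C₂ + G₁ + G₂ + G₃ + 2 * bΦ M + 4, by linarith, ?_⟩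
  intro c₂ κ' κc κm κ'' κp κ4 ε Y A Λ Λ2 H0 nv Vb d₁ θ θ' hd hθ hθ' hθ'1
  have H := H0
  obtain ⟨hc, hκ0, hκ', hκc0, hκc, hκm, hκ''0, hκ'', hκp0, hκp', hκp, hκ40, hκ4, hY, hA, hε0, hε,
    hΛ, hΛ2⟩ := H
  have hci : 0 < c₂⁻¹ := inv_pos.2 hc
  obtain ⟨q1, q2, q3, q4⟩ := H0.aux (C₁ := C₁) (C₂ := C₂) (by linarith) (by linarith) (by linarith)
    (by linarith)
  obtain ⟨q5, q6⟩ := H0.aux2 (CS := CS) (n := n) (Kf := Kf) hCS0 hn0 hKf0 (by linarith) (by linarith)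
    (by linarith) (by linarith)
  set P : ℝ := κp * (c₂ + c₂⁻¹) with hP
  have hP0 : 0 < P := by positivity
  obtain ⟨C', hC'0, hDA⟩ := DA_le' (M := M) B hΛ2
  filter_upwards [hfrm2 (Vb := Vb) (κm := κm) (d₁ := d₁) nv hc hκ0 hκ' hκp0 hκp' hκ40 q1 hY hA hd
      hΛ2 hκc0.le q2,
    hcov (Vb := Vb) nv hc hκ0 hκ' hκp0 hκp' hκ40 q1 hY hA hΛ hκ''0 q4 hκc0.le q3,
    ev_slide_top (M := M) (Vb := Vb) (κm := κm) nv hc hκ0 hκ' hκp0 hκp' hκ40 q1 hY hA hΛ,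
    ev_merge (M := M) (A := A) (d' := 10 * M.C0 * P) nv (by positivity),
    num_big (C := CS) (d' := 10 * M.C0 * P) (e' := 2 * (bΦ M * ε)) (lt := Cl * nv) (n := n) A
      (show 0 < κc / (2 * CS) by positivity) hCS (by positivity) (by positivity) (by positivity) q5,
    num_spread (κq := κc / (2 * CS)) (C := CS) (a₁ := M.C0 * κc) (a₂ := κ4 + M.C0 * κc)
      (κ'' := κ'') (C₃ := B.C ^ 3) (C' := C') (θ := θ) (θ' := θ') (k := k) (K := Kf)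
      (by positivity) hCS (by positivity) (by positivity) hκ''0.le (by have := C_pos B; positivity)
      hC'0 hθ hθ' q6,
    ev_linB (2 * CS) hκc0, eventually_ge_atTop (0 : ℝ)]
    with s f1 f2 f3 f4 f5 f6 f7 hs h hg F F' hF i u v m g hfr x hx Lb _ _ _ σ hσ T s1 s2 b hb h1 h2
  obtain ⟨X, hX1, hX2⟩ := hSp F F' hF b hb
  have hκ4s : 0 ≤ κ4 * s := by positivity
  set q : ℕ := ⌊κc / (2 * CS) * s⌋₊ with hq
  have hball : CS * ((q : ℝ) + 1) ≤ κc * s := by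
    have e1 : (q : ℝ) ≤ κc / (2 * CS) * s := Nat.floor_le (by positivity)
    have e2 : CS * (q : ℝ) ≤ κc * s / 2 := by
      calc CS * (q : ℝ) ≤ CS * (κc / (2 * CS) * s) := mul_le_mul_of_nonneg_left e1 hCS0.le
        _ = _ := by field_simp
    linarith
  set m' : ℕ := ⌈C' * (2 * |(κ4 + M.C0 * κc) * s| + 1) ^ k⌉₊ with hm'
  have hlt : (M.l (M.τ v) : ℝ) ≤ Cl * nv := hlC _ _ hfr.τ_mem
  refine pair_core (M := M) (F := F) (X := X) (CS := CS) hb hCS hX1 hX2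
    (v := v) (m := m) (n := n)
    (N0 := ⌊((Kf : ℝ) * (1 + B.C ^ 3 * Real.exp (2 * κ'' * s)) / θ') ^ Kf⌋₊)
    (N := ⌊(2 * |M.C0 * κc * s| + 1) ^ k⌋₊ *
      ⌊((Kf : ℝ) * (1 + B.C ^ 3 * Real.exp (2 * κ'' * s)) / θ') ^ Kf⌋₊)
    (p := ⌊(2 * |M.C0 * κc * s| + 1) ^ k⌋₊) (cI := B.m) (q := q)
    (j := ⌊κc / (2 * CS) * s / 2⌋₊) (m' := m')
    (d := 10 * M.C0 * P * s) (lt := Cl * nv) (CI := B.C ^ 3 * Real.exp (2 * κ'' * s))
    (e₁ := ε * s) (θr := θ) (θr' := θ') (M.η_ex _) hlt (by positivity) (by positivity)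
    (f4 v hfr.τ_mem m ?_) (DF_meas B) (DA_meas B _ _) (DF_ne_top B)
    (Dp := DA B h (B.C * (B.C * Λ2)) d₁ s (M.θ g) ((κ4 + M.C0 * κc) * s))
    (hDA h d₁ s κ4 g _ _ hκ4s) ?_ ?_ ?_ (hfill θ' hθ' hθ'1 _ _ (by have := C_pos B; positivity)) ?_
    le_rfl ?_ ?_ hσ h1 h2
  · exact m_le hfr
  · intro z hz g' hg'
    exact (f1 h hg i u v m g hfr z hz).2 g' (hg'.trans hball)
  · intro z hz j x' hx'
    exact (f1 h hg i u v m g hfr z hz).1 j x' hx'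
  · intro z hz
    exact f3 h hg i u v m g hfr x hx z hz.2
  · intro z0
    obtain ⟨Fs, hFs1, hFs2⟩ := f2 h hg i u v m g hfr x hx z0
    refine ⟨Fs, Nat.le_floor ?_, fun z hz hl => hFs2 z hz.2 (hl.trans hball)⟩
    rw [mul_assoc]
    exact hFs1
  · refine f6 _ _ ?_ ?_
    · push_cast
      refine mul_le_mul (Nat.floor_le (by positivity)) (Nat.floor_le ?_) (Nat.cast_nonneg _)
        (by positivity)
      have := C_pos B
      positivity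
    · exact (Nat.ceil_lt_add_one (by positivity)).le
  · have h3 := f5 m (m_le hfr)
    have e1 : 2 * (bΦ M * (ε * s)) = 2 * (bΦ M * ε) * s := by ring
    rw [e1]
    exact h3

end Vale.Agent.P188.Z1.RModel.F6

end

section

/-!
# P188, FLATG in the model, final assembly, part F: all the geometry of one scale
-/

set_option linter.all false

open MeasureTheory Set Filter
open Vale.Agent.P188.H530 (hgt)
open Vale.Agent.P188.H616 (Coord Sec Phi slide Script StrAt badR badL)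

namespace Vale.Agent.P188.Z1.RModel.F6

variable {S : Type} [Group S] [MeasurableSpace S] {Γ : Type} [Group Γ]
  {V : Type} [AddCommGroup V] [Module ℝ V] {k : ℕ} {M : RModel S Γ V k}

/-- the geometry of one scale and one window -/
structure Pk (B : M.NatBox) (c₂ κ A c₁ d₁ κ4 κ' κp κS δ Λ3 AS AT κr : ℝ) (n : ℕ) (D : Set S)
    (h : (Ht k →L[ℝ] ℝ) → ℝ) (s : ℝ) : Prop where
  net : ∃ (nn : ℕ) (q : Fin n → ℕ → S), (nn : ℝ) ≤ AT * s ∧ (∀ i, q i 0 = 1) ∧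
    (∀ i, ∀ j < nn, (q i j)⁻¹ * q i (j + 1) ∈ M.CB 1) ∧
    (∀ z, np M z ∈ B.Bx (fun i => B.C * L1 B * M.szh h d₁ s i) → ‖M.θ z‖ ≤ κ4 * s →
      ∀ i, ∀ j ≤ nn, z * q i j ∈ M.In (κS * s) D) ∧
    ∀ z : S, ‖M.θ z‖ ≤ κ4 * s → ∀ x ∈ GG M h κ A c₁ s,
        ∃ i, ∃ e' r : S, M.η e' = 1 ∧ (M.l r : ℝ) ≤ κr * s ∧
          x = e' * M.sec z * q i nn * r ∧ e' ∈ B.Bx (fun i => δ * M.szh h d₁ s i)
  letters : ∃ (nl : ℕ) (q : M.ι → ℕ → S), (nl : ℝ) ≤ (2 * c₂⁻¹ + 1) * s ∧ (∀ i, q i 0 = 1) ∧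
    (∀ i, ∀ j < nl, (q i j)⁻¹ * q i (j + 1) ∈ M.CB 1) ∧ (∀ i, q i nl ∈ M.CB nl) ∧
    (∀ i, M.wt i = 0 → ∀ j, q i j = 1) ∧
    (∀ i, M.wt i ≠ 0 → ∃ u : Ht k, Fct M h c₂ (M.wt i) u ∧
      ‖M.θ (q i nl) - ((1 - κ') * s) • u‖ ≤ 1 / 2) ∧
    ∀ z, np M z ∈ B.Bx (fun i => B.C * (B.C * L1 B) * M.szh h d₁ s i) → ‖M.θ z‖ ≤ κ4 * s →
      ∀ i, ∀ j ≤ nl, z * q i j ∈ M.In (κS * s) D
  inn : ∀ z : S, np M z ∈ B.Bx (fun i => Λ3 * M.szh h d₁ s i) → WinH M h κp s (M.θ z) →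
    ‖M.θ z‖ ≤ AS * s → z ∈ M.In (κS * s) D

theorem exists_pack (B : M.NatBox) : ∃ C : ℝ, 1 ≤ C ∧ ∀ c₂ κw κ₅ : ℝ, 0 < c₂ → 0 < κw →
    κw ≤ 1 / 2 → 0 < κ₅ → ∃ (n : ℕ) (AN : ℝ), 0 < AN ∧
    ∀ κ A c₁ d₁ κ4 κ' κp κS δ Λ3 AS AT κD ΛD : ℝ, 0 ≤ c₁ → C * c₁ < c₂ → κw ≤ κ → 0 < d₁ →
    0 < κ' → κ' ≤ 1 / 2 → 0 ≤ κ4 → κ4 ≤ 1 → κ4 ≤ AN → κ4 ≤ κ₅ → bΦ M * κ4 ≤ κw / 4 * c₂ →
    4 * (bΦ M * κ4) ≤ κ' * c₂ → 0 < κp → 1 ≤ Λ3 → 0 < δ → 0 ≤ κS → 0 < κD → C * κS < κD * c₂ →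
    κD ≤ κw / 4 → κD ≤ κ' / 4 → κD ≤ κp / 2 → B.C * (B.C * (B.C * (B.C * L1 B))) ≤ ΛD →
    B.C * Λ3 ≤ ΛD → AN ≤ AT → ∀ᶠ s : ℝ in atTop, ∀ h : (Ht k →L[ℝ] ℝ) → ℝ, M.HGood c₂ h →
      Pk B c₂ κ A c₁ d₁ κ4 κ' κp κS δ Λ3 AS AT (C * κ₅) n (B.DboxH h ΛD d₁ κD s) h s := by
  obtain ⟨Cn, hCn, hnet⟩ := exists_net_frames (M := M) B
  obtain ⟨Cl, hCl, hlet⟩ := exists_letter_frames (M := M) B
  obtain ⟨Cc, hCc, hcov⟩ := exists_cover (M := M) B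
  obtain ⟨Ci, hCi, hIn⟩ := exists_In M B
  have hBC := B.one_le
  have hL1 := one_le_L1 B
  have hBC0 : 0 ≤ B.C := by linarith
  refine ⟨Cn + Cl + Cc + Ci, by linarith, ?_⟩
  intro c₂ κw κ₅ hc₂ hκw hκw2 hκ₅
  obtain ⟨n, AN, hAN, hnet⟩ := hnet c₂ κw κ₅ hc₂ hκw (by linarith) hκ₅
  refine ⟨n, AN, hAN, ?_⟩
  intro κ A c₁ d₁ κ4 κ' κp κS δ Λ3 AS AT κD ΛD hc₁ hCc₁ hκwκ hd hκ' hκ'2 hκ4 hκ41 hκ4N hκ45 hb4
    h4' hκp hΛ3 hδ hκS hκD hCκS hDw hD' hDp hΛD hΛD' hAT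
  have hx1 : 0 ≤ Cn * κS := by positivity
  have hx2 : 0 ≤ Cl * κS := by positivity
  have hx3 : 0 ≤ Cc * κS := by positivity
  have hx4 : 0 ≤ Ci * κS := by positivity
  have hy1 : 0 ≤ Cn * c₁ := by positivity
  have hy2 : 0 ≤ Cl * c₁ := by positivity
  have hy3 : 0 ≤ Ci * c₁ := by positivity
  have hw1 : κD * c₂ ≤ κw / 4 * c₂ := mul_le_mul_of_nonneg_right hDw hc₂.le
  have hw2 : κD * c₂ ≤ κ' / 4 * c₂ := mul_le_mul_of_nonneg_right hD' hc₂.le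
  have hw3 : κD * c₂ ≤ κp / 2 * c₂ := mul_le_mul_of_nonneg_right hDp hc₂.le
  have hw4 : 0 < κw * c₂ := by positivity
  have hw5 : 0 < κ' * c₂ := by positivity
  have hw6 : 0 < κp * c₂ := by positivity
  have hL2 : 1 ≤ B.C * L1 B := one_le_mul_of_one_le_of_one_le hBC hL1
  have hL3 : 1 ≤ B.C * (B.C * L1 B) := one_le_mul_of_one_le_of_one_le hBC hL2
  have hL4 : 1 ≤ B.C * (B.C * (B.C * L1 B)) := one_le_mul_of_one_le_of_one_le hBC hL3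
  have hL6 : 1 ≤ B.C * (B.C * (B.C * (B.C * L1 B))) := one_le_mul_of_one_le_of_one_le hBC hL4
  have hL5 : B.C * (B.C * (B.C * L1 B)) ≤ ΛD :=
    (le_mul_of_one_le_left (by linarith) hBC).trans hΛD
  have hL7 : 0 ≤ B.C * Λ3 := mul_nonneg hBC0 (by linarith)
  have hc1 : Cn * κS < κw / 2 * c₂ := by
    rw [add_mul, add_mul, add_mul] at hCκS
    linarith
  have hc2 : Cl * κS < κ' / 2 * c₂ := by
    rw [add_mul, add_mul, add_mul] at hCκS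
    linarith
  have hc3 : Ci * κS < κp * c₂ := by
    rw [add_mul, add_mul, add_mul] at hCκS
    linarith
  have hc4 : Cc * c₁ < c₂ := by
    rw [add_mul, add_mul, add_mul] at hCc₁
    linarith
  filter_upwards [hnet d₁ κS κ4 (B.C * L1 B) hd hκS hc1 hL2 hκ4 hκ4N hb4,
    hlet c₂ κ' κ4 κS (B.C * (B.C * L1 B)) d₁ hc₂ hκ' hκ'2 hκ4 hκ41 h4' hd hκS hc2 hL3,
    hcov c₂ d₁ c₁ δ κ κw κ4 κ₅ A AN hc₂ hd hc₁ hc4 hδ hκ₅ hκw.le hκwκ hκw2 hκ4 hκ45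
      hAN.le,
    hIn c₂ d₁ κp κS AS Λ3 hc₂ hd hκp hκS hc3 hΛ3,
    eventually_ge_atTop (0 : ℝ)] with s h1 h2 h3 h4 hs h hh
  have hbd := hh.bd
  refine ⟨?_, ?_, ?_⟩
  · obtain ⟨nn, q, hnn, q0, qs, qC, qpos, qcov⟩ := h1 h hbd
    refine ⟨nn, q, hnn.trans (mul_le_mul_of_nonneg_right hAT hs), q0, qs, ?_, ?_⟩
    · intro z hz hθ i j hj
      exact In_mono (DboxH_mono B hc₂.le hbd hs (by linarith) hL5 hDw) (qpos z hz hθ i j hj)
    · intro z hz x hx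
      obtain ⟨i, e', r, he, hr, hxe, heB⟩ := h3 h hbd n nn q hnn qC qcov z hz x hx
      refine ⟨i, e', r, he, hr.trans ?_, hxe, heB⟩
      have h9 : 0 ≤ κ₅ * s := mul_nonneg hκ₅.le hs
      have e1 : (Cn + Cl + Cc + Ci) * κ₅ * s = (Cn + Cl + Cc + Ci) * (κ₅ * s) := by ring
      rw [e1]
      exact mul_le_mul_of_nonneg_right (by linarith) h9
  · obtain ⟨nl, q, hnl, q0, qs, qC, qz, qf, qpos⟩ := h2 h hh
    refine ⟨nl, q, hnl, q0, qs, qC, qz, qf, ?_⟩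
    intro z hz hθ i j hj
    exact In_mono (DboxH_mono B hc₂.le hbd hs (by linarith) hΛD hD') (qpos z hz hθ i j hj)
  · intro z hz hw hθ
    exact In_mono (DboxH_mono B hc₂.le hbd hs hL7 hΛD' hDp) (h4 h hbd z hz hw hθ)

end Vale.Agent.P188.Z1.RModel.F6

end

section

/-!
# P188, FLAT in the model, part 17: lines at a frame
-/

set_option linter.all false

open MeasureTheory Set Filter
open Vale.Agent.P188.H530 (hgt)
open Vale.Agent.P188.H616 (Coord Sec Phi slide StrAt nofold_fill Up3)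

namespace Vale.Agent.P188.Z1.RModel.F6

variable {S : Type} [Group S] [MeasurableSpace S] {Γ : Type} [Group Γ]
  {V : Type} [AddCommGroup V] [Module ℝ V] {k : ℕ} {M : RModel S Γ V k}

/-- positions along the lines at a frame -/
theorem ev_line (B : M.NatBox) {c₂ κ' κp κm κ4 Y A Vb d₁ Λ2 : ℝ} (nv : ℕ) (hc : 0 < c₂)
    (hκ0 : 0 < κ') (hκ' : κ' ≤ 1 / 2) (hκp : 0 < κp) (hκp' : 2 * κp ≤ κ') (h4 : 0 < κ4)
    (h6 : bΦ M * (3 * κ4) ≤ κp * c₂) (hY : bΦ M * (3 * κ4 + κ' * Y) ≤ c₂ / 2) (hA : κ4 ≤ A)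
    (hd : 0 < d₁) (hΛ : 1 ≤ Λ2) :
    ∀ᶠ s : ℝ in atTop, ∀ h : (Ht k →L[ℝ] ℝ) → ℝ, M.HGood c₂ h → ∀ i u v m g,
      Frm M h c₂ κ' κp κm Y A Vb s nv i u v m g → ∀ z ∈ DF B h Λ2 d₁ κ4 s g,
      ∀ n ≤ m * nv, ∀ g' ∈ M.CB n, (∃ j ≤ m, ‖M.θ g' - (j : ℝ) • ht v‖ ≤ nv ∨
        ‖M.θ g' + (j : ℝ) • ht v‖ ≤ nv) →
      np M (z * g') ∈ B.Bx (fun i => B.C * (B.C * Λ2) * M.szh h d₁ s i) ∧
      WinH M h κp s (M.θ (z * g')) ∧ ‖M.θ (z * g')‖ ≤ (M.C0 * (2 + A) + 3 * A) * s := by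
  have hC0 := M.C0_pos
  have hb1 := one_le_bΦ M
  have hBC := B.one_le
  have h6' : bΦ M * (2 * κ4) ≤ κp * c₂ := le_trans (mul_le_mul_of_nonneg_left (by linarith)
    (by linarith)) h6
  have hY' : bΦ M * (2 * κ4 + κ' * Y) ≤ c₂ / 2 := le_trans (mul_le_mul_of_nonneg_left (by linarith)
    (by linarith)) hY
  have hA0 : 0 ≤ A := by linarith
  filter_upwards [ev_frm (Vb := Vb) (κm := κm) nv hc hκ0 hκ' hκp hκp' h4 h6' hY' hA,
    ev_DF B hc hd hA hΛ,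
    ev_cocycle B hc hd (M.C0 * (2 + A) + 2 * A) one_pos,
    ev_linB (nv : ℝ) h4, eventually_ge_atTop (0 : ℝ)]
    with s f1 f2 f3 f4 hs h hg i u v m g hF z hz n hn g' hg' hj
  obtain ⟨a1, a2, a3, a4, -⟩ := f1 h hg i u v m g hF z hz.2
  obtain ⟨ng, hng, hgm⟩ := hF.g_mem
  have b1 := f2 h hg.bd ng hng g hgm z hz
  have hnA : (n : ℝ) ≤ A * s := le_trans (by exact_mod_cast hn) hF.m_A
  have hCA : 0 ≤ M.C0 * (2 + A) * s := by positivity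
  have hAs : 0 ≤ A * s := mul_nonneg hA0 hs
  have c1 := f3 h hg.bd z a2 n (hnA.trans (by linarith)) g' hg'
  have hszp : ∀ i, 0 < M.szh h d₁ s i := szh_pos
  have hR : ∀ i, 0 ≤ B.C * Λ2 * M.szh h d₁ s i := fun i => by
    have := hszp i
    positivity
  have eR : (fun i => B.C * (B.C * Λ2) * M.szh h d₁ s i) =
      fun i => B.C * (B.C * Λ2 * M.szh h d₁ s i) := by
    funext i; ring
  have hle : ∀ i, 1 * M.szh h d₁ s i ≤ B.C * Λ2 * M.szh h d₁ s i := fun i =>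
    mul_le_mul_of_nonneg_right (one_le_mul_of_one_le_of_one_le hBC hΛ) (hszp i).le
  have hm0 : (0 : ℝ) ≤ m := Nat.cast_nonneg m
  refine ⟨?_, ?_, ?_⟩
  · rw [np_mul, eR]
    exact Bx_mul B hR (fun i => by have := hszp i; positivity) (fun i => le_rfl) hle b1 c1
  · obtain ⟨j, hjm, hj⟩ := hj
    have hj0 : (0 : ℝ) ≤ j := Nat.cast_nonneg j
    have hjm' : (j : ℝ) ≤ m := by exact_mod_cast hjm
    have hvn := norm_nonneg (ht v : Ht k)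
    have e3 : (j : ℝ) * ‖(ht v : Ht k)‖ ≤ κ' * Y * s :=
      (mul_le_mul_of_nonneg_right hjm' hvn).trans hF.m_Y
    have e4 : (j : ℝ) * M.wt i (ht v) ≤ (κ' - 2 * κp) * s * h (M.wt i) :=
      (mul_le_mul_of_nonneg_right hjm' hF.pos.le).trans hF.m_hi
    have e5 : 0 ≤ (j : ℝ) * M.wt i (ht v) := mul_nonneg hj0 hF.pos.le
    have key : ∀ y : Ht k, ‖M.θ g' - y‖ ≤ nv → ‖y‖ ≤ κ' * Y * s →
        M.wt i y ≤ (κ' - 2 * κp) * s * h (M.wt i) → WinH M h κp s (M.θ (z * g')) := by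
      intro y hy1 hy2 hy3
      have e1 : M.θ (z * g') = (M.θ z + (M.θ g' - y)) + y := by rw [M.θ_mul]; abel
      rw [e1]
      refine hF.fct.win hg hc hF.mem_Φ (κ6 := 3 * κ4) (Y := Y) hs hκ' hκp (by linarith) h6 hY ?_
        hy2 hy3
      have e2 : M.θ z + (M.θ g' - y) - ((1 - κ') * s) • u =
          (M.θ z - ((1 - κ') * s) • u) + (M.θ g' - y) := by abel
      rw [e2]
      refine (norm_add_le _ _).trans ?_
      linarith
    rcases hj with hj | hj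
    · refine key _ hj ?_ ?_
      · rw [norm_smul, Real.norm_eq_abs, abs_of_nonneg hj0]; exact e3
      · rw [map_smul, smul_eq_mul]; exact e4
    · refine key (-((j : ℝ) • ht v)) (by rwa [sub_neg_eq_add]) ?_ ?_
      · rw [norm_neg, norm_smul, Real.norm_eq_abs, abs_of_nonneg hj0]; exact e3
      · rw [map_neg, map_smul, smul_eq_mul]
        have h2 := (hg.bd _ hF.mem_Φ).1
        have h3 : 0 ≤ (κ' - 2 * κp) * s * h (M.wt i) :=
          mul_nonneg (mul_nonneg (by linarith) hs) (by linarith)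
        linarith
  · rw [M.θ_mul]
    refine (norm_add_le _ _).trans ?_
    have := (θ_CB M hg').trans hnA
    linarith

/-- existence of the merging time -/
theorem ev_exists_frm {c₂ κ' κp A A_g βm Vm : ℝ} {nv : ℕ} {V₁ : Finset (Fin k → ℤ)} (hc : 0 < c₂)
    (hκ0 : 0 < κ') (hκp : 0 < κp) (hκp' : 4 * κp ≤ κ') (hβ : 0 < βm) (hVm : 1 ≤ Vm)
    (hV1 : ∀ v ∈ V₁, ‖(ht v : Ht k)‖ ≤ Vm) (hV2 : ∀ v ∈ V₁, ∀ b ∈ M.Φ, βm ≤ |b (ht v)|)
    (hV3 : ∀ v ∈ V₁, M.τ v ∈ M.CB nv) (hA : κ' * c₂⁻¹ / βm * nv ≤ A) (hAg : A_g ≤ A) :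
    ∀ᶠ s : ℝ in atTop, ∀ h : (Ht k →L[ℝ] ℝ) → ℝ, M.HGood c₂ h → ∀ i, M.wt i ≠ 0 →
      ∀ u, Fct M h c₂ (M.wt i) u → ∀ v ∈ V₁, 0 < M.wt i (ht v) → ∀ n : ℕ, (n : ℝ) ≤ A_g * s →
      ∀ g ∈ M.CB n, ‖M.θ g - ((1 - κ') * s) • u‖ ≤ 1 / 2 → ∃ m : ℕ,
      Frm M h c₂ κ' κp (κ' * c₂ * βm / (4 * (bΦ M * Vm))) (c₂⁻¹ * Vm / βm) A (bΦ M * Vm) s nv
        i u v m g := by
  have hb1 := one_le_bΦ M
  have hci : 0 < c₂⁻¹ := inv_pos.2 hc
  have hbV : 0 < bΦ M * Vm := by positivity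
  filter_upwards [ev_linB βm (show 0 < κ' * c₂ * βm / (4 * (bΦ M * Vm)) by positivity),
    eventually_ge_atTop (0 : ℝ)] with s h1 hs h hg i hi u hu v hv hpos n hn g hgm hgθ
  have hΦ : M.wt i ∈ M.Φ := by
    rcases wt_cases M i with h0 | h0
    · exact absurd h0 hi
    · exact h0.1
  have hh := hg.bd _ hΦ
  set β := M.wt i (ht v) with hβdef
  have hββ : βm ≤ β := by
    have := hV2 v hv _ hΦ
    rwa [abs_of_pos hpos] at this
  have hβV : β ≤ bΦ M * Vm := by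
    refine (le_abs_self _).trans ((abs_le_bΦ M hΦ _).trans ?_)
    exact mul_le_mul_of_nonneg_left (hV1 v hv) (by linarith)
  set X : ℝ := (κ' - 2 * κp) * s * h (M.wt i) with hX
  have hX0 : 0 ≤ X := mul_nonneg (mul_nonneg (by linarith) hs) (by linarith)
  have hXlo : κ' / 2 * c₂ * s ≤ X := by
    rw [hX]
    have e1 : κ' / 2 * s * c₂ ≤ κ' / 2 * s * h (M.wt i) := mul_le_mul_of_nonneg_left hh.1 (by positivity)
    have e2 : κ' / 2 * s * h (M.wt i) ≤ (κ' - 2 * κp) * s * h (M.wt i) := by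
      refine mul_le_mul_of_nonneg_right (mul_le_mul_of_nonneg_right (by linarith) hs) (by linarith)
    linarith
  have hXhi : X ≤ κ' * c₂⁻¹ * s := by
    rw [hX]
    calc (κ' - 2 * κp) * s * h (M.wt i) ≤ κ' * s * h (M.wt i) :=
          mul_le_mul_of_nonneg_right (mul_le_mul_of_nonneg_right (by linarith) hs) (by linarith)
      _ ≤ κ' * s * c₂⁻¹ := mul_le_mul_of_nonneg_left hh.2 (by positivity)
      _ = _ := by ring
  set m : ℕ := ⌊X / β⌋₊ with hm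
  have hm1 : (m : ℝ) * β ≤ X := by
    have := Nat.floor_le (show 0 ≤ X / β by positivity)
    rwa [le_div_iff₀ hpos] at this
  have hm2 : X - β ≤ m * β := by
    have := Nat.lt_floor_add_one (X / β)
    rw [div_lt_iff₀ hpos] at this
    rw [← hm] at this
    linarith
  have hm3 : (m : ℝ) ≤ κ' * c₂⁻¹ * s / βm := by
    rw [le_div_iff₀ hβ]
    calc (m : ℝ) * βm ≤ m * β := mul_le_mul_of_nonneg_left hββ (Nat.cast_nonneg m)
      _ ≤ _ := hm1.trans hXhi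
  refine ⟨m, hi, hu, hV3 v hv, hpos, by linarith, hm1, ?_, ?_, ?_, ⟨n, ?_, hgm⟩, hgθ⟩
  · calc (m : ℝ) * ‖(ht v : Ht k)‖ ≤ (κ' * c₂⁻¹ * s / βm) * Vm :=
          mul_le_mul hm3 (hV1 v hv) (norm_nonneg _) (by positivity)
      _ = _ := by ring
  · push_cast
    calc (m : ℝ) * nv ≤ (κ' * c₂⁻¹ * s / βm) * nv :=
          mul_le_mul_of_nonneg_right hm3 (Nat.cast_nonneg nv)
      _ = (κ' * c₂⁻¹ / βm * nv) * s := by ring
      _ ≤ A * s := mul_le_mul_of_nonneg_right hA hs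
  · intro j hj
    have hΦj : M.wt j ∈ M.Φ := by
      rcases wt_cases M j with h0 | h0
      · exact absurd h0 hj
      · exact h0.1
    have e1 : (m : ℝ) * βm ≤ m * |M.wt j (ht v)| :=
      mul_le_mul_of_nonneg_left (hV2 v hv _ hΦj) (Nat.cast_nonneg m)
    refine le_trans ?_ e1
    -- lower bound of m
    have e2 : κ' / 2 * c₂ * s - bΦ M * Vm ≤ m * (bΦ M * Vm) := by
      have := mul_le_mul_of_nonneg_left hβV (Nat.cast_nonneg (α := ℝ) m)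
      linarith
    have e3 : (κ' / 2 * c₂ * s - bΦ M * Vm) * βm ≤ m * βm * (bΦ M * Vm) := by
      have := mul_le_mul_of_nonneg_right e2 hβ.le
      linarith
    have e4 : κ' * c₂ * βm / (4 * (bΦ M * Vm)) * s * (bΦ M * Vm) = κ' * c₂ * βm / 4 * s := by
      field_simp
    have e5 : βm * (bΦ M * Vm) ≤ κ' * c₂ * βm / (4 * (bΦ M * Vm)) * s * (bΦ M * Vm) :=
      mul_le_mul_of_nonneg_right h1 hbV.le
    rw [e4] at e5
    have e6 : κ' * c₂ * βm / (4 * (bΦ M * Vm)) * s * (bΦ M * Vm) ≤ m * βm * (bΦ M * Vm) := by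
      rw [e4]
      linarith
    exact le_of_mul_le_mul_right e6 hbV
  · exact hn.trans (mul_le_mul_of_nonneg_right hAg hs)

end Vale.Agent.P188.Z1.RModel.F6

end

section

/-!
# P188, FLATG in the model, final assembly, part G: one scale, final form; numbers
-/

set_option linter.all false

open MeasureTheory Set Filter
open Vale.Agent.P188.H530 (hgt)
open Vale.Agent.P188.H616 (Coord Sec Phi slide Script StrAt badR badL)

namespace Vale.Agent.P188.Z1.RModel.F6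

variable {S : Type} [Group S] [MeasurableSpace S] {Γ : Type} [Group Γ]
  {V : Type} [AddCommGroup V] [Module ℝ V] {k : ℕ} {M : RModel S Γ V k}

/-- **One scale, one map.** -/
theorem flat_scale (B : M.NatBox) {K : ℝ} {F F' : Γ → Γ} (hQ : M.QIm K F F') {Λ : Type} [Fintype Λ]
    [MeasurableSpace Λ] [MeasurableSingletonClass Λ] {σ : S → Λ} (hσ : Measurable σ)
    {T : Λ → Ht k →L[ℝ] Ht k} {L : ℝ} (hL0 : 0 ≤ L) (hL : ∀ a, ‖T a‖ ≤ L) {D : Set S}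
    {AT ε₀ κS dm s : ℝ} (hSt : StrSc M σ T (M.f F) D AT ε₀ κS dm s) {h : (Ht k →L[ℝ] ℝ) → ℝ}
    {c₂ κ A c₁ d₁ κ4 κ' κp δ Λ3 AS κr η θ ε CV : ℝ} {n : ℕ}
    (hP : Pk B c₂ κ A c₁ d₁ κ4 κ' κp κS δ Λ3 AS AT κr n D h s)
    (hs : 0 ≤ s) (hδ0 : 0 < δ) (hδ : δ ≤ 1) (hη0 : 0 ≤ η) (hε₀η : ε₀ ≤ η)
    (hε₀θ : ε₀ ≤ θ) (hκ4 : 0 ≤ κ4) (hε0 : 0 ≤ ε) (hθ0 : 0 ≤ θ) (hCV : 0 ≤ CV)
    (hAT : 2 * c₂⁻¹ + 1 ≤ AT)
    (hAd : ∀ i, M.wt i = 0 → ∀ x : ℝ, |x| ≤ B.C * M.szh h d₁ s i → ∀ z, ‖M.θ z‖ ≤ κ4 * s →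
      M.nm (M.Ad (M.sec z)⁻¹ (x • M.X i)) ≤ Real.exp (dm * s))
    (hNF : ∀ i, M.wt i ≠ 0 → ∀ u, Fct M h c₂ (M.wt i) u → ∀ n : ℕ, (n : ℝ) ≤ (2 * c₂⁻¹ + 1) * s →
      ∀ g ∈ M.CB n, ‖M.θ g - ((1 - κ') * s) • u‖ ≤ 1 / 2 →
      ∀ x : ℝ, |x| ≤ B.C * M.szh h d₁ s i →
      M.μ (DF B h (B.C * L1 B) d₁ κ4 s g ∩
        badL σ (M.f F) (slide M.sec (M.ex (x • M.X i)) g) (η * s)) ≤ ENNReal.ofReal θ * M.μ D)
    (hfol : ∀ x ∈ B.Bx (fun i => δ * M.szh h d₁ s i), ∀ y ∈ B.Bx (fun i => δ * M.szh h d₁ s i),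
      M.μ {v | v ∈ B.Bx (M.szh h d₁ s) ∧ x * v * y ∉ B.Bx (M.szh h d₁ s)} ≤
        ENNReal.ofReal (ε / 2) * M.μ (B.Bx (M.szh h d₁ s)))
    (hvol : M.μ D ≤ ENNReal.ofReal CV * M.μ (B.DsmH h δ d₁ κ4 s))
    (hθ : n * ((3 * B.m + 1 : ℕ) * θ * CV) ≤ ε / 2)
    (hthr : (3 * B.m + 1 : ℕ) * η + M.lnLf K * κr + L * (M.C0 * κr) ≤ ε) :
    ∃ a : Λ, ∃ c : Ht k,
      (∀ x : S, (M.l x : ℝ) ≤ c₁ * s →
        M.μ {v | v ∈ B.Bx (M.szh h d₁ s) ∧ ε * s < ‖M.f F (v * x) - c - T a (M.θ x)‖} ≤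
          ENNReal.ofReal ε * M.μ (B.Bx (M.szh h d₁ s))) ∧
      (∀ n : ℕ, (n : ℝ) ≤ A * s → ∀ x ∈ M.CB n, (∀ b ∈ M.Φ, b (M.θ x) ≤ (1 - κ) * s * h b) →
        M.μ {v | v ∈ B.Bx (M.szh h d₁ s) ∧ ε * s < ‖M.f F (v * x) - c - T a (M.θ x)‖} ≤
          ENNReal.ofReal ε * M.μ (B.Bx (M.szh h d₁ s))) := by
  classical
  obtain ⟨nn, q, hnn, q0, qs, qpos, qcov⟩ := hP.net
  obtain ⟨nl, ql, hnl, l0, ls, lC, lz, lf, lpos⟩ := hP.letters
  obtain ⟨a, c, hac⟩ := flat_one B hQ hσ hL0 hL hSt (h := h) (d₁ := d₁) (κ4 := κ4) (δ := δ)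
    (η := η) (θ := θ) (ε := ε) (CV := CV) hs hδ0 hδ hη0 hε₀η hε₀θ hκ4 hε0 hθ0 hCV
    (ql := ql) (nl := nl) (hnl.trans (mul_le_mul_of_nonneg_right hAT hs)) l0 ls
    (fun i hi => lz i hi nl) lpos hAd (by
      intro i hi x hx
      obtain ⟨u, hu, hclose⟩ := lf i hi
      exact hNF i hi u hu nl hnl (ql i nl) (lC i) hclose x hx)
    (n := n) (nn := nn) (q := q) hnn q0 qs qpos (G := GG M h κ A c₁ s) (κr := κr * s) (by
      intro z hz hθz x hx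
      exact qcov z hθz x hx) hfol hvol hθ
  have hthr' : (3 * B.m + 1 : ℕ) * (η * s) + M.lnLf K * (κr * s) + L * (M.C0 * (κr * s)) ≤
      ε * s := by
    have := mul_le_mul_of_nonneg_right hthr hs
    refine le_trans (le_of_eq ?_) this
    ring
  have key : ∀ x ∈ GG M h κ A c₁ s,
      M.μ {v | v ∈ B.Bx (M.szh h d₁ s) ∧ ε * s < ‖M.f F (v * x) - c - T a (M.θ x)‖} ≤
          ENNReal.ofReal ε * M.μ (B.Bx (M.szh h d₁ s)) := by
    intro x hx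
    refine le_trans (measure_mono ?_) (hac x hx)
    rintro v ⟨hv1, hv2⟩
    exact ⟨hv1, lt_of_le_of_lt hthr' hv2⟩
  exact ⟨a, c, fun x hx => key x (Or.inl hx), fun j hj x hx hw => key x (Or.inr ⟨j, hj, hx, hw⟩)⟩

/-! ### numbers -/

theorem num_small {a b ε : ℝ} (ha : 0 ≤ a) (hb : 0 ≤ b) (hε : 0 < ε) :
    ∃ x : ℝ, 0 < x ∧ a * x + b * x ≤ ε := by
  refine ⟨ε / (a + b + 1), by positivity, ?_⟩
  rw [← add_mul, mul_div_assoc', div_le_iff₀ (by positivity)]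
  nlinarith

theorem num_κ₅ (m : ℕ) {Lf L C0 C ε : ℝ} (hLf : 0 ≤ Lf) (hL : 0 ≤ L) (hC0 : 0 ≤ C0) (hC : 0 ≤ C)
    (hε : 0 < ε) : ∃ κ₅ η : ℝ, 0 < κ₅ ∧ 0 < η ∧
      (3 * m + 1 : ℕ) * η + Lf * (C * κ₅) + L * (C0 * (C * κ₅)) ≤ ε := by
  obtain ⟨κ₅, hκ₅, h1⟩ := num_small (a := Lf * C) (b := L * (C0 * C)) (ε := ε / 2) (by positivity)
    (by positivity) (by linarith)
  obtain ⟨η, hη, h2⟩ := num_small (a := (3 * m + 1 : ℕ)) (b := 0) (ε := ε / 2)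
    (Nat.cast_nonneg _) le_rfl (by linarith)
  refine ⟨κ₅, η, hκ₅, hη, ?_⟩
  have e1 : Lf * (C * κ₅) + L * (C0 * (C * κ₅)) = Lf * C * κ₅ + L * (C0 * C) * κ₅ := by ring
  rw [add_assoc, e1]
  rw [zero_mul, add_zero] at h2
  linarith

theorem num_θ (m n : ℕ) {CV ε : ℝ} (hCV : 0 ≤ CV) (hε : 0 < ε) : ∃ θ : ℝ, 0 < θ ∧
    n * ((3 * m + 1 : ℕ) * θ * CV) ≤ ε / 2 := by
  obtain ⟨θ, hθ, h1⟩ := num_small (a := n * ((3 * m + 1 : ℕ) * CV)) (b := 0) (ε := ε / 2)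
    (by positivity) le_rfl (by linarith)
  refine ⟨θ, hθ, ?_⟩
  rw [zero_mul, add_zero] at h1
  refine le_trans (le_of_eq ?_) h1
  ring

theorem num_lt {C a : ℝ} (hC : 0 < C) (ha : 0 < a) : ∃ x : ℝ, 0 < x ∧ C * x < a := by
  refine ⟨a / (2 * C), by positivity, ?_⟩
  rw [mul_div_assoc', div_lt_iff₀ (by positivity)]
  nlinarith

end Vale.Agent.P188.Z1.RModel.F6

end

section

/-!
# P188, FLAT in the model, part 18: NOFOLD for a letter, all labels and directions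
-/

set_option linter.all false

open MeasureTheory Set Filter
open Vale.Agent.P188.H530 (hgt)
open Vale.Agent.P188.H616 (Coord Sec Phi slide StrAt nofold_labels offset_close badL)

namespace Vale.Agent.P188.Z1.RModel.F6

variable {S : Type} [Group S] [MeasurableSpace S] {Γ : Type} [Group Γ]
  {V : Type} [AddCommGroup V] [Module ℝ V] {k : ℕ} {M : RModel S Γ V k}

/-- abstract labels -/
structure LabD (M : RModel S Γ V k) (Φ₁ : Finset (Ht k →L[ℝ] ℝ)) (V₁ : Finset (Fin k → ℤ))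
    {Λ : Type*} (T : Λ → Ht k →L[ℝ] Ht k) (P : (Fin k → ℤ) → Λ → Set Φ₁) : Prop where
  sub : Φ₁ ⊆ M.Φ
  pos : ∀ v ∈ V₁, ∀ a, ∀ b : Φ₁, b ∈ P v a → 0 ≤ (b : Ht k →L[ℝ] ℝ) (T a (ht v))
  neg : ∀ v ∈ V₁, ∀ a, ∀ b : Φ₁, b ∉ P v a → (b : Ht k →L[ℝ] ℝ) (T a (ht v)) ≤ 0
  card : ∀ v ∈ V₁, ∀ a a', (P v a).ncard = (P v a').ncard
  inj : ∀ b₀ ∈ M.Φ, ∀ a a', (∀ v ∈ V₁, 0 < b₀ (ht v) → P v a = P v a') → a = a'

theorem letter_core {Lb : Type} [Fintype Lb] {Φ₁ : Finset (Ht k →L[ℝ] ℝ)}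
    {P : (Fin k → ℤ) → Lb → Set Φ₁} {Dr : Finset (Fin k → ℤ)} (hne : Dr.Nonempty)
    (hcard : ∀ v ∈ Dr, ∀ s s', (P v s).ncard = (P v s').ncard)
    (hinj : ∀ s s', (∀ v ∈ Dr, P v s = P v s') → s = s')
    {σ : S → Lb} {T : Lb → Ht k →L[ℝ] Ht k} {f : S → Ht k} {τ : S → S}
    (hτ : MeasurePreserving τ M.μ M.μ) {m : (Fin k → ℤ) → ℕ} {D0 D2 : Set S}
    (hD1 : ∀ z ∈ D0, z ∈ D2) (hD2 : ∀ z ∈ D0, τ z ∈ D2) {errS d err Lf : ℝ} {e₁ e₂ : ENNReal}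
    (hStr : ∀ v ∈ Dr, M.μ {z | z ∈ D2 ∧ ¬ StrAt f σ (Tl T) (M.τ v) (ht v) (m v) errS z} ≤ e₂)
    (hpair : ∀ v ∈ Dr, ∀ b : Φ₁, ∀ s1 s2, b ∈ P v s1 → b ∉ P v s2 →
      M.μ {z | (z ∈ D2 ∧ σ z = s2 ∧ z ∈ {z | StrAt f σ (Tl T) (M.τ v) (ht v) (m v) errS z}) ∧
        (τ z ∈ D2 ∧ σ (τ z) = s1 ∧
          τ z ∈ {z | StrAt f σ (Tl T) (M.τ v) (ht v) (m v) errS z})} ≤ e₁)
    (htop : ∀ v ∈ Dr, ∀ z ∈ D2, (M.l ((z * M.τ v ^ m v)⁻¹ * (τ z * M.τ v ^ m v)) : ℝ) ≤ d)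
    (hLf : 0 ≤ Lf) (hlip : ∀ z g, ‖f (z * g) - f z‖ ≤ Lf * M.l g) (herr : Lf * d + 2 * errS ≤ err) :
    M.μ (D0 ∩ badL σ f τ err) ≤ Dr.card * e₂ + Dr.card * e₂ +
      (Dr.card * (Fintype.card Φ₁ * (Fintype.card Lb * Fintype.card Lb)) : ℕ) * e₁ := by
  classical
  set Str : (Fin k → ℤ) → Set S := fun v =>
    {z | StrAt f σ (Tl T) (M.τ v) (ht v) (m v) errS z} with hStrdef
  have hfold := nofold_labels M.μ (Dr := Dr) (σ := σ) (τ := τ) P hcard hinj Str (D1 := D2)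
    (D2 := D2) (e := e₁) (fun v hv b s1 s2 hb1 hb2 => hpair v hv b s1 s2 hb1 hb2)
  set E1 : Set S := ⋃ v ∈ Dr, {z | z ∈ D2 ∧ z ∉ Str v} with hE1
  have hE1m : M.μ E1 ≤ Dr.card * e₂ := by
    refine (measure_biUnion_finset_le _ _).trans ?_
    calc ∑ v ∈ Dr, M.μ {z | z ∈ D2 ∧ z ∉ Str v} ≤ ∑ v ∈ Dr, e₂ :=
          Finset.sum_le_sum fun v hv => hStr v hv
      _ = _ := by rw [Finset.sum_const, nsmul_eq_mul]
  have hsub : D0 ∩ badL σ f τ err ⊆ (E1 ∪ τ ⁻¹' E1) ∪ {z | (z ∈ D2 ∧ ∀ v ∈ Dr, z ∈ Str v) ∧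
      (τ z ∈ D2 ∧ ∀ v ∈ Dr, τ z ∈ Str v) ∧ σ (τ z) ≠ σ z} := by
    rintro z ⟨hz, hbad⟩
    by_cases h1 : z ∈ E1
    · exact Or.inl (Or.inl h1)
    by_cases h2 : τ z ∈ E1
    · exact Or.inl (Or.inr h2)
    right
    have h3 : ∀ v ∈ Dr, z ∈ Str v := by
      intro v hv
      by_contra hcon
      exact h1 (mem_iUnion₂.2 ⟨v, hv, hD1 z hz, hcon⟩)
    have h4 : ∀ v ∈ Dr, τ z ∈ Str v := by
      intro v hv
      by_contra hcon
      exact h2 (mem_iUnion₂.2 ⟨v, hv, hD2 z hz, hcon⟩)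
    refine ⟨⟨hD1 z hz, h3⟩, ⟨hD2 z hz, h4⟩, ?_⟩
    intro heq
    rcases hbad with h5 | h5
    · exact h5 heq
    · obtain ⟨v, hv⟩ := hne
      have h6 := offset_close hLf hlip (h3 v hv) (h4 v hv) heq (htop v hv z (hD1 z hz))
      exact absurd h5 (not_lt.2 (h6.trans herr))
  refine (measure_mono hsub).trans ((measure_union_le _ _).trans (add_le_add
    ((measure_union_le _ _).trans (add_le_add hE1m ((mp_le M hτ _).trans hE1m))) hfold))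

/-- Lipschitz constant of the height functions -/
theorem f_lip' {K : ℝ} {F F' : Γ → Γ} (h : M.QIm K F F') (z g : S) :
    ‖M.f F (z * g) - M.f F z‖ ≤ 2 * (M.C0 * K * (2 * M.C0 + 1)) * M.l g := by
  rcases Nat.eq_zero_or_pos (M.l g) with h0 | h0
  · rw [M.l_zero g h0, mul_one, sub_self, norm_zero, M.len.one]
    simp
  · have h1 := h.f_lip z g
    have h2 : (1 : ℝ) ≤ M.l g := by exact_mod_cast h0
    have h3 : 0 ≤ M.C0 * K * (2 * M.C0 + 1) := by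
      have := h.K_nonneg
      have := M.C0_pos
      positivity
    nlinarith

end Vale.Agent.P188.Z1.RModel.F6

end

section

/-!
# P188, FLAT in the model, part 19: choice of the constants of NOFOLD
-/

set_option linter.all false

open MeasureTheory Set Filter

namespace Vale.Agent.P188.Z1.RModel.F6

variable {S : Type} [Group S] [MeasurableSpace S] {Γ : Type} [Group Γ]
  {V : Type} [AddCommGroup V] [Module ℝ V] {k : ℕ}

theorem exists_nc (M : RModel S Γ V k) {C c₂ βm Vm η κmax A_g Lf Λ Λ2 : ℝ} (nv : ℕ) (hC : 1 ≤ C)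
    (hc : 0 < c₂) (hβ : 0 < βm) (hVm : 1 ≤ Vm) (hη : 0 < η) (hκmax : 0 < κmax) (hLf : 0 ≤ Lf)
    (hΛ : 0 < Λ) (hΛ2 : 1 ≤ Λ2) : ∃ κ' κc κ'' κp κ4 ε₀ A : ℝ, 0 < ε₀ ∧
      (∀ ε, 0 < ε → ε ≤ ε₀ → NC M C c₂ κ' κc (κ' * c₂ * βm / (4 * (bΦ M * Vm))) κ'' κp κ4 ε
        (c₂⁻¹ * Vm / βm) A Λ Λ2) ∧
      4 * κp ≤ κ' ∧ bΦ M * (3 * κ4) ≤ κp * c₂ ∧
      bΦ M * (3 * κ4 + κ' * (c₂⁻¹ * Vm / βm)) ≤ c₂ / 2 ∧
      κ' * c₂⁻¹ / βm * nv ≤ A ∧ A_g ≤ A ∧ κ' ≤ κmax ∧ κ4 ≤ κmax ∧ κp ≤ κmax ∧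
      Lf * (10 * M.C0 * (κp * (c₂ + c₂⁻¹))) + 2 * ε₀ ≤ η := by
  have hb1 := one_le_bΦ M
  have hb0 : 0 < bΦ M := by linarith
  have hC0 : 0 < C := by linarith
  have hM0 := M.C0_pos
  have hci : 0 < c₂⁻¹ := inv_pos.2 hc
  set Y : ℝ := c₂⁻¹ * Vm / βm with hY
  have hY0 : 0 < Y := by positivity
  set W : ℝ := c₂ + c₂⁻¹ with hW
  have hW0 : 0 < W := by positivity
  set κ' : ℝ := min (min (1 / 2) κmax) (c₂ / (4 * bΦ M * (1 + Y))) with hκ'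
  have hκ'0 : 0 < κ' := lt_min (lt_min (by norm_num) hκmax) (by positivity)
  have k1 : κ' ≤ 1 / 2 := (min_le_left _ _).trans (min_le_left _ _)
  have k2 : κ' ≤ κmax := (min_le_left _ _).trans (min_le_right _ _)
  have k3 : κ' * (4 * bΦ M * (1 + Y)) ≤ c₂ := by
    have : κ' ≤ c₂ / (4 * bΦ M * (1 + Y)) := min_le_right _ _
    rwa [le_div_iff₀ (by positivity)] at this
  set κm : ℝ := κ' * c₂ * βm / (4 * (bΦ M * Vm)) with hκm
  have hκm0 : 0 < κm := by positivity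
  set κc : ℝ := min (κ' * c₂) κm / (2 * C) with hκc
  have hmin0 : 0 < min (κ' * c₂) κm := lt_min (by positivity) hκm0
  have hκc0 : 0 < κc := by positivity
  have k4 : C * κc = min (κ' * c₂) κm / 2 := by rw [hκc]; field_simp
  set κ'' : ℝ := κc / C with hκ''
  have hκ''0 : 0 < κ'' := by positivity
  have k5 : C * κ'' = κc := by rw [hκ'']; field_simp
  set κp : ℝ := min (min (κ' / 4) κmax) (min (κ'' / (C * W)) (η / (20 * M.C0 * (Lf + 1) * W)))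
    with hκp
  have hκp0 : 0 < κp := lt_min (lt_min (by positivity) hκmax) (lt_min (by positivity) (by positivity))
  have k6 : κp ≤ κ' / 4 := (min_le_left _ _).trans (min_le_left _ _)
  have k7 : κp ≤ κmax := (min_le_left _ _).trans (min_le_right _ _)
  have k8 : κp * (C * W) ≤ κ'' := by
    have : κp ≤ κ'' / (C * W) := (min_le_right _ _).trans (min_le_left _ _)
    rwa [le_div_iff₀ (by positivity)] at this
  have k9 : κp * (20 * M.C0 * (Lf + 1) * W) ≤ η := by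
    have : κp ≤ η / (20 * M.C0 * (Lf + 1) * W) := (min_le_right _ _).trans (min_le_right _ _)
    rwa [le_div_iff₀ (by positivity)] at this
  set κ4 : ℝ := min (min κp κmax) (κp * c₂ / (3 * C * bΦ M)) with hκ4
  have hκ40 : 0 < κ4 := lt_min (lt_min hκp0 hκmax) (by positivity)
  have k10 : κ4 ≤ κp := (min_le_left _ _).trans (min_le_left _ _)
  have k11 : κ4 ≤ κmax := (min_le_left _ _).trans (min_le_right _ _)
  have k12 : κ4 * (3 * C * bΦ M) ≤ κp * c₂ := by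
    have : κ4 ≤ κp * c₂ / (3 * C * bΦ M) := min_le_right _ _
    rwa [le_div_iff₀ (by positivity)] at this
  have k13 : 3 * κ4 * bΦ M ≤ κp * c₂ := by
    have : 3 * κ4 * bΦ M * 1 ≤ 3 * κ4 * bΦ M * C := mul_le_mul_of_nonneg_left hC (by positivity)
    linarith
  have k14 : C * κ4 ≤ κp * c₂ := by
    have : C * κ4 * 1 ≤ C * κ4 * (3 * bΦ M) := mul_le_mul_of_nonneg_left (by linarith) (by positivity)
    linarith
  have k15 : bΦ M * (3 * κ4 + κ' * Y) ≤ c₂ / 2 := by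
    have e1 : bΦ M * (3 * κ4 + κ' * Y) ≤ bΦ M * (κ' * (1 + Y)) :=
      mul_le_mul_of_nonneg_left (by linarith) hb0.le
    linarith
  have k16 : bΦ M * (2 * κ4 + κ' * Y) ≤ c₂ / 2 :=
    (mul_le_mul_of_nonneg_left (by linarith) hb0.le).trans k15
  set ε₀ : ℝ := min (κc / C) (η / 4) with hε₀
  have hε₀0 : 0 < ε₀ := lt_min (by positivity) (by positivity)
  have k17 : ε₀ * C ≤ κc := by
    have : ε₀ ≤ κc / C := min_le_left _ _
    rwa [le_div_iff₀ hC0] at this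
  have k18 : ε₀ ≤ η / 4 := min_le_right _ _
  have hnv : 0 ≤ κ' * c₂⁻¹ / βm * nv := by positivity
  refine ⟨κ', κc, κ'', κp, κ4, ε₀, 1 + |A_g| + κ' * c₂⁻¹ / βm * nv + κ4, hε₀0, ?_, by linarith,
    by linarith, k15, ?_, ?_, k2, k11, k7, ?_⟩
  · intro ε hε hεε
    refine ⟨hc, hκ'0, k1, hκc0, ?_, ?_, hκ''0, k5.le, hκp0, by linarith, by linarith, hκ40, k14, k16,
      ?_, hε, ?_, hΛ, hΛ2⟩
    · rw [k4]
      have := min_le_left (κ' * c₂) κm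
      have : 0 < κ' * c₂ := by positivity
      linarith
    · rw [k4]
      have := min_le_right (κ' * c₂) κm
      linarith
    · have := abs_nonneg A_g
      linarith
    · have := mul_le_mul_of_nonneg_right hεε hC0.le
      linarith
  · have := abs_nonneg A_g
    linarith
  · have := le_abs_self A_g
    linarith
  · have e1 : Lf * (10 * M.C0 * (κp * W)) ≤ η / 2 := by
      have e2 : Lf * (κp * (20 * M.C0 * W)) ≤ (Lf + 1) * (κp * (20 * M.C0 * W)) :=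
        mul_le_mul_of_nonneg_right (by linarith) (by positivity)
      linarith
    linarith

end Vale.Agent.P188.Z1.RModel.F6

end

section

/-!
# P188, FLAT in the model, part 20: NOFOLD for a letter at every large scale
-/

set_option linter.all false

open MeasureTheory Set Filter
open Vale.Agent.P188.H530 (hgt)
open Vale.Agent.P188.H616 (Coord Sec Phi slide StrAt nofold_labels offset_close badL)

namespace Vale.Agent.P188.Z1.RModel.F6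

variable {S : Type} [Group S] [MeasurableSpace S] {Γ : Type} [Group Γ]
  {V : Type} [AddCommGroup V] [Module ℝ V] {k : ℕ} {M : RModel S Γ V k}

theorem exists_pos_dir {Φ₁ : Finset (Ht k →L[ℝ] ℝ)} {V₁ : Finset (Fin k → ℤ)} (hV : M.Dirs Φ₁ V₁)
    {i : M.ι} (hi : M.wt i ≠ 0) : ∃ v ∈ V₁, 0 < M.wt i (ht v) := by
  have hΦ : M.wt i ∈ M.Φ := by
    rcases wt_cases M i with h0 | h0
    · exact absurd h0 hi
    · exact h0.1
  have h1 : V₁.Nonempty := by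
    rw [Finset.nonempty_iff_ne_empty]
    intro h
    have h2 := hV.span
    rw [h] at h2
    simp only [Finset.coe_empty, image_empty, Submodule.span_empty] at h2
    apply hi
    ext w
    have h3 : w ∈ (⊥ : Submodule ℝ (Ht k)) := by rw [h2]; trivial
    rw [Submodule.mem_bot] at h3
    rw [h3, map_zero, map_zero]
  obtain ⟨v, hv⟩ := h1
  have h2 := hV.generic v hv _ (M.Φ_sub hΦ) hi
  rcases lt_or_gt_of_ne h2 with h3 | h3
  · refine ⟨-v, hV.neg v hv, ?_⟩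
    have e : (ht (-v) : Ht k) = -ht v := by
      funext j
      simp [ht]
    rw [e, map_neg]
    have h4 : M.wt i (ht v) < 0 := h3
    linarith
  · exact ⟨v, hv, h3⟩

theorem StrAt.mono_err {Lb : Type*} {f : S → Ht k} {σ : S → Lb} {T : Lb → Ht k →L[ℝ] Ht k} {t : S}
    {v : Ht k} {m : ℕ} {e e' : ℝ} (he : e ≤ e') {z : S} (h : StrAt f σ (Tl T) t v m e z) :
    StrAt f σ (Tl T) t v m e' z := fun j hj => ⟨(h j hj).1.trans he, (h j hj).2.trans he⟩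

/-- total of the measures -/
theorem total_le {a b c n : ℕ} {ε θ₁ θ : ℝ} {μD : ENNReal} (hε : 0 ≤ ε) (hθ₁ : 0 ≤ θ₁) (ha : a ≤ b)
    (hb : 8 * ((b : ℝ) + 1) * ε ≤ θ) (hc : c ≤ n) {q : ℕ}
    (hn : 4 * ((n : ℝ) + 1) * (1 + q) * θ₁ ≤ θ) :
    (a : ENNReal) * (2 * (ENNReal.ofReal ε * μD)) + a * (2 * (ENNReal.ofReal ε * μD)) +
      (c : ENNReal) * (ENNReal.ofReal θ₁ * μD + q * (ENNReal.ofReal θ₁ * μD)) ≤
      ENNReal.ofReal θ * μD := by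
  have e1 : (a : ENNReal) * (2 * (ENNReal.ofReal ε * μD)) + a * (2 * (ENNReal.ofReal ε * μD)) +
      (c : ENNReal) * (ENNReal.ofReal θ₁ * μD + q * (ENNReal.ofReal θ₁ * μD)) =
      ((4 * a : ℕ) * ENNReal.ofReal ε + (c * (1 + q) : ℕ) * ENNReal.ofReal θ₁) * μD := by
    push_cast; ring
  rw [e1]
  refine mul_le_mul_left ?_ _
  have e2 : ((4 * a : ℕ) : ENNReal) * ENNReal.ofReal ε = ENNReal.ofReal ((4 * a : ℕ) * ε) := by
    rw [ENNReal.ofReal_mul (Nat.cast_nonneg _), ENNReal.ofReal_natCast]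
  have e3 : ((c * (1 + q) : ℕ) : ENNReal) * ENNReal.ofReal θ₁ =
      ENNReal.ofReal ((c * (1 + q) : ℕ) * θ₁) := by
    rw [ENNReal.ofReal_mul (Nat.cast_nonneg _), ENNReal.ofReal_natCast]
  rw [e2, e3, ← ENNReal.ofReal_add (by positivity) (by positivity)]
  refine ENNReal.ofReal_le_ofReal ?_
  have ha' : (a : ℝ) ≤ b := by exact_mod_cast ha
  have hc' : (c : ℝ) ≤ n := by exact_mod_cast hc
  have q0 : (0 : ℝ) ≤ q := Nat.cast_nonneg q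
  have b0 : (0 : ℝ) ≤ b := Nat.cast_nonneg b
  have n0 : (0 : ℝ) ≤ n := Nat.cast_nonneg n
  push_cast
  have f1 : 4 * (a : ℝ) * ε ≤ 4 * ((b : ℝ) + 1) * ε := by
    refine mul_le_mul_of_nonneg_right ?_ hε
    linarith
  have f2 : (c : ℝ) * (1 + q) * θ₁ ≤ ((n : ℝ) + 1) * (1 + q) * θ₁ := by
    refine mul_le_mul_of_nonneg_right (mul_le_mul_of_nonneg_right (by linarith) (by linarith)) hθ₁
  have f3 : 0 ≤ ((n : ℝ) + 1) * (1 + q) * θ₁ := by positivity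
  nlinarith

theorem nofold_letter (hS : M.SPREAD) (B : M.NatBox) (K : ℝ) {Φ₁ : Finset (Ht k →L[ℝ] ℝ)}
    {V₁ : Finset (Fin k → ℤ)} (hV : M.Dirs Φ₁ V₁) {c₂ : ℝ} (hc : 0 < c₂) (NΛ : ℕ)
    {Λm Λ_L η κmax A_g : ℝ} (hΛm : 1 ≤ Λm) (hΛ_L : 0 < Λ_L) (hη : 0 < η) (hκmax : 0 < κmax) :
    ∃ κ' κ4 κp Λ3 A_S : ℝ, 0 < κ' ∧ κ' ≤ 1 / 2 ∧ κ' ≤ κmax ∧ 0 < κ4 ∧ κ4 ≤ κmax ∧ 0 < κp ∧
    κp ≤ κmax ∧ 1 ≤ Λ3 ∧ ∀ θ : ℝ, 0 < θ → ∃ ε_S : ℝ, 0 < ε_S ∧ ∀ d₁ : ℝ, 0 < d₁ →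
    ∀ᶠ s : ℝ in atTop, ∀ h : (Ht k →L[ℝ] ℝ) → ℝ, M.HGood c₂ h → ∀ F F' : Γ → Γ, M.QIm K F F' →
    ∀ i, M.wt i ≠ 0 → ∀ u, Fct M h c₂ (M.wt i) u → ∀ n : ℕ, (n : ℝ) ≤ A_g * s → ∀ g ∈ M.CB n,
    ‖M.θ g - ((1 - κ') * s) • u‖ ≤ 1 / 2 →
    ∀ {Lb : Type} [Fintype Lb] [MeasurableSpace Lb] [MeasurableSingletonClass Lb],
    Fintype.card Lb ≤ NΛ → ∀ (σ : S → Lb), Measurable σ → ∀ (T : Lb → Ht k →L[ℝ] Ht k)
    (P : (Fin k → ℤ) → Lb → Set Φ₁), LabD M Φ₁ V₁ T P → ∀ (D : Set S) (A ε κS dm : ℝ), A_S ≤ A →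
    0 ≤ ε → ε ≤ ε_S → 0 ≤ κS → StrSc M σ T (M.f F) D A ε κS dm s →
    (∀ z, np M z ∈ B.Bx (fun i => Λ3 * M.szh h d₁ s i) → WinH M h κp s (M.θ z) →
      ‖M.θ z‖ ≤ A_S * s → z ∈ M.In (κS * s) D) →
    ∀ x : ℝ, |x| ≤ Λ_L * Real.exp (s * h (M.wt i)) →
    (M.ex (x • M.X i) ∈ B.Bx fun i => Λm * M.szh h d₁ s i) →
    M.μ (DF B h Λm d₁ κ4 s g ∩ badL σ (M.f F) (slide M.sec (M.ex (x • M.X i)) g) (η * s)) ≤
      ENNReal.ofReal θ * M.μ D := by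
  classical
  obtain ⟨βm, Vm, nv, hβ, hVm, hnv, hV1, hV2, hV3⟩ := exists_dirs M hV
  obtain ⟨C, hC, hpair⟩ := ev_pair hS B K
  have hBC := B.one_le
  have hC0 := M.C0_pos
  have hΛ2 : 1 ≤ B.C * Λm := one_le_mul_of_one_le_of_one_le hBC hΛm
  set Λ2 := B.C * Λm with hΛ2def
  set Lf : ℝ := |2 * (M.C0 * K * (2 * M.C0 + 1))| with hLf
  obtain ⟨κ', κc, κ'', κp, κ4, ε₀, A, hε₀, hNC, n1, n2, n3, n4, n5, n6, n7, n8, n9⟩ :=
    exists_nc M (A_g := A_g) (Λ := Λ_L) (Λ2 := Λ2) nv hC hc hβ hVm hη hκmax (abs_nonneg (2 * (M.C0 * K *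
      (2 * M.C0 + 1)))) hΛ_L hΛ2
  have hN0 := hNC ε₀ hε₀ le_rfl
  have hκ0 := hN0.hκ0
  have hκp0 := hN0.hκp0
  have hκ40 := hN0.hκ40
  have hA0 : 0 ≤ A := by linarith [hN0.hA]
  refine ⟨κ', κ4, κp, B.C * (B.C * Λ2), M.C0 * (2 + A) + 3 * A, hκ0, hN0.hκ', n6, hκ40, n7, hκp0, n8,
    one_le_mul_of_one_le_of_one_le hBC (one_le_mul_of_one_le_of_one_le hBC hΛ2), fun θ hθ => ?_⟩
  set NN : ℕ := V₁.card * (Φ₁.card * (NΛ * NΛ)) with hNN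
  set q : ℕ := Nat.card M.ι with hq
  set θ₁ : ℝ := min 1 (θ / (4 * ((NN : ℝ) + 1) * (1 + q))) with hθ₁
  have hθ₁0 : 0 < θ₁ := lt_min one_pos (by positivity)
  have hθ₁1 : θ₁ ≤ 1 := min_le_left _ _
  have hθ₁2 : 4 * ((NN : ℝ) + 1) * (1 + q) * θ₁ ≤ θ := by
    have : θ₁ ≤ θ / (4 * ((NN : ℝ) + 1) * (1 + q)) := min_le_right _ _
    rw [le_div_iff₀ (by positivity)] at this
    linarith
  set ε_S : ℝ := min ε₀ (θ / (8 * ((V₁.card : ℝ) + 1))) with hε_S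
  have hε_S0 : 0 < ε_S := lt_min hε₀ (by positivity)
  have hε_S1 : ε_S ≤ ε₀ := min_le_left _ _
  have hε_S2 : 8 * ((V₁.card : ℝ) + 1) * ε_S ≤ θ := by
    have : ε_S ≤ θ / (8 * ((V₁.card : ℝ) + 1)) := min_le_right _ _
    rw [le_div_iff₀ (by positivity)] at this
    linarith
  refine ⟨ε_S, hε_S0, fun d₁ hd => ?_⟩
  have hN := hNC ε_S hε_S0 hε_S1
  filter_upwards [hpair hN nv (bΦ M * Vm) d₁ θ₁ θ₁ hd hθ₁0 hθ₁0 hθ₁1,
    ev_line (M := M) (Vb := bΦ M * Vm) (κm := κ' * c₂ * βm / (4 * (bΦ M * Vm))) B nv hc hκ0 hN.hκ'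
      hκp0 hN.hκp' hκ40 n2 n3 hN.hA hd hΛ2,
    ev_exists_frm (M := M) (A_g := A_g) hc hκ0 hκp0 n1 hβ hVm hV1 hV2 hV3 n4 n5,
    ev_slide_top (M := M) (Vb := bΦ M * Vm) (κm := κ' * c₂ * βm / (4 * (bΦ M * Vm))) nv hc hκ0 hN.hκ'
      hκp0 hN.hκp' hκ40 ((mul_le_mul_of_nonneg_left (by linarith) (by linarith [one_le_bΦ M])).trans n2)
      hN.hY hN.hA hΛ_L,
    ev_frm (M := M) (Vb := bΦ M * Vm) (κm := κ' * c₂ * βm / (4 * (bΦ M * Vm))) nv hc hκ0 hN.hκ'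
      hκp0 hN.hκp' hκ40 ((mul_le_mul_of_nonneg_left (by linarith) (by linarith [one_le_bΦ M])).trans n2)
      hN.hY hN.hA,
    eventually_ge_atTop (0 : ℝ)]
    with s f1 f2 f3 f4 f5 hs h hg F F' hF i hi u hu n hn g hgm hgθ Lb _ _ _ hcard σ hσ T P hP D A'
      ε κS dm hA' hε0 hεS hκS hSt hIn x hx hxm
  -- merging times
  have hex : ∀ v, v ∈ V₁ ∧ 0 < M.wt i (ht v) → ∃ m : ℕ,
      Frm M h c₂ κ' κp (κ' * c₂ * βm / (4 * (bΦ M * Vm))) (c₂⁻¹ * Vm / βm) A (bΦ M * Vm) s nv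
        i u v m g := fun v hv => f3 h hg i hi u hu v hv.1 hv.2 n hn g hgm hgθ
  choose! m hm using hex
  set Dr : Finset (Fin k → ℤ) := V₁.filter fun v => 0 < M.wt i (ht v) with hDr
  have hDr' : ∀ v ∈ Dr, v ∈ V₁ ∧ 0 < M.wt i (ht v) := fun v hv => Finset.mem_filter.1 hv
  have hDrne : Dr.Nonempty := by
    obtain ⟨v, hv, hv2⟩ := exists_pos_dir hV hi
    exact ⟨v, Finset.mem_filter.2 ⟨hv, hv2⟩⟩
  obtain ⟨v₀, hv₀⟩ := hDrne
  have hfr₀ := hm v₀ (hDr' v₀ hv₀)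
  have hΦ : M.wt i ∈ M.Φ := hfr₀.mem_Φ
  have hl1 : (M.l (1 : S) : ℝ) ≤ κS * s := by
    rw [M.len.one]
    simpa using mul_nonneg hκS hs
  have hInD : ∀ z, z ∈ M.In (κS * s) D → z ∈ D := by
    intro z hz
    have := hz 1 hl1
    rwa [mul_one] at this
  -- subsets of D
  have hDFD : DF B h Λ2 d₁ κ4 s g ⊆ D := by
    intro z hz
    obtain ⟨g1, g2, g3⟩ := f2 h hg i u v₀ (m v₀) g hfr₀ z hz 0 (Nat.zero_le _) 1 (M.one_mem_CB 0)
      ⟨0, Nat.zero_le _, Or.inl (by rw [M.θ_one]; simp)⟩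
    rw [mul_one] at g1 g2 g3
    exact hInD z (hIn z g1 g2 g3)
  have hDAD : DA B h (B.C * (B.C * Λ2)) d₁ s (M.θ g) (κ4 * s) ⊆ D := by
    intro z hz
    have e0 : M.θ (z * g⁻¹) = M.θ z - M.θ g := by rw [M.θ_mul, M.θ_inv]; abel
    obtain ⟨a1, a2, a3, a4, -⟩ := f5 h hg i u v₀ (m v₀) g hfr₀ z (by rw [e0]; exact hz.2)
    have hY0 : 0 ≤ κ' * (c₂⁻¹ * Vm / βm) * s := by
      have : 0 < c₂⁻¹ := inv_pos.2 hc
      positivity
    have h2 := (hg.bd _ hΦ).1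
    have g2 := a4 0 (by rw [norm_zero]; exact hY0) (by
      rw [map_zero]
      exact mul_nonneg (mul_nonneg (by linarith [hN.hκp']) hs) (by linarith))
    rw [add_zero] at g2
    refine hInD z (hIn z hz.1 g2 (a2.trans ?_))
    have : 0 ≤ A * s := mul_nonneg hA0 hs
    linarith
  have hcore := letter_core (M := M) (Φ₁ := Φ₁) (P := P) (Dr := Dr) ⟨v₀, hv₀⟩
    (fun v hv => hP.card v (hDr' v hv).1)
    (fun a a' haa => hP.inj _ hΦ a a' fun v hv hv2 => haa v (Finset.mem_filter.2 ⟨hv, hv2⟩))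
    (σ := σ) (T := T) (f := M.f F) (slide_mp M (M.η_ex (x • M.X i)) g) (m := m)
    (D0 := DF B h Λm d₁ κ4 s g) (D2 := DF B h Λ2 d₁ κ4 s g)
    (fun z hz => DF_mono B (by linarith) (le_mul_of_one_le_left (by linarith) hBC) hz)
    (fun z hz => slide_DF B (by linarith) hxm hz)
    (errS := ε_S * s) (d := 10 * M.C0 * (κp * (c₂ + c₂⁻¹)) * s) (err := η * s) (Lf := Lf)
    (e₁ := ENNReal.ofReal θ₁ * M.μ D + q * (ENNReal.ofReal θ₁ * M.μ D))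
    (e₂ := 2 * (ENNReal.ofReal ε_S * M.μ D)) ?_ ?_ ?_ (abs_nonneg _) ?_ ?_
  · refine hcore.trans (total_le hε_S0.le hθ₁0.le (Finset.card_filter_le _ _) hε_S2 ?_ hθ₁2)
    rw [Fintype.card_coe]
    exact Nat.mul_le_mul (Finset.card_filter_le _ _) (Nat.mul_le_mul le_rfl
      (Nat.mul_le_mul hcard hcard))
  · intro v hv
    have hfr := hm v (hDr' v hv)
    have hmA : ((m v * nv : ℕ) : ℝ) ≤ A' * s := by
      refine hfr.m_A.trans (mul_le_mul_of_nonneg_right ?_ hs)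
      have : 0 ≤ M.C0 * (2 + A) := by positivity
      linarith
    have h1 := hSt.strAt hnv hfr.τ_mem hmA (Din := DF B h Λ2 d₁ κ4 s g) (by
      intro z hz n' hn' g' hg' hj
      obtain ⟨g1, g2, g3⟩ := f2 h hg i u v (m v) g hfr z hz n' hn' g' hg' hj
      exact hIn _ g1 g2 g3)
    refine le_trans (measure_mono ?_) (h1.trans ?_)
    · rintro z ⟨hz, hz2⟩
      exact ⟨hz, fun h5 => hz2 (StrAt.mono_err (mul_le_mul_of_nonneg_right hεS hs) h5)⟩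
    · refine mul_le_mul_right (mul_le_mul_left ?_ _) _
      exact ENNReal.ofReal_le_ofReal hεS
  · intro v hv b s1 s2 hb1 hb2
    have hv' := (hDr' v hv).1
    have h1 := f1 h hg F F' hF i u v (m v) g (hm v (hDr' v hv)) x hx hσ (T := T) (s1 := s1)
      (s2 := s2) (b := b) (hP.sub b.2) (hP.pos v hv' s1 b hb1) (hP.neg v hv' s2 b hb2)
    refine h1.trans (add_le_add ?_ ?_)
    · exact mul_le_mul_right (measure_mono hDFD) _
    · exact mul_le_mul_right (mul_le_mul_right (measure_mono hDAD) _) _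
  · intro v hv z hz
    exact f4 h hg i u v (m v) g (hm v (hDr' v hv)) x hx z hz.2
  · intro z g'
    refine (f_lip' hF z g').trans ?_
    exact mul_le_mul_of_nonneg_right (le_abs_self _) (Nat.cast_nonneg _)
  · have e1 : Lf * (10 * M.C0 * (κp * (c₂ + c₂⁻¹)) * s) + 2 * (ε_S * s) =
        (Lf * (10 * M.C0 * (κp * (c₂ + c₂⁻¹))) + 2 * ε_S) * s := by ring
    rw [e1]
    refine mul_le_mul_of_nonneg_right (le_trans ?_ n9) hs
    have : 2 * ε_S ≤ 2 * ε₀ := by linarith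
    linarith

end Vale.Agent.P188.Z1.RModel.F6

end
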