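import Vale.Agent.P188.R.G069
import Vale.Agent.P188.R.G067
import Vale.Agent.P188.R.G036
import Vale.Agent.P188.R.G029
import Vale.Agent.P188.R.G012
import Vale.Agent.P188.R.G104

section

/-!
# P188, Z1: decompositions of fat displacements, preliminaries

Heights of powers, invariance of `e`, gaps of generic directions, polynomial against exponential,
lists of short letters.
-/

set_option linter.all false

open MeasureTheory Set
open Vale.Agent.P188.H530 (hgt hgt_mul)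

namespace Vale.Agent.P188.Z1

/-! ### numerical lemmas -/

/-- polynomial against exponential -/
theorem poly_le_exp (A K : ℝ) (hK : 0 ≤ K) (d : ℕ) {ε : ℝ} (hε : 0 < ε) :
    ∃ R₀ : ℝ, ∀ R : ℝ, R₀ ≤ R → A * (1 + K * R) ^ d ≤ Real.exp (ε * R) := by
  have h1 := (isLittleO_pow_exp_pos_mul_atTop d hε).def
    (c := 1 / (|A| * (1 + K) ^ d + 1)) (by positivity)
  obtain ⟨R₀, hR₀⟩ := Filter.eventually_atTop.mp h1
  refine ⟨max R₀ 1, fun R hR => ?_⟩
  have hR1 : 1 ≤ R := (le_max_right _ _).trans hR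
  have h2 := hR₀ R ((le_max_left _ _).trans hR)
  rw [Real.norm_of_nonneg (by positivity), Real.norm_of_nonneg (Real.exp_pos _).le] at h2
  have h3 : (1 + K * R) ^ d ≤ ((1 + K) * R) ^ d := by
    refine pow_le_pow_left₀ (by positivity) ?_ d
    nlinarith
  have hA : 0 < |A| * (1 + K) ^ d + 1 := by positivity
  have h4 : R ^ d * (|A| * (1 + K) ^ d + 1) ≤ Real.exp (ε * R) := by
    rw [one_div, inv_mul_eq_div, le_div_iff₀ hA] at h2
    exact h2
  calc A * (1 + K * R) ^ d ≤ |A| * (1 + K * R) ^ d :=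
        mul_le_mul_of_nonneg_right (le_abs_self A) (by positivity)
    _ ≤ |A| * ((1 + K) * R) ^ d := mul_le_mul_of_nonneg_left h3 (abs_nonneg _)
    _ = R ^ d * (|A| * (1 + K) ^ d) := by rw [mul_pow]; ring
    _ ≤ R ^ d * (|A| * (1 + K) ^ d + 1) := by
        refine mul_le_mul_of_nonneg_left (by linarith) (by positivity)
    _ ≤ _ := h4

/-- a positive lower bound on a finite set -/
theorem exists_gap {α : Type*} (s : Finset α) (f : α → ℝ) (hf : ∀ a ∈ s, 0 < f a) :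
    ∃ β : ℝ, 0 < β ∧ ∀ a ∈ s, β ≤ f a := by
  classical
  induction s using Finset.induction_on with
  | empty => exact ⟨1, one_pos, by simp⟩
  | insert a s ha ih =>
    obtain ⟨β, hβ, h⟩ := ih fun b hb => hf b (Finset.mem_insert_of_mem hb)
    refine ⟨min β (f a), lt_min hβ (hf a (Finset.mem_insert_self _ _)), ?_⟩
    intro b hb
    rcases Finset.mem_insert.mp hb with rfl | hb
    · exact min_le_right _ _
    · exact (min_le_left _ _).trans (h b hb)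

/-- an upper bound on a finite set -/
theorem exists_top {α : Type*} (s : Finset α) (f : α → ℝ) : ∃ B : ℝ, 1 ≤ B ∧ ∀ a ∈ s, f a ≤ B := by
  classical
  induction s using Finset.induction_on with
  | empty => exact ⟨1, le_rfl, by simp⟩
  | insert a s ha ih =>
    obtain ⟨β, hβ, h⟩ := ih
    refine ⟨max β (f a), hβ.trans (le_max_left _ _), ?_⟩
    intro b hb
    rcases Finset.mem_insert.mp hb with rfl | hb
    · exact le_max_right _ _
    · exact (h b hb).trans (le_max_left _ _)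

/-- prefixes of a concatenation -/
theorem prefix_append_cases {α : Type*} {L₁ L₂ ws : List α} (h : ws <+: L₁ ++ L₂) :
    ws <+: L₁ ∨ ∃ ws', ws' <+: L₂ ∧ ws = L₁ ++ ws' := by
  induction L₁ generalizing ws with
  | nil => exact Or.inr ⟨ws, by simpa using h, by simp⟩
  | cons a L₁ ih =>
    cases ws with
    | nil => exact Or.inl List.nil_prefix
    | cons b ws =>
      rw [List.cons_append, List.cons_prefix_cons] at h
      obtain ⟨rfl, h⟩ := h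
      rcases ih h with h | ⟨ws', h1, rfl⟩
      · exact Or.inl (List.cons_prefix_cons.mpr ⟨rfl, h⟩)
      · exact Or.inr ⟨ws', h1, by simp⟩

namespace RModel

variable {S : Type} [Group S] [MeasurableSpace S] {Γ : Type} [Group Γ]
  {V : Type} [AddCommGroup V] [Module ℝ V] {k : ℕ} (M : RModel S Γ V k)

/-! ### heights -/

theorem hgt_zpow (x : S) (n : ℤ) : hgt M.η (x ^ n) = (n : ℝ) • hgt M.η x := by
  funext i
  simp [hgt, map_zpow, toAdd_zpow]

theorem hgt_τ (w : Fin k → ℤ) : hgt M.η (M.τ w) = ht w := by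
  funext i
  simp [hgt, M.η_τ, ht]

theorem l_list (L : List S) {B : ℝ} (hB : ∀ a ∈ L, (M.l a : ℝ) ≤ B) :
    (M.l L.prod : ℝ) ≤ L.length * B := by
  induction L with
  | nil => simp [M.len.one]
  | cons a L ih =>
    have h1 := ih fun b hb => hB b (List.mem_cons_of_mem _ hb)
    have h2 := hB a (List.mem_cons_self ..)
    have h3 : (M.l (a * L.prod) : ℝ) ≤ M.l a + M.l L.prod := by
      exact_mod_cast M.len.mul a L.prod
    rw [List.prod_cons, List.length_cons]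
    push_cast
    linarith

theorem l_mulD (x y : S) : (M.l (x * y) : ℝ) ≤ M.l x + M.l y := by
  exact_mod_cast M.len.mul x y

theorem CB_zpow {n : ℕ} {a : S} (ha : a ∈ M.CB n) (m : ℤ) : a ^ m ∈ M.CB (n * m.natAbs) := by
  rw [Nat.mul_comm]
  rcases Int.natAbs_eq m with h | h
  · rw [h, zpow_natCast, Int.natAbs_natCast]
    exact M.CB_pow ha _
  · rw [h, zpow_neg, zpow_natCast, Int.natAbs_neg, Int.natAbs_natCast]
    exact M.CB_inv (M.CB_pow ha _)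

/-- the exponentials of multiples of a letter -/
theorem nm_smul (x : ℝ) (v : V) : M.nm (x • v) = |x| * M.nm v := by
  rw [map_smul_eq_mul, Real.norm_eq_abs]

theorem fb_monoD {δ δ' R R' : ℝ} (hδ : 0 ≤ δ) (h : δ ≤ δ') (hR : 0 ≤ R) (h' : R ≤ R') :
    M.FB δ R ⊆ M.FB δ' R' := M.FB_mono' hδ hR h' h

theorem fb_of_lenD : ∃ C : ℝ, 1 ≤ C ∧ ∀ δ : ℝ, 0 < δ → ∃ R₀ : ℝ, ∀ R : ℝ, R₀ ≤ R → ∀ g,
    (M.l g : ℝ) ≤ R → g ∈ M.FB δ (C * R) := by
  obtain ⟨C, hC, h⟩ := M.fb_of_len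
  exact ⟨C, hC, fun δ hδ => Filter.eventually_atTop.mp (h δ hδ)⟩

theorem fb_mulD : ∃ C : ℝ, 1 ≤ C ∧ ∀ δ : ℝ, 0 < δ → δ ≤ 1 → ∃ R₀ : ℝ, ∀ R : ℝ, R₀ ≤ R →
    ∀ g ∈ M.FB δ R, ∀ g' ∈ M.FB δ R, g * g' ∈ M.FB (C * δ) (C * R) := by
  obtain ⟨C, hC, h⟩ := M.fb_mul
  exact ⟨C, hC, fun δ hδ hδ' => Filter.eventually_atTop.mp (h δ hδ hδ')⟩

end RModel

end Vale.Agent.P188.Z1

end

section

/-!
# P188, Z1, block GCL: few points are peaks for contracting paths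

`gcl_of_spread : M.SPREAD → M.GCL`.
-/

set_option linter.all false

open MeasureTheory Set Filter
open Agent.P188.H428 (IsLen)
open Vale.Agent.P188.H530 (hgt hgt_mul)
open Vale.Agent.P188.H329 (Rel InP prS fillQ)
open Vale.Agent.P188.H616 (Coord)
open Vale.Agent.P188.H893 (Paths Tol gcl_core)

namespace Vale.Agent.P188.Z1

namespace RModel

variable {S : Type} [Group S] [MeasurableSpace S] {Γ : Type} [Group Γ]
  {V : Type} [AddCommGroup V] [Module ℝ V] {k : ℕ} (M : RModel S Γ V k)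

/-- The sizes of the letters: `1` for neutral letters, `e^{c r}` for the others. -/
noncomputable def gR (u : ℝ) (i : M.ι) : ℝ := M.two 1 (Real.exp u) i

/-- the letters -/
noncomputable def gcS (u : ℝ) (i : M.ι) (x : ℝ) : S := M.ex ((M.gR u i * x) • M.X i)

theorem gR_zero {u : ℝ} {i : M.ι} (h : M.wt i = 0) : M.gR u i = 1 := by
  unfold gR two; rw [if_pos h]

theorem gR_ne {u : ℝ} {i : M.ι} (h : M.wt i ≠ 0) : M.gR u i = Real.exp u := by
  unfold gR two; rw [if_neg h]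

private lemma rpow_le_pow {x : ℝ} (hx : 1 ≤ x) (a : ℝ) : x ^ a ≤ x ^ ⌈a⌉₊ := by
  rw [← Real.rpow_natCast]
  exact Real.rpow_le_rpow_of_exponent_le hx (Nat.le_ceil a)

/-- Decomposition of an element of length at most `ρ`, heights first. -/
theorem cover_dec : ∃ (Cb : ℝ) (D : ℕ), 1 ≤ Cb ∧ ∀ ρ : ℝ, 0 ≤ ρ → ∀ g : S, (M.l g : ℝ) ≤ ρ →
    ∃ (W : Fin k → ℤ), ∃ v ∈ M.e, ∃ y ∈ M.Vw 0, g = M.τ W * (M.ex v * M.ex y) ∧
      (∀ i, |(W i : ℝ)| ≤ M.C0 * ρ) ∧ M.nm v ≤ Real.exp (Cb * (1 + ρ)) ∧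
      M.nm y ≤ Cb * (1 + ρ) ^ D := by
  obtain ⟨Cl, hCl, hlCB⟩ := M.l_CB
  have hC0 := M.C0_pos
  have hC1 := M.one_le_C0
  set a : ℝ := M.C0 + M.C0 * M.C0 + 1 with ha
  have ha1 : 1 ≤ a := by nlinarith
  set Cb1 : ℝ := M.C0 * (Cl * a) + M.C0 * (2 + Cl * a) with hCb1
  set Cb2 : ℝ := M.C0 * (3 * a) ^ M.deg * (M.C0 * (3 * a) ^ M.deg) with hCb2
  have h01 : 0 ≤ Cb1 := by positivity
  have h02 : 0 ≤ Cb2 := by positivity
  refine ⟨1 + Cb1 + Cb2, 2 * M.deg, by linarith, fun ρ hρ g hlg => ?_⟩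
  obtain ⟨v, hv, w, hw, hgw⟩ := M.dec g
  set W : Fin k → ℤ := Multiplicative.toAdd (M.η g) with hW
  have hθg : ‖M.θ g‖ ≤ M.C0 * ρ := (M.η_le g).trans (mul_le_mul_of_nonneg_left hlg hC0.le)
  have hWi : ∀ i, |(W i : ℝ)| ≤ M.C0 * ρ := fun i => (norm_le_pi_norm (M.θ g) i).trans hθg
  have hηw : M.η w = M.η g := by rw [hgw, map_mul, M.η_ex, one_mul]
  set N1 : ℕ := ⌈M.C0 * M.l g⌉₊ with hN1
  set N2 : ℕ := ⌈M.C0 * (1 + M.C0 * ρ)⌉₊ with hN2
  have hCρ : 0 ≤ M.C0 * ρ := mul_nonneg hC0.le hρ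
  have hCCρ : 0 ≤ M.C0 * M.C0 * ρ := mul_nonneg (mul_nonneg hC0.le hC0.le) hρ
  have ht : M.τ W ∈ M.CB N2 := M.τ_mem_CB (by positivity) hWi
  have hN1r : (N1 : ℝ) ≤ a * (1 + ρ) := by
    have h1 := (Nat.ceil_lt_add_one (show 0 ≤ M.C0 * (M.l g : ℝ) by positivity)).le
    have h2 := mul_le_mul_of_nonneg_left hlg hC0.le
    rw [ha]
    nlinarith
  have hN2r : (N2 : ℝ) ≤ a * (1 + ρ) := by
    have h1 := (Nat.ceil_lt_add_one (show 0 ≤ M.C0 * (1 + M.C0 * ρ) by positivity)).le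
    rw [ha]
    nlinarith
  have hρ1 : 1 ≤ 1 + ρ := by linarith
  -- neutral part
  obtain ⟨y, hy, hye, hyn⟩ := M.C_ker _ _ (M.CB_mul hw (M.CB_inv ht)) (by
    rw [map_mul, map_inv, M.η_τ, hηw, hW]
    exact mul_inv_cancel _)
  have hdecomp : g = M.τ W * (M.ex (M.Ad (M.τ W)⁻¹ v) * M.ex (M.Ad (M.τ W)⁻¹ y)) := by
    rw [M.ex_Ad, M.ex_Ad, hye, inv_inv]
    conv_lhs => rw [hgw]
    group
  refine ⟨W, M.Ad (M.τ W)⁻¹ v, M.Ad_mem_e hv _, M.Ad (M.τ W)⁻¹ y, M.Ad_CB (M.CB_inv ht) hy,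
    hdecomp, hWi, ?_, ?_⟩
  · -- size of `v`
    have hlt : (M.l (M.τ W)⁻¹ : ℝ) ≤ Cl * (a * (1 + ρ)) :=
      (hlCB _ _ (M.CB_inv ht)).trans (mul_le_mul_of_nonneg_left hN2r (by linarith))
    have hlw : (M.l w : ℝ) ≤ Cl * (a * (1 + ρ)) :=
      (hlCB _ _ hw).trans (mul_le_mul_of_nonneg_left hN1r (by linarith))
    have hlv : (M.l (M.ex v) : ℝ) ≤ ρ + Cl * (a * (1 + ρ)) := by
      have e1 : M.ex v = g * w⁻¹ := by rw [hgw]; group
      have e2 : (M.l (M.ex v) : ℝ) ≤ M.l g + M.l w := by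
        rw [e1]
        have := M.len.mul g w⁻¹
        rw [M.len.inv] at this
        exact_mod_cast this
      linarith
    have hnv : M.nm v ≤ Real.exp (M.C0 * (1 + (ρ + Cl * (a * (1 + ρ))))) :=
      (M.met_lo v).trans (Real.exp_le_exp.2
        (mul_le_mul_of_nonneg_left (by linarith) hC0.le))
    refine (M.Ad_le _ v).trans ?_
    refine (mul_le_mul (Real.exp_le_exp.2 (mul_le_mul_of_nonneg_left hlt hC0.le)) hnv
      (M.nm_nonneg v) (Real.exp_pos _).le).trans ?_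
    rw [← Real.exp_add]
    apply Real.exp_le_exp.2
    have e1 : M.C0 * (Cl * (a * (1 + ρ))) + M.C0 * (1 + (ρ + Cl * (a * (1 + ρ)))) ≤
        Cb1 * (1 + ρ) := by
      have : M.C0 * (1 + ρ) ≤ M.C0 * (2 * (1 + ρ)) :=
        mul_le_mul_of_nonneg_left (by linarith) hC0.le
      calc M.C0 * (Cl * (a * (1 + ρ))) + M.C0 * (1 + (ρ + Cl * (a * (1 + ρ))))
          = M.C0 * (Cl * a) * (1 + ρ) + (M.C0 * (1 + ρ) + M.C0 * (Cl * a) * (1 + ρ)) := by ring
        _ ≤ M.C0 * (Cl * a) * (1 + ρ) + (M.C0 * (2 * (1 + ρ)) + M.C0 * (Cl * a) * (1 + ρ)) := by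
            linarith
        _ = Cb1 * (1 + ρ) := by rw [hCb1]; ring
    refine e1.trans (mul_le_mul_of_nonneg_right (by linarith) (by linarith))
  · -- size of `y`
    have h1 := M.Ad_CB_0 (M.CB_inv ht) hy
    have hb1 : M.C0 * (1 + (N2 : ℝ)) ^ M.deg ≤ M.C0 * ((3 * a) * (1 + ρ)) ^ M.deg :=
      mul_le_mul_of_nonneg_left (pow_le_pow_left₀ (by positivity) (by nlinarith) _) hC0.le
    have hb2 : M.C0 * (1 + ((N1 + N2 : ℕ) : ℝ)) ^ M.deg ≤ M.C0 * ((3 * a) * (1 + ρ)) ^ M.deg := by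
      refine mul_le_mul_of_nonneg_left (pow_le_pow_left₀ (by positivity) ?_ _) hC0.le
      push_cast
      nlinarith
    calc M.nm (M.Ad (M.τ W)⁻¹ y) ≤ M.C0 * (1 + (N2 : ℝ)) ^ M.deg * M.nm y := h1
      _ ≤ (M.C0 * ((3 * a) * (1 + ρ)) ^ M.deg) * (M.C0 * ((3 * a) * (1 + ρ)) ^ M.deg) :=
          mul_le_mul hb1 (hyn.trans hb2) (M.nm_nonneg y) (by positivity)
      _ = Cb2 * (1 + ρ) ^ (2 * M.deg) := by rw [hCb2, mul_pow]; ring
      _ ≤ _ := mul_le_mul_of_nonneg_right (by linarith) (by positivity)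

/-- **Covering of balls by boxes.** -/
theorem cover (c : ℝ) (hc : 0 < c) : ∃ κ : ℝ, 0 < κ ∧ ∀ ε : ℝ, 0 < ε → ∀ᶠ r : ℝ in atTop,
    ∀ z0 : S, ∃ T : Finset S, (T.card : ℝ) ≤ Real.exp (ε * r) ∧
      ∀ z : S, (M.l (z0⁻¹ * z) : ℝ) ≤ κ * r →
        ∃ z1 ∈ T, InP (M.gcS (c * r)) (M.mE + M.mN) (Real.exp (ε * r)) z1 z := by
  classical
  obtain ⟨Cb, D, hCb, hdec⟩ := M.cover_dec
  have hC0 := M.C0_pos
  have hC1 := M.one_le_C0
  have hCb0 : 0 < Cb := by linarith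
  set κ : ℝ := min (c / (2 * (M.C0 * Cb))) 1 with hκ
  have hκ0 : 0 < κ := lt_min (by positivity) one_pos
  have hκ1 : κ ≤ 1 := min_le_right _ _
  have hκc : M.C0 * Cb * κ ≤ c / 2 := by
    have : κ ≤ c / (2 * (M.C0 * Cb)) := min_le_left _ _
    calc M.C0 * Cb * κ ≤ M.C0 * Cb * (c / (2 * (M.C0 * Cb))) :=
          mul_le_mul_of_nonneg_left this (by positivity)
      _ = c / 2 := by field_simp
  refine ⟨κ, hκ0, fun ε hε => ?_⟩
  set d0 : ℕ := ⌈M.C0⌉₊ with hd0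
  -- eventual bounds
  have ev1 := ev_const (M.C0 * (2 : ℝ) ^ M.C0 * Real.exp (M.C0 * Cb)) (ε := c / 2) (by positivity)
  have ev2 : ∀ᶠ r : ℝ in atTop, M.C0 * (1 + Cb * (1 + r) ^ D) ^ d0 ≤ Real.exp (ε * r) := by
    have h1 := ev_poly (M.C0 * (1 + Cb) ^ d0) (D * d0) hε
    filter_upwards [h1, eventually_ge_atTop (0 : ℝ)] with r hr hr0
    refine le_trans ?_ hr
    rw [mul_assoc (M.C0), pow_mul, ← mul_pow]
    refine mul_le_mul_of_nonneg_left (pow_le_pow_left₀ (by positivity) ?_ _) hC0.le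
    have h2 : 1 ≤ (1 + r) ^ D := one_le_pow₀ (by linarith)
    nlinarith
  have ev3 : ∀ᶠ r : ℝ in atTop, (2 * (M.C0 * r) + 3) ^ k ≤ Real.exp (ε * r) := by
    have h1 := ev_poly ((2 * M.C0 + 3) ^ k) k hε
    filter_upwards [h1, eventually_ge_atTop (0 : ℝ)] with r hr hr0
    refine le_trans ?_ hr
    rw [← mul_pow]
    exact pow_le_pow_left₀ (by positivity) (by nlinarith) _
  filter_upwards [ev1, ev2, ev3, eventually_ge_atTop (1 : ℝ)] with r h1 h2 h3 hr1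
  intro z0
  have hr0 : 0 ≤ r := by linarith
  have hκr : κ * r ≤ r := by nlinarith
  have hκr0 : 0 ≤ κ * r := by positivity
  set n : ℕ := ⌊M.C0 * r⌋₊ with hn
  have hnr : (n : ℝ) ≤ M.C0 * r := Nat.floor_le (by positivity)
  set T : Finset S := (Fintype.piFinset fun _ : Fin k => Finset.Icc (-(n : ℤ)) n).image
    fun w => z0 * M.τ w with hT
  refine ⟨T, ?_, ?_⟩
  · have hcard : T.card ≤ (2 * n + 1) ^ k := by
      refine Finset.card_image_le.trans ?_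
      rw [Fintype.card_piFinset]
      simp only [Int.card_Icc, Finset.prod_const, Finset.card_univ, Fintype.card_fin]
      refine le_of_eq ?_
      congr 1
      omega
    calc (T.card : ℝ) ≤ (2 * n + 1) ^ k := by exact_mod_cast hcard
      _ ≤ (2 * (M.C0 * r) + 3) ^ k := pow_le_pow_left₀ (by positivity) (by linarith) _
      _ ≤ _ := h3
  · intro z hz
    obtain ⟨W, v, hv, y, hy, hg, hW, hvn, hyn⟩ := hdec (κ * r) hκr0 (z0⁻¹ * z) hz
    obtain ⟨x, hx, hxe⟩ := M.gen_e v hv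
    obtain ⟨x', hx', hxe'⟩ := M.gen_N y hy
    refine ⟨z0 * M.τ W, ?_, ?_⟩
    · refine Finset.mem_image.2 ⟨W, ?_, rfl⟩
      rw [Fintype.mem_piFinset]
      intro i
      have h5 : |(W i : ℝ)| ≤ M.C0 * r := (hW i).trans (mul_le_mul_of_nonneg_left hκr hC0.le)
      have h6 : (W i).natAbs ≤ n := by
        rw [hn]
        apply Nat.le_floor
        rw [Nat.cast_natAbs]
        push_cast
        exact h5
      rw [Finset.mem_Icc]
      omega
    · refine ⟨Fin.append M.jE M.jN, Fin.append (fun t => x t / Real.exp (c * r)) x', ?_, ?_⟩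
      · intro t
        refine Fin.addCases (fun t => ?_) (fun t => ?_) t
        · rw [Fin.append_left, abs_div, abs_of_pos (Real.exp_pos _), div_le_iff₀ (Real.exp_pos _)]
          have h5 : |x t| ≤ Real.exp (c * r) := by
            refine (hx t).trans ?_
            have h6 : 1 + M.nm v ≤ 2 * Real.exp (Cb * (1 + κ * r)) := by
              have : 1 ≤ Real.exp (Cb * (1 + κ * r)) := Real.one_le_exp (by positivity)
              linarith
            calc M.C0 * (1 + M.nm v) ^ M.C0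
                ≤ M.C0 * (2 * Real.exp (Cb * (1 + κ * r))) ^ M.C0 :=
                  mul_le_mul_of_nonneg_left (Real.rpow_le_rpow
                    (by have := M.nm_nonneg v; linarith) h6 hC0.le) hC0.le
              _ = M.C0 * (2 : ℝ) ^ M.C0 * Real.exp (M.C0 * Cb) *
                    Real.exp (M.C0 * Cb * κ * r) := by
                  have e2 : Real.exp (Cb * (1 + κ * r) * M.C0) =
                      Real.exp (M.C0 * Cb) * Real.exp (M.C0 * Cb * κ * r) := by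
                    rw [← Real.exp_add]; congr 1; ring
                  rw [Real.mul_rpow (by norm_num) (Real.exp_pos _).le, ← Real.exp_mul, e2]
                  ring
              _ ≤ Real.exp (c / 2 * r) * Real.exp (c / 2 * r) := by
                  refine mul_le_mul h1 (Real.exp_le_exp.2 ?_) (Real.exp_pos _).le
                    (Real.exp_pos _).le
                  exact mul_le_mul_of_nonneg_right hκc hr0
              _ = Real.exp (c * r) := by rw [← Real.exp_add]; congr 1; ring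
          have h6 : 1 ≤ Real.exp (ε * r) := Real.one_le_exp (by positivity)
          have h7 := Real.exp_pos (c * r)
          nlinarith
        · rw [Fin.append_right]
          refine (hx' t).trans ?_
          have h6 : 1 ≤ 1 + M.nm y := by have := M.nm_nonneg y; linarith
          calc M.C0 * (1 + M.nm y) ^ M.C0 ≤ M.C0 * (1 + M.nm y) ^ d0 :=
                mul_le_mul_of_nonneg_left (rpow_le_pow h6 _) hC0.le
            _ ≤ M.C0 * (1 + Cb * (1 + r) ^ D) ^ d0 := by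
                refine mul_le_mul_of_nonneg_left (pow_le_pow_left₀ (by linarith) ?_ _) hC0.le
                have : Cb * (1 + κ * r) ^ D ≤ Cb * (1 + r) ^ D :=
                  mul_le_mul_of_nonneg_left (pow_le_pow_left₀ (by positivity) (by linarith) _)
                    hCb0.le
                linarith
            _ ≤ _ := h2
      · have e1 : z = z0 * M.τ W * (M.ex v * M.ex y) := by
          rw [mul_assoc, ← hg]; group
        rw [e1, hxe, hxe']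
        congr 1
        unfold prS
        rw [← List.prod_append, ← List.ofFn_fin_append]
        congr 2
        funext t
        refine Fin.addCases (fun t => ?_) (fun t => ?_) t
        · simp only [Fin.append_left]
          unfold gcS
          rw [M.gR_ne (M.jE_ne t), mul_div_cancel₀ _ (Real.exp_pos _).ne']
        · simp only [Fin.append_right]
          unfold gcS
          rw [M.gR_zero (M.jN_eq t), one_mul]

theorem measurable_bf (F : Γ → Γ) (b : Ht k →L[ℝ] ℝ) : Measurable fun z => b (M.f F z) := by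
  intro B hB
  exact M.measurableSet_cells {g | b (M.θ (M.inG (F g))) ∈ B}

theorem gcS_add (u : ℝ) (i : M.ι) (x y : ℝ) : M.gcS u i (x + y) = M.gcS u i x * M.gcS u i y := by
  unfold gcS
  rw [mul_add, M.ex_add]

theorem gcS_zero (u : ℝ) (i : M.ι) : M.gcS u i 0 = 1 := by
  unfold gcS
  rw [mul_zero, zero_smul, M.ex_zero]

theorem gcS_meas (u : ℝ) (i : M.ι) : Measurable fun q : S × ℝ => q.1 * M.gcS u i q.2 := by
  have h := M.ex_meas (M.X i)
  have h2 : Measurable fun q : S × ℝ => (q.1, M.gR u i * q.2) :=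
    measurable_fst.prodMk (measurable_snd.const_mul _)
  exact h.comp h2

theorem gcS_len {c r : ℝ} (hc : 0 < c) (hr : 0 ≤ r) (i : M.ι) (x : ℝ) (hx : |x| ≤ 1) :
    (M.l (M.gcS (c * r) i x) : ℝ) ≤ M.C0 * (2 + c * r) := by
  have hC0 := M.C0_pos
  unfold gcS
  by_cases hi : M.wt i = 0
  · rw [M.gR_zero hi, one_mul]
    refine (M.met_V _).trans ?_
    have h1 : M.nm (x • M.X i) ≤ 1 := by
      rw [map_smul_eq_mul, Real.norm_eq_abs]
      have := M.X_le i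
      have h0 := M.nm_nonneg (M.X i)
      nlinarith [abs_nonneg x]
    have : 0 ≤ c * r := by positivity
    refine mul_le_mul_of_nonneg_left (by linarith) hC0.le
  · rw [M.gR_ne hi]
    have hmem : (Real.exp (c * r) * x) • M.X i ∈ M.e :=
      M.e.smul_mem _ (M.Vw_e _ hi (M.X_mem i))
    refine (M.met_e _ hmem).trans (mul_le_mul_of_nonneg_left ?_ hC0.le)
    have h1 : M.nm ((Real.exp (c * r) * x) • M.X i) ≤ Real.exp (c * r) := by
      rw [map_smul_eq_mul, Real.norm_eq_abs, abs_mul, abs_of_pos (Real.exp_pos _)]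
      have := M.X_le i
      have h0 := M.nm_nonneg (M.X i)
      have h2 : |x| * M.nm (M.X i) ≤ 1 := by nlinarith [abs_nonneg x]
      have h3 := Real.exp_pos (c * r)
      nlinarith
    have h2 : Real.log (1 + M.nm ((Real.exp (c * r) * x) • M.X i)) ≤ 1 + c * r := by
      rw [Real.log_le_iff_le_exp (by have := M.nm_nonneg ((Real.exp (c * r) * x) • M.X i); linarith),
        Real.exp_add]
      have h3 : (2 : ℝ) ≤ Real.exp 1 := by have := Real.add_one_le_exp (1 : ℝ); linarith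
      have h4 : 1 ≤ Real.exp (c * r) := Real.one_le_exp (by positivity)
      nlinarith
    linarith

/-- contracting paths in the model -/
theorem gcS_paths {A c r : ℝ} (hc : 0 < c) (hr : 0 ≤ r) (γ : M.ι → ℕ → S) (m : ℕ)
    (h1 : ∀ i, γ i 0 = 1)
    (h2 : ∀ i, ∀ n < m, (M.l ((γ i n)⁻¹ * γ i (n + 1)) : ℝ) ≤ A)
    (h3 : ∀ i, M.wt i = 0 → ∀ n, γ i n = 1)
    (h4 : ∀ i, M.wt i ≠ 0 → M.nm (M.Ad (γ i m)⁻¹ (M.X i)) ≤ Real.exp (-(c * r))) :
    Paths (fun z => (M.l z : ℝ)) (M.gcS (c * r)) γ m (2 * M.C0) |A| (M.C0 * (2 + c * r)) where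
  d0 := by have := M.C0_pos; positivity
  lt0 := abs_nonneg A
  one := h1
  stepl i k hk := (h2 i k hk).trans (le_abs_self A)
  merge i x hx := by
    have hC0 := M.C0_pos
    have e : (γ i m)⁻¹ * M.gcS (c * r) i x * γ i m =
        M.ex (M.Ad (γ i m)⁻¹ ((M.gR (c * r) i * x) • M.X i)) := by
      rw [M.ex_Ad, inv_inv]; rfl
    show (M.l _ : ℝ) ≤ _
    rw [e]
    refine (M.met_V _).trans ?_
    have h5 : M.nm (M.Ad (γ i m)⁻¹ ((M.gR (c * r) i * x) • M.X i)) ≤ 1 := by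
      rw [map_smul, map_smul_eq_mul, Real.norm_eq_abs, abs_mul]
      by_cases hi : M.wt i = 0
      · rw [M.gR_zero hi, h3 i hi m, inv_one, map_one, abs_one, one_mul]
        have := M.X_le i
        have h0 := M.nm_nonneg (M.X i)
        show |x| * M.nm (M.X i) ≤ 1
        nlinarith [abs_nonneg x]
      · rw [M.gR_ne hi, abs_of_pos (Real.exp_pos _)]
        have h6 := h4 i hi
        have h7 : Real.exp (c * r) * Real.exp (-(c * r)) = 1 := by
          rw [← Real.exp_add, add_neg_cancel, Real.exp_zero]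
        have h8 := Real.exp_pos (c * r)
        have h0 := M.nm_nonneg (M.Ad (γ i m)⁻¹ (M.X i))
        calc Real.exp (c * r) * |x| * M.nm (M.Ad (γ i m)⁻¹ (M.X i))
            ≤ Real.exp (c * r) * 1 * Real.exp (-(c * r)) := by
              refine mul_le_mul (mul_le_mul_of_nonneg_left hx h8.le) h6 h0 (by positivity)
          _ = 1 := by rw [mul_one, h7]
    calc M.C0 * (1 + M.nm (M.Ad (γ i m)⁻¹ ((M.gR (c * r) i * x) • M.X i)))
        ≤ M.C0 * (1 + 1) := mul_le_mul_of_nonneg_left (by linarith) hC0.le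
      _ = 2 * M.C0 := by ring
  len i x hx := M.gcS_len hc hr i x hx

/-- **GCL with an arbitrary enlargement constant `C₁`.** -/
def GCLp : Prop := ∀ K A c C₁ : ℝ, 0 < c → ∃ (η c₀ CR r₀ : ℝ), 0 < η ∧ 0 < c₀ ∧
  ∀ r : ℝ, r₀ ≤ r →
  ∀ F F' : Γ → Γ, M.QIm K F F' → ∀ b ∈ M.Φ, ∀ D Dp : Set S, M.Fat (CR * r) C₁ D Dp →
  ∀ (γ : M.ι → ℕ → S) (m : ℕ), (m : ℝ) ≤ Real.exp (η * r) → (∀ i, γ i 0 = 1) →
  (∀ i, ∀ n < m, (M.l ((γ i n)⁻¹ * γ i (n + 1)) : ℝ) ≤ A) →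
  (∀ i, M.wt i = 0 → ∀ n, γ i n = 1) →
  (∀ i, M.wt i ≠ 0 → M.nm (M.Ad (γ i m)⁻¹ (M.X i)) ≤ Real.exp (-(c * r))) →
  M.μ (D ∩ M.TolP (fun z => b (M.f F z)) γ m (η * r)) ≤
    ENNReal.ofReal (Real.exp (-(c₀ * r))) * M.μ D

/-- the final computation -/
private lemma final_comp {Mn nι m' : ℕ} {θ B : ℝ} {x y : ENNReal} (hθ : 0 ≤ θ)
    (hy : y ≤ (m' : ENNReal) * x) (hB : (Mn : ℝ) * (1 + nι * m') * θ ≤ B) :
    (Mn : ENNReal) * (ENNReal.ofReal θ * x + (nι : ENNReal) * (ENNReal.ofReal θ * y)) ≤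
      ENNReal.ofReal B * x := by
  have e1 : (Mn : ENNReal) * (ENNReal.ofReal θ * x + (nι : ENNReal) * (ENNReal.ofReal θ * y)) ≤
      ((Mn : ENNReal) * (1 + (nι : ENNReal) * m') * ENNReal.ofReal θ) * x := by
    calc (Mn : ENNReal) * (ENNReal.ofReal θ * x + (nι : ENNReal) * (ENNReal.ofReal θ * y))
        ≤ (Mn : ENNReal) * (ENNReal.ofReal θ * x +
          (nι : ENNReal) * (ENNReal.ofReal θ * ((m' : ENNReal) * x))) := by gcongr
      _ = _ := by ring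
  refine e1.trans ?_
  gcongr
  have e2 : (Mn : ENNReal) * (1 + (nι : ENNReal) * m') * ENNReal.ofReal θ =
      ENNReal.ofReal ((Mn : ℝ) * (1 + nι * m') * θ) := by
    rw [ENNReal.ofReal_mul (by positivity), ENNReal.ofReal_mul (Nat.cast_nonneg _),
      ENNReal.ofReal_natCast, ENNReal.ofReal_add (by norm_num) (by positivity),
      ENNReal.ofReal_one, ENNReal.ofReal_mul (Nat.cast_nonneg _), ENNReal.ofReal_natCast,
      ENNReal.ofReal_natCast]
  rw [e2]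
  exact ENNReal.ofReal_le_ofReal hB

/-- the inequality of the number of cells in `ENNReal` -/
private lemma enn_ineq {N q m' : ℕ} {C θ : ℝ} (hC : 0 ≤ C) (hθ : 0 < θ)
    (h : (N : ℝ) * (C * m') < 2 ^ q * θ) :
    (N : ENNReal) * (ENNReal.ofReal C * m') < 2 ^ q * ENNReal.ofReal θ := by
  have e1 : (N : ENNReal) * (ENNReal.ofReal C * m') = ENNReal.ofReal ((N : ℝ) * (C * m')) := by
    rw [ENNReal.ofReal_mul (Nat.cast_nonneg _), ENNReal.ofReal_natCast,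
      ENNReal.ofReal_mul hC, ENNReal.ofReal_natCast]
  have e2 : (2 : ENNReal) ^ q * ENNReal.ofReal θ = ENNReal.ofReal (2 ^ q * θ) := by
    rw [ENNReal.ofReal_mul (by positivity), ENNReal.ofReal_pow (by norm_num)]
    norm_num
  rw [e1, e2]
  exact (ENNReal.ofReal_lt_ofReal_iff (by positivity)).2 h

/-- **GCL in the model**, general form. -/
theorem gclp_of_spread (hS : M.SPREAD) : M.GCLp := by
  classical
  intro K A c C₁ hc
  obtain ⟨C, hC, HS⟩ := hS K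
  obtain ⟨nf, hf⟩ := fillQ M.ι M.cls
  obtain ⟨K', hK', hfill⟩ := hf (M.mE + M.mN)
  obtain ⟨κ, hκ, hcov⟩ := M.cover c hc
  have hC0 := M.C0_pos
  have hCpos : 0 < C := by linarith
  obtain ⟨m', hm'⟩ : ∃ m' : ℕ, m' = ⌈1 + C₁⌉₊ := ⟨_, rfl⟩
  obtain ⟨η, c1, ε, Mn, hη, hc1, hε, hMn2, hMn, hev⟩ := GclNum.params (C := C) (κ := κ) hC hκ K' m'
    (nf + nf) (Nat.card M.ι) (a := C * (1 + 2 * M.C0 + |A|)) (B := C * (2 * M.C0 + |A|))
    (B0 := C * (M.C0 * (2 + c))) (by positivity)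
  obtain ⟨r₀, hr₀⟩ := (((hev.and (hcov ε hε))).and
    (eventually_ge_atTop (1 : ℝ))).exists_forall_of_atTop
  refine ⟨η, c1 / 2, κ + M.C0 * (2 + c), r₀, hη, by positivity, ?_⟩
  intro r hr F F' hF b hb D Dp hD γ m hm hγ0 hγ1 hγ2 hγ3
  obtain ⟨⟨⟨q, j, hq, hlt, hbig, hfin⟩, h5⟩, h6⟩ := hr₀ r hr
  have hr0 : 0 ≤ r := by linarith
  obtain ⟨X, hX, hsp⟩ := HS F F' hF b hb
  have hθ0 : 0 < Real.exp (-(c1 * r)) := Real.exp_pos _
  have hθ1 : Real.exp (-(c1 * r)) ≤ 1 := Real.exp_le_one_iff.2 (by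
    have : 0 ≤ c1 * r := by positivity
    linarith)
  have hCI0 : 0 ≤ Real.exp (ε * r) := (Real.exp_pos _).le
  have hCR1 : κ * r ≤ (κ + M.C0 * (2 + c)) * r := by
    have : 0 ≤ M.C0 * (2 + c) * r := by positivity
    nlinarith
  have hCR2 : M.C0 * (2 + c * r) ≤ (κ + M.C0 * (2 + c)) * r := by
    have h7 : M.C0 * (2 + c * r) ≤ M.C0 * ((2 + c) * r) :=
      mul_le_mul_of_nonneg_left (by nlinarith) hC0.le
    have : 0 ≤ κ * r := by positivity
    nlinarith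
  have P := M.gcS_paths (A := A) hc hr0 γ m hγ0 hγ1 hγ2 hγ3
  have hμp : M.μ Dp ≤ (m' : ℕ) * M.μ D := by
    refine hD.le.trans (mul_le_mul_left ?_ _)
    rw [← ENNReal.ofReal_natCast]
    apply ENNReal.ofReal_le_ofReal
    rw [hm']
    exact Nat.le_ceil _
  have hMr : C * (M.C0 * (2 + c * r)) ≤ ((Mn : ℝ) - 2) * (η * r) := by
    have h7 : M.C0 * (2 + c * r) ≤ M.C0 * ((2 + c) * r) :=
      mul_le_mul_of_nonneg_left (by nlinarith) hC0.le
    have h8 := mul_le_mul_of_nonneg_left h7 hCpos.le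
    have h9 := mul_le_mul_of_nonneg_right hMn hr0
    linarith
  have hbig' := hbig m hm
  have hbig2 : 2 * (((nf + nf : ℕ) : ℝ) * ((2 * (m : ℝ) + 1) * (C * (1 + 2 * M.C0 + |A|) *
      Real.exp (2 * (η * r) + C * (2 * M.C0 + |A|))))) ≤ Real.exp ((j : ℝ) - C) := hbig'
  have hmain := gcl_core M.μ hX P (M.gcS_add (c * r)) (M.gcS_zero (c * r)) (M.gcS_meas (c * r))
    (fun i x => M.mp _) (M.measurable_bf F b)
    (fun i k => (M.measurable_bf F b).comp (M.mp (γ i k)).measurable)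
    (τ := η * r) (by positivity) (M := Mn) hMn2 hMr
    (DD := D) (Dq := Dp) hD.meas hD.meas'
    (fun z hz i x hx => hD.sub z hz _ ((M.gcS_len hc hr0 i x hx).trans hCR2))
    (θ := ENNReal.ofReal (Real.exp (-(c1 * r)))) (θ' := ENNReal.ofReal (Real.exp (-(c1 * r))))
    (n := nf + nf) (N0 := ⌊((K' : ℝ) * (1 + Real.exp (ε * r)) / Real.exp (-(c1 * r))) ^ K'⌋₊)
    (N := ⌊Real.exp (ε * r)⌋₊ * ⌊((K' : ℝ) * (1 + Real.exp (ε * r)) /
        Real.exp (-(c1 * r))) ^ K'⌋₊)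
    (p := ⌊Real.exp (ε * r)⌋₊)
    (cI := M.mE + M.mN) (CI := Real.exp (ε * r)) (κ0 := (j : ℝ) - C)
    (B := fun z0 => {z | (M.l (z0⁻¹ * z) : ℝ) ≤ C * (q + 1)})
    (by
      intro G hG hw z0
      obtain ⟨T, hT1, hT2, hT3⟩ := hfill _ hθ0 hθ1 _ hCI0 S (M.gcS (c * r)) (M.rel _)
        (M.gcS_meas (c * r)) G hG hw z0
      exact ⟨T, Nat.le_floor hT1, hT3⟩)
    (by
      intro z0
      obtain ⟨T, hT1, hT2⟩ := h5 z0
      exact ⟨T, Nat.le_floor hT1, fun z hz => hT2 z (le_trans hz.2 hq)⟩)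
    le_rfl
    (by
      intro Γ₀ hΓ hΓD hΓθ hΓ0
      obtain ⟨z0, hz0⟩ := hsp q j _ m' (ENNReal.ofReal (Real.exp (-(c1 * r)))) D Dp hD.fin hμp
        (fun z hz g hg => hD.sub z hz g (hg.trans (hq.trans hCR1)))
        (enn_ineq hCpos.le hθ0 hlt) Γ₀ hΓ hΓD hΓθ hΓ0
      refine ⟨z0, fun Y φ hY hφ => ?_⟩
      obtain ⟨z, hz, z', hz', e1, _, e3⟩ := hz0 Y φ hY hφ
      exact ⟨z, hz, z', hz', e1, e3⟩)
    hbig2
  refine le_trans (le_trans (le_of_eq rfl) hmain) ?_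
  exact final_comp hθ0.le hμp hfin

theorem gcl_of_gclp (h : M.GCLp) : M.GCL := fun K A c hc => h K A c 1 hc

end RModel

end Vale.Agent.P188.Z1

end

section

/-!
# P188, Z1, block LAB, part 1: test boxes, flat maps, uniqueness of the linear part
-/

set_option linter.all false

open MeasureTheory Set
open scoped ENNReal

namespace Vale.Agent.P188.Z1.Lab

variable {S : Type} [Group S] [MeasurableSpace S] {Γ : Type} [Group Γ]
  {V : Type} [AddCommGroup V] [Module ℝ V] {k : ℕ} {M : RModel S Γ V k}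

/-- Test boxes: bounded sets, approximately invariant under right translations by elements of
length `≤ r`, which overlap with their left translates by short elements. -/
structure TB (M : RModel S Γ V k) (r κ c A : ℝ) (D : Set S) : Prop where
  meas : MeasurableSet D
  pos : M.μ D ≠ 0
  fin : M.μ D ≠ ⊤
  bd : ∃ ρ : ℝ, ∀ z ∈ D, (M.l z : ℝ) ≤ ρ
  hts : ∀ z ∈ D, ‖M.θ z‖ ≤ A
  fol : ∀ g, (M.l g : ℝ) ≤ r → M.μ {z | z ∈ D ∧ z * g ∉ D} ≤ ENNReal.ofReal κ * M.μ D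
  ov : ∀ g, M.l g ≤ 1 → ENNReal.ofReal c * M.μ D ≤ M.μ {z | z ∈ D ∧ g * z ∈ D}

/-- `f - T θ` is almost constant on `D` -/
def Flt (M : RModel S Γ V k) (f : S → Ht k) (D : Set S) (T : Ht k →L[ℝ] Ht k) (δ ε : ℝ) : Prop :=
  ∃ c : Ht k, M.μ {z | z ∈ D ∧ δ < ‖f z - c - T (M.θ z)‖} ≤ ENNReal.ofReal ε * M.μ D

theorem Flt.mono {f : S → Ht k} {D : Set S} {T : Ht k →L[ℝ] Ht k} {δ δ' ε ε' : ℝ}
    (h : Flt M f D T δ ε) (hδ : δ ≤ δ') (hε : ε ≤ ε') : Flt M f D T δ' ε' := by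
  obtain ⟨c, hc⟩ := h
  refine ⟨c, (measure_mono ?_).trans (hc.trans ?_)⟩
  · rintro z ⟨hz, h1⟩
    exact ⟨hz, hδ.trans_lt h1⟩
  · gcongr

/-- change of the function -/
theorem Flt.congr {f f' : S → Ht k} {D : Set S} {T : Ht k →L[ℝ] Ht k} {δ δ' ε : ℝ}
    (h : Flt M f D T δ ε) (hf : ∀ z ∈ D, ‖f' z - f z‖ ≤ δ') : Flt M f' D T (δ + δ') ε := by
  obtain ⟨c, hc⟩ := h
  refine ⟨c, (measure_mono ?_).trans hc⟩
  rintro z ⟨hz, h1⟩
  refine ⟨hz, ?_⟩
  by_contra h2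
  rw [not_lt] at h2
  have h3 := hf z hz
  have h4 : f' z - c - T (M.θ z) = (f z - c - T (M.θ z)) + (f' z - f z) := by abel
  rw [h4] at h1
  have := norm_add_le (f z - c - T (M.θ z)) (f' z - f z)
  linarith

/-- change of the linear map -/
theorem Flt.congrT {f : S → Ht k} {D : Set S} {T T' : Ht k →L[ℝ] Ht k} {δ ε A t : ℝ}
    (h : Flt M f D T δ ε) (hA : ∀ z ∈ D, ‖M.θ z‖ ≤ A) (ht : ‖T' - T‖ ≤ t) :
    Flt M f D T' (δ + t * A) ε := by
  obtain ⟨c, hc⟩ := h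
  refine ⟨c, (measure_mono ?_).trans hc⟩
  rintro z ⟨hz, h1⟩
  refine ⟨hz, ?_⟩
  by_contra h2
  rw [not_lt] at h2
  have h3 := hA z hz
  have h4 : f z - c - T' (M.θ z) = (f z - c - T (M.θ z)) - (T' - T) (M.θ z) := by
    rw [ContinuousLinearMap.sub_apply]; abel
  rw [h4] at h1
  have h5 := norm_sub_le (f z - c - T (M.θ z)) ((T' - T) (M.θ z))
  have h6 := (T' - T).le_opNorm (M.θ z)
  have h7 : ‖T' - T‖ * ‖M.θ z‖ ≤ t * A :=
    mul_le_mul ht h3 (norm_nonneg _) ((norm_nonneg _).trans ht)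
  linarith

theorem preimage_right (w : S) (A : Set S) : M.μ {z | z * w ∈ A} = M.μ A := by
  haveI := M.mm
  have h := (M.mp w).measure_preimage_equiv (f := MeasurableEquiv.mulRight w) A
  exact h

theorem preimage_left (w : S) (A : Set S) : M.μ {z | w * z ∈ A} = M.μ A := by
  haveI := M.mm
  have h := (M.mpl w).measure_preimage_equiv (f := MeasurableEquiv.mulLeft w) A
  exact h

/-- **Uniqueness of the linear part**, for two overlapping locations. -/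
theorem uniq {r κ c A : ℝ} {D : Set S} (hD : TB M r κ c A D) {h : S → Ht k}
    {T T' : Ht k →L[ℝ] Ht k} {δ δ' ε ε' : ℝ} {g : S} (hg : M.l g ≤ 1) (h1 : Flt M h D T δ ε)
    (h2 : Flt M (fun z => h (g * z)) D T' δ' ε') (hκ : 0 ≤ κ) (hε : 0 ≤ ε) (hε' : 0 ≤ ε')
    (hc : 2 * κ + 2 * ε + 2 * ε' < c) {u : S} (hu : (M.l u : ℝ) ≤ r) :
    ‖(T - T') (M.θ u)‖ ≤ 2 * δ + 2 * δ' := by
  obtain ⟨c₁, hc₁⟩ := h1
  obtain ⟨c₂, hc₂⟩ := h2
  set E₁ := {z | z ∈ D ∧ δ < ‖h z - c₁ - T (M.θ z)‖} with hE₁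
  set E₂ := {z | z ∈ D ∧ δ' < ‖h (g * z) - c₂ - T' (M.θ z)‖} with hE₂
  have hex : ∃ z, z ∈ D ∧ g * z ∈ D ∧ z * u ∈ D ∧ g * z * u ∈ D ∧ g * z ∉ E₁ ∧ g * z * u ∉ E₁ ∧
      z ∉ E₂ ∧ z * u ∉ E₂ := by
    by_contra hcon
    push Not at hcon
    have hsub : {z | z ∈ D ∧ g * z ∈ D} ⊆ {z | z ∈ D ∧ z * u ∉ D} ∪
        ({z | g * z ∈ {y | y ∈ D ∧ y * u ∉ D}} ∪ ({z | g * z ∈ E₁} ∪
          ({z | g * z ∈ {y | y * u ∈ E₁}} ∪ (E₂ ∪ {z | z * u ∈ E₂})))) := by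
      rintro z ⟨hz1, hz2⟩
      by_contra hz
      simp only [mem_union, mem_setOf_eq, not_or, not_and, not_not] at hz
      obtain ⟨a1, a2, a3, a4, a5, a6⟩ := hz
      exact a6 (hcon z hz1 hz2 (a1 hz1) (a2 hz2) a3 a4 a5)
    have hμ := (hD.ov g hg).trans (measure_mono hsub)
    have b1 := hD.fol u hu
    have b2 : M.μ {z | g * z ∈ {y | y ∈ D ∧ y * u ∉ D}} ≤ ENNReal.ofReal κ * M.μ D := by
      rw [preimage_left]; exact b1
    have b3 : M.μ {z | g * z ∈ E₁} ≤ ENNReal.ofReal ε * M.μ D := by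
      rw [preimage_left]; exact hc₁
    have b4 : M.μ {z | g * z ∈ {y | y * u ∈ E₁}} ≤ ENNReal.ofReal ε * M.μ D := by
      rw [preimage_left, preimage_right]; exact hc₁
    have b6 : M.μ {z | z * u ∈ E₂} ≤ ENNReal.ofReal ε' * M.μ D := by
      rw [preimage_right]; exact hc₂
    have hsum := hμ.trans ((measure_union_le _ _).trans (add_le_add b1 ((measure_union_le _ _).trans
      (add_le_add b2 ((measure_union_le _ _).trans (add_le_add b3 ((measure_union_le _ _).trans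
      (add_le_add b4 ((measure_union_le _ _).trans (add_le_add hc₂ b6))))))))))
    rw [← add_mul, ← add_mul, ← add_mul, ← add_mul, ← add_mul, ← ENNReal.ofReal_add hε' hε',
      ← ENNReal.ofReal_add hε (by positivity), ← ENNReal.ofReal_add hε (by positivity),
      ← ENNReal.ofReal_add hκ (by positivity), ← ENNReal.ofReal_add hκ (by positivity)] at hsum
    have h3 : ENNReal.ofReal (κ + (κ + (ε + (ε + (ε' + ε'))))) * M.μ D <
        ENNReal.ofReal c * M.μ D := by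
      refine (ENNReal.mul_lt_mul_iff_left hD.pos hD.fin).2 ?_
      refine (ENNReal.ofReal_lt_ofReal_iff_of_nonneg (by positivity)).2 (by linarith)
    exact absurd h3 (not_lt.2 hsum)
  obtain ⟨z, z1, z2, z3, z4, z5, z6, z7, z8⟩ := hex
  simp only [hE₁, hE₂, mem_setOf_eq, not_and, not_lt] at z5 z6 z7 z8
  have e5 := z5 z2
  have e6 := z6 z4
  have e7 := z7 z1
  have e8 := z8 z3
  rw [← mul_assoc] at e8
  rw [M.θ_mul] at e5 e8
  rw [M.θ_mul, M.θ_mul] at e6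
  rw [map_add] at e5 e8
  rw [map_add, map_add] at e6
  have key : (T - T') (M.θ u) = -(h (g * z * u) - c₁ - (T (M.θ g) + T (M.θ z) + T (M.θ u)))
      + (h (g * z * u) - c₂ - (T' (M.θ z) + T' (M.θ u)))
      + (h (g * z) - c₁ - (T (M.θ g) + T (M.θ z))) - (h (g * z) - c₂ - T' (M.θ z)) := by
    rw [ContinuousLinearMap.sub_apply]; abel
  rw [key]
  have n1 := norm_sub_le (-(h (g * z * u) - c₁ - (T (M.θ g) + T (M.θ z) + T (M.θ u)))
      + (h (g * z * u) - c₂ - (T' (M.θ z) + T' (M.θ u)))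
      + (h (g * z) - c₁ - (T (M.θ g) + T (M.θ z)))) (h (g * z) - c₂ - T' (M.θ z))
  have n2 := norm_add₃_le (a := -(h (g * z * u) - c₁ - (T (M.θ g) + T (M.θ z) + T (M.θ u))))
    (b := h (g * z * u) - c₂ - (T' (M.θ z) + T' (M.θ u)))
    (c := h (g * z) - c₁ - (T (M.θ g) + T (M.θ z)))
  rw [norm_neg] at n2
  linarith

/-- the norm of a linear map from its values on heights of short elements -/
theorem norm_of_heights (M : RModel S Γ V k) : ∃ C : ℝ, 1 ≤ C ∧ ∀ r : ℝ, C ≤ r →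
    ∀ (B : Ht k →L[ℝ] Ht k) (δ : ℝ), 0 ≤ δ →
    (∀ u : S, (M.l u : ℝ) ≤ r → ‖B (M.θ u)‖ ≤ δ) → ‖B‖ ≤ C * δ / r := by
  -- the lengths of the generators
  obtain ⟨L, hL1, hL⟩ : ∃ L : ℝ, 1 ≤ L ∧ ∀ i : Fin k, (M.l (M.τ (Pi.single i 1)) : ℝ) ≤ L := by
    refine ⟨1 + ∑ i : Fin k, (M.l (M.τ (Pi.single i 1)) : ℝ), ?_, fun i => ?_⟩
    · have : 0 ≤ ∑ i : Fin k, (M.l (M.τ (Pi.single i 1)) : ℝ) :=
        Finset.sum_nonneg fun i _ => Nat.cast_nonneg _
      linarith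
    · have h1 : (M.l (M.τ (Pi.single i 1)) : ℝ) ≤ ∑ i : Fin k, (M.l (M.τ (Pi.single i 1)) : ℝ) :=
        Finset.single_le_sum (f := fun i : Fin k => (M.l (M.τ (Pi.single i 1)) : ℝ))
          (fun j _ => Nat.cast_nonneg _) (Finset.mem_univ i)
      linarith
  refine ⟨2 * (k + 1) * L, by nlinarith [(Nat.cast_nonneg k : (0:ℝ) ≤ k)], ?_⟩
  intro r hr B δ hδ h
  have hk : (0 : ℝ) ≤ k := Nat.cast_nonneg k
  have hr2 : 2 * L ≤ r := by nlinarith
  have hr0 : 0 < r := by linarith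
  set n := ⌊r / L⌋₊ with hn
  have hn1 : (n : ℝ) ≤ r / L := Nat.floor_le (by positivity)
  have hn2 : r / (2 * L) ≤ n := by
    have h1 := Nat.lt_floor_add_one (r / L)
    have h2 : 1 ≤ r / (2 * L) := by rw [le_div_iff₀ (by positivity)]; linarith
    have h3 : r / L = 2 * (r / (2 * L)) := by field_simp
    rw [← hn] at h1
    linarith
  have hn0 : 0 < (n : ℝ) := lt_of_lt_of_le (by positivity) hn2
  have hpow : ∀ (t : S) (m : ℕ), (M.l (t ^ m) : ℝ) ≤ m * M.l t := by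
    intro t m
    induction m with
    | zero => simp [M.len.one]
    | succ m ih =>
      rw [pow_succ]
      have := M.len.mul (t ^ m) t
      have h2 : (M.l (t ^ m * t) : ℝ) ≤ M.l (t ^ m) + M.l t := by exact_mod_cast this
      push_cast
      linarith
  have hθ : ∀ (t : S) (m : ℕ), M.θ (t ^ m) = (m : ℝ) • M.θ t := by
    intro t m
    induction m with
    | zero => simp [M.θ_one]
    | succ m ih =>
      rw [pow_succ, M.θ_mul, ih, Nat.cast_succ, add_smul, one_smul]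
  have hB : ∀ i : Fin k, ‖B (Pi.single i 1)‖ ≤ δ * (2 * L) / r := by
    intro i
    have h1 := h (M.τ (Pi.single i 1) ^ n) ?_
    · rw [hθ, M.θ_τ] at h1
      have h2 : (fun j => ((Pi.single i (1 : ℤ) : Fin k → ℤ) j : ℝ)) =
          (Pi.single i (1 : ℝ) : Ht k) := by
        funext j
        by_cases hij : j = i
        · subst hij; simp
        · simp [Pi.single_eq_of_ne hij]
      rw [h2, map_smul, norm_smul, Real.norm_eq_abs, abs_of_pos hn0] at h1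
      have h3 : ‖B (Pi.single i 1)‖ ≤ δ / n := by
        rw [le_div_iff₀ hn0]; linarith
      refine h3.trans ?_
      rw [div_le_div_iff₀ hn0 hr0]
      have h4 : r ≤ 2 * L * n := by
        rw [div_le_iff₀ (by positivity)] at hn2; linarith
      nlinarith
    · refine (hpow _ _).trans ?_
      calc (n : ℝ) * M.l (M.τ (Pi.single i 1)) ≤ (r / L) * L :=
            mul_le_mul hn1 (hL i) (Nat.cast_nonneg _) (by positivity)
        _ = r := by field_simp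
  refine ContinuousLinearMap.opNorm_le_bound _ (by positivity) fun x => ?_
  have hx : x = ∑ i, x i • (Pi.single i (1 : ℝ) : Ht k) := by
    funext j
    simp [Finset.sum_apply, Pi.single_apply]
  conv_lhs => rw [hx]
  rw [map_sum]
  calc ‖∑ i, B (x i • (Pi.single i (1 : ℝ) : Ht k))‖
      ≤ ∑ i : Fin k, ‖B (x i • (Pi.single i (1 : ℝ) : Ht k))‖ := norm_sum_le _ _
    _ ≤ ∑ i : Fin k, ‖x‖ * (δ * (2 * L) / r) := by
        refine Finset.sum_le_sum fun i _ => ?_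
        rw [map_smul, norm_smul]
        exact mul_le_mul (norm_le_pi_norm x i) (hB i) (norm_nonneg _) (norm_nonneg _)
    _ = k * (‖x‖ * (δ * (2 * L) / r)) := by simp
    _ ≤ 2 * (k + 1) * L * δ / r * ‖x‖ := by
        have : 0 ≤ ‖x‖ * (δ * (2 * L) / r) := by positivity
        have h5 : 2 * (k + 1) * L * δ / r * ‖x‖ = (k + 1) * (‖x‖ * (δ * (2 * L) / r)) := by ring
        rw [h5]
        nlinarith

/-- Uniqueness of the linear part, norm form. -/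
theorem uniq_norm (M : RModel S Γ V k) : ∃ C : ℝ, 1 ≤ C ∧ ∀ (r κ c A : ℝ) (D : Set S),
    TB M r κ c A D → C ≤ r → 0 ≤ κ → ∀ (h : S → Ht k) (T T' : Ht k →L[ℝ] Ht k)
    (δ ε : ℝ) (g : S), M.l g ≤ 1 → 0 ≤ δ → 0 ≤ ε → 2 * κ + 4 * ε < c →
    Flt M h D T δ ε → Flt M (fun z => h (g * z)) D T' δ ε → ‖T - T'‖ ≤ C * δ / r := by
  obtain ⟨C, hC, h⟩ := norm_of_heights M
  refine ⟨4 * C, by linarith, ?_⟩
  intro r κ c A D hD hr hκ f T T' δ ε g hg hδ hε hc h1 h2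
  have := h r (by linarith) (T - T') (4 * δ) (by linarith) fun u hu => by
    have := uniq hD hg h1 h2 hκ hε hε (by linarith) hu
    linarith
  refine this.trans (le_of_eq (by ring))

end Vale.Agent.P188.Z1.Lab

end

section

/-!
# P188, FLATG in the model, final assembly, part L: labels

From `STRAIGHT` (labels are sets of functionals) to a finite type of labels, `StrSc`, `LabD`.
-/

set_option linter.all false

open MeasureTheory Set Filter
open Vale.Agent.P188.H530 (hgt)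
open Vale.Agent.P188.H616 (Coord Sec Phi slide Script StrAt badR badL)

namespace Vale.Agent.P188.Z1.RModel.F6

variable {S : Type} [Group S] [MeasurableSpace S] {Γ : Type} [Group Γ]
  {V : Type} [AddCommGroup V] [Module ℝ V] {k : ℕ} (M : RModel S Γ V k)

/-! ### the finite type of good labels -/

section labels

variable {Φ₁ : Finset (Ht k →L[ℝ] ℝ)} {V₁ : Finset (Fin k → ℤ)}

/-- the sets of functionals -/
def upL (a : V₁ → Set Φ₁) : V₁ → Set (Ht k →L[ℝ] ℝ) := fun v => Subtype.val '' a v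

theorem upL_inj {a a' : V₁ → Set Φ₁} (h : upL a = upL a') : a = a' := by
  funext v
  exact Subtype.val_injective.image_injective (congrFun h v)

theorem exists_upL {a : V₁ → Set (Ht k →L[ℝ] ℝ)} (h : ∀ v, a v ⊆ ↑Φ₁) :
    ∃ a' : V₁ → Set Φ₁, upL a' = a := by
  refine ⟨fun v => Subtype.val ⁻¹' a v, ?_⟩
  funext v
  ext b
  constructor
  · rintro ⟨b', hb', rfl⟩
    exact hb'
  · intro hb
    exact ⟨⟨b, h v hb⟩, hb, rfl⟩

/-- the type of the good labels -/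
def Lb (Φ₁ : Finset (Ht k →L[ℝ] ℝ)) (V₁ : Finset (Fin k → ℤ)) (c₀ L : ℝ)
    (T : (V₁ → Set (Ht k →L[ℝ] ℝ)) → (Ht k →L[ℝ] Ht k)) : Type :=
  {a : V₁ → Set Φ₁ // GoodLab Φ₁ V₁ c₀ L (T (upL a)) (upL a)}

variable {c₀ L : ℝ} {T : (V₁ → Set (Ht k →L[ℝ] ℝ)) → (Ht k →L[ℝ] Ht k)}

noncomputable instance : Fintype (Lb Φ₁ V₁ c₀ L T) := by
  classical
  exact Subtype.fintype _

instance : MeasurableSpace (Lb Φ₁ V₁ c₀ L T) := ⊤

instance : MeasurableSingletonClass (Lb Φ₁ V₁ c₀ L T) := ⟨fun _ => trivial⟩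

/-- the label as a family of sets of functionals -/
def Lb.lab (x : Lb Φ₁ V₁ c₀ L T) : V₁ → Set (Ht k →L[ℝ] ℝ) := upL x.1

/-- the linear map of a label -/
def Lb.lin (x : Lb Φ₁ V₁ c₀ L T) : Ht k →L[ℝ] Ht k := T x.lab

theorem Lb.good (x : Lb Φ₁ V₁ c₀ L T) : GoodLab Φ₁ V₁ c₀ L x.lin x.lab := x.2

theorem Lb.ext {x y : Lb Φ₁ V₁ c₀ L T} (h : x.lab = y.lab) : x = y :=
  Subtype.ext (upL_inj h)

/-- the bound of the number of labels -/
noncomputable def NLb (Φ₁ : Finset (Ht k →L[ℝ] ℝ)) (V₁ : Finset (Fin k → ℤ)) : ℕ :=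
  Nat.card (V₁ → Set Φ₁)

theorem Lb.card_le : Fintype.card (Lb Φ₁ V₁ c₀ L T) ≤ NLb Φ₁ V₁ := by
  classical
  rw [NLb, ← Nat.card_eq_fintype_card]
  exact Nat.card_le_card_of_injective _ Subtype.val_injective

open Classical in
/-- the positive functionals of a label in a direction -/
noncomputable def Lb.P (v : Fin k → ℤ) (x : Lb Φ₁ V₁ c₀ L T) : Set Φ₁ :=
  if h : v ∈ V₁ then x.1 ⟨v, h⟩ else ∅

theorem Lb.P_of {v : Fin k → ℤ} (h : v ∈ V₁) (x : Lb Φ₁ V₁ c₀ L T) : Lb.P v x = x.1 ⟨v, h⟩ := by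
  rw [Lb.P, dif_pos h]

theorem Lb.mem_P {v : Fin k → ℤ} (h : v ∈ V₁) (x : Lb Φ₁ V₁ c₀ L T) (b : Φ₁) :
    b ∈ Lb.P v x ↔ (b : Ht k →L[ℝ] ℝ) ∈ x.lab ⟨v, h⟩ := by
  rw [Lb.P_of h]
  show b ∈ x.1 ⟨v, h⟩ ↔ (b : Ht k →L[ℝ] ℝ) ∈ Subtype.val '' x.1 ⟨v, h⟩
  constructor
  · intro hb; exact ⟨b, hb, rfl⟩
  · rintro ⟨b', hb', he⟩
    rwa [← Subtype.ext he]

theorem Lb.norm_T_le (x : Lb Φ₁ V₁ c₀ L T) : ‖x.lin‖ ≤ L := x.good.norm_le

theorem ht_neg (v : Fin k → ℤ) : ht (-v) = -ht v := by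
  funext i; simp [ht]

/-- complementary labels in opposite directions -/
theorem Lb.mem_neg (hc₀ : 0 < c₀) {v : Fin k → ℤ} (h : v ∈ V₁) (h' : -v ∈ V₁)
    (x : Lb Φ₁ V₁ c₀ L T) (b : Φ₁) : b ∈ Lb.P (-v) x ↔ b ∉ Lb.P v x := by
  rw [Lb.mem_P h', Lb.mem_P h]
  have e : (b : Ht k →L[ℝ] ℝ) (x.lin (ht (-v))) = -(b : Ht k →L[ℝ] ℝ) (x.lin (ht v)) := by
    rw [ht_neg, map_neg, map_neg]
  constructor
  · intro h1 h2
    have h3 := x.good.pos ⟨-v, h'⟩ b b.2 h1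
    have h4 := x.good.pos ⟨v, h⟩ b b.2 h2
    simp only at h3 h4
    rw [e] at h3
    linarith
  · intro h1
    by_contra h2
    have h3 := x.good.neg ⟨-v, h'⟩ b b.2 h2
    have h4 := x.good.neg ⟨v, h⟩ b b.2 h1
    simp only at h3 h4
    rw [e] at h3
    linarith

theorem Lb.labD (hΦ : M.Rays Φ₁) (hV : M.Dirs Φ₁ V₁) (hc₀ : 0 < c₀) :
    LabD M Φ₁ V₁ (Lb.lin (c₀ := c₀) (L := L) (T := T)) (Lb.P (c₀ := c₀) (L := L) (T := T)) where
  sub := hΦ.sub
  pos := by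
    intro v hv a b hb
    exact hc₀.le.trans (a.good.pos ⟨v, hv⟩ b b.2 ((Lb.mem_P hv a b).1 hb))
  neg := by
    intro v hv a b hb
    exact (a.good.neg ⟨v, hv⟩ b b.2 fun h => hb ((Lb.mem_P hv a b).2 h)).trans (by linarith)
  card := by
    intro v hv a a'
    have h1 : ∀ a : Lb Φ₁ V₁ c₀ L T, (Lb.P v a).ncard = {b | b ∈ Φ₁ ∧ 0 < b (ht v)}.ncard := by
      intro a
      rw [Lb.P_of hv, ← a.good.card ⟨v, hv⟩]
      exact (ncard_image_of_injective _ Subtype.val_injective).symm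
    rw [h1, h1]
  inj := by
    intro b₀ hb₀ a a' hh
    refine Lb.ext ?_
    have key : ∀ v (hv : v ∈ V₁), Lb.P v a = Lb.P v a' := by
      intro v hv
      have hne := hV.generic v hv b₀ (M.Φ_sub hb₀) (M.Φ_ne b₀ hb₀)
      rcases lt_or_gt_of_ne hne with h1 | h1
      · have hv' := hV.neg v hv
        have h2 := hh (-v) hv' (by
          rw [ht_neg, map_neg]
          have : b₀ (ht v) < 0 := h1
          linarith)
        ext b
        have h3 : b ∈ Lb.P (-v) a ↔ b ∈ Lb.P (-v) a' := by rw [h2]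
        rw [Lb.mem_neg hc₀ hv hv', Lb.mem_neg hc₀ hv hv'] at h3
        exact not_iff_not.1 h3
      · exact hh v hv h1
    funext v
    ext b
    constructor
    · intro hb
      have hbΦ : b ∈ Φ₁ := a.good.sub v hb
      have h1 := (Lb.mem_P v.2 a ⟨b, hbΦ⟩).2 hb
      rw [key v v.2] at h1
      exact (Lb.mem_P v.2 a' ⟨b, hbΦ⟩).1 h1
    · intro hb
      have hbΦ : b ∈ Φ₁ := a'.good.sub v hb
      have h1 := (Lb.mem_P v.2 a' ⟨b, hbΦ⟩).2 hb
      rw [← key v v.2] at h1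
      exact (Lb.mem_P v.2 a ⟨b, hbΦ⟩).1 h1

end labels

/-! ### straightness at one scale -/

variable {M}

/-- **Straightness at one scale with a finite type of labels**, from `STRAIGHT`. -/
theorem exists_strSc (hS : M.STRAIGHT) (p : ℕ) (K : ℝ) {Φ₁ : Finset (Ht k →L[ℝ] ℝ)}
    (hΦ : M.Rays Φ₁) {V₁ : Finset (Fin k → ℤ)} (hV : M.Dirs Φ₁ V₁) :
    ∃ (c₀ L : ℝ), 0 < c₀ ∧ 0 ≤ L ∧ ∀ A ε κ₁ : ℝ, 0 < ε → 0 < κ₁ → ∃ d κ₂ : ℝ, 0 < d ∧ 0 < κ₂ ∧
    ∀ κ₃ δ : ℝ, 0 < κ₃ → 0 < δ → ∃ lam s₀ : ℝ, 0 < lam ∧ 0 < s₀ ∧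
    ∃ T : ℕ → (V₁ → Set (Ht k →L[ℝ] ℝ)) → (Ht k →L[ℝ] Ht k),
    ∀ s, s₀ ≤ s → ∀ (F F' : Fin p → Γ → Γ) (D Dp : Fin p → Set S),
    (∀ α, M.QIm K (F α) (F' α)) → (∀ α, M.FFat δ (κ₃ * s) κ₂ (D α) (Dp α)) →
    (∀ α, ∀ z ∈ D α, ‖M.θ z‖ ≤ A * s) →
    ∃ ρ : ℕ, lam * s ≤ ρ ∧ (ρ : ℝ) ≤ s ∧ ∀ α, ∃ σ : S → Lb Φ₁ V₁ c₀ L (T ρ), Measurable σ ∧
      StrSc M σ Lb.lin (M.f (F α)) (D α) A ε κ₁ d s := by
  obtain ⟨c₀, L, hc₀, h1⟩ := hS p K Φ₁ hΦ V₁ hV
  refine ⟨c₀, max L 0, hc₀, le_max_right _ _, ?_⟩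
  intro A ε κ₁ hε hκ₁
  obtain ⟨d, κ₂, hd, hκ₂, h2⟩ := h1 ⌈A⌉₊ 1 ε κ₁ hε hκ₁
  refine ⟨d, κ₂, hd, hκ₂, ?_⟩
  intro κ₃ δ hκ₃ hδ
  obtain ⟨lam, s₀, hlam, T, h3⟩ := h2 κ₃ δ hκ₃ hδ
  refine ⟨lam, max s₀ 1, hlam, lt_max_of_lt_right one_pos, T, ?_⟩
  intro s hs F F' D Dp hF hD hDθ
  have hs1 : 0 < s := lt_of_lt_of_le one_pos (le_trans (le_max_right _ _) hs)
  obtain ⟨ρ, hρ1, hρ2, h4⟩ := h3 s (le_trans (le_max_left _ _) hs) F F' D Dp hF hD
  refine ⟨ρ, hρ1, hρ2, ?_⟩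
  intro α
  obtain ⟨σ, hσm, hσg, hpath, hneut⟩ := h4 α
  have hA : A * s ≤ (⌈A⌉₊ : ℝ) * s := mul_le_mul_of_nonneg_right (Nat.le_ceil _) hs1.le
  have hgood : ∀ z, ∃ x : Lb Φ₁ V₁ c₀ (max L 0) (T ρ), x.lab = σ z := by
    intro z
    have h5 := hσg z
    obtain ⟨a', ha'⟩ := exists_upL h5.sub
    refine ⟨⟨a', ?_⟩, ha'⟩
    rw [ha']
    exact ⟨h5.sub, h5.norm_le.trans (le_max_left _ _), h5.pos, h5.neg, h5.card⟩
  choose σ' hσ' using hgood
  have hσ'T : ∀ z, (σ' z).lin = T ρ (σ z) := fun z => by rw [Lb.lin, hσ']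
  have hiff : ∀ z z', σ' z ≠ σ' z' ↔ σ z ≠ σ z' := by
    intro z z'
    refine not_congr ⟨fun h => ?_, fun h => ?_⟩
    · rw [← hσ', ← hσ', h]
    · exact Lb.ext (by rw [hσ', hσ', h])
  have hinD : ∀ z : S, z ∈ M.In (κ₁ * s) (D α) → z ∈ D α := by
    intro z hz
    have h5 := hz 1 (by
      rw [M.len.one]
      have : 0 ≤ κ₁ * s := by positivity
      simpa using this)
    rwa [mul_one] at h5
  refine ⟨σ', ?_, ?_, ?_⟩
  · refine measurable_to_countable' fun x => ?_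
    have : σ' ⁻¹' {x} = {z | σ z = x.lab} := by
      ext z
      constructor
      · intro h5
        show σ z = x.lab
        rw [← hσ', show σ' z = x from h5]
      · intro h5
        show σ' z = x
        exact Lb.ext (by rw [hσ']; exact h5)
    rw [this]
    exact hσm _
  · intro n hn q hq0 hqs Din hDin
    have h5 := hpath n (hn.trans hA) q hq0 hqs Din hDin
    refine le_trans (measure_mono ?_) h5
    rintro z ⟨hz, hz2⟩
    refine ⟨hz, ?_⟩
    rcases hz2 with hz2 | ⟨i, hi, hz2⟩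
    · exact Or.inl ((hiff _ _).1 hz2)
    · refine Or.inr ⟨i, hi, ?_⟩
      rwa [hσ'T] at hz2
  · intro y hy Din hDin
    have h5 := hneut y hy Din (fun z hz => ⟨?_, hDin z hz⟩)
    · refine le_trans (measure_mono ?_) h5
      rintro z ⟨hz, hz2⟩
      refine ⟨hz, ?_⟩
      rcases hz2 with hz2 | hz2
      · exact Or.inl ((hiff _ _).1 hz2)
      · exact Or.inr hz2
    · have h6 := hDin z hz 0 le_rfl zero_le_one
      rw [zero_smul, M.ex_zero, mul_one] at h6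
      exact (hDθ α z (hinD z h6)).trans hA

end Vale.Agent.P188.Z1.RModel.F6

end

section

/-!
# P188, FLATG in the model: the theorem
-/

set_option linter.all false

open MeasureTheory Set Filter
open Vale.Agent.P188.H530 (hgt)
open Vale.Agent.P188.H616 (Coord Sec Phi slide Script StrAt badR badL)

namespace Vale.Agent.P188.Z1.RModel.F6

variable {S : Type} [Group S] [MeasurableSpace S] {Γ : Type} [Group Γ]
  {V : Type} [AddCommGroup V] [Module ℝ V] {k : ℕ} {M : RModel S Γ V k}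

theorem DF_mono4 (B : M.NatBox) {h : (Ht k →L[ℝ] ℝ) → ℝ} {Λ d₁ κ4 κ4' s : ℝ} {g : S}
    (hκ : κ4' ≤ κ4) (hs : 0 ≤ s) : DF B h Λ d₁ κ4' s g ⊆ DF B h Λ d₁ κ4 s g :=
  fun _ hz => ⟨hz.1, hz.2.trans (mul_le_mul_of_nonneg_right hκ hs)⟩

theorem num_min3 {a b c : ℝ} (ha : 0 < a) (hb : 0 < b) (hc : 0 < c) :
    ∃ x : ℝ, 0 < x ∧ x ≤ a ∧ x ≤ b ∧ x ≤ c :=
  ⟨min a (min b c), lt_min ha (lt_min hb hc), min_le_left _ _,
    (min_le_right _ _).trans (min_le_left _ _), (min_le_right _ _).trans (min_le_right _ _)⟩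

theorem num_max4 (a b c d : ℝ) : ∃ x : ℝ, a ≤ x ∧ b ≤ x ∧ c ≤ x ∧ d ≤ x :=
  ⟨max (max a b) (max c d), (le_max_left _ _).trans (le_max_left _ _),
    (le_max_right _ _).trans (le_max_left _ _), (le_max_left _ _).trans (le_max_right _ _),
    (le_max_right _ _).trans (le_max_right _ _)⟩

theorem num_κ4 {κ4 AN κ₅ b a₁ a₂ : ℝ} (h1 : 0 < κ4) (h2 : 0 < AN) (h3 : 0 < κ₅) (hb : 0 < b)
    (ha₁ : 0 < a₁) (ha₂ : 0 < a₂) : ∃ x : ℝ, 0 < x ∧ x ≤ κ4 ∧ x ≤ 1 ∧ x ≤ AN ∧ x ≤ κ₅ ∧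
      b * x ≤ a₁ ∧ 4 * (b * x) ≤ a₂ := by
  obtain ⟨x, hx, x1, x2, x3⟩ := num_min3 h1 h2 h3
  obtain ⟨y, hy, y1, y2, y3⟩ := num_min3 one_pos (show 0 < a₁ / b by positivity)
    (show 0 < a₂ / (4 * b) by positivity)
  rw [le_div_iff₀ hb] at y2
  rw [le_div_iff₀ (by positivity)] at y3
  have hmx : min x y ≤ x := min_le_left _ _
  have hmy : min x y ≤ y := min_le_right _ _
  have hbm : b * min x y ≤ b * y := mul_le_mul_of_nonneg_left hmy hb.le
  exact ⟨min x y, lt_min hx hy, hmx.trans x1, hmy.trans y1, hmx.trans x2, hmx.trans x3,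
    by linarith, by linarith⟩

/-- **FLATG** (general windows), from STRAIGHT, SPREAD and the box sets. -/
theorem flatg_of (hS : M.STRAIGHT) (hSp : M.SPREAD) (B : M.NatBox) (hD : M.DBOXH B)
    (hV : M.DVOLH B) : M.FLATG B := by
  classical
  intro p K Φ₁ hΦ V₁ hV₁ c₂ hc₂
  obtain ⟨c₀, L, hc₀, hL0, hST⟩ := exists_strSc hS p K hΦ hV₁
  obtain ⟨C, hC, hpk⟩ := exists_pack (M := M) B
  obtain ⟨c₁, hc₁, hCc₁⟩ := num_lt (C := C) (by linarith) hc₂
  refine ⟨c₀, L, c₁, hc₀, hc₁, ?_⟩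
  intro ε κ A hε hκ hκ1
  have hC0 := M.C0_pos
  have hBC := B.one_le
  have hBC0 : 0 < B.C := by linarith
  have hL1 := one_le_L1 B
  have hb0 : 0 < bΦ M := lt_of_lt_of_le one_pos (one_le_bΦ M)
  have hΛm : 1 ≤ B.C * L1 B := one_le_mul_of_one_le_of_one_le hBC hL1
  -- the net
  obtain ⟨κw, hκw0, hκwκ, hκw2, -⟩ := num_min3 hκ (show (0 : ℝ) < 1 / 2 by norm_num) one_pos
  obtain ⟨κ₅, η, hκ₅, hη, hthr⟩ := num_κ₅ B.m (Lf := max (M.lnLf K) 0) (L := L) (C0 := M.C0) (C := C)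
    (le_max_right _ _) hL0 hC0.le (by linarith) hε
  obtain ⟨n, AN, hAN, hpk⟩ := hpk c₂ κw κ₅ hc₂ hκw0 hκw2 hκ₅
  obtain ⟨δ, hδ0, hδ1, hfol⟩ := B.fol (ε / 2) (by linarith)
  -- the letters
  obtain ⟨κ', κ4₀, κp, Λ3, AS, hκ', hκ'2, -, hκ4₀, -, hκp, -, hΛ3, hNF⟩ :=
    nofold_letter hSp B K hV₁ hc₂ (NLb Φ₁ V₁) (Λm := B.C * L1 B) (Λ_L := B.C) (η := η)
      (κmax := 1) (A_g := 2 * c₂⁻¹ + 1) hΛm hBC0 hη one_pos
  obtain ⟨κ4, hκ4, hκ4₀', hκ41, hκ4N, hκ45, hb4, h4'⟩ := num_κ4 hκ4₀ hAN hκ₅ hb0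
    (show 0 < κw / 4 * c₂ by positivity) (show 0 < κ' * c₂ by positivity)
  -- the box
  obtain ⟨κD, hκD, hκDw, hκD', hκDp⟩ := num_min3 (show 0 < κw / 4 by positivity)
    (show 0 < κ' / 4 by positivity) (show 0 < κp / 2 by positivity)
  have hκD1 : κD < 1 := by linarith
  obtain ⟨ΛD, hΛD, hΛD', hΛD1, -⟩ := num_max4 (B.C * (B.C * (B.C * (B.C * L1 B)))) (B.C * Λ3) 1 1
  have hΛD0 : 0 < ΛD := by linarith
  obtain ⟨κS, hκS, hCκS⟩ := num_lt (C := C) (by linarith) (show 0 < κD * c₂ by positivity)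
  obtain ⟨Cw, hCw, hbdd⟩ := DboxH_bdd B hc₂
  obtain ⟨AT, hAN', hAS', hAg', hCw'⟩ := num_max4 AN AS (2 * c₂⁻¹ + 1) Cw
  obtain ⟨CV, hvol⟩ := hV c₂ hc₂ κD κ4 ΛD δ hκD hκD1 hκ4 hΛD0 hδ0
  obtain ⟨θ, hθ, hθn⟩ := num_θ B.m n (CV := max CV 0) (le_max_right _ _) hε
  obtain ⟨εS, hεS, hNF⟩ := hNF θ hθ
  obtain ⟨εT, hεT, hεTS, hεTη, hεTθ⟩ := num_min3 hεS hη hθ
  obtain ⟨d, κ₂, hd, hκ₂, hST⟩ := hST AT εT κS hεT hκS
  obtain ⟨κ₁, hκ₁, hDB⟩ := hD c₂ hc₂ κD hκD hκD1 ΛD hΛD0 κ₂ hκ₂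
  refine ⟨d / 2, by linarith, fun d₁ hd₁ hd₁d => ?_⟩
  have hδS : 0 < d₁ / (2 * κ₁) := by positivity
  obtain ⟨lam, s₀, hlam, hs₀, T, hST⟩ := hST κ₁ (d₁ / (2 * κ₁)) hκ₁ hδS
  obtain ⟨s₁, hDB⟩ := hDB d₁ (d₁ / (2 * κ₁)) hd₁ hδS (by
    have : d₁ / (2 * κ₁) * κ₁ = d₁ / 2 := by field_simp
    linarith)
  obtain ⟨s₂, hvol⟩ := hvol d₁ hd₁
  have hev := (hpk κ A c₁ d₁ κ4 κ' κp κS δ Λ3 AS AT κD ΛD hc₁.le hCc₁ hκwκ hd₁ hκ' hκ'2 hκ4.le hκ41
    hκ4N hκ45 hb4 h4' hκp hΛ3 hδ0 hκS.le hκD hCκS hκDw hκD' hκDp hΛD hΛD' hAN').and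
    ((hNF d₁ hd₁).and (ev_hAd B (d₁ := d₁) (dm := d) (A := κ4) (by linarith)))
  obtain ⟨s₃, hev⟩ := eventually_atTop.1 hev
  obtain ⟨sm, hm0, hm1, hm2, hm3⟩ := num_max4 s₀ s₁ s₂ s₃
  refine ⟨lam, sm, hlam, T, ?_⟩
  intro s hs h hh F F' hQ
  have hs0 : 0 ≤ s := by linarith
  obtain ⟨hP, hNFs, hAd⟩ := hev s (hm3.trans hs)
  obtain ⟨Dp, hDp⟩ := hDB s (hm1.trans hs) h hh.bd
  obtain ⟨ρ, hρ1, hρ2, hσ⟩ := hST s (hm0.trans hs) F F' (fun _ => B.DboxH h ΛD d₁ κD s)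
    (fun _ => Dp) hQ (fun _ => hDp) (fun _ z hz => (hbdd h hh.bd ΛD d₁ κD s hκD.le hκD1.le hs0 z
      hz).trans (mul_le_mul_of_nonneg_right hCw' hs0))
  refine ⟨ρ, hρ1, hρ2, fun α => ?_⟩
  obtain ⟨σ, hσm, hσS⟩ := hσ α
  have hvol' : M.μ (B.DboxH h ΛD d₁ κD s) ≤ ENNReal.ofReal (max CV 0) *
      M.μ (B.DsmH h δ d₁ κ4 s) := (hvol s (hm2.trans hs) h hh.bd).trans
    (mul_le_mul_left (ENNReal.ofReal_le_ofReal (le_max_left _ _)) _)
  have hthr' : (3 * B.m + 1 : ℕ) * η + M.lnLf K * (C * κ₅) + L * (M.C0 * (C * κ₅)) ≤ ε := by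
    refine le_trans ?_ hthr
    have : M.lnLf K * (C * κ₅) ≤ max (M.lnLf K) 0 * (C * κ₅) :=
      mul_le_mul_of_nonneg_right (le_max_left _ _) (by positivity)
    linarith
  obtain ⟨a, c, h1, h2⟩ := flat_scale B (hQ α) hσm hL0 (fun a => Lb.norm_T_le a) hσS (hP h hh)
    (η := η) (θ := θ) (ε := ε) (CV := max CV 0) hs0 hδ0 hδ1 hη.le hεTη hεTθ hκ4.le hε.le hθ.le
    (le_max_right _ _) hAg' (hAd h) (by
      intro i hi u hu n hn g hg hclose x hx
      have h3 := hNFs h hh (F α) (F' α) (hQ α) i hi u hu n hn g hg hclose Lb.card_le σ hσm Lb.lin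
        Lb.P (Lb.labD M hΦ hV₁ hc₀) _ AT εT κS d hAS' hεT.le hεTS hκS.le hσS (hP h hh).inn x
        (by rw [← szh_ne (M := M) (h := h) (d₁ := d₁) (s := s) hi]; exact hx)
        (B.letter _ (fun i => by
          have := (szh_pos (M := M) (h := h) (d₁ := d₁) (s := s) i).le
          positivity) i x (hx.trans (by
            have := (szh_pos (M := M) (h := h) (d₁ := d₁) (s := s) i).le
            have h5 : B.C ≤ B.C * L1 B := le_mul_of_one_le_right hBC0.le hL1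
            exact mul_le_mul_of_nonneg_right h5 this)))
      refine le_trans (measure_mono (inter_subset_inter_left _ ?_)) h3
      exact DF_mono4 B hκ4₀' hs0) (by
      intro x hx y hy
      exact hfol _ (fun i => szh_pos (M := M) i) x hx y hy) hvol' hθn hthr'
  exact ⟨a.lab, c, a.good, h1, h2⟩

end Vale.Agent.P188.Z1.RModel.F6

end
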