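import Vale.Agent.P188.R.G082

section

/-!
# P188, Z1, block COH, part 2: the coarse inverse
-/

set_option linter.all false

open MeasureTheory Set
open scoped ENNReal
open Agent.P188.H428 (IsLen)
open Vale.Agent.P188.H789 (Bl Bl_mono Bl_finite one_mem_Bl)
open Vale.Agent.P188.H530 (hgt hgt_mul Crossed Mod Tr TrP OrbMap LinAt exists_inverse)

namespace Vale.Agent.P188.Z1

namespace RModel

variable {S : Type} [Group S] [MeasurableSpace S] {Γ : Type} [Group Γ]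
  {V : Type} [AddCommGroup V] [Module ℝ V] {k : ℕ} {M : RModel S Γ V k}

/-- the points whose image cell under `F'` meets `D₁` -/
def img (M : RModel S Γ V k) (F' : Γ → Γ) (D₁ : Set S) : Set S :=
  {y | ∃ x ∈ D₁, M.fl x = F' (M.fl y)}

theorem exists_inv_fun {D₁ : Set S} {T : S → Ht k →L[ℝ] Ht k} {c₁ : ℝ} (hc₁ : 0 < c₁)
    (hc : ∀ x ∈ D₁, ∀ w, c₁ * ‖w‖ ≤ ‖T x w‖) (F' : Γ → Γ) :
    ∃ T' : S → Ht k →L[ℝ] Ht k, ∀ y ∈ M.img F' D₁, ∃ x ∈ D₁, M.fl x = F' (M.fl y) ∧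
      (∀ w, T' y (T x w) = w) ∧ (∀ w, T x (T' y w) = w) ∧ ‖T' y‖ ≤ c₁⁻¹ := by
  have h : ∀ y : S, ∃ T' : Ht k →L[ℝ] Ht k, y ∈ M.img F' D₁ → ∃ x ∈ D₁, M.fl x = F' (M.fl y) ∧
      (∀ w, T' (T x w) = w) ∧ (∀ w, T x (T' w) = w) ∧ ‖T'‖ ≤ c₁⁻¹ := by
    intro y
    by_cases hy : y ∈ M.img F' D₁
    · obtain ⟨x, hx, hxy⟩ := hy
      obtain ⟨T', h1, h2, h3⟩ := exists_inverse hc₁ (hc x hx)
      exact ⟨T', fun _ => ⟨x, hx, hxy, h1, h2, h3⟩⟩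
    · exact ⟨0, fun h => absurd h hy⟩
  choose T' hT' using h
  exact ⟨T', hT'⟩

theorem θ_fl (x : S) : ‖M.θ (M.inG (M.fl x)) - M.θ x‖ ≤ M.C0 * M.C0 := by
  rw [norm_sub_rev, ← M.θ_inv_mul]
  exact (M.θ_le _).trans (mul_le_mul_of_nonneg_left (M.fl_close x) M.C0_nn)

theorem QIm.θ_inv' {K : ℝ} {F F' : Γ → Γ} (h : M.QIm K F F') (g : Γ) :
    ‖M.θ (M.inG (F (F' g))) - M.θ (M.inG g)‖ ≤ M.C0 * K := by
  rw [← M.θ_inv_mul, ← map_inv, ← map_mul]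
  exact (M.θ_le _).trans (mul_le_mul_of_nonneg_left (h.inv' g) M.C0_nn)

theorem inv_estimate {T : Ht k →L[ℝ] Ht k} {T' : Ht k →L[ℝ] Ht k} {c₁ L a b : ℝ}
    (hT : ‖T‖ ≤ L) (h1 : ∀ w, T' (T w) = w) (h3 : ‖T'‖ ≤ c₁⁻¹) {u u' g f : Ht k}
    (hf : ‖f - T u‖ ≤ a) (hfg : ‖f - g‖ ≤ b) {c : ℝ} (hu : ‖u' - u‖ ≤ c) :
    ‖u' - T' g‖ ≤ c₁⁻¹ * (a + b + L * c) := by
  have hL : 0 ≤ L := (norm_nonneg _).trans hT
  have e : u' - T' g = T' (T (u' - u) - (f - T u) + (f - g)) := by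
    rw [map_add, map_sub, h1, map_sub, map_sub, h1]
    abel
  rw [e]
  have h4 : ‖T (u' - u) - (f - T u) + (f - g)‖ ≤ a + b + L * c := by
    refine (norm_add_le _ _).trans ?_
    have h5 : ‖T (u' - u)‖ ≤ L * c := (T.le_opNorm _).trans (by gcongr)
    have h6 := norm_sub_le (T (u' - u)) (f - T u)
    linarith
  have h7 : 0 ≤ c₁⁻¹ := (norm_nonneg _).trans h3
  exact (T'.le_opNorm _).trans (by gcongr)

theorem LinOn.diffp {K L ε κ r R : ℝ} {F F' : Γ → Γ} {D Dp D₀ : Set S}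
    {T : S → Ht k →L[ℝ] Ht k} (h : M.LinOn K L ε κ r R F F' D Dp D₀ T) (hR : 0 ≤ R) (hε : 0 ≤ ε)
    (hκ : 0 ≤ κ) : M.μ (Dp \ D₀) ≤ ENNReal.ofReal (ε + κ) * M.μ D := by
  have h3 : Dp \ D₀ ⊆ (D \ D₀) ∪ (Dp \ D) := by
    rintro z ⟨hz, hz'⟩
    by_cases hzD : z ∈ D
    · exact Or.inl ⟨hzD, hz'⟩
    · exact Or.inr ⟨hz, hzD⟩
  refine (measure_mono h3).trans ((measure_union_le _ _).trans ?_)
  rw [ENNReal.ofReal_add hε hκ, add_mul]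
  exact add_le_add h.most (h.fat.diff hR hκ)

/-- the set `G'` of TRANS with `C2 = K` -/
def Gset (M : RModel S Γ V k) (K : ℝ) (F : Γ → Γ) (D : Set S) : Set Γ :=
  {γ | ∃ z ∈ D, (M.l (M.inG (γ⁻¹ * F (M.fl z))) : ℝ) ≤ K}

/-- The part of the image without good preimages is small. -/
theorem LinOn.img_most {K L ε κ r R : ℝ} {F F' : Γ → Γ} {D Dp D₀ : Set S}
    {T : S → Ht k →L[ℝ] Ht k} (h : M.LinOn K L ε κ r R F F' D Dp D₀ T) (hε : 0 ≤ ε) (hκ : 0 ≤ κ)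
    (hR : 2 * M.C0 + K + K * (K + 1) ≤ R)
    (hm : M.μ D ≤ M.mlt (2 * K) * M.μ (M.cells (M.Gset K F D))) :
    M.μ (M.cells (M.Gset K F D) \ M.img F' D₀) ≤
      ENNReal.ofReal ((M.mlt (2 * K)).toReal ^ 2 * (ε + κ)) * M.μ (M.cells (M.Gset K F D)) := by
  have hC0 := M.C0_nn
  have hK := h.qi.nonneg
  have hR0 : 0 ≤ R := le_trans (by positivity) hR
  have h1 : M.cells (M.Gset K F D) \ M.img F' D₀ ⊆
      {z | M.fl ⁻¹' {F' (M.fl z) * 1} ⊆ Dp \ D₀} := by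
    rintro y ⟨hy, hy'⟩ x hx
    have hx' : M.fl x = F' (M.fl y) := by simpa using hx
    refine ⟨?_, fun hxD => hy' ⟨x, hxD, hx'⟩⟩
    obtain ⟨z, hz, hzy⟩ := hy
    have h2 := h.qi.inv (M.fl z)
    have h3 := h.qi.lip' (F (M.fl z)) ((F (M.fl z))⁻¹ * M.fl y)
    rw [mul_inv_cancel_left, ← hx'] at h3
    have h5 : M.l (M.inG ((F (M.fl z))⁻¹ * M.fl y)) = M.l (M.inG ((M.fl y)⁻¹ * F (M.fl z))) := by
      rw [← M.len.inv, ← map_inv]; congr 2; group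
    rw [h5] at h3
    have h6 : K * (M.l (M.inG ((M.fl y)⁻¹ * F (M.fl z))) + 1) ≤ K * (K + 1) := by gcongr
    have t0 := M.dist_fl z x
    have t1 := M.l_triR (M.inG (M.fl z)) (M.inG (F' (F (M.fl z)))) (M.inG (M.fl x))
    rw [map_mul, map_inv] at h2 h3 t0
    have := h.fat.sub z hz (z⁻¹ * x) (by linarith)
    rwa [mul_inv_cancel_left] at this
  refine (measure_mono h1).trans ((h.qi.symm.pull 1 _).trans ?_)
  have hmt : M.mlt (2 * K) ≠ ⊤ := M.mlt_ne_top _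
  have hm2 : M.mlt (2 * K) = ENNReal.ofReal (M.mlt (2 * K)).toReal :=
    (ENNReal.ofReal_toReal hmt).symm
  calc M.mlt (2 * K) * M.μ (Dp \ D₀) ≤
        M.mlt (2 * K) * (ENNReal.ofReal (ε + κ) * (M.mlt (2 * K) *
          M.μ (M.cells (M.Gset K F D)))) := by
        gcongr
        exact (h.diffp hR0 hε hκ).trans (by gcongr)
    _ = _ := by
        rw [ENNReal.ofReal_mul (by positivity), ENNReal.ofReal_pow ENNReal.toReal_nonneg, ← hm2]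
        ring

/-- The set with affine behaviour, for the coarse inverse. -/
theorem LinOn.linAt' {K L ε κ r R : ℝ} {F F' : Γ → Γ} {D Dp D₀ : Set S}
    {T : S → Ht k →L[ℝ] Ht k} (h : M.LinOn K L ε κ r R F F' D Dp D₀ T) (hε : 0 ≤ ε) (hκ : 0 ≤ κ)
    {c₁ : ℝ} {T' : S → Ht k →L[ℝ] Ht k}
    (hT' : ∀ y ∈ M.img F' D₀, ∃ x ∈ D₀, M.fl x = F' (M.fl y) ∧
      (∀ w, T' y (T x w) = w) ∧ (∀ w, T x (T' y w) = w) ∧ ‖T' y‖ ≤ c₁⁻¹)
    {N : ℕ} {δ ε₁ : ℝ} (hN : 2 * M.C0 + K * (M.C0 * N + 2 * M.C0 + 1) ≤ r)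
    (hR : 2 * M.C0 + K + K * (K + 2 * M.C0 + M.C0 * N + 1) ≤ R)
    (hδ : c₁⁻¹ * (ε * r + (2 * (M.C0 * K) + 2 * (M.C0 * M.C0)) + L * (2 * (M.C0 * M.C0))) ≤ δ)
    (h1 : (M.mlt (2 * K)).toReal ^ 2 * (ε + κ) ≤ ε₁) :
    LinAt (hgt (M.η.comp M.inG)) M.A (hgt (M.η.comp M.inG)) c₁⁻¹ M.μ (fun x g => x * M.inG g)
      (fun x => F' (M.fl x)) T' (M.cells (M.Gset K F D)) (M.img F' D₀) N δ ε₁ := by
  have hC0 := M.C0_nn
  have hK := h.qi.nonneg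
  obtain ⟨hfat, -, hm, -⟩ := h.qi.trans hκ (R' := M.C0 * N) (by positivity) h.fat le_rfl hR
  have hR2 : 2 * M.C0 + K + K * (K + 1) ≤ R := by
    refine le_trans ?_ hR
    have : K * (K + 1) ≤ K * (K + 2 * M.C0 + M.C0 * N + 1) := by
      have h0 : 0 ≤ M.C0 * N := by positivity
      gcongr
      linarith
    linarith
  have hκm : (M.mlt (2 * K)).toReal ^ 2 * κ ≤ ε₁ := by
    refine le_trans ?_ h1
    have : 0 ≤ (M.mlt (2 * K)).toReal ^ 2 * ε := by positivity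
    nlinarith
  refine ⟨fun y hy => ?_, M.measurableSet_cells _, hfat.fin, ?_, ?_, ?_⟩
  · obtain ⟨x, -, -, -, -, h2⟩ := hT' y hy
    exact h2
  · have h2 := h.img_most hε hκ hR2 hm
    refine (real_of_le (by positivity) hfat.fin h2).trans ?_
    exact mul_le_mul_of_nonneg_right h1 measureReal_nonneg
  · intro g hg
    refine (hfat.move (by positivity) (by positivity) (M.l_Bl hg)).trans ?_
    exact mul_le_mul_of_nonneg_right hκm measureReal_nonneg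
  · intro y hy g hg hyg
    obtain ⟨x, hx, hxy, i1, i2, i3⟩ := hT' y hy
    obtain ⟨x', hx', hxy', -, -, -⟩ := hT' _ hyg
    have hlg := M.l_Bl hg
    have hdist : (M.l (x⁻¹ * x') : ℝ) ≤ r := by
      have t0 := M.dist_fl x x'
      have t1 := h.qi.symm.lip2 y (y * M.inG g)
      rw [inv_mul_cancel_left, ← hxy, ← hxy'] at t1
      have t2 : K * (M.l (M.inG g) + 2 * M.C0 + 1) ≤ K * (M.C0 * N + 2 * M.C0 + 1) := by gcongr
      linarith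
    have hl := (h.lin x hx x' hx' hdist).1
    refine (inv_estimate (h.T_le x hx) i1 i3 hl (b := 2 * (M.C0 * K) + 2 * (M.C0 * M.C0)) ?_
      (c := 2 * (M.C0 * M.C0)) ?_).trans hδ
    · have e1 : M.f F x' = M.θ (M.inG (F (F' (M.fl (y * M.inG g))))) := by
        unfold f; rw [hxy']
      have e2 : M.f F x = M.θ (M.inG (F (F' (M.fl y)))) := by
        unfold f; rw [hxy]
      have n1 := h.qi.θ_inv' (M.fl (y * M.inG g))
      have n2 := h.qi.θ_inv' (M.fl y)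
      have n3 := θ_fl (M := M) (y * M.inG g)
      have n4 := θ_fl (M := M) y
      have e3 : M.f F x' - M.f F x - hgt (M.η.comp M.inG) g =
          (M.θ (M.inG (F (F' (M.fl (y * M.inG g))))) - M.θ (M.inG (M.fl (y * M.inG g)))) -
          (M.θ (M.inG (F (F' (M.fl y)))) - M.θ (M.inG (M.fl y))) +
          (M.θ (M.inG (M.fl (y * M.inG g))) - M.θ (y * M.inG g)) -
          (M.θ (M.inG (M.fl y)) - M.θ y) := by
        have e4 : M.θ (y * M.inG g) = M.θ y + hgt (M.η.comp M.inG) g := M.θ_mul _ _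
        rw [e1, e2, e4]
        abel
      rw [e3]
      have m1 := norm_sub_le
        (M.θ (M.inG (F (F' (M.fl (y * M.inG g))))) - M.θ (M.inG (M.fl (y * M.inG g))))
        (M.θ (M.inG (F (F' (M.fl y)))) - M.θ (M.inG (M.fl y)))
      refine (norm_sub_le _ _).trans ?_
      refine (add_le_add (norm_add_le _ _) le_rfl).trans ?_
      linarith
    · have n3 := θ_fl (M := M) x'
      have n4 := θ_fl (M := M) x
      have e5 : hgt (M.η.comp M.inG) (F' (M.fl (y * M.inG g))) -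
          hgt (M.η.comp M.inG) (F' (M.fl y)) - M.θ (x⁻¹ * x') =
          (M.θ (M.inG (M.fl x')) - M.θ x') - (M.θ (M.inG (M.fl x)) - M.θ x) := by
        rw [M.θ_inv_mul, hxy, hxy']
        have e6 : hgt (M.η.comp M.inG) (F' (M.fl (y * M.inG g))) =
          M.θ (M.inG (F' (M.fl (y * M.inG g)))) := rfl
        have e7 : hgt (M.η.comp M.inG) (F' (M.fl y)) = M.θ (M.inG (F' (M.fl y))) := rfl
        rw [e6, e7]
        abel
      rw [e5]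
      refine (norm_sub_le _ _).trans ?_
      linarith

end RModel

end Vale.Agent.P188.Z1

end

section

/-!
# P188, Z1, block STRAIGHT, part B: labels, the data of the comparison
-/

set_option linter.all false

open MeasureTheory Set
open scoped ENNReal
open Vale.P188.H654

namespace Vale.Agent.P188.Z1

namespace RModel

variable {k : ℕ}

/-- labels with the right cardinalities -/
def LnLab (Φ₁ : Finset (Ht k →L[ℝ] ℝ)) (V₁ : Finset (Fin k → ℤ)) : Type :=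
  {a : V₁ → Set (Ht k →L[ℝ] ℝ) // (∀ v, a v ⊆ ↑Φ₁) ∧
    ∀ v : V₁, (a v).ncard = {b | b ∈ Φ₁ ∧ 0 < b (ht (v : Fin k → ℤ))}.ncard}

/-- the sets of the labels: `p.2` is the sign of the direction -/
def lnP (Φ₁ : Finset (Ht k →L[ℝ] ℝ)) (V₁ : Finset (Fin k → ℤ)) (p : V₁ × Bool)
    (a : LnLab Φ₁ V₁) : Set Φ₁ :=
  {b | (b : Ht k →L[ℝ] ℝ) ∈ a.1 p.1 ↔ p.2 = true}

theorem lnP_card {Φ₁ : Finset (Ht k →L[ℝ] ℝ)} {V₁ : Finset (Fin k → ℤ)} (p : V₁ × Bool)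
    (a a' : LnLab Φ₁ V₁) : (lnP Φ₁ V₁ p a).ncard = (lnP Φ₁ V₁ p a').ncard := by
  have key : ∀ a : LnLab Φ₁ V₁, {b : Φ₁ | (b : Ht k →L[ℝ] ℝ) ∈ a.1 p.1}.ncard =
      {b | b ∈ Φ₁ ∧ 0 < b (ht (p.1 : Fin k → ℤ))}.ncard := by
    intro a
    rw [← a.2.2 p.1, ← Set.ncard_image_of_injective _ Subtype.val_injective]
    congr 1
    ext b
    simp only [mem_image, mem_setOf_eq, Subtype.exists, exists_and_right, exists_eq_right]
    exact ⟨fun ⟨_, h⟩ => h, fun h => ⟨a.2.1 p.1 h, h⟩⟩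
  have key2 : ∀ a : LnLab Φ₁ V₁, (lnP Φ₁ V₁ p a).ncard =
      if p.2 = true then {b | b ∈ Φ₁ ∧ 0 < b (ht (p.1 : Fin k → ℤ))}.ncard else
        Nat.card Φ₁ - {b | b ∈ Φ₁ ∧ 0 < b (ht (p.1 : Fin k → ℤ))}.ncard := by
    intro a
    split_ifs with h
    · rw [← key a]
      congr 1
      ext b
      simp [lnP, h]
    · rw [← key a, ← Set.ncard_compl]
      congr 1
      ext b
      simp [lnP, h]
  rw [key2, key2]

/-- The data of the comparison of labels for one map. -/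
noncomputable def lnData {S : Type} [Group S] [MeasurableSpace S] {Γ : Type} [Group Γ]
    {V : Type} [AddCommGroup V] [Module ℝ V] {M : RModel S Γ V k} {K : ℝ} {F F' : Γ → Γ}
    (h : M.QIm K F F') (Φ₁ : Finset (Ht k →L[ℝ] ℝ)) (V₁ : Finset (Fin k → ℤ)) :
    LData S (Ht k) Φ₁ (LnLab Φ₁ V₁) (V₁ × Bool) where
  t p := if p.2 = true then M.τ p.1 else (M.τ p.1)⁻¹
  neg p := (p.1, !p.2)
  t_neg p := by
    rcases p with ⟨v, s⟩
    cases s <;> simp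
  β b x := (b : Ht k →L[ℝ] ℝ) x
  B := ∑ b ∈ Φ₁, ‖b‖
  B_nonneg := Finset.sum_nonneg fun b _ => norm_nonneg b
  lipβ b x y := by
    rw [← map_sub, ← Real.norm_eq_abs]
    refine ((b : Ht k →L[ℝ] ℝ).le_opNorm _).trans (mul_le_mul_of_nonneg_right ?_ (norm_nonneg _))
    exact Finset.single_le_sum (f := fun b : Ht k →L[ℝ] ℝ => ‖b‖) (fun b _ => norm_nonneg b) b.2
  P := lnP Φ₁ V₁
  P_neg p a := by
    rcases p with ⟨v, s⟩
    ext b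
    cases s <;> simp [lnP]
  P_inj a a' hh := by
    apply Subtype.ext
    funext v
    ext b
    constructor
    · intro hb
      have h1 := hh (v, true)
      have h2 : (⟨b, a.2.1 v hb⟩ : Φ₁) ∈ lnP Φ₁ V₁ (v, true) a := by simpa [lnP] using hb
      rw [h1] at h2
      simpa [lnP] using h2
    · intro hb
      have h1 := hh (v, true)
      have h2 : (⟨b, a'.2.1 v hb⟩ : Φ₁) ∈ lnP Φ₁ V₁ (v, true) a' := by simpa [lnP] using hb
      rw [← h1] at h2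
      simpa [lnP] using h2
  f := M.f F
  l := fun g => (M.l g : ℝ)
  L := M.lnLf K
  L_nonneg := M.lnLf_nonneg h.K_nonneg
  lipf := h.ln_lip

variable {S : Type} [Group S] [MeasurableSpace S] {Γ : Type} [Group Γ]
  {V : Type} [AddCommGroup V] [Module ℝ V] (M : RModel S Γ V k)

/-- sets defined by the cells of a point and of a translate are measurable -/
theorem ln_meas_two (P : Γ → Γ → Prop) (g : S) : MeasurableSet {z | P (M.fl z) (M.fl (z * g))} := by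
  haveI := M.countable
  have : {z | P (M.fl z) (M.fl (z * g))} = ⋃ p : {p : Γ × Γ // P p.1 p.2},
      (M.fl ⁻¹' {p.1.1} ∩ (fun z => z * g) ⁻¹' (M.fl ⁻¹' {p.1.2})) := by
    ext z
    simp only [mem_setOf_eq, mem_iUnion, mem_inter_iff, mem_preimage, mem_singleton_iff]
    constructor
    · intro h
      exact ⟨⟨(M.fl z, M.fl (z * g)), h⟩, rfl, rfl⟩
    · rintro ⟨⟨⟨a, b⟩, h⟩, h1, h2⟩
      rw [h1, h2]
      exact h
  rw [this]
  exact MeasurableSet.iUnion fun p => (M.fl_meas _).inter ((M.mp g).measurable (M.fl_meas _))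

include M in
theorem ln_meas_trans {A : Set S} (hA : MeasurableSet A) (g : S) : MeasurableSet {z | z * g ∈ A} :=
  (M.mp g).measurable hA

open Classical in
/-- **A measurable version of the labels.** -/
theorem ln_lab_meas {F : Γ → Γ} {Φ₁ : Finset (Ht k →L[ℝ] ℝ)} {V₁ : Finset (Fin k → ℤ)}
    {c₀ L ε₁ B : ℝ} {ρ ρ₁ : ℕ} {T : (V₁ → Set (Ht k →L[ℝ] ℝ)) → (Ht k →L[ℝ] Ht k)}
    {D₀ : Set S} (hD₀ : MeasurableSet D₀) (hne : D₀.Nonempty) {σ₀ : S → V₁ → Set (Ht k →L[ℝ] ℝ)}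
    (hgood : ∀ x ∈ D₀, GoodLab Φ₁ V₁ c₀ L (T (σ₀ x)) (σ₀ x))
    (hlin : ∀ x ∈ D₀, ∀ x' ∈ D₀, (M.l (x⁻¹ * x') : ℝ) ≤ ρ →
      ‖M.f F x' - M.f F x - T (σ₀ x) (M.θ (x⁻¹ * x'))‖ ≤ ε₁ * ρ ∧ σ₀ x' = σ₀ x)
    (hB : ∀ b ∈ Φ₁, ‖b‖ ≤ B) (hε : B * (ε₁ * ρ) < c₀ * ρ₁)
    (hρ : ∀ v ∈ V₁, (M.l (M.τ v ^ ρ₁) : ℝ) ≤ ρ) :
    ∃ (σ : S → LnLab Φ₁ V₁), (∀ a, MeasurableSet {z | (σ z).1 = a}) ∧
      (∀ z, GoodLab Φ₁ V₁ c₀ L (T (σ z).1) (σ z).1) ∧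
      ∀ x ∈ D₀, (∀ v ∈ V₁, x * M.τ v ^ ρ₁ ∈ D₀) → (σ x).1 = σ₀ x := by
  obtain ⟨x₀, hx₀⟩ := hne
  set D₁ : Set S := {x | x ∈ D₀ ∧ ∀ v : V₁, x * M.τ v ^ ρ₁ ∈ D₀} with hD₁
  set σ₁ : S → V₁ → Set (Ht k →L[ℝ] ℝ) := fun x v =>
    {b | b ∈ Φ₁ ∧ 0 < b (M.f F (x * M.τ v ^ ρ₁) - M.f F x)} with hσ₁
  have h1 : ∀ x ∈ D₁, σ₁ x = σ₀ x := by
    rintro x ⟨hx, hx'⟩
    funext v
    have hg := hgood x hx
    have hl := (hlin x hx _ (hx' v) (by rw [inv_mul_cancel_left]; exact hρ v v.2)).1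
    rw [inv_mul_cancel_left, M.ln_θ_pow, M.ln_θ_τ] at hl
    ext b
    by_cases hb : b ∈ Φ₁
    · have h2 : |b (M.f F (x * M.τ v ^ ρ₁) - M.f F x) -
          ρ₁ * b (T (σ₀ x) (ht (v : Fin k → ℤ)))| ≤ B * (ε₁ * ρ) := by
        have e : b (M.f F (x * M.τ v ^ ρ₁) - M.f F x) -
          ρ₁ * b (T (σ₀ x) (ht (v : Fin k → ℤ))) = b (M.f F (x * M.τ v ^ ρ₁) - M.f F x -
            T (σ₀ x) ((ρ₁ : ℝ) • ht (v : Fin k → ℤ))) := by
          rw [map_sub b (M.f F (x * M.τ v ^ ρ₁) - M.f F x), map_smul, map_smul, smul_eq_mul]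
        rw [e, ← Real.norm_eq_abs]
        exact (b.le_opNorm _).trans (mul_le_mul (hB b hb) hl (norm_nonneg _)
          ((norm_nonneg _).trans (hB b hb)))
      rw [abs_le] at h2
      have hρ0 : (0 : ℝ) ≤ ρ₁ := Nat.cast_nonneg _
      constructor
      · rintro ⟨_, h3⟩
        by_contra hcon
        have h4 := hg.neg v b hb hcon
        nlinarith [mul_le_mul_of_nonneg_left h4 hρ0]
      · intro h3
        have h4 := hg.pos v b hb h3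
        refine ⟨hb, ?_⟩
        nlinarith [mul_le_mul_of_nonneg_left h4 hρ0]
    · constructor
      · intro h3; exact absurd h3.1 hb
      · intro h3; exact absurd (hg.sub v h3) hb
  set σ₂ : S → V₁ → Set (Ht k →L[ℝ] ℝ) := fun z => if z ∈ D₁ then σ₁ z else σ₀ x₀ with hσ₂
  have h2 : ∀ z, GoodLab Φ₁ V₁ c₀ L (T (σ₂ z)) (σ₂ z) := by
    intro z
    by_cases hz : z ∈ D₁
    · have : σ₂ z = σ₀ z := by rw [hσ₂]; simp only [if_pos hz]; exact h1 z hz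
      rw [this]
      exact hgood z hz.1
    · have : σ₂ z = σ₀ x₀ := by rw [hσ₂]; simp only [if_neg hz]
      rw [this]
      exact hgood x₀ hx₀
  have hD₁m : MeasurableSet D₁ := by
    have : D₁ = D₀ ∩ ⋂ v : V₁, {x | x * M.τ v ^ ρ₁ ∈ D₀} := by
      ext x; simp [hD₁]
    rw [this]
    exact hD₀.inter (MeasurableSet.iInter fun v => M.ln_meas_trans hD₀ _)
  have hσ₁m : ∀ a, MeasurableSet {z | σ₁ z = a} := by
    intro a
    have : {z | σ₁ z = a} = ⋂ v : V₁, {z | (fun g g' : Γ =>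
        {b | b ∈ Φ₁ ∧ 0 < b (M.θ (M.inG (F g')) - M.θ (M.inG (F g)))} = a v) (M.fl z)
          (M.fl (z * M.τ v ^ ρ₁))} := by
      ext z
      simp only [mem_setOf_eq, mem_iInter]
      constructor
      · intro h v
        rw [← h]; rfl
      · intro h
        funext v
        rw [← h v]; rfl
    rw [this]
    exact MeasurableSet.iInter fun v => M.ln_meas_two (fun g g' : Γ =>
        {b | b ∈ Φ₁ ∧ 0 < b (M.θ (M.inG (F g')) - M.θ (M.inG (F g)))} = a v) _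
  refine ⟨fun z => ⟨σ₂ z, (h2 z).sub, (h2 z).card⟩, ?_, h2, ?_⟩
  · intro a
    have : {z | σ₂ z = a} = (D₁ ∩ {z | σ₁ z = a}) ∪ (D₁ᶜ ∩ {z | σ₀ x₀ = a}) := by
      ext z
      by_cases hz : z ∈ D₁
      · simp [hσ₂, hz]
      · simp [hσ₂, hz]
    show MeasurableSet {z | σ₂ z = a}
    rw [this]
    exact (hD₁m.inter (hσ₁m a)).union (hD₁m.compl.inter (MeasurableSet.const _))
  · intro x hx hx'
    have hx1 : x ∈ D₁ := ⟨hx, fun v => hx' v v.2⟩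
    show σ₂ x = σ₀ x
    rw [hσ₂]
    simp only [if_pos hx1]
    exact h1 x hx1

/-- affine on `D₁` at distances `≤ ρ` implies `LinAt` around the points with many translates in
`D₁`. -/
theorem ln_linAt {K : ℝ} {F F' : Γ → Γ} (hQ : M.QIm K F F') {Φ₁ : Finset (Ht k →L[ℝ] ℝ)}
    {V₁ : Finset (Fin k → ℤ)} {c₀ L ε₁ : ℝ} {ρ ρ₁ h n₄ lm : ℕ}
    {T : (V₁ → Set (Ht k →L[ℝ] ℝ)) → (Ht k →L[ℝ] Ht k)} {σ : S → LnLab Φ₁ V₁}
    (hgood : ∀ z, GoodLab Φ₁ V₁ c₀ L (T (σ z).1) (σ z).1) {D₁ : Set S}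
    (hlin : ∀ x ∈ D₁, ∀ x' ∈ D₁, (M.l (x⁻¹ * x') : ℝ) ≤ ρ →
      ‖M.f F x' - M.f F x - T (σ x).1 (M.θ (x⁻¹ * x'))‖ ≤ ε₁ * ρ)
    (hlm : ∀ v ∈ V₁, M.l (M.τ v) ≤ lm) (hh : 0 < h) (hn : ρ₁ ≤ n₄ * h) (hρ : ρ₁ * lm ≤ ρ)
    (p : V₁ × Bool) :
    LinAt (lnData hQ Φ₁ V₁) σ p
      {x | x ∈ D₁ ∧ ∀ v : V₁, ∀ j : ℤ, |j| ≤ n₄ → x * M.τ v ^ (j * h) ∈ D₁} c₀
      ((∑ b ∈ Φ₁, ‖b‖) * (ε₁ * ρ + (M.lnLf K + L * M.C0) * (lm * h))) ρ₁ := by
  have hC0 := M.ln_C0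
  have hLf := M.lnLf_nonneg hQ.K_nonneg
  -- the statement for `τ v`
  have key : ∀ x, x ∈ D₁ → (∀ v : V₁, ∀ j : ℤ, |j| ≤ n₄ → x * M.τ v ^ (j * h) ∈ D₁) →
      ∀ v : V₁, ∀ i : ℤ, |i| ≤ ρ₁ → ‖M.f F (x * M.τ v ^ i) - M.f F x -
        (i : ℝ) • T (σ x).1 (ht (v : Fin k → ℤ))‖ ≤
        ε₁ * ρ + (M.lnLf K + L * M.C0) * (lm * h) := by
    intro x hx hx' v i hi
    have hh' : (0 : ℤ) < h := by exact_mod_cast hh
    set j : ℤ := i.tdiv h with hj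
    set r : ℤ := i.tmod h with hr
    have hir : i = j * h + r := by
      have := Int.mul_tdiv_add_tmod i h
      rw [hj, hr]; linarith [mul_comm (h:ℤ) (i.tdiv h)]
    have hrn : r.natAbs ≤ h := by
      rw [hr, Int.natAbs_tmod]
      simpa using (Nat.mod_lt _ hh).le
    have hjn : j.natAbs * h ≤ i.natAbs := by
      rw [hj, Int.natAbs_tdiv]
      rw [Int.natAbs_natCast]
      exact Nat.div_mul_le_self i.natAbs h
    have hin : i.natAbs ≤ ρ₁ := by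
      have : (i.natAbs : ℤ) ≤ ρ₁ := by rw [Int.natCast_natAbs]; exact hi
      exact_mod_cast this
    have hjn4 : |j| ≤ n₄ := by
      have h3 : j.natAbs * h ≤ n₄ * h := hjn.trans (hin.trans hn)
      have h4 : j.natAbs ≤ n₄ := Nat.le_of_mul_le_mul_right h3 hh
      rw [← Int.natCast_natAbs]
      exact_mod_cast h4
    have hlv := hlm v v.2
    -- from `x` to `x τ^(j h)`
    have h1 : ‖M.f F (x * M.τ v ^ (j * h)) - M.f F x -
        ((j * h : ℤ) : ℝ) • T (σ x).1 (ht (v : Fin k → ℤ))‖ ≤ ε₁ * ρ := by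
      have h2 := hlin x hx _ (hx' v j hjn4) (by
        rw [inv_mul_cancel_left]
        have h3 := M.ln_zpow (M.τ v) (j * h)
        have h4 : (j * h).natAbs * M.l (M.τ v) ≤ ρ := by
          rw [Int.natAbs_mul, Int.natAbs_natCast]
          calc j.natAbs * h * M.l (M.τ v) ≤ ρ₁ * lm :=
                Nat.mul_le_mul (hjn.trans hin) hlv
            _ ≤ ρ := hρ
        exact_mod_cast h3.trans h4)
      rwa [inv_mul_cancel_left, M.ln_θ_zpow, M.ln_θ_τ, map_smul] at h2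
    -- from `x τ^(j h)` to `x τ^i`
    have h2 : ‖M.f F (x * M.τ v ^ i) - M.f F (x * M.τ v ^ (j * h))‖ ≤ M.lnLf K * (lm * h) := by
      have e : x * M.τ v ^ i = x * M.τ v ^ (j * h) * M.τ v ^ r := by
        rw [mul_assoc, ← zpow_add, ← hir]
      rw [e]
      refine (hQ.ln_lip _ _).trans (mul_le_mul_of_nonneg_left ?_ hLf)
      have h3 := M.ln_zpow (M.τ v) r
      have h4 : r.natAbs * M.l (M.τ v) ≤ lm * h := by
        rw [mul_comm]; exact Nat.mul_le_mul hlv hrn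
      exact_mod_cast h3.trans h4
    have h3 : ‖(r : ℝ) • T (σ x).1 (ht (v : Fin k → ℤ))‖ ≤ L * M.C0 * (lm * h) := by
      rw [norm_smul]
      have h4 : ‖T (σ x).1 (ht (v : Fin k → ℤ))‖ ≤ L * (M.C0 * lm) := by
        refine ((T (σ x).1).le_opNorm _).trans ?_
        refine mul_le_mul (hgood x).norm_le ?_ (norm_nonneg _)
          ((norm_nonneg _).trans (hgood x).norm_le)
        rw [← M.ln_θ_τ]
        refine (M.θ_le _).trans (mul_le_mul_of_nonneg_left (by exact_mod_cast hlv) hC0)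
      have h5 : ‖(r : ℝ)‖ ≤ h := by
        rw [Real.norm_eq_abs, ← Int.cast_abs, ← Int.natCast_natAbs]
        exact_mod_cast hrn
      calc ‖(r : ℝ)‖ * ‖T (σ x).1 (ht (v : Fin k → ℤ))‖ ≤ h * (L * (M.C0 * lm)) :=
            mul_le_mul h5 h4 (norm_nonneg _) (Nat.cast_nonneg _)
        _ = L * M.C0 * (lm * h) := by ring
    have e : M.f F (x * M.τ v ^ i) - M.f F x - (i : ℝ) • T (σ x).1 (ht (v : Fin k → ℤ)) =
        (M.f F (x * M.τ v ^ (j * h)) - M.f F x -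
        ((j * h : ℤ) : ℝ) • T (σ x).1 (ht (v : Fin k → ℤ))) +
        (M.f F (x * M.τ v ^ i) - M.f F (x * M.τ v ^ (j * h))) -
        (r : ℝ) • T (σ x).1 (ht (v : Fin k → ℤ)) := by
      have : (i : ℝ) = ((j * h : ℤ) : ℝ) + r := by exact_mod_cast hir
      rw [this, add_smul]; abel
    rw [e]
    refine (norm_sub_le _ _).trans ?_
    refine (add_le_add ((norm_add_le _ _).trans (add_le_add h1 h2)) h3).trans (le_of_eq ?_)
    ring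
  constructor
  rintro x ⟨hx, hx'⟩ b
  have hB : ‖(b : Ht k →L[ℝ] ℝ)‖ ≤ ∑ b ∈ Φ₁, ‖b‖ :=
    Finset.single_le_sum (f := fun b : Ht k →L[ℝ] ℝ => ‖b‖) (fun b _ => norm_nonneg b) b.2
  have hB0 : 0 ≤ ∑ b ∈ Φ₁, ‖b‖ := (norm_nonneg _).trans hB
  have hg := hgood x
  rcases p with ⟨v, s⟩
  have key2 : ∀ i : ℤ, |i| ≤ ρ₁ → |(b : Ht k →L[ℝ] ℝ) (M.f F (x * M.τ v ^ i)) -
      (b : Ht k →L[ℝ] ℝ) (M.f F x) - i * (b : Ht k →L[ℝ] ℝ) (T (σ x).1 (ht (v : Fin k → ℤ)))| ≤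
      (∑ b ∈ Φ₁, ‖b‖) * (ε₁ * ρ + (M.lnLf K + L * M.C0) * (lm * h)) := by
    intro i hi
    have h1 := key x hx hx' v i hi
    have e : (b : Ht k →L[ℝ] ℝ) (M.f F (x * M.τ v ^ i)) -
      (b : Ht k →L[ℝ] ℝ) (M.f F x) - i * (b : Ht k →L[ℝ] ℝ) (T (σ x).1 (ht (v : Fin k → ℤ))) =
      (b : Ht k →L[ℝ] ℝ) (M.f F (x * M.τ v ^ i) - M.f F x -
        (i : ℝ) • T (σ x).1 (ht (v : Fin k → ℤ))) := by
      rw [map_sub, map_sub, map_smul, smul_eq_mul]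
    rw [e, ← Real.norm_eq_abs]
    exact ((b : Ht k →L[ℝ] ℝ).le_opNorm _).trans (mul_le_mul hB h1 (norm_nonneg _) hB0)
  cases s with
  | true =>
    refine ⟨(b : Ht k →L[ℝ] ℝ) (T (σ x).1 (ht (v : Fin k → ℤ))), ?_, ?_, ?_⟩
    · intro hb
      exact hg.pos v b b.2 (by simpa [lnData, lnP] using hb)
    · intro hb
      exact hg.neg v b b.2 (by simpa [lnData, lnP] using hb)
    · intro i hi
      have := key2 i hi
      simpa [lnData] using this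
  | false =>
    refine ⟨-(b : Ht k →L[ℝ] ℝ) (T (σ x).1 (ht (v : Fin k → ℤ))), ?_, ?_, ?_⟩
    · intro hb
      have := hg.neg v b b.2 (by simpa [lnData, lnP] using hb)
      linarith
    · intro hb
      have := hg.pos v b b.2 (by simpa [lnData, lnP] using hb)
      linarith
    · intro i hi
      have := key2 (-i) (by rwa [abs_neg])
      have e : (lnData hQ Φ₁ V₁).t (v, false) ^ i = M.τ v ^ (-i) := by
        simp [lnData]
      rw [e]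
      have e2 : (i : ℝ) * -(b : Ht k →L[ℝ] ℝ) (T (σ x).1 (ht (v : Fin k → ℤ))) =
        ((-i : ℤ) : ℝ) * (b : Ht k →L[ℝ] ℝ) (T (σ x).1 (ht (v : Fin k → ℤ))) := by
        push_cast; ring
      rw [e2]
      exact this

end RModel

end Vale.Agent.P188.Z1

end

section

/-!
# P188, Z1, block LIN: coarse differentiation in the model
-/

set_option linter.all false

open MeasureTheory Set Filter
open scoped ENNReal
open Agent.P188.H428 (IsLen)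
open Vale.Agent.P188.H530 (hgt hgt_mul)
open _root_.P188.H882 (Mrg Typed Rel dq Aff)

namespace Vale.Agent.P188.Z1

theorem Typed_mono {S : Type*} [Group S] {ι : Type*} {l : S → ℝ} {t : ι → S} {h : ι → S → ℝ}
    {ρ ρ2 ρ2' : ℕ} {τ2 τ2' : ℝ} {Nt Nt' : Set S} (h2 : ρ2 ≤ ρ2') (hτ : τ2 ≤ τ2') (hN : Nt ⊆ Nt')
    {v : S} (hv : Typed l t h ρ ρ2 τ2 Nt v) : Typed l t h ρ ρ2' τ2' Nt' v := by
  have h2' : (ρ2 : ℤ) ≤ ρ2' := by exact_mod_cast h2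
  rcases hv with ⟨i, n, h3, h4, h5⟩ | ⟨h3, i, m, h4, h5, h6⟩ | ⟨h3, h4⟩ | ⟨h3, h4⟩
  · exact Or.inl ⟨i, n, h3, h4.trans h2', h5⟩
  · exact Or.inr (Or.inl ⟨h3, i, m, h4, h5.trans h2', h6.trans hτ⟩)
  · exact Or.inr (Or.inr (Or.inl ⟨h3, hN h4⟩))
  · exact Or.inr (Or.inr (Or.inr ⟨h3.trans hτ, fun j => (h4 j).trans hτ⟩))

namespace RModel

variable {S : Type} [Group S] [MeasurableSpace S] {Γ : Type} [Group Γ]
  {V : Type} [AddCommGroup V] [Module ℝ V] {k : ℕ} (M : RModel S Γ V k)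

/-- decomposition of fat elements into merging steps -/
def DEC1 (v : Fin k → Fin k → ℤ) : Prop := ∃ (c : ℕ) (C : ℝ), 1 ≤ C ∧ ∀ ε1 : ℝ, 0 < ε1 → ε1 ≤ 1 →
  ∃ d1 : ℝ, 0 < d1 ∧ d1 ≤ 1 ∧ ∀ δ : ℝ, 0 < δ → δ ≤ 1 / C → ∃ ρ0 : ℕ, ∀ ρ : ℕ, ρ0 ≤ ρ →
  ∀ i, ∀ u ∈ M.FB δ (d1 * ρ), ∃ us : List S, us.length ≤ c ∧ us.prod = u ∧
    (∀ a ∈ us, Mrg (fun x => (M.l x : ℝ)) (M.Nt (C * δ) ρ) (M.τ (v i)) ρ (ε1 * ρ) a) ∧
    ∀ ws, ws <+: us → ws.prod ∈ M.FB (C * δ) (C * ρ) ∧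
      ∀ m : ℤ, |m| ≤ (ρ : ℤ) → ∀ a, (M.l a : ℝ) ≤ ε1 * ρ →
        ws.prod * M.τ (v i) ^ m * a ∈ M.FB (C * δ) (C * ρ)

/-- decomposition of fat elements into steps of known type -/
def DEC2 (v : Fin k → Fin k → ℤ) (hh : Fin k → Ht k →L[ℝ] ℝ) : Prop :=
  ∃ (c : ℕ) (C : ℝ), 1 ≤ C ∧ ∀ d : ℝ, 0 < d → C * d ≤ 1 → ∀ δ : ℝ, 0 < δ → δ ≤ d →
  ∃ ρ0 : ℕ, ∀ ρ : ℕ, ρ0 ≤ ρ → ∀ u ∈ M.FB δ (d * ρ), ∃ us : List S, us.length ≤ c ∧ us.prod = u ∧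
    (∀ a ∈ us, Typed (fun x => (M.l x : ℝ)) (fun i => M.τ (v i)) (fun j x => hh j (M.θ x)) ρ
      ⌈C * (C * d * ρ)⌉₊ C (M.Nt (C * δ) ρ) a) ∧
    ∀ ws, ws <+: us → ws.prod ∈ M.FB (C * δ) (C * d * ρ)

variable {M}

theorem lin_Nt_mono {δ δ' ρ : ℝ} (h : δ * ρ ≤ δ' * ρ) : M.Nt δ ρ ⊆ M.Nt δ' ρ := by
  rintro z ⟨y, hy, h1, h2⟩
  exact ⟨y, hy, h1.trans (Real.exp_le_exp.2 h), h2⟩

theorem FB_θ_le {δ R : ℝ} (hR : 0 ≤ R) {g : S} (hg : g ∈ M.FB δ R) : ‖M.θ g‖ ≤ R := by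
  obtain ⟨v, hv, h1, y, hy, h2, w, h3, rfl⟩ := hg
  rw [M.θ_mul, M.θ_mul, M.θ_ex, M.θ_ex, zero_add, zero_add, M.θ_τ]
  exact (pi_norm_le_iff_of_nonneg hR).2 h3

/-- **All sets of displacements at one scale.** -/
theorem scale_pack (hBQ : M.BOXQ) {v : Fin k → Fin k → ℤ} {hh : Fin k → Ht k →L[ℝ] ℝ}
    {c1 c2 : ℕ} {C1 C2 : ℝ} (hC1 : 1 ≤ C1) (hC2 : 1 ≤ C2) :
    ∃ Cq X : ℝ, 1 ≤ Cq ∧ 1 ≤ X ∧ ∀ C : ℝ, C1 ≤ C → C2 ≤ C → C2 * Cq ≤ C → (∑ j, ‖hh j‖) ≤ C →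
      Cq ≤ C → ∀ ε1 d1 : ℝ, 0 < ε1 → 0 < d1 → d1 ≤ 1 →
      (∀ δ : ℝ, 0 < δ → δ ≤ 1 / C1 → ∃ ρ0 : ℕ, ∀ ρ : ℕ, ρ0 ≤ ρ →
        ∀ i, ∀ u ∈ M.FB δ (d1 * ρ), ∃ us : List S, us.length ≤ c1 ∧ us.prod = u ∧
        (∀ a ∈ us, Mrg (fun x => (M.l x : ℝ)) (M.Nt (C1 * δ) ρ) (M.τ (v i)) ρ (ε1 * ρ) a) ∧
        ∀ ws, ws <+: us → ws.prod ∈ M.FB (C1 * δ) (C1 * ρ) ∧
          ∀ m : ℤ, |m| ≤ (ρ : ℤ) → ∀ a, (M.l a : ℝ) ≤ ε1 * ρ →
            ws.prod * M.τ (v i) ^ m * a ∈ M.FB (C1 * δ) (C1 * ρ)) →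
      (∀ d : ℝ, 0 < d → C2 * d ≤ 1 → ∀ δ : ℝ, 0 < δ → δ ≤ d →
        ∃ ρ0 : ℕ, ∀ ρ : ℕ, ρ0 ≤ ρ → ∀ u ∈ M.FB δ (d * ρ), ∃ us : List S, us.length ≤ c2 ∧
          us.prod = u ∧
          (∀ a ∈ us, Typed (fun x => (M.l x : ℝ)) (fun i => M.τ (v i)) (fun j x => hh j (M.θ x)) ρ
            ⌈C2 * (C2 * d * ρ)⌉₊ C2 (M.Nt (C2 * δ) ρ) a) ∧
          ∀ ws, ws <+: us → ws.prod ∈ M.FB (C2 * δ) (C2 * d * ρ)) →
      ∀ d : ℝ, 0 < d → C2 * (Cq * d) ≤ d1 → ∀ δ : ℝ, 0 < δ → X * δ ≤ 1 → δ ≤ d →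
      ∀ᶠ ρ : ℕ in atTop, ∃ W0 W2 Q : Set S,
        Sc M.μ (fun x => (M.l x : ℝ)) (fun i => M.τ (v i)) (fun j x => hh j (M.θ x)) C ε1 d
          (c1 + c2) ρ (M.Nt (X * δ) ρ) W0 W2 (M.FB (X * δ) (C1 * ρ)) Q ∧
        ∀ g, ((M.l g : ℝ) ≤ d * ρ ∨ g ∈ M.FB δ (d * ρ)) →
          M.μ.real {y ∈ Q | y * g ∉ Q} ≤ M.μ.real Q / 4 := by
  obtain ⟨Cb0, Hb⟩ := hBQ
  obtain ⟨Ci, hCi, Hi⟩ := M.fb_inv
  obtain ⟨Cl, hCl, Hl⟩ := M.fb_of_len
  set Cb : ℝ := |Cb0| + 1 with hCb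
  have hCb1 : 1 ≤ Cb := by rw [hCb]; linarith [abs_nonneg Cb0]
  have hCb0 : Cb0 ≤ Cb := by rw [hCb]; linarith [le_abs_self Cb0]
  have hCb2 : Cb0 * Cb0 ≤ Cb * Cb := by
    rw [← abs_mul_abs_self Cb0]
    have : |Cb0| ≤ Cb := by rw [hCb]; linarith
    exact mul_le_mul this this (abs_nonneg _) (by linarith)
  have hCi0 : 0 < Ci := by linarith
  have hCl0 : 0 < Cl := by linarith
  have hCb00 : 0 < Cb := by linarith
  have hC10 : 0 < C1 := by linarith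
  have hC20 : 0 < C2 := by linarith
  have m1 : 1 ≤ Ci * Cb := one_le_mul_of_one_le_of_one_le hCi hCb1
  have m2 : 1 ≤ C2 * (Ci * Cb) := one_le_mul_of_one_le_of_one_le hC2 m1
  refine ⟨Ci * Cb * Cl, C1 * (C2 * (Ci * Cb)), one_le_mul_of_one_le_of_one_le m1 hCl,
    one_le_mul_of_one_le_of_one_le hC1 m2, ?_⟩
  intro C hCC1 hCC2 hCC3 hCC4 hCC5 ε1 d1 hε1 hd1 hd11 H1 H2 d hd hdd δ hδ hδX hδd
  set Cq : ℝ := Ci * Cb * Cl with hCq
  have hCq1 : 1 ≤ Cq := one_le_mul_of_one_le_of_one_le m1 hCl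
  have hC1' : 1 ≤ C := hC1.trans hCC1
  have hCqd0 : 0 < Cq * d := by positivity
  have hCqd : Cq * d ≤ d1 := (le_mul_of_one_le_left hCqd0.le hC2).trans hdd
  set δ0 : ℝ := Ci * (Cb * δ) with hδ0
  set δ1 : ℝ := C2 * δ0 with hδ1
  have hδ00 : 0 < δ0 := by positivity
  have hδ10 : 0 < δ1 := by positivity
  have hXδ : C1 * (C2 * (Ci * Cb)) * δ = C1 * δ1 := by rw [hδ1, hδ0]; ring
  rw [hXδ] at hδX ⊢
  have hδ1C : δ1 ≤ 1 / C1 := by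
    rw [le_div_iff₀ hC10]; linarith
  have hδ1le : δ1 ≤ 1 := (le_mul_of_one_le_left hδ10.le hC1).trans hδX
  have hδ0le : δ0 ≤ δ1 := le_mul_of_one_le_left hδ00.le hC2
  have hCbδ0 : 0 < Cb * δ := mul_pos hCb00 hδ
  have hCbδ : Cb * δ ≤ δ0 := le_mul_of_one_le_left hCbδ0.le hCi
  have hδle : δ ≤ Cb * δ := le_mul_of_one_le_left hδ.le hCb1
  have hδ0d : δ0 ≤ Cq * d := by
    rw [hδ0, hCq]
    have e1 : Ci * (Cb * δ) ≤ Ci * (Cb * d) := by gcongr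
    have e2 : Ci * (Cb * d) ≤ (Ci * (Cb * d)) * Cl :=
      le_mul_of_one_le_right (by positivity) hCl
    calc _ ≤ _ := e1
      _ ≤ _ := e2
      _ = _ := by ring
  obtain ⟨ρ1, K1⟩ := H1 δ1 hδ10 hδ1C
  obtain ⟨ρ2, K2⟩ := H2 (Cq * d) hCqd0 (by linarith) δ0 hδ00 hδ0d
  obtain ⟨r0, K3⟩ := Hb δ hδ (by linarith)
  have hT0 : Tendsto (fun ρ : ℕ => (ρ : ℝ)) atTop atTop := tendsto_natCast_atTop_atTop
  have hT1 : Tendsto (fun ρ : ℕ => d * (ρ : ℝ)) atTop atTop := hT0.const_mul_atTop hd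
  have hT2 : Tendsto (fun ρ : ℕ => Cl * (d * (ρ : ℝ))) atTop atTop := hT1.const_mul_atTop hCl0
  have hT3 : Tendsto (fun ρ : ℕ => Cb * (Cl * (d * (ρ : ℝ)))) atTop atTop :=
    hT2.const_mul_atTop hCb00
  filter_upwards [hT2.eventually (eventually_ge_atTop r0), hT3.eventually
    (Hi (Cb * δ) (by positivity) (by linarith)), hT1.eventually (Hl δ hδ),
    eventually_ge_atTop ρ1, eventually_ge_atTop ρ2] with ρ e1 e2 e3 e4 e5
  have hρ0 : (0 : ℝ) ≤ ρ := Nat.cast_nonneg _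
  obtain ⟨Q, Qp, hQ, hQp⟩ := K3 _ e1
  set r : ℝ := Cl * (d * (ρ : ℝ)) with hr
  have hr0 : 0 ≤ r := by positivity
  have hQFB : Q ⊆ M.FB (Cb * δ) (Cb * r) := by
    intro q hq
    have h1 := hQ.sub q hq 1 (by rw [M.len.one]; simpa using hr0)
    rw [mul_one] at h1
    refine M.FB_mono (mul_le_mul_of_nonneg_right hCb0 hr0) ?_ (hQp h1)
    have : Cb0 * δ * (Cb0 * r) = (Cb0 * Cb0) * (δ * r) := by ring
    rw [this, show Cb * δ * (Cb * r) = (Cb * Cb) * (δ * r) by ring]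
    exact mul_le_mul_of_nonneg_right hCb2 (by positivity)
  refine ⟨M.FB δ0 (Cq * d * ρ), M.FB δ1 (d1 * ρ), Q, ?_, ?_⟩
  · refine ⟨?_, ?_, ?_, ?_, hQ.meas, hQ.pos, hQ.fin, ?_, ?_⟩
    · have a1 : d1 * ρ ≤ C1 * ρ := mul_le_mul_of_nonneg_right (hd11.trans hC1) hρ0
      refine M.FB_mono a1 ?_
      have a2 : δ1 ≤ C1 * δ1 := le_mul_of_one_le_left hδ10.le hC1
      exact mul_le_mul a2 a1 (by positivity) (by positivity)
    · refine M.FB_mono (mul_le_mul_of_nonneg_right hCqd hρ0) ?_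
      exact mul_le_mul hδ0le (mul_le_mul_of_nonneg_right hCqd hρ0) (by positivity) hδ10.le
    · intro i u hu
      obtain ⟨us, h1, h2, h3, h4⟩ := K1 ρ e4 i u hu
      exact ⟨us, by omega, h2, h3, h4⟩
    · intro u hu
      obtain ⟨us, h1, h2, h3, h4⟩ := K2 ρ e5 u hu
      refine ⟨us, by omega, h2, fun a ha => ?_, fun ws hws => ?_⟩
      · refine Typed_mono ?_ hCC2 ?_ (h3 a ha)
        · refine Nat.ceil_mono ?_
          have a1 : C2 * (C2 * (Cq * d) * ρ) = (C2 * (C2 * Cq)) * (d * ρ) := by ring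
          have a2 : C * (C * d * ρ) = (C * C) * (d * ρ) := by ring
          rw [a1, a2]
          have a3 : C2 * (C2 * Cq) ≤ C * C := mul_le_mul hCC2 hCC3 (by positivity) (by linarith)
          exact mul_le_mul_of_nonneg_right a3 (by positivity)
        · refine lin_Nt_mono ?_
          refine mul_le_mul_of_nonneg_right ?_ hρ0
          rw [← hδ1]; exact le_mul_of_one_le_left hδ10.le hC1
      · refine M.FB_mono ?_ ?_ (h4 ws hws)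
        · exact mul_le_mul_of_nonneg_right hdd hρ0
        · rw [← hδ1]
          exact mul_le_mul_of_nonneg_left (mul_le_mul_of_nonneg_right hdd hρ0) hδ10.le
    · intro q hq
      have h1 := e2 q (hQFB hq)
      have a1 : Ci * (Cb * r) = Cq * d * ρ := by rw [hr, hCq]; ring
      rwa [a1] at h1
    · intro q hq i
      have h1 : ‖M.θ q‖ ≤ Cb * r := FB_θ_le (by positivity) (hQFB hq)
      have h2 : |hh i (M.θ q)| ≤ ‖hh i‖ * ‖M.θ q‖ := (hh i).le_opNorm _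
      have h3 : ‖hh i‖ ≤ C := (Finset.single_le_sum (f := fun j => ‖hh j‖)
        (fun j _ => norm_nonneg _) (Finset.mem_univ i)).trans hCC4
      have h4 : Cb * r ≤ C * (d * ρ) := by
        have a1 : Cb * r = (Cb * Cl) * (d * ρ) := by rw [hr]; ring
        rw [a1]
        refine mul_le_mul_of_nonneg_right (le_trans ?_ hCC5) (by positivity)
        rw [hCq, mul_assoc]
        exact le_mul_of_one_le_left (by positivity) hCi
      calc |hh i (M.θ q)| ≤ ‖hh i‖ * ‖M.θ q‖ := h2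
        _ ≤ C * (C * (d * ρ)) := mul_le_mul h3 (h1.trans h4) (norm_nonneg _) (by linarith)
        _ ≤ 2 * C ^ 2 * (d * ρ) := by
          have : 0 ≤ C ^ 2 * (d * ρ) := by positivity
          nlinarith
  · intro g hg
    have hg' : g ∈ M.FB δ r := by
      rcases hg with hg | hg
      · exact e3 g hg
      · have a1 : d * (ρ : ℝ) ≤ r := le_mul_of_one_le_left (by positivity) hCl
        exact M.FB_mono a1 (mul_le_mul_of_nonneg_left a1 hδ.le) hg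
    have h1 := real_le_of_le hQ.fin (by norm_num) (hQ.folf hr0 (by norm_num) hg')
    have h2 : 0 ≤ M.μ.real Q := measureReal_nonneg
    have h3 : M.μ.real {y ∈ Q | y * g ∉ Q} ≤ 1 / 8 * M.μ.real Q := h1
    linarith

/-- neutral flatness for the elements of `Nt` -/
theorem nf_pack (h : M.NFp) (K κ : ℝ) (hκ : 0 < κ) : ∃ CR : ℝ, 0 ≤ CR ∧ ∀ δ : ℝ, 0 < δ →
    ∃ δ₀ : ℝ, 0 < δ₀ ∧ δ₀ ≤ δ ∧ ∀ ε : ℝ, 0 < ε → ∀ δn : ℝ, 0 < δn → δn ≤ δ₀ →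
    ∀ᶠ ρ : ℝ in atTop, ∀ a : ℝ, ρ ≤ a → ∀ F F' : Γ → Γ, M.QIm K F F' → ∀ D Dp : Set S,
    M.FFat δ (CR * a) 1 D Dp → ∀ z ∈ M.Nt δn ρ,
    M.μ {x | x ∈ D ∧ κ * ρ < ‖M.f F (x * z) - M.f F x‖} ≤ ENNReal.ofReal ε * M.μ D := by
  obtain ⟨δN, cN, CN, rN, hδN, hcN, hCN, HN⟩ := NFp.apply M h K κ 1 hκ
  obtain ⟨Cm, hCm, Hm⟩ := M.fb_mul
  obtain ⟨Cl, hCl, Hl⟩ := M.fb_of_len
  obtain ⟨Ce, hCe, He⟩ := M.ex_mem_FB
  have hCm0 : 0 < Cm := by linarith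
  have hCl0 : 0 < Cl := by linarith
  have hCe0 : 0 < Ce := by linarith
  refine ⟨Cm * (Cl * (CN + 1)), by positivity, fun δ hδ => ?_⟩
  set δg : ℝ := min (δ / Cm) 1 with hδg
  have hδg0 : 0 < δg := lt_min (by positivity) one_pos
  have hδg1 : δg ≤ 1 := min_le_right _ _
  have hδg2 : Cm * δg ≤ δ := by
    have : δg ≤ δ / Cm := min_le_left _ _
    rw [le_div_iff₀ hCm0] at this
    linarith
  refine ⟨min (min (δg / Ce) δN) δ, lt_min (lt_min (by positivity) hδN) hδ, min_le_right _ _,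
    fun ε hε δn hδn hδn' => ?_⟩
  have d1 : Ce * δn ≤ δg := by
    have : δn ≤ δg / Ce := hδn'.trans ((min_le_left _ _).trans (min_le_left _ _))
    rw [le_div_iff₀ hCe0] at this
    linarith
  have d2 : δn ≤ δN := hδn'.trans ((min_le_left _ _).trans (min_le_right _ _))
  have hT1 : Tendsto (fun ρ : ℝ => (CN + 1) * ρ) atTop atTop :=
    tendsto_id.const_mul_atTop (by positivity)
  have hT2 : Tendsto (fun ρ : ℝ => Cl * ((CN + 1) * ρ)) atTop atTop :=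
    hT1.const_mul_atTop hCl0
  filter_upwards [eventually_ge_atTop (0 : ℝ), eventually_ge_atTop rN, He δn hδn,
    hT1.eventually (Hl δg hδg0), hT2.eventually (Hm δg hδg0 hδg1), ev_const (2 / ε) hcN]
    with ρ h0 h1 h2 h3 h4 h5 a ha F F' hF D Dp hD z hz
  obtain ⟨y, hy, hyn, rfl⟩ := hz
  have hle : M.μ Dp ≤ ENNReal.ofReal (1 + 1) * M.μ D := hD.le
  have key := HN ρ h1 F F' hF D Dp hD.meas' hD.pos hD.fin hle y hy (hyn.trans
    (Real.exp_le_exp.2 (mul_le_mul_of_nonneg_right d2 h0))) ?_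
  · refine key.trans ?_
    calc ENNReal.ofReal (Real.exp (-(cN * ρ))) * M.μ Dp
        ≤ ENNReal.ofReal (Real.exp (-(cN * ρ))) * (ENNReal.ofReal (1 + 1) * M.μ D) := by gcongr
      _ = ENNReal.ofReal (Real.exp (-(cN * ρ)) * (1 + 1)) * M.μ D := by
        rw [← mul_assoc, ENNReal.ofReal_mul (Real.exp_pos _).le]
      _ ≤ ENNReal.ofReal ε * M.μ D := by
        gcongr
        rw [div_le_iff₀ hε] at h5
        rw [Real.exp_neg, inv_mul_le_iff₀ (Real.exp_pos _)]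
        linarith
  · intro x hx t ht0 ht1 g hg
    have b1 : M.ex (t • y) ∈ M.Nt δn ρ := by
      refine ⟨t • y, Submodule.smul_mem _ _ hy, ?_, rfl⟩
      rw [map_smul_eq_mul, Real.norm_of_nonneg ht0]
      exact (mul_le_of_le_one_left (M.nm_nonneg _) ht1).trans hyn
    have r1 : ρ ≤ Cl * ((CN + 1) * ρ) := by
      have e1 : ρ ≤ (CN + 1) * ρ := le_mul_of_one_le_left h0 (by linarith)
      exact e1.trans (le_mul_of_one_le_left (by positivity) hCl)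
    have b2 : M.ex (t • y) ∈ M.FB δg (Cl * ((CN + 1) * ρ)) :=
      M.FB_mono r1 (mul_le_mul d1 r1 h0 hδg0.le) (h2 b1)
    have b3 : g ∈ M.FB δg (Cl * ((CN + 1) * ρ)) := h3 g (hg.trans (by nlinarith))
    have b4 := h4 _ b2 _ b3
    have r2 : Cm * (Cl * ((CN + 1) * ρ)) ≤ Cm * (Cl * (CN + 1)) * a := by
      calc _ = Cm * (Cl * (CN + 1)) * ρ := by ring
        _ ≤ _ := mul_le_mul_of_nonneg_left ha (by positivity)
    have b5 := M.FB_mono r2 (mul_le_mul hδg2 r2 (by positivity) hδ.le) b4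
    rw [mul_assoc]
    exact hD.subf x hx _ b5

theorem l_pow_le (t : S) (n : ℕ) : M.l (t ^ n) ≤ n * M.l t := by
  induction n with
  | zero => simp [M.len.one]
  | succ n ih =>
    rw [pow_succ]
    refine (M.len.mul _ _).trans ?_
    rw [Nat.succ_mul]
    exact Nat.add_le_add_right ih _

theorem l_zpow_le (t : S) (m : ℤ) : (M.l (t ^ m) : ℝ) ≤ |(m : ℝ)| * M.l t := by
  have h1 : M.l (t ^ m) ≤ m.natAbs * M.l t := by
    rcases Int.natAbs_eq m with h | h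
    · conv_lhs => rw [h, zpow_natCast]
      exact l_pow_le _ _
    · conv_lhs => rw [h, zpow_neg, zpow_natCast, M.len.inv]
      exact l_pow_le _ _
  have h2 : ((m.natAbs : ℕ) : ℝ) = |(m : ℝ)| := by
    rw [Nat.cast_natAbs, Int.cast_abs]
  calc (M.l (t ^ m) : ℝ) ≤ ((m.natAbs * M.l t : ℕ) : ℝ) := by exact_mod_cast h1
    _ = _ := by rw [Nat.cast_mul, h2]

theorem scl_le {q n0 J j : ℕ} (hq : 0 < q) (hj : j < J) : scl q n0 j ≤ (2 * q) ^ J * n0 := by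
  unfold scl
  calc q * ((2 * q) ^ j * n0) ≤ (2 * q) * ((2 * q) ^ j * n0) :=
        Nat.mul_le_mul_right _ (by omega)
    _ = (2 * q) ^ (j + 1) * n0 := by ring
    _ ≤ _ := Nat.mul_le_mul_right _ (Nat.pow_le_pow_right (by omega) hj)

theorem le_scl {q n0 j : ℕ} (hq : 0 < q) : n0 ≤ scl q n0 j := by
  unfold scl
  have h1 : 1 ≤ (2 * q) ^ j := Nat.one_le_pow _ _ (by omega)
  calc n0 = 1 * (1 * n0) := by ring
    _ ≤ q * ((2 * q) ^ j * n0) := Nat.mul_le_mul hq (Nat.mul_le_mul_right _ h1)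

/-- from the relations of the coordinates to linear parts -/
theorem lin_fin {F : Γ → Γ} {D : Set S} {v : Fin k → Fin k → ℤ} {hh : Fin k → Ht k →L[ℝ] ℝ}
    {ρ : ℕ} {ε ε' r : ℝ} (hDm : MeasurableSet D) (hDf : M.μ D ≠ ⊤) (hε : 0 < ε) (hε' : 0 < ε')
    (hε'1 : ε' ≤ ε) (hε'2 : ε' * ((k + 1) * ((∑ j, ‖hh j‖) + 1)) ≤ ε) (hr : 0 ≤ r)
    {Pr : S → Prop}
    (h : ∀ i : Fin k, ∃ D0 ⊆ D, MeasurableSet D0 ∧ M.μ.real (D \ D0) ≤ ε' * M.μ.real D ∧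
      ∀ x ∈ D0, ∀ x' ∈ D0, Pr (x⁻¹ * x') → Rel (fun x => M.f F x i) (fun i => M.τ (v i))
        (fun j x => hh j (M.θ x)) ρ (ε' * r) ε' x x') :
    ∃ (D₀ : Set S) (T : S → Ht k →L[ℝ] Ht k), D₀ ⊆ D ∧ MeasurableSet D₀ ∧
      M.μ (D \ D₀) ≤ ENNReal.ofReal ε * M.μ D ∧ ∀ x ∈ D₀, ∀ x' ∈ D₀, Pr (x⁻¹ * x') →
        ‖M.f F x' - M.f F x - T x (M.θ (x⁻¹ * x'))‖ ≤ ε * r ∧ ‖T x' - T x‖ ≤ ε := by
  choose E0 hE0D hE0m hE0 hE0r using h
  obtain ⟨Hn, hHn⟩ : ∃ Hn : ℝ, Hn = ∑ j, ‖hh j‖ := ⟨_, rfl⟩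
  have hHn0 : 0 ≤ Hn := by rw [hHn]; exact Finset.sum_nonneg fun _ _ => norm_nonneg _
  rw [← hHn] at hε'2
  have hk0 : (0 : ℝ) ≤ k := Nat.cast_nonneg _
  refine ⟨D ∩ ⋂ i, E0 i, fun x => ContinuousLinearMap.pi fun i =>
    ∑ l, (dq (fun x => M.f F x i) (M.τ (v l)) ρ x) • hh l,
    inter_subset_left, hDm.inter (MeasurableSet.iInter hE0m), ?_, ?_⟩
  · refine le_of_real_le (ne_top_of_le_ne_top hDf (measure_mono sdiff_subset)) hDf
      hε.le ?_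
    have h1 : D \ (D ∩ ⋂ i, E0 i) ⊆ ⋃ i ∈ (Finset.univ : Finset (Fin k)), (D \ E0 i) := by
      rintro x ⟨hx, hx'⟩
      by_contra hcon
      simp only [Finset.mem_univ, iUnion_true, mem_iUnion, Set.mem_sdiff, not_exists, not_and,
        not_not] at hcon
      exact hx' ⟨hx, mem_iInter.2 fun i => hcon i hx⟩
    refine (measureReal_mono h1 (ne_top_of_le_ne_top hDf (measure_mono ?_))).trans ?_
    · intro x hx
      simp only [Finset.mem_univ, iUnion_true, mem_iUnion] at hx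
      obtain ⟨i, hi⟩ := hx
      exact hi.1
    · refine (measureReal_biUnion_finset_le _ _).trans ?_
      refine (Finset.sum_le_sum fun i _ => hE0 i).trans ?_
      rw [Finset.sum_const, nsmul_eq_mul, Finset.card_univ, Fintype.card_fin, ← mul_assoc]
      refine mul_le_mul_of_nonneg_right (le_trans ?_ hε'2) measureReal_nonneg
      rw [mul_comm (k : ℝ)]
      refine mul_le_mul_of_nonneg_left ?_ hε'.le
      nlinarith
  · intro x hx x' hx' hxx'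
    have hrel : ∀ i : Fin k, Rel (fun x => M.f F x i) (fun i => M.τ (v i))
        (fun j x => hh j (M.θ x)) ρ (ε' * r) ε' x x' := fun i =>
      hE0r i x (mem_iInter.1 hx.2 i) x' (mem_iInter.1 hx'.2 i) hxx'
    constructor
    · rw [pi_norm_le_iff_of_nonneg (by positivity)]
      intro i
      have h1 := (hrel i).1
      have h2 : (M.f F x' - M.f F x - (ContinuousLinearMap.pi fun i =>
          ∑ l, (dq (fun x => M.f F x i) (M.τ (v l)) ρ x) • hh l)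
            (M.θ (x⁻¹ * x'))) i = M.f F x' i - M.f F x i -
          ∑ l, hh l (M.θ (x⁻¹ * x')) * dq (fun x => M.f F x i) (M.τ (v l)) ρ x := by
        simp only [Pi.sub_apply, ContinuousLinearMap.coe_pi', ContinuousLinearMap.sum_apply,
          ContinuousLinearMap.smul_apply, smul_eq_mul]
        congr 1
        exact Finset.sum_congr rfl fun l _ => mul_comm _ _
      rw [h2, Real.norm_eq_abs]
      exact h1.trans (mul_le_mul_of_nonneg_right hε'1 hr)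
    · refine ContinuousLinearMap.opNorm_le_bound _ hε.le fun w => ?_
      rw [pi_norm_le_iff_of_nonneg (by positivity)]
      intro i
      have h2 : ((ContinuousLinearMap.pi fun i =>
          ∑ l, (dq (fun x => M.f F x i) (M.τ (v l)) ρ x') • hh l) -
          (ContinuousLinearMap.pi fun i =>
          ∑ l, (dq (fun x => M.f F x i) (M.τ (v l)) ρ x) • hh l) :
            Ht k →L[ℝ] Ht k) w i =
          ∑ l, (dq (fun x => M.f F x i) (M.τ (v l)) ρ x' -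
            dq (fun x => M.f F x i) (M.τ (v l)) ρ x) * hh l w := by
        simp only [ContinuousLinearMap.sub_apply, Pi.sub_apply, ContinuousLinearMap.coe_pi',
          ContinuousLinearMap.sum_apply, ContinuousLinearMap.smul_apply, smul_eq_mul,
          ← Finset.sum_sub_distrib, sub_mul]
      rw [h2, Real.norm_eq_abs]
      refine (Finset.abs_sum_le_sum_abs _ _).trans ?_
      calc ∑ l, |(dq (fun x => M.f F x i) (M.τ (v l)) ρ x' -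
            dq (fun x => M.f F x i) (M.τ (v l)) ρ x) * hh l w|
          ≤ ∑ l, ε' * (‖hh l‖ * ‖w‖) := by
            refine Finset.sum_le_sum fun l _ => ?_
            rw [abs_mul]
            exact mul_le_mul ((hrel i).2 l) ((hh l).le_opNorm w) (abs_nonneg _) hε'.le
        _ = (ε' * Hn) * ‖w‖ := by
            rw [← Finset.mul_sum, ← Finset.sum_mul, hHn]; ring
        _ ≤ ε * ‖w‖ := by
            refine mul_le_mul_of_nonneg_right (le_trans ?_ hε'2) (norm_nonneg _)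
            refine mul_le_mul_of_nonneg_left ?_ hε'.le
            nlinarith

theorem lip_coord {K L : ℝ} {F F' : Γ → Γ} (hF : M.QIm K F F')
    (hL : |M.C0 * K * (2 * M.C0 + 1)| + 1 = L) (i : Fin k) (x s : S) :
    |M.f F (x * s) i - M.f F x i| ≤ L * (M.l s + 1) := by
  have h1 := hF.f_lip x s
  have h2 : |M.f F (x * s) i - M.f F x i| ≤ ‖M.f F (x * s) - M.f F x‖ :=
    norm_le_pi_norm (M.f F (x * s) - M.f F x) i
  refine h2.trans (h1.trans ?_)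
  refine mul_le_mul_of_nonneg_right ?_ (by positivity)
  rw [← hL]
  linarith [le_abs_self (M.C0 * K * (2 * M.C0 + 1))]

theorem fol_real_l {δ R κ ε0 : ℝ} {D Dp : Set S} (hD : M.FFat δ R κ D Dp) (hR : 0 ≤ R)
    (hκ : 0 ≤ κ) (hκε : κ ≤ ε0) {w : S} (hw : (M.l w : ℝ) ≤ R) :
    M.μ.real {x ∈ D | x * w ∉ D} ≤ ε0 * M.μ.real D :=
  (real_le_of_le hD.fin hκ (hD.toFat.fol hR hκ hw)).trans
    (mul_le_mul_of_nonneg_right hκε measureReal_nonneg)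

theorem fol_real_f {δ R κ ε0 : ℝ} {D Dp : Set S} (hD : M.FFat δ R κ D Dp) (hR : 0 ≤ R)
    (hκ : 0 ≤ κ) (hκε : κ ≤ ε0) {w : S} (hw : w ∈ M.FB δ R) :
    M.μ.real {x ∈ D | x * w ∉ D} ≤ ε0 * M.μ.real D :=
  (real_le_of_le hD.fin hκ (hD.folf hR hκ hw)).trans
    (mul_le_mul_of_nonneg_right hκε measureReal_nonneg)

theorem nf_real {κ r ε0 : ℝ} {F : Γ → Γ} {D : Set S} {z : S} (hDf : M.μ D ≠ ⊤) (hε0 : 0 ≤ ε0)
    (h : M.μ {x | x ∈ D ∧ κ * r < ‖M.f F (x * z) - M.f F x‖} ≤ ENNReal.ofReal ε0 * M.μ D)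
    (i : Fin k) :
    M.μ.real {x ∈ D | ¬ |M.f F (x * z) i - M.f F x i| ≤ κ * r} ≤ ε0 * M.μ.real D := by
  refine (measureReal_mono ?_ (ne_top_of_le_ne_top hDf
    (measure_mono (Set.sep_subset _ _)))).trans (real_le_of_le hDf hε0 h)
  rintro x ⟨hx, hxb⟩
  refine ⟨hx, ?_⟩
  by_contra hcon
  refine hxb (le_trans ?_ (not_lt.1 hcon))
  exact norm_le_pi_norm (M.f F (x * z) - M.f F x) i

theorem base_of {v : Fin k → Fin k → ℤ} {hh : Fin k → Ht k →L[ℝ] ℝ} {C : ℝ} (hC : 1 ≤ C)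
    (hdual : ∀ i j, hh j (ht (v i)) = if i = j then 1 else 0)
    (hl : (∑ i, (M.l (M.τ (v i)) : ℝ)) ≤ C) :
    Base M.μ (fun x => (M.l x : ℝ)) (fun i => M.τ (v i)) (fun j x => hh j (M.θ x)) C :=
  { one_le_C := hC
    h_mul := fun i x y => by rw [M.θ_mul, map_add]
    h_t := fun i j => by rw [M.θ_τ]; exact hdual i j
    h_meas := fun i => (hh i).continuous.measurable.comp M.measurable_θ
    l_t := fun i => (Finset.single_le_sum (f := fun i => (M.l (M.τ (v i)) : ℝ))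
      (fun j _ => Nat.cast_nonneg _) (Finset.mem_univ i)).trans hl
    mp := M.mp }

/-- the number `n0` -/
theorem exists_n0 {P a : ℝ} (hP : 1 ≤ P) (N : ℕ) (ha : P * ((max N 1 : ℕ) + 1) ≤ a) :
    ∃ n0 : ℕ, N ≤ n0 ∧ 0 < n0 ∧ P * n0 ≤ a ∧ a / (2 * P) ≤ n0 ∧ 0 ≤ a := by
  have hP0 : 0 < P := by linarith
  have h0 : (0 : ℝ) ≤ ((max N 1 : ℕ) : ℝ) := Nat.cast_nonneg _
  have h1 : (1 : ℝ) ≤ ((max N 1 : ℕ) : ℝ) := by exact_mod_cast le_max_right _ _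
  have haP : ((max N 1 : ℕ) : ℝ) + 1 ≤ a / P := by
    rw [le_div_iff₀ hP0]; linarith
  have haP0 : 0 ≤ a / P := by linarith
  have hn0 : max N 1 ≤ ⌊a / P⌋₊ := Nat.le_floor (by linarith)
  refine ⟨⌊a / P⌋₊, (le_max_left _ _).trans hn0, lt_of_lt_of_le one_pos
    ((le_max_right _ _).trans hn0), ?_, ?_, ?_⟩
  · have : (⌊a / P⌋₊ : ℝ) ≤ a / P := Nat.floor_le haP0
    rw [le_div_iff₀ hP0] at this; linarith
  · have h2 : a / P < ⌊a / P⌋₊ + 1 := Nat.lt_floor_add_one _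
    have h3 : a / (2 * P) = a / P / 2 := by rw [mul_comm 2 P, div_div]
    rw [h3]; linarith
  · have := mul_nonneg haP0 hP0.le
    rwa [div_mul_cancel₀ _ hP0.ne'] at this

/-- the big constant -/
theorem exists_C {C1 C2 Cq Hn Lt : ℝ} (h1 : 1 ≤ C1) (h2 : 1 ≤ C2) (hq : 1 ≤ Cq) (hHn : 0 ≤ Hn)
    (hLt : 0 ≤ Lt) : ∃ C : ℝ, 1 ≤ C ∧ C1 ≤ C ∧ C2 ≤ C ∧ C2 * Cq ≤ C ∧ Hn ≤ C ∧ Cq ≤ C ∧ Lt ≤ C := by
  have h3 : 1 ≤ C2 * Cq := one_le_mul_of_one_le_of_one_le h2 hq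
  refine ⟨C1 + C2 + C2 * Cq + Hn + Cq + Lt, ?_, ?_, ?_, ?_, ?_, ?_, ?_⟩ <;> linarith

/-- the small fatness -/
theorem exists_δQ {X δN d : ℝ} (hX : 0 < X) (hδN : 0 < δN) (hd : 0 < d) :
    ∃ δQ : ℝ, 0 < δQ ∧ X * δQ ≤ δN ∧ X * δQ ≤ 1 ∧ δQ ≤ d := by
  refine ⟨min (min (δN / X) (1 / X)) d, lt_min (lt_min (by positivity) (by positivity)) hd,
    ?_, ?_, min_le_right _ _⟩
  · have : min (min (δN / X) (1 / X)) d ≤ δN / X := (min_le_left _ _).trans (min_le_left _ _)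
    rw [le_div_iff₀ hX] at this; linarith
  · have : min (min (δN / X) (1 / X)) d ≤ 1 / X := (min_le_left _ _).trans (min_le_right _ _)
    rw [le_div_iff₀ hX] at this; linarith

/-- the part of `LIN` with fixed constants -/
theorem lin_step {p : ℕ} {K ε ε' ε0 ε1 C C1 CR d δ δN δQ X κ L a : ℝ} {c q J n0 T : ℕ}
    {v : Fin k → Fin k → ℤ} {hh : Fin k → Ht k →L[ℝ] ℝ}
    (hbase : Base M.μ (fun x => (M.l x : ℝ)) (fun i => M.τ (v i)) (fun j x => hh j (M.θ x)) C)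
    (hL : |M.C0 * K * (2 * M.C0 + 1)| + 1 = L)
    (hε : 0 < ε) (hε' : 0 < ε') (hε'1 : ε' ≤ ε)
    (hε'2 : ε' * ((k + 1) * ((∑ j, ‖hh j‖) + 1)) ≤ ε) (hε0 : 0 < ε0) (hd : 0 < d)
    (hκ : 0 ≤ κ) (hκε : κ ≤ ε0) (hκ1 : κ ≤ 1) (hC1 : 0 ≤ C1) (hCR1 : C1 ≤ CR) (hCR2 : C ≤ CR)
    {CN : ℝ} (hCR3 : CN ≤ CR) (hδ : 0 < δ) (hXδ : X * δQ ≤ δ) (hδ' : X * δQ ≤ δN)
    (hX : 0 < X * δQ) (ha : 0 ≤ a) (hq : 0 < q)
    (hn0 : ((((2 * q) ^ J : ℕ)) : ℝ) * n0 ≤ a) (hT : T ≤ n0)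
    (hpack : ∀ ρ : ℕ, T ≤ ρ → ∃ W0 W2 Q : Set S,
        Sc M.μ (fun x => (M.l x : ℝ)) (fun i => M.τ (v i)) (fun j x => hh j (M.θ x)) C ε1 d
          c ρ (M.Nt (X * δQ) ρ) W0 W2 (M.FB (X * δQ) (C1 * ρ)) Q ∧
        ∀ g, ((M.l g : ℝ) ≤ d * ρ ∨ g ∈ M.FB δQ (d * ρ)) →
          M.μ.real {y ∈ Q | y * g ∉ Q} ≤ M.μ.real Q / 4)
    (hnf : ∀ ρ : ℕ, T ≤ ρ → ∀ a : ℝ, (ρ : ℝ) ≤ a → ∀ F F' : Γ → Γ, M.QIm K F F' →
      ∀ D Dp : Set S, M.FFat δ (CN * a) 1 D Dp → ∀ z ∈ M.Nt (X * δQ) ρ,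
      M.μ {x | x ∈ D ∧ ε0 * ρ < ‖M.f F (x * z) - M.f F x‖} ≤ ENNReal.ofReal ε0 * M.μ D)
    {F F' : Fin p → Γ → Γ} {D Dp : Fin p → Set S}
    (hF : ∀ α, M.QIm K (F α) (F' α)) (hD : ∀ α, M.FFat δ (CR * a) κ (D α) (Dp α))
    (core : ∀ Nt W0 W2 W3 Q : ℕ → Set S,
      (∀ j ∈ Finset.range J, Sc M.μ (fun x => (M.l x : ℝ)) (fun i => M.τ (v i))
        (fun j x => hh j (M.θ x)) C ε1 d c (scl q n0 j) (Nt j) (W0 j) (W2 j) (W3 j) (Q j)) →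
      ∀ (A : Type) [Fintype A], Fintype.card A ≤ p * k →
      ∀ (f : A → S → ℝ) (D : A → Set S), (∀ α, Measurable (f α)) →
      (∀ α x s, |f α (x * s) - f α x| ≤ L * (M.l s + 1)) →
      (∀ α, MeasurableSet (D α)) → (∀ α, M.μ (D α) ≠ ∞) →
      (∀ α i (m : ℤ), |m| ≤ ((2 * q) ^ J * n0 : ℕ) →
        M.μ.real {x ∈ D α | x * M.τ (v i) ^ m ∉ D α} ≤ ε0 * M.μ.real (D α)) →
      (∀ α, ∀ j ∈ Finset.range J, ∀ w ∈ W3 j,
        M.μ.real {x ∈ D α | x * w ∉ D α} ≤ ε0 * M.μ.real (D α)) →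
      (∀ α, ∀ j ∈ Finset.range J, ∀ v ∈ Nt j,
        M.μ.real {x ∈ D α | ¬ |f α (x * v) - f α x| ≤ ε0 * (scl q n0 j : ℕ)} ≤
          ε0 * M.μ.real (D α)) →
      ∃ j ∈ Finset.range J, ∀ α, ∃ D0 ⊆ D α, MeasurableSet D0 ∧
        M.μ.real (D α \ D0) ≤ ε' * M.μ.real (D α) ∧
        ∀ x ∈ D0, ∀ x' ∈ D0,
          M.μ.real {y ∈ Q j | y * (x⁻¹ * x') ∉ Q j} ≤ M.μ.real (Q j) / 4 →
          Rel (f α) (fun i => M.τ (v i)) (fun j x => hh j (M.θ x)) (scl q n0 j)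
            (ε' * (d * (scl q n0 j : ℕ))) ε' x x') :
    ∃ ρ : ℕ, n0 ≤ ρ ∧ (ρ : ℝ) ≤ a ∧ ∀ α, ∃ (D₀ : Set S) (T : S → Ht k →L[ℝ] Ht k),
    D₀ ⊆ D α ∧ MeasurableSet D₀ ∧ M.μ (D α \ D₀) ≤ ENNReal.ofReal ε * M.μ (D α) ∧
    ∀ x ∈ D₀, ∀ x' ∈ D₀, ((M.l (x⁻¹ * x') : ℝ) ≤ d * ρ ∨ x⁻¹ * x' ∈ M.FB δQ (d * ρ)) →
      ‖M.f (F α) x' - M.f (F α) x - T x (M.θ (x⁻¹ * x'))‖ ≤ ε * (d * ρ) ∧ ‖T x' - T x‖ ≤ ε := by
  have hscT : ∀ j, T ≤ scl q n0 j := fun j => hT.trans (le_scl hq)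
  have hsca : ∀ j < J, (scl q n0 j : ℝ) ≤ a := by
    intro j hj
    refine le_trans ?_ hn0
    rw [← Nat.cast_mul]
    exact_mod_cast scl_le hq hj
  have hC := hbase.one_le_C
  have hCR : 0 ≤ CR := (zero_le_one.trans hC).trans hCR2
  have hCRa : 0 ≤ CR * a := mul_nonneg hCR ha
  choose W0 W2 Q hSc hQ using fun j : ℕ => hpack (scl q n0 j) (hscT j)
  obtain ⟨j, hj, hres⟩ := core (fun j => M.Nt (X * δQ) (scl q n0 j : ℕ)) W0 W2
    (fun j => M.FB (X * δQ) (C1 * (scl q n0 j : ℕ))) Q (fun j _ => hSc j) (Fin p × Fin k)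
    (by simp) (fun α x => M.f (F α.1) x α.2) (fun α => D α.1)
    (fun α => (measurable_pi_apply _).comp (M.measurable_f _))
    (fun α x s => lip_coord (hF α.1) hL α.2 x s)
    (fun α => (hD α.1).meas) (fun α => (hD α.1).fin)
    (fun α i m hm => by
      refine fol_real_l (hD α.1) hCRa hκ hκε ((l_zpow_le _ _).trans ?_)
      have h2 : |(m : ℝ)| ≤ a := by
        refine le_trans ?_ hn0
        rw [← Nat.cast_mul]
        exact_mod_cast hm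
      have h3 : (M.l (M.τ (v i)) : ℝ) ≤ C := hbase.l_t i
      calc |(m : ℝ)| * (M.l (M.τ (v i)) : ℝ) ≤ a * CR :=
            mul_le_mul h2 (h3.trans hCR2) (Nat.cast_nonneg _) ha
        _ = CR * a := mul_comm _ _)
    (fun α j hj w hw => by
      have hj' := hsca j (Finset.mem_range.1 hj)
      have r1 : C1 * ((scl q n0 j : ℕ) : ℝ) ≤ CR * a :=
        mul_le_mul hCR1 hj' (Nat.cast_nonneg _) hCR
      exact fol_real_f (hD α.1) hCRa hκ hκε (M.FB_mono r1 (mul_le_mul hXδ r1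
        (mul_nonneg hC1 (Nat.cast_nonneg _)) hδ.le) hw))
    (fun α j hj z hz => by
      have hj' := hsca j (Finset.mem_range.1 hj)
      have r1 : CN * a ≤ CR * a := mul_le_mul_of_nonneg_right hCR3 ha
      exact nf_real (hD α.1).fin hε0.le (hnf (scl q n0 j) (hscT j) a hj' (F α.1) (F' α.1)
        (hF α.1) (D α.1) (Dp α.1)
        ((hD α.1).mono r1 (mul_le_mul_of_nonneg_left r1 hδ.le) hκ1) z hz) α.2)
  refine ⟨scl q n0 j, le_scl hq, hsca j (Finset.mem_range.1 hj), fun α => ?_⟩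
  refine lin_fin (v := v) (hh := hh) (ρ := scl q n0 j) (ε' := ε') (hD α).meas (hD α).fin hε hε'
    hε'1 hε'2 (mul_nonneg hd.le (Nat.cast_nonneg _))
    (Pr := fun g => (M.l g : ℝ) ≤ d * (scl q n0 j : ℕ) ∨ g ∈ M.FB δQ (d * (scl q n0 j : ℕ)))
    fun i => ?_
  obtain ⟨E0, hE0D, hE0m, hE0, hE0r⟩ := hres (α, i)
  exact ⟨E0, hE0D, hE0m, hE0, fun x hx x' hx' hxx' =>
    hE0r x hx x' hx' (hQ j (x⁻¹ * x') hxx')⟩

/-- **LIN.** -/
theorem lin_of (hNF : M.NFp) (hBQ : M.BOXQ)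
    (hD1 : ∀ v : Fin k → Fin k → ℤ, (∀ i, M.Generic (v i)) → M.DEC1 v)
    (hD2 : ∀ (v : Fin k → Fin k → ℤ) (hh : Fin k → Ht k →L[ℝ] ℝ), (∀ i, M.Generic (v i)) →
      (∀ i j, hh j (ht (v i)) = if i = j then 1 else 0) → M.DEC2 v hh) : M.LIN := by
  haveI := M.mm
  haveI := M.mi
  intro p K ε hε
  obtain ⟨v, hh, hgen, hdual⟩ := exists_mom k M.Wt
  obtain ⟨c1, C1, hC1, H1⟩ := hD1 v hgen
  obtain ⟨c2, C2, hC2, H2⟩ := hD2 v hh hgen hdual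
  obtain ⟨Cq, X, hCq, hX, HS⟩ := scale_pack (M := M) hBQ (v := v) (hh := hh) (c1 := c1)
    (c2 := c2) hC1 hC2
  have hHn0 : 0 ≤ ∑ j, ‖hh j‖ := Finset.sum_nonneg fun _ _ => norm_nonneg _
  have hLt0 : 0 ≤ ∑ i, (M.l (M.τ (v i)) : ℝ) := Finset.sum_nonneg fun _ _ => Nat.cast_nonneg _
  obtain ⟨C, hC, k1, k2, k3, k4, k5, k6⟩ := exists_C hC1 hC2 hCq hHn0 hLt0
  have hbase := base_of (M := M) hC hdual k6
  have hX0 : 0 < X := zero_lt_one.trans_le hX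
  have hC2q1 : 1 ≤ C2 * Cq := one_le_mul_of_one_le_of_one_le hC2 hCq
  have hC2q : 0 < C2 * Cq := zero_lt_one.trans_le hC2q1
  obtain ⟨L, hLdef⟩ : ∃ L : ℝ, |M.C0 * K * (2 * M.C0 + 1)| + 1 = L := ⟨_, rfl⟩
  have hL : 0 < L := by rw [← hLdef]; positivity
  have hk1 : 0 < ((k : ℝ) + 1) * ((∑ j, ‖hh j‖) + 1) := by positivity
  obtain ⟨ε', hε', hε'1, hε'2⟩ : ∃ ε' : ℝ, 0 < ε' ∧ ε' ≤ ε ∧
      ε' * ((k + 1) * ((∑ j, ‖hh j‖) + 1)) ≤ ε :=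
    ⟨min ε (ε / ((k + 1) * ((∑ j, ‖hh j‖) + 1))), lt_min hε (div_pos hε hk1), min_le_left _ _, by
      rw [← le_div_iff₀ hk1]; exact min_le_right _ _⟩
  obtain ⟨ε1, hε1, hε11, core⟩ := lin_core.{0} (Fin k) (p * k) (c1 + c2) hC hL hε'
  obtain ⟨d1, hd1, hd11, H1'⟩ := H1 ε1 hε1 hε11
  obtain ⟨d, hd, hdd1, hd1'⟩ : ∃ d : ℝ, 0 < d ∧ C2 * (Cq * d) = d1 ∧ d ≤ 1 :=
    ⟨d1 / (C2 * Cq), by positivity, by rw [← mul_assoc, mul_div_cancel₀ _ hC2q.ne'], by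
      rw [div_le_one hC2q]; exact hd11.trans hC2q1⟩
  obtain ⟨ε0, hε0, q, J, ρ0, hq, hJ, core'⟩ := core d hd hd1'
  obtain ⟨P, hPdef⟩ : ∃ P : ℝ, P = (((2 * q) ^ J : ℕ) : ℝ) := ⟨_, rfl⟩
  have hP1 : 1 ≤ P := by
    rw [hPdef]
    exact_mod_cast Nat.one_le_pow _ _ (by omega)
  obtain ⟨CN, hCN, HN⟩ := nf_pack hNF K ε0 hε0
  have hC10 : 0 ≤ C1 := zero_le_one.trans hC1
  have hC0 : 0 ≤ C := zero_le_one.trans hC
  refine ⟨min ε0 1, d / (2 * P), C1 + C + CN, lt_min hε0 one_pos, by positivity, ?_, ?_⟩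
  · rw [div_le_one (by positivity)]
    exact hd1'.trans (hP1.trans (le_mul_of_one_le_left (zero_le_one.trans hP1) one_le_two))
  intro δ hδ
  obtain ⟨δN, hδN, hδNδ, HN'⟩ := HN δ hδ
  obtain ⟨δQ, hδQ, q1, q2, q3⟩ := exists_δQ hX0 hδN hd
  have hXQ : 0 < X * δQ := mul_pos hX0 hδQ
  have hEv := (HS C k1 k2 k3 k4 k5 ε1 d1 hε1 hd1 hd11 H1' H2 d hd hdd1.le δQ hδQ q2 q3).and
    ((tendsto_natCast_atTop_atTop (R := ℝ)).eventually (HN' ε0 hε0 (X * δQ) hXQ q1))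
  obtain ⟨T, hT⟩ := eventually_atTop.1 hEv
  refine ⟨min δQ δ, P * ((max (max T ρ0) 1 : ℕ) + 1), lt_min hδQ hδ, min_le_right _ _, ?_⟩
  intro a ha F F' D Dp hF hD
  obtain ⟨n0, hn0, hn01, hn0le, hn0ge, ha0⟩ := exists_n0 hP1 (max T ρ0) ha
  have hn0T : T ≤ n0 := (le_max_left _ _).trans hn0
  have hn0ρ : ρ0 ≤ n0 := (le_max_right _ _).trans hn0
  rw [hPdef] at hn0le
  obtain ⟨ρ, hρ1, hρ2, hρ3⟩ := lin_step (CN := CN) (δN := δN) (p := p) hbase hLdef hε hε' hε'1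
    hε'2 hε0 hd (lt_min hε0 one_pos).le (min_le_left _ _) (min_le_right _ _) hC10
    (show C1 ≤ C1 + C + CN by linarith only [hC0, hCN])
    (show C ≤ C1 + C + CN by linarith only [hC10, hCN])
    (show CN ≤ C1 + C + CN by linarith only [hC0, hC10]) hδ (q1.trans hδNδ) q1 hXQ ha0 hq hn0le
    hn0T (fun ρ hρ => (hT ρ hρ).1) (fun ρ hρ => (hT ρ hρ).2) hF hD
    (fun Nt W0 W2 W3 Q hSc A _ hA f D => core' n0 hn0ρ hn01 (Finset.range J)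
      (Finset.Subset.refl _) (by rw [Finset.card_range]; omega) S M.μ (fun x => (M.l x : ℝ))
      (fun i => M.τ (v i)) (fun j x => hh j (M.θ x)) hbase Nt W0 W2 W3 Q hSc A hA f D)
  have hρ0 : (0 : ℝ) ≤ ρ := Nat.cast_nonneg _
  refine ⟨d * ρ, ?_, (mul_le_of_le_one_left hρ0 hd1').trans hρ2, fun α => ?_⟩
  · have h1 : (n0 : ℝ) ≤ ρ := by exact_mod_cast hρ1
    calc d / (2 * P) * a = d * (a / (2 * P)) := by ring
      _ ≤ d * ρ := mul_le_mul_of_nonneg_left (hn0ge.trans h1) hd.le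
  obtain ⟨D₀, T₀, h1, h2, h3, h4⟩ := hρ3 α
  refine ⟨D₀, T₀, h1, h2, h3, fun x hx x' hx' hxx' => h4 x hx x' hx' ?_⟩
  rcases hxx' with h | h
  · exact Or.inl h
  · refine Or.inr (M.FB_mono le_rfl ?_ h)
    exact mul_le_mul_of_nonneg_right (min_le_left _ _) (mul_nonneg hd.le hρ0)

end RModel

end Vale.Agent.P188.Z1

end
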