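import Vale.Agent.P188.R.G081
import Vale.Agent.P188.R.G082
import Vale.Agent.P188.R.G062
import Vale.Agent.P188.R.G036
import Vale.Agent.P188.R.G084

section

/-!
# P188, Z1: neutral flatness

`nfp_holds : M.NFp`, `nf_holds : M.NF` (and `gcl_holds`, `ray_holds`, `peak_holds`).
-/

set_option linter.all false

open MeasureTheory Set Filter
open Agent.P188.H428 (IsLen)
open Vale.Agent.P188.H530 (hgt hgt_mul)
open Vale.Agent.P188.H616 (Coord)
open Vale.Agent.P188.H893 (Tol fwd bwd neutral_flat)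

namespace Vale.Agent.P188.Z1

namespace RModel

variable {S : Type} [Group S] [MeasurableSpace S] {Γ : Type} [Group Γ]
  {V : Type} [AddCommGroup V] [Module ℝ V] {k : ℕ} (M : RModel S Γ V k)

theorem gclp_holds : M.GCLp := M.gclp_of_spread M.spread_holds
theorem gcl_holds : M.GCL := M.gcl_of_gclp M.gclp_holds
theorem ray_holds : M.RAY := M.ray_of_gcl M.gcl_holds
theorem peak_holds : M.PEAK := M.peak_of_gcl M.gcl_holds

/-- the functionals of `Φ` control the norm -/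
theorem norm_of_Φ : ∃ L : ℝ, 0 < L ∧ ∀ w : Ht k, ∀ B : ℝ, 0 ≤ B → (∀ b ∈ M.Φ, |b w| ≤ B) →
    ‖w‖ ≤ L * B := by
  classical
  set T : Ht k →ₗ[ℝ] (M.Φ → ℝ) := LinearMap.pi fun b => (b.1 : Ht k →L[ℝ] ℝ).toLinearMap with hT
  have hker : LinearMap.ker T = ⊥ := by
    rw [LinearMap.ker_eq_bot']
    intro w hw
    apply M.Φ_span w
    intro b hb
    have := congrFun hw ⟨b, hb⟩
    simpa [hT] using this
  obtain ⟨K, hK, hKl⟩ := T.exists_antilipschitzWith hker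
  refine ⟨K, hK, fun w B hB hw => ?_⟩
  have h1 := hKl.le_mul_dist w 0
  rw [map_zero, dist_zero_right, dist_zero_right] at h1
  refine h1.trans (mul_le_mul_of_nonneg_left ?_ K.2)
  rw [pi_norm_le_iff_of_nonneg hB]
  rintro ⟨b, hb⟩
  rw [Real.norm_eq_abs]
  exact hw b hb

/-- a functional which is not zero is positive on some integral vector -/
theorem exists_pos (b : Ht k →L[ℝ] ℝ) (hb : b ≠ 0) : ∃ v : Fin k → ℤ, 0 < b (ht v) := by
  classical
  obtain ⟨j, hj⟩ : ∃ j : Fin k, b (Pi.single j 1) ≠ 0 := by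
    by_contra hcon
    push Not at hcon
    apply hb
    ext w
    rw [ContinuousLinearMap.zero_apply, pi_eq_sum_univ' w, map_sum]
    refine Finset.sum_eq_zero fun i _ => ?_
    rw [map_smul, hcon i, smul_zero]
  have e1 : ht (Pi.single j (1 : ℤ)) = Pi.single j (1 : ℝ) := by
    funext i
    unfold ht
    by_cases h : i = j
    · subst h; simp
    · simp [Pi.single_apply, h]
  have e2 : ht (-Pi.single j (1 : ℤ)) = -Pi.single j (1 : ℝ) := by
    rw [← e1]; funext i; simp [ht]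
  rcases lt_or_gt_of_ne hj with h | h
  · refine ⟨-Pi.single j 1, ?_⟩
    rw [e2, map_neg]
    linarith
  · refine ⟨Pi.single j 1, ?_⟩
    rw [e1]
    exact h

/-- contracting elements for the letters -/
theorem contr : ∃ (t : M.ι → S) (A c : ℝ) (N : ℕ), 0 < c ∧ 0 ≤ A ∧ (∀ i, (M.l (t i) : ℝ) ≤ A) ∧
    ∀ i, M.wt i ≠ 0 → t i ∈ M.CB N ∧ c ≤ M.wt i (M.θ (t i)) := by
  classical
  have h1 : ∀ i, ∃ v : Fin k → ℤ, M.wt i ≠ 0 → 0 < M.wt i (ht v) := by
    intro i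
    by_cases hi : M.wt i = 0
    · exact ⟨0, fun h => absurd hi h⟩
    · obtain ⟨v, hv⟩ := exists_pos (M.wt i) hi
      exact ⟨v, fun _ => hv⟩
  choose v hv using h1
  have h2 : ∀ i, ∃ N : ℕ, M.τ (v i) ∈ M.CB N := fun i => ⟨_, M.τ_CB (v i)⟩
  choose N hN using h2
  have h3 : ∀ i, M.θ (M.τ (v i)) = ht (v i) := fun i => by rw [M.θ_τ]; rfl
  obtain ⟨c, hc, hc'⟩ : ∃ c : ℝ, 0 < c ∧ ∀ i, M.wt i ≠ 0 → c ≤ M.wt i (ht (v i)) := by
    set T : Finset ℝ := insert 1 ((Finset.univ.filter fun i => M.wt i ≠ 0).image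
      fun i => M.wt i (ht (v i))) with hT
    have hTn : T.Nonempty := ⟨1, Finset.mem_insert_self _ _⟩
    refine ⟨T.min' hTn, ?_, fun i hi => ?_⟩
    · rw [Finset.lt_min'_iff]
      intro y hy
      rcases Finset.mem_insert.1 hy with rfl | hy
      · exact one_pos
      · obtain ⟨i, hi, rfl⟩ := Finset.mem_image.1 hy
        exact hv i (Finset.mem_filter.1 hi).2
    · refine Finset.min'_le _ _ (Finset.mem_insert_of_mem (Finset.mem_image.2 ⟨i, ?_, rfl⟩))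
      exact Finset.mem_filter.2 ⟨Finset.mem_univ _, hi⟩
  refine ⟨fun i => M.τ (v i), ∑ i, (M.l (M.τ (v i)) : ℝ), c, ∑ i, N i, hc,
    Finset.sum_nonneg fun i _ => Nat.cast_nonneg _, fun i => ?_, fun i hi => ⟨?_, ?_⟩⟩
  · exact Finset.single_le_sum (f := fun i => (M.l (M.τ (v i)) : ℝ))
      (fun _ _ => Nat.cast_nonneg _) (Finset.mem_univ i)
  · exact M.CB_mono (Finset.single_le_sum (f := N) (fun _ _ => Nat.zero_le _)
      (Finset.mem_univ i)) (hN i)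
  · rw [h3]; exact hc' i hi

/-- a path `a` of length `p` followed by powers of `t` -/
def pth (a : ℕ → S) (p : ℕ) (t : S) (n : ℕ) : S := if n ≤ p then a n else a p * t ^ (n - p)

theorem pth_end (a : ℕ → S) (p m : ℕ) (t : S) : pth a p t (p + m) = a p * t ^ m := by
  unfold pth
  by_cases h : p + m ≤ p
  · rw [if_pos h]
    have : m = 0 := by omega
    subst this
    simp
  · rw [if_neg h, Nat.add_sub_cancel_left]

theorem pth_step {a : ℕ → S} {p : ℕ} {t : S} {A : ℝ}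
    (ha : ∀ n < p, (M.l ((a n)⁻¹ * a (n + 1)) : ℝ) ≤ A) (ht : (M.l t : ℝ) ≤ A) (n : ℕ) :
    (M.l ((pth a p t n)⁻¹ * pth a p t (n + 1)) : ℝ) ≤ A := by
  unfold pth
  by_cases h1 : n + 1 ≤ p
  · rw [if_pos (by omega), if_pos h1]
    exact ha n (by omega)
  · rw [if_neg h1]
    by_cases h2 : n ≤ p
    · have : n = p := by omega
      subst this
      rw [if_pos le_rfl, Nat.add_sub_cancel_left, pow_one, inv_mul_cancel_left]
      exact ht
    · rw [if_neg h2]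
      have e : n + 1 - p = (n - p) + 1 := by omega
      rw [e, pow_succ]
      have e2 : (a p * t ^ (n - p))⁻¹ * (a p * (t ^ (n - p) * t)) = t := by group
      rw [e2]
      exact ht

/-- **GCL for paths beginning with a neutral path.** -/
theorem gcl_tail (K C₁ : ℝ) (t : M.ι → S) {A c κ1 : ℝ} {N : ℕ} (hc : 0 < c)
    (hκ1 : 0 < κ1) (hA : ∀ i, (M.l (t i) : ℝ) ≤ A)
    (htc : ∀ i, M.wt i ≠ 0 → t i ∈ M.CB N ∧ c ≤ M.wt i (M.θ (t i))) :
    ∃ (δ η c₀ CR r₀ : ℝ), 0 < δ ∧ 0 < η ∧ 0 < c₀ ∧ δ ≤ c₀ / 4 ∧ ∀ r : ℝ, r₀ ≤ r →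
    ∀ F F' : Γ → Γ, M.QIm K F F' → ∀ b ∈ M.Φ, ∀ D Dp : Set S, M.Fat (CR * r) C₁ D Dp →
    ∀ (a : ℕ → S) (p : ℕ) (w : V), a 0 = 1 →
      (∀ n < p, (M.l ((a n)⁻¹ * a (n + 1)) : ℝ) ≤ 2 * M.C0) →
      (p : ℝ) ≤ Real.exp (δ * r) + 1 → a p = M.ex w → w ∈ M.Vw 0 → M.nm w ≤ Real.exp (δ * r) →
      M.μ (D ∩ {z | ∀ i, M.wt i ≠ 0 → ∀ n ≤ p + ⌊κ1 * r⌋₊,
        b (M.f F (z * pth a p (t i) n)) ≤ b (M.f F z) + η * r}) ≤
        ENNReal.ofReal (Real.exp (-(c₀ * r))) * M.μ D := by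
  classical
  obtain ⟨η, c₀, CR, r₀, hη, hc₀, H⟩ := M.gclp_holds K (max (2 * M.C0) A) (κ1 * c / 4) C₁
    (by positivity)
  have hC0 := M.C0_pos
  set δ : ℝ := min (min (η / 2) (c₀ / 4)) (κ1 * c / (4 * M.C0)) with hδ
  have hδ0 : 0 < δ := by
    rw [hδ]
    exact lt_min (lt_min (by positivity) (by positivity)) (by positivity)
  have hδ1 : δ ≤ η / 2 := (min_le_left _ _).trans (min_le_left _ _)
  have hδ2 : δ ≤ c₀ / 4 := (min_le_left _ _).trans (min_le_right _ _)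
  have hδ3 : M.C0 * δ ≤ κ1 * c / 4 := by
    have h1 : δ ≤ κ1 * c / (4 * M.C0) := min_le_right _ _
    rw [le_div_iff₀ (by positivity)] at h1
    linarith
  have ev1 := ev_poly (2 + κ1) 1 (ε := η / 2) (by positivity)
  have ev2 := ev_poly (M.C0 * (1 + κ1 * N) ^ M.deg * Real.exp c * (M.C0 * 2 ^ M.C0)) M.deg
    (ε := κ1 * c / 2) (by positivity)
  obtain ⟨r₁, hr₁⟩ := ((ev1.and ev2).and (eventually_ge_atTop (1 : ℝ))).exists_forall_of_atTop
  refine ⟨δ, η, c₀, CR, max r₀ r₁, hδ0, hη, hc₀, hδ2, ?_⟩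
  intro r hr F F' hF b hb D Dp hD a p w ha0 hastep hp hap hw hwn
  obtain ⟨⟨h1, h2⟩, h3⟩ := hr₁ r ((le_max_right _ _).trans hr)
  have hr0 : 0 ≤ r := by linarith
  obtain ⟨m, hm⟩ : ∃ m : ℕ, m = ⌊κ1 * r⌋₊ := ⟨_, rfl⟩
  have hm1 : (m : ℝ) ≤ κ1 * r := by rw [hm]; exact Nat.floor_le (by positivity)
  have hm2 : κ1 * r - 1 ≤ m := by
    have := Nat.lt_floor_add_one (κ1 * r)
    rw [← hm] at this
    linarith
  rw [← hm]
  set γ : M.ι → ℕ → S := fun i n => if M.wt i = 0 then 1 else pth a p (t i) n with hγ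
  refine le_trans (measure_mono ?_) (H r ((le_max_left _ _).trans hr) F F' hF b hb D Dp hD γ
    (p + m) ?_ ?_ ?_ ?_ ?_)
  · rintro z ⟨hzD, hz⟩
    refine ⟨hzD, fun i n hn => ?_⟩
    show b (M.f F (z * γ i n)) ≤ b (M.f F z) + η * r
    by_cases hi : M.wt i = 0
    · rw [hγ]
      simp only [if_pos hi, mul_one]
      have : 0 ≤ η * r := by positivity
      linarith
    · rw [hγ]
      simp only [if_neg hi]
      exact hz i hi n hn
  · -- number of steps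
    push_cast
    have e1 : Real.exp (δ * r) ≤ Real.exp (η / 2 * r) :=
      Real.exp_le_exp.2 (mul_le_mul_of_nonneg_right hδ1 hr0)
    have e2 : (1 + κ1 * r) + 1 ≤ Real.exp (η / 2 * r) := by
      refine le_trans ?_ h1
      rw [pow_one]
      nlinarith
    have e3 : Real.exp (η * r) = Real.exp (η / 2 * r) * Real.exp (η / 2 * r) := by
      rw [← Real.exp_add]; congr 1; ring
    have e4 : 2 ≤ Real.exp (η / 2 * r) := by
      have : 0 ≤ κ1 * r := by positivity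
      linarith
    rw [e3]
    nlinarith
  · intro i
    rw [hγ]
    by_cases hi : M.wt i = 0
    · simp only [if_pos hi]
    · simp only [if_neg hi]
      unfold pth
      rw [if_pos (Nat.zero_le _), ha0]
  · intro i n _
    rw [hγ]
    by_cases hi : M.wt i = 0
    · simp only [if_pos hi, inv_one, mul_one, M.len.one, Nat.cast_zero]
      have : 2 * M.C0 ≤ max (2 * M.C0) A := le_max_left _ _
      linarith
    · simp only [if_neg hi]
      exact M.pth_step (fun n hn => (hastep n hn).trans (le_max_left _ _))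
        ((hA i).trans (le_max_right _ _)) n
  · intro i hi n
    rw [hγ]
    simp only [if_pos hi]
  · -- contraction
    intro i hi
    rw [hγ]
    simp only [if_neg hi]
    obtain ⟨htC, htc'⟩ := htc i hi
    have hmem : (t i ^ m)⁻¹ ∈ M.CB (m * N) := M.CB_inv (M.CB_pow htC m)
    have hwt : M.wt i ∈ M.Wt := by
      rcases M.wt_mem i with h | h
      · exact M.Φ_sub h
      · exact absurd h hi
    rw [pth_end, hap, mul_inv_rev, map_mul, Module.End.mul_apply]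
    have hin : M.Ad (M.ex w)⁻¹ (M.X i) ∈ M.Vw (M.wt i) := by
      rw [← M.ex_neg]
      exact M.Ad_ex_Vw ((M.Vw 0).neg_mem hw) (M.X_mem i)
    have hsz : M.nm (M.Ad (M.ex w)⁻¹ (M.X i)) ≤ M.C0 * 2 ^ M.C0 * Real.exp (M.C0 * δ * r) := by
      rw [← M.ex_neg]
      refine (M.Ad_ex_le _ _).trans ?_
      rw [M.nm_neg]
      have e1 : 1 + M.nm w ≤ 2 * Real.exp (δ * r) := by
        have := Real.one_le_exp (show 0 ≤ δ * r by positivity)
        linarith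
      have e2 : (1 + M.nm w) ^ M.C0 ≤ (2 * Real.exp (δ * r)) ^ M.C0 :=
        Real.rpow_le_rpow (by have := M.nm_nonneg w; linarith) e1 hC0.le
      rw [Real.mul_rpow (by norm_num) (Real.exp_pos _).le, ← Real.exp_mul] at e2
      calc M.C0 * (1 + M.nm w) ^ M.C0 * M.nm (M.X i)
          ≤ M.C0 * (2 ^ M.C0 * Real.exp (δ * r * M.C0)) * 1 := by
            refine mul_le_mul (mul_le_mul_of_nonneg_left e2 hC0.le) (M.X_le i)
              (M.nm_nonneg _) (by positivity)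
        _ = _ := by
            rw [mul_one, show δ * r * M.C0 = M.C0 * δ * r by ring]
            exact (mul_assoc _ _ _).symm
    have h4 := M.C_le (m * N) _ hmem (M.wt i) hwt _ hin
    have h5 : hgt M.η (t i ^ m)⁻¹ = -((m : ℝ) • M.θ (t i)) := by
      show M.θ _ = _
      rw [M.θ_inv]
      congr 1
      clear hmem hm1 hm2 hm h4
      induction m with
      | zero => simp [M.θ_one]
      | succ n ih => rw [pow_succ, M.θ_mul, ih]; push_cast; rw [add_smul, one_smul]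
    rw [h5, map_neg, map_smul, smul_eq_mul] at h4
    refine h4.trans ?_
    have h6 : 1 + ((m * N : ℕ) : ℝ) ≤ (1 + κ1 * N) * (1 + r) := by
      push_cast
      have e1 : (m : ℝ) * N ≤ κ1 * r * N := mul_le_mul_of_nonneg_right hm1 (Nat.cast_nonneg _)
      have e2 : 0 ≤ κ1 * N := by positivity
      nlinarith
    have h7 : -((m : ℝ) * M.wt i (M.θ (t i))) ≤ c - κ1 * c * r := by
      have h8 : (m : ℝ) * c ≤ m * M.wt i (M.θ (t i)) :=
        mul_le_mul_of_nonneg_left htc' (Nat.cast_nonneg _)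
      nlinarith
    have h8 : M.C0 * (1 + ((m * N : ℕ) : ℝ)) ^ M.deg ≤
        M.C0 * ((1 + κ1 * N) ^ M.deg * (1 + r) ^ M.deg) := by
      rw [← mul_pow]
      exact mul_le_mul_of_nonneg_left (pow_le_pow_left₀ (by positivity) h6 _) hC0.le
    calc M.C0 * (1 + ((m * N : ℕ) : ℝ)) ^ M.deg *
          Real.exp (-((m : ℝ) * M.wt i (M.θ (t i)))) * M.nm (M.Ad (M.ex w)⁻¹ (M.X i))
        ≤ (M.C0 * ((1 + κ1 * N) ^ M.deg * (1 + r) ^ M.deg)) * Real.exp (c - κ1 * c * r) *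
          (M.C0 * 2 ^ M.C0 * Real.exp (M.C0 * δ * r)) := by
          refine mul_le_mul (mul_le_mul h8 (Real.exp_le_exp.2 h7) (Real.exp_pos _).le
            (by positivity)) hsz (M.nm_nonneg _) (by positivity)
      _ = (M.C0 * (1 + κ1 * N) ^ M.deg * Real.exp c * (M.C0 * 2 ^ M.C0) * (1 + r) ^ M.deg) *
          Real.exp (M.C0 * δ * r) * Real.exp (-(κ1 * c * r)) := by
          rw [sub_eq_add_neg, Real.exp_add]; ring
      _ ≤ Real.exp (κ1 * c / 2 * r) * Real.exp (κ1 * c / 4 * r) * Real.exp (-(κ1 * c * r)) := by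
          refine mul_le_mul_of_nonneg_right (mul_le_mul h2 (Real.exp_le_exp.2
            (mul_le_mul_of_nonneg_right hδ3 hr0)) (Real.exp_pos _).le (Real.exp_pos _).le)
            (Real.exp_pos _).le
      _ = Real.exp (-(κ1 * c / 4 * r)) := by
          rw [← Real.exp_add, ← Real.exp_add]; congr 1; ring

/-- differences along a one-parameter path -/
theorem zeta_inv_mul (y : V) (x x' : ℝ) : (M.ex (x • y))⁻¹ * M.ex (x' • y) =
    M.ex ((x' - x) • y) := by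
  have h := M.ex_add x (x' - x) y
  rw [add_sub_cancel] at h
  rw [h, inv_mul_cancel_left]

theorem mu_preimage_le (g : S) (B : Set S) : M.μ ((fun z => z * g) ⁻¹' B) ≤ M.μ B := by
  calc M.μ ((fun z => z * g) ⁻¹' B) ≤ M.μ ((fun z => z * g) ⁻¹' (toMeasurable M.μ B)) :=
        measure_mono (preimage_mono (subset_toMeasurable _ _))
    _ = M.μ (toMeasurable M.μ B) :=
        (M.mp g).measure_preimage (measurableSet_toMeasurable _ _).nullMeasurableSet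
    _ = M.μ B := measure_toMeasurable _

/-- neutral flatness of one functional, path form -/
theorem nfp_one (K κ C₁ : ℝ) (hκ : 0 < κ) : ∃ (δ c₀ CR r₀ : ℝ), 0 < δ ∧ 0 < c₀ ∧
  ∀ r : ℝ, r₀ ≤ r →
  ∀ F F' : Γ → Γ, M.QIm K F F' → ∀ b ∈ M.Φ, ∀ D Dp : Set S, M.Fat (CR * r) C₁ D Dp →
  ∀ y ∈ M.Vw 0, M.nm y ≤ Real.exp (δ * r) →
  ∀ Din : Set S, (∀ z ∈ Din, ∀ x : ℝ, 0 ≤ x → x ≤ 1 → z * M.ex (x • y) ∈ D) →
    M.μ {x | x ∈ Din ∧ κ * r < |b (M.f F (x * M.ex y)) - b (M.f F x)|} ≤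
      ENNReal.ofReal (Real.exp (-(c₀ * r))) * M.μ D := by
  classical
  obtain ⟨t, A, c, N, hc, hA0, hA, htc⟩ := M.contr
  obtain ⟨L, hL, HS⟩ := M.spread_holds K
  have hL0 : 0 < L := by linarith
  have hC0 := M.C0_pos
  obtain ⟨κ1, hκ1⟩ : ∃ κ1 : ℝ, κ1 = κ / (L * (A + 1)) := ⟨_, rfl⟩
  have hκ10 : 0 < κ1 := by rw [hκ1]; positivity
  obtain ⟨δ, η, c₀, CR, r₀, hδ, hη, hc₀, hδc, H⟩ := M.gcl_tail K C₁ t hc hκ10 hA htc
  have ev1 := ev_const (6 : ℝ) (ε := c₀ / 4) (by positivity)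
  obtain ⟨r₁, hr₁⟩ := (ev1.and (eventually_ge_atTop (1 : ℝ))).exists_forall_of_atTop
  refine ⟨δ, c₀ / 2, CR, max r₀ r₁, hδ, by positivity, ?_⟩
  intro r hr F F' hF b hb D Dp hD y hy hyn Din hDin
  obtain ⟨h1, h2⟩ := hr₁ r ((le_max_right _ _).trans hr)
  have hrr : r₀ ≤ r := (le_max_left _ _).trans hr
  have hr0 : 0 ≤ r := by linarith
  obtain ⟨X, hX, -⟩ := HS F F' hF b hb
  obtain ⟨n, hn⟩ : ∃ n : ℕ, n = ⌈Real.exp (δ * r)⌉₊ := ⟨_, rfl⟩
  have hn1 : Real.exp (δ * r) ≤ n := by rw [hn]; exact Nat.le_ceil _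
  have hn2 : (n : ℝ) ≤ Real.exp (δ * r) + 1 := by
    rw [hn]; exact (Nat.ceil_lt_add_one (Real.exp_pos _).le).le
  have hn0 : (0 : ℝ) < n := lt_of_lt_of_le (Real.exp_pos _) hn1
  have hn0' : (n : ℝ) ≠ 0 := hn0.ne'
  obtain ⟨m, hm⟩ : ∃ m : ℕ, m = ⌊κ1 * r⌋₊ := ⟨_, rfl⟩
  have hm1 : (m : ℝ) ≤ κ1 * r := by rw [hm]; exact Nat.floor_le (by positivity)
  set ζ : ℕ → S := fun j => M.ex (((j : ℝ) / n) • y) with hζ
  have hζ0 : ζ 0 = 1 := by
    rw [hζ]; simp [M.ex_zero]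
  have hζn : ζ n = M.ex y := by
    rw [hζ]; simp only; rw [div_self hn0', one_smul]
  have hζd : ∀ j j' : ℕ, (ζ j)⁻¹ * ζ j' = M.ex (((j' : ℝ) / n - (j : ℝ) / n) • y) :=
    fun j j' => M.zeta_inv_mul y _ _
  have hstep : ∀ x : ℝ, |x| ≤ 1 / n → (M.l (M.ex (x • y)) : ℝ) ≤ 2 * M.C0 := by
    intro x hx
    refine (M.met_V _).trans ?_
    rw [map_smul_eq_mul, Real.norm_eq_abs]
    have e1 : |x| * M.nm y ≤ 1 := by
      have e2 : |x| * M.nm y ≤ 1 / n * n :=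
        mul_le_mul hx (hyn.trans hn1) (M.nm_nonneg _) (by positivity)
      rwa [one_div, inv_mul_cancel₀ hn0'] at e2
    have := mul_le_mul_of_nonneg_left e1 hC0.le
    linarith
  have hwn : ∀ x : ℝ, |x| ≤ 1 → M.nm (x • y) ≤ Real.exp (δ * r) := by
    intro x hx
    rw [map_smul_eq_mul, Real.norm_eq_abs]
    have := M.nm_nonneg y
    nlinarith
  -- the two families of paths
  have hfw : ∀ j ≤ n, M.μ (D ∩ Tol (fun z => b (M.f F z))
      (fwd ζ (fun i k => t i ^ k) n j) (n - j + m) (η * r)) ≤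
      ENNReal.ofReal (Real.exp (-(c₀ * r))) * M.μ D := by
    intro j hj
    have hjr : (j : ℝ) ≤ n := by exact_mod_cast hj
    have hcast : ((n - j : ℕ) : ℝ) = n - j := by push_cast [hj]; ring
    refine le_trans (measure_mono ?_) (H r hrr F F' hF b hb D Dp hD
      (fun q => (ζ j)⁻¹ * ζ (j + q)) (n - j) ((1 - (j : ℝ) / n) • y) ?_ ?_ ?_ ?_ ?_ ?_)
    · rintro z ⟨hzD, hz⟩
      refine ⟨hzD, fun i hi q hq => ?_⟩
      rw [← hm] at hq
      have h3 := hz i q hq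
      have e : fwd ζ (fun i k => t i ^ k) n j i q =
          pth (fun q => (ζ j)⁻¹ * ζ (j + q)) (n - j) (t i) q := by
        unfold fwd pth
        by_cases h4 : q ≤ n - j
        · rw [if_pos h4, if_pos h4]
        · rw [if_neg h4, if_neg h4]
          have : j + (n - j) = n := by omega
          simp only [this]
      rw [← e]
      exact h3
    · simp only [add_zero, inv_mul_cancel]
    · intro q hq
      have e : ((ζ j)⁻¹ * ζ (j + q))⁻¹ * ((ζ j)⁻¹ * ζ (j + (q + 1))) =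
          (ζ (j + q))⁻¹ * ζ (j + (q + 1)) := by group
      rw [e, hζd]
      apply hstep
      push_cast
      have : ((j : ℝ) + (q + 1)) / n - ((j : ℝ) + q) / n = 1 / n := by ring
      rw [this, abs_of_pos (by positivity)]
    · have : ((n - j : ℕ) : ℝ) ≤ n := by rw [hcast]; have : (0 : ℝ) ≤ j := Nat.cast_nonneg _; linarith
      exact this.trans hn2
    · rw [hζd]
      congr 2
      have : j + (n - j) = n := by omega
      rw [this, div_self hn0']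
    · exact (M.Vw 0).smul_mem _ hy
    · apply hwn
      have e1 : (j : ℝ) / n ≤ 1 := by rw [div_le_one hn0]; exact hjr
      have e2 : 0 ≤ (j : ℝ) / n := by positivity
      rw [abs_le]
      constructor <;> linarith
  have hbw : ∀ j ≤ n, M.μ (D ∩ Tol (fun z => b (M.f F z))
      (bwd ζ (fun i k => t i ^ k) j) (j + m) (η * r)) ≤
      ENNReal.ofReal (Real.exp (-(c₀ * r))) * M.μ D := by
    intro j hj
    have hjr : (j : ℝ) ≤ n := by exact_mod_cast hj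
    refine le_trans (measure_mono ?_) (H r hrr F F' hF b hb D Dp hD
      (fun q => (ζ j)⁻¹ * ζ (j - q)) j ((0 - (j : ℝ) / n) • y) ?_ ?_ ?_ ?_ ?_ ?_)
    · rintro z ⟨hzD, hz⟩
      refine ⟨hzD, fun i hi q hq => ?_⟩
      rw [← hm] at hq
      have h3 := hz i q hq
      have e : bwd ζ (fun i k => t i ^ k) j i q =
          pth (fun q => (ζ j)⁻¹ * ζ (j - q)) j (t i) q := by
        unfold bwd pth
        by_cases h4 : q ≤ j
        · rw [if_pos h4, if_pos h4]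
        · rw [if_neg h4, if_neg h4]
          simp only [Nat.sub_self]
      rw [← e]
      exact h3
    · simp only [Nat.sub_zero, inv_mul_cancel]
    · intro q hq
      have e : ((ζ j)⁻¹ * ζ (j - q))⁻¹ * ((ζ j)⁻¹ * ζ (j - (q + 1))) =
          (ζ (j - q))⁻¹ * ζ (j - (q + 1)) := by group
      rw [e, hζd]
      apply hstep
      have c1 : ((j - q : ℕ) : ℝ) = (j : ℝ) - q := by
        rw [Nat.cast_sub (by omega)]
      have c2 : ((j - (q + 1) : ℕ) : ℝ) = (j : ℝ) - (q + 1) := by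
        rw [Nat.cast_sub (by omega)]; push_cast; ring
      rw [c1, c2]
      have : ((j : ℝ) - (q + 1)) / n - ((j : ℝ) - q) / n = -(1 / n) := by ring
      rw [this, abs_neg, abs_of_pos (by positivity)]
    · exact hjr.trans hn2
    · rw [hζd]
      simp
    · exact (M.Vw 0).smul_mem _ hy
    · apply hwn
      have e1 : (j : ℝ) / n ≤ 1 := by rw [div_le_one hn0]; exact hjr
      have e2 : 0 ≤ (j : ℝ) / n := by positivity
      rw [abs_le]
      constructor <;> linarith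
  have hmain := neutral_flat M.μ hX M.mu_preimage_le hζ0 (u := fun i k => t i ^ k) (n := n)
    (m := m) (κ := κ * r) (τ := η * r) (by positivity) (by
      intro i q hq
      have e1 : (M.l (t i ^ q) : ℝ) ≤ q * A := by
        clear hq
        induction q with
        | zero => simp [M.len.one]
        | succ q ih =>
          rw [pow_succ]
          have h3 := M.len.mul (t i ^ q) (t i)
          have h4 : (M.l (t i ^ q * t i) : ℝ) ≤ M.l (t i ^ q) + M.l (t i) := by exact_mod_cast h3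
          push_cast
          linarith [hA i]
      have e2 : (q : ℝ) * A ≤ κ1 * r * (A + 1) := by
        have : (q : ℝ) ≤ κ1 * r := by
          have : (q : ℝ) ≤ m := by exact_mod_cast hq
          linarith
        exact mul_le_mul this (by linarith) hA0 (by positivity)
      have e3 : L * (κ1 * r * (A + 1)) = κ * r := by
        rw [hκ1]; field_simp
      calc L * (M.l (t i ^ q) : ℝ) ≤ L * (κ1 * r * (A + 1)) :=
            mul_le_mul_of_nonneg_left (e1.trans e2) hL0.le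
        _ = κ * r := e3)
    (D := Din) (Dp := D) (by
      intro z hz j hj
      apply hDin z hz
      · positivity
      · rw [div_le_one hn0]; exact_mod_cast hj)
    (θ := ENNReal.ofReal (Real.exp (-(c₀ * r))) * M.μ D) hfw hbw
  rw [hζn] at hmain
  refine hmain.trans ?_
  rw [← mul_assoc]
  gcongr
  rw [← ENNReal.ofReal_natCast, ← ENNReal.ofReal_mul (Nat.cast_nonneg _)]
  apply ENNReal.ofReal_le_ofReal
  push_cast
  have e0 : 1 ≤ Real.exp (δ * r) := Real.one_le_exp (by positivity)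
  have e1 : 2 * ((n : ℝ) + 1) ≤ 6 * Real.exp (c₀ / 4 * r) := by
    have : Real.exp (δ * r) ≤ Real.exp (c₀ / 4 * r) :=
      Real.exp_le_exp.2 (mul_le_mul_of_nonneg_right hδc hr0)
    linarith
  calc 2 * ((n : ℝ) + 1) * Real.exp (-(c₀ * r))
      ≤ (Real.exp (c₀ / 4 * r) * Real.exp (c₀ / 4 * r)) * Real.exp (-(c₀ * r)) := by
        refine mul_le_mul_of_nonneg_right (e1.trans ?_) (Real.exp_pos _).le
        exact mul_le_mul_of_nonneg_right h1 (Real.exp_pos _).le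
    _ = Real.exp (-(c₀ / 2 * r)) := by
        rw [← Real.exp_add, ← Real.exp_add]; congr 1; ring

/-- **Neutral flatness, path form.** -/
theorem nfp_holds : M.NFp := by
  classical
  intro K κ C₁ hκ
  obtain ⟨L, hL, hnorm⟩ := M.norm_of_Φ
  obtain ⟨δ, c₀, CR, r₀, hδ, hc₀, H⟩ := M.nfp_one K (κ / L) C₁ (by positivity)
  have ev1 := ev_const (M.Φ.card : ℝ) (ε := c₀ / 2) (by positivity)
  obtain ⟨r₁, hr₁⟩ := (ev1.and (eventually_ge_atTop (0 : ℝ))).exists_forall_of_atTop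
  refine ⟨δ, c₀ / 2, CR, max r₀ r₁, hδ, by positivity, ?_⟩
  intro r hr F F' hF D Dp hD y hy hyn Din hDin
  obtain ⟨h1, h2⟩ := hr₁ r ((le_max_right _ _).trans hr)
  have hsub : {x | x ∈ Din ∧ κ * r < ‖M.f F (x * M.ex y) - M.f F x‖} ⊆
      ⋃ b ∈ M.Φ, {x | x ∈ Din ∧ κ / L * r < |b (M.f F (x * M.ex y)) - b (M.f F x)|} := by
    rintro x ⟨hx, hlt⟩
    by_contra hcon
    rw [mem_iUnion₂] at hcon
    push Not at hcon
    have h3 := hnorm (M.f F (x * M.ex y) - M.f F x) (κ / L * r) (by positivity) (by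
      intro b hb
      rw [map_sub]
      by_contra h4
      exact hcon b hb ⟨hx, not_le.1 h4⟩)
    have h4 : L * (κ / L * r) = κ * r := by field_simp
    rw [h4] at h3
    exact absurd hlt (not_lt.2 h3)
  calc M.μ {x | x ∈ Din ∧ κ * r < ‖M.f F (x * M.ex y) - M.f F x‖}
      ≤ M.μ (⋃ b ∈ M.Φ, {x | x ∈ Din ∧
          κ / L * r < |b (M.f F (x * M.ex y)) - b (M.f F x)|}) := measure_mono hsub
    _ ≤ ∑ b ∈ M.Φ, M.μ {x | x ∈ Din ∧
          κ / L * r < |b (M.f F (x * M.ex y)) - b (M.f F x)|} := measure_biUnion_finset_le _ _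
    _ ≤ ∑ b ∈ M.Φ, ENNReal.ofReal (Real.exp (-(c₀ * r))) * M.μ D :=
        Finset.sum_le_sum fun b hb => H r ((le_max_left _ _).trans hr) F F' hF b hb D Dp hD y hy
          hyn Din hDin
    _ = (M.Φ.card : ENNReal) * (ENNReal.ofReal (Real.exp (-(c₀ * r))) * M.μ D) := by
        rw [Finset.sum_const, nsmul_eq_mul]
    _ ≤ ENNReal.ofReal (Real.exp (c₀ / 2 * r)) *
          (ENNReal.ofReal (Real.exp (-(c₀ * r))) * M.μ D) := by
        gcongr
        rw [← ENNReal.ofReal_natCast]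
        exact ENNReal.ofReal_le_ofReal h1
    _ = ENNReal.ofReal (Real.exp (-(c₀ / 2 * r))) * M.μ D := by
        rw [← mul_assoc, ← ENNReal.ofReal_mul (Real.exp_pos _).le, ← Real.exp_add]
        congr 3
        ring

end RModel

end Vale.Agent.P188.Z1

end

section

/-!
# P188, Z1, block COH, part 3: most linear parts have approximate inverses which transfer end points
-/

set_option linter.all false

open MeasureTheory Set
open scoped ENNReal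
open Agent.P188.H428 (IsLen)
open Vale.Agent.P188.H789 (Bl Bl_mono Bl_finite one_mem_Bl)
open Vale.Agent.P188.H530 (hgt hgt_mul Crossed Mod Tr TrP OrbMap LinAt exists_inverse)

namespace Vale.Agent.P188.Z1

namespace RModel

variable {S : Type} [Group S] [MeasurableSpace S] {Γ : Type} [Group Γ]
  {V : Type} [AddCommGroup V] [Module ℝ V] {k : ℕ} {M : RModel S Γ V k}

/-- approximate inverse which transfers end points -/
def HasInv (M : RModel S Γ V k) (c K : ℕ) (C W ε : ℝ) (n : ℕ) (P : Finset (ℕ × ℝ)) (c₁ ε' : ℝ)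
    (T : Ht k →L[ℝ] Ht k) : Prop :=
  ∃ T' : Ht k →L[ℝ] Ht k, ‖T'‖ ≤ c₁⁻¹ ∧ (∀ w, ‖T (T' w) - w‖ ≤ ε' * ‖w‖) ∧
    (∀ w, ‖T' (T w) - w‖ ≤ ε' * ‖w‖) ∧
    TrP (hgt (M.η.comp M.inG)) M.A (hgt (M.η.comp M.inG)) M.A c K C W ε n P T'

/-- a good point of the image gives an approximate inverse -/
theorem LinOn.hasInv {K L ε κ r R : ℝ} {F F' : Γ → Γ} {D Dp D₀ : Set S}
    {T : S → Ht k →L[ℝ] Ht k} (h : M.LinOn K L ε κ r R F F' D Dp D₀ T) (hε : 0 ≤ ε)
    {c₁ : ℝ} {T' : S → Ht k →L[ℝ] Ht k}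
    (hT' : ∀ y ∈ M.img F' D₀, ∃ x ∈ D₀, M.fl x = F' (M.fl y) ∧
      (∀ w, T' y (T x w) = w) ∧ (∀ w, T x (T' y w) = w) ∧ ‖T' y‖ ≤ c₁⁻¹)
    (hr : 2 * M.C0 + K ≤ r) {x y : S} (hx : x ∈ D₀) (hy : y ∈ M.img F' D₀)
    (hxy : M.fl y = F (M.fl x)) :
    ‖T' y‖ ≤ c₁⁻¹ ∧ (∀ w, ‖T x (T' y w) - w‖ ≤ c₁⁻¹ * ε * ‖w‖) ∧
      (∀ w, ‖T' y (T x w) - w‖ ≤ c₁⁻¹ * ε * ‖w‖) := by
  obtain ⟨x₁, hx₁, h1, i1, i2, i3⟩ := hT' y hy
  have hdist : (M.l (x⁻¹ * x₁) : ℝ) ≤ r := by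
    have t0 := M.dist_fl x x₁
    have t1 := h.qi.inv (M.fl x)
    rw [h1, hxy] at t0
    linarith
  have hcl := (h.lin x hx x₁ hx₁ hdist).2
  have hc : 0 ≤ c₁⁻¹ := (norm_nonneg _).trans i3
  refine ⟨i3, fun w => ?_, fun w => ?_⟩
  · have e : T x (T' y w) - w = -((T x₁ - T x) (T' y w)) := by
      rw [ContinuousLinearMap.sub_apply, i2]; abel
    rw [e, norm_neg]
    refine (ContinuousLinearMap.le_opNorm _ _).trans ?_
    have h2 : ‖T' y w‖ ≤ c₁⁻¹ * ‖w‖ := ((T' y).le_opNorm _).trans (by gcongr)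
    calc ‖T x₁ - T x‖ * ‖T' y w‖ ≤ ε * (c₁⁻¹ * ‖w‖) := by gcongr
      _ = _ := by ring
  · have e : T' y (T x w) - w = -(T' y ((T x₁ - T x) w)) := by
      rw [ContinuousLinearMap.sub_apply, map_sub, i1]; abel
    rw [e, norm_neg]
    refine (ContinuousLinearMap.le_opNorm _ _).trans ?_
    have h2 : ‖(T x₁ - T x) w‖ ≤ ε * ‖w‖ :=
      (ContinuousLinearMap.le_opNorm _ _).trans (by gcongr)
    calc ‖T' y‖ * ‖(T x₁ - T x) w‖ ≤ c₁⁻¹ * (ε * ‖w‖) := by gcongr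
      _ = _ := by ring

/-- measure of the points whose image cell does not meet the good set -/
theorem LinOn.pull_bad {K L ε κ r R : ℝ} {F F' : Γ → Γ} {D Dp D₀ : Set S}
    {T : S → Ht k →L[ℝ] Ht k} (h : M.LinOn K L ε κ r R F F' D Dp D₀ T) (hκ : 0 ≤ κ) (hκ1 : κ ≤ 1)
    (hR : 2 * M.C0 + K + K * (K + 2 * M.C0 + 1) ≤ R) {Gd : Set S} {a : ℝ} (ha : 0 ≤ a)
    (hGd : M.μ.real (M.cells (M.Gset K F D) \ Gd) ≤ a * M.μ.real (M.cells (M.Gset K F D))) :
    M.μ.real {x ∈ D | ∀ y ∈ Gd, M.fl y ≠ F (M.fl x)} ≤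
      (M.mlt (2 * K)).toReal ^ 2 * (2 * a) * M.μ.real D := by
  have hC0 := M.C0_nn
  have hK := h.qi.nonneg
  obtain ⟨hfat, hDG, hm, hGp⟩ := h.qi.trans hκ (R' := 0) le_rfl h.fat le_rfl (by linarith)
  obtain ⟨m, hm0⟩ : ∃ m : ℝ, m = (M.mlt (2 * K)).toReal := ⟨_, rfl⟩
  have hm0' : 0 ≤ m := by rw [hm0]; exact ENNReal.toReal_nonneg
  have hmt : M.mlt (2 * K) ≠ ⊤ := M.mlt_ne_top _
  have hsub : {x ∈ D | ∀ y ∈ Gd, M.fl y ≠ F (M.fl x)} ⊆
      {z | M.fl ⁻¹' {F (M.fl z) * 1} ⊆ M.cells (M.Gset K F D) \ Gd} := by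
    rintro x ⟨hx, hx'⟩ y hy
    have hy' : M.fl y = F (M.fl x) := by simpa using hy
    refine ⟨?_, fun hyG => hx' y hyG hy'⟩
    have := hDG x hx
    show M.fl y ∈ M.Gset K F D
    rw [hy']
    exact this
  have hfin : M.μ (M.cells (M.Gset K F D)) ≠ ⊤ := hfat.fin
  have hfin2 : M.μ (M.cells (M.Gset K F D) \ Gd) ≠ ⊤ :=
    ne_top_of_le_ne_top hfin (measure_mono Set.sdiff_subset)
  have h1 : M.μ.real {x ∈ D | ∀ y ∈ Gd, M.fl y ≠ F (M.fl x)} ≤
      m * M.μ.real (M.cells (M.Gset K F D) \ Gd) := by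
    have h2 := (measure_mono hsub).trans (h.qi.pull 1 _)
    have h3 := ENNReal.toReal_mono (ENNReal.mul_ne_top hmt hfin2) h2
    rw [ENNReal.toReal_mul] at h3
    rw [hm0]
    exact h3
  have h4 : M.μ.real (M.cells (M.Gset K F D)) ≤ m * (2 * M.μ.real D) := by
    have h5 : M.μ (M.cells (M.Gset K F D)) ≤ M.mlt (2 * K) * (ENNReal.ofReal 2 * M.μ D) := by
      refine (measure_mono (hfat.sub_self le_rfl)).trans (hGp.trans ?_)
      gcongr
      refine h.fat.le.trans ?_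
      gcongr
      linarith
    have h6 := ENNReal.toReal_mono
      (ENNReal.mul_ne_top hmt (ENNReal.mul_ne_top ENNReal.ofReal_ne_top h.fat.fin)) h5
    rw [ENNReal.toReal_mul, ENNReal.toReal_mul, ENNReal.toReal_ofReal (by norm_num)] at h6
    rw [hm0]
    exact h6
  rw [← hm0]
  calc _ ≤ m * M.μ.real (M.cells (M.Gset K F D) \ Gd) := h1
    _ ≤ m * (a * (m * (2 * M.μ.real D))) := by
        refine mul_le_mul_of_nonneg_left (hGd.trans ?_) hm0'
        exact mul_le_mul_of_nonneg_left h4 ha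
    _ = _ := by ring

/-- numerical conditions -/
theorem num_occF' {K C0 Λ Λ₂ r R L c₁ ε₁ ε' κ m a : ℝ} {n : ℕ} (hK : 0 ≤ K) (hC0 : 0 ≤ C0)
    (hΛ : 0 ≤ Λ) (hL : 0 ≤ L) (hc₁ : 0 < c₁) (hm : 0 ≤ m)
    (hΛ₂ : (K + 1) * C0 * Λ + 1 ≤ Λ₂) (hr1 : Λ₂ * n ≤ r) (hr2 : r ≤ 2 * Λ₂ * n)
    (hR : (K + 2) * r ≤ R)
    (hn1 : 2 * C0 + K + K * (K + 2 * C0 + 1) ≤ n)
    (hn2 : c₁⁻¹ * ((2 * (C0 * K) + 2 * (C0 * C0)) + L * (2 * (C0 * C0))) ≤ ε₁ / 2 * n)
    (hε' : 0 ≤ ε') (h1 : ε' ≤ c₁ * ε₁ / (4 * Λ₂)) (h2 : ε' ≤ a / (2 * (m ^ 2 + 1)))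
    (h3 : κ ≤ a / (2 * (m ^ 2 + 1))) (hκ : 0 ≤ κ) :
    2 * C0 + K * (C0 * (Λ * n) + 2 * C0 + 1) ≤ r ∧
    2 * C0 + K + K * (K + 2 * C0 + C0 * (Λ * n) + 1) ≤ R ∧
    2 * C0 + K + K * (K + 2 * C0 + 1) ≤ R ∧ 2 * C0 + K ≤ r ∧
    c₁⁻¹ * (ε' * r + (2 * (C0 * K) + 2 * (C0 * C0)) + L * (2 * (C0 * C0))) ≤ ε₁ * n ∧
    m ^ 2 * (ε' + κ) ≤ a := by
  have hn0 : (0 : ℝ) ≤ n := Nat.cast_nonneg _
  have hCΛ : 0 ≤ C0 * Λ := by positivity
  have hKCΛ : 0 ≤ K * (C0 * Λ) := by positivity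
  have hΛ₂1 : 1 ≤ Λ₂ := by nlinarith
  have hnr : (n : ℝ) ≤ r := by nlinarith
  have h5 : K * (C0 * (Λ * n)) + n ≤ r := by
    have : (K * (C0 * Λ) + 1) * n ≤ Λ₂ * n := by
      gcongr
      nlinarith
    nlinarith
  have h6 : C0 * (Λ * n) ≤ r := by
    have : (C0 * Λ) * n ≤ Λ₂ * n := by
      gcongr
      nlinarith
    nlinarith
  have hr0 : 0 ≤ r := hn0.trans hnr
  have hKK : 0 ≤ K * K := by positivity
  have hKC : 0 ≤ K * C0 := by positivity
  have h7 : K * (C0 * (Λ * n)) ≤ K * r := by gcongr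
  refine ⟨by nlinarith, by nlinarith, by nlinarith, by nlinarith, ?_, ?_⟩
  · have h8 : ε' * r ≤ c₁ * ε₁ / 2 * n := by
      rw [le_div_iff₀ (by positivity)] at h1
      calc ε' * r ≤ ε' * (2 * Λ₂ * n) := by gcongr
        _ = (ε' * (4 * Λ₂)) / 2 * n := by ring
        _ ≤ (c₁ * ε₁) / 2 * n := by gcongr
    have h9 : c₁⁻¹ * (ε' * r) ≤ ε₁ / 2 * n := by
      calc c₁⁻¹ * (ε' * r) ≤ c₁⁻¹ * (c₁ * ε₁ / 2 * n) := by gcongr
        _ = _ := by field_simp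
    nlinarith
  · rw [le_div_iff₀ (by positivity)] at h2 h3
    nlinarith [mul_nonneg (sq_nonneg m) hε', mul_nonneg (sq_nonneg m) hκ]

/-- **Most linear parts have approximate inverses which transfer end points.** -/
theorem occF' (M : RModel S Γ V k) (K L c₁ : ℝ) (hL : 0 ≤ L) (hc₁ : 0 < c₁) {C W ε κ' : ℝ}
    (hC1 : 1 ≤ C) (hCc : c₁⁻¹ ≤ C) (hε : 0 < ε) (hκ' : 0 < κ') (P : Finset (ℕ × ℝ))
    (hP : ∀ p ∈ P, 1 ≤ p.1 ∧ 1 ≤ p.2) :
    ∃ Λ₁ : ℝ, 0 < Λ₁ ∧ ∀ Λ₂ : ℝ, Λ₁ ≤ Λ₂ → ∃ (ε₀ : ℝ) (n₀ : ℕ), 0 < ε₀ ∧ ∀ n : ℕ, n₀ ≤ n →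
      ∀ r : ℝ, Λ₂ * n ≤ r → r ≤ 2 * Λ₂ * n → ∀ ε' κ R : ℝ, 0 ≤ ε' → ε' ≤ ε₀ → 0 ≤ κ → κ ≤ ε₀ →
      (K + 2) * r ≤ R → ∀ (F F' : Γ → Γ) (D Dp D₀ : Set S) (T : S → Ht k →L[ℝ] Ht k),
      M.LinOn K L ε' κ r R F F' D Dp D₀ T → (∀ x ∈ D₀, ∀ w, c₁ * ‖w‖ ≤ ‖T x w‖) →
      M.μ.real {x ∈ D | x ∈ D₀ ∧ ¬ M.HasInv (2 * M.cnt K) (M.stp K) C W ε n P c₁ (c₁⁻¹ * ε')
        (T x)} ≤ κ' * M.μ.real D := by
  have hC0 := M.C0_nn
  by_cases hK : 0 ≤ K
  swap
  · refine ⟨1, one_pos, fun Λ₂ _ => ⟨1, 0, one_pos, ?_⟩⟩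
    intro n _ r _ _ ε' κ R _ _ _ _ _ F F' D Dp D₀ T h
    exact absurd h.qi.nonneg hK
  obtain ⟨m, hm⟩ : ∃ m : ℝ, m = (M.mlt (2 * K)).toReal := ⟨_, rfl⟩
  have hm0 : 0 ≤ m := by rw [hm]; exact ENNReal.toReal_nonneg
  obtain ⟨κ₂, hκ₂⟩ : ∃ κ₂ : ℝ, κ₂ = κ' / (4 * (m ^ 2 + 1)) := ⟨_, rfl⟩
  have hκ₂0 : 0 < κ₂ := by rw [hκ₂]; positivity
  obtain ⟨ε₁, Λ, n₁, hε₁, H⟩ := H530.occ M.md M.md (c₀ := M.cnt K) (K := M.stp K) (W := W)
    (L := c₁⁻¹) (by positivity) hC1 hCc hε hκ₂0 P hP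
  obtain ⟨n₂, hn₂⟩ := exists_nat_ge (2 * M.C0 + K + K * (K + 2 * M.C0 + 1))
  obtain ⟨n₃, hn₃⟩ := exists_nat_ge
    (c₁⁻¹ * ((2 * (M.C0 * K) + 2 * (M.C0 * M.C0)) + L * (2 * (M.C0 * M.C0))) / (ε₁ / 2))
  have hΛ0 : (0 : ℝ) ≤ Λ := Nat.cast_nonneg _
  refine ⟨(K + 1) * M.C0 * Λ + 1, by positivity, fun Λ₂ hΛ₂ => ?_⟩
  have hΛ₂0 : 0 < Λ₂ := lt_of_lt_of_le (by positivity) hΛ₂
  set a : ℝ := min ε₁ κ₂ with ha
  have ha0 : 0 < a := lt_min hε₁ hκ₂0
  refine ⟨min (min 1 (c₁ * ε₁ / (4 * Λ₂))) (a / (2 * (m ^ 2 + 1))), max n₁ (max n₂ n₃),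
    lt_min (lt_min one_pos (by positivity)) (by positivity), ?_⟩
  intro n hn r hr1 hr2 ε' κ R hε'0 hε' hκ0 hκ hrR F F' D Dp D₀ T h hlow
  simp only [max_le_iff] at hn
  obtain ⟨hnn1, hnn2, hnn3⟩ := hn
  have hn2' : 2 * M.C0 + K + K * (K + 2 * M.C0 + 1) ≤ n :=
    hn₂.trans (by exact_mod_cast hnn2)
  have hn3' : c₁⁻¹ * ((2 * (M.C0 * K) + 2 * (M.C0 * M.C0)) + L * (2 * (M.C0 * M.C0))) ≤
      ε₁ / 2 * n := by
    have h3 : (n₃ : ℝ) ≤ n := by exact_mod_cast hnn3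
    have := hn₃.trans h3
    rw [div_le_iff₀ (by positivity)] at this
    linarith
  obtain ⟨q1, q2, q3, q4, q5, q6⟩ := num_occF' hK hC0 hΛ0 hL hc₁ hm0 hΛ₂ hr1 hr2 hrR hn2' hn3'
    hε'0 (hε'.trans ((min_le_left _ _).trans (min_le_right _ _))) (hε'.trans (min_le_right _ _))
    (hκ.trans (min_le_right _ _)) hκ0
  have hκ1 : κ ≤ 1 := hκ.trans ((min_le_left _ _).trans (min_le_left _ _))
  obtain ⟨T', hT'⟩ := exists_inv_fun (M := M) hc₁ hlow F'
  have hlin := h.linAt' hε'0 hκ0 hT' (N := Λ * n) (δ := ε₁ * n) (ε₁ := a)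
    (by push_cast; exact q1) (by push_cast; exact q2) q5 (by rw [← hm]; exact q6)
  have hlin1 : LinAt (hgt (M.η.comp M.inG)) M.A (hgt (M.η.comp M.inG)) c₁⁻¹ M.μ
      (fun x g => x * M.inG g) (fun x => F' (M.fl x)) T' (M.cells (M.Gset K F D)) (M.img F' D₀)
      (Λ * n) (ε₁ * n) ε₁ := by
    have hae : a ≤ ε₁ := min_le_left _ _
    refine ⟨hlin.T_le, hlin.meas, hlin.fin, hlin.most.trans ?_, fun g hg => (hlin.inv g hg).trans ?_,
      hlin.lin⟩
    · exact mul_le_mul_of_nonneg_right hae measureReal_nonneg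
    · exact mul_le_mul_of_nonneg_right hae measureReal_nonneg
  have hocc := H n hnn1 S M.μ _ _ T' _ _ h.qi.symm.orbMap hlin1
  set Gd : Set S := {y | y ∈ M.img F' D₀ ∧ TrP (hgt (M.η.comp M.inG)) M.A
    (hgt (M.η.comp M.inG)) M.A (2 * M.cnt K) (M.stp K) C W ε n P (T' y)} with hGd
  have hbad : M.μ.real (M.cells (M.Gset K F D) \ Gd) ≤
      (2 * κ₂) * M.μ.real (M.cells (M.Gset K F D)) := by
    have hs : M.cells (M.Gset K F D) \ Gd ⊆ (M.cells (M.Gset K F D) \ M.img F' D₀) ∪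
        {y ∈ M.cells (M.Gset K F D) | y ∈ M.img F' D₀ ∧ ¬ TrP (hgt (M.η.comp M.inG)) M.A
          (hgt (M.η.comp M.inG)) M.A (2 * M.cnt K) (M.stp K) C W ε n P (T' y)} := by
      rintro y ⟨hy, hy'⟩
      by_cases hyi : y ∈ M.img F' D₀
      · exact Or.inr ⟨hy, hyi, fun ht => hy' ⟨hyi, ht⟩⟩
      · exact Or.inl ⟨hy, hyi⟩
    have hfin := hlin.fin
    refine (measureReal_mono hs ?_).trans ((measureReal_union_le _ _).trans ?_)
    · refine ne_top_of_le_ne_top hfin (measure_mono ?_)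
      rintro y (hy | hy)
      · exact hy.1
      · exact hy.1
    · have h8 : a * M.μ.real (M.cells (M.Gset K F D)) ≤ κ₂ * M.μ.real (M.cells (M.Gset K F D)) :=
        mul_le_mul_of_nonneg_right (min_le_right _ _) measureReal_nonneg
      have := hlin.most
      linarith
  have hpull := h.pull_bad hκ0 hκ1 q3 (a := 2 * κ₂) (by positivity) hbad
  refine (measureReal_mono ?_ ?_).trans (hpull.trans ?_)
  · rintro x ⟨hxD, hx, hno⟩
    refine ⟨hxD, fun y hy hxy => hno ?_⟩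
    obtain ⟨j1, j2, j3⟩ := h.hasInv hε'0 hT' q4 hx hy.1 hxy
    exact ⟨T' y, j1, j2, j3, hy.2⟩
  · exact ne_top_of_le_ne_top h.fat.fin (measure_mono (Set.sep_subset _ _))
  · refine mul_le_mul_of_nonneg_right ?_ measureReal_nonneg
    rw [← hm, hκ₂]
    have : m ^ 2 * (2 * (2 * (κ' / (4 * (m ^ 2 + 1))))) = κ' * (m ^ 2 / (m ^ 2 + 1)) := by
      field_simp
      ring
    rw [this]
    have h9 : m ^ 2 / (m ^ 2 + 1) ≤ 1 := by
      rw [div_le_one (by positivity)]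
      linarith
    nlinarith

end RModel

end Vale.Agent.P188.Z1

end
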