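import Vale.Agent.P188.R.G085
import Vale.Agent.P188.R.G084

section

/-!
# P188, Z1: decompositions of fat displacements, prefixes
-/

set_option linter.all false

open MeasureTheory Set
open Vale.Agent.P188.H530 (hgt hgt_mul)

namespace Vale.Agent.P188.Z1

namespace RModel

variable {S : Type} [Group S] [MeasurableSpace S] {Γ : Type} [Group Γ]
  {V : Type} [AddCommGroup V] [Module ℝ V] {k : ℕ} (M : RModel S Γ V k)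

/-- neutral elements are in fat balls -/
theorem fb_neutral : ∃ C : ℝ, 1 ≤ C ∧ ∀ δ : ℝ, 0 < δ → ∃ R₀ : ℝ, ∀ R : ℝ, R₀ ≤ R → ∀ y ∈ M.Vw 0,
    M.nm y ≤ Real.exp (δ * R) → M.ex y ∈ M.FB (C * δ) R := by
  have hC := M.one_le_C0
  obtain ⟨n₀, hn₀⟩ : ∃ n₀ : ℕ, (M.τ 0)⁻¹ ∈ M.CB n₀ := ⟨_, M.CB_inv (M.τ_CB 0)⟩
  have hη : M.η (M.τ 0)⁻¹ = 1 := by rw [map_inv, M.η_τ]; simp
  obtain ⟨y₀, hy₀, hy₀e, -⟩ := M.C_ker n₀ _ hn₀ hη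
  refine ⟨M.C0 + 1, by linarith, ?_⟩
  intro δ hδ
  set B := M.C0 * (2 + M.nm y₀) ^ M.C0 with hB
  have hB0 : 0 < B := by have := M.nm_nonneg y₀; positivity
  refine ⟨max 0 (Real.log B / δ), ?_⟩
  intro R hR y hy hyn
  have hR0 : 0 ≤ R := (le_max_left _ _).trans hR
  have hR1 : Real.log B ≤ δ * R := by
    have := (le_max_right _ _).trans hR
    rw [div_le_iff₀ hδ] at this; linarith
  have h1 : M.ex y ∈ M.CB ⌈M.nm y⌉₊ := M.ex_mem_CB hy (Nat.le_ceil _)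
  obtain ⟨y', hy', hye, -⟩ := M.C_ker _ _ (M.CB_mul h1 hn₀) (by
    rw [map_mul, hη, mul_one, M.η_ex])
  have h2 := M.ex_mul_le y y₀ y' (by rw [hye, hy₀e])
  have h3 : (1 + M.nm y + M.nm y₀) ≤ (2 + M.nm y₀) * Real.exp (δ * R) := by
    have h4 : 1 ≤ Real.exp (δ * R) := Real.one_le_exp (by positivity)
    have := M.nm_nonneg y₀
    nlinarith
  have h4 : (1 + M.nm y + M.nm y₀) ^ M.C0 ≤ ((2 + M.nm y₀) * Real.exp (δ * R)) ^ M.C0 :=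
    Real.rpow_le_rpow (by have := M.nm_nonneg y₀; have := M.nm_nonneg y; positivity) h3
      (by linarith)
  rw [Real.mul_rpow (by have := M.nm_nonneg y₀; positivity) (Real.exp_pos _).le,
    ← Real.exp_mul] at h4
  refine ⟨0, Submodule.zero_mem _, by rw [map_zero]; exact (Real.exp_pos _).le, y', hy', ?_, 0,
    fun i => by simpa using hR0, ?_⟩
  · calc M.nm y' ≤ M.C0 * ((2 + M.nm y₀) ^ M.C0 * Real.exp (δ * R * M.C0)) :=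
          h2.trans (mul_le_mul_of_nonneg_left h4 (by linarith))
      _ = B * Real.exp (δ * R * M.C0) := by rw [hB]; ring
      _ = Real.exp (Real.log B) * Real.exp (δ * R * M.C0) := by rw [Real.exp_log hB0]
      _ ≤ Real.exp (δ * R) * Real.exp (δ * R * M.C0) :=
          mul_le_mul_of_nonneg_right (Real.exp_le_exp.mpr hR1) (Real.exp_pos _).le
      _ = _ := by rw [← Real.exp_add]; congr 1; ring
  · rw [M.ex_zero, one_mul, hye]; group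

/-- short - neutral - short -/
theorem fb3 {A : ℝ} (hA : 1 ≤ A) : ∃ C : ℝ, 1 ≤ C ∧ ∀ δ : ℝ, 0 < δ → δ ≤ 1 / C → ∃ R₀ : ℝ,
    ∀ R : ℝ, R₀ ≤ R → ∀ (g g' : S) (y : V), (M.l g : ℝ) ≤ A * R → (M.l g' : ℝ) ≤ A * R →
    y ∈ M.Vw 0 → M.nm y ≤ Real.exp (δ * R) → g * M.ex y * g' ∈ M.FB (C * δ) (C * R) := by
  obtain ⟨C₁, hC₁, h1⟩ := M.fb_of_lenD
  obtain ⟨C₂, hC₂, h2⟩ := M.fb_mulD
  obtain ⟨C₃, hC₃, h3⟩ := M.fb_neutral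
  have hAC : 1 ≤ C₁ * A := by nlinarith
  have hC22 : 1 ≤ C₂ * C₂ := by nlinarith
  have hC3A : 1 ≤ C₃ * (C₁ * A) := by nlinarith
  refine ⟨C₂ * C₂ * (C₃ * (C₁ * A)), by nlinarith, ?_⟩
  intro δ hδ hδ'
  have hδC : C₂ * C₂ * (C₃ * (C₁ * A)) * δ ≤ 1 := by
    rw [le_div_iff₀ (by positivity)] at hδ'
    linarith
  have hδ2 : C₂ * (C₃ * δ) ≤ 1 := by
    refine le_trans ?_ hδC
    have : C₂ * (C₃ * δ) * 1 ≤ C₂ * (C₃ * δ) * (C₂ * (C₁ * A)) :=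
      mul_le_mul_of_nonneg_left (by nlinarith) (by positivity)
    nlinarith
  have hδ1 : C₃ * δ ≤ 1 := by
    refine le_trans ?_ hδ2
    have : 0 < C₃ * δ := by positivity
    nlinarith
  obtain ⟨R₁, h1'⟩ := h1 (C₃ * δ) (by positivity)
  obtain ⟨R₂, h2'⟩ := h2 (C₃ * δ) (by positivity) hδ1
  obtain ⟨R₃, h3'⟩ := h2 (C₂ * (C₃ * δ)) (by positivity) hδ2
  obtain ⟨R₄, h4'⟩ := h3 δ hδ
  refine ⟨max (max (max R₁ R₂) (max R₃ R₄)) 1, ?_⟩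
  intro R hR g g' y hg hg' hy hyn
  have hR1 : R₁ ≤ R := le_trans (by simp) hR
  have hR2 : R₂ ≤ R := le_trans (by simp) hR
  have hR3 : R₃ ≤ R := le_trans (by simp) hR
  have hR4 : R₄ ≤ R := le_trans (by simp) hR
  have hR0 : 1 ≤ R := le_trans (by simp) hR
  have e0 : R ≤ A * R := by nlinarith
  have e1 : R ≤ C₁ * (A * R) := by nlinarith
  have e2 : C₁ * (A * R) ≤ C₂ * (C₁ * (A * R)) := by nlinarith
  have a1 : g ∈ M.FB (C₃ * δ) (C₁ * (A * R)) := h1' (A * R) (hR1.trans e0) g hg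
  have a2 : g' ∈ M.FB (C₂ * (C₃ * δ)) (C₂ * (C₁ * (A * R))) :=
    M.fb_monoD (by positivity) (by nlinarith [mul_pos (lt_of_lt_of_le one_pos hC₃) hδ])
      (by positivity) e2 (h1' (A * R) (hR1.trans e0) g' hg')
  have a3 : M.ex y ∈ M.FB (C₃ * δ) (C₁ * (A * R)) :=
    M.fb_monoD (by positivity) le_rfl (by positivity) e1 (h4' R hR4 y hy hyn)
  have a4 := h2' (C₁ * (A * R)) (hR2.trans e1) g a1 _ a3
  have a5 := h3' (C₂ * (C₁ * (A * R))) (hR3.trans (e1.trans e2)) _ a4 _ a2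
  refine M.fb_monoD (by positivity) ?_ (by positivity) ?_ a5
  · have : C₂ * C₂ * (C₃ * δ) * 1 ≤ C₂ * C₂ * (C₃ * δ) * (C₁ * A) :=
      mul_le_mul_of_nonneg_left hAC (by positivity)
    nlinarith
  · have : C₂ * (C₂ * (C₁ * A)) * R * 1 ≤ C₂ * (C₂ * (C₁ * A)) * R * C₃ :=
      mul_le_mul_of_nonneg_left hC₃ (by positivity)
    nlinarith

/-- **prefixes of a list of short letters with one neutral letter** -/
theorem prefix_fb {A : ℝ} (hA : 1 ≤ A) (n : ℕ) : ∃ C : ℝ, 1 ≤ C ∧ ∀ δ : ℝ, 0 < δ → δ ≤ 1 / C →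
    ∃ R₀ : ℝ, ∀ R : ℝ, R₀ ≤ R → ∀ (L₁ L₂ : List S) (y : V), L₁.length ≤ n → L₂.length ≤ n →
    (∀ a ∈ L₁, (M.l a : ℝ) ≤ A * R) → (∀ a ∈ L₂, (M.l a : ℝ) ≤ A * R) →
    y ∈ M.Vw 0 → M.nm y ≤ Real.exp (δ * R) → ∀ ws, ws <+: L₁ ++ (M.ex y :: L₂) →
    ∀ g, (M.l g : ℝ) ≤ A * R → ws.prod * g ∈ M.FB (C * δ) (C * R) := by
  have hA' : 1 ≤ ((n:ℝ) + 1) * A := by
    have : (0:ℝ) ≤ n := by positivity
    nlinarith
  obtain ⟨C, hC, h⟩ := M.fb3 hA'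
  refine ⟨C, hC, ?_⟩
  intro δ hδ hδ'
  obtain ⟨R₀, h'⟩ := h δ hδ hδ'
  refine ⟨max R₀ 0, ?_⟩
  intro R hR L₁ L₂ y hL₁ hL₂ h₁ h₂ hy hyn ws hws g hg
  have hR0 : 0 ≤ R := (le_max_right _ _).trans hR
  have hRR : R₀ ≤ R := (le_max_left _ _).trans hR
  have hAR : 0 ≤ A * R := by positivity
  -- lengths of products of prefixes
  have key : ∀ L : List S, L.length ≤ n → (∀ a ∈ L, (M.l a : ℝ) ≤ A * R) → ∀ ws, ws <+: L →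
      (M.l ws.prod : ℝ) ≤ n * (A * R) := by
    intro L hL hLl ws hws
    refine (M.l_list ws fun a ha => hLl a (hws.subset ha)).trans ?_
    have : (ws.length : ℝ) ≤ n := by exact_mod_cast (hws.length_le.trans hL)
    exact mul_le_mul_of_nonneg_right this hAR
  have hlong : ∀ L : List S, L.length ≤ n → (∀ a ∈ L, (M.l a : ℝ) ≤ A * R) → ∀ ws, ws <+: L →
      (M.l (ws.prod * g) : ℝ) ≤ ((n:ℝ) + 1) * A * R := by
    intro L hL hLl ws hws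
    have h3 := key L hL hLl ws hws
    have h4 := M.l_mulD ws.prod g
    linarith
  have hshort : ∀ ws, ws <+: L₁ → ws.prod * g ∈ M.FB (C * δ) (C * R) := by
    intro ws hws
    have h5 := h' R hRR (ws.prod * g) 1 0 (hlong L₁ hL₁ h₁ ws hws) (by
      rw [M.len.one]; push_cast; positivity) (Submodule.zero_mem _) (by
      rw [map_zero]; exact (Real.exp_pos _).le)
    rwa [M.ex_zero, mul_one, mul_one] at h5
  rcases prefix_append_cases hws with hws | ⟨ws', hws', rfl⟩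
  · exact hshort ws hws
  · cases ws' with
    | nil =>
      rw [List.append_nil]
      exact hshort L₁ (List.prefix_refl _)
    | cons b ws'' =>
      rw [List.cons_prefix_cons] at hws'
      obtain ⟨rfl, hws''⟩ := hws'
      have h6 := h' R hRR L₁.prod (ws''.prod * g) y (by
        have := key L₁ hL₁ h₁ L₁ (List.prefix_refl _)
        nlinarith) (hlong L₂ hL₂ h₂ ws'' hws'') hy hyn
      have e : (L₁ ++ M.ex y :: ws'').prod * g = L₁.prod * M.ex y * (ws''.prod * g) := by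
        rw [List.prod_append, List.prod_cons]; group
      rw [e]
      exact h6

/-- constants attached to a finite family of generic directions -/
theorem dirs_const (v : Fin k → (Fin k → ℤ)) (hv : ∀ i, M.Generic (v i)) :
    ∃ (n₁ : ℕ) (β : ℝ), 0 < β ∧ (∀ i, M.τ (v i) ∈ M.CB n₁) ∧
      ∀ i, ∀ b ∈ M.Φ, β ≤ |b (ht (v i))| := by
  classical
  obtain ⟨β, hβ, hβ'⟩ := exists_gap ((Finset.univ : Finset (Fin k)) ×ˢ M.Φ)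
    (fun p => |p.2 (ht (v p.1))|) (by
      rintro ⟨i, b⟩ hb
      simp only [Finset.mem_product, Finset.mem_univ, true_and] at hb
      exact abs_pos.mpr (hv i b (M.Φ_sub hb) (M.Φ_ne b hb)))
  refine ⟨Finset.univ.sup fun i => ⌈M.C0 * (1 + ‖(fun j => (v i j : ℝ) : Fin k → ℝ)‖)⌉₊, β, hβ,
      fun i => M.CB_mono ?_ (M.τ_CB (v i)), fun i b hb => hβ' (i, b) (by simp [hb])⟩
  exact Finset.le_sup (f := fun i => ⌈M.C0 * (1 + ‖(fun j => (v i j : ℝ) : Fin k → ℝ)‖)⌉₊)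
      (Finset.mem_univ i)

/-- the constant of the lengths of the letters -/
noncomputable def cA : ℝ := M.C0 * (1 + Real.log (1 + M.C0 * 2 ^ M.C0) + M.C0)

theorem cA_nonneg : 0 ≤ M.cA := by
  have hC0 := M.one_le_C0
  have hlog : 0 ≤ Real.log (1 + M.C0 * 2 ^ M.C0) := Real.log_nonneg (by
    have : 0 < M.C0 * 2 ^ M.C0 := by positivity
    linarith)
  unfold cA
  positivity

/-- length of the letters -/
theorem len_letter {r R ρ : ℝ} {j : M.ι} (hj : M.wt j ≠ 0)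
    (hr : |r| ≤ M.C0 * 2 ^ M.C0 * Real.exp (M.C0 * R)) (hR : 0 ≤ R) (hRρ : R ≤ ρ) (hρ : 1 ≤ ρ) :
    (M.l (M.ex (r • M.X j)) : ℝ) ≤ M.cA * ρ := by
  have hC0 := M.one_le_C0
  have hCx0 : 0 < M.C0 * 2 ^ M.C0 := by positivity
  have hlog : 0 ≤ Real.log (1 + M.C0 * 2 ^ M.C0) := Real.log_nonneg (by linarith)
  have hmem : r • M.X j ∈ M.e := M.Vw_e _ hj (Submodule.smul_mem _ _ (M.X_mem _))
  have h1 := M.len_of_exp hmem hCx0.le (R := M.C0 * R) (by positivity) (by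
      rw [M.nm_smul]
      refine le_trans ?_ hr
      exact mul_le_of_le_one_right (abs_nonneg r) (M.X_le j))
  refine h1.trans ?_
  have h2 : M.C0 * R ≤ M.C0 * ρ := mul_le_mul_of_nonneg_left hRρ (by linarith)
  have h3 : 1 + Real.log (1 + M.C0 * 2 ^ M.C0) + M.C0 * R ≤
      (1 + Real.log (1 + M.C0 * 2 ^ M.C0) + M.C0) * ρ := by nlinarith
  calc _ ≤ M.C0 * ((1 + Real.log (1 + M.C0 * 2 ^ M.C0) + M.C0) * ρ) :=
          mul_le_mul_of_nonneg_left h3 (by linarith)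
    _ = _ := by unfold cA; ring

/-- length of `τ w` -/
theorem len_τ {CL : ℝ} (hCL : 1 ≤ CL) (hl : ∀ n, ∀ c ∈ M.CB n, (M.l c : ℝ) ≤ CL * n)
    {w : Fin k → ℤ} {R : ℝ} (hR : 0 ≤ R) (h : ∀ i, |(w i : ℝ)| ≤ R) :
    (M.l (M.τ w) : ℝ) ≤ 2 * CL * M.C0 * (1 + R) := by
  obtain ⟨n, hn, hτ⟩ := M.τ_word hR h
  refine (hl n _ hτ).trans ?_
  calc CL * n ≤ CL * (2 * M.C0 * (1 + R)) := mul_le_mul_of_nonneg_left hn (by linarith)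
    _ = _ := by ring

theorem mrg_mono {Nt Nt' : Set S} (h : Nt ⊆ Nt') {t : S} {ρ : ℕ} {τ : ℝ} {g : S}
    (hm : P188.H882.Mrg (fun x => (M.l x : ℝ)) Nt t ρ τ g) :
    P188.H882.Mrg (fun x => (M.l x : ℝ)) Nt' t ρ τ g := by
  obtain ⟨σ, hσ, h2⟩ := hm
  refine ⟨σ, hσ, fun m hm => ?_⟩
  obtain ⟨a, z, e1, e2, e3⟩ := h2 m hm
  exact ⟨a, z, e1, e2, h e3⟩

/-- the list of the first decomposition, and its merging properties -/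
theorem dec1_list {n₁ : ℕ} {t : Fin k → ℤ} (hn₁ : M.τ t ∈ M.CB n₁) {β : ℝ} (hβ : 0 < β)
    (hgap : ∀ b ∈ M.Φ, β ≤ |b (ht t)|) {CL : ℝ} (hCL : 1 ≤ CL)
    (hl : ∀ n, ∀ c ∈ M.CB n, (M.l c : ℝ) ≤ CL * n) {δ ε₁ R : ℝ} (hδ : 0 < δ) (hε₁ : 0 < ε₁)
    {ρ : ℕ} (hρ1 : (1 : ℝ) ≤ ρ) (hR0 : 0 ≤ R) (hRρ : R ≤ ρ)
    (hRβ : M.C0 * R ≤ β / 4 * ρ) (hRε : 2 * CL * M.C0 * (1 + R) ≤ ε₁ * ρ) (hρε : 2 * M.C0 ≤ ε₁ * ρ)
    (h1 : M.C0 * (M.C0 * 2 ^ M.C0) * (1 + n₁ * (ρ : ℝ)) ^ M.deg ≤ Real.exp (β / 4 * ρ))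
    (h2 : M.C0 * (1 + n₁ * (ρ : ℝ)) ^ M.deg ≤ Real.exp (δ * ρ))
    (h3 : M.C0 * (1 + (2 * n₁ + 8 * M.C0) * (ρ : ℝ)) ^ M.deg ≤ Real.exp (δ * ρ))
    {u : S} (hu : u ∈ M.FB δ R) :
    ∃ (L₁ : List S) (y : V) (w : Fin k → ℤ), L₁.length = M.mE ∧ y ∈ M.Vw 0 ∧
      M.nm y ≤ Real.exp (δ * ρ) ∧ (∀ a ∈ L₁, (M.l a : ℝ) ≤ M.cA * ρ) ∧
      (M.l (M.τ w) : ℝ) ≤ ε₁ * ρ ∧ (L₁ ++ (M.ex y :: [M.τ w])).prod = u ∧
      ∀ g ∈ L₁ ++ (M.ex y :: [M.τ w]),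
        P188.H882.Mrg (fun x => (M.l x : ℝ)) (M.Nt (2 * δ) ρ) (M.τ t) ρ (ε₁ * ρ) g := by
  have hC0 := M.one_le_C0
  obtain ⟨x, hx, hxn, y, hy, hyn, w, hw, rfl⟩ := hu
  obtain ⟨r, hr, hrx⟩ := M.gen_e x hx
  have hrb : ∀ t, |r t| ≤ M.C0 * 2 ^ M.C0 * Real.exp (M.C0 * R) := fun t =>
    (hr t).trans (M.gen_bound hR0 hxn)
  have hyρ : M.nm y ≤ Real.exp (δ * ρ) := hyn.trans (Real.exp_le_exp.mpr
    (mul_le_mul_of_nonneg_left hRρ hδ.le))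
  have hlτ : (M.l (M.τ w) : ℝ) ≤ ε₁ * ρ := (M.len_τ hCL hl hR0 hw).trans hRε
  refine ⟨List.ofFn fun t => M.ex (r t • M.X (M.jE t)), y, w, by simp, hy, hyρ, ?_, hlτ, ?_, ?_⟩
  · intro a ha
    rw [List.mem_ofFn] at ha
    obtain ⟨s, rfl⟩ := ha
    exact M.len_letter (M.jE_ne s) (hrb s) hR0 hRρ hρ1
  · rw [List.prod_append, List.prod_cons, List.prod_singleton, hrx, mul_assoc]
  · intro g hg
    rw [List.mem_append, List.mem_cons, List.mem_singleton] at hg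
    rcases hg with hg | rfl | rfl
    · rw [List.mem_ofFn] at hg
      obtain ⟨s, rfl⟩ := hg
      exact M.mrg_letter hn₁ hβ hgap (M.jE_ne s) (hrb s) hRβ h1 hρε
    · refine M.mrg_mono (M.Nt_mono ?_) (M.mrg_neutral hn₁ (δ := δ) (δ' := δ) (ρ := ρ)
        (τ := ε₁ * ρ) (by linarith) hy hyρ h2)
      exact le_of_eq (by ring)
    · obtain ⟨n₂, hn₂, hτ₂⟩ := M.τ_word hR0 hw
      refine M.mrg_mono (M.Nt_mono ?_) (M.mrg_τ hn₁ hτ₂ (δ := δ) (K := 2 * n₁ + 8 * M.C0)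
        (ρ := ρ) (τ := ε₁ * ρ) hlτ ?_ h3)
      · exact mul_le_mul_of_nonneg_right (by linarith) (by linarith)
      · have h4 : (n₂ : ℝ) ≤ 4 * M.C0 * ρ := by
          refine hn₂.trans ?_
          nlinarith
        nlinarith

/-- the choice of `d₁` -/
theorem choose_d {β ε₁ CL C₀ : ℝ} (hβ : 0 < β) (hε₁ : 0 < ε₁) (hCL : 1 ≤ CL) (hC : 1 ≤ C₀) :
    ∃ d : ℝ, 0 < d ∧ d ≤ 1 ∧ C₀ * d ≤ β / 4 ∧ 4 * CL * C₀ * d ≤ ε₁ := by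
  refine ⟨min (min (β / (4 * C₀)) (ε₁ / (4 * CL * C₀))) 1, lt_min (lt_min (by positivity)
    (by positivity)) one_pos, min_le_right _ _, ?_, ?_⟩
  · have h1 : min (min (β / (4 * C₀)) (ε₁ / (4 * CL * C₀))) 1 ≤ β / (4 * C₀) :=
      (min_le_left _ _).trans (min_le_left _ _)
    rw [le_div_iff₀ (by positivity)] at h1
    linarith
  · have h1 : min (min (β / (4 * C₀)) (ε₁ / (4 * CL * C₀))) 1 ≤ ε₁ / (4 * CL * C₀) :=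
      (min_le_left _ _).trans (min_le_right _ _)
    rw [le_div_iff₀ (by positivity)] at h1
    linarith

/-- **First decomposition.** -/
theorem dec1 (v : Fin k → (Fin k → ℤ)) (hv : ∀ i, M.Generic (v i)) :
    ∃ (c : ℕ) (C₁ : ℝ), 1 ≤ C₁ ∧ ∀ C : ℝ, C₁ ≤ C → ∀ ε₁ : ℝ, 0 < ε₁ → ε₁ ≤ 1 →
      ∃ d₁ : ℝ, 0 < d₁ ∧ d₁ ≤ 1 ∧ ∀ δ : ℝ, 0 < δ → δ ≤ 1 / C → ∃ ρ₀ : ℕ, ∀ ρ : ℕ, ρ₀ ≤ ρ →
      ∀ i, ∀ u ∈ M.FB δ (d₁ * ρ), ∃ us : List S, us.length ≤ c ∧ us.prod = u ∧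
        (∀ w ∈ us, P188.H882.Mrg (fun x => (M.l x : ℝ)) (M.Nt (C * δ) ρ) (M.τ (v i)) ρ
          (ε₁ * ρ) w) ∧
        ∀ ws, ws <+: us → ws.prod ∈ M.FB (C * δ) (C * ρ) ∧
          ∀ m : ℤ, |m| ≤ (ρ : ℤ) → ∀ a, (M.l a : ℝ) ≤ ε₁ * ρ →
            ws.prod * M.τ (v i) ^ m * a ∈ M.FB (C * δ) (C * ρ) := by
  have hC0 := M.one_le_C0
  obtain ⟨n₁, β, hβ, hn₁, hgap⟩ := M.dirs_const v hv
  obtain ⟨CL, hCL, hl⟩ := M.l_CB
  have hn1 : (0:ℝ) ≤ n₁ := by positivity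
  have hcA := M.cA_nonneg
  have hCLn : 0 ≤ CL * n₁ := by positivity
  obtain ⟨C₂, hC₂, hpre⟩ := M.prefix_fb (A := M.cA + CL * n₁ + 1) (by linarith) (M.mE + 1)
  refine ⟨M.mE + 2, max C₂ 2, le_max_of_le_left hC₂, ?_⟩
  intro C hC ε₁ hε₁ hε₁'
  have hC2 : C₂ ≤ C := (le_max_left _ _).trans hC
  have hC22 : 2 ≤ C := (le_max_right _ _).trans hC
  obtain ⟨d₁, hd0, hd1, hdβ, hdε⟩ := choose_d hβ hε₁ hCL hC0
  refine ⟨d₁, hd0, hd1, ?_⟩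
  intro δ hδ hδC
  have hδC₂ : δ ≤ 1 / C₂ := hδC.trans (one_div_le_one_div_of_le (by linarith) hC2)
  obtain ⟨R₀, hpre'⟩ := hpre δ hδ hδC₂
  obtain ⟨R₁, hR₁⟩ := poly_le_exp (M.C0 * (M.C0 * 2 ^ M.C0)) n₁ hn1 M.deg
    (by positivity : 0 < β / 4)
  obtain ⟨R₂, hR₂⟩ := poly_le_exp M.C0 n₁ hn1 M.deg hδ
  obtain ⟨R₃, hR₃⟩ := poly_le_exp M.C0 (2 * n₁ + 8 * M.C0) (by positivity) M.deg hδ
  obtain ⟨ρ₀, hρ₀⟩ := exists_nat_ge (max (max (max R₀ R₁) (max R₂ R₃))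
    (max 1 ((4 * CL * M.C0) / ε₁)))
  refine ⟨ρ₀, ?_⟩
  intro ρ hρ i u hu
  have hρ' := hρ₀.trans (by exact_mod_cast hρ : (ρ₀ : ℝ) ≤ ρ)
  have b0 : R₀ ≤ ρ := le_trans (by simp) hρ'
  have b1 : R₁ ≤ ρ := le_trans (by simp) hρ'
  have b2 : R₂ ≤ ρ := le_trans (by simp) hρ'
  have b3 : R₃ ≤ ρ := le_trans (by simp) hρ'
  have b4 : (1:ℝ) ≤ ρ := le_trans (by simp) hρ'
  have b5 : (4 * CL * M.C0) / ε₁ ≤ ρ := le_trans (by simp) hρ'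
  clear hρ' hρ₀
  rw [div_le_iff₀ hε₁] at b5
  have hρ0 : (0:ℝ) < ρ := by linarith
  have hCLC : M.C0 ≤ CL * M.C0 := by nlinarith
  have hε₁ρ : ε₁ * ρ ≤ ρ := by nlinarith
  obtain ⟨L₁, y, w, hL₁, hy, hyn, hL₁A, hlτ, hprod, hmrg⟩ := M.dec1_list (hn₁ i) hβ (hgap i) hCL hl
    hδ hε₁ b4 (by positivity : 0 ≤ d₁ * ρ) (by nlinarith) (by nlinarith)
    (by nlinarith [mul_le_mul_of_nonneg_right hdε hρ0.le])
    (by nlinarith) (hR₁ ρ b1) (hR₂ ρ b2) (hR₃ ρ b3) hu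
  refine ⟨L₁ ++ (M.ex y :: [M.τ w]), by simp [hL₁], hprod, fun g hg => ?_, fun ws hws => ?_⟩
  · exact M.mrg_mono (M.Nt_mono (mul_le_mul_of_nonneg_right
      (mul_le_mul_of_nonneg_right hC22 hδ.le) hρ0.le)) (hmrg g hg)
  have main : ∀ g, (M.l g : ℝ) ≤ (M.cA + CL * n₁ + 1) * ρ →
      ws.prod * g ∈ M.FB (C * δ) (C * ρ) := by
    intro g hg
    have h1 := hpre' ρ b0 L₁ [M.τ w] y (by omega) (by simp) (fun a ha => (hL₁A a ha).trans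
      (mul_le_mul_of_nonneg_right (by linarith) hρ0.le)) (by
      intro a ha
      rw [List.mem_singleton] at ha
      rw [ha]
      refine (hlτ.trans hε₁ρ).trans ?_
      nlinarith [mul_nonneg hcA hρ0.le, mul_nonneg hCLn hρ0.le]) hy hyn ws hws g hg
    exact M.fb_monoD (by positivity) (mul_le_mul_of_nonneg_right hC2 hδ.le) (by positivity)
      (mul_le_mul_of_nonneg_right hC2 hρ0.le) h1
  refine ⟨?_, fun m hm a ha => ?_⟩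
  · have := main 1 (by rw [M.len.one]; push_cast; positivity)
    rwa [mul_one] at this
  · rw [mul_assoc]
    refine main _ ((M.l_mulD _ _).trans ?_)
    have h1 := hl _ _ (M.CB_zpow (hn₁ i) m)
    have h2 : ((n₁ * m.natAbs : ℕ) : ℝ) ≤ n₁ * ρ := by
      push_cast
      refine mul_le_mul_of_nonneg_left ?_ hn1
      have : m.natAbs ≤ ρ := by
        have := Int.abs_eq_natAbs m
        omega
      exact_mod_cast this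
    have h3 : (M.l (M.τ (v i) ^ m) : ℝ) ≤ CL * (n₁ * ρ) :=
      h1.trans (mul_le_mul_of_nonneg_left h2 (by linarith))
    nlinarith [mul_nonneg hcA hρ0.le]

end RModel

end Vale.Agent.P188.Z1

end

section

/-!
# P188, Z1, block STRAIGHT, part C: margins at a fixed scale
-/

set_option linter.all false

open MeasureTheory Set
open scoped ENNReal
open Vale.P188.H654

namespace Vale.Agent.P188.Z1

namespace RModel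

variable {S : Type} [Group S] [MeasurableSpace S] {Γ : Type} [Group Γ]
  {V : Type} [AddCommGroup V] [Module ℝ V] {k : ℕ} (M : RModel S Γ V k)

/-- points of `D₀` whose `ρ₁`-translates are in `D₀` -/
def lnD1 (V₁ : Finset (Fin k → ℤ)) (ρ₁ : ℕ) (D₀ : Set S) : Set S :=
  {x | x ∈ D₀ ∧ ∀ v ∈ V₁, x * M.τ v ^ ρ₁ ∈ D₀}

open Classical in
theorem ln_mu_D1 {V₁ : Finset (Fin k → ℤ)} {ρ₁ lm : ℕ} {D D₀ : Set S}
    (hlm : ∀ v ∈ V₁, M.l (M.τ v) ≤ lm) {e₀ : ℝ≥0∞} (he₀ : M.μ (D \ D₀) ≤ e₀) {r : ℝ}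
    (hr : (ρ₁ * lm : ℕ) ≤ r) :
    M.μ (M.In r D \ M.lnD1 V₁ ρ₁ D₀) ≤ (1 + V₁.card : ℕ) * e₀ := by
  have hr0 : (0 : ℝ) ≤ r := (Nat.cast_nonneg _).trans hr
  have hsub : M.In r D \ M.lnD1 V₁ ρ₁ D₀ ⊆ (D \ D₀) ∪
      {x | x ∈ M.In r D ∧ ∃ v ∈ V₁, x * M.τ v ^ ρ₁ ∉ D₀} := by
    rintro x ⟨hx, hx'⟩
    by_cases h0 : x ∈ D₀
    · right
      refine ⟨hx, ?_⟩
      by_contra hcon
      push Not at hcon
      exact hx' ⟨h0, hcon⟩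
    · left
      exact ⟨ln_In_sub hr0 hx, h0⟩
  have h2 := ln_In_union (M := M) (r := r) (r' := 0) (D := D) (A := D₀) V₁
    (fun v => M.τ v ^ ρ₁) (by
      intro v hv
      rw [add_zero]
      refine le_trans ?_ hr
      exact_mod_cast (M.ln_pow _ _).trans (Nat.mul_le_mul_left _ (hlm v hv))) (e := e₀)
      ((measure_mono (diff_subset_diff_left (ln_In_sub le_rfl))).trans he₀)
  calc M.μ (M.In r D \ M.lnD1 V₁ ρ₁ D₀) ≤ _ := measure_mono hsub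
    _ ≤ e₀ + V₁.card * e₀ := (measure_union_le _ _).trans (add_le_add he₀ h2)
    _ = _ := by push_cast; ring

/-- points of `D₁` whose translates by a grid are in `D₁` -/
def lnD2 (V₁ : Finset (Fin k → ℤ)) (h n₄ : ℕ) (D₁ : Set S) : Set S :=
  {x | x ∈ D₁ ∧ ∀ v : V₁, ∀ j : ℤ, |j| ≤ n₄ → x * M.τ v ^ (j * h) ∈ D₁}

open Classical in
theorem ln_mu_D2 {V₁ : Finset (Fin k → ℤ)} {h n₄ lm : ℕ} {D D₁ : Set S}
    (hlm : ∀ v ∈ V₁, M.l (M.τ v) ≤ lm) {e₁ : ℝ≥0∞} {r r' : ℝ}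
    (he₁ : M.μ (M.In r' D \ D₁) ≤ e₁) (hr : (n₄ * h * lm : ℕ) + r' ≤ r) :
    M.μ (M.In r D \ M.lnD2 V₁ h n₄ D₁) ≤ (1 + V₁.card * (2 * n₄ + 1) : ℕ) * e₁ := by
  have hrr : r' ≤ r := le_trans (by have : (0:ℝ) ≤ (n₄ * h * lm : ℕ) := Nat.cast_nonneg _; linarith) hr
  set I : Finset ((Fin k → ℤ) × ℤ) := V₁ ×ˢ Finset.Icc (-(n₄ : ℤ)) n₄ with hI
  have hsub : M.In r D \ M.lnD2 V₁ h n₄ D₁ ⊆ (M.In r' D \ D₁) ∪
      {x | x ∈ M.In r D ∧ ∃ p ∈ I, x * M.τ p.1 ^ (p.2 * h) ∉ D₁} := by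
    rintro x ⟨hx, hx'⟩
    by_cases h0 : x ∈ D₁
    · right
      refine ⟨hx, ?_⟩
      by_contra hcon
      push Not at hcon
      refine hx' ⟨h0, fun v j hj => ?_⟩
      refine hcon ((v : Fin k → ℤ), j) ?_
      rw [hI, Finset.mem_product, Finset.mem_Icc]
      exact ⟨v.2, (abs_le.1 hj).1, (abs_le.1 hj).2⟩
    · left
      exact ⟨ln_In_mono hrr hx, h0⟩
  have h2 := ln_In_union (M := M) (r := r) (r' := r') (D := D) (A := D₁) I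
    (fun p => M.τ p.1 ^ (p.2 * h)) (by
      rintro ⟨v, j⟩ hp
      rw [hI, Finset.mem_product, Finset.mem_Icc] at hp
      refine le_trans ?_ hr
      have h3 : (j * h).natAbs * M.l (M.τ v) ≤ n₄ * h * lm := by
        rw [Int.natAbs_mul, Int.natAbs_natCast]
        refine Nat.mul_le_mul (Nat.mul_le_mul_right _ ?_) (hlm v hp.1)
        have := hp.2
        simp only at this
        omega
      have h4 := (M.ln_zpow (M.τ v) (j * h)).trans h3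
      have h5 : (M.l (M.τ v ^ (j * h)) : ℝ) ≤ (n₄ * h * lm : ℕ) := by exact_mod_cast h4
      linarith) (e := e₁) he₁
  have hcard : I.card = V₁.card * (2 * n₄ + 1) := by
    rw [hI, Finset.card_product, Int.card_Icc]
    congr 1
    omega
  calc M.μ (M.In r D \ M.lnD2 V₁ h n₄ D₁) ≤ _ := measure_mono hsub
    _ ≤ e₁ + I.card * e₁ := (measure_union_le _ _).trans (add_le_add he₁ h2)
    _ = _ := by rw [hcard]; push_cast; ring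

open Classical in
/-- **Margins at a fixed scale.** -/
theorem ln_margin1 {K : ℝ} {F F' : Γ → Γ} (hQ : M.QIm K F F') {Φ₁ : Finset (Ht k →L[ℝ] ℝ)}
    {V₁ : Finset (Fin k → ℤ)} {c₀ L ε₁ : ℝ} {ρ ρ₁ h n₄ lm r n Mn : ℕ}
    {T : (V₁ → Set (Ht k →L[ℝ] ℝ)) → (Ht k →L[ℝ] Ht k)} {D D₀ : Set S}
    (hD₀ : MeasurableSet D₀) (hne : D₀.Nonempty) {σ₀ : S → V₁ → Set (Ht k →L[ℝ] ℝ)}
    (hgood : ∀ x ∈ D₀, GoodLab Φ₁ V₁ c₀ L (T (σ₀ x)) (σ₀ x))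
    (hlin : ∀ x ∈ D₀, ∀ x' ∈ D₀, (M.l (x⁻¹ * x') : ℝ) ≤ ρ →
      ‖M.f F x' - M.f F x - T (σ₀ x) (M.θ (x⁻¹ * x'))‖ ≤ ε₁ * ρ ∧ σ₀ x' = σ₀ x)
    (hlm : ∀ v ∈ V₁, M.l (M.τ v) ≤ lm) (hρ : ρ₁ * lm ≤ ρ) (hh : 0 < h) (hn : ρ₁ ≤ n₄ * h)
    (hc₀ : 0 < c₀) (hL : 0 ≤ L) (hε₁ : 0 ≤ ε₁)
    {e1 L1 : ℝ} (he1 : (∑ b ∈ Φ₁, ‖b‖) * (ε₁ * ρ + (M.lnLf K + L * M.C0) * (lm * h)) ≤ e1)
    (he : 2 * e1 < c₀ * ρ₁)
    (hL1 : 0 < L1) (hlip : (∑ b ∈ Φ₁, ‖b‖) * (M.lnLf K * lm) ≤ L1)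
    (hr : L1 * r ≤ c₀ * ρ₁ - e1) {e₀ θ : ℝ≥0∞} (he₀ : M.μ (D \ D₀) ≤ e₀)
    (hθ : ∀ b ∈ Φ₁, ∀ v ∈ V₁, M.μ {x | x ∈ D ∧ ∀ n : ℤ, |n| ≤ r →
      b (M.f F (x * M.τ v ^ n)) ≤ b (M.f F x)} ≤ θ)
    {m : ℝ} (hm : m ≤ n * (c₀ * ρ₁ - e1) - (L1 + c₀) * ρ₁ * Mn) (hMn : 0 < Mn)
    {R : ℝ} (hR : ((n * ρ₁ * lm + n₄ * h * lm + ρ₁ * lm : ℕ) : ℝ) ≤ R) :
    ∃ σ : S → LnLab Φ₁ V₁, (∀ a, MeasurableSet {z | (σ z).1 = a}) ∧
      (∀ z, GoodLab Φ₁ V₁ c₀ L (T (σ z).1) (σ z).1) ∧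
      (∀ x ∈ M.lnD1 V₁ ρ₁ D₀, ∀ x' ∈ M.lnD1 V₁ ρ₁ D₀, (M.l (x⁻¹ * x') : ℝ) ≤ ρ →
        ‖M.f F x' - M.f F x - T (σ x).1 (M.θ (x⁻¹ * x'))‖ ≤ ε₁ * ρ) ∧
      M.μ (M.In R D \ M.lnD1 V₁ ρ₁ D₀) ≤ (1 + V₁.card : ℕ) * e₀ ∧
      M.μ (M.In R D \ {z | (lnData hQ Φ₁ V₁).Good σ (n * ρ₁) m z}) ≤
        (Fintype.card (V₁ × Bool) : ℕ) *
        (((1 + V₁.card * (2 * n₄ + 1) : ℕ) * ((1 + V₁.card : ℕ) * e₀)) +
          Φ₁.card * ((n * ρ₁ + 1 : ℕ) * θ) +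
          n * ((1 + V₁.card * (2 * n₄ + 1) : ℕ) * ((1 + V₁.card : ℕ) * e₀)) / Mn) := by
  have hLf := M.lnLf_nonneg hQ.K_nonneg
  have hC0 := M.ln_C0
  have hB0 : 0 ≤ ∑ b ∈ Φ₁, ‖b‖ := Finset.sum_nonneg fun b _ => norm_nonneg b
  have hX : 0 ≤ (M.lnLf K + L * M.C0) * (lm * h) := by positivity
  have he10 : 0 ≤ e1 := le_trans (by positivity) he1
  have hBρ : (∑ b ∈ Φ₁, ‖b‖) * (ε₁ * ρ) < c₀ * ρ₁ := by
    have h1 : (∑ b ∈ Φ₁, ‖b‖) * (ε₁ * ρ) ≤ e1 :=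
      (mul_le_mul_of_nonneg_left (by linarith) hB0).trans he1
    linarith
  obtain ⟨σ, hσm, hσg, hσe⟩ := M.ln_lab_meas (F := F) (B := ∑ b ∈ Φ₁, ‖b‖) (ρ₁ := ρ₁) hD₀ hne
    hgood hlin (fun b hb => Finset.single_le_sum (f := fun b : Ht k →L[ℝ] ℝ => ‖b‖)
      (fun b _ => norm_nonneg b) hb) hBρ (by
      intro v hv
      exact_mod_cast ((M.ln_pow _ _).trans (Nat.mul_le_mul_left _ (hlm v hv))).trans hρ)
  have hlin1 : ∀ x ∈ M.lnD1 V₁ ρ₁ D₀, ∀ x' ∈ M.lnD1 V₁ ρ₁ D₀, (M.l (x⁻¹ * x') : ℝ) ≤ ρ →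
        ‖M.f F x' - M.f F x - T (σ x).1 (M.θ (x⁻¹ * x'))‖ ≤ ε₁ * ρ := by
    intro x hx x' hx' hl
    rw [hσe x hx.1 hx.2]
    exact (hlin x hx.1 x' hx'.1 hl).1
  have hR1 : ((ρ₁ * lm : ℕ) : ℝ) ≤ R := le_trans (by exact_mod_cast Nat.le_add_left _ _) hR
  have hμ1 : M.μ (M.In R D \ M.lnD1 V₁ ρ₁ D₀) ≤ (1 + V₁.card : ℕ) * e₀ := M.ln_mu_D1 hlm he₀ hR1
  refine ⟨σ, hσm, hσg, hlin1, hμ1, ?_⟩
  have hμ1' : M.μ (M.In ((ρ₁ * lm : ℕ) : ℝ) D \ M.lnD1 V₁ ρ₁ D₀) ≤ (1 + V₁.card : ℕ) * e₀ :=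
    M.ln_mu_D1 hlm he₀ le_rfl
  set D₁ := M.lnD1 V₁ ρ₁ D₀ with hD₁
  set R' : ℝ := ((n₄ * h * lm + ρ₁ * lm : ℕ) : ℝ) with hR'
  have hμ2 : M.μ (M.In R' D \ M.lnD2 V₁ h n₄ D₁) ≤
      (1 + V₁.card * (2 * n₄ + 1) : ℕ) * ((1 + V₁.card : ℕ) * e₀) :=
    M.ln_mu_D2 hlm hμ1' (by rw [hR']; push_cast; exact le_rfl)
  set e : ℝ≥0∞ := (1 + V₁.card * (2 * n₄ + 1) : ℕ) * ((1 + V₁.card : ℕ) * e₀) with hee
  have key : ∀ p : V₁ × Bool, M.μ {z ∈ M.In R D | ¬ (lnData hQ Φ₁ V₁).Mg σ (n * ρ₁) m z p} ≤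
      e + Φ₁.card * ((n * ρ₁ + 1 : ℕ) * θ) + n * e / Mn := by
    intro p
    have htl : M.l ((lnData hQ Φ₁ V₁).t p) ≤ lm := by
      rcases p with ⟨v, s⟩
      cases s
      · simpa [lnData, M.len.inv] using hlm v v.2
      · simpa [lnData] using hlm v v.2
    have hlinp : LinAt (lnData hQ Φ₁ V₁) σ p (M.lnD2 V₁ h n₄ D₁) c₀ e1 ρ₁ := by
      have h1 := M.ln_linAt hQ (ρ₁ := ρ₁) (h := h) (n₄ := n₄) (lm := lm) hσg hlin1 hlm hh hn hρ p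
      constructor
      intro x hx b
      obtain ⟨lam, h2, h3, h4⟩ := h1.lin x hx b
      exact ⟨lam, h2, h3, fun i hi => (h4 i hi).trans he1⟩
    have := line (lnData hQ Φ₁ V₁) σ p (fun s s' => lnP_card p s s') M.ln_ri
      (D := M.In R D) (Dp := M.In R' D) (D0 := M.lnD2 V₁ h n₄ D₁) c₀ e1 L1 0 ρ₁ r r 0 n Mn hL1
      (by
        refine le_trans ?_ hlip
        refine mul_le_mul_of_nonneg_left (mul_le_mul_of_nonneg_left ?_ hLf) hB0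
        show (M.l _ : ℝ) ≤ _
        exact_mod_cast htl) hlinp hr he he10 hc₀.le (by simp) (by omega)
      (by
        intro j hj z hz
        refine ln_In_mul hz (le_trans ?_ hR)
        have h1 : M.l ((lnData hQ Φ₁ V₁).t p ^ j) ≤ n * ρ₁ * lm :=
          (M.ln_pow _ _).trans (Nat.mul_le_mul (by simpa using hj) htl)
        rw [hR']
        have h2 : (M.l ((lnData hQ Φ₁ V₁).t p ^ j) : ℝ) ≤ (n * ρ₁ * lm : ℕ) := by exact_mod_cast h1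
        push_cast at h2 ⊢
        linarith) hμ2 (θ := θ) (by
        intro b
        refine le_trans (measure_mono ?_) (hθ b b.2 p.1 p.1.2)
        rintro x ⟨hx, hx'⟩
        refine ⟨ln_In_sub (by rw [hR']; positivity) hx, fun i hi => ?_⟩
        rcases p with ⟨v, s⟩
        cases s
        · have := hx' (-i) (by rwa [abs_neg])
          simpa [lnData] using this
        · have := hx' i hi
          simpa [lnData] using this) hm hMn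
    refine this.trans (le_of_eq ?_)
    simp
  have hsub : M.In R D \ {z | (lnData hQ Φ₁ V₁).Good σ (n * ρ₁) m z} ⊆
      ⋃ p ∈ (Finset.univ : Finset (V₁ × Bool)),
        {z ∈ M.In R D | ¬ (lnData hQ Φ₁ V₁).Mg σ (n * ρ₁) m z p} := by
    rintro z ⟨hz, hz'⟩
    have : ∃ p, ¬ (lnData hQ Φ₁ V₁).Mg σ (n * ρ₁) m z p := by
      by_contra hcon
      push Not at hcon
      exact hz' hcon
    obtain ⟨p, hp⟩ := this
    simp only [mem_iUnion]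
    exact ⟨p, Finset.mem_univ _, hz, hp⟩
  refine (measure_mono hsub).trans ((measure_biUnion_finset_le _ _).trans ?_)
  refine (Finset.sum_le_sum fun p _ => key p).trans ?_
  rw [Finset.sum_const, Finset.card_univ, nsmul_eq_mul]

end RModel

end Vale.Agent.P188.Z1

end

section

/-!
# P188, Z1, block STRAIGHT, part C2: arithmetic of the scales
-/

set_option linter.all false

open MeasureTheory Set
open scoped ENNReal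
open Vale.P188.H654

namespace Vale.Agent.P188.Z1

theorem ln_ar1 {lm ρ : ℕ} (hlm : 1 ≤ lm) (h1 : 2 * (lm : ℝ) ≤ ρ) :
    ∃ ρ₁ : ℕ, ρ₁ * lm ≤ ρ ∧ (ρ : ℝ) ≤ 2 * lm * ρ₁ ∧ (0 : ℝ) < ρ₁ ∧ (ρ₁ : ℝ) ≤ ρ := by
  have hlmR : (1 : ℝ) ≤ lm := by exact_mod_cast hlm
  refine ⟨ρ / lm, Nat.div_mul_le_self _ _, ?_, ?_, by exact_mod_cast Nat.div_le_self ρ lm⟩
  · have h2 : ρ < lm * (ρ / lm) + lm := Nat.lt_mul_div_succ ρ (by omega)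
    have h3 : (ρ : ℝ) < lm * (ρ / lm : ℕ) + lm := by exact_mod_cast h2
    linarith
  · have h2 : ρ < lm * (ρ / lm) + lm := Nat.lt_mul_div_succ ρ (by omega)
    have h3 : (ρ : ℝ) < lm * (ρ / lm : ℕ) + lm := by exact_mod_cast h2
    by_contra hcon
    push Not at hcon
    have : (lm : ℝ) * (ρ / lm : ℕ) ≤ 0 := mul_nonpos_of_nonneg_of_nonpos (by positivity) hcon
    linarith

theorem ln_ar2 {ε₄ : ℝ} {ρ ρ₁ : ℕ} (h0 : 0 < ε₄) (h01 : ε₄ ≤ 1) (h2 : 2 ≤ ε₄ * ρ)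
    (h1 : (ρ₁ : ℝ) ≤ ρ) :
    ∃ h : ℕ, 0 < h ∧ (h : ℝ) ≤ ε₄ * ρ ∧ ρ₁ ≤ ⌈2 / ε₄⌉₊ * h ∧ ((⌈2 / ε₄⌉₊ * h : ℕ) : ℝ) ≤ 3 * ρ := by
  obtain ⟨h, hh⟩ : ∃ h : ℕ, h = ⌊ε₄ * ρ⌋₊ := ⟨_, rfl⟩
  have hρ : (0 : ℝ) ≤ ρ := Nat.cast_nonneg _
  have c1 : (h : ℝ) ≤ ε₄ * ρ := by rw [hh]; exact Nat.floor_le (by positivity)
  have c2 : ε₄ * ρ < h + 1 := by rw [hh]; exact Nat.lt_floor_add_one _
  have c3 : ε₄ * ρ ≤ 2 * h := by linarith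
  have hh0 : (0 : ℝ) < h := by linarith
  have hhn : 0 < h := by exact_mod_cast hh0
  have d1 : 2 / ε₄ ≤ ⌈2 / ε₄⌉₊ := Nat.le_ceil _
  have d2 : (⌈2 / ε₄⌉₊ : ℝ) < 2 / ε₄ + 1 := Nat.ceil_lt_add_one (by positivity)
  refine ⟨h, hhn, c1, ?_, ?_⟩
  · have h5 : 2 / ε₄ * h ≤ ⌈2 / ε₄⌉₊ * h := mul_le_mul_of_nonneg_right d1 hh0.le
    have h6 : (ρ : ℝ) ≤ 2 / ε₄ * h := by
      rw [div_mul_eq_mul_div, le_div_iff₀ h0]; linarith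
    have : (ρ₁ : ℝ) ≤ ⌈2 / ε₄⌉₊ * h := h1.trans (h6.trans h5)
    exact_mod_cast this
  · push_cast
    have h5 : (⌈2 / ε₄⌉₊ : ℝ) * h ≤ (2 / ε₄ + 1) * (ε₄ * ρ) :=
      mul_le_mul d2.le c1 hh0.le (by positivity)
    have h6 : (2 / ε₄ + 1) * (ε₄ * ρ) = 2 * ρ + ε₄ * ρ := by field_simp
    have h7 : ε₄ * ρ ≤ 1 * ρ := mul_le_mul_of_nonneg_right h01 hρ
    linarith

theorem ln_ar3 {x y e1 L1 lm : ℝ} (hlm : 1 ≤ lm) (hL1 : 0 < L1) (hxy : y ≤ 2 * lm * x)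
    (hy : 16 * lm * L1 ≤ y) (he1 : 8 * e1 ≤ x) (he0 : 0 ≤ e1) (hyx : x ≤ y) :
    ∃ r : ℕ, L1 * r ≤ x - e1 ∧ y ≤ 4 * lm * L1 * r ∧ L1 * r ≤ y := by
  have hx0 : 0 < x := by
    by_contra hcon
    push Not at hcon
    have : 2 * lm * x ≤ 0 := mul_nonpos_of_nonneg_of_nonpos (by linarith) hcon
    have : 0 < 16 * lm * L1 := by positivity
    linarith
  obtain ⟨r, hr⟩ : ∃ r : ℕ, r = ⌊(x - e1) / L1⌋₊ := ⟨_, rfl⟩
  have hpos : 0 ≤ (x - e1) / L1 := div_nonneg (by linarith) hL1.le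
  have r1 : (r : ℝ) ≤ (x - e1) / L1 := by rw [hr]; exact Nat.floor_le hpos
  have r2 : (x - e1) / L1 < r + 1 := by rw [hr]; exact Nat.lt_floor_add_one _
  rw [le_div_iff₀ hL1] at r1
  rw [div_lt_iff₀ hL1] at r2
  refine ⟨r, by linarith, ?_, by linarith⟩
  -- `7/8 x < (r+1) L1`
  have h1 : 7 / 8 * x < (r + 1) * L1 := by linarith
  have h2 : 16 * L1 ≤ 2 * x := by
    have h3 : lm * (16 * L1) ≤ lm * (2 * x) := by linarith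
    exact le_of_mul_le_mul_left h3 (by linarith)
  have h3 : L1 * 6 ≤ L1 * r := by linarith
  have h4 : x ≤ 2 * (L1 * r) := by linarith
  have h5 : lm * x ≤ lm * (2 * (L1 * r)) := mul_le_mul_of_nonneg_left h4 (by linarith)
  linarith

theorem ln_ar4 {c₀ L1 κs e1 N₀ lm : ℝ} {ρ₁ : ℕ} (hc₀ : 0 < c₀) (hL1 : 0 < L1) (hlm : 1 ≤ lm)
    (hN₀ : N₀ = 4 * (L1 + c₀) / c₀ + 2) (hρ₁ : (0 : ℝ) < ρ₁) (he1 : 8 * e1 ≤ c₀ * ρ₁)
    (h3 : 16 * lm * (N₀ + 1) * ρ₁ ≤ κs) :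
    ∃ n Mn : ℕ, c₀ * ((n * ρ₁ : ℕ) : ℝ) / 2 ≤ n * (c₀ * ρ₁ - e1) - (L1 + c₀) * ρ₁ * Mn ∧ 0 < Mn ∧
      (n : ℝ) ≤ 8 * (L1 + c₀) / c₀ * Mn ∧ κs ≤ 8 * lm * (n * ρ₁ : ℕ) ∧
      4 * lm * ((n * ρ₁ : ℕ) : ℝ) ≤ κs := by
  have hlm0 : 0 < lm := by linarith
  have hN₀0 : 2 < N₀ := by
    have : 0 < 4 * (L1 + c₀) / c₀ := by positivity
    rw [hN₀]; linarith
  have hκs : 0 < κs := lt_of_lt_of_le (by positivity) h3
  obtain ⟨n, hn⟩ : ∃ n : ℕ, n = ⌊κs / (4 * lm * ρ₁)⌋₊ := ⟨_, rfl⟩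
  have hw : 0 < 4 * lm * ρ₁ := by positivity
  have n1 : (n : ℝ) ≤ κs / (4 * lm * ρ₁) := by rw [hn]; exact Nat.floor_le (by positivity)
  have n2 : κs / (4 * lm * ρ₁) < n + 1 := by rw [hn]; exact Nat.lt_floor_add_one _
  rw [le_div_iff₀ hw] at n1
  rw [div_lt_iff₀ hw] at n2
  have n3 : N₀ < n := by
    have h6 : (4 * (N₀ + 1)) * (4 * lm * ρ₁) < (n + 1) * (4 * lm * ρ₁) := by linarith
    have h7 := lt_of_mul_lt_mul_right h6 hw.le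
    linarith
  have n4 : 4 * (L1 + c₀) ≤ c₀ * n := by
    have h5 : 4 * (L1 + c₀) / c₀ ≤ n := by rw [hN₀] at n3; linarith
    rw [div_le_iff₀ hc₀] at h5
    linarith
  obtain ⟨δM, hδM⟩ : ∃ δM : ℝ, δM = c₀ / (8 * (L1 + c₀)) := ⟨_, rfl⟩
  have hδM0 : 0 < δM := by rw [hδM]; positivity
  have hn0 : (0 : ℝ) < n := by linarith
  obtain ⟨Mn, hMn⟩ : ∃ Mn : ℕ, Mn = ⌈δM * n⌉₊ := ⟨_, rfl⟩
  have m1 : δM * n ≤ Mn := by rw [hMn]; exact Nat.le_ceil _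
  have m2 : (Mn : ℝ) < δM * n + 1 := by rw [hMn]; exact Nat.ceil_lt_add_one (by positivity)
  have hMn0 : (0 : ℝ) < Mn := lt_of_lt_of_le (by positivity) m1
  refine ⟨n, Mn, ?_, by exact_mod_cast hMn0, ?_, ?_, ?_⟩
  · have h5 : (L1 + c₀) * ρ₁ * Mn ≤ (L1 + c₀) * ρ₁ * (δM * n + 1) :=
      mul_le_mul_of_nonneg_left m2.le (by positivity)
    have h6 : (L1 + c₀) * ρ₁ * (δM * n + 1) = c₀ * n * ρ₁ / 8 + (L1 + c₀) * ρ₁ := by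
      rw [hδM]; field_simp
    have h7 : n * (8 * e1) ≤ n * (c₀ * ρ₁) := mul_le_mul_of_nonneg_left he1 hn0.le
    have h8 : 4 * (L1 + c₀) * ρ₁ ≤ c₀ * n * ρ₁ := mul_le_mul_of_nonneg_right n4 hρ₁.le
    have e : n * (c₀ * ρ₁ - e1) = n * (c₀ * ρ₁) - n * (8 * e1) / 8 := by ring
    push_cast
    rw [e]
    linarith
  · have h5 : 8 * (L1 + c₀) / c₀ * (δM * n) = n := by rw [hδM]; field_simp
    calc (n : ℝ) = 8 * (L1 + c₀) / c₀ * (δM * n) := h5.symm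
      _ ≤ _ := mul_le_mul_of_nonneg_left m1 (by positivity)
  · have h5 : (N₀ + 1) * (4 * lm * ρ₁) ≤ n * (4 * lm * ρ₁) + (4 * lm * ρ₁) := by
      have := mul_le_mul_of_nonneg_right n3.le hw.le
      linarith
    have h6 : (4 * lm * ρ₁ : ℝ) ≤ n * (4 * lm * ρ₁) := by
      have h7 : (1 : ℝ) ≤ n := by linarith
      have := mul_le_mul_of_nonneg_right h7 hw.le
      linarith
    push_cast
    linarith
  · push_cast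
    linarith

end Vale.Agent.P188.Z1

end
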