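import Vale.Agent.P188.R.G086
import Vale.Agent.P188.R.G089

section

/-!
# P188, Z1, block COH, part 4: norm bounds and rays
-/

set_option linter.all false

open MeasureTheory Set
open scoped ENNReal
open Agent.P188.H428 (IsLen)
open Vale.Agent.P188.H530 (hgt hgt_mul badSumP meas_bad_le exists_good exists_max_norm)

namespace Vale.Agent.P188.Z1

namespace RModel

variable {S : Type} [Group S] [MeasurableSpace S] {Γ : Type} [Group Γ]
  {V : Type} [AddCommGroup V] [Module ℝ V] {k : ℕ} {M : RModel S Γ V k}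

theorem l_powC (t : S) (n : ℕ) : (M.l (t ^ n) : ℝ) ≤ n * M.l t := by
  induction n with
  | zero => simp [M.len.one]
  | succ n ih =>
    rw [pow_succ]
    have : (M.l (t ^ n * t) : ℝ) ≤ M.l (t ^ n) + M.l t := by exact_mod_cast M.len.mul _ _
    push_cast
    linarith

theorem θ_oneC : M.θ (1 : S) = 0 := by
  have := M.θ_mul 1 1
  rw [mul_one] at this
  simpa using this

theorem θ_powC (t : S) (n : ℕ) : M.θ (t ^ n) = (n : ℝ) • M.θ t := by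
  induction n with
  | zero => simp [θ_oneC]
  | succ n ih =>
    rw [pow_succ, M.θ_mul, ih]
    push_cast
    rw [add_smul, one_smul]

theorem θ_τC (v : Fin k → ℤ) : M.θ (M.τ v) = ht v := by
  funext i
  simp [θ, hgt, M.η_τ, ht]

theorem QIm.f_lipC {K : ℝ} {F F' : Γ → Γ} (h : M.QIm K F F') (x y : S) :
    ‖M.f F y - M.f F x‖ ≤ M.C0 * (K * (M.l (x⁻¹ * y) + 2 * M.C0 + 1)) := by
  have h1 := h.lip2 x y
  have e : M.f F y - M.f F x = M.θ (M.inG ((F (M.fl x))⁻¹ * F (M.fl y))) := by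
    rw [map_mul, map_inv, M.θ_inv_mul]
    rfl
  rw [e]
  exact (M.θ_le _).trans (mul_le_mul_of_nonneg_left h1 M.C0_nn)

theorem mu_mul_le (g : S) (B : Set S) : M.μ ((fun x => x * g) ⁻¹' B) ≤ M.μ B := by
  have h1 := (M.mp g).measure_preimage (measurableSet_toMeasurable M.μ B).nullMeasurableSet
  rw [measure_toMeasurable] at h1
  rw [← h1]
  exact measure_mono (preimage_mono (subset_toMeasurable _ _))

/-- few points are moved out of `D₀` -/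
theorem LinOn.move {K L ε κ r R : ℝ} {F F' : Γ → Γ} {D Dp D₀ : Set S}
    {T : S → Ht k →L[ℝ] Ht k} (h : M.LinOn K L ε κ r R F F' D Dp D₀ T) (hR : 0 ≤ R) (hε : 0 ≤ ε)
    (hκ : 0 ≤ κ) {g : S} (hg : (M.l g : ℝ) ≤ R) :
    M.μ.real {x ∈ D | x * g ∉ D₀} ≤ (ε + κ) * M.μ.real D := by
  have hsub : {x ∈ D | x * g ∉ D₀} ⊆ (fun x => x * g) ⁻¹' (Dp \ D₀) := fun x hx =>
    ⟨h.fat.sub x hx.1 g hg, hx.2⟩
  exact real_of_le (by positivity) h.fat.fin
    ((measure_mono hsub).trans ((mu_mul_le g _).trans (h.diffp hR hε hκ)))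

theorem opNorm_le_of_basis {T : Ht k →L[ℝ] Ht k} {B : ℝ} (hB : 0 ≤ B)
    (h : ∀ j, ‖T (Pi.single j 1)‖ ≤ B) : ‖T‖ ≤ k * B := by
  refine ContinuousLinearMap.opNorm_le_bound _ (by positivity) fun w => ?_
  have e : w = ∑ j, w j • (Pi.single j 1 : Ht k) := by
    funext i
    rw [Finset.sum_apply]
    simp only [Pi.smul_apply, smul_eq_mul, Pi.single_apply]
    rw [Finset.sum_eq_single i]
    · simp
    · intro j _ hj
      rw [if_neg (Ne.symm hj), mul_zero]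
    · intro h; exact absurd (Finset.mem_univ i) h
  conv_lhs => rw [e]
  rw [map_sum]
  refine (norm_sum_le _ _).trans ?_
  calc ∑ j, ‖T (w j • (Pi.single j 1 : Ht k))‖ ≤ ∑ _j : Fin k, ‖w‖ * B := by
        refine Finset.sum_le_sum fun j _ => ?_
        rw [map_smul, norm_smul]
        exact mul_le_mul (norm_le_pi_norm w j) (h j) (norm_nonneg _) (norm_nonneg _)
    _ = k * B * ‖w‖ := by simp; ring

/-- numerical facts -/
theorem num_norm {r Lt C0 K s ε : ℝ} (hC0 : 0 ≤ C0) (hK : 0 ≤ K) (hLt : 1 ≤ Lt)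
    (hr : 2 * C0 + 1 ≤ r) (hs : r / (2 * Lt) ≤ s) (hε : ε ≤ 1) (hr0 : 0 < r) {y : ℝ}
    (hy : s * y ≤ C0 * (K * (r + 2 * C0 + 1)) + ε * r) : y ≤ 2 * Lt * (2 * C0 * K + 1) := by
  by_contra hcon
  push Not at hcon
  have h1 : r / (2 * Lt) * (2 * Lt * (2 * C0 * K + 1)) = r * (2 * C0 * K + 1) := by
    field_simp
  have h2 : r / (2 * Lt) * (2 * Lt * (2 * C0 * K + 1)) < s * y := by
    have h0 : 0 < r / (2 * Lt) := by positivity
    have h3 : 0 ≤ 2 * Lt * (2 * C0 * K + 1) := by positivity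
    calc r / (2 * Lt) * (2 * Lt * (2 * C0 * K + 1)) ≤ s * (2 * Lt * (2 * C0 * K + 1)) := by gcongr
      _ < s * y := by gcongr; linarith
  rw [h1] at h2
  have h4 : C0 * (K * (r + 2 * C0 + 1)) ≤ C0 * (K * (r + r)) :=
    mul_le_mul_of_nonneg_left (mul_le_mul_of_nonneg_left (by linarith) hK) hC0
  have h5 : ε * r ≤ 1 * r := by gcongr
  nlinarith

/-- **Norm bound.** -/
theorem normT (M : RModel S Γ V k) (K : ℝ) : ∃ (L r₀ : ℝ), 0 ≤ L ∧
    ∀ r : ℝ, r₀ ≤ r → ∀ ε : ℝ, 0 ≤ ε → ε ≤ 1 → ∀ κ : ℝ, 0 ≤ κ →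
    ∀ F F' : Γ → Γ, M.QIm K F F' → ∀ D Dp D₀ : Set S, M.Fat r κ D Dp → D₀ ⊆ D →
    M.μ (D \ D₀) ≤ ENNReal.ofReal ε * M.μ D →
    ∀ T : S → Ht k →L[ℝ] Ht k,
    (∀ x ∈ D₀, ∀ x' ∈ D₀, (M.l (x⁻¹ * x') : ℝ) ≤ r →
      ‖M.f F x' - M.f F x - T x (M.θ (x⁻¹ * x'))‖ ≤ ε * r) →
    M.μ {x | x ∈ D₀ ∧ ¬ ‖T x‖ ≤ L} ≤ ENNReal.ofReal (k * (ε + κ)) * M.μ D := by
  have hC0 := M.C0_nn
  obtain ⟨Lt, hLt, hLt'⟩ : ∃ Lt : ℝ, 1 ≤ Lt ∧ ∀ j : Fin k, (M.l (M.τ (Pi.single j 1)) : ℝ) ≤ Lt := by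
    refine ⟨1 + ∑ j : Fin k, (M.l (M.τ (Pi.single j 1)) : ℝ), ?_, fun j => ?_⟩
    · have : 0 ≤ ∑ j : Fin k, (M.l (M.τ (Pi.single j 1)) : ℝ) :=
        Finset.sum_nonneg fun j _ => Nat.cast_nonneg _
      linarith
    · have := Finset.single_le_sum (f := fun j : Fin k => (M.l (M.τ (Pi.single j 1)) : ℝ))
        (fun i _ => Nat.cast_nonneg _) (Finset.mem_univ j)
      linarith
  by_cases hK : 0 ≤ K
  swap
  · refine ⟨0, 0, le_rfl, fun r hr ε _ _ κ _ F F' h => absurd h.nonneg hK⟩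
  refine ⟨k * (2 * Lt * (2 * M.C0 * K + 1)), max (2 * M.C0 + 1) (2 * Lt), by positivity, ?_⟩
  intro r hr ε hε hε1 κ hκ F F' h D Dp D₀ hD hD₀D hD₀ T hT
  have hr1 : 2 * M.C0 + 1 ≤ r := (le_max_left _ _).trans hr
  have hr2 : 2 * Lt ≤ r := (le_max_right _ _).trans hr
  have hr0 : 0 < r := by linarith
  set s : ℕ := ⌊r / Lt⌋₊ with hs
  have hs1 : (s : ℝ) ≤ r / Lt := Nat.floor_le (by positivity)
  have hs2 : r / (2 * Lt) ≤ s := by
    have h1 := Nat.lt_floor_add_one (r / Lt)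
    have h2 : 2 ≤ r / Lt := by rw [le_div_iff₀ (by positivity)]; linarith
    have h3 : r / (2 * Lt) = r / Lt / 2 := by field_simp
    rw [h3]
    linarith
  have hls : ∀ j : Fin k, (M.l (M.τ (Pi.single j 1) ^ s) : ℝ) ≤ r := by
    intro j
    refine (l_powC _ _).trans ?_
    calc (s : ℝ) * M.l (M.τ (Pi.single j 1)) ≤ (r / Lt) * Lt := by
          have := hLt' j
          gcongr
      _ = r := by field_simp
  have hsub : {x | x ∈ D₀ ∧ ¬ ‖T x‖ ≤ k * (2 * Lt * (2 * M.C0 * K + 1))} ⊆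
      ⋃ j : Fin k, (fun x => x * M.τ (Pi.single j 1) ^ s) ⁻¹' (Dp \ D₀) := by
    rintro x ⟨hx, hbad⟩
    by_contra hcon
    rw [mem_iUnion] at hcon
    push Not at hcon
    refine hbad (opNorm_le_of_basis (by positivity) fun j => ?_)
    have hx' : x * M.τ (Pi.single j 1) ^ s ∈ D₀ := by
      by_contra h1
      exact hcon j ⟨hD.sub x (hD₀D hx) _ (hls j), h1⟩
    have h2 := hT x hx _ hx' (by rw [inv_mul_cancel_left]; exact hls j)
    have h3 := h.f_lipC x (x * M.τ (Pi.single j 1) ^ s)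
    rw [inv_mul_cancel_left] at h2 h3
    have h4 : M.θ (M.τ (Pi.single j 1) ^ s) = (s : ℝ) • (Pi.single j 1 : Ht k) := by
      rw [θ_powC, θ_τC]
      congr 1
      funext i
      by_cases hij : i = j
      · subst hij; simp [ht]
      · simp [ht, Pi.single_eq_of_ne hij]
    rw [h4, map_smul] at h2
    refine num_norm hC0 hK hLt hr1 hs2 hε1 hr0 ?_
    have h5 : ‖(s : ℝ) • T x (Pi.single j 1)‖ ≤ M.C0 * (K * (r + 2 * M.C0 + 1)) + ε * r := by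
      have e : (s : ℝ) • T x (Pi.single j 1) =
          (M.f F (x * M.τ (Pi.single j 1) ^ s) - M.f F x) -
          (M.f F (x * M.τ (Pi.single j 1) ^ s) - M.f F x - (s : ℝ) • T x (Pi.single j 1)) := by
        abel
      rw [e]
      refine (norm_sub_le _ _).trans (add_le_add (h3.trans ?_) h2)
      have := hls j
      gcongr
    rwa [norm_smul, Real.norm_of_nonneg (Nat.cast_nonneg _)] at h5
  have hdiff : M.μ (Dp \ D₀) ≤ ENNReal.ofReal (ε + κ) * M.μ D := by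
    have h3 : Dp \ D₀ ⊆ (D \ D₀) ∪ (Dp \ D) := by
      rintro z ⟨hz, hz'⟩
      by_cases hzD : z ∈ D
      · exact Or.inl ⟨hzD, hz'⟩
      · exact Or.inr ⟨hz, hzD⟩
    refine (measure_mono h3).trans ((measure_union_le _ _).trans ?_)
    rw [ENNReal.ofReal_add hε hκ, add_mul]
    exact add_le_add hD₀ (hD.diff hr0.le hκ)
  refine (measure_mono hsub).trans ((measure_iUnion_le _).trans ?_)
  rw [tsum_fintype]
  refine (Finset.sum_le_sum fun j _ => (mu_mul_le _ _).trans hdiff).trans ?_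
  rw [Finset.sum_const, Finset.card_univ, Fintype.card_fin, nsmul_eq_mul, ← mul_assoc]
  gcongr
  rw [← ENNReal.ofReal_natCast, ← ENNReal.ofReal_mul (Nat.cast_nonneg _)]

end RModel

end Vale.Agent.P188.Z1

end

section

/-!
# P188, Z1: decompositions of fat displacements, second decomposition
-/

set_option linter.all false

open MeasureTheory Set
open Vale.Agent.P188.H530 (hgt hgt_mul)

namespace Vale.Agent.P188.Z1

namespace RModel

variable {S : Type} [Group S] [MeasurableSpace S] {Γ : Type} [Group Γ]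
  {V : Type} [AddCommGroup V] [Module ℝ V] {k : ℕ} (M : RModel S Γ V k)

/-- expansion in the dual basis -/
theorem dual_expand {v : Fin k → (Fin k → ℤ)} {hh : Fin k → Ht k →L[ℝ] ℝ}
    (hd : ∀ i j, hh j (ht (v i)) = if i = j then 1 else 0) (w : Ht k) :
    w = ∑ i, hh i w • ht (v i) := by
  classical
  let A : Ht k →ₗ[ℝ] Ht k := LinearMap.pi fun i => (hh i : Ht k →ₗ[ℝ] ℝ)
  let B : Ht k →ₗ[ℝ] Ht k := Fintype.linearCombination ℝ fun i => ht (v i)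
  have h1 : A * B = 1 := by
    refine LinearMap.ext fun c => ?_
    funext j
    show hh j (Fintype.linearCombination ℝ (fun i => ht (v i)) c) = c j
    rw [Fintype.linearCombination_apply, map_sum]
    simp_rw [map_smul, hd, smul_eq_mul, mul_ite, mul_one, mul_zero]
    simp
  have h2 : B * A = 1 := mul_eq_one_comm.mp h1
  have h3 := congrArg (fun L : Ht k →ₗ[ℝ] Ht k => L w) h2
  have h4 : (B * A) w = ∑ i, hh i w • ht (v i) := by
    show Fintype.linearCombination ℝ (fun i => ht (v i)) (A w) = _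
    rw [Fintype.linearCombination_apply]
    rfl
  simp only [Module.End.one_apply] at h3
  rw [← h4]
  exact h3.symm

theorem CB_list (L : List S) {n : ℕ} (h : ∀ a ∈ L, a ∈ M.CB n) : L.prod ∈ M.CB (L.length * n) := by
  induction L with
  | nil => simpa using M.one_mem_CB _
  | cons a L ih =>
    rw [List.prod_cons, List.length_cons, Nat.succ_mul, add_comm]
    exact M.CB_mul (h a (List.mem_cons_self ..)) (ih fun b hb => h b (List.mem_cons_of_mem _ hb))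

/-- integral parts of the coordinates -/
theorem height_split {v : Fin k → (Fin k → ℤ)} {hh : Fin k → Ht k →L[ℝ] ℝ}
    (hd : ∀ i j, hh j (ht (v i)) = if i = j then 1 else 0) {H B R : ℝ}
    (hH : ∀ i, ‖hh i‖ ≤ H) (hB : ∑ i, ‖ht (v i)‖ ≤ B) (hH0 : 1 ≤ H) (hR : 1 ≤ R)
    {w : Fin k → ℤ} (hw : ∀ i, |(w i : ℝ)| ≤ R) :
    ∃ (n : Fin k → ℤ) (w' : Fin k → ℤ), (∀ i, |(n i : ℝ)| ≤ 2 * H * R) ∧
      (∀ i, |(w' i : ℝ)| ≤ B) ∧ (∀ j, |hh j (ht w')| ≤ 1) ∧ w = (∑ i, n i • v i) + w' := by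
  classical
  set n : Fin k → ℤ := fun i => ⌊hh i (ht w)⌋ with hn
  set w' : Fin k → ℤ := w - ∑ i, n i • v i with hw'
  have hht : ht w' = ht w - ∑ i, (n i : ℝ) • ht (v i) := by
    funext j
    have e1 : w' j = w j - ∑ i, n i * v i j := by
      rw [hw', Pi.sub_apply, Finset.sum_apply]
      rfl
    have e2 : (∑ i, (n i : ℝ) • (ht (v i) : Ht k)) j = ∑ i, (n i : ℝ) * (v i j : ℝ) := by
      rw [Finset.sum_apply]
      rfl
    rw [Pi.sub_apply, e2]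
    show ((w' j : ℤ) : ℝ) = (w j : ℝ) - _
    rw [e1]
    push_cast
    rfl
  have hfr : ∀ j, hh j (ht w') = Int.fract (hh j (ht w)) := by
    intro j
    rw [hht, map_sub, map_sum]
    simp_rw [map_smul, hd, smul_eq_mul, mul_ite, mul_one, mul_zero]
    rw [Finset.sum_ite_eq' Finset.univ j, if_pos (Finset.mem_univ j)]
    exact Int.self_sub_floor _
  refine ⟨n, w', ?_, ?_, ?_, by rw [hw']; abel⟩
  · intro i
    have h1 : |hh i (ht w)| ≤ H * R := by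
      have h2 := (hh i).le_opNorm (ht w)
      rw [Real.norm_eq_abs] at h2
      refine h2.trans (mul_le_mul (hH i) ?_ (norm_nonneg _) (by linarith))
      exact norm_int_le (by linarith) hw
    have h3 : |((⌊hh i (ht w)⌋ : ℤ) : ℝ)| ≤ |hh i (ht w)| + 1 := by
      have h4 := Int.floor_le (hh i (ht w))
      have h5 := Int.lt_floor_add_one (hh i (ht w))
      rw [abs_le]
      constructor
      · have := neg_abs_le (hh i (ht w))
        linarith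
      · have := le_abs_self (hh i (ht w))
        linarith
    refine h3.trans ?_
    nlinarith
  · intro i
    have h1 := dual_expand hd (ht w')
    have h2 : ‖ht w'‖ ≤ B := by
      rw [h1]
      refine (norm_sum_le _ _).trans ((Finset.sum_le_sum fun j _ => ?_).trans hB)
      rw [norm_smul, Real.norm_eq_abs, hfr]
      have h3 : |Int.fract (hh j (ht w))| ≤ 1 := by
        rw [abs_of_nonneg (Int.fract_nonneg _)]
        exact (Int.fract_lt_one _).le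
      exact mul_le_of_le_one_left (norm_nonneg _) h3
    exact (norm_le_pi_norm (ht w') i).trans h2
  · intro j
    rw [hfr, abs_of_nonneg (Int.fract_nonneg _)]
    exact (Int.fract_lt_one _).le

/-- contraction of the letters to bounded length -/
theorem typed_letter {n₁ : ℕ} {t : Fin k → (Fin k → ℤ)} (hn₁ : ∀ i, M.τ (t i) ∈ M.CB n₁) {β : ℝ}
    (hβ : 0 < β) (hgap : ∀ i, ∀ b ∈ M.Φ, β ≤ |b (ht (t i))|) {hh : Fin k → Ht k →L[ℝ] ℝ}
    {R C : ℝ} {ρ : ℕ} (hR : 1 ≤ R) (hC : 2 * M.C0 ≤ C) (hC' : 2 * M.C0 / β + 1 ≤ C)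
    (hCR : C * R ≤ ρ) {ρ₂ : ℕ} (hρ₂ : C * R ≤ ρ₂)
    (h1 : M.C0 * (M.C0 * 2 ^ M.C0) * (1 + n₁ * (2 * M.C0 / β + 1) * R) ^ M.deg ≤ Real.exp R)
    {Nt : Set S} {j : M.ι} (hj : M.wt j ≠ 0) {x : ℝ}
    (hx : |x| ≤ M.C0 * 2 ^ M.C0 * Real.exp (M.C0 * R)) :
    P188.H882.Typed (fun x => (M.l x : ℝ)) (fun i => M.τ (t i)) (fun j x => hh j (M.θ x))
      ρ ρ₂ C Nt (M.ex (x • M.X j)) := by
  have hC0 := M.one_le_C0
  have hk : 0 < k := by
    rcases Nat.eq_zero_or_pos k with h | h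
    · exfalso
      subst h
      apply hj
      ext w
      have : w = 0 := Subsingleton.elim _ _
      rw [this, map_zero, map_zero]
    · exact h
  have hΦ : M.wt j ∈ M.Φ := (M.wt_mem j).resolve_right hj
  obtain ⟨i, -⟩ : ∃ i : Fin k, True := ⟨⟨0, hk⟩, trivial⟩
  obtain ⟨σ, hσ, hσ'⟩ := exists_sign (M.wt j (ht (t i)))
  set m : ℕ := ⌈2 * M.C0 / β * R⌉₊ with hm
  have hm1 : 2 * M.C0 / β * R ≤ m := Nat.le_ceil _
  have hm2 : (m : ℝ) ≤ (2 * M.C0 / β + 1) * R := by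
    have := (Nat.ceil_lt_add_one (show 0 ≤ 2 * M.C0 / β * R by positivity)).le
    rw [hm]
    linarith
  have hm3 : 2 * M.C0 * R ≤ β * m := by
    have := mul_le_mul_of_nonneg_left hm1 hβ.le
    calc 2 * M.C0 * R = β * (2 * M.C0 / β * R) := by field_simp
      _ ≤ _ := this
  have hmC : (m : ℝ) ≤ C * R := hm2.trans (mul_le_mul_of_nonneg_right hC' (by linarith))
  have hσm : |σ * (m : ℤ)| = m := by
    rcases hσ with rfl | rfl <;> simp
  refine Or.inr (Or.inl ⟨fun j => by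
    show hh j (M.θ _) = 0
    rw [M.θ_ex, map_zero], i, σ * (m : ℤ), ?_, ?_, ?_⟩)
  · rw [hσm]
    exact_mod_cast hmC.trans hCR
  · rw [hσm]
    exact_mod_cast hmC.trans hρ₂
  · show (M.l (M.τ (t i) ^ (-(σ * (m:ℤ))) * M.ex (x • M.X j) * M.τ (t i) ^ (σ * (m:ℤ))) : ℝ) ≤ C
    rw [M.conj_ex]
    have hmem : x • M.X j ∈ M.Vw (M.wt j) := Submodule.smul_mem _ _ (M.X_mem j)
    have h2 := M.contract (hn₁ i) (M.Φ_sub hΦ) hσ (β := β) ((hgap i _ hΦ).trans hσ') m hmem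
    have h2C : (0:ℝ) ≤ 2 ^ M.C0 := by positivity
    have h3 : M.nm (M.Ad (M.τ (t i) ^ (-(σ * (m:ℤ)))) (x • M.X j)) ≤ 1 := by
      refine h2.trans ?_
      rw [M.nm_smul]
      have h3 : |x| * M.nm (M.X j) ≤ M.C0 * 2 ^ M.C0 * Real.exp (M.C0 * R) := by
        refine le_trans ?_ hx
        exact mul_le_of_le_one_right (abs_nonneg x) (M.X_le j)
      have h4 : M.C0 * (1 + (n₁:ℝ) * m) ^ M.deg ≤
          M.C0 * (1 + n₁ * (2 * M.C0 / β + 1) * R) ^ M.deg := by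
        refine mul_le_mul_of_nonneg_left (pow_le_pow_left₀ (by positivity) ?_ _) (by linarith)
        have : (0:ℝ) ≤ n₁ := by positivity
        nlinarith
      have h5 : Real.exp (-(β * m)) ≤ Real.exp (-(2 * M.C0 * R)) :=
        Real.exp_le_exp.mpr (by linarith)
      have h6 : Real.exp R ≤ Real.exp (M.C0 * R) := Real.exp_le_exp.mpr (by nlinarith)
      calc M.C0 * (1 + (n₁:ℝ) * m) ^ M.deg * Real.exp (-(β * m)) * (|x| * M.nm (M.X j))
          ≤ M.C0 * (1 + n₁ * (2 * M.C0 / β + 1) * R) ^ M.deg * Real.exp (-(2 * M.C0 * R)) *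
            (M.C0 * 2 ^ M.C0 * Real.exp (M.C0 * R)) := by
            refine mul_le_mul (mul_le_mul h4 h5 (Real.exp_pos _).le (by positivity)) h3
              (mul_nonneg (abs_nonneg _) (M.nm_nonneg _)) (by positivity)
        _ = (M.C0 * (M.C0 * 2 ^ M.C0) * (1 + n₁ * (2 * M.C0 / β + 1) * R) ^ M.deg) *
            (Real.exp (-(2 * M.C0 * R)) * Real.exp (M.C0 * R)) := by ring
        _ ≤ Real.exp (M.C0 * R) * (Real.exp (-(2 * M.C0 * R)) * Real.exp (M.C0 * R)) :=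
            mul_le_mul_of_nonneg_right (h1.trans h6) (by positivity)
        _ = 1 := by
            rw [← Real.exp_add, ← Real.exp_add, ← Real.exp_zero]
            congr 1; ring
    have h7 := M.met_V (M.Ad (M.τ (t i) ^ (-(σ * (m:ℤ)))) (x • M.X j))
    nlinarith

/-- the list of the second decomposition -/
theorem dec2_list {n₁ : ℕ} {v : Fin k → (Fin k → ℤ)} (hn₁ : ∀ i, M.τ (v i) ∈ M.CB n₁) {β : ℝ}
    (hβ : 0 < β) (hgap : ∀ i, ∀ b ∈ M.Φ, β ≤ |b (ht (v i))|) {hh : Fin k → Ht k →L[ℝ] ℝ}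
    (hd : ∀ i j, hh j (ht (v i)) = if i = j then 1 else 0) {H B CL : ℝ}
    (hH : ∀ i, ‖hh i‖ ≤ H) (hB : ∑ i, ‖ht (v i)‖ ≤ B) (hH0 : 1 ≤ H) (hB0 : 0 ≤ B) (hCL : 1 ≤ CL)
    (hl : ∀ n, ∀ c ∈ M.CB n, (M.l c : ℝ) ≤ CL * n)
    {δ R C : ℝ} {ρ : ℕ} (hδ : 0 < δ) (hR : 1 ≤ R) (hRρ : R ≤ ρ) (hC : 2 * M.C0 ≤ C)
    (hC' : 2 * M.C0 / β + 1 ≤ C) (hC2 : 2 * H ≤ C) (hC3 : 2 * CL * M.C0 * (1 + B) ≤ C)
    (hCR : C * R ≤ ρ) {ρ₂ : ℕ} (hρ₂ : C * R ≤ ρ₂) {K : ℝ}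
    (hK : K = 3 * k * n₁ * H + 2 * M.C0 * (1 + B) + 4 * M.C0)
    (h1 : M.C0 * (M.C0 * 2 ^ M.C0) * (1 + n₁ * (2 * M.C0 / β + 1) * R) ^ M.deg ≤ Real.exp R)
    (h2 : M.C0 * (1 + K * R) ^ M.deg ≤ Real.exp (δ * R))
    {u : S} (hu : u ∈ M.FB δ R) :
    ∃ (L₁ L₂ : List S) (y : V), L₁.length = M.mE ∧ L₂.length = k + 2 ∧ y ∈ M.Vw 0 ∧
      M.nm y ≤ Real.exp (δ * R) ∧ (∀ a ∈ L₁, (M.l a : ℝ) ≤ M.cA * R) ∧
      (∀ a ∈ L₂, (M.l a : ℝ) ≤ (CL * (2 * n₁ * H + n₁) + C + CL * K) * R) ∧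
      (L₁ ++ (M.ex y :: L₂)).prod = u ∧
      ∀ g ∈ L₁ ++ (M.ex y :: L₂),
        P188.H882.Typed (fun x => (M.l x : ℝ)) (fun i => M.τ (v i)) (fun j x => hh j (M.θ x))
          ρ ρ₂ C (M.Nt δ ρ) g := by
  have hC0 := M.one_le_C0
  have hR0 : 0 ≤ R := by linarith
  have hn1 : (0:ℝ) ≤ n₁ := by positivity
  have hk0 : (0:ℝ) ≤ k := by positivity
  have hK0 : 0 ≤ K := by rw [hK]; positivity
  obtain ⟨x, hx, hxn, y, hy, hyn, w, hw, rfl⟩ := hu
  obtain ⟨r, hr, hrx⟩ := M.gen_e x hx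
  have hrb : ∀ t, |r t| ≤ M.C0 * 2 ^ M.C0 * Real.exp (M.C0 * R) := fun t =>
    (hr t).trans (M.gen_bound hR0 hxn)
  have hNt : M.Nt δ R ⊆ M.Nt δ ρ := M.Nt_mono (mul_le_mul_of_nonneg_left hRρ hδ.le)
  obtain ⟨n, w', hnb, hwb, hhb, hwe⟩ := height_split hd hH hB hH0 hR hw
  set L₀ : List S := List.ofFn fun i => M.τ (v i) ^ n i with hL₀
  set z : S := (L₀.prod * M.τ w')⁻¹ * M.τ w with hz
  -- the powers
  set N : ℕ := ⌈2 * H * R⌉₊ with hN
  have hN1 : 2 * H * R ≤ N := Nat.le_ceil _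
  have hN2 : (N : ℝ) ≤ 3 * H * R := by
    have := (Nat.ceil_lt_add_one (show 0 ≤ 2 * H * R by positivity)).le
    rw [hN]
    nlinarith
  have hnN : ∀ i, (n i).natAbs ≤ N := by
    intro i
    have h3 : (((n i).natAbs : ℕ) : ℝ) ≤ N := by
      rw [Nat.cast_natAbs, Int.cast_abs]
      exact (hnb i).trans hN1
    exact_mod_cast h3
  have hpow : ∀ i, M.τ (v i) ^ n i ∈ M.CB (n₁ * N) := fun i =>
    M.CB_mono (Nat.mul_le_mul_left _ (hnN i)) (M.CB_zpow (hn₁ i) (n i))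
  have hL₀CB : L₀.prod ∈ M.CB (k * (n₁ * N)) := by
    have := M.CB_list L₀ (n := n₁ * N) (by
      intro a ha
      rw [hL₀, List.mem_ofFn] at ha
      obtain ⟨i, rfl⟩ := ha
      exact hpow i)
    rwa [hL₀, List.length_ofFn] at this
  obtain ⟨n₂, hn₂, hτ₂⟩ := M.τ_word hB0 hwb
  obtain ⟨n₃, hn₃, hτ₃⟩ := M.τ_word hR0 hw
  have hzCB : z ∈ M.CB ((k * (n₁ * N) + n₂) + n₃) :=
    M.CB_mul (M.CB_inv (M.CB_mul hL₀CB hτ₂)) hτ₃
  have hzK : (((k * (n₁ * N) + n₂) + n₃ : ℕ) : ℝ) ≤ K * R := by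
    push_cast
    have e1 : (k:ℝ) * (n₁ * N) ≤ k * (n₁ * (3 * H * R)) := by gcongr
    have e2 : 2 * M.C0 * (1 + B) ≤ 2 * M.C0 * (1 + B) * R :=
      le_mul_of_one_le_right (by positivity) hR
    have e3 : 2 * M.C0 * (1 + R) ≤ 4 * M.C0 * R := by nlinarith
    rw [hK]
    nlinarith
  have hηz : M.η z = 1 := by
    have e1 : M.η L₀.prod = Multiplicative.ofAdd (∑ i, n i • v i) := by
      rw [map_list_prod, hL₀, List.map_ofFn, List.prod_ofFn, ofAdd_sum]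
      refine Finset.prod_congr rfl fun i _ => ?_
      show M.η (M.τ (v i) ^ n i) = _
      rw [map_zpow, M.η_τ, ofAdd_zsmul]
    rw [hz, map_mul, map_inv, map_mul, e1, M.η_τ, M.η_τ, hwe, ← ofAdd_add, inv_mul_cancel]
  have hzNt : z ∈ M.Nt δ R := M.neutral_word hzCB hηz hzK h2
  have hzl : (M.l z : ℝ) ≤ CL * K * R := by
    refine (hl _ _ hzCB).trans ?_
    calc _ ≤ CL * (K * R) := mul_le_mul_of_nonneg_left hzK (by linarith)
      _ = _ := by ring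
  have hτl : (M.l (M.τ w') : ℝ) ≤ C := (M.len_τ hCL hl hB0 hwb).trans hC3
  refine ⟨List.ofFn fun t => M.ex (r t • M.X (M.jE t)), L₀ ++ [M.τ w', z], y, by simp,
    by simp [hL₀], hy, hyn, ?_, ?_, ?_, ?_⟩
  · intro a ha
    rw [List.mem_ofFn] at ha
    obtain ⟨s, rfl⟩ := ha
    exact M.len_letter (M.jE_ne s) (hrb s) hR0 le_rfl hR
  · intro a ha
    have q1 : 0 ≤ CL * (2 * n₁ * H + n₁) * R := by positivity
    have q2 : 0 ≤ C * R := by
      have : 0 ≤ C := by linarith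
      positivity
    have q3 : 0 ≤ CL * K * R := by positivity
    have ha' : a ∈ L₀ ∨ a = M.τ w' ∨ a = z := by simpa using ha
    rcases ha' with ha | rfl | rfl
    · rw [hL₀, List.mem_ofFn] at ha
      obtain ⟨i, rfl⟩ := ha
      have e1 := hl _ _ (M.CB_zpow (hn₁ i) (n i))
      have e2 : ((n₁ * (n i).natAbs : ℕ) : ℝ) ≤ n₁ * (2 * H * R) := by
        push_cast
        rw [Nat.cast_natAbs, Int.cast_abs]
        exact mul_le_mul_of_nonneg_left (hnb i) hn1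
      have e3 : CL * (n₁ * (2 * H * R)) ≤ CL * (2 * n₁ * H + n₁) * R := by
        have : 0 ≤ CL * n₁ * R := by positivity
        nlinarith
      have e4 := mul_le_mul_of_nonneg_left e2 (by linarith : 0 ≤ CL)
      calc _ ≤ CL * (2 * n₁ * H + n₁) * R := e1.trans (e4.trans e3)
        _ ≤ _ := by linarith
    · refine hτl.trans ?_
      have : C ≤ C * R := le_mul_of_one_le_right (by linarith) hR
      linarith
    · linarith
  · rw [List.prod_append, List.prod_cons, List.prod_append, List.prod_cons, List.prod_singleton,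
      hrx, hz]
    group
  · intro g hg
    have hg' : g ∈ (List.ofFn fun t => M.ex (r t • M.X (M.jE t))) ∨ g = M.ex y ∨ g ∈ L₀ ∨
      g = M.τ w' ∨ g = z := by simpa using hg
    rcases hg' with hg | rfl | hg | rfl | rfl
    · rw [List.mem_ofFn] at hg
      obtain ⟨s, rfl⟩ := hg
      exact M.typed_letter hn₁ hβ hgap hR hC hC' hCR hρ₂ h1 (M.jE_ne s) (hrb s)
    · exact Or.inr (Or.inr (Or.inl ⟨fun j => by
        show hh j (M.θ _) = 0
        rw [M.θ_ex, map_zero], hNt ⟨y, hy, hyn, rfl⟩⟩))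
    · rw [hL₀, List.mem_ofFn] at hg
      obtain ⟨i, rfl⟩ := hg
      have e1 : |(n i : ℝ)| ≤ C * R := (hnb i).trans (mul_le_mul_of_nonneg_right hC2 hR0)
      refine Or.inl ⟨i, n i, ?_, ?_, rfl⟩
      · have := e1.trans hCR
        exact_mod_cast this
      · have := e1.trans hρ₂
        exact_mod_cast this
    · refine Or.inr (Or.inr (Or.inr ⟨hτl, fun j => ?_⟩))
      have e1 : M.θ (M.τ w') = ht w' := M.θ_τ w'
      show |hh j (M.θ (M.τ w'))| ≤ C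
      rw [e1]
      exact (hhb j).trans (by linarith)
    · refine Or.inr (Or.inr (Or.inl ⟨fun j => ?_, hNt hzNt⟩))
      have e1 : M.θ z = 0 := by
        rw [M.θ_of_η (y := 1) (by rw [hηz, map_one]), M.θ_one]
      show hh j (M.θ z) = 0
      rw [e1, map_zero]

theorem typed_mono {t : Fin k → S} {h : Fin k → S → ℝ} {ρ ρ₂ ρ₂' : ℕ} {τ τ' : ℝ} {Nt Nt' : Set S}
    (hρ : ρ₂ ≤ ρ₂') (hτ : τ ≤ τ') (hN : Nt ⊆ Nt') {g : S}
    (hg : P188.H882.Typed (fun x => (M.l x : ℝ)) t h ρ ρ₂ τ Nt g) :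
    P188.H882.Typed (fun x => (M.l x : ℝ)) t h ρ ρ₂' τ' Nt' g := by
  have hρ' : (ρ₂ : ℤ) ≤ ρ₂' := by exact_mod_cast hρ
  rcases hg with ⟨i, n, h1, h2, h3⟩ | ⟨h0, i, m, h1, h2, h3⟩ | ⟨h0, h1⟩ | ⟨h1, h2⟩
  · exact Or.inl ⟨i, n, h1, h2.trans hρ', h3⟩
  · exact Or.inr (Or.inl ⟨h0, i, m, h1, h2.trans hρ', h3.trans hτ⟩)
  · exact Or.inr (Or.inr (Or.inl ⟨h0, hN h1⟩))
  · exact Or.inr (Or.inr (Or.inr ⟨h1.trans hτ, fun j => (h2 j).trans hτ⟩))

/-- **Second decomposition.** -/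
theorem dec2 (v : Fin k → (Fin k → ℤ)) (hv : ∀ i, M.Generic (v i)) (hh : Fin k → Ht k →L[ℝ] ℝ)
    (hd : ∀ i j, hh j (ht (v i)) = if i = j then 1 else 0) :
    ∃ (c : ℕ) (C₁ : ℝ), 1 ≤ C₁ ∧ ∀ C : ℝ, C₁ ≤ C → ∀ d : ℝ, 0 < d → C * d ≤ 1 →
      ∀ δ : ℝ, 0 < δ → δ ≤ d → ∃ ρ₀ : ℕ, ∀ ρ : ℕ, ρ₀ ≤ ρ → ∀ u ∈ M.FB δ (d * ρ),
        ∃ us : List S, us.length ≤ c ∧ us.prod = u ∧
          (∀ a ∈ us, P188.H882.Typed (fun x => (M.l x : ℝ)) (fun i => M.τ (v i))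
            (fun j x => hh j (M.θ x)) ρ ⌈C * (d * ρ)⌉₊ C (M.Nt (C * δ) ρ) a) ∧
          ∀ ws, ws <+: us → ws.prod ∈ M.FB (C * δ) (C * (d * ρ)) := by
  classical
  have hC0 := M.one_le_C0
  obtain ⟨n₁, β, hβ, hn₁, hgap⟩ := M.dirs_const v hv
  obtain ⟨CL, hCL, hl⟩ := M.l_CB
  have hn1 : (0:ℝ) ≤ n₁ := by positivity
  have hk0 : (0:ℝ) ≤ k := by positivity
  have hcA := M.cA_nonneg
  obtain ⟨H, hH1, hH⟩ := exists_top (Finset.univ : Finset (Fin k)) fun i => ‖hh i‖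
  obtain ⟨B, hB⟩ : ∃ B : ℝ, B = ∑ i, ‖(ht (v i) : Ht k)‖ := ⟨_, rfl⟩
  have hB0 : 0 ≤ B := by rw [hB]; exact Finset.sum_nonneg fun i _ => norm_nonneg _
  obtain ⟨K, hK⟩ : ∃ K : ℝ, K = 3 * k * n₁ * H + 2 * M.C0 * (1 + B) + 4 * M.C0 := ⟨_, rfl⟩
  have hK0 : 0 ≤ K := by rw [hK]; positivity
  obtain ⟨Ca, hCa⟩ : ∃ Ca : ℝ, Ca = 2 * M.C0 + (2 * M.C0 / β + 1) + 2 * H +
    2 * CL * M.C0 * (1 + B) := ⟨_, rfl⟩
  have q1 : 0 ≤ 2 * M.C0 / β + 1 := by positivity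
  have q2 : 0 ≤ 2 * CL * M.C0 * (1 + B) := by positivity
  have q3 : 0 ≤ CL * (2 * n₁ * H + n₁) := by positivity
  have q4 : 0 ≤ CL * K := by positivity
  have hCa0 : 1 ≤ Ca := by rw [hCa]; linarith
  obtain ⟨C₂, hC₂, hpre⟩ := M.prefix_fb
    (A := M.cA + (CL * (2 * n₁ * H + n₁) + Ca + CL * K)) (by linarith) (M.mE + k + 2)
  refine ⟨M.mE + (k + 3), max C₂ Ca, le_max_of_le_left hC₂, ?_⟩
  intro C hC d hd0 hCd δ hδ hδd
  have hCC₂ : C₂ ≤ C := (le_max_left _ _).trans hC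
  have hCCa : Ca ≤ C := (le_max_right _ _).trans hC
  have hCpos : 0 < C := by linarith
  have hCad : Ca * d ≤ 1 := (mul_le_mul_of_nonneg_right hCCa hd0.le).trans hCd
  have hd1 : d ≤ 1 := by nlinarith
  have hδC₂ : δ ≤ 1 / C₂ := by
    rw [le_div_iff₀ (by linarith)]
    nlinarith
  obtain ⟨R₀, hpre'⟩ := hpre δ hδ hδC₂
  obtain ⟨R₁, hR₁⟩ := poly_le_exp (M.C0 * (M.C0 * 2 ^ M.C0)) (n₁ * (2 * M.C0 / β + 1))
    (by positivity) M.deg (one_pos : (0:ℝ) < 1)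
  obtain ⟨R₂, hR₂⟩ := poly_le_exp M.C0 K hK0 M.deg hδ
  obtain ⟨ρ₀, hρ₀⟩ := exists_nat_ge (max (max R₀ R₁) (max R₂ 1) / d)
  rw [div_le_iff₀ hd0, mul_comm] at hρ₀
  refine ⟨ρ₀, ?_⟩
  intro ρ hρ u hu
  have hρ' := hρ₀.trans (mul_le_mul_of_nonneg_left (by exact_mod_cast hρ : (ρ₀ : ℝ) ≤ ρ) hd0.le)
  have b0 : R₀ ≤ d * ρ := le_trans (by simp) hρ'
  have b1 : R₁ ≤ d * ρ := le_trans (by simp) hρ'
  have b2 : R₂ ≤ d * ρ := le_trans (by simp) hρ'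
  have b4 : (1:ℝ) ≤ d * ρ := le_trans (by simp) hρ'
  clear hρ' hρ₀
  have hρ0 : (0:ℝ) ≤ ρ := by positivity
  have hRρ : d * ρ ≤ ρ := mul_le_of_le_one_left hρ0 hd1
  have hCaρ : Ca * (d * ρ) ≤ ρ := by
    calc Ca * (d * ρ) = (Ca * d) * ρ := by ring
      _ ≤ 1 * ρ := mul_le_mul_of_nonneg_right hCad hρ0
      _ = ρ := one_mul _
  have h1 := hR₁ (d * ρ) b1
  rw [one_mul] at h1
  obtain ⟨L₁, L₂, y, hL₁, hL₂, hy, hyn, hL₁A, hL₂A, hprod, htyp⟩ := M.dec2_list (v := v) hn₁ hβ hgap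
    hd (fun i => hH i (Finset.mem_univ i)) hB.ge hH1 hB0 hCL hl hδ b4 hRρ
    (C := Ca) (by rw [hCa]; linarith) (by rw [hCa]; linarith) (by rw [hCa]; linarith)
    (by rw [hCa]; linarith) hCaρ (ρ₂ := ⌈Ca * (d * ρ)⌉₊) (Nat.le_ceil _) hK h1 (hR₂ _ b2) hu
  refine ⟨L₁ ++ (M.ex y :: L₂), by simp [hL₁, hL₂], hprod, fun g hg => ?_, fun ws hws => ?_⟩
  · refine M.typed_mono (Nat.ceil_mono (mul_le_mul_of_nonneg_right hCCa (by positivity))) hCCa
      (M.Nt_mono (mul_le_mul_of_nonneg_right ?_ hρ0)) (htyp g hg)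
    exact le_mul_of_one_le_left hδ.le (hCa0.trans hCCa)
  · have hdρ : 0 ≤ d * ρ := by positivity
    have h2 := hpre' (d * ρ) b0 L₁ L₂ y (by omega) (by omega)
      (fun a ha => (hL₁A a ha).trans (mul_le_mul_of_nonneg_right (by linarith) hdρ))
      (fun a ha => (hL₂A a ha).trans (mul_le_mul_of_nonneg_right (by linarith) hdρ))
      hy hyn ws hws 1 (by rw [M.len.one]; push_cast; positivity)
    rw [mul_one] at h2
    exact M.fb_monoD (by positivity) (mul_le_mul_of_nonneg_right hCC₂ hδ.le) (by positivity)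
      (mul_le_mul_of_nonneg_right hCC₂ hdρ) h2

end RModel

end Vale.Agent.P188.Z1

end

section

/-!
# P188, Z1, block COH, part 5: rays
-/

set_option linter.all false

open MeasureTheory Set
open scoped ENNReal
open Agent.P188.H428 (IsLen)
open Vale.Agent.P188.H530 (hgt hgt_mul badSumP meas_bad_le exists_good exists_max_norm)

namespace Vale.Agent.P188.Z1

namespace RModel

variable {S : Type} [Group S] [MeasurableSpace S] {Γ : Type} [Group Γ]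
  {V : Type} [AddCommGroup V] [Module ℝ V] {k : ℕ} {M : RModel S Γ V k}

/-- numerical facts: the increase survives the errors -/
theorem num_ray {r r₁ LV C0 K B η κ₃ ε q fn fi f0 y i e1 : ℝ} (hC0 : 0 ≤ C0) (hK : 0 ≤ K)
    (hB : 0 ≤ B) (hLV : 1 ≤ LV) (hη : 0 < η) (hr₁ : 0 < r₁) (hrr : r = LV * r₁)
    (hκ₃ : κ₃ * (4 * (B * C0 * K * LV + 1)) ≤ η) (hκ₃0 : 0 ≤ κ₃) (hq : q ≤ κ₃ * r₁)
    (hr2 : 4 * (B * C0 * K * (2 * C0 + 1)) ≤ η * r₁)
    (hε : ε * (4 * (B * LV + 1)) ≤ η) (hε0 : 0 ≤ ε)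
    (h1 : f0 + η * r₁ < fn) (h2 : fn - fi ≤ B * (C0 * (K * (q * LV + 2 * C0 + 1))))
    (h3 : fi - f0 - i * y ≤ B * e1) (he1 : e1 ≤ ε * r) (hi : 0 ≤ i) : 0 < y := by
  have a1 : B * (C0 * (K * (q * LV))) ≤ η * r₁ / 4 := by
    have h4 : q * LV ≤ κ₃ * r₁ * LV := by gcongr
    calc B * (C0 * (K * (q * LV))) ≤ B * (C0 * (K * (κ₃ * r₁ * LV))) := by gcongr
      _ = κ₃ * (B * C0 * K * LV) * r₁ := by ring
      _ ≤ η / 4 * r₁ := by
          gcongr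
          nlinarith
      _ = _ := by ring
  have a2 : B * (C0 * (K * (2 * C0 + 1))) ≤ η * r₁ / 4 := by linarith
  have a3 : B * e1 ≤ η * r₁ / 4 := by
    calc B * e1 ≤ B * (ε * r) := by gcongr
      _ = ε * (B * LV) * r₁ := by rw [hrr]; ring
      _ ≤ η / 4 * r₁ := by
          gcongr
          nlinarith
      _ = _ := by ring
  have a4 : B * (C0 * (K * (q * LV + 2 * C0 + 1))) =
      B * (C0 * (K * (q * LV))) + B * (C0 * (K * (2 * C0 + 1))) := by ring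
  have a5 : 0 < η * r₁ := by positivity
  have a6 : 0 < i * y := by linarith
  by_contra hy
  push Not at hy
  have := mul_nonpos_of_nonneg_of_nonpos hi hy
  linarith

open Classical in
/-- At most points `x` of `D`, most points `x * τ v ^ n` are in `D₀`. -/
theorem LinOn.line {K L ε κ r R : ℝ} {F F' : Γ → Γ} {D Dp D₀ : Set S}
    {T : S → Ht k →L[ℝ] Ht k} (h : M.LinOn K L ε κ r R F F' D Dp D₀ T) (hR : 0 ≤ R) (hε : 0 ≤ ε)
    (hκ : 0 ≤ κ) {ε₂ : ℝ} (h1 : ε ≤ ε₂) (h2 : κ ≤ ε₂) (t : S) {N q : ℕ}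
    (ht : N * (M.l t : ℝ) ≤ R) :
    M.μ.real {x ∈ D | q < ((Finset.range (N + 1)).filter fun i => ¬ x * t ^ i ∈ D₀).card} ≤
      4 * ε₂ * (N + 1) / (q + 1) * M.μ.real D := by
  have key := meas_bad_le (μ := M.μ) (G := S) (fun x g => x * g) (D := D) (D₀ := D₀)
    h.fat.meas h.fat.fin (fun _ i => t ^ i) {1} N q (ε := ε₂) (fun u _ i _ => M.mp _)
    ((h.mostR hε).trans (mul_le_mul_of_nonneg_right h1 measureReal_nonneg))
    (fun u _ i hi => (h.fat.move hR hκ (by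
      refine (l_powC _ _).trans (le_trans ?_ ht)
      have : (i : ℝ) ≤ N := by exact_mod_cast hi
      gcongr)).trans (mul_le_mul_of_nonneg_right h2 measureReal_nonneg))
    (Finset.singleton_nonempty _)
  refine (measureReal_mono ?_ (ne_top_of_le_ne_top h.fat.fin
    (measure_mono (Set.sep_subset _ _)))).trans key
  rintro x ⟨hx, hq⟩
  refine ⟨hx, ?_⟩
  simp only [Finset.card_singleton, mul_one, badSumP, Finset.sum_singleton]
  have : q + 1 ≤ ((Finset.range (N + 1)).filter fun i => ¬ x * t ^ i ∈ D₀).card := hq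
  rcases Nat.eq_zero_or_pos q with h0 | h0 <;> omega

open Classical in
/-- A good point: the increase of `b ∘ f` along `t ^ n` gives `0 < b (T x θ t)`. -/
theorem LinOn.good_ray {K L ε κ r R : ℝ} {F F' : Γ → Γ} {D Dp D₀ : Set S}
    {T : S → Ht k →L[ℝ] Ht k} (h : M.LinOn K L ε κ r R F F' D Dp D₀ T)
    {b : Ht k →L[ℝ] ℝ} {B LV η r₁ κ₃ : ℝ} (hB : ‖b‖ ≤ B) {t : S} (hLV1 : 1 ≤ LV)
    (hLV : (M.l t : ℝ) ≤ LV)
    (hη : 0 < η) (hr₁ : 0 < r₁) (hrr : r = LV * r₁)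
    (hκ₃ : κ₃ * (4 * (B * M.C0 * K * LV + 1)) ≤ η) (hκ₃0 : 0 ≤ κ₃)
    (hr2 : 4 * (B * M.C0 * K * (2 * M.C0 + 1)) ≤ η * r₁)
    (hε : ε * (4 * (B * LV + 1)) ≤ η) (hε0 : 0 ≤ ε) {N q : ℕ} (hN : (N : ℝ) ≤ r₁) (hqN : q ≤ N)
    (hq : (q : ℝ) ≤ κ₃ * r₁) {x : S} (hx : x ∈ D₀)
    (hcard : ((Finset.range (N + 1)).filter fun i => ¬ x * t ^ i ∈ D₀).card ≤ q)
    {n : ℕ} (hn : n ≤ N) (hinc : b (M.f F x) + η * r₁ < b (M.f F (x * t ^ n))) :
    0 < b (T x (M.θ t)) := by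
  have hC0 := M.C0_nn
  have hK := h.qi.nonneg
  have hB0 : 0 ≤ B := (norm_nonneg _).trans hB
  obtain ⟨i, hi, hgd, hij, hji⟩ := exists_good (fun i => ¬ x * t ^ i ∈ D₀) hqN hcard n hn
  have hgd' : x * t ^ i ∈ D₀ := by
    by_contra hcon
    exact hgd hcon
  have hli : (M.l (t ^ i) : ℝ) ≤ r := by
    refine (l_powC _ _).trans ?_
    have h1 : (i : ℝ) ≤ N := by exact_mod_cast hi
    calc (i : ℝ) * M.l t ≤ r₁ * LV := by
          have : (i : ℝ) ≤ r₁ := h1.trans hN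
          gcongr
      _ = r := by rw [hrr]; ring
  have hl := (h.lin x hx _ hgd' (by rw [inv_mul_cancel_left]; exact hli)).1
  rw [inv_mul_cancel_left, θ_powC, map_smul] at hl
  -- the difference between `n` and `i`
  have hd : ‖M.f F (x * t ^ n) - M.f F (x * t ^ i)‖ ≤
      M.C0 * (K * (q * LV + 2 * M.C0 + 1)) := by
    have hlip := h.qi.f_lipC (x * t ^ i) (x * t ^ n)
    refine hlip.trans ?_
    have h3 : (M.l ((x * t ^ i)⁻¹ * (x * t ^ n)) : ℝ) ≤ q * LV := by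
      rcases le_total i n with hin | hin
      · obtain ⟨d, rfl⟩ := Nat.exists_eq_add_of_le hin
        have e : (x * t ^ i)⁻¹ * (x * t ^ (i + d)) = t ^ d := by
          rw [pow_add]; group
        rw [e]
        refine (l_powC _ _).trans ?_
        have : (d : ℝ) ≤ q := by exact_mod_cast (by omega : d ≤ q)
        gcongr
      · obtain ⟨d, rfl⟩ := Nat.exists_eq_add_of_le hin
        have e : (x * t ^ (n + d))⁻¹ * (x * t ^ n) = (t ^ d)⁻¹ := by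
          rw [pow_add]; group
        rw [e, M.len.inv]
        refine (l_powC _ _).trans ?_
        have : (d : ℝ) ≤ q := by exact_mod_cast (by omega : d ≤ q)
        gcongr
    gcongr
  have h4 : b (M.f F (x * t ^ n)) - b (M.f F (x * t ^ i)) ≤
      B * (M.C0 * (K * (q * LV + 2 * M.C0 + 1))) := by
    rw [← map_sub]
    refine (le_abs_self _).trans ?_
    rw [← Real.norm_eq_abs]
    exact (b.le_opNorm _).trans (mul_le_mul hB hd (norm_nonneg _) hB0)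
  have h5 : b (M.f F (x * t ^ i)) - b (M.f F x) - i * b (T x (M.θ t)) ≤
      B * ‖M.f F (x * t ^ i) - M.f F x - (i : ℝ) • T x (M.θ t)‖ := by
    have e : b (M.f F (x * t ^ i)) - b (M.f F x) - i * b (T x (M.θ t)) =
        b (M.f F (x * t ^ i) - M.f F x - (i : ℝ) • T x (M.θ t)) := by
      rw [map_sub, map_sub, map_smul, smul_eq_mul]
    rw [e]
    refine (le_abs_self _).trans ?_
    rw [← Real.norm_eq_abs]
    exact (b.le_opNorm _).trans (mul_le_mul_of_nonneg_right hB (norm_nonneg _))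
  exact num_ray hC0 hK hB0 hLV1 hη hr₁ hrr hκ₃ hκ₃0 hq hr2 hε hε0 hinc h4 h5 hl
    (Nat.cast_nonneg i)

/-- the constant `κ₃` and the number of steps -/
theorem num_count {r₁ κ₃ ε₂ κ' c : ℝ} (hr₁ : 2 ≤ r₁) (hκ₃ : 0 < κ₃)
    (hε₂ : 0 ≤ ε₂) (hc : 0 ≤ c) (h : ε₂ * (16 * (c + 1)) ≤ κ' * κ₃) :
    c * (4 * ε₂ * ((⌊r₁⌋₊ : ℝ) + 1) / ((⌊κ₃ * ⌊r₁⌋₊⌋₊ : ℝ) + 1)) ≤ κ' / 2 := by
  have h1 := Nat.lt_floor_add_one (κ₃ * (⌊r₁⌋₊ : ℝ))
  have h2 : (1 : ℝ) ≤ (⌊r₁⌋₊ : ℝ) := by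
    have : 1 ≤ ⌊r₁⌋₊ := Nat.floor_pos.mpr (by linarith)
    exact_mod_cast this
  have h3 : 0 < κ₃ * (⌊r₁⌋₊ : ℝ) := by positivity
  have h4 : 4 * ε₂ * ((⌊r₁⌋₊ : ℝ) + 1) / ((⌊κ₃ * ⌊r₁⌋₊⌋₊ : ℝ) + 1) ≤ 8 * ε₂ / κ₃ := by
    rw [div_le_div_iff₀ (by positivity) hκ₃]
    calc 4 * ε₂ * ((⌊r₁⌋₊ : ℝ) + 1) * κ₃ ≤ 4 * ε₂ * ((⌊r₁⌋₊ : ℝ) + ⌊r₁⌋₊) * κ₃ := by gcongr
      _ = 8 * ε₂ * (κ₃ * ⌊r₁⌋₊) := by ring
      _ ≤ 8 * ε₂ * ((⌊κ₃ * ⌊r₁⌋₊⌋₊ : ℝ) + 1) := by gcongr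
  calc c * (4 * ε₂ * ((⌊r₁⌋₊ : ℝ) + 1) / ((⌊κ₃ * ⌊r₁⌋₊⌋₊ : ℝ) + 1)) ≤ c * (8 * ε₂ / κ₃) := by
        gcongr
    _ ≤ κ' / 2 := by
        rw [mul_div_assoc', div_le_div_iff₀ hκ₃ (by norm_num)]
        nlinarith

theorem exists_exp_small {c κ' : ℝ} (A : ℝ) (hc : 0 < c) (hκ' : 0 < κ') :
    ∃ r₀ : ℝ, ∀ r : ℝ, r₀ ≤ r → A * Real.exp (-(c * r)) ≤ κ' := by
  have h1 : Filter.Tendsto (fun r : ℝ => A * Real.exp (-(c * r))) Filter.atTop (nhds (A * 0)) := by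
    refine Filter.Tendsto.const_mul A ?_
    refine Real.tendsto_exp_atBot.comp ?_
    exact Filter.tendsto_neg_atTop_atBot.comp (Filter.tendsto_id.const_mul_atTop hc)
  rw [mul_zero] at h1
  obtain ⟨r₀, hr₀⟩ := (h1.eventually (ge_mem_nhds hκ')).exists_forall_of_atTop
  exact ⟨r₀, hr₀⟩

end RModel

end Vale.Agent.P188.Z1

end
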