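import Vale.Agent.P188.R.G089
import Vale.Agent.P188.R.G078
import Vale.Agent.P188.R.G009

section

/-!
# P188, Z1, block STRAIGHT, part C3: margins
-/

set_option linter.all false

open MeasureTheory Set
open scoped ENNReal
open Vale.P188.H654

namespace Vale.Agent.P188.Z1

/-- final estimate for the measures -/
theorem ln_fin {pc fc NG ND : ℕ} {n Mn J : ℕ} {Q ε₁ ε t : ℝ} {X : ℝ≥0∞} (hQ : 0 ≤ Q)
    (hε₁ : 0 ≤ ε₁) (ht : 0 ≤ t) (hMn : 0 < Mn) (hn : (n : ℝ) ≤ Q * Mn)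
    (h1 : (pc * (NG * ND * (1 + Q)) : ℝ) * ε₁ ≤ ε / 2)
    (h2 : (pc * fc * (J + 1) : ℝ) * t ≤ ε / 2) :
    (pc : ℕ) * (((NG : ℕ) * ((ND : ℕ) * (ENNReal.ofReal ε₁ * X))) +
          fc * ((J + 1 : ℕ) * (ENNReal.ofReal t * X)) +
          n * ((NG : ℕ) * ((ND : ℕ) * (ENNReal.ofReal ε₁ * X))) / Mn) ≤ ENNReal.ofReal ε * X := by
  have hMn0 : (0 : ℝ) < Mn := by exact_mod_cast hMn
  have e1 : ((NG : ℕ) * ((ND : ℕ) * (ENNReal.ofReal ε₁ * X)) : ℝ≥0∞) =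
      ENNReal.ofReal (NG * ND * ε₁) * X := by
    rw [ENNReal.ofReal_mul (by positivity), ENNReal.ofReal_mul (by positivity),
      ENNReal.ofReal_natCast, ENNReal.ofReal_natCast]
    ring
  have e2 : (fc * ((J + 1 : ℕ) * (ENNReal.ofReal t * X)) : ℝ≥0∞) =
      ENNReal.ofReal (fc * (J + 1) * t) * X := by
    rw [ENNReal.ofReal_mul (by positivity), ENNReal.ofReal_mul (by positivity),
      ENNReal.ofReal_natCast]
    have : ENNReal.ofReal ((J : ℝ) + 1) = (J + 1 : ℕ) := by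
      rw [← ENNReal.ofReal_natCast]; push_cast; rfl
    rw [this]
    ring
  have e3 : (n * ((NG : ℕ) * ((ND : ℕ) * (ENNReal.ofReal ε₁ * X))) / Mn : ℝ≥0∞) ≤
      ENNReal.ofReal (Q * (NG * ND * ε₁)) * X := by
    rw [e1, ENNReal.div_le_iff_le_mul (Or.inl (by exact_mod_cast hMn.ne'))
      (Or.inl (ENNReal.natCast_ne_top _))]
    have h3 : (n : ℝ≥0∞) * (ENNReal.ofReal (NG * ND * ε₁) * X) =
        ENNReal.ofReal (n * (NG * ND * ε₁)) * X := by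
      rw [ENNReal.ofReal_mul (Nat.cast_nonneg _), ENNReal.ofReal_natCast]; ring
    have h4 : ENNReal.ofReal (Q * (NG * ND * ε₁)) * X * (Mn : ℝ≥0∞) =
        ENNReal.ofReal (Q * (NG * ND * ε₁) * Mn) * X := by
      rw [ENNReal.ofReal_mul (p := Q * (NG * ND * ε₁)) (q := (Mn : ℝ)) (by positivity),
        ENNReal.ofReal_natCast]; ring
    rw [h3, h4]
    refine mul_le_mul_left (ENNReal.ofReal_le_ofReal ?_) _
    have := mul_le_mul_of_nonneg_right hn (by positivity : (0:ℝ) ≤ NG * ND * ε₁)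
    linarith
  rw [e1, e2]
  calc (pc : ℕ) * (ENNReal.ofReal (NG * ND * ε₁) * X + ENNReal.ofReal (fc * (J + 1) * t) * X +
        n * (ENNReal.ofReal (NG * ND * ε₁) * X) / Mn)
      ≤ (pc : ℕ) * (ENNReal.ofReal (NG * ND * ε₁) * X + ENNReal.ofReal (fc * (J + 1) * t) * X +
        ENNReal.ofReal (Q * (NG * ND * ε₁)) * X) := by
        rw [e1] at e3
        exact mul_le_mul_right (add_le_add le_rfl e3) _
    _ = ENNReal.ofReal (pc * (NG * ND * ε₁ + fc * (J + 1) * t + Q * (NG * ND * ε₁))) * X := by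
        obtain ⟨a, ha⟩ : ∃ a : ℝ, a = NG * ND * ε₁ := ⟨_, rfl⟩
        obtain ⟨b, hb⟩ : ∃ b : ℝ, b = fc * (J + 1) * t := ⟨_, rfl⟩
        have ha0 : 0 ≤ a := by rw [ha]; positivity
        have hb0 : 0 ≤ b := by rw [hb]; positivity
        rw [← ha, ← hb, ENNReal.ofReal_mul (Nat.cast_nonneg _),
          ENNReal.ofReal_add (by positivity) (by positivity),
          ENNReal.ofReal_add ha0 hb0, ENNReal.ofReal_natCast]
        ring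
    _ ≤ ENNReal.ofReal ε * X := by
        refine mul_le_mul_left (ENNReal.ofReal_le_ofReal ?_) _
        linarith

theorem ln_ne {S : Type} [MeasurableSpace S] {μ : Measure S} {D D₀ : Set S} (h0 : μ D ≠ 0)
    (h1 : μ D ≠ ⊤) {ε : ℝ} (hε : ε ≤ 1 / 2) (h : μ (D \ D₀) ≤ ENNReal.ofReal ε * μ D) :
    D₀.Nonempty := by
  by_contra hcon
  rw [Set.not_nonempty_iff_eq_empty] at hcon
  rw [hcon, sdiff_empty] at h
  have h1' : ENNReal.ofReal ε ≤ 2⁻¹ := by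
    refine (ENNReal.ofReal_le_ofReal hε).trans (le_of_eq ?_)
    rw [one_div, ENNReal.ofReal_inv_of_pos two_pos]
    norm_num
  have h2 : μ D ≤ 2⁻¹ * μ D := h.trans (mul_le_mul_left h1' _)
  have h3 : 2⁻¹ * μ D < μ D := by
    rw [mul_comm, ← div_eq_mul_inv]
    exact ENNReal.half_lt_self h0 h1
  exact absurd h2 (not_le.2 h3)

/-- the exponentially small part -/
theorem ln_exp_part {pc fc J : ℕ} {κ s ε c' t lm : ℝ} (hκ : 0 < κ) (hs : 0 ≤ s) (hlm : 1 ≤ lm)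
    (ht : t ≤ Real.exp (-(c' * s))) (ht0 : 0 ≤ t) (hJ : 4 * lm * (J : ℝ) ≤ κ * s)
    (h : pc * fc * (κ + 1) * (1 + s) ^ 1 * Real.exp (-(c' * s)) ≤ ε) :
    (pc * fc * (J + 1) : ℝ) * t ≤ ε := by
  have h3 : ((J : ℝ) + 1) ≤ (κ + 1) * (1 + s) := by
    have h4 : 0 ≤ (J : ℝ) := Nat.cast_nonneg _
    have h5 : (J : ℝ) ≤ 4 * lm * (J : ℝ) := le_mul_of_one_le_left h4 (by linarith)
    have h6 : (κ + 1) * (1 + s) = κ * s + κ + s + 1 := by ring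
    linarith
  have h4 : (0 : ℝ) ≤ pc * fc := by positivity
  calc (pc * fc * ((J : ℝ) + 1) : ℝ) * t
      ≤ (pc * fc * ((κ + 1) * (1 + s))) * Real.exp (-(c' * s)) :=
        mul_le_mul (mul_le_mul_of_nonneg_left h3 h4) ht ht0 (by positivity)
    _ = pc * fc * (κ + 1) * (1 + s) ^ 1 * Real.exp (-(c' * s)) := by ring
    _ ≤ ε := h

/-- the total length of the lines -/
theorem ln_len_part {n ρ₁ lm n₄ h ρ : ℕ} {κ s ca' N₀ : ℝ} (hs : 0 ≤ s) (hN : 0 ≤ N₀)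
    (hca0 : 0 ≤ ca') (hca : ca' * (16 * lm * (N₀ + 1)) ≤ κ) (hρ : (ρ : ℝ) ≤ ca' * s)
    (t4 : ((n₄ * h : ℕ) : ℝ) ≤ 3 * ρ) (q4 : (ρ₁ : ℝ) ≤ ρ)
    (m5 : 4 * (lm : ℝ) * ((n * ρ₁ : ℕ) : ℝ) ≤ κ * s) :
    ((n * ρ₁ * lm + n₄ * h * lm + ρ₁ * lm : ℕ) : ℝ) ≤ κ * s := by
  have hlm0 : (0 : ℝ) ≤ lm := Nat.cast_nonneg _
  have h1 : ((n₄ * h * lm : ℕ) : ℝ) ≤ 3 * ρ * lm := by
    push_cast
    push_cast at t4
    exact mul_le_mul_of_nonneg_right t4 hlm0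
  have h2 : ((ρ₁ * lm : ℕ) : ℝ) ≤ ρ * lm := by
    push_cast
    exact mul_le_mul_of_nonneg_right q4 hlm0
  have h3 : 16 * (ρ * (lm : ℝ)) ≤ κ * s := by
    have h5 := mul_le_mul_of_nonneg_right hca hs
    have h6 := mul_le_mul_of_nonneg_right hρ hlm0
    have h7 : 0 ≤ ca' * (16 * lm * N₀) * s := by positivity
    have h8 : ca' * (16 * lm * (N₀ + 1)) * s =
      ca' * (16 * lm * N₀) * s + 16 * ((ca' * s) * lm) := by ring
    linarith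
  have h4 : 4 * ((n * ρ₁ * lm : ℕ) : ℝ) ≤ κ * s := by
    refine le_trans (le_of_eq ?_) m5
    push_cast; ring
  have h5 : 0 ≤ κ * s := le_trans (by positivity) m5
  push_cast at h1 h2 h4 ⊢
  linarith

/-- the bound of `e1` -/
theorem ln_e1_part {E ε₄ c₀ lm ρ ρ₁ : ℝ} (hE : 0 < E) (hlm : 0 < lm) (hc₀ : 0 < c₀) (hρ : 0 ≤ ρ)
    (h1 : ε₄ ≤ c₀ / (16 * lm * E)) (h2 : ρ ≤ 2 * lm * ρ₁) : 8 * (E * (ε₄ * ρ)) ≤ c₀ * ρ₁ := by
  have h3 : E * ε₄ ≤ c₀ / (16 * lm) := by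
    have h4 := mul_le_mul_of_nonneg_left h1 hE.le
    have h5 : E * (c₀ / (16 * lm * E)) = c₀ / (16 * lm) := by field_simp
    linarith
  have h6 : E * (ε₄ * ρ) ≤ c₀ / (16 * lm) * ρ := by
    rw [← mul_assoc]; exact mul_le_mul_of_nonneg_right h3 hρ
  have h7 : c₀ / (16 * lm) * ρ ≤ c₀ / (16 * lm) * (2 * lm * ρ₁) :=
    mul_le_mul_of_nonneg_left h2 (by positivity)
  have h8 : c₀ / (16 * lm) * (2 * lm * ρ₁) = c₀ * ρ₁ / 8 := by field_simp; ring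
  linarith

/-- the constant `e1` bounds the errors -/
theorem ln_e1_part2 {B ε₁ ε₄ ρ Lk Lf LC lm h E : ℝ} (hB : 0 ≤ B) (h1 : ε₁ ≤ ε₄) (hρ : 0 ≤ ρ)
    (hε₄ : 0 ≤ ε₄) (h2 : Lk ≤ Lf) (hLf : 0 ≤ Lf) (hLC : 0 ≤ LC) (hlm : 0 ≤ lm) (hh0 : 0 ≤ h)
    (hh : h ≤ ε₄ * ρ) (hE : E = B * (1 + (Lf + LC) * lm) + 1) :
    B * (ε₁ * ρ + (Lk + LC) * (lm * h)) ≤ E * (ε₄ * ρ) := by
  have h3 : ε₁ * ρ ≤ ε₄ * ρ := mul_le_mul_of_nonneg_right h1 hρ
  have h4 : (Lk + LC) * (lm * h) ≤ (Lf + LC) * (lm * (ε₄ * ρ)) :=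
    mul_le_mul (by linarith) (mul_le_mul_of_nonneg_left hh hlm) (by positivity) (by positivity)
  have h5 : B * (ε₁ * ρ + (Lk + LC) * (lm * h)) ≤
      B * (ε₄ * ρ + (Lf + LC) * (lm * (ε₄ * ρ))) :=
    mul_le_mul_of_nonneg_left (add_le_add h3 h4) hB
  have h6 : 0 ≤ ε₄ * ρ := by positivity
  rw [hE]
  linarith

namespace RModel

variable {S : Type} [Group S] [MeasurableSpace S] {Γ : Type} [Group Γ]
  {V : Type} [AddCommGroup V] [Module ℝ V] {k : ℕ} (M : RModel S Γ V k)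

theorem ln_goodlab {Φ₁ : Finset (Ht k →L[ℝ] ℝ)} {V₁ : Finset (Fin k → ℤ)} {c₀ L L' : ℝ}
    (hL : L' ≤ L) {T : Ht k →L[ℝ] Ht k} {a : V₁ → Set (Ht k →L[ℝ] ℝ)}
    (h : ‖T‖ ≤ L' ∧ ∀ v : V₁, (∀ b ∈ Φ₁, (b ∈ a v → c₀ ≤ b (T (ht v))) ∧
      (b ∉ a v → b (T (ht v)) ≤ -c₀)) ∧
      (a v).ncard = {b | b ∈ Φ₁ ∧ 0 < b (ht (v : Fin k → ℤ))}.ncard ∧ a v ⊆ ↑Φ₁) :
    GoodLab Φ₁ V₁ c₀ L T a :=
  ⟨fun v => (h.2 v).2.2, h.1.trans hL, fun v b hb hb' => ((h.2 v).1 b hb).1 hb',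
    fun v b hb hb' => ((h.2 v).1 b hb).2 hb', fun v => (h.2 v).2.1⟩

open Classical in
/-- **Margins.** -/
theorem ln_margin (hC : M.COH) (hP : M.PEAK) (p : ℕ) (K : ℝ) (Φ₁ : Finset (Ht k →L[ℝ] ℝ))
    (hRays : M.Rays Φ₁) (V₁ : Finset (Fin k → ℤ)) (hDirs : M.Dirs Φ₁ V₁) (lm : ℕ) (hlm1 : 1 ≤ lm)
    (hlm : ∀ v ∈ V₁, M.l (M.τ v) ≤ lm) :
    ∃ (c₀ L : ℝ), 0 < c₀ ∧ 0 ≤ L ∧ ∀ ε κ ca : ℝ, 0 < ε → 0 < κ → 0 < ca → ∃ κ₂ : ℝ, 0 < κ₂ ∧ κ₂ ≤ 1 ∧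
    ∀ κ₃ δ : ℝ, 0 < κ₃ → 0 < δ → ∃ lam s₀ : ℝ, 0 < lam ∧
    ∃ T : ℕ → (V₁ → Set (Ht k →L[ℝ] ℝ)) → (Ht k →L[ℝ] Ht k),
    ∀ s : ℝ, s₀ ≤ s → ∀ (F F' : Fin p → Γ → Γ) (D Dp : Fin p → Set S)
      (hQ : ∀ α, M.QIm K (F α) (F' α)), (∀ α, M.FFat δ (κ₃ * s) κ₂ (D α) (Dp α)) →
    ∃ ρ : ℕ, lam * s ≤ ρ ∧ (ρ : ℝ) ≤ ca * s ∧ ∀ α, ∃ (σ : S → LnLab Φ₁ V₁) (D₁ : Set S) (J : ℕ),
      (∀ a, MeasurableSet {z | (σ z).1 = a}) ∧
      (∀ z, GoodLab Φ₁ V₁ c₀ L (T ρ (σ z).1) (σ z).1) ∧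
      (∀ x ∈ D₁, ∀ x' ∈ D₁, (M.l (x⁻¹ * x') : ℝ) ≤ ρ →
        ‖M.f (F α) x' - M.f (F α) x - T ρ (σ x).1 (M.θ (x⁻¹ * x'))‖ ≤ ε * ρ) ∧
      κ * s ≤ 8 * lm * J ∧ 4 * lm * (J : ℝ) ≤ κ * s ∧
      M.μ (M.In (κ * s) (D α) \ D₁) ≤ ENNReal.ofReal ε * M.μ (D α) ∧
      M.μ (M.In (κ * s) (D α) \ {z | (lnData (hQ α) Φ₁ V₁).Good σ J (c₀ * J / 2) z}) ≤
        ENNReal.ofReal ε * M.μ (D α) := by
  obtain ⟨c₀, L', hc₀, hC1⟩ := hC p K Φ₁ hRays V₁ hDirs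
  obtain ⟨L, hLdef⟩ : ∃ L, L = max L' 0 := ⟨_, rfl⟩
  have hL0 : 0 ≤ L := by rw [hLdef]; exact le_max_right _ _
  have hLL : L' ≤ L := by rw [hLdef]; exact le_max_left _ _
  refine ⟨c₀, L, hc₀, hL0, ?_⟩
  intro ε κ ca hε hκ hca
  have hC0 := M.ln_C0
  have hlmR : (1 : ℝ) ≤ lm := by exact_mod_cast hlm1
  have hlm0 : (0 : ℝ) < lm := by linarith
  -- PEAK constants
  have hP1 := fun v : V₁ => hP K v (hDirs.generic v v.2)
  choose ηP cP CRP rP hηP hcP hPk using hP1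
  obtain ⟨cp, hcp, hcp'⟩ := ln_pos_lb (Finset.univ : Finset V₁) cP (fun v _ => hcP v)
  obtain ⟨CRp, hCRp, hCRp'⟩ := ln_ub (Finset.univ : Finset V₁) CRP
  obtain ⟨rp, hrp, hrp'⟩ := ln_ub (Finset.univ : Finset V₁) rP
  -- constants
  obtain ⟨B, hB⟩ : ∃ B, B = ∑ b ∈ Φ₁, ‖b‖ := ⟨_, rfl⟩
  have hB0 : 0 ≤ B := by rw [hB]; exact Finset.sum_nonneg fun b _ => norm_nonneg b
  obtain ⟨Lf, hLf⟩ : ∃ Lf, Lf = |M.lnLf K| := ⟨_, rfl⟩
  have hLf0 : 0 ≤ Lf := by rw [hLf]; exact abs_nonneg _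
  have hLfK : M.lnLf K ≤ Lf := by rw [hLf]; exact le_abs_self _
  obtain ⟨E, hE⟩ : ∃ E, E = B * (1 + (Lf + L * M.C0) * lm) + 1 := ⟨_, rfl⟩
  have hE0 : 0 < E := by rw [hE]; positivity
  obtain ⟨L1, hL1⟩ : ∃ L1, L1 = B * (Lf * lm) + 1 := ⟨_, rfl⟩
  have hL10 : 0 < L1 := by rw [hL1]; positivity
  obtain ⟨ε₄, hε₄⟩ : ∃ ε₄, ε₄ = min (c₀ / (16 * lm * E)) 1 := ⟨_, rfl⟩
  have hε₄0 : 0 < ε₄ := by rw [hε₄]; exact lt_min (by positivity) one_pos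
  have hε₄1 : ε₄ ≤ 1 := by rw [hε₄]; exact min_le_right _ _
  have hε₄2 : ε₄ ≤ c₀ / (16 * lm * E) := by rw [hε₄]; exact min_le_left _ _
  obtain ⟨n₄, hn₄⟩ : ∃ n₄ : ℕ, n₄ = ⌈2 / ε₄⌉₊ := ⟨_, rfl⟩
  obtain ⟨NG, hNG⟩ : ∃ NG : ℕ, NG = 1 + V₁.card * (2 * n₄ + 1) := ⟨_, rfl⟩
  obtain ⟨ND, hND⟩ : ∃ ND : ℕ, ND = 1 + V₁.card := ⟨_, rfl⟩
  obtain ⟨pc, hpc⟩ : ∃ pc : ℕ, pc = Fintype.card (V₁ × Bool) := ⟨_, rfl⟩
  obtain ⟨Q, hQd⟩ : ∃ Q, Q = 8 * (L1 + c₀) / c₀ := ⟨_, rfl⟩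
  have hQ0 : 0 ≤ Q := by rw [hQd]; positivity
  obtain ⟨P, hPd⟩ : ∃ P : ℝ, P = pc * (NG * ND * (1 + Q)) + ND + 1 := ⟨_, rfl⟩
  have hP0 : 0 < P := by rw [hPd]; positivity
  obtain ⟨ε₁, hε₁⟩ : ∃ ε₁, ε₁ = min (min ε₄ ε) (min (ε / (2 * P)) (1 / 2)) := ⟨_, rfl⟩
  have hε₁0 : 0 < ε₁ := by
    rw [hε₁]; exact lt_min (lt_min hε₄0 hε) (lt_min (by positivity) (by norm_num))
  have hε₁4 : ε₁ ≤ ε₄ := by rw [hε₁]; exact (min_le_left _ _).trans (min_le_left _ _)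
  have hε₁ε : ε₁ ≤ ε := by rw [hε₁]; exact (min_le_left _ _).trans (min_le_right _ _)
  have hε₁P : ε₁ ≤ ε / (2 * P) := by rw [hε₁]; exact (min_le_right _ _).trans (min_le_left _ _)
  have hε₁2 : ε₁ ≤ 1 / 2 := by rw [hε₁]; exact (min_le_right _ _).trans (min_le_right _ _)
  have hPε : P * ε₁ ≤ ε / 2 := by
    rw [le_div_iff₀ (by positivity)] at hε₁P
    linarith
  obtain ⟨κC, lamC, CRC, hκC, hlamC, hlamC1, hC2⟩ := hC1 ε₁ hε₁0
  refine ⟨min κC 1, lt_min hκC one_pos, min_le_right _ _, ?_⟩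
  intro κ₃ δ hκ₃ hδ
  obtain ⟨δ', a₀, hδ', hδ'δ, T, hC3⟩ := hC2 δ hδ
  obtain ⟨N₀, hN₀⟩ : ∃ N₀, N₀ = 4 * (L1 + c₀) / c₀ + 2 := ⟨_, rfl⟩
  have hN₀0 : 0 < N₀ := by rw [hN₀]; positivity
  obtain ⟨CC, hCC⟩ : ∃ CC, CC = max CRC 1 := ⟨_, rfl⟩
  have hCC0 : 0 < CC := by rw [hCC]; exact lt_of_lt_of_le one_pos (le_max_right _ _)
  have hCC1 : CRC ≤ CC := by rw [hCC]; exact le_max_left _ _
  have hCRp0 : 0 < CRp := by linarith
  obtain ⟨ca', hca'⟩ : ∃ ca', ca' = min (min ca (κ₃ / CC))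
    (min (κ₃ * L1 / (c₀ * CRp)) (κ / (16 * lm * (N₀ + 1)))) := ⟨_, rfl⟩
  have hca'0 : 0 < ca' := by
    rw [hca']
    exact lt_min (lt_min hca (by positivity)) (lt_min (by positivity) (by positivity))
  have hca1 : ca' ≤ ca := by rw [hca']; exact (min_le_left _ _).trans (min_le_left _ _)
  have hca2 : CC * ca' ≤ κ₃ := by
    have : ca' ≤ κ₃ / CC := by rw [hca']; exact (min_le_left _ _).trans (min_le_right _ _)
    rw [le_div_iff₀ hCC0] at this; linarith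
  have hca3 : ca' * (c₀ * CRp) ≤ κ₃ * L1 := by
    have : ca' ≤ κ₃ * L1 / (c₀ * CRp) := by
      rw [hca']; exact (min_le_right _ _).trans (min_le_left _ _)
    rwa [le_div_iff₀ (by positivity)] at this
  have hca4 : ca' * (16 * lm * (N₀ + 1)) ≤ κ := by
    have : ca' ≤ κ / (16 * lm * (N₀ + 1)) := by
      rw [hca']; exact (min_le_right _ _).trans (min_le_right _ _)
    rwa [le_div_iff₀ (by positivity)] at this
  obtain ⟨lam, hlam⟩ : ∃ lam, lam = lamC * ca' := ⟨_, rfl⟩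
  have hlam0 : 0 < lam := by rw [hlam]; positivity
  obtain ⟨c', hc'⟩ : ∃ c', c' = cp * (c₀ * lam / (4 * lm * L1)) := ⟨_, rfl⟩
  have hc'0 : 0 < c' := by rw [hc']; positivity
  obtain ⟨s1, hs1, hs1'⟩ := ln_poly_exp (pc * Φ₁.card * (κ + 1)) c' (ε / 2) 1 hc'0 (by positivity)
  obtain ⟨W, hW⟩ : ∃ W, W = 2 * lm + 2 / ε₄ + 16 * lm * L1 / c₀ + rp * (4 * lm * L1 / c₀) :=
    ⟨_, rfl⟩
  refine ⟨lam, max 1 (max s1 (max (|a₀| / ca') (W / lam))), hlam0, T, ?_⟩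
  intro s hs F F' D Dp hQ hF
  have hs1s : s1 ≤ s := (le_max_left _ _).trans ((le_max_right _ _).trans hs)
  have hs11 : 1 ≤ s := (le_max_left _ _).trans hs
  have hsa : |a₀| ≤ ca' * s := by
    have : |a₀| / ca' ≤ s :=
      (le_max_left _ _).trans ((le_max_right _ _).trans ((le_max_right _ _).trans hs))
    rw [div_le_iff₀ hca'0] at this; linarith
  have hsW : W ≤ lam * s := by
    have : W / lam ≤ s :=
      (le_max_right _ _).trans ((le_max_right _ _).trans ((le_max_right _ _).trans hs))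
    rw [div_le_iff₀ hlam0] at this; linarith
  have hs0 : 0 < s := by linarith
  obtain ⟨ρ, hρ1, hρ2, hα⟩ := hC3 (ca' * s) ((le_abs_self _).trans hsa) F F' D Dp hQ (by
    intro α
    have h1 : CRC * (ca' * s) ≤ κ₃ * s := by
      have h2 : CRC * ca' ≤ κ₃ := (mul_le_mul_of_nonneg_right hCC1 hca'0.le).trans hca2
      have := mul_le_mul_of_nonneg_right h2 hs0.le
      linarith
    exact (hF α).mono h1 (mul_le_mul_of_nonneg_left h1 hδ.le) (min_le_left _ _))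
  have hρlam : lam * s ≤ ρ := by rw [hlam]; linarith
  have hρca : (ρ : ℝ) ≤ ca' * s := hρ2
  refine ⟨ρ, hρlam, hρca.trans (mul_le_mul_of_nonneg_right hca1 hs0.le), fun α => ?_⟩
  obtain ⟨D₀, σ₀, hD₀D, hD₀m, hD₀μ, hx⟩ := hα α
  have hWρ : W ≤ ρ := hsW.trans hρlam
  have w2 : 0 ≤ 2 / ε₄ := by positivity
  have w3 : 0 ≤ 16 * lm * L1 / c₀ := by positivity
  have w4 : 0 ≤ rp * (4 * lm * L1 / c₀) := by positivity
  have hρ0 : (0 : ℝ) < ρ := by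
    have : 2 * (lm : ℝ) ≤ ρ := by linarith
    linarith
  have hgood : ∀ x ∈ D₀, GoodLab Φ₁ V₁ c₀ L (T ρ (σ₀ x)) (σ₀ x) := fun x hx0 =>
    ln_goodlab hLL (hx x hx0).1
  have hlin : ∀ x ∈ D₀, ∀ x' ∈ D₀, (M.l (x⁻¹ * x') : ℝ) ≤ ρ →
      ‖M.f (F α) x' - M.f (F α) x - T ρ (σ₀ x) (M.θ (x⁻¹ * x'))‖ ≤ ε₁ * ρ ∧ σ₀ x' = σ₀ x :=
    fun x hx0 x' hx0' hl => (hx x hx0).2 x' hx0' (Or.inl hl)
  have hne : D₀.Nonempty := ln_ne (hF α).pos (hF α).fin hε₁2 hD₀μ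
  obtain ⟨ρ₁, q1, q2, q3, q4⟩ := ln_ar1 (ρ := ρ) hlm1 (by linarith)
  obtain ⟨h, t1, t2, t3, t4⟩ := ln_ar2 (ρ := ρ) (ρ₁ := ρ₁) hε₄0 hε₄1 (by
    have h1 : 2 / ε₄ ≤ ρ := by linarith
    rw [div_le_iff₀ hε₄0] at h1; linarith) q4
  obtain ⟨e1, he1⟩ : ∃ e1, e1 = E * (ε₄ * ρ) := ⟨_, rfl⟩
  have he10 : 0 ≤ e1 := by rw [he1]; positivity
  have he18 : 8 * e1 ≤ c₀ * ρ₁ := by
    rw [he1]; exact ln_e1_part hE0 hlm0 hc₀ hρ0.le hε₄2 q2
  obtain ⟨r, r1, r2, r3⟩ := ln_ar3 (x := c₀ * ρ₁) (y := c₀ * ρ) (e1 := e1) (L1 := L1) (lm := lm)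
    hlmR hL10 (by have := mul_le_mul_of_nonneg_left q2 hc₀.le; linarith) (by
      have h1 : 16 * lm * L1 / c₀ ≤ ρ := by linarith
      rw [div_le_iff₀ hc₀] at h1; linarith) he18 he10 (mul_le_mul_of_nonneg_left q4 hc₀.le)
  obtain ⟨n, Mn, m1, m2, m3, m4, m5⟩ := ln_ar4 (κs := κ * s) (e1 := e1) (ρ₁ := ρ₁) hc₀ hL10 hlmR
    hN₀ q3 he18 (by
      have h1 := mul_le_mul_of_nonneg_right hca4 hs0.le
      have h2 : 16 * lm * (N₀ + 1) * ρ₁ ≤ 16 * lm * (N₀ + 1) * (ca' * s) :=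
        mul_le_mul_of_nonneg_left (q4.trans hρca) (by positivity)
      linarith)
  -- the length of the lines
  have hR : ((n * ρ₁ * lm + n₄ * h * lm + ρ₁ * lm : ℕ) : ℝ) ≤ κ * s :=
    ln_len_part hs0.le hN₀0.le hca'0.le hca4 hρca (by rw [hn₄]; exact t4) q4 m5
  obtain ⟨t, ht⟩ : ∃ t, t = Real.exp (-(cp * r)) := ⟨_, rfl⟩
  have ht0 : 0 ≤ t := by rw [ht]; positivity
  have hrr : (c₀ * lam / (4 * lm * L1)) * s ≤ r := by
    rw [div_mul_eq_mul_div, div_le_iff₀ (by positivity)]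
    have h1 : c₀ * (lam * s) ≤ c₀ * ρ := mul_le_mul_of_nonneg_left hρlam hc₀.le
    linarith
  obtain ⟨σ, y1, y2, y3, y4, y5⟩ := M.ln_margin1 (hQ α) (T := T ρ) (D := D α) (ρ := ρ) (ρ₁ := ρ₁)
    (h := h) (n₄ := n₄) (lm := lm) (r := r) (n := n) (Mn := Mn) (c₀ := c₀) (L := L) (ε₁ := ε₁)
    (e1 := e1) (L1 := L1) (e₀ := ENNReal.ofReal ε₁ * M.μ (D α))
    (θ := ENNReal.ofReal t * M.μ (D α)) (m := c₀ * ((n * ρ₁ : ℕ) : ℝ) / 2) (R := κ * s)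
    hD₀m hne hgood hlin hlm q1 t1 (by rw [hn₄]; exact t3) hc₀ hL0 hε₁0.le
    (by
      rw [← hB, he1]
      exact ln_e1_part2 hB0 hε₁4 hρ0.le hε₄0.le hLfK hLf0 (mul_nonneg hL0 hC0) hlm0.le
        (Nat.cast_nonneg _) t2 hE)
    (by have := mul_pos hc₀ q3; linarith) hL10
    (by
      rw [← hB, hL1]
      have h1 : B * (M.lnLf K * lm) ≤ B * (Lf * lm) :=
        mul_le_mul_of_nonneg_left (mul_le_mul_of_nonneg_right hLfK hlm0.le) hB0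
      linarith) r1 hD₀μ
    (by
      intro b hb v hv
      have h1 := hPk ⟨v, hv⟩ r (by
        have h2 := hrp' ⟨v, hv⟩ (Finset.mem_univ _)
        have h3 : rp * (4 * lm * L1 / c₀) ≤ ρ := by linarith
        rw [mul_div_assoc', div_le_iff₀ hc₀] at h3
        have h4 : rp * (4 * lm * L1) ≤ r * (4 * lm * L1) := by linarith
        have h5 := le_of_mul_le_mul_right h4 (by positivity)
        linarith) (F α) (F' α) (hQ α) b (hRays.sub hb) (D α) (Dp α)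
        ((hF α).toFat.mono (by
          have h2 := hCRp' ⟨v, hv⟩ (Finset.mem_univ _)
          have h3 : CRP ⟨v, hv⟩ * r ≤ CRp * r := mul_le_mul_of_nonneg_right h2 (Nat.cast_nonneg _)
          refine h3.trans ?_
          have h4 : L1 * (CRp * r) ≤ L1 * (κ₃ * s) := by
            have h5 : CRp * (L1 * r) ≤ CRp * (c₀ * (ca' * s)) :=
              mul_le_mul_of_nonneg_left (r3.trans (mul_le_mul_of_nonneg_left hρca hc₀.le)) hCRp0.le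
            have h6 := mul_le_mul_of_nonneg_right hca3 hs0.le
            linarith
          exact le_of_mul_le_mul_left h4 hL10) (min_le_right _ _))
      refine le_trans (measure_mono ?_) (h1.trans (mul_le_mul_left (ENNReal.ofReal_le_ofReal ?_) _))
      · rintro x ⟨hx1, hx2⟩
        refine ⟨hx1, fun i hi => ?_⟩
        have h2 : |i| ≤ (r : ℤ) := by
          have : (|i| : ℝ) ≤ r := hi
          exact_mod_cast this
        have h3 : 0 ≤ ηP ⟨v, hv⟩ * r := mul_nonneg (hηP ⟨v, hv⟩).le (Nat.cast_nonneg _)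
        have := hx2 i h2
        linarith
      · rw [ht]
        refine Real.exp_le_exp.2 (neg_le_neg ?_)
        exact mul_le_mul_of_nonneg_right (hcp' ⟨v, hv⟩ (Finset.mem_univ _)) (Nat.cast_nonneg _))
    m1 m2 hR
  refine ⟨σ, M.lnD1 V₁ ρ₁ D₀, n * ρ₁, y1, y2, ?_, ?_, ?_, ?_, ?_⟩
  · intro x hx x' hx' hl
    exact (y3 x hx x' hx' hl).trans (mul_le_mul_of_nonneg_right hε₁ε hρ0.le)
  · exact m4
  · exact m5
  · refine y4.trans ?_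
    rw [← hND, ← mul_assoc, ← ENNReal.ofReal_natCast ND, ← ENNReal.ofReal_mul (by positivity)]
    refine mul_le_mul_left (ENNReal.ofReal_le_ofReal ?_) _
    have h1 : 0 ≤ (pc * (NG * ND * (1 + Q)) + 1 : ℝ) * ε₁ := by positivity
    have h2 : P * ε₁ = (pc * (NG * ND * (1 + Q)) + 1 : ℝ) * ε₁ + ND * ε₁ := by rw [hPd]; ring
    linarith
  · refine y5.trans ?_
    rw [← hpc, ← hNG, ← hND]
    refine ln_fin (Q := Q) (ε₁ := ε₁) (ε := ε) (t := t) (J := n * ρ₁) hQ0 hε₁0.le ht0 m2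
      (by rw [hQd]; exact m3) ?_ ?_
    · have h1 : 0 ≤ (ND + 1 : ℝ) * ε₁ := by positivity
      have h2 : P * ε₁ = (pc * (NG * ND * (1 + Q)) : ℝ) * ε₁ + (ND + 1 : ℝ) * ε₁ := by
        rw [hPd]; ring
      linarith
    · refine ln_exp_part (c' := c') (lm := lm) hκ hs0.le hlmR ?_ ht0 m5 (hs1' s hs1s)
      rw [ht]
      refine Real.exp_le_exp.2 (neg_le_neg ?_)
      rw [hc', mul_assoc]
      exact mul_le_mul_of_nonneg_left hrr hcp.le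

end RModel

end Vale.Agent.P188.Z1

end

section

/-!
# P188, Z1, block DBOX: general windows
-/

set_option linter.all false

open MeasureTheory Set Filter Topology
open Vale.Agent.P188.H530 (hgt hgt_mul)
open Vale.Agent.P188.H540 (vec LP LP_finite lat_ratio' vec_injective tendsto_LP ball_dbl ball_finite)
open scoped Pointwise ENNReal

namespace Vale.Agent.P188.Z1

namespace DB

variable {S : Type} [Group S] [MeasurableSpace S] {Γ : Type} [Group Γ]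
  {V : Type} [AddCommGroup V] [Module ℝ V] {k : ℕ} {M : RModel S Γ V k}

open RModel

/-- the integral heights of the window `t h` -/
def WnH (M : RModel S Γ V k) (h : (Ht k →L[ℝ] ℝ) → ℝ) (t : ℝ) : Set (Fin k → ℤ) :=
  {w | ∀ b ∈ M.Φ, b (vec w) ≤ t * h b}

/-- the window -/
def PwH (M : RModel S Γ V k) (h : (Ht k →L[ℝ] ℝ) → ℝ) : Set (Ht k) := {x | ∀ b ∈ M.Φ, b x ≤ h b}

theorem exists_bdd (M : RModel S Γ V k) : ∃ C : ℝ, 0 < C ∧ ∀ (x : Ht k) (t : ℝ), 0 ≤ t →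
    (∀ b ∈ M.Φ, b x ≤ t) → ‖x‖ ≤ C * t := by
  obtain ⟨CP, hCP0, hCP⟩ := exists_window_bdd M
  obtain ⟨x₀, hx₀, _, hx₀'⟩ := exists_pos_lt M.Φ en fun b hb => en_pos (M.Φ_ne b hb)
  refine ⟨CP / x₀, by positivity, fun x t ht hx => ?_⟩
  have h1 := hCP x (t / x₀) (by positivity) fun b hb => by
    have h2 := hx₀' b hb
    calc b x ≤ t := hx b hb
      _ = t / x₀ * x₀ := by field_simp
      _ ≤ t / x₀ * en b := mul_le_mul_of_nonneg_left h2.le (by positivity)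
  calc ‖x‖ ≤ CP * (t / x₀) := h1
    _ = CP / x₀ * t := by ring

theorem PwH_convex (h : (Ht k →L[ℝ] ℝ) → ℝ) : Convex ℝ (PwH M h) := by
  have : PwH M h = ⋂ b ∈ M.Φ, {x : Ht k | b x ≤ h b} := by ext x; simp [PwH]
  rw [this]
  exact convex_iInter₂ fun b _ => convex_halfSpace_le b.toLinearMap.isLinear _

theorem PwH_closed (h : (Ht k →L[ℝ] ℝ) → ℝ) : IsClosed (PwH M h) := by
  have : PwH M h = ⋂ b ∈ M.Φ, {x : Ht k | b x ≤ h b} := by ext x; simp [PwH]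
  rw [this]
  exact isClosed_biInter fun b _ => isClosed_le b.continuous continuous_const

theorem PwH_bounded (h : (Ht k →L[ℝ] ℝ) → ℝ) : Bornology.IsBounded (PwH M h) := by
  obtain ⟨C, _, hC⟩ := exists_bdd M
  have h1 : ∃ t : ℝ, 0 ≤ t ∧ ∀ b ∈ M.Φ, h b ≤ t :=
    ⟨∑ b ∈ M.Φ, |h b|, Finset.sum_nonneg fun b _ => abs_nonneg _, fun b hb =>
      (le_abs_self _).trans (Finset.single_le_sum (f := fun b => |h b|)
        (fun b _ => abs_nonneg _) hb)⟩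
  obtain ⟨t, ht, hht⟩ := h1
  rw [isBounded_iff_forall_norm_le]
  exact ⟨C * t, fun x hx => hC x t ht fun b hb => (hx b hb).trans (hht b hb)⟩

theorem PwH_interior {h : (Ht k →L[ℝ] ℝ) → ℝ} (hh : ∀ b ∈ M.Φ, 0 < h b) :
    (0 : Ht k) ∈ interior (PwH M h) := by
  have h1 : IsOpen (⋂ b ∈ M.Φ, {x : Ht k | b x < h b}) :=
    isOpen_biInter_finset fun b _ => isOpen_lt b.continuous continuous_const
  have h2 : (⋂ b ∈ M.Φ, {x : Ht k | b x < h b}) ⊆ PwH M h := by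
    intro x hx b hb
    have := mem_iInter₂.1 hx b hb
    exact le_of_lt this
  refine interior_maximal h2 h1 (mem_iInter₂.2 fun b hb => ?_)
  show b 0 < h b
  rw [map_zero]
  exact hh b hb

theorem WnH_eq (h : (Ht k →L[ℝ] ℝ) → ℝ) {t : ℝ} (ht : 0 < t) : WnH M h t = LP (PwH M h) t := by
  ext w
  simp only [WnH, LP, mem_setOf_eq, mem_smul_set_iff_inv_smul_mem₀ ht.ne', PwH]
  refine forall₂_congr fun b _ => ?_
  rw [map_smul, smul_eq_mul, inv_mul_le_iff₀ ht]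

theorem WnH_finite (h : (Ht k →L[ℝ] ℝ) → ℝ) {t : ℝ} (ht : 0 < t) : (WnH M h t).Finite := by
  rw [WnH_eq h ht]
  exact LP_finite (PwH_bounded h) t

theorem zero_mem_WnH {c : ℝ} (hc : 0 < c) {h : (Ht k →L[ℝ] ℝ) → ℝ} (hh : M.HB c h) {t : ℝ}
    (ht : 0 ≤ t) : (0 : Fin k → ℤ) ∈ WnH M h t := by
  intro b hb
  have : vec (0 : Fin k → ℤ) = 0 := by funext i; simp [vec]
  rw [this, map_zero]
  exact mul_nonneg ht (hc.le.trans (hh b hb).1)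

/-- uniform ratio of the numbers of lattice points -/
theorem WnH_ratio {c ε : ℝ} (hc : 0 < c) (hε : 0 < ε) : ∃ t : ℝ, 1 < t ∧ ∃ s₀ : ℝ, 0 < s₀ ∧
    ∀ s : ℝ, s₀ ≤ s → ∀ h : (Ht k →L[ℝ] ℝ) → ℝ, M.HB c h →
    ((WnH M h (t * s)).ncard : ℝ) ≤ (1 + ε) * (WnH M h s).ncard := by
  classical
  obtain ⟨t₀, ht₀, hrat⟩ := lat_ratio' k hε
  set r : ℝ := Real.sqrt t₀ with hr
  have hr1 : 1 < r := by rw [hr, Real.lt_sqrt (by norm_num)]; simpa using ht₀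
  have hrr : r * r = t₀ := Real.mul_self_sqrt (by linarith)
  obtain ⟨n, hn⟩ := pow_unbounded_of_one_lt (c⁻¹ / c) hr1
  have hn' : c⁻¹ ≤ c * r ^ n := by
    rw [div_lt_iff₀ hc] at hn
    linarith
  -- the finitely many windows
  set hj : (M.Φ → Fin (n + 1)) → (Ht k →L[ℝ] ℝ) → ℝ := fun j b =>
    if hb : b ∈ M.Φ then c * r ^ (j ⟨b, hb⟩ : ℕ) else 1 with hhj
  have hjpos : ∀ j, ∀ b ∈ M.Φ, 0 < hj j b := by
    intro j b hb
    rw [hhj]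
    simp only [dif_pos hb]
    positivity
  have hex : ∀ j, ∃ s₀ : ℝ, 0 < s₀ ∧ ∀ s : ℝ, s₀ ≤ s →
      ((LP (PwH M (hj j)) (t₀ * s)).ncard : ℝ) ≤ (1 + ε) * (LP (PwH M (hj j)) s).ncard := fun j =>
    hrat _ (PwH_convex _) (PwH_bounded _) (PwH_closed _).measurableSet (PwH_interior (hjpos j))
  choose sj hsj hsj' using hex
  obtain ⟨s₀, hs₀⟩ := (Set.finite_range sj).bddAbove
  refine ⟨r, hr1, max s₀ 1, by positivity, fun s hs h hh => ?_⟩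
  have hs1 : 1 ≤ s := (le_max_right _ _).trans hs
  have hs0 : 0 < s := by linarith
  -- the index of `h`
  have hidx : ∀ b : M.Φ, ∃ i : Fin (n + 1), c * r ^ (i : ℕ) ≤ h b ∧ h b ≤ r * (c * r ^ (i : ℕ)) := by
    rintro ⟨b, hb⟩
    obtain ⟨h1, h2⟩ := hh b hb
    set P : ℕ → Prop := fun i => c * r ^ i ≤ h b with hP
    have hP0 : P 0 := by simpa [hP] using h1
    set i := Nat.findGreatest P n with hi
    have hi1 : P i := Nat.findGreatest_spec (m := 0) (Nat.zero_le _) hP0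
    have hi2 : i ≤ n := Nat.findGreatest_le n
    refine ⟨⟨i, by omega⟩, hi1, ?_⟩
    show h b ≤ r * (c * r ^ i)
    by_cases hin : i = n
    · rw [hin]
      have h3 : 0 < c * r ^ n := by positivity
      nlinarith
    · have h4 : ¬ P (i + 1) := Nat.findGreatest_is_greatest (Nat.lt_succ_self _) (by omega)
      have h5 : h b < c * r ^ (i + 1) := not_le.1 h4
      rw [pow_succ] at h5
      nlinarith
  choose j hj1 hj2 using hidx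
  have hjb : ∀ b (hb : b ∈ M.Φ), hj j b = c * r ^ (j ⟨b, hb⟩ : ℕ) := by
    intro b hb
    rw [hhj]
    simp only [dif_pos hb]
  have hsub1 : WnH M h (r * s) ⊆ WnH M (hj j) (t₀ * s) := by
    intro w hw b hb
    refine (hw b hb).trans ?_
    rw [hjb b hb, ← hrr]
    have := hj2 ⟨b, hb⟩
    calc r * s * h b ≤ r * s * (r * (c * r ^ (j ⟨b, hb⟩ : ℕ))) :=
          mul_le_mul_of_nonneg_left this (by positivity)
      _ = _ := by ring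
  have hsub2 : WnH M (hj j) s ⊆ WnH M h s := by
    intro w hw b hb
    refine (hw b hb).trans ?_
    rw [hjb b hb]
    exact mul_le_mul_of_nonneg_left (hj1 ⟨b, hb⟩) hs0.le
  have h6 := hsj' j s ((hs₀ ⟨j, rfl⟩).trans ((le_max_left _ _).trans hs))
  rw [← WnH_eq _ (by positivity), ← WnH_eq _ hs0] at h6
  have h7 : ((WnH M h (r * s)).ncard : ℝ) ≤ (WnH M (hj j) (t₀ * s)).ncard := by
    exact_mod_cast Set.ncard_le_ncard hsub1 (WnH_finite _ (by positivity))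
  have h8 : ((WnH M (hj j) s).ncard : ℝ) ≤ (WnH M h s).ncard := by
    exact_mod_cast Set.ncard_le_ncard hsub2 (WnH_finite _ hs0)
  calc ((WnH M h (r * s)).ncard : ℝ) ≤ (WnH M (hj j) (t₀ * s)).ncard := h7
    _ ≤ (1 + ε) * (WnH M (hj j) s).ncard := h6
    _ ≤ (1 + ε) * (WnH M h s).ncard := mul_le_mul_of_nonneg_left h8 (by linarith)

/-- small elements, general windows -/
theorem small_memH (B : M.NatBox) {c₂ : ℝ} (hc₂ : 0 < c₂) :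
    ∃ C' : ℝ, 1 ≤ C' ∧ ∀ κ κ₁ δ d₁ c : ℝ, 0 < κ → κ < 1 →
    0 < κ₁ → κ₁ ≤ 1 → C' * κ₁ < κ * c₂ → 0 < δ → δ * κ₁ < d₁ → 0 < c →
    ∀ᶠ s : ℝ in atTop, ∀ h : (Ht k →L[ℝ] ℝ) → ℝ, M.HB c₂ h → ∀ w ∈ WnH M h ((1 - κ) * s), ∀ g : S,
      ((M.l g : ℝ) ≤ κ₁ * s ∨ g ∈ M.FB δ (κ₁ * s)) →
      M.τ w * g * (M.sec (M.τ w * g))⁻¹ ∈ B.Bx (fun i => c * M.szh h d₁ s i) := by
  classical
  obtain ⟨CP, hCP0, hCP⟩ := exists_bdd M
  obtain ⟨C', hC'1, hdec⟩ := exists_dec_small M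
  have hC0 := M.one_le_C0
  have hBC := B.one_le
  refine ⟨C', hC'1, ?_⟩
  intro κ κ₁ δ d₁ c hκ hκ1 hκ₁ hκ₁1 hκb hδ hδd hc
  set CQ : ℝ := CP * c₂⁻¹ with hCQ
  have hCQ0 : 0 < CQ := by positivity
  set P1 : ℝ := 4 + 3 * M.C0 * (1 + CQ + M.C0) with hP1
  have hP10 : 0 < P1 := by positivity
  set D : ℕ := B.dg + M.deg with hD
  set K : ℝ := B.C * (1 + M.C0) * P1 ^ D with hK
  have hK0 : 0 < K := by positivity
  set c' : ℝ := c / (B.C * B.C) with hc'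
  have hc'0 : 0 < c' := by positivity
  -- the estimates
  have hevA : ∀ᶠ s : ℝ in atTop, (2 * K / c') * (1 + s) ^ D ≤ Real.exp ((d₁ - δ * κ₁) * s) :=
    ev_poly _ _ (by linarith)
  have hevB : ∀ᶠ s : ℝ in atTop,
      (2 * K * B.C * Real.exp C' / c') * (1 + s) ^ D ≤ Real.exp ((κ * c₂ - C' * κ₁) * s) :=
    ev_poly _ _ (by linarith)
  have hevC : ∀ᶠ s : ℝ in atTop, (1 / c') * (1 + s) ^ 0 ≤ Real.exp (c₂ * s) := ev_poly _ _ hc₂
  filter_upwards [hevA, hevB, hevC, eventually_ge_atTop 1] with s hsA hsB hsC hs1 h hh w hw g hg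
  have hs0 : (0 : ℝ) ≤ s := by linarith
  obtain ⟨v, y, c₀, n, hv, hv', hy, hy', hc₀, hn, hgd, hθg⟩ := hdec κ₁ δ s hκ₁ hκ₁1 hδ hs1 g hg
  -- heights
  have hws : ‖vec w‖ ≤ CQ * s := by
    have h1 := hCP (vec w) (c₂⁻¹ * s) (by positivity) fun b hb => by
      obtain ⟨h3, h4⟩ := hh b hb
      calc b (vec w) ≤ (1 - κ) * s * h b := hw b hb
        _ ≤ 1 * s * c₂⁻¹ := by
            have h5 : 0 ≤ (1 - κ) * s := mul_nonneg (by linarith) hs0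
            have h6 : (1 - κ) * s ≤ 1 * s := mul_le_mul_of_nonneg_right (by linarith) hs0
            exact mul_le_mul h6 h4 (hc₂.le.trans h3) (by linarith)
        _ = c₂⁻¹ * s := by ring
    rw [← mul_assoc] at h1
    exact h1
  have hκ₁s : κ₁ * s ≤ s := by nlinarith
  have hθg' : ‖M.θ g‖ ≤ M.C0 * s :=
    hθg.trans (mul_le_mul_of_nonneg_left hκ₁s (by linarith))
  have hN : 1 + (⌈M.C0 * (1 + ‖vec w‖)⌉₊ : ℝ) + n + ⌈M.C0 * (1 + ‖vec w + M.θ g‖)⌉₊ ≤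
      P1 * (1 + s) :=
    count_le hC0 hCQ0.le hs1 (norm_nonneg _) hws (norm_nonneg _)
      ((norm_add_le _ _).trans (add_le_add hws hθg')) hn
  have hPow : (P1 * (1 + s)) ^ D = P1 ^ D * (1 + s) ^ D := mul_pow _ _ _
  have h1s : 0 ≤ (1 + s) ^ D := by positivity
  have hmain := conj_mem B (w := w) (g := g) (c := c₀) (N := P1 * (1 + s)) hv hv' hy hy' hc₀ hgd hN
    (R := fun i => c' * M.szh h d₁ s i) ?_ ?_
  · have : (fun i => B.C * (B.C * (c' * M.szh h d₁ s i))) = fun i => c * M.szh h d₁ s i := by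
      funext i
      rw [hc']
      field_simp
    rw [this] at hmain
    exact hmain
  · -- neutral letters
    intro i hi
    have hsz : M.szh h d₁ s i = Real.exp (d₁ * s) := by unfold szh; rw [if_pos hi]
    rw [hsz, hPow]
    have := est_neutral (K := K) hK0.le h1s hc'0 (by positivity) hsA
    calc B.C * (1 + M.C0) * (P1 ^ D * (1 + s) ^ D) * (1 + Real.exp (δ * (κ₁ * s)))
        = K * (1 + s) ^ D * (1 + Real.exp (δ * (κ₁ * s))) := by rw [hK]; ring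
      _ ≤ _ := this
  · -- the other letters
    intro i hi
    have hΦ : M.wt i ∈ M.Φ := (M.wt_mem i).resolve_right hi
    obtain ⟨h3, h4⟩ := hh _ hΦ
    have hsz : M.szh h d₁ s i = Real.exp (s * h (M.wt i)) := by unfold szh; rw [if_neg hi]
    rw [hsz]
    refine ⟨?_, ?_⟩
    · rw [pow_zero, mul_one, div_le_iff₀ hc'0] at hsC
      calc (1 : ℝ) ≤ Real.exp (c₂ * s) * c' := hsC
        _ ≤ Real.exp (s * h (M.wt i)) * c' := by
            apply mul_le_mul_of_nonneg_right _ hc'0.le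
            exact Real.exp_le_exp.2 (by nlinarith)
        _ = c' * Real.exp (s * h (M.wt i)) := mul_comm _ _
    · rw [hPow]
      have h5 : (2 * K * B.C * Real.exp C' / c') * (1 + s) ^ D ≤
          Real.exp ((κ * h (M.wt i) - C' * κ₁) * s) := by
        refine hsB.trans (Real.exp_le_exp.2 (mul_le_mul_of_nonneg_right ?_ hs0))
        have : κ * c₂ ≤ κ * h (M.wt i) := mul_le_mul_of_nonneg_left h3 hκ.le
        linarith
      have := est_other (K := K) (BC := B.C) hK0.le (by linarith) h1s hc'0 (by positivity)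
        (hw _ hΦ) h5
      calc B.C * (1 + M.C0) * (P1 ^ D * (1 + s) ^ D) * Real.exp (M.wt i (vec w)) *
            (B.C * (1 + Real.exp (C' * (κ₁ * s + 1))))
          = K * (1 + s) ^ D * Real.exp (M.wt i (vec w)) *
            (B.C * (1 + Real.exp (C' * (κ₁ * s + 1)))) := by rw [hK]; ring
        _ ≤ _ := this

end DB

end Vale.Agent.P188.Z1

end
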