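import Vale.Agent.P188.R.G093
import Vale.Agent.P188.R.G095

section

/-!
# P188, Z1, block DEC: decompositions of fat displacements (both, with common constants)
-/

set_option linter.all false

open MeasureTheory Set
open Vale.Agent.P188.H530 (hgt hgt_mul)

namespace Vale.Agent.P188.Z1

namespace RModel

variable {S : Type} [Group S] [MeasurableSpace S] {Γ : Type} [Group Γ]
  {V : Type} [AddCommGroup V] [Module ℝ V] {k : ℕ} (M : RModel S Γ V k)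

/-- **Both decompositions with common constants** `c` and `C` (any `C ≥ C₁`). -/
theorem decs (v : Fin k → (Fin k → ℤ)) (hv : ∀ i, M.Generic (v i)) (hh : Fin k → Ht k →L[ℝ] ℝ)
    (hd : ∀ i j, hh j (ht (v i)) = if i = j then 1 else 0) :
    ∃ (c : ℕ) (C₁ : ℝ), 1 ≤ C₁ ∧ ∀ C : ℝ, C₁ ≤ C →
      (∀ ε₁ : ℝ, 0 < ε₁ → ε₁ ≤ 1 →
        ∃ d₁ : ℝ, 0 < d₁ ∧ d₁ ≤ 1 ∧ ∀ δ : ℝ, 0 < δ → δ ≤ 1 / C → ∃ ρ₀ : ℕ, ∀ ρ : ℕ, ρ₀ ≤ ρ →
        ∀ i, ∀ u ∈ M.FB δ (d₁ * ρ), ∃ us : List S, us.length ≤ c ∧ us.prod = u ∧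
          (∀ a ∈ us, P188.H882.Mrg (fun x => (M.l x : ℝ)) (M.Nt (C * δ) ρ) (M.τ (v i)) ρ
            (ε₁ * ρ) a) ∧
          ∀ ws, ws <+: us → ws.prod ∈ M.FB (C * δ) (C * ρ) ∧
            ∀ m : ℤ, |m| ≤ (ρ : ℤ) → ∀ a, (M.l a : ℝ) ≤ ε₁ * ρ →
              ws.prod * M.τ (v i) ^ m * a ∈ M.FB (C * δ) (C * ρ)) ∧
      (∀ d : ℝ, 0 < d → C * d ≤ 1 →
        ∀ δ : ℝ, 0 < δ → δ ≤ d → ∃ ρ₀ : ℕ, ∀ ρ : ℕ, ρ₀ ≤ ρ → ∀ u ∈ M.FB δ (d * ρ),
          ∃ us : List S, us.length ≤ c ∧ us.prod = u ∧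
            (∀ a ∈ us, P188.H882.Typed (fun x => (M.l x : ℝ)) (fun i => M.τ (v i))
              (fun j x => hh j (M.θ x)) ρ ⌈C * (C * d * ρ)⌉₊ C (M.Nt (C * δ) ρ) a) ∧
            ∀ ws, ws <+: us → ws.prod ∈ M.FB (C * δ) (C * d * ρ)) := by
  obtain ⟨c₁, C₁, hC₁, h1⟩ := M.dec1 v hv
  obtain ⟨c₂, C₂, hC₂, h2⟩ := M.dec2 v hv hh hd
  refine ⟨max c₁ c₂, max C₁ C₂, le_max_of_le_left hC₁, fun C hC => ⟨?_, ?_⟩⟩
  · intro ε₁ hε₁ hε₁'
    obtain ⟨d₁, hd0, hd1, h3⟩ := h1 C ((le_max_left _ _).trans hC) ε₁ hε₁ hε₁'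
    refine ⟨d₁, hd0, hd1, fun δ hδ hδ' => ?_⟩
    obtain ⟨ρ₀, h4⟩ := h3 δ hδ hδ'
    refine ⟨ρ₀, fun ρ hρ i u hu => ?_⟩
    obtain ⟨us, q1, q2, q3, q4⟩ := h4 ρ hρ i u hu
    exact ⟨us, q1.trans (le_max_left _ _), q2, q3, q4⟩
  · intro d hd0 hd1 δ hδ hδ'
    obtain ⟨ρ₀, h4⟩ := h2 C ((le_max_right _ _).trans hC) d hd0 hd1 δ hδ hδ'
    have hC1 : 1 ≤ C := (hC₂.trans (le_max_right _ _)).trans hC
    refine ⟨ρ₀, fun ρ hρ u hu => ?_⟩
    obtain ⟨us, q1, q2, q3, q4⟩ := h4 ρ hρ u hu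
    refine ⟨us, q1.trans (le_max_right _ _), q2, fun a ha => M.typed_mono ?_ le_rfl subset_rfl
      (q3 a ha), fun ws hws => ?_⟩
    · refine Nat.ceil_mono ?_
      rw [mul_assoc C d]
      have : 0 ≤ C * (d * ρ) := by positivity
      exact le_mul_of_one_le_left this hC1
    · rw [mul_assoc C d]
      exact q4 ws hws

/-- the first decomposition, 971's form -/
theorem dec1' (v : Fin k → Fin k → ℤ) (hv : ∀ i, M.Generic (v i)) :
    ∃ (c : ℕ) (C : ℝ), 1 ≤ C ∧ ∀ ε1, 0 < ε1 → ε1 ≤ 1 → ∃ d1, 0 < d1 ∧ d1 ≤ 1 ∧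
      ∀ δ, 0 < δ → δ ≤ 1 / C → ∃ ρ0 : ℕ, ∀ ρ : ℕ, ρ0 ≤ ρ → ∀ i, ∀ u ∈ M.FB δ (d1 * ρ),
        ∃ us : List S, us.length ≤ c ∧ us.prod = u ∧
          (∀ a ∈ us, P188.H882.Mrg (fun x => (M.l x : ℝ)) (M.Nt (C * δ) ρ) (M.τ (v i)) ρ
            (ε1 * ρ) a) ∧
          ∀ ws, ws <+: us → ws.prod ∈ M.FB (C * δ) (C * ρ) ∧
            ∀ m : ℤ, |m| ≤ (ρ : ℤ) → ∀ a, (M.l a : ℝ) ≤ ε1 * ρ →
              ws.prod * M.τ (v i) ^ m * a ∈ M.FB (C * δ) (C * ρ) := by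
  obtain ⟨c, C, hC, h⟩ := M.dec1 v hv
  exact ⟨c, C, hC, h C le_rfl⟩

end RModel

end Vale.Agent.P188.Z1

end

section

/-!
# P188, Z1, block STRAIGHT, part D: neutral flatness for short neutral elements
-/

set_option linter.all false

open MeasureTheory Set
open scoped ENNReal
open Vale.P188.H654

namespace Vale.Agent.P188.Z1

namespace RModel

variable {S : Type} [Group S] [MeasurableSpace S] {Γ : Type} [Group Γ]
  {V : Type} [AddCommGroup V] [Module ℝ V] {k : ℕ} (M : RModel S Γ V k)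

/-- fat elements: `ex y * g`, `y` neutral of polynomial size, `g` short -/
theorem ln_fb {κ₃ δ : ℝ} (hκ₃ : 0 < κ₃) (hδ : 0 < δ) : ∃ c₅ : ℝ, 0 < c₅ ∧ ∀ (C : ℝ) (m : ℕ),
    ∃ s₀ : ℝ, ∀ s : ℝ, s₀ ≤ s → ∀ y ∈ M.Vw 0, M.nm y ≤ C * (1 + s) ^ m →
      ∀ g, (M.l g : ℝ) ≤ c₅ * s → M.ex y * g ∈ M.FB δ (κ₃ * s) := by
  obtain ⟨C1, hC1, h1⟩ := M.fb_of_len
  obtain ⟨C2, hC2, h2⟩ := M.fb_mul
  have hC10 : 0 < C1 := by linarith
  have hC20 : 0 < C2 := by linarith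
  obtain ⟨δ₂, hδ₂⟩ : ∃ δ₂, δ₂ = min δ 1 / C2 := ⟨_, rfl⟩
  have hm0 : 0 < min δ 1 := lt_min hδ one_pos
  have hδ₂0 : 0 < δ₂ := by rw [hδ₂]; positivity
  have hδ₂1 : δ₂ ≤ 1 := by
    rw [hδ₂, div_le_one hC20]; exact (min_le_right _ _).trans hC2
  obtain ⟨R1, hR1⟩ := Filter.eventually_atTop.1 (h1 δ₂ hδ₂0)
  obtain ⟨R2, hR2⟩ := Filter.eventually_atTop.1 (h2 δ₂ hδ₂0 hδ₂1)
  refine ⟨κ₃ / (2 * C1 * C2), by positivity, fun C m => ?_⟩
  obtain ⟨s1, hs1, hs1'⟩ := ln_poly_exp C (δ₂ * (κ₃ / C2)) 1 m (by positivity) one_pos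
  obtain ⟨W, hW⟩ : ∃ W : ℝ, W = |R1| + |R2| + 2 * M.l (M.τ 0) := ⟨_, rfl⟩
  have hW0 : 0 ≤ W := by rw [hW]; positivity
  refine ⟨max s1 (W * (C1 * C2 / κ₃)), ?_⟩
  intro s hs y hy hyn g hg
  have hs1s : s1 ≤ s := (le_max_left _ _).trans hs
  have hs0 : 0 ≤ s := hs1.trans hs1s
  have hWs : W ≤ κ₃ / (C1 * C2) * s := by
    have h3 : W * (C1 * C2 / κ₃) ≤ s := (le_max_right _ _).trans hs
    have h4 := mul_le_mul_of_nonneg_left h3 (show 0 ≤ κ₃ / (C1 * C2) by positivity)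
    have h5 : κ₃ / (C1 * C2) * (W * (C1 * C2 / κ₃)) = W := by field_simp
    linarith
  -- the two scales
  have e1 : C1 * (κ₃ / (C1 * C2) * s) = κ₃ / C2 * s := by field_simp
  have e2 : C2 * (κ₃ / C2 * s) = κ₃ * s := by field_simp
  have e3 : κ₃ / (2 * C1 * C2) * s = κ₃ / (C1 * C2) * s / 2 := by field_simp
  have hR₃ : R1 ≤ κ₃ / (C1 * C2) * s := (le_abs_self _).trans (by
    have := abs_nonneg R2
    have : (0:ℝ) ≤ M.l (M.τ 0) := Nat.cast_nonneg _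
    linarith)
  have hR₂ : R2 ≤ κ₃ / C2 * s := (le_abs_self _).trans (by
    have := abs_nonneg R1
    have h4 : (0:ℝ) ≤ M.l (M.τ 0) := Nat.cast_nonneg _
    have h5 : κ₃ / (C1 * C2) * s ≤ C1 * (κ₃ / (C1 * C2) * s) :=
      le_mul_of_one_le_left (by positivity) hC1
    linarith)
  have f1 : M.ex y * M.τ 0 ∈ M.FB δ₂ (κ₃ / C2 * s) := by
    rw [mem_FB]
    refine ⟨0, M.e.zero_mem, ?_, M.ex y * M.τ 0, ⟨y, hy, ?_, 0, ?_, rfl⟩, ?_⟩
    · rw [map_zero]; exact (Real.exp_pos _).le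
    · have h3 := hs1' s hs1s
      rw [Real.exp_neg, mul_inv_le_iff₀ (Real.exp_pos _), one_mul] at h3
      refine (hyn.trans h3).trans (Real.exp_le_exp.2 ?_)
      rw [mul_assoc]
    · intro i
      have : (0 : ℝ) ≤ κ₃ / C2 * s := by positivity
      simpa using this
    · rw [M.ex_zero, one_mul]
  have f2 : (M.τ 0)⁻¹ * g ∈ M.FB δ₂ (κ₃ / C2 * s) := by
    rw [← e1]
    refine hR1 _ hR₃ _ ?_
    refine (M.ln_mulR _ _).trans ?_
    rw [M.len.inv]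
    have := abs_nonneg R2
    have := abs_nonneg R1
    rw [e3] at hg
    linarith
  have f3 := hR2 _ hR₂ _ f1 _ f2
  rw [mul_assoc, mul_inv_cancel_left, e2] at f3
  refine M.FB_mono le_rfl ?_ f3
  have h3 : C2 * δ₂ = min δ 1 := by rw [hδ₂]; field_simp
  rw [h3]
  exact mul_le_mul_of_nonneg_right (min_le_left _ _) (by positivity)

/-- the union of the cells well inside `D` -/
def lnC (r : ℝ) (D : Set S) : Set S := M.cells {γ | M.inG γ ∈ M.In r D}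

theorem ln_C_meas (r : ℝ) (D : Set S) : MeasurableSet (M.lnC r D) := M.measurableSet_cells _

theorem ln_C_mul {r : ℝ} {D : Set S} {z g : S} (hz : z ∈ M.lnC r D)
    (hg : M.C0 + (M.l g : ℝ) ≤ r) : z * g ∈ D := by
  have h1 : M.inG (M.fl z) ∈ M.In r D := hz
  have h2 := M.fl_close z
  have e : z * g = M.inG (M.fl z) * (((M.inG (M.fl z))⁻¹ * z) * g) := by group
  rw [e]
  refine h1 _ ((M.ln_mulR _ _).trans ?_)
  linarith

theorem ln_C_sub {r : ℝ} {D : Set S} (hr : M.C0 ≤ r) : M.lnC r D ⊆ D := by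
  intro z hz
  have := M.ln_C_mul hz (g := 1) (by rw [M.ln_one]; simpa using hr)
  rwa [mul_one] at this

theorem ln_mem_C {r r' : ℝ} {D : Set S} {z : S} (hz : z ∈ M.In r' D) (h : M.C0 + r ≤ r') :
    z ∈ M.lnC r D := by
  show M.inG (M.fl z) ∈ M.In r D
  have h2 := M.fl_close z
  rw [M.l_comm] at h2
  have := ln_In_mul (M := M) (g := z⁻¹ * M.inG (M.fl z)) (r' := r) hz (by linarith)
  rwa [mul_inv_cancel_left] at this

/-- `lnC r' D` times a ball is in `lnC r D` -/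
theorem ln_C_C {r r' : ℝ} {D : Set S} {z g : S} (hz : z ∈ M.lnC r' D)
    (h : 2 * M.C0 + (M.l g : ℝ) + r ≤ r') : z * g ∈ M.lnC r D := by
  have h1 : M.inG (M.fl z) ∈ M.In r' D := hz
  have h2 := M.fl_close z
  have e : z * g = M.inG (M.fl z) * (((M.inG (M.fl z))⁻¹ * z) * g) := by group
  have h3 : z * g ∈ M.In (M.C0 + r) D := by
    rw [e]
    refine ln_In_mul h1 ?_
    have := M.ln_mulR ((M.inG (M.fl z))⁻¹ * z) g
    linarith
  exact M.ln_mem_C h3 le_rfl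

/-- **Neutral flatness for neutral elements of polynomial size.** -/
theorem ln_nf (hN : M.NFp) (K κ κ₃ δ C : ℝ) (m : ℕ) (hκ : 0 < κ) (hκ₃ : 0 < κ₃) (hδ : 0 < δ) :
    ∃ c s₀ : ℝ, 0 < c ∧ ∀ s : ℝ, s₀ ≤ s → ∀ F F' : Γ → Γ, M.QIm K F F' → ∀ D Dp : Set S,
      M.FFat δ (κ₃ * s) 1 D Dp → ∀ y ∈ M.Vw 0, M.nm y ≤ C * (1 + s) ^ m →
      M.μ {x | x ∈ D ∧ κ * s < ‖M.f F (x * M.ex y) - M.f F x‖} ≤
        ENNReal.ofReal (Real.exp (-(c * s))) * M.μ D := by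
  obtain ⟨δN, c₀, CR, r₀, hδN, hc₀, hNF⟩ := hN K κ 1 hκ
  obtain ⟨c₅, hc₅, hfb⟩ := M.ln_fb hκ₃ hδ
  obtain ⟨CR', hCR'⟩ : ∃ CR', CR' = max CR 1 := ⟨_, rfl⟩
  have hCR'1 : 1 ≤ CR' := by rw [hCR']; exact le_max_right _ _
  have hCRC : CR ≤ CR' := by rw [hCR']; exact le_max_left _ _
  obtain ⟨cr, hcr⟩ : ∃ cr, cr = min 1 (c₅ / (2 * CR')) := ⟨_, rfl⟩
  have hcr0 : 0 < cr := by rw [hcr]; exact lt_min one_pos (by positivity)
  have hcr1 : cr ≤ 1 := by rw [hcr]; exact min_le_left _ _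
  have hcr2 : CR' * cr ≤ c₅ / 2 := by
    have h1 : cr ≤ c₅ / (2 * CR') := by rw [hcr]; exact min_le_right _ _
    rw [le_div_iff₀ (by positivity)] at h1
    linarith
  have hC0 := M.ln_C0
  obtain ⟨s1, hs1⟩ := hfb C m
  obtain ⟨s2, hs2, hs2'⟩ := ln_poly_exp C (δN * cr) 1 m (by positivity) one_pos
  obtain ⟨s3, hs3, hs3'⟩ := ln_poly_exp 2 (c₀ * cr / 2) 1 0 (by positivity) one_pos
  refine ⟨c₀ * cr / 2, max (max s1 s2) (max s3 (max (|r₀| / cr) (4 * M.C0 / c₅))), by positivity, ?_⟩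
  intro s hs F F' hQ D Dp hD y hy hyn
  have t1 : s1 ≤ s := (le_max_left _ _).trans ((le_max_left _ _).trans hs)
  have t2 : s2 ≤ s := (le_max_right _ _).trans ((le_max_left _ _).trans hs)
  have t3 : s3 ≤ s := (le_max_left _ _).trans ((le_max_right _ _).trans hs)
  have t4 : |r₀| / cr ≤ s :=
    (le_max_left _ _).trans ((le_max_right _ _).trans ((le_max_right _ _).trans hs))
  have t5 : 4 * M.C0 / c₅ ≤ s :=
    (le_max_right _ _).trans ((le_max_right _ _).trans ((le_max_right _ _).trans hs))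
  have hs0 : 0 ≤ s := hs2.trans t2
  rw [div_le_iff₀ hcr0] at t4
  rw [div_le_iff₀ hc₅] at t5
  obtain ⟨r, hr⟩ : ∃ r, r = cr * s := ⟨_, rfl⟩
  have hr0 : r₀ ≤ r := by rw [hr]; exact (le_abs_self _).trans (by linarith)
  have hrs : r ≤ s := by rw [hr]; exact mul_le_of_le_one_left hs0 hcr1
  have hrp : 0 ≤ r := by rw [hr]; positivity
  have hCRr : CR' * r ≤ c₅ / 2 * s := by
    rw [hr, ← mul_assoc]; exact mul_le_mul_of_nonneg_right hcr2 hs0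
  obtain ⟨R, hR⟩ : ∃ R, R = CR' * r + M.C0 := ⟨_, rfl⟩
  have hin : ∀ x ∈ D, ∀ y' ∈ M.Vw 0, M.nm y' ≤ C * (1 + s) ^ m → x * M.ex y' ∈ M.lnC R Dp := by
    intro x hx y' hy' hyn'
    refine M.ln_mem_C (r' := c₅ * s) ?_ (by rw [hR]; linarith)
    intro g hg
    rw [mul_assoc]
    exact hD.subf x hx _ (hs1 s t1 y' hy' hyn' g hg)
  have hDC : D ⊆ M.lnC R Dp := by
    intro x hx
    refine M.ln_mem_C (r' := c₅ * s) ?_ (by rw [hR]; linarith)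
    intro g hg
    have h0 : (0 : ℝ) ≤ C * (1 + s) ^ m := (M.nm_nonneg y).trans hyn
    have := hD.subf x hx _ (hs1 s t1 0 (M.Vw 0).zero_mem (by rw [map_zero]; exact h0) g hg)
    rwa [M.ex_zero, one_mul] at this
  have hCD : M.lnC R Dp ⊆ Dp := by
    refine M.ln_C_sub ?_
    have : 0 ≤ CR' * r := mul_nonneg (by linarith) hrp
    rw [hR]
    linarith
  have hDpf : M.μ Dp ≠ ⊤ :=
    ne_top_of_le_ne_top (ENNReal.mul_ne_top ENNReal.ofReal_ne_top hD.fin) hD.le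
  have hFat : M.Fat (CR * r) 1 (M.lnC R Dp) Dp :=
    { meas := M.ln_C_meas _ _
      meas' := hD.meas'
      pos := fun h0 => hD.pos (le_antisymm ((measure_mono hDC).trans h0.le) bot_le)
      fin := ne_top_of_le_ne_top hDpf (measure_mono hCD)
      sub := by
        intro z hz g hg
        refine M.ln_C_mul hz ?_
        have : CR * r ≤ CR' * r := mul_le_mul_of_nonneg_right hCRC hrp
        rw [hR]; linarith
      le := hD.le.trans (mul_le_mul_right (measure_mono hDC) _) }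
  have h1 := hNF r hr0 F F' hQ (M.lnC R Dp) Dp hFat y hy (by
    have h3 := hs2' s t2
    rw [Real.exp_neg, mul_inv_le_iff₀ (Real.exp_pos _), one_mul] at h3
    refine (hyn.trans h3).trans (Real.exp_le_exp.2 ?_)
    rw [hr, mul_assoc]) D (by
    intro z hz x hx0 hx1
    refine hin z hz (x • y) ((M.Vw 0).smul_mem _ hy) ?_
    rw [map_smul_eq_mul, Real.norm_of_nonneg hx0]
    exact (mul_le_of_le_one_left (M.nm_nonneg y) hx1).trans hyn)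
  calc M.μ {x | x ∈ D ∧ κ * s < ‖M.f F (x * M.ex y) - M.f F x‖}
      ≤ M.μ {x | x ∈ D ∧ κ * r < ‖M.f F (x * M.ex y) - M.f F x‖} := by
        refine measure_mono fun x hx => ⟨hx.1, lt_of_le_of_lt ?_ hx.2⟩
        exact mul_le_mul_of_nonneg_left hrs hκ.le
    _ ≤ ENNReal.ofReal (Real.exp (-(c₀ * r))) * M.μ (M.lnC R Dp) := h1
    _ ≤ ENNReal.ofReal (Real.exp (-(c₀ * r))) * (ENNReal.ofReal 2 * M.μ D) := by
        refine mul_le_mul_right ((measure_mono hCD).trans (hD.le.trans (le_of_eq ?_))) _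
        norm_num
    _ = ENNReal.ofReal (2 * Real.exp (-(c₀ * r))) * M.μ D := by
        rw [ENNReal.ofReal_mul (by norm_num)]; ring
    _ ≤ ENNReal.ofReal (Real.exp (-(c₀ * cr / 2 * s))) * M.μ D := by
        refine mul_le_mul_left (ENNReal.ofReal_le_ofReal ?_) _
        have h3 := hs3' s t3
        have e : Real.exp (-(c₀ * r)) = Real.exp (-(c₀ * cr / 2 * s)) *
            Real.exp (-(c₀ * cr / 2 * s)) := by
          rw [← Real.exp_add, hr]; congr 1; ring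
        rw [e, ← mul_assoc]
        rw [pow_zero, mul_one] at h3
        exact mul_le_of_le_one_left (Real.exp_pos _).le h3

end RModel

end Vale.Agent.P188.Z1

end

section

/-!
# P188, Z1, block COH, part 6: rays at most points
-/

set_option linter.all false

open MeasureTheory Set
open scoped ENNReal
open Agent.P188.H428 (IsLen)
open Vale.Agent.P188.H530 (hgt hgt_mul badSumP meas_bad_le exists_good exists_max_norm)

namespace Vale.Agent.P188.Z1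

namespace RModel

variable {S : Type} [Group S] [MeasurableSpace S] {Γ : Type} [Group Γ]
  {V : Type} [AddCommGroup V] [Module ℝ V] {k : ℕ} {M : RModel S Γ V k}

theorem exists_len_bound (M : RModel S Γ V k) (V₀ : Finset (Fin k → ℤ)) :
    ∃ LV : ℝ, 1 ≤ LV ∧ ∀ v ∈ V₀, (M.l (M.τ v) : ℝ) ≤ LV := by
  refine ⟨1 + ∑ v ∈ V₀, (M.l (M.τ v) : ℝ), ?_, fun v hv => ?_⟩
  · have : 0 ≤ ∑ v ∈ V₀, (M.l (M.τ v) : ℝ) := Finset.sum_nonneg fun j _ => Nat.cast_nonneg _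
    linarith
  · have := Finset.single_le_sum (f := fun v : Fin k → ℤ => (M.l (M.τ v) : ℝ))
      (fun i _ => Nat.cast_nonneg _) hv
    linarith

/-- the union bound -/
theorem union_bound {D : Set S} (hD : M.μ D ≠ ⊤) (V₀ : Finset (Fin k → ℤ))
    (Φ : Finset (Ht k →L[ℝ] ℝ)) (X : Set S) (B₁ : (Fin k → ℤ) → Set S)
    (B₂ : (Ht k →L[ℝ] ℝ) → Set S) (hB₁ : ∀ v ∈ V₀, B₁ v ⊆ D) (hB₂ : ∀ b ∈ Φ, B₂ b ⊆ D)
    (hX : X ⊆ (⋃ v ∈ V₀, B₁ v) ∪ ⋃ b ∈ Φ, B₂ b) {a₁ a₂ κ' : ℝ}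
    (h1 : ∀ v ∈ V₀, M.μ.real (B₁ v) ≤ a₁ * M.μ.real D)
    (h2 : ∀ b ∈ Φ, M.μ.real (B₂ b) ≤ a₂ * M.μ.real D) (h3 : V₀.card * a₁ ≤ κ' / 2)
    (h4 : Φ.card * a₂ ≤ κ' / 2) : M.μ.real X ≤ κ' * M.μ.real D := by
  have hfin : M.μ ((⋃ v ∈ V₀, B₁ v) ∪ ⋃ b ∈ Φ, B₂ b) ≠ ⊤ := by
    refine ne_top_of_le_ne_top hD (measure_mono ?_)
    rintro x (hx | hx)
    · rw [mem_iUnion₂] at hx
      obtain ⟨v, hv, hx⟩ := hx
      exact hB₁ v hv hx
    · rw [mem_iUnion₂] at hx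
      obtain ⟨v, hv, hx⟩ := hx
      exact hB₂ v hv hx
  have hD0 : 0 ≤ M.μ.real D := measureReal_nonneg
  refine (measureReal_mono hX hfin).trans ((measureReal_union_le _ _).trans ?_)
  have e1 : M.μ.real (⋃ v ∈ V₀, B₁ v) ≤ κ' / 2 * M.μ.real D := by
    refine (measureReal_biUnion_finset_le V₀ B₁).trans ((Finset.sum_le_sum h1).trans ?_)
    rw [Finset.sum_const, nsmul_eq_mul, ← mul_assoc]
    gcongr
  have e2 : M.μ.real (⋃ b ∈ Φ, B₂ b) ≤ κ' / 2 * M.μ.real D := by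
    refine (measureReal_biUnion_finset_le Φ B₂).trans ((Finset.sum_le_sum h2).trans ?_)
    rw [Finset.sum_const, nsmul_eq_mul, ← mul_assoc]
    gcongr
  linarith

/-- **Rays.** -/
theorem rayT (M : RModel S Γ V k) (hRAY : M.RAY) (K L : ℝ) (V₀ : Finset (Fin k → ℤ))
    (hV₀ : ∀ v ∈ V₀, M.Generic v) {κ' : ℝ} (hκ' : 0 < κ') :
    ∃ (ε₀ Cf r₀ : ℝ), 0 < ε₀ ∧ ∀ r : ℝ, r₀ ≤ r → ∀ ε κ R : ℝ, 0 ≤ ε → ε ≤ ε₀ → 0 ≤ κ → κ ≤ ε₀ →
      Cf * r ≤ R → ∀ (F F' : Γ → Γ) (D Dp D₀ : Set S) (T : S → Ht k →L[ℝ] Ht k),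
      M.LinOn K L ε κ r R F F' D Dp D₀ T →
      M.μ.real {x ∈ D | x ∈ D₀ ∧ ¬ ∀ b ∈ M.Φ, ∃ b' ∈ M.Φ, ∀ v ∈ V₀, 0 < b' (ht v) →
        0 ≤ b (T x (ht v))} ≤ κ' * M.μ.real D := by
  classical
  have hC0 := M.C0_nn
  by_cases hK : 0 ≤ K
  swap
  · refine ⟨1, 0, 0, one_pos, ?_⟩
    intro r _ ε κ R _ _ _ _ _ F F' D Dp D₀ T h
    exact absurd h.qi.nonneg hK
  obtain ⟨LV, hLV1, hLV⟩ := exists_len_bound M V₀
  obtain ⟨B, hB0, hB⟩ := exists_max_norm M.Φ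
  obtain ⟨η, c₀, CR, rR, hη, hc₀, HR⟩ := hRAY K V₀ hV₀
  set κ₃ : ℝ := min 1 (η / (4 * (B * M.C0 * K * LV + 1))) with hκ₃
  have hκ₃0 : 0 < κ₃ := lt_min one_pos (by positivity)
  have hκ₃1 : κ₃ ≤ 1 := min_le_left _ _
  have hκ₃2 : κ₃ * (4 * (B * M.C0 * K * LV + 1)) ≤ η := by
    have : κ₃ ≤ η / (4 * (B * M.C0 * K * LV + 1)) := min_le_right _ _
    rwa [le_div_iff₀ (by positivity)] at this
  obtain ⟨re, hre⟩ := exists_exp_small (M.Φ.card : ℝ) hc₀ (half_pos hκ')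
  set ε₀ : ℝ := min (min 1 (η / (4 * (B * LV + 1)))) (κ' * κ₃ / (16 * ((V₀.card : ℝ) + 1)))
    with hε₀
  have hε₀0 : 0 < ε₀ := lt_min (lt_min one_pos (by positivity)) (by positivity)
  have hε₀1 : ε₀ * (4 * (B * LV + 1)) ≤ η := by
    have : ε₀ ≤ η / (4 * (B * LV + 1)) := (min_le_left _ _).trans (min_le_right _ _)
    rwa [le_div_iff₀ (by positivity)] at this
  have hε₀2 : ε₀ * (16 * ((V₀.card : ℝ) + 1)) ≤ κ' * κ₃ := by
    have : ε₀ ≤ κ' * κ₃ / (16 * ((V₀.card : ℝ) + 1)) := min_le_right _ _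
    rwa [le_div_iff₀ (by positivity)] at this
  have hε₀3 : ε₀ ≤ 1 := (min_le_left _ _).trans (min_le_left _ _)
  refine ⟨ε₀, max 1 |CR|, LV * max (max rR re)
    (max 2 (4 * (B * M.C0 * K * (2 * M.C0 + 1)) / η)), hε₀0, ?_⟩
  intro r hr ε κ R hε0 hε hκ0 hκ hR F F' D Dp D₀ T h
  obtain ⟨r₁, hr₁⟩ : ∃ r₁ : ℝ, r₁ = r / LV := ⟨_, rfl⟩
  have hLV0 : 0 < LV := by linarith
  have hrr : r = LV * r₁ := by rw [hr₁]; field_simp
  have hr₁' : max (max rR re) (max 2 (4 * (B * M.C0 * K * (2 * M.C0 + 1)) / η)) ≤ r₁ := by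
    rw [hrr] at hr
    exact le_of_mul_le_mul_left hr hLV0
  simp only [max_le_iff] at hr₁'
  obtain ⟨⟨k1, k2⟩, k3, k4⟩ := hr₁'
  have hr₁0 : 0 < r₁ := by linarith
  have k4' : 4 * (B * M.C0 * K * (2 * M.C0 + 1)) ≤ η * r₁ := by
    rw [div_le_iff₀ hη] at k4; linarith
  have hr₁r : r₁ ≤ r := by rw [hrr]; nlinarith
  have hr0 : 0 ≤ r := by linarith
  have hrR : r ≤ R := by
    refine le_trans ?_ hR
    have : 1 * r ≤ max 1 |CR| * r := mul_le_mul_of_nonneg_right (le_max_left _ _) hr0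
    linarith
  have hCR : CR * r₁ ≤ R := by
    refine le_trans ?_ hR
    calc CR * r₁ ≤ |CR| * r₁ := mul_le_mul_of_nonneg_right (le_abs_self _) hr₁0.le
      _ ≤ |CR| * r := by gcongr
      _ ≤ _ := mul_le_mul_of_nonneg_right (le_max_right _ _) hr0
  have hfat : M.Fat (CR * r₁) 1 D Dp := by
    refine ⟨h.fat.meas, h.fat.meas', h.fat.pos, h.fat.fin,
      fun z hz g hg => h.fat.sub z hz g (hg.trans hCR), h.fat.le.trans ?_⟩
    gcongr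
    linarith
  set N : ℕ := ⌊r₁⌋₊ with hN
  set q : ℕ := ⌊κ₃ * N⌋₊ with hq
  have hN1 : (N : ℝ) ≤ r₁ := Nat.floor_le hr₁0.le
  have hN0 : (0 : ℝ) ≤ N := Nat.cast_nonneg _
  have hq1 : (q : ℝ) ≤ κ₃ * N := Nat.floor_le (by positivity)
  have hqN : q ≤ N := by
    have : (q : ℝ) ≤ N := by nlinarith
    exact_mod_cast this
  have hq2 : (q : ℝ) ≤ κ₃ * r₁ := hq1.trans (by gcongr)
  refine union_bound h.fat.fin V₀ M.Φ _
    (fun v => {x ∈ D | q < ((Finset.range (N + 1)).filter fun i => ¬ x * M.τ v ^ i ∈ D₀).card})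
    (fun b => {x | x ∈ D ∧ ∀ b' ∈ M.Φ, ∃ v ∈ V₀, 0 < b' (ht v) ∧
        ∀ n : ℕ, (n : ℝ) ≤ r₁ → b (M.f F (x * M.τ v ^ n)) ≤ b (M.f F x) + η * r₁})
    (fun v _ => Set.sep_subset _ _) (fun b _ x hx => hx.1) ?_
    (a₁ := 4 * ε₀ * ((N : ℝ) + 1) / ((q : ℝ) + 1)) (a₂ := Real.exp (-(c₀ * r₁))) ?_ ?_ ?_ ?_
  · rintro x ⟨hxD, hx, hbad⟩
    by_contra hcon
    rw [mem_union, not_or, mem_iUnion₂, mem_iUnion₂] at hcon
    push Not at hcon
    obtain ⟨hc1, hc2⟩ := hcon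
    refine hbad fun b hb => ?_
    have h5 := hc2 b hb
    simp only [mem_setOf_eq, not_and, not_forall, not_exists, not_le] at h5
    obtain ⟨b', hb', h6⟩ := h5 hxD
    refine ⟨b', hb', fun v hv hbv => ?_⟩
    obtain ⟨n, hn, hinc⟩ := h6 v hv hbv
    have h7 := hc1 v hv
    simp only [mem_setOf_eq, not_and, not_lt] at h7
    have h8 := h7 hxD
    have hnN : n ≤ N := Nat.le_floor hn
    have h9 := h.good_ray (hB b hb) hLV1 (hLV v hv) hη hr₁0 hrr hκ₃2 hκ₃0.le k4'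
      (by
        have : ε * (4 * (B * LV + 1)) ≤ ε₀ * (4 * (B * LV + 1)) := by gcongr
        linarith) hε0 hN1 hqN hq2 hx h8 hnN hinc
    rw [θ_τC] at h9
    exact h9.le
  · intro v hv
    exact h.line (hr0.trans hrR) hε0 hκ0 hε hκ (M.τ v) (by
      calc (N : ℝ) * M.l (M.τ v) ≤ r₁ * LV := by
            have := hLV v hv
            gcongr
        _ = r := by rw [hrr]; ring
        _ ≤ R := hrR)
  · intro b hb
    exact real_of_le (Real.exp_pos _).le h.fat.fin (HR r₁ k1 F F' h.qi b hb D Dp hfat)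
  · exact num_count k3 hκ₃0 hε₀0.le (Nat.cast_nonneg _) hε₀2
  · exact hre r₁ k2

end RModel

end Vale.Agent.P188.Z1

end

section

/-!
# P188, Z1, block DBOX: theorems DBOXH and DVOLH
-/

set_option linter.all false

open MeasureTheory Set Filter Topology
open Vale.Agent.P188.H530 (hgt hgt_mul)
open Vale.Agent.P188.H540 (vec LP LP_finite lat_ratio' vec_injective tendsto_LP ball_dbl ball_finite)
open scoped Pointwise ENNReal

namespace Vale.Agent.P188.Z1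

namespace DB

variable {S : Type} [Group S] [MeasurableSpace S] {Γ : Type} [Group Γ]
  {V : Type} [AddCommGroup V] [Module ℝ V] {k : ℕ} {M : RModel S Γ V k}

open RModel

theorem szh_pos (h : (Ht k →L[ℝ] ℝ) → ℝ) (d₁ s : ℝ) (i : M.ι) : 0 < M.szh h d₁ s i := by
  unfold szh
  split_ifs <;> positivity

/-- multiplication of a point of the box set by a small element -/
theorem mul_mem_BWH (B : M.NatBox) {h : (Ht k →L[ℝ] ℝ) → ℝ} {d₁ s Λ ε δm t u : ℝ} (hΛ : 0 < Λ)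
    (hmul : ∀ R : M.ι → ℝ, (∀ i, 0 ≤ R i) → ∀ x ∈ B.Bx R, ∀ y ∈ B.Bx (fun i => δm * R i),
      x * y ∈ B.Bx (fun i => (1 + ε) * R i) ∧ y * x ∈ B.Bx (fun i => (1 + ε) * R i))
    {z g : S} (hz : z ∈ BW M (B.Bx fun i => Λ * M.szh h d₁ s i) (WnH M h u))
    (hx : M.τ (Multiplicative.toAdd (M.η z)) * g *
      (M.sec (M.τ (Multiplicative.toAdd (M.η z)) * g))⁻¹ ∈
        B.Bx (fun i => (δm * Λ) * M.szh h d₁ s i))
    (hg : ∀ b ∈ M.Φ, b (M.θ g) ≤ (t - 1) * u * h b) :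
    z * g ∈ BW M (B.Bx fun i => (1 + ε) * (Λ * M.szh h d₁ s i)) (WnH M h (t * u)) := by
  refine ⟨?_, ?_⟩
  · rw [part_mul]
    have h1 : (fun i => (δm * Λ) * M.szh h d₁ s i) = fun i => δm * (Λ * M.szh h d₁ s i) := by
      funext i; ring
    rw [h1] at hx
    exact (hmul _ (fun i => (mul_pos hΛ (szh_pos h d₁ s i)).le) _ hz.1 _ hx).1
  · intro b hb
    have h1 : b (M.θ z) ≤ u * h b := hz.2 b hb
    have h2 := hg b hb
    show b (M.θ (z * g)) ≤ t * u * h b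
    rw [M.θ_mul, map_add]
    linarith

/-- **DBOXH** -/
theorem dboxH (B : M.NatBox) (hB : B.Fine) : M.DBOXH B := by
  classical
  intro c₂ hc₂ κ hκ hκ1 Λ hΛ κ₂ hκ₂
  set κ' : ℝ := min κ₂ 1 / 4 with hκ'
  have hκ'0 : 0 < κ' := by have := lt_min hκ₂ one_pos; positivity
  have hκ'2 : (1 + κ') * (1 + κ') ≤ 1 + κ₂ := by
    have h1 : 4 * κ' ≤ κ₂ := by rw [hκ']; have := min_le_left κ₂ 1; linarith
    have h2 : 4 * κ' ≤ 1 := by rw [hκ']; have := min_le_right κ₂ 1; linarith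
    nlinarith
  obtain ⟨t, ht, s₁, hs₁, hratio⟩ := WnH_ratio (M := M) hc₂ hκ'0
  obtain ⟨δv, hδv, hvol⟩ := hB.fvol κ' hκ'0
  obtain ⟨δm, hδm, hδm1, hmul⟩ := hB.fmul δv hδv
  obtain ⟨C', hC'1, hsmall⟩ := small_memH B hc₂
  obtain ⟨C'', hC''1, hdec⟩ := exists_dec_small M
  have hC0 := M.one_le_C0
  have h1κ : 0 < 1 - κ := by linarith
  have ht1 : 0 < t - 1 := by linarith
  obtain ⟨κ₀, hκ₀, hκ₀1, hκ₀b⟩ := exists_pos_lt M.Φ
    (fun b => (t - 1) * (1 - κ) * c₂ / (M.C0 * (‖b‖ + 1))) (by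
      intro b hb
      positivity)
  set κ₁ : ℝ := min κ₀ (κ * c₂ / (2 * C')) with hκ₁def
  have hκ₁ : 0 < κ₁ := lt_min hκ₀ (by positivity)
  have hκ₁1 : κ₁ ≤ 1 := (min_le_left _ _).trans hκ₀1
  refine ⟨κ₁, hκ₁, ?_⟩
  intro d₁ δ hd₁ hδ hδd
  have hb1 : C' * κ₁ < κ * c₂ := by
    have h1 : κ₁ ≤ κ * c₂ / (2 * C') := min_le_right _ _
    rw [le_div_iff₀ (by linarith)] at h1
    have h2 : 0 < C' * κ₁ := by positivity
    nlinarith
  have hb2 : ∀ b ∈ M.Φ, ‖b‖ * (M.C0 * κ₁) ≤ (t - 1) * (1 - κ) * c₂ := by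
    intro b hb
    have h1 := lt_of_le_of_lt (min_le_left _ _ : κ₁ ≤ κ₀) (hκ₀b b hb)
    rw [lt_div_iff₀ (by positivity)] at h1
    have h2 := norm_nonneg b
    have h3 : 0 < M.C0 * κ₁ := by positivity
    nlinarith
  have hev := hsmall κ κ₁ δ d₁ (δm * Λ) hκ hκ1 hκ₁ hκ₁1 hb1 hδ hδd (by positivity)
  obtain ⟨s₀, hs₀⟩ := hev.exists_forall_of_atTop
  refine ⟨max (max s₀ 1) (s₁ / (1 - κ)), fun s hs h hh => ?_⟩
  have hss₀ : s₀ ≤ s := (le_max_left _ _).trans ((le_max_left _ _).trans hs)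
  have hs1 : 1 ≤ s := (le_max_right _ _).trans ((le_max_left _ _).trans hs)
  have hss₁ : s₁ ≤ (1 - κ) * s := by
    have h1 : s₁ / (1 - κ) ≤ s := (le_max_right _ _).trans hs
    rw [div_le_iff₀ (by linarith)] at h1
    linarith
  have hu0 : 0 < (1 - κ) * s := hs₁.trans_le hss₁
  have hsz : ∀ i, 0 < Λ * M.szh h d₁ s i := fun i => mul_pos hΛ (szh_pos h d₁ s i)
  set D : Set S := BW M (B.Bx fun i => Λ * M.szh h d₁ s i) (WnH M h ((1 - κ) * s)) with hD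
  set Dp : Set S := BW M (B.Bx fun i => (1 + δv) * (Λ * M.szh h d₁ s i))
    (WnH M h (t * ((1 - κ) * s))) with hDp
  have hsub : ∀ z ∈ D, ∀ g, ((M.l g : ℝ) ≤ κ₁ * s ∨ g ∈ M.FB δ (κ₁ * s)) → z * g ∈ Dp := by
    intro z hz g hg
    refine mul_mem_BWH B hΛ hmul hz (hs₀ s hss₀ h hh _ hz.2 g hg) ?_
    intro b hb
    obtain ⟨_, _, _, _, _, _, _, _, _, _, _, hθ⟩ := hdec κ₁ δ s hκ₁ hκ₁1 hδ hs1 g hg
    have h1 : b (M.θ g) ≤ ‖b‖ * ‖M.θ g‖ := (le_abs_self _).trans (b.le_opNorm _)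
    have h2 : ‖b‖ * ‖M.θ g‖ ≤ ‖b‖ * (M.C0 * (κ₁ * s)) :=
      mul_le_mul_of_nonneg_left hθ (norm_nonneg _)
    have h3 := mul_le_mul_of_nonneg_right (hb2 b hb) (by linarith : (0 : ℝ) ≤ s)
    have h4 : (t - 1) * ((1 - κ) * s) * c₂ ≤ (t - 1) * ((1 - κ) * s) * h b :=
      mul_le_mul_of_nonneg_left (hh b hb).1 (by positivity)
    calc b (M.θ g) ≤ ‖b‖ * (M.C0 * (κ₁ * s)) := h1.trans h2
      _ = ‖b‖ * (M.C0 * κ₁) * s := by ring
      _ ≤ (t - 1) * (1 - κ) * c₂ * s := h3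
      _ = (t - 1) * ((1 - κ) * s) * c₂ := by ring
      _ ≤ _ := h4
  have hμD : M.μ D = (WnH M h ((1 - κ) * s)).ncard * M.μ (B.Bx fun i => Λ * M.szh h d₁ s i) :=
    BW_measure (B.meas _) (B.sub _) (WnH_finite h hu0)
  have hμDp : M.μ Dp = (WnH M h (t * ((1 - κ) * s))).ncard *
      M.μ (B.Bx fun i => (1 + δv) * (Λ * M.szh h d₁ s i)) :=
    BW_measure (B.meas _) (B.sub _) (WnH_finite h (by positivity))
  have hne : (WnH M h ((1 - κ) * s)).ncard ≠ 0 :=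
    ((Set.ncard_pos (WnH_finite h hu0)).2 ⟨0, zero_mem_WnH hc₂ hh hu0.le⟩).ne'
  refine ⟨Dp, ⟨⟨?_, ?_, ?_, ?_, ?_, ?_⟩, ?_⟩⟩
  · show MeasurableSet D
    exact BW_meas (B.meas _) (B.sub _) _
  · show MeasurableSet Dp
    exact BW_meas (B.meas _) (B.sub _) _
  · show M.μ D ≠ 0
    rw [hμD]
    exact mul_ne_zero (by exact_mod_cast hne) (B.pos _ hsz)
  · show M.μ D ≠ ⊤
    rw [hμD]
    exact ENNReal.mul_ne_top (ENNReal.natCast_ne_top _) (B.fin _)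
  · intro z hz g hg
    exact hsub z hz g (Or.inl hg)
  · show M.μ Dp ≤ ENNReal.ofReal (1 + κ₂) * M.μ D
    rw [hμD, hμDp]
    have h1 : ((WnH M h (t * ((1 - κ) * s))).ncard : ℝ≥0∞) ≤
        ENNReal.ofReal (1 + κ') * (WnH M h ((1 - κ) * s)).ncard :=
      natCast_le_ofReal (by linarith) (hratio _ hss₁ h hh)
    have h2 := hvol _ hsz
    calc ((WnH M h (t * ((1 - κ) * s))).ncard : ℝ≥0∞) *
          M.μ (B.Bx fun i => (1 + δv) * (Λ * M.szh h d₁ s i))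
        ≤ (ENNReal.ofReal (1 + κ') * (WnH M h ((1 - κ) * s)).ncard) *
          (ENNReal.ofReal (1 + κ') * M.μ (B.Bx fun i => Λ * M.szh h d₁ s i)) :=
          mul_le_mul' h1 h2
      _ = (ENNReal.ofReal (1 + κ') * ENNReal.ofReal (1 + κ')) *
          ((WnH M h ((1 - κ) * s)).ncard * M.μ (B.Bx fun i => Λ * M.szh h d₁ s i)) := by ring
      _ ≤ ENNReal.ofReal (1 + κ₂) *
          ((WnH M h ((1 - κ) * s)).ncard * M.μ (B.Bx fun i => Λ * M.szh h d₁ s i)) := by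
          gcongr
          rw [← ENNReal.ofReal_mul (by linarith)]
          exact ENNReal.ofReal_le_ofReal hκ'2
  · intro z hz g hg
    exact hsub z hz g (Or.inr hg)

/-- **DVOLH** -/
theorem dvolH (B : M.NatBox) : M.DVOLH B := by
  classical
  intro c₂ hc₂ κ κ₄ Λ δ hκ hκ1 hκ₄ hΛ hδ
  obtain ⟨CP, hCP0, hCP⟩ := exists_bdd M
  obtain ⟨C', hC'⟩ := B.dbl (max 1 (Λ / δ)) (le_max_left _ _)
  obtain ⟨C, s₀, hs₀, hC0, hC⟩ := ball_dbl k (A := CP * c₂⁻¹) (a := κ₄) (by positivity) hκ₄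
  refine ⟨C * max C' 0, fun d₁ hd₁ => ⟨max s₀ 1, fun s hs h hh => ?_⟩⟩
  have hss₀ : s₀ ≤ s := (le_max_left _ _).trans hs
  have hs1 : 1 ≤ s := (le_max_right _ _).trans hs
  have hs0 : 0 < s := by linarith
  have h1κ : 0 < 1 - κ := by linarith
  have hszp : ∀ i, 0 < M.szh h d₁ s i := szh_pos h d₁ s
  set W4 : Set (Fin k → ℤ) := {w | ‖vec w‖ ≤ κ₄ * s} with hW4
  have hW4f : W4.Finite := ball_finite _
  have hsub : WnH M h ((1 - κ) * s) ⊆ {w | ‖vec w‖ ≤ CP * c₂⁻¹ * s} := by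
    intro w hw
    have h1 := hCP (vec w) (c₂⁻¹ * s) (by positivity) fun b hb => by
      obtain ⟨h3, h4⟩ := hh b hb
      calc b (vec w) ≤ (1 - κ) * s * h b := hw b hb
        _ ≤ 1 * s * c₂⁻¹ := by
            have h5 : 0 ≤ (1 - κ) * s := by positivity
            have h6 : (1 - κ) * s ≤ 1 * s := mul_le_mul_of_nonneg_right (by linarith) hs0.le
            exact mul_le_mul h6 h4 (hc₂.le.trans h3) (by linarith)
        _ = c₂⁻¹ * s := by ring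
    rw [← mul_assoc] at h1
    exact h1
  have hDsm : M.μ (B.DsmH h δ d₁ κ₄ s) = W4.ncard * M.μ (B.Bx fun i => δ * M.szh h d₁ s i) :=
    BW_measure (B.meas _) (B.sub _) hW4f
  have hDb : M.μ (B.DboxH h Λ d₁ κ s) = (WnH M h ((1 - κ) * s)).ncard *
      M.μ (B.Bx fun i => Λ * M.szh h d₁ s i) :=
    BW_measure (B.meas _) (B.sub _) (WnH_finite h (by positivity))
  rw [hDb, hDsm]
  have h1 : ((WnH M h ((1 - κ) * s)).ncard : ℝ≥0∞) ≤ ENNReal.ofReal C * W4.ncard := by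
    refine natCast_le_ofReal hC0 (le_trans ?_ (hC s hss₀))
    exact_mod_cast Set.ncard_le_ncard hsub (ball_finite _)
  have h2 : M.μ (B.Bx fun i => Λ * M.szh h d₁ s i) ≤
      ENNReal.ofReal (max C' 0) * M.μ (B.Bx fun i => δ * M.szh h d₁ s i) := by
    have h3 := hC' (fun i => δ * M.szh h d₁ s i) fun i => mul_pos hδ (hszp i)
    have h4 : B.Bx (fun i => Λ * M.szh h d₁ s i) ⊆
        B.Bx (fun i => max 1 (Λ / δ) * (δ * M.szh h d₁ s i)) := by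
      refine B.mono _ _ (fun i => (mul_pos hΛ (hszp i)).le) fun i => ?_
      have h5 : Λ / δ ≤ max 1 (Λ / δ) := le_max_right _ _
      have h6 : Λ * M.szh h d₁ s i = Λ / δ * (δ * M.szh h d₁ s i) := by field_simp
      rw [h6]
      exact mul_le_mul_of_nonneg_right h5 (mul_pos hδ (hszp i)).le
    calc M.μ (B.Bx fun i => Λ * M.szh h d₁ s i) ≤ _ := measure_mono h4
      _ ≤ ENNReal.ofReal C' * M.μ (B.Bx fun i => δ * M.szh h d₁ s i) := h3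
      _ ≤ _ := by
        gcongr
        exact le_max_left _ _
  calc ((WnH M h ((1 - κ) * s)).ncard : ℝ≥0∞) * M.μ (B.Bx fun i => Λ * M.szh h d₁ s i)
      ≤ (ENNReal.ofReal C * W4.ncard) *
        (ENNReal.ofReal (max C' 0) * M.μ (B.Bx fun i => δ * M.szh h d₁ s i)) := mul_le_mul' h1 h2
    _ = (ENNReal.ofReal C * ENNReal.ofReal (max C' 0)) *
        (W4.ncard * M.μ (B.Bx fun i => δ * M.szh h d₁ s i)) := by ring
    _ = ENNReal.ofReal (C * max C' 0) *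
        (W4.ncard * M.μ (B.Bx fun i => δ * M.szh h d₁ s i)) := by rw [ENNReal.ofReal_mul hC0]

end DB

end Vale.Agent.P188.Z1

end
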