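import Vale.Agent.P188.R.G099
import Vale.Agent.P188.R.G078
import Vale.Agent.P188.R.G084
import Vale.Agent.P188.R.G081
import Vale.Agent.P188.R.G058
import Vale.Agent.P188.R.G086

section

/-!
# P188, Z1, block COH, part 7: good linear parts
-/

set_option linter.all false

open MeasureTheory Set
open scoped ENNReal
open Agent.P188.H428 (IsLen)
open Vale.Agent.P188.H530 (hgt hgt_mul Crossed Mod TrP RayLin psi_pat rayMap_eq_of_pat
  exists_max_norm exists_rayLin exists_net_rays iv)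

namespace Vale.Agent.P188.Z1

/-- parameters of the good linear parts -/
structure Par where
  L : ℝ
  c₁ : ℝ
  t₀ : ℝ
  t₁ : ℝ
  δ : ℝ
  C : ℝ
  W : ℝ
  ε : ℝ
  c : ℕ
  K : ℕ
  P : Finset (ℕ × ℝ)

namespace RModel

variable {S : Type} [Group S] [MeasurableSpace S] {Γ : Type} [Group Γ]
  {V : Type} [AddCommGroup V] [Module ℝ V] {k : ℕ}

/-- good linear parts -/
structure GT (M : RModel S Γ V k) (Φ₁ : Finset (Ht k →L[ℝ] ℝ)) (q : Par) (n : ℕ)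
    (T : Ht k →L[ℝ] Ht k) : Prop where
  norm : ‖T‖ ≤ q.L
  tr : TrP (hgt (M.η.comp M.inG)) M.A (hgt (M.η.comp M.inG)) M.A q.c q.K q.C q.W q.ε n q.P T
  inv : M.HasInv q.c q.K q.C q.W q.ε n q.P q.c₁ q.δ T
  ray : ∃ β t, RayLin Φ₁ T β t q.t₀ q.t₁ q.δ

variable {M : RModel S Γ V k}

theorem Rays.span {Φ₁ : Finset (Ht k →L[ℝ] ℝ)} (h : M.Rays Φ₁) (w : Ht k)
    (hw : ∀ b ∈ Φ₁, b w = 0) : w = 0 := by
  refine M.Φ_span w fun b hb => ?_
  obtain ⟨b₁, hb₁, t, -, rfl⟩ := h.ex b hb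
  rw [ContinuousLinearMap.smul_apply, hw b₁ hb₁, smul_zero]

theorem Rays.crossed {Φ₁ : Finset (Ht k →L[ℝ] ℝ)} (h : M.Rays Φ₁) :
    ∀ b ∈ Φ₁, ∃ c : Crossed (hgt (M.η.comp M.inG)) b, c.u ∈ M.A :=
  fun b hb => M.crossed b (h.sub hb)

/-- minimum of `|b v|` over finite sets -/
theorem exists_min_pair (Φ₁ : Finset (Ht k →L[ℝ] ℝ)) (V₁ : Finset (Fin k → ℤ))
    (h : ∀ b ∈ Φ₁, ∀ v ∈ V₁, b (ht v) ≠ 0) :
    ∃ δ₁ : ℝ, 0 < δ₁ ∧ ∀ v ∈ V₁, ∀ b ∈ Φ₁, δ₁ ≤ |b (ht v)| := by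
  classical
  rcases (Φ₁ ×ˢ V₁).eq_empty_or_nonempty with he | hne
  · refine ⟨1, one_pos, fun v hv b hb => ?_⟩
    have : (b, v) ∈ Φ₁ ×ˢ V₁ := Finset.mem_product.mpr ⟨hb, hv⟩
    rw [he] at this
    exact absurd this (Finset.notMem_empty _)
  · refine ⟨(Φ₁ ×ˢ V₁).inf' hne fun x => |x.1 (ht x.2)|, ?_, fun v hv b hb => ?_⟩
    · rw [Finset.lt_inf'_iff]
      intro x hx
      rw [Finset.mem_product] at hx
      exact abs_pos.mpr (h _ hx.1 _ hx.2)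
    · exact Finset.inf'_le (f := fun x : (Ht k →L[ℝ] ℝ) × (Fin k → ℤ) => |x.1 (ht x.2)|)
        (Finset.mem_product.mpr ⟨hb, hv⟩ : (b, v) ∈ Φ₁ ×ˢ V₁)

theorem exists_max_ht (V₁ : Finset (Fin k → ℤ)) :
    ∃ B : ℝ, 0 < B ∧ ∀ v ∈ V₁, ‖(ht v : Ht k)‖ ≤ B := by
  refine ⟨1 + ∑ v ∈ V₁, ‖(ht v : Ht k)‖, ?_, fun v hv => ?_⟩
  · have : 0 ≤ ∑ v ∈ V₁, ‖(ht v : Ht k)‖ := Finset.sum_nonneg fun j _ => norm_nonneg _
    linarith
  · have := Finset.single_le_sum (f := fun v : Fin k → ℤ => ‖(ht v : Ht k)‖)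
      (fun i _ => norm_nonneg _) hv
    linarith

/-- the label of a linear map: pattern of signs -/
def patF (Φ₁ : Finset (Ht k →L[ℝ] ℝ)) (V₁ : Finset (Fin k → ℤ)) (T : Ht k →L[ℝ] Ht k) :
    V₁ → Set (Ht k →L[ℝ] ℝ) :=
  fun v => {b | b ∈ Φ₁ ∧ 0 < b (T (ht (v : Fin k → ℤ)))}

theorem GT.label {Φ₁ : Finset (Ht k →L[ℝ] ℝ)} {q : Par} {n : ℕ} {T : Ht k →L[ℝ] Ht k}
    (h : M.GT Φ₁ q n T) (hΦ₁ : M.Rays Φ₁) {V₁ : Finset (Fin k → ℤ)} (hV₁ : M.Dirs Φ₁ V₁)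
    {δ₁ c₀ VB : ℝ} (hδ₁ : 0 < δ₁) (hδ₁' : ∀ v ∈ V₁, ∀ b ∈ Φ₁, δ₁ ≤ |b (ht v)|)
    (hVB : ∀ v ∈ V₁, ‖(ht v : Ht k)‖ ≤ VB) (ht₀ : 0 ≤ q.t₀) (hδ : 0 ≤ q.δ) (hc₀ : 0 < c₀)
    (hc : c₀ + q.δ * VB ≤ q.t₀ * δ₁) :
    ∀ v : V₁, (∀ b ∈ Φ₁, (b ∈ patF Φ₁ V₁ T v → c₀ ≤ b (T (ht v))) ∧
          (b ∉ patF Φ₁ V₁ T v → b (T (ht v)) ≤ -c₀)) ∧
        (patF Φ₁ V₁ T v).ncard = {b | b ∈ Φ₁ ∧ 0 < b (ht (v : Fin k → ℤ))}.ncard ∧
        patF Φ₁ V₁ T v ⊆ ↑Φ₁ := by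
  obtain ⟨β, t, hr⟩ := h.ray
  rintro ⟨v, hv⟩
  have hs := hr.sign (v := ht v) (δ₁ := δ₁) (c₀ := c₀) hδ₁.le ht₀ (hδ₁' v hv)
    (fun b hb => hV₁.generic v hv b (M.Φ_sub (hΦ₁.sub hb)) (M.Φ_ne b (hΦ₁.sub hb)))
    (by
      have := mul_le_mul_of_nonneg_left (hVB v hv) hδ
      linarith)
  refine ⟨fun b hb => ⟨fun h1 => ?_, fun h1 => ?_⟩, hr.ncard hc₀ hs, fun b hb => hb.1⟩
  · rcases hs b hb with h2 | h2
    · exact h2.2
    · have : 0 < b (T (ht v)) := h1.2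
      linarith [h2.2]
  · rcases hs b hb with h2 | h2
    · exact absurd ⟨hb, by linarith [h2.2]⟩ h1
    · exact h2.2

/-- Good linear parts with the same label are close. -/
theorem GT.close {Φ₁ : Finset (Ht k →L[ℝ] ℝ)} {q : Par} {n : ℕ} {T₁ T₂ : Ht k →L[ℝ] Ht k}
    (h1 : M.GT Φ₁ q n T₁) (h2 : M.GT Φ₁ q n T₂) (hΦ₁ : M.Rays Φ₁) {V₁ : Finset (Fin k → ℤ)}
    (hV₁ : M.Dirs Φ₁ V₁)
    {δ₁ c₀ VB κ : ℝ} (hδ₁ : 0 < δ₁) (hδ₁' : ∀ v ∈ V₁, ∀ b ∈ Φ₁, δ₁ ≤ |b (ht v)|)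
    (hVB : ∀ v ∈ V₁, ‖(ht v : Ht k)‖ ≤ VB) (ht₀ : 0 ≤ q.t₀) (hδ : 0 ≤ q.δ) (hc₀ : 0 < c₀)
    (hc : c₀ + q.δ * VB ≤ q.t₀ * δ₁) (hL : q.c₁⁻¹ ≤ q.L)
    (H : ∀ (T₁ T₂ T₁' T₂' : Ht k →L[ℝ] Ht k) (β β₂ : (Ht k →L[ℝ] ℝ) → (Ht k →L[ℝ] ℝ))
        (t s : (Ht k →L[ℝ] ℝ) → ℝ),
        ‖T₁‖ ≤ q.L → ‖T₂‖ ≤ q.L → ‖T₁'‖ ≤ q.L → ‖T₂'‖ ≤ q.L →
        TrP (hgt (M.η.comp M.inG)) M.A (hgt (M.η.comp M.inG)) M.A q.c q.K q.C q.W q.ε n q.P T₁ →
        TrP (hgt (M.η.comp M.inG)) M.A (hgt (M.η.comp M.inG)) M.A q.c q.K q.C q.W q.ε n q.P T₂ →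
        TrP (hgt (M.η.comp M.inG)) M.A (hgt (M.η.comp M.inG)) M.A q.c q.K q.C q.W q.ε n q.P T₁' →
        TrP (hgt (M.η.comp M.inG)) M.A (hgt (M.η.comp M.inG)) M.A q.c q.K q.C q.W q.ε n q.P T₂' →
        (∀ y, ‖T₁ (T₁' y) - y‖ ≤ q.δ * ‖y‖) → (∀ x, ‖T₂' (T₂ x) - x‖ ≤ q.δ * ‖x‖) →
        RayLin Φ₁ T₁ β t q.t₀ q.t₁ q.δ → RayLin Φ₁ T₂ β₂ s q.t₀ q.t₁ q.δ →
        (∀ b ∈ Φ₁, β b = β₂ b) → ‖T₂ - T₁‖ ≤ κ)
    (hpat : patF Φ₁ V₁ T₁ = patF Φ₁ V₁ T₂) : ‖T₂ - T₁‖ ≤ κ := by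
  obtain ⟨β, t, hr1⟩ := h1.ray
  obtain ⟨β₂, s, hr2⟩ := h2.ray
  obtain ⟨T₁', i1, i2, i3, i4⟩ := h1.inv
  obtain ⟨T₂', j1, j2, j3, j4⟩ := h2.inv
  refine H T₁ T₂ T₁' T₂' β β₂ t s h1.norm h2.norm (i1.trans hL) (j1.trans hL) h1.tr h2.tr i4 j4 i2
    j3 hr1 hr2 ?_
  have hs : ∀ {T : Ht k →L[ℝ] Ht k} {β : (Ht k →L[ℝ] ℝ) → (Ht k →L[ℝ] ℝ)}
      {t : (Ht k →L[ℝ] ℝ) → ℝ} (hr : RayLin Φ₁ T β t q.t₀ q.t₁ q.δ),
      ∀ v ∈ (ht '' (V₁ : Set (Fin k → ℤ)) : Set (Ht k)), ∀ b ∈ Φ₁,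
      (0 < β b v ∧ c₀ ≤ b (T v)) ∨ (β b v < 0 ∧ b (T v) ≤ -c₀) := by
    rintro T β t hr _ ⟨v, hv, rfl⟩
    exact hr.sign (v := ht v) (δ₁ := δ₁) (c₀ := c₀) hδ₁.le ht₀ (hδ₁' v hv)
      (fun b hb => hV₁.generic v hv b (M.Φ_sub (hΦ₁.sub hb)) (M.Φ_ne b (hΦ₁.sub hb)))
      (by
        have := mul_le_mul_of_nonneg_left (hVB v hv) hδ
        linarith)
  refine rayMap_eq_of_pat hr1 hr2 hc₀ (V₁ := ht '' (V₁ : Set (Fin k → ℤ))) ?_ (hs hr1) (hs hr2) ?_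
  · intro b hb b' hb' hbb
    exact hV₁.sep b hb b' hb' fun v hv => hbb _ ⟨v, hv, rfl⟩
  · rintro _ ⟨v, hv, rfl⟩ b hb hbv
    have h3 : b ∈ patF Φ₁ V₁ T₁ ⟨v, hv⟩ := ⟨hb, hbv⟩
    rw [hpat] at h3
    exact h3.2

open Classical in
/-- the linear map chosen for a label -/
noncomputable def selT (M : RModel S Γ V k) (Φ₁ : Finset (Ht k →L[ℝ] ℝ))
    (V₁ : Finset (Fin k → ℤ)) (q : Par) (n : ℕ) (s : V₁ → Set (Ht k →L[ℝ] ℝ)) :
    Ht k →L[ℝ] Ht k :=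
  if h : ∃ T, M.GT Φ₁ q n T ∧ patF Φ₁ V₁ T = s then Classical.choose h else 0

theorem selT_spec {Φ₁ : Finset (Ht k →L[ℝ] ℝ)} {V₁ : Finset (Fin k → ℤ)} {q : Par} {n : ℕ}
    {T : Ht k →L[ℝ] Ht k} (h : M.GT Φ₁ q n T) :
    M.GT Φ₁ q n (M.selT Φ₁ V₁ q n (patF Φ₁ V₁ T)) ∧
      patF Φ₁ V₁ (M.selT Φ₁ V₁ q n (patF Φ₁ V₁ T)) = patF Φ₁ V₁ T := by
  have hex : ∃ T', M.GT Φ₁ q n T' ∧ patF Φ₁ V₁ T' = patF Φ₁ V₁ T := ⟨T, h, rfl⟩
  rw [selT, dif_pos hex]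
  exact Classical.choose_spec hex

end RModel

end Vale.Agent.P188.Z1

end

section

/-!
# P188, Z1, block BOXQ: isotropic fat boxes
-/

set_option linter.all false

open MeasureTheory Set Filter
open Vale.Agent.P188.H530 (hgt hgt_mul)

namespace Vale.Agent.P188.Z1

namespace RModel

variable {S : Type} [Group S] [MeasurableSpace S] {Γ : Type} [Group Γ]
  {V : Type} [AddCommGroup V] [Module ℝ V] {k : ℕ} (M : RModel S Γ V k)

/-! ### products in fat balls, any bound on `δ` -/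

theorem fb_mul_gen (D : ℝ) (hD : 1 ≤ D) : ∃ C : ℝ, 1 ≤ C ∧ ∀ δ : ℝ, 0 < δ → δ ≤ D →
    ∃ R₀ : ℝ, ∀ R : ℝ, R₀ ≤ R → ∀ g ∈ M.FB δ R, ∀ g' ∈ M.FB δ R, g * g' ∈ M.FB (C * δ) (C * R) := by
  obtain ⟨C, hC, h⟩ := M.fb_mulD
  refine ⟨C * D, by nlinarith, fun δ hδ hδD => ?_⟩
  have hD0 : 0 < D := by linarith
  obtain ⟨R₀, h'⟩ := h (δ / D) (by positivity) (by rw [div_le_one hD0]; exact hδD)
  refine ⟨max R₀ 0, fun R hR g hg g' hg' => ?_⟩
  have hR0 : 0 ≤ R := (le_max_right _ _).trans hR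
  have hRR : R₀ ≤ R := (le_max_left _ _).trans hR
  have h1 : M.FB δ R ⊆ M.FB (δ / D) (D * R) := by
    refine M.FB_mono (by nlinarith) (le_of_eq ?_)
    field_simp
  refine M.FB_mono ?_ ?_ (h' (D * R) (by nlinarith) g (h1 hg) g' (h1 hg'))
  · exact le_of_eq (by ring)
  · have e : C * (δ / D) * (C * (D * R)) = C * δ * (C * R) := by field_simp
    have e2 : C * D * δ * (C * D * R) = C * δ * (C * R) * (D * D) := by ring
    rw [e, e2]
    have : 0 ≤ C * δ * (C * R) := by positivity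
    exact le_mul_of_one_le_right this (by nlinarith)

theorem one_mem_FB : ∃ C : ℝ, 1 ≤ C ∧ ∀ δ : ℝ, 0 < δ → ∃ R₀ : ℝ, ∀ R : ℝ, R₀ ≤ R →
    (1 : S) ∈ M.FB (C * δ) R := by
  obtain ⟨C, hC, h⟩ := M.fb_neutral
  refine ⟨C, hC, fun δ hδ => ?_⟩
  obtain ⟨R₀, h'⟩ := h δ hδ
  refine ⟨R₀, fun R hR => ?_⟩
  have := h' R hR 0 (Submodule.zero_mem _) (by rw [map_zero]; exact (Real.exp_pos _).le)
  rwa [M.ex_zero] at this

/-- products of bounded length -/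
theorem fb_prod (n : ℕ) : ∀ D : ℝ, 1 ≤ D → ∃ C : ℝ, 1 ≤ C ∧ ∀ δ : ℝ, 0 < δ → δ ≤ D →
    ∃ R₀ : ℝ, ∀ R : ℝ, R₀ ≤ R → ∀ L : List S, L.length ≤ n → (∀ a ∈ L, a ∈ M.FB δ R) →
      L.prod ∈ M.FB (C * δ) (C * R) := by
  induction n with
  | zero =>
    intro D hD
    obtain ⟨C, hC, h⟩ := M.one_mem_FB
    refine ⟨C, hC, fun δ hδ _ => ?_⟩
    obtain ⟨R₀, h'⟩ := h δ hδ
    refine ⟨max R₀ 0, fun R hR L hL _ => ?_⟩
    have hR0 : 0 ≤ R := (le_max_right _ _).trans hR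
    have hRR : R₀ ≤ R := (le_max_left _ _).trans hR
    have : L = [] := List.eq_nil_of_length_eq_zero (by omega)
    rw [this, List.prod_nil]
    exact M.fb_monoD (by positivity) le_rfl hR0 (by nlinarith) (h' R hRR)
  | succ n ih =>
    intro D hD
    obtain ⟨C₁, hC₁, h1⟩ := ih D hD
    obtain ⟨C₂, hC₂, h2⟩ := M.fb_mul_gen (C₁ * D) (by nlinarith)
    refine ⟨C₂ * C₁, by nlinarith, fun δ hδ hδD => ?_⟩
    obtain ⟨R₁, h1'⟩ := h1 δ hδ hδD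
    obtain ⟨R₂, h2'⟩ := h2 (C₁ * δ) (by positivity) (mul_le_mul_of_nonneg_left hδD (by linarith))
    refine ⟨max (max R₁ R₂) 0, fun R hR L hL hLm => ?_⟩
    have hR0 : 0 ≤ R := (le_max_right _ _).trans hR
    have hR1 : R₁ ≤ R := le_trans (by simp) hR
    have hR2 : R₂ ≤ R := le_trans (by simp) hR
    cases L with
    | nil =>
      have h3 := h1' R hR1 [] (by simp) (by simp)
      refine M.fb_monoD (by positivity) ?_ (by positivity) ?_ h3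
      · rw [mul_assoc]; exact le_mul_of_one_le_left (by positivity) hC₂
      · rw [mul_assoc]; exact le_mul_of_one_le_left (by positivity) hC₂
    | cons a L =>
      rw [List.prod_cons]
      rw [List.length_cons] at hL
      have h3 := h1' R hR1 L (by omega) fun b hb => hLm b (List.mem_cons_of_mem _ hb)
      have h4 : a ∈ M.FB (C₁ * δ) (C₁ * R) :=
        M.fb_monoD hδ.le (le_mul_of_one_le_left hδ.le hC₁) hR0 (le_mul_of_one_le_left hR0 hC₁)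
          (hLm a (List.mem_cons_self ..))
      have h5 := h2' (C₁ * R) (hR2.trans (le_mul_of_one_le_left hR0 hC₁)) a h4 _ h3
      rwa [← mul_assoc, ← mul_assoc] at h5

/-- exponentials of vectors of `e` -/
theorem e_mem_FB : ∃ C : ℝ, 1 ≤ C ∧ ∀ δ : ℝ, 0 < δ → ∃ R₀ : ℝ, ∀ R : ℝ, R₀ ≤ R → ∀ v ∈ M.e,
    M.nm v ≤ Real.exp R → M.ex v ∈ M.FB (C * δ) R := by
  have hη : M.η (M.τ 0)⁻¹ = 1 := by rw [map_inv, M.η_τ]; simp
  obtain ⟨y₀, hy₀, hy₀e, -⟩ := M.C_ker _ _ (M.CB_inv (M.τ_CB 0)) hη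
  refine ⟨1, le_rfl, fun δ hδ => ?_⟩
  obtain ⟨R₀, h'⟩ := Filter.eventually_atTop.mp (ev_const (M.nm y₀) hδ)
  refine ⟨max R₀ 0, fun R hR v hv hvn => ?_⟩
  have hR0 : 0 ≤ R := (le_max_right _ _).trans hR
  have hRR : R₀ ≤ R := (le_max_left _ _).trans hR
  refine ⟨v, hv, hvn, y₀, hy₀, by rw [one_mul]; exact h' R hRR, 0, fun i => by simpa using hR0, ?_⟩
  rw [hy₀e]
  group

theorem τ_mem_FB : ∃ C : ℝ, 1 ≤ C ∧ ∀ δ : ℝ, 0 < δ → ∃ R₀ : ℝ, ∀ R : ℝ, R₀ ≤ R →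
    ∀ w : Fin k → ℤ, (∀ i, |(w i : ℝ)| ≤ R) → M.τ w ∈ M.FB (C * δ) R := by
  refine ⟨1, le_rfl, fun δ hδ => ⟨0, fun R hR w hw => ?_⟩⟩
  exact ⟨0, Submodule.zero_mem _, by rw [map_zero]; exact (Real.exp_pos _).le, 0,
    Submodule.zero_mem _, by rw [map_zero]; exact (Real.exp_pos _).le, w, hw, by
    rw [M.ex_zero]; group⟩

/-! ### isotropic boxes -/

variable {M} in
/-- isotropic box -/
noncomputable def NatBox.Iso (B : M.NatBox) (δ R : ℝ) : Set S :=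
  {z | z * (M.sec z)⁻¹ ∈ B.Bx (M.two (Real.exp (δ * R)) (Real.exp R)) ∧ ‖M.θ z‖ ≤ R}

variable {M}

theorem NatBox.Iso_meas (B : M.NatBox) (δ R : ℝ) : MeasurableSet (B.Iso δ R) := by
  have h : B.Iso δ R = BW M (B.Bx (M.two (Real.exp (δ * R)) (Real.exp R)))
      {w | ‖(fun i => (w i : ℝ) : Fin k → ℝ)‖ ≤ R} := rfl
  rw [h]
  exact BW_meas (B.meas _) (B.sub _) _

theorem two_nonneg {x y : ℝ} (hx : 0 ≤ x) (hy : 0 ≤ y) (i : M.ι) : 0 ≤ M.two x y i := by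
  unfold two; split_ifs <;> assumption

theorem two_le {x y x' y' : ℝ} (hx : x ≤ x') (hy : y ≤ y') (i : M.ι) :
    M.two x y i ≤ M.two x' y' i := by
  unfold two; split_ifs <;> assumption

/-- fat balls are contained in isotropic boxes -/
theorem NatBox.FB_sub_Iso (B : M.NatBox) : ∀ δ : ℝ, 0 < δ → ∃ R₀ : ℝ, ∀ R : ℝ, R₀ ≤ R →
    M.FB δ R ⊆ B.Iso (2 * δ) (2 * R) := by
  intro δ hδ
  have hB := B.one_le
  obtain ⟨R₁, h1⟩ := Filter.eventually_atTop.mp (ev_const (B.C * (B.C * 2)) hδ)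
  obtain ⟨R₂, h2⟩ := Filter.eventually_atTop.mp (ev_const (B.C * (B.C * 2)) (one_pos : (0:ℝ) < 1))
  refine ⟨max (max R₁ R₂) 0, fun R hR g hg => ?_⟩
  have hR0 : 0 ≤ R := (le_max_right _ _).trans hR
  have hR1 : R₁ ≤ R := le_trans (by simp) hR
  have hR2 : R₂ ≤ R := le_trans (by simp) hR
  have h1' := h1 R hR1
  have h2' := h2 R hR2
  rw [one_mul] at h2'
  obtain ⟨v, hv, hvn, y, hy, hyn, w, hw, rfl⟩ := hg
  have hη : M.η (M.ex v * M.ex y * M.τ w) = Multiplicative.ofAdd w := by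
    rw [map_mul, map_mul, M.η_ex, M.η_ex, M.η_τ]; simp
  have hE : 1 ≤ Real.exp (δ * R) := Real.one_le_exp (by positivity)
  have hE' : 1 ≤ Real.exp R := Real.one_le_exp hR0
  have hn1 := M.nm_nonneg v
  have hn2 := M.nm_nonneg y
  refine ⟨?_, ?_⟩
  · rw [sec_of_η hη]
    have e : M.ex v * M.ex y * M.τ w * (M.τ w)⁻¹ = M.ex v * M.ex y := by group
    rw [e]
    set R' : M.ι → ℝ := M.two (B.C * (2 * Real.exp (δ * R))) (B.C * (2 * Real.exp R)) with hR'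
    have hR'0 : ∀ i, 0 ≤ R' i := fun i => two_nonneg (by positivity) (by positivity) i
    have a1 : M.ex v ∈ B.Bx R' := by
      refine B.mono _ _ (fun i => two_nonneg zero_le_one (by positivity) i) (fun i => ?_)
        (B.ball_e v hv)
      exact two_le (by nlinarith) (mul_le_mul_of_nonneg_left (by linarith) (by linarith)) i
    have a2 : M.ex y ∈ B.Bx R' := by
      refine B.mono _ _ (fun i => two_nonneg (by positivity) zero_le_one i) (fun i => ?_)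
        (B.ball_0 y hy)
      exact two_le (mul_le_mul_of_nonneg_left (by linarith) (by linarith)) (by nlinarith) i
    have a3 := B.mul R' hR'0 _ a1 _ a2
    refine B.mono _ _ (fun i => mul_nonneg (by linarith) (hR'0 i)) (fun i => ?_) a3
    simp only [hR', two]
    split_ifs
    · have : Real.exp (2 * δ * (2 * R)) = Real.exp (δ * R) * Real.exp (δ * R) *
          (Real.exp (δ * R) * Real.exp (δ * R)) := by
        rw [← Real.exp_add, ← Real.exp_add]; congr 1; ring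
      rw [this]
      calc B.C * (B.C * (2 * Real.exp (δ * R))) = (B.C * (B.C * 2)) * Real.exp (δ * R) := by ring
        _ ≤ Real.exp (δ * R) * Real.exp (δ * R) :=
            mul_le_mul_of_nonneg_right h1' (by positivity)
        _ ≤ _ := le_mul_of_one_le_right (by positivity) (by nlinarith)
    · have : Real.exp (2 * R) = Real.exp R * Real.exp R := by
        rw [← Real.exp_add]; congr 1; ring
      rw [this]
      calc B.C * (B.C * (2 * Real.exp R)) = (B.C * (B.C * 2)) * Real.exp R := by ring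
        _ ≤ _ := mul_le_mul_of_nonneg_right h2' (by positivity)
  · have h3 : M.θ (M.ex v * M.ex y * M.τ w) = M.θ (M.τ w) :=
      M.θ_of_η (by rw [hη, M.η_τ])
    rw [h3, M.θ_τ]
    exact (norm_int_le hR0 hw).trans (by linarith)

/-- isotropic boxes are contained in fat balls -/
theorem NatBox.Iso_sub_FB (B : M.NatBox) (D : ℝ) (hD : 1 ≤ D) : ∃ C : ℝ, 1 ≤ C ∧ ∀ δ : ℝ, 0 < δ →
    δ ≤ D → ∃ R₀ : ℝ, ∀ R : ℝ, R₀ ≤ R → B.Iso δ R ⊆ M.FB (C * δ) (C * R) := by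
  have hB := B.one_le
  obtain ⟨C₁, hC₁, h1⟩ := M.fb_neutral
  obtain ⟨C₂, hC₂, h2⟩ := M.e_mem_FB
  obtain ⟨C₃, hC₃, h3⟩ := M.τ_mem_FB
  obtain ⟨C₄, hC₄, h4⟩ := M.fb_prod (B.m + 1) (D := C₁ * C₂ * C₃ * D) (by
    have : 1 ≤ C₁ * C₂ := by nlinarith
    have : 1 ≤ C₁ * C₂ * C₃ := by nlinarith
    nlinarith)
  refine ⟨2 * (C₄ * (C₁ * C₂ * C₃)), by
    have : 1 ≤ C₁ * C₂ := by nlinarith
    have : 1 ≤ C₁ * C₂ * C₃ := by nlinarith
    nlinarith, ?_⟩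
  intro δ hδ hδD
  have hC12 : 1 ≤ C₁ * C₂ := by nlinarith
  have hC123 : 1 ≤ C₁ * C₂ * C₃ := by nlinarith
  obtain ⟨R₁, h1'⟩ := h1 δ hδ
  obtain ⟨R₂, h2'⟩ := h2 δ hδ
  obtain ⟨R₃, h3'⟩ := h3 δ hδ
  obtain ⟨R₄, h4'⟩ := h4 (C₁ * C₂ * C₃ * δ) (by positivity)
    (mul_le_mul_of_nonneg_left hδD (by positivity))
  obtain ⟨R₅, h5⟩ := Filter.eventually_atTop.mp (ev_const B.C hδ)
  obtain ⟨R₆, h6⟩ := Filter.eventually_atTop.mp (ev_const B.C (one_pos : (0:ℝ) < 1))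
  refine ⟨max (max (max R₁ R₂) (max R₃ R₄)) (max (max R₅ R₆) 0), fun R hR z hz => ?_⟩
  have b1 : R₁ ≤ R := le_trans (by simp) hR
  have b2 : R₂ ≤ R := le_trans (by simp) hR
  have b3 : R₃ ≤ R := le_trans (by simp) hR
  have b4 : R₄ ≤ R := le_trans (by simp) hR
  have b5 : R₅ ≤ R := le_trans (by simp) hR
  have b6 : R₆ ≤ R := le_trans (by simp) hR
  have hR0 : 0 ≤ R := le_trans (by simp) hR
  clear hR
  have h5' := h5 R b5
  have h6' := h6 R b6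
  rw [one_mul] at h6'
  obtain ⟨hz1, hz2⟩ := hz
  obtain ⟨x, hx, hxe⟩ := B.gen _ (fun i => two_nonneg (Real.exp_pos _).le (Real.exp_pos _).le i) _ hz1
  set w : Fin k → ℤ := Multiplicative.toAdd (M.η z) with hw
  have hzw : z = (z * (M.sec z)⁻¹) * M.τ w := by
    have : M.sec z = M.τ w := rfl
    rw [this]; group
  -- all factors are in one fat ball
  have f1 : ∀ t, M.ex (x t • M.X (B.J t)) ∈ M.FB (C₁ * C₂ * C₃ * δ) (2 * R) := by
    intro t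
    have hn : M.nm (x t • M.X (B.J t)) ≤
        B.C * M.two (Real.exp (δ * R)) (Real.exp R) (B.J t) := by
      rw [M.nm_smul]
      exact (mul_le_of_le_one_right (abs_nonneg _) (M.X_le _)).trans (hx t)
    by_cases h0 : M.wt (B.J t) = 0
    · have hmem : x t • M.X (B.J t) ∈ M.Vw 0 := by
        have := Submodule.smul_mem _ (x t) (M.X_mem (B.J t))
        rwa [h0] at this
      have h7 := h1' (2 * R) (b1.trans (by linarith)) _ hmem (by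
        refine hn.trans ?_
        unfold two
        rw [if_pos h0]
        have e : Real.exp (δ * (2 * R)) = Real.exp (δ * R) * Real.exp (δ * R) := by
          rw [← Real.exp_add]; congr 1; ring
        rw [e]
        exact mul_le_mul_of_nonneg_right h5' (Real.exp_pos _).le)
      refine M.fb_monoD (by positivity) ?_ (by positivity) le_rfl h7
      have : C₁ * δ * 1 ≤ C₁ * δ * (C₂ * C₃) :=
        mul_le_mul_of_nonneg_left (by nlinarith) (by positivity)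
      nlinarith
    · have hmem : x t • M.X (B.J t) ∈ M.e :=
        M.Vw_e _ h0 (Submodule.smul_mem _ _ (M.X_mem _))
      have h7 := h2' (2 * R) (b2.trans (by linarith)) _ hmem (by
        refine hn.trans ?_
        unfold two
        rw [if_neg h0]
        have e : Real.exp (2 * R) = Real.exp R * Real.exp R := by
          rw [← Real.exp_add]; congr 1; ring
        rw [e]
        exact mul_le_mul_of_nonneg_right h6' (Real.exp_pos _).le)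
      refine M.fb_monoD (by positivity) ?_ (by positivity) le_rfl h7
      have : C₂ * δ * 1 ≤ C₂ * δ * (C₁ * C₃) :=
        mul_le_mul_of_nonneg_left (by nlinarith) (by positivity)
      nlinarith
  have f2 : M.τ w ∈ M.FB (C₁ * C₂ * C₃ * δ) (2 * R) := by
    have hwb : ∀ i, |(w i : ℝ)| ≤ 2 * R := by
      intro i
      have e1 := norm_le_pi_norm (M.θ z) i
      have e2 : M.θ z i = (w i : ℝ) := rfl
      rw [e2, Real.norm_eq_abs] at e1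
      linarith
    have h7 := h3' (2 * R) (b3.trans (by linarith)) w hwb
    refine M.fb_monoD (by positivity) ?_ (by positivity) le_rfl h7
    have : C₃ * δ * 1 ≤ C₃ * δ * (C₁ * C₂) :=
      mul_le_mul_of_nonneg_left (by nlinarith) (by positivity)
    nlinarith
  have h8 := h4' (2 * R) (b4.trans (by linarith))
    ((List.ofFn fun t => M.ex (x t • M.X (B.J t))) ++ [M.τ w]) (by simp) (by
      intro a ha
      rw [List.mem_append, List.mem_singleton, List.mem_ofFn] at ha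
      rcases ha with ⟨t, rfl⟩ | rfl
      · exact f1 t
      · exact f2)
  have h9 : ((List.ofFn fun t => M.ex (x t • M.X (B.J t))) ++ [M.τ w]).prod = z := by
    rw [List.prod_append, List.prod_singleton, ← hxe]
    exact hzw.symm
  rw [h9] at h8
  refine M.fb_monoD (by positivity) ?_ (by positivity) ?_ h8
  · have : 0 ≤ C₄ * (C₁ * C₂ * C₃) * δ := by positivity
    nlinarith
  · have : C₄ * (2 * R) * 1 ≤ C₄ * (2 * R) * (C₁ * C₂ * C₃) :=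
      mul_le_mul_of_nonneg_left hC123 (by positivity)
    nlinarith

/-- the box sets are contained in isotropic boxes -/
theorem NatBox.Dbox_sub_Iso (B : M.NatBox) (κ₁ : ℝ) (hκ₁ : 0 < κ₁) : ∃ C : ℝ, 1 ≤ C ∧
    ∀ δ : ℝ, 0 < δ → ∀ r : ℝ, 0 ≤ r →
      B.Dbox 1 (2 * δ * κ₁) (1 / 2) (r / κ₁) ⊆ B.Iso (2 * δ) (C * r) := by
  obtain ⟨Cw, hCw, hw⟩ := DB.exists_window_bdd M
  obtain ⟨E, hE1, hE⟩ := exists_top M.Φ fun b => en b
  have hc : 1 ≤ (Cw + E) / κ₁ + 1 := by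
    have : 0 ≤ (Cw + E) / κ₁ := by positivity
    linarith
  refine ⟨(Cw + E) / κ₁ + 1, hc, fun δ hδ r hr z hz => ?_⟩
  obtain ⟨hz1, hz2⟩ := hz
  have hrκ : 0 ≤ r / κ₁ := by positivity
  refine ⟨?_, ?_⟩
  · refine B.mono _ _ (fun i => ?_) (fun i => ?_) hz1
    · unfold sz
      split_ifs <;> positivity
    · unfold sz two
      rw [one_mul]
      split_ifs with h
      · refine Real.exp_le_exp.mpr ?_
        have e : 2 * δ * κ₁ * (r / κ₁) = 2 * δ * r := by field_simp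
        rw [e]
        have : 2 * δ * r * 1 ≤ 2 * δ * r * ((Cw + E) / κ₁ + 1) :=
          mul_le_mul_of_nonneg_left hc (by positivity)
        nlinarith
      · refine Real.exp_le_exp.mpr ?_
        have h1 : M.wt i ∈ M.Φ := (M.wt_mem i).resolve_right h
        have h2 := hE _ h1
        have e : ((Cw + E) / κ₁ + 1) * r = r / κ₁ * E + (Cw * (r / κ₁) + r) := by
          field_simp
          ring
        rw [e]
        have h3 : r / κ₁ * en (M.wt i) ≤ r / κ₁ * E := mul_le_mul_of_nonneg_left h2 hrκ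
        have h4 : 0 ≤ Cw * (r / κ₁) + r := by positivity
        linarith
  · have h1 := hw (M.θ z) ((1 - 1 / 2) * (r / κ₁)) (by positivity) hz2
    refine h1.trans ?_
    have e : ((Cw + E) / κ₁ + 1) * r = Cw * (r / κ₁) + (E * (r / κ₁) + r) := by
      field_simp
      ring
    rw [e]
    have h4 : 0 ≤ E * (r / κ₁) + r := by positivity
    have h5 : Cw * ((1 - 1 / 2) * (r / κ₁)) ≤ Cw * (r / κ₁) :=
      mul_le_mul_of_nonneg_left (by linarith) hCw.le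
    linarith

/-- **BOXQ from DBOX** -/
theorem boxq_of_dbox (B : M.NatBox) (hB : M.DBOX B) : M.BOXQ := by
  obtain ⟨κ₁, hκ₁, h1⟩ := hB (1 / 2) (by norm_num) (by norm_num) 1 one_pos (1 / 8) (by norm_num)
  obtain ⟨C₂, hC₂, h2⟩ := B.Dbox_sub_Iso κ₁ hκ₁
  obtain ⟨C₃, hC₃, h3⟩ := B.Iso_sub_FB 2 (by norm_num)
  obtain ⟨C₄, hC₄, h4⟩ := M.fb_of_lenD
  obtain ⟨C₅, hC₅, h5⟩ := M.fb_mul_gen (C₃ * 2) (by nlinarith)
  obtain ⟨C₆, hC₆, h6⟩ := B.Iso_sub_FB (2 * (C₅ * (C₃ * 2))) (by nlinarith)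
  set C' : ℝ := C₃ * C₂ + C₄ with hC'
  have hC'1 : 1 ≤ C' := by rw [hC']; nlinarith
  refine ⟨C₆ * (2 * (C₅ * (C₃ * 2))) + C₆ * (2 * (C₅ * C')), fun δ hδ hδ1 => ?_⟩
  obtain ⟨s₀, h1'⟩ := h1 (2 * δ * κ₁) δ (by positivity) hδ (by nlinarith)
  obtain ⟨R₃, h3'⟩ := h3 (2 * δ) (by positivity) (by linarith)
  obtain ⟨R₄, h4'⟩ := h4 (C₃ * (2 * δ)) (by positivity)
  obtain ⟨R₅, h5'⟩ := h5 (C₃ * (2 * δ)) (by positivity) (by nlinarith)
  obtain ⟨R₆, h6'⟩ := B.FB_sub_Iso (C₅ * (C₃ * (2 * δ))) (by positivity)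
  obtain ⟨R₇, h7'⟩ := h6 (2 * (C₅ * (C₃ * (2 * δ)))) (by positivity) (by
    have : C₅ * C₃ * δ ≤ C₅ * C₃ * 1 := mul_le_mul_of_nonneg_left hδ1 (by positivity)
    nlinarith)
  refine ⟨max (max (s₀ * κ₁) (max R₃ R₄)) (max (max R₅ R₆) (max R₇ 1)), fun r hr => ?_⟩
  have b0 : s₀ * κ₁ ≤ r := le_trans (by simp) hr
  have b3 : R₃ ≤ r := le_trans (by simp) hr
  have b4 : R₄ ≤ r := le_trans (by simp) hr
  have b5 : R₅ ≤ r := le_trans (by simp) hr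
  have b6 : R₆ ≤ r := le_trans (by simp) hr
  have b7 : R₇ ≤ r := le_trans (by simp) hr
  have hr1 : 1 ≤ r := le_trans (by simp) hr
  clear hr
  have hr0 : 0 ≤ r := by linarith
  have hs : s₀ ≤ r / κ₁ := by rw [le_div_iff₀ hκ₁]; exact b0
  obtain ⟨Dp, hDp⟩ := h1' (r / κ₁) hs
  have e1 : κ₁ * (r / κ₁) = r := by field_simp
  rw [e1] at hDp
  set Q := B.Dbox 1 (2 * δ * κ₁) (1 / 2) (r / κ₁) with hQ
  -- the enlarged set
  have hrC' : r ≤ C' * r := by nlinarith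
  have hQFB : Q ⊆ M.FB (C₃ * (2 * δ)) (C' * r) := by
    intro z hz
    have a1 := h2 δ hδ r hr0 hz
    have a2 := h3' (C₂ * r) (b3.trans (by nlinarith)) a1
    refine M.fb_monoD (by positivity) le_rfl (by positivity) ?_ a2
    rw [hC']
    have : 0 ≤ C₄ * r := by positivity
    nlinarith
  have hlen : ∀ g, (M.l g : ℝ) ≤ r → g ∈ M.FB (C₃ * (2 * δ)) (C' * r) := by
    intro g hg
    refine M.fb_monoD (by positivity) le_rfl (by positivity) ?_ (h4' r b4 g hg)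
    rw [hC']
    have : 0 ≤ C₃ * C₂ * r := by positivity
    nlinarith
  have hfat : ∀ g ∈ M.FB δ r, g ∈ M.FB (C₃ * (2 * δ)) (C' * r) := fun g hg =>
    M.fb_monoD hδ.le (by nlinarith) hr0 hrC' hg
  have hmain : ∀ z ∈ Q, ∀ g ∈ M.FB (C₃ * (2 * δ)) (C' * r),
      z * g ∈ B.Iso (2 * (C₅ * (C₃ * (2 * δ)))) (2 * (C₅ * (C' * r))) := by
    intro z hz g hg
    have a1 := h5' (C' * r) (b5.trans hrC') z (hQFB hz) g hg
    exact h6' (C₅ * (C' * r)) (b6.trans (hrC'.trans (by nlinarith))) a1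
  refine ⟨Q, Dp ∩ B.Iso (2 * (C₅ * (C₃ * (2 * δ)))) (2 * (C₅ * (C' * r))), ?_, ?_⟩
  · refine ⟨⟨hDp.meas, hDp.meas'.inter (B.Iso_meas _ _), hDp.pos, hDp.fin, ?_, ?_⟩, ?_⟩
    · exact fun z hz g hg => ⟨hDp.sub z hz g hg, hmain z hz g (hlen g hg)⟩
    · exact (measure_mono inter_subset_left).trans hDp.le
    · exact fun z hz g hg => ⟨hDp.subf z hz g hg, hmain z hz g (hfat g hg)⟩
  · refine inter_subset_right.trans ((h7' _ (b7.trans ?_)).trans ?_)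
    · have : 1 * (C' * r) ≤ C₅ * (C' * r) := mul_le_mul_of_nonneg_right hC₅ (by positivity)
      have : 0 ≤ C₅ * (C' * r) := by positivity
      linarith
    · have q1 : 0 ≤ C₆ * (2 * (C₅ * (C₃ * 2))) := by positivity
      have q2 : 0 ≤ C₆ * (2 * (C₅ * C')) := by positivity
      refine M.fb_monoD (by positivity) ?_ (by positivity) ?_
      · have : 0 ≤ C₆ * (2 * (C₅ * C')) * δ := by positivity
        nlinarith
      · have : 0 ≤ C₆ * (2 * (C₅ * (C₃ * 2))) * r := by positivity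
        nlinarith

/-- **BOXQ** -/
theorem boxq (B : M.NatBox) (hB : B.Fine) : M.BOXQ := boxq_of_dbox B (DB.dbox B hB)

end RModel

end Vale.Agent.P188.Z1

end

section

/-!
# P188, Z1: LIN from NFp and BOXQ
-/

set_option linter.all false

namespace Vale.Agent.P188.Z1

namespace RModel

variable {S : Type} [Group S] [MeasurableSpace S] {Γ : Type} [Group Γ]
  {V : Type} [AddCommGroup V] [Module ℝ V] {k : ℕ} (M : RModel S Γ V k)

theorem dec1_prop (v : Fin k → Fin k → ℤ) (hv : ∀ i, M.Generic (v i)) : M.DEC1 v := M.dec1' v hv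

theorem dec2_prop (v : Fin k → Fin k → ℤ) (hh : Fin k → Ht k →L[ℝ] ℝ)
    (hv : ∀ i, M.Generic (v i)) (hd : ∀ i j, hh j (ht (v i)) = if i = j then 1 else 0) :
    M.DEC2 v hh := by
  obtain ⟨c, C, hC, h⟩ := M.decs v hv hh hd
  exact ⟨c, C, hC, (h C le_rfl).2⟩

/-- **LIN.** -/
theorem lin (hNF : M.NFp) (hBQ : M.BOXQ) : M.LIN :=
  lin_of hNF hBQ M.dec1_prop fun v hh hv hd => M.dec2_prop v hh hv hd

end RModel

end Vale.Agent.P188.Z1

end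

section

/-!
# P188, Z1, block STRAIGHT, part E: labels along Cartan paths
-/

set_option linter.all false

open MeasureTheory Set
open scoped ENNReal
open Vale.P188.H654

namespace Vale.Agent.P188.Z1

namespace RModel

variable {S : Type} [Group S] [MeasurableSpace S] {Γ : Type} [Group Γ]
  {V : Type} [AddCommGroup V] [Module ℝ V] {k : ℕ} (M : RModel S Γ V k)

theorem ln_t_CB {K : ℝ} {F F' : Γ → Γ} (hQ : M.QIm K F F') {Φ₁ : Finset (Ht k →L[ℝ] ℝ)}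
    {V₁ : Finset (Fin k → ℤ)} {lm : ℕ} (hlm : ∀ v ∈ V₁, M.τ v ∈ M.CB lm) (p : V₁ × Bool) :
    (lnData hQ Φ₁ V₁).t p ∈ M.CB lm := by
  rcases p with ⟨v, s⟩
  cases s
  · simpa [lnData] using M.CB_inv (hlm v v.2)
  · simpa [lnData] using hlm v v.2

theorem ln_t_l {K : ℝ} {F F' : Γ → Γ} (hQ : M.QIm K F F') {Φ₁ : Finset (Ht k →L[ℝ] ℝ)}
    {V₁ : Finset (Fin k → ℤ)} {lm : ℕ} (hlm : ∀ v ∈ V₁, M.l (M.τ v) ≤ lm) (p : V₁ × Bool) :
    M.l ((lnData hQ Φ₁ V₁).t p) ≤ lm := by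
  rcases p with ⟨v, s⟩
  cases s
  · simpa [lnData, M.len.inv] using hlm v v.2
  · simpa [lnData] using hlm v v.2

open Classical in
/-- closeness of the lines through `z` and `z * g`, `g` a short Cartan word -/
theorem ln_near {K : ℝ} {F F' : Γ → Γ} (hQ : M.QIm K F F') {Φ₁ : Finset (Ht k →L[ℝ] ℝ)}
    {V₁ : Finset (Fin k → ℤ)} {lm J n : ℕ} (hlm : ∀ v ∈ V₁, M.l (M.τ v) ≤ lm)
    (hlm' : ∀ v ∈ V₁, M.τ v ∈ M.CB lm) {g : S} (hg : g ∈ M.CB n) {d d' R : ℝ} {D : Set S}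
    (hBg : (∑ b ∈ Φ₁, ‖b‖) * (M.lnLf K * M.l g) ≤ d / 2) (hBd : (∑ b ∈ Φ₁, ‖b‖) * d' ≤ d / 2)
    (hd : 0 ≤ d) (hR : (J * lm : ℕ) + (M.l g : ℝ) ≤ R)
    {e : ℝ≥0∞} (he : ∀ y ∈ M.Vw 0, M.nm y ≤ M.C0 * (1 + (2 * n + 2 * (J * lm) : ℕ)) ^ M.deg →
      M.μ {x | x ∈ D ∧ d' < ‖M.f F (x * M.ex y) - M.f F x‖} ≤ e) :
    M.μ {z ∈ M.In R D | ¬ (lnData hQ Φ₁ V₁).Near J d g z} ≤ (Fintype.card (V₁ × Bool) : ℕ) * e := by
  have hB0 : 0 ≤ ∑ b ∈ Φ₁, ‖b‖ := Finset.sum_nonneg fun b _ => norm_nonneg b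
  have hb : ∀ b : Φ₁, ‖(b : Ht k →L[ℝ] ℝ)‖ ≤ ∑ b ∈ Φ₁, ‖b‖ := fun b =>
    Finset.single_le_sum (f := fun b : Ht k →L[ℝ] ℝ => ‖b‖) (fun b _ => norm_nonneg b) b.2
  have hdist : ∀ (b : Φ₁) (x y : Ht k), |(b : Ht k →L[ℝ] ℝ) x - (b : Ht k →L[ℝ] ℝ) y| ≤
      (∑ b ∈ Φ₁, ‖b‖) * ‖x - y‖ := by
    intro b x y
    rw [← map_sub, ← Real.norm_eq_abs]
    exact ((b : Ht k →L[ℝ] ℝ).le_opNorm _).trans (mul_le_mul_of_nonneg_right (hb b) (norm_nonneg _))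
  -- the neutral commutator
  have hy : ∀ p : V₁ × Bool, ∃ y ∈ M.Vw 0,
      M.ex y = g⁻¹ * ((lnData hQ Φ₁ V₁).t p ^ J)⁻¹ * g * (lnData hQ Φ₁ V₁).t p ^ J ∧
      M.nm y ≤ M.C0 * (1 + (2 * n + 2 * (J * lm) : ℕ)) ^ M.deg := by
    intro p
    have ht := M.CB_pow (M.ln_t_CB hQ (Φ₁ := Φ₁) hlm' p) J
    have h1 := M.CB_mul (M.CB_mul (M.CB_mul (M.CB_inv hg) (M.CB_inv ht)) hg) ht
    have h2 : M.η (g⁻¹ * ((lnData hQ Φ₁ V₁).t p ^ J)⁻¹ * g * (lnData hQ Φ₁ V₁).t p ^ J) = 1 := by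
      simp only [map_mul, map_inv]
      rw [mul_comm (M.η g)⁻¹, mul_assoc, mul_assoc, inv_mul_cancel_left, inv_mul_cancel]
    obtain ⟨y, hy0, hye, hyn⟩ := M.C_ker _ _ (M.CB_mono (show n + J * lm + n + J * lm ≤
      2 * n + 2 * (J * lm) by omega) h1) h2
    exact ⟨y, hy0, hye, hyn⟩
  choose y hy0 hye hyn using hy
  have hsub : {z ∈ M.In R D | ¬ (lnData hQ Φ₁ V₁).Near J d g z} ⊆
      ⋃ p ∈ (Finset.univ : Finset (V₁ × Bool)),
        (fun z => z * ((lnData hQ Φ₁ V₁).t p ^ J * g)) ⁻¹'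
          {x | x ∈ D ∧ d' < ‖M.f F (x * M.ex (y p)) - M.f F x‖} := by
    rintro z ⟨hz, hz'⟩
    have h1 : ∃ p, ¬ (lnData hQ Φ₁ V₁).NearAt J d g p z := by
      by_contra hcon
      push Not at hcon
      exact hz' fun p => Or.inl (hcon p)
    obtain ⟨p, hp⟩ := h1
    simp only [mem_iUnion]
    refine ⟨p, Finset.mem_univ _, ?_, ?_⟩
    · refine hz _ (le_trans (M.ln_mulR _ _) (le_trans ?_ hR))
      have h2 : M.l ((lnData hQ Φ₁ V₁).t p ^ J) ≤ J * lm :=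
        (M.ln_pow _ _).trans (Nat.mul_le_mul_left _ (M.ln_t_l hQ hlm p))
      have h3 : (M.l ((lnData hQ Φ₁ V₁).t p ^ J) : ℝ) ≤ (J * lm : ℕ) := by exact_mod_cast h2
      linarith
    · by_contra hcon
      push Not at hcon
      apply hp
      intro b
      have h2 : |(b : Ht k →L[ℝ] ℝ) (M.f F (z * g)) - (b : Ht k →L[ℝ] ℝ) (M.f F z)| ≤ d / 2 :=
        (hdist b _ _).trans ((mul_le_mul_of_nonneg_left (hQ.ln_lip z g) hB0).trans hBg)
      refine ⟨h2.trans (by linarith), ?_⟩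
      set T := (lnData hQ Φ₁ V₁).t p ^ J with hT
      have e1 : z * g * T = z * (T * g) * M.ex (y p) := by rw [hye, ← hT]; group
      show |(b : Ht k →L[ℝ] ℝ) (M.f F (z * g * T)) - (b : Ht k →L[ℝ] ℝ) (M.f F (z * T))| ≤ d
      have h3 : |(b : Ht k →L[ℝ] ℝ) (M.f F (z * g * T)) -
          (b : Ht k →L[ℝ] ℝ) (M.f F (z * (T * g)))| ≤ d / 2 := by
        rw [e1]
        exact (hdist b _ _).trans ((mul_le_mul_of_nonneg_left hcon hB0).trans hBd)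
      have h4 : |(b : Ht k →L[ℝ] ℝ) (M.f F (z * (T * g))) -
          (b : Ht k →L[ℝ] ℝ) (M.f F (z * T))| ≤ d / 2 := by
        rw [← mul_assoc]
        exact (hdist b _ _).trans ((mul_le_mul_of_nonneg_left (hQ.ln_lip _ g) hB0).trans hBg)
      have h5 := abs_sub_le ((b : Ht k →L[ℝ] ℝ) (M.f F (z * g * T)))
        ((b : Ht k →L[ℝ] ℝ) (M.f F (z * (T * g)))) ((b : Ht k →L[ℝ] ℝ) (M.f F (z * T)))
      linarith
  refine (measure_mono hsub).trans ((measure_biUnion_finset_le _ _).trans ?_)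
  refine (Finset.sum_le_sum fun p _ => (M.ln_ri _ _).trans (he (y p) (hy0 p) (hyn p))).trans ?_
  rw [Finset.sum_const, Finset.card_univ, nsmul_eq_mul]

/-- Cartan paths -/
theorem ln_path_CB {B n : ℕ} {q : ℕ → S} (hq : ∀ i < n, (q i)⁻¹ * q (i + 1) ∈ M.CB B) {a b : ℕ}
    (hab : a ≤ b) (hb : b ≤ n) : (q a)⁻¹ * q b ∈ M.CB ((b - a) * B) := by
  induction b, hab using Nat.le_induction with
  | base => simpa using M.one_mem_CB _
  | succ b hab ih =>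
    have h1 := M.CB_mul (ih (by omega)) (hq b (by omega))
    have e : (q a)⁻¹ * q b * ((q b)⁻¹ * q (b + 1)) = (q a)⁻¹ * q (b + 1) := by group
    rw [e] at h1
    have e2 : (b + 1 - a) * B = (b - a) * B + B := by
      rw [Nat.succ_sub hab, Nat.succ_mul]
    rw [e2]
    exact h1

/-- **Labels along a Cartan path**, fixed scale. -/
theorem ln_path_label {K : ℝ} {F F' : Γ → Γ} (hQ : M.QIm K F F') {Φ₁ : Finset (Ht k →L[ℝ] ℝ)}
    {V₁ : Finset (Fin k → ℤ)} {σ : S → LnLab Φ₁ V₁} {J B qb N : ℕ} {m d : ℝ} (hdm : d < m)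
    {D G : Set S} (hG : ∀ z ∈ G, (lnData hQ Φ₁ V₁).Good σ J m z) {e e' : ℝ≥0∞}
    (he : M.μ (D \ G) ≤ e)
    (hNear : ∀ g ∈ M.CB (qb * B), M.μ {z ∈ D | ¬ (lnData hQ Φ₁ V₁).Near J d g z} ≤ e')
    {n : ℕ} {q : ℕ → S} (hq0 : q 0 = 1) (hq : ∀ i < n, (q i)⁻¹ * q (i + 1) ∈ M.CB B)
    {Din : Set S} (hDin : ∀ z ∈ Din, ∀ i ≤ n, z * q i ∈ D) (hn : n ≤ N * qb) {j : ℕ} (hj : j ≤ n) :
    M.μ {z | z ∈ Din ∧ σ (z * q j) ≠ σ z} ≤ (N + 1) * e + N * e' := by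
  set Q : ℕ → S := fun i => q (min (i * qb) j) with hQd
  set gs : List S := (List.range N).map fun i => (Q i)⁻¹ * Q (i + 1) with hgs
  have hlen : gs.length = N := by simp [hgs]
  have htake : ∀ i ≤ N, (gs.take i).prod = Q i := by
    intro i hi
    induction i with
    | zero => simp [hQd, hq0]
    | succ i ih =>
      rw [List.prod_take_succ _ _ (by rw [hlen]; omega), ih (by omega)]
      simp [hgs]
  have hprod : gs.prod = q j := by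
    have h1 := htake N le_rfl
    rw [← hlen, List.take_length] at h1
    rw [h1, hQd]
    show q (min (gs.length * qb) j) = q j
    rw [hlen, min_eq_right (hj.trans hn)]
  have hmain := LData.mu_sigma_ne_le' (Δ := lnData hQ Φ₁ V₁) (σ := σ) (J := J) (m := m) (d := d)
    M.ln_ri hdm (D := Din) (Dp := D) (G := G) hG gs (e := e) (e' := e') (by
      intro g hg
      rw [hgs, List.mem_map] at hg
      obtain ⟨i, _, rfl⟩ := hg
      refine hNear _ ?_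
      have h1 : min (i * qb) j ≤ min ((i + 1) * qb) j :=
        min_le_min_right _ (Nat.mul_le_mul_right _ (Nat.le_succ i))
      have h2 := M.ln_path_CB hq h1 ((min_le_right _ _).trans hj)
      refine M.CB_mono (Nat.mul_le_mul_right _ ?_) h2
      have : (i + 1) * qb = i * qb + qb := Nat.succ_mul i qb
      omega) (by
      intro i hi z hz
      rw [htake i (by rwa [hlen] at hi)]
      exact hDin z hz _ ((min_le_right _ _).trans hj)) he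
  rw [hprod, hlen] at hmain
  exact hmain

end RModel

end Vale.Agent.P188.Z1

end

section

/-!
# P188, Z1, block COH, part 8: most linear parts are good
-/

set_option linter.all false

open MeasureTheory Set
open scoped ENNReal
open Agent.P188.H428 (IsLen)
open Vale.Agent.P188.H530 (hgt hgt_mul Crossed Mod TrP RayLin psi_pat rayMap_eq_of_pat
  exists_max_norm exists_rayLin exists_net_rays iv exists_measurable_sub)

namespace Vale.Agent.P188.Z1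

namespace RModel

variable {S : Type} [Group S] [MeasurableSpace S] {Γ : Type} [Group Γ]
  {V : Type} [AddCommGroup V] [Module ℝ V] {k : ℕ} {M : RModel S Γ V k}

theorem HasInv.mono {c K : ℕ} {C W ε : ℝ} {n : ℕ} {P : Finset (ℕ × ℝ)} {c₁ ε' ε'' : ℝ}
    {T : Ht k →L[ℝ] Ht k} (h : M.HasInv c K C W ε n P c₁ ε' T) (hε : ε' ≤ ε'') :
    M.HasInv c K C W ε n P c₁ ε'' T := by
  obtain ⟨T', h1, h2, h3, h4⟩ := h
  exact ⟨T', h1, fun w => (h2 w).trans (by gcongr), fun w => (h3 w).trans (by gcongr), h4⟩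

/-- **Most linear parts are good.** -/
theorem most_GT (M : RModel S Γ V k) (hRAY : M.RAY) (K : ℝ) {Φ₁ : Finset (Ht k →L[ℝ] ℝ)}
    (hΦ₁ : M.Rays Φ₁) (q : Par) (hL : 0 ≤ q.L) (hc₁ : 0 < q.c₁) (hδ : 0 < q.δ) (hC : 1 ≤ q.C)
    (hCL : q.L ≤ q.C) (hCc : q.c₁⁻¹ ≤ q.C) (hε : 0 < q.ε) (hc : q.c = 2 * M.cnt K)
    (hK : q.K = M.stp K) (hP : ∀ p ∈ q.P, 1 ≤ p.1 ∧ 1 ≤ p.2)
    (hray : ∀ T : Ht k →L[ℝ] Ht k, ‖T‖ ≤ q.L → (∀ w, q.c₁ * ‖w‖ ≤ ‖T w‖) →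
      (∀ b ∈ Φ₁, ∃ b' ∈ M.Φ, ∃ t : ℝ, 0 ≤ t ∧ ‖b.comp T - t • b'‖ ≤ q.δ) →
      ∃ β t, RayLin Φ₁ T β t q.t₀ q.t₁ q.δ) {κ' : ℝ} (hκ' : 0 < κ') :
    ∃ Λ₂ : ℝ, 1 ≤ Λ₂ ∧ ∃ (ε₀ Cf : ℝ) (n₀ : ℕ), 0 < ε₀ ∧ ∀ n : ℕ, n₀ ≤ n →
      ∀ r : ℝ, Λ₂ * n ≤ r → r ≤ 2 * Λ₂ * n → ∀ ε' κ R : ℝ, 0 ≤ ε' → ε' ≤ ε₀ → 0 ≤ κ → κ ≤ ε₀ →
      Cf * r ≤ R → ∀ (F F' : Γ → Γ) (D Dp D₀ : Set S) (T : S → Ht k →L[ℝ] Ht k),
      M.LinOn K q.L ε' κ r R F F' D Dp D₀ T → (∀ x ∈ D₀, ∀ w, q.c₁ * ‖w‖ ≤ ‖T x w‖) →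
      M.μ.real {x ∈ D | x ∈ D₀ ∧ ¬ M.GT Φ₁ q n (T x)} ≤ κ' * M.μ.real D := by
  obtain ⟨B, hB0, hB⟩ := exists_max_norm M.Φ
  obtain ⟨V₀, hV₀, hnet⟩ := exists_net_rays M.Wt M.Φ M.Φ_ne (B * q.L) hδ
  obtain ⟨Λa, hΛa, Ha⟩ := occF (M := M) K q.L hL (C := q.C) (W := q.W) (ε := q.ε)
    (κ' := κ' / 3) hC hCL hε (by positivity) q.P hP
  obtain ⟨Λb, hΛb, Hb⟩ := occF' M K q.L q.c₁ hL hc₁ (C := q.C) (W := q.W) (ε := q.ε)
    (κ' := κ' / 3) hC hCc hε (by positivity) q.P hP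
  obtain ⟨εr, Cr, rr, hεr, Hr⟩ := rayT M hRAY K q.L V₀ hV₀ (κ' := κ' / 3) (by positivity)
  obtain ⟨Λ₂, hΛ₂⟩ : ∃ Λ₂ : ℝ, Λ₂ = max 1 (max Λa Λb) := ⟨_, rfl⟩
  have hΛ₂1 : 1 ≤ Λ₂ := by rw [hΛ₂]; exact le_max_left _ _
  obtain ⟨εa, na, hεa, Ha'⟩ := Ha Λ₂ (by rw [hΛ₂]; exact (le_max_left _ _).trans (le_max_right _ _))
  obtain ⟨εb, nb, hεb, Hb'⟩ := Hb Λ₂ (by rw [hΛ₂]; exact (le_max_right _ _).trans (le_max_right _ _))
  obtain ⟨nr, hnr⟩ := exists_nat_ge rr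
  refine ⟨Λ₂, hΛ₂1, min (min εa εb) (min εr (q.c₁ * q.δ)), max (max 1 Cr) (K + 2),
    max (max na nb) (max nr 1), lt_min (lt_min hεa hεb) (lt_min hεr (by positivity)), ?_⟩
  intro n hn r hr1 hr2 ε' κ R hε'0 hε' hκ0 hκ hR F F' D Dp D₀ T h hlow
  simp only [max_le_iff] at hn
  obtain ⟨⟨hna, hnb⟩, hnr', hn1⟩ := hn
  simp only [le_min_iff] at hε' hκ
  obtain ⟨⟨e1, e2⟩, e3, e4⟩ := hε'
  obtain ⟨⟨k1, k2⟩, k3, -⟩ := hκ
  have hn0 : (1 : ℝ) ≤ n := by exact_mod_cast hn1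
  have hnR : (n : ℝ) ≤ r := by nlinarith
  have hr0 : 0 ≤ r := by linarith
  have hrr : rr ≤ r := by
    have : (nr : ℝ) ≤ n := by exact_mod_cast hnr'
    linarith
  have hR1 : r ≤ R := by
    refine le_trans ?_ hR
    have : 1 * r ≤ max (max 1 Cr) (K + 2) * r :=
      mul_le_mul_of_nonneg_right ((le_max_left _ _).trans (le_max_left _ _)) hr0
    linarith
  have hR2 : Cr * r ≤ R :=
    le_trans (mul_le_mul_of_nonneg_right ((le_max_right _ _).trans (le_max_left _ _)) hr0) hR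
  have hR3 : (K + 2) * r ≤ R :=
    le_trans (mul_le_mul_of_nonneg_right (le_max_right _ _) hr0) hR
  have A := Ha' n hna r hr1 hr2 ε' κ R hε'0 e1 hκ0 k1 hR1 F F' D Dp D₀ T h
  have Bb := Hb' n hnb r hr1 hr2 ε' κ R hε'0 e2 hκ0 k2 hR3 F F' D Dp D₀ T h hlow
  have Cc := Hr r hrr ε' κ R hε'0 e3 hκ0 k3 hR2 F F' D Dp D₀ T h
  rw [← hc, ← hK] at A Bb
  set X₁ : Set S := {x ∈ D | x ∈ D₀ ∧ ¬ TrP (hgt (M.η.comp M.inG)) M.A (hgt (M.η.comp M.inG)) M.A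
        q.c q.K q.C q.W q.ε n q.P (T x)} with hX₁
  set X₂ : Set S := {x ∈ D | x ∈ D₀ ∧ ¬ M.HasInv q.c q.K q.C q.W q.ε n q.P q.c₁
        (q.c₁⁻¹ * ε') (T x)} with hX₂
  set X₃ : Set S := {x ∈ D | x ∈ D₀ ∧ ¬ ∀ b ∈ M.Φ, ∃ b' ∈ M.Φ, ∀ v ∈ V₀, 0 < b' (ht v) →
        0 ≤ b (T x (ht v))} with hX₃
  have hsub : {x ∈ D | x ∈ D₀ ∧ ¬ M.GT Φ₁ q n (T x)} ⊆ (X₁ ∪ X₂) ∪ X₃ := by
    rintro x ⟨hxD, hx, hbad⟩
    by_contra hcon
    rw [mem_union, mem_union, not_or, not_or] at hcon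
    obtain ⟨⟨c1, c2⟩, c3⟩ := hcon
    simp only [hX₁, hX₂, hX₃, mem_sep_iff, not_and, not_not] at c1 c2 c3
    have c1' := c1 hxD hx
    have c2' := c2 hxD hx
    have c3' := c3 hxD hx
    refine hbad ⟨h.T_le x hx, c1', c2'.mono ?_, hray (T x) (h.T_le x hx) (hlow x hx) ?_⟩
    · rw [inv_mul_le_iff₀ hc₁]
      exact e4
    · intro b hb
      obtain ⟨b', hb', h5⟩ := c3' b (hΦ₁.sub hb)
      obtain ⟨t, ht, h6⟩ := hnet b' hb' (b.comp (T x)) (by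
        refine (ContinuousLinearMap.opNorm_comp_le _ _).trans ?_
        exact mul_le_mul (hB b (hΦ₁.sub hb)) (h.T_le x hx) (norm_nonneg _) hB0.le) h5
      exact ⟨b', hb', t, ht, h6⟩
  have hfin : M.μ ((X₁ ∪ X₂) ∪ X₃) ≠ ⊤ := by
    refine ne_top_of_le_ne_top h.fat.fin (measure_mono ?_)
    rintro x ((hx | hx) | hx)
    · exact hx.1
    · exact hx.1
    · exact hx.1
  refine (measureReal_mono hsub hfin).trans ((measureReal_union_le _ _).trans ?_)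
  have := measureReal_union_le (μ := M.μ) X₁ X₂
  have hD0 : 0 ≤ M.μ.real D := measureReal_nonneg
  linarith

end RModel

end Vale.Agent.P188.Z1

end

section

/-!
# P188, Z1, block LAB, part 4: the box sets are test boxes
-/

set_option linter.all false

open MeasureTheory Set Filter
open scoped ENNReal
open Vale.Agent.P188.H540 (vec)

namespace Vale.Agent.P188.Z1.Lab

variable {S : Type} [Group S] [MeasurableSpace S] {Γ : Type} [Group Γ]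
  {V : Type} [AddCommGroup V] [Module ℝ V] {k : ℕ} {M : RModel S Γ V k}

open RModel

/-- reduced sizes -/
noncomputable def szt (M : RModel S Γ V k) (h : (Ht k →L[ℝ] ℝ) → ℝ) (d₁ s t : ℝ) (i : M.ι) : ℝ :=
  open Classical in if M.wt i = 0 then Real.exp (d₁ * s - t) else Real.exp ((s - t) * h (M.wt i))

theorem szt_pos (h : (Ht k →L[ℝ] ℝ) → ℝ) (d₁ s t : ℝ) (i : M.ι) : 0 < szt M h d₁ s t i := by
  unfold szt
  split_ifs <;> positivity

/-- facets -/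
theorem facet_le {c₂ : ℝ} {h : (Ht k →L[ℝ] ℝ) → ℝ} (hc₂ : 0 < c₂) (hh : M.HGood c₂ h)
    {b : Ht k →L[ℝ] ℝ} (hb : b ∈ M.Φ) : ∃ u : Ht k, b u = h b ∧ ∀ b' ∈ M.Φ, b' u ≤ h b' := by
  obtain ⟨u, -, hu, hu'⟩ := hh.facet b hb
  refine ⟨u, hu, fun b' hb' => ?_⟩
  rcases hu' b' hb' with ⟨t, ht, rfl⟩ | h1
  · rw [ContinuousLinearMap.smul_apply, hu, smul_eq_mul, hh.ray b hb _ hb' t ht rfl]
  · linarith

theorem adm_szt {c₂ : ℝ} {h : (Ht k →L[ℝ] ℝ) → ℝ} (hc₂ : 0 < c₂) (hh : M.HGood c₂ h)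
    {d₁ s t : ℝ} (h1 : t ≤ d₁ * s) (h2 : t ≤ s) (h3 : d₁ * s - t ≤ (s - t) * c₂) :
    M.Adm (szt M h d₁ s t) := by
  classical
  have hst : 0 ≤ s - t := by linarith
  have hge : ∀ j, Real.exp (d₁ * s - t) ≤ szt M h d₁ s t j := by
    intro j
    unfold szt
    split_ifs with hj
    · exact le_rfl
    · refine Real.exp_le_exp.2 (h3.trans (mul_le_mul_of_nonneg_left ?_ hst))
      exact (hh.bd _ ((M.wt_mem j).resolve_right hj)).1
  have hge1 : ∀ j, 1 ≤ szt M h d₁ s t j := fun j => (Real.one_le_exp (by linarith)).trans (hge j)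
  have hprod1 : ∀ L : List M.ι, 1 ≤ (L.map (szt M h d₁ s t)).prod := by
    intro L
    induction L with
    | nil => simp
    | cons i L ih =>
      rw [List.map_cons, List.prod_cons]
      nlinarith [hge1 i]
  refine ⟨szt_pos h d₁ s t, ?_⟩
  intro i w hw hs
  by_cases hi : M.wt i = 0
  · have e : szt M h d₁ s t i = Real.exp (d₁ * s - t) := by unfold szt; rw [if_pos hi]
    rw [e]
    obtain ⟨j, w', rfl⟩ := List.exists_cons_of_ne_nil hw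
    rw [List.map_cons, List.prod_cons]
    have h4 := hge j
    have h5 := hprod1 w'
    have h6 := hge1 j
    nlinarith
  · have hb : M.wt i ∈ M.Φ := (M.wt_mem i).resolve_right hi
    obtain ⟨u, hu, hu'⟩ := facet_le hc₂ hh hb
    have e : szt M h d₁ s t i = Real.exp ((s - t) * (M.wt i) u) := by
      unfold szt; rw [if_neg hi, hu]
    rw [e, ← hs]
    clear e hs hw
    induction w with
    | nil => simp
    | cons j w ih =>
      rw [List.map_cons, List.sum_cons, List.map_cons, List.prod_cons,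
        ContinuousLinearMap.add_apply, mul_add, Real.exp_add]
      refine mul_le_mul ?_ ih (Real.exp_pos _).le (szt_pos h d₁ s t j).le
      by_cases hj : M.wt j = 0
      · rw [hj, ContinuousLinearMap.zero_apply, mul_zero, Real.exp_zero]
        exact hge1 j
      · unfold szt
        rw [if_neg hj]
        exact Real.exp_le_exp.2 (mul_le_mul_of_nonneg_left
          (hu' _ ((M.wt_mem j).resolve_right hj)) hst)

/-- bound of the window -/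
theorem win_norm (M : RModel S Γ V k) {c₂ : ℝ} (hc₂ : 0 < c₂) : ∃ C : ℝ, 0 < C ∧
    ∀ (h : (Ht k →L[ℝ] ℝ) → ℝ), M.HB c₂ h → ∀ s : ℝ, 0 ≤ s → ∀ x : Ht k,
    (∀ b ∈ M.Φ, b x ≤ s * h b) → ‖x‖ ≤ C * s := by
  obtain ⟨CP, hCP0, hCP⟩ := DB.exists_bdd M
  refine ⟨CP * c₂⁻¹, by positivity, fun h hh s hs x hx => ?_⟩
  rw [mul_assoc]
  refine hCP x (c₂⁻¹ * s) (by positivity) fun b hb => (hx b hb).trans ?_
  rw [mul_comm]
  exact mul_le_mul_of_nonneg_right (hh b hb).2 hs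

/-- natural boxes are bounded -/
theorem box_bdd (B : M.NatBox) (R : M.ι → ℝ) (hR : ∀ i, 0 ≤ R i) :
    ∃ ρ : ℝ, ∀ v ∈ B.Bx R, (M.l v : ℝ) ≤ ρ := by
  classical
  have hC0 := M.C0_pos
  have hlist : ∀ L : List S, ∀ q : ℝ, 0 ≤ q → (∀ a ∈ L, (M.l a : ℝ) ≤ q) →
      (M.l L.prod : ℝ) ≤ L.length * q := by
    intro L q hq
    induction L with
    | nil => intro _; simp [M.len.one]
    | cons a L ih =>
      intro h
      rw [List.prod_cons, List.length_cons]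
      have h1 : (M.l (a * L.prod) : ℝ) ≤ M.l a + M.l L.prod := by exact_mod_cast M.len.mul _ _
      have h2 := h a (by simp)
      have h3 := ih fun b hb => h b (List.mem_cons_of_mem _ hb)
      push_cast
      linarith
  set q : ℝ := M.C0 * (1 + ∑ i, B.C * R i) with hq
  have hsum : 0 ≤ ∑ i, B.C * R i :=
    Finset.sum_nonneg fun i _ => mul_nonneg (zero_le_one.trans B.one_le) (hR i)
  refine ⟨B.m * q, fun v hv => ?_⟩
  obtain ⟨x, hx, rfl⟩ := B.gen R hR v hv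
  refine (hlist _ q (by positivity) ?_).trans (by rw [List.length_ofFn])
  intro a ha
  rw [List.mem_ofFn] at ha
  obtain ⟨t, rfl⟩ := ha
  refine (M.met_V _).trans ?_
  rw [map_smul_eq_mul, Real.norm_eq_abs]
  have h1 : |x t| * M.nm (M.X (B.J t)) ≤ B.C * R (B.J t) * 1 :=
    mul_le_mul (hx t) (M.X_le _) (M.nm_nonneg _) (mul_nonneg (zero_le_one.trans B.one_le) (hR _))
  have h2 : B.C * R (B.J t) ≤ ∑ i, B.C * R i :=
    Finset.single_le_sum (f := fun i => B.C * R i)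
      (fun i _ => mul_nonneg (zero_le_one.trans B.one_le) (hR i)) (Finset.mem_univ _)
  rw [hq]
  refine mul_le_mul_of_nonneg_left ?_ hC0.le
  linarith

/-- box sets are bounded -/
theorem dbox_bdd (B : M.NatBox) {c₂ : ℝ} (hc₂ : 0 < c₂) {h : (Ht k →L[ℝ] ℝ) → ℝ} (hh : M.HB c₂ h)
    {Λ : ℝ} (hΛ : 0 < Λ) (d₁ κ s : ℝ) (hs : 0 ≤ (1 - κ) * s) :
    ∃ ρ : ℝ, ∀ z ∈ B.DboxH h Λ d₁ κ s, (M.l z : ℝ) ≤ ρ := by
  obtain ⟨ρ, hρ⟩ := box_bdd B (fun i => Λ * M.szh h d₁ s i)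
    fun i => (mul_pos hΛ (DB.szh_pos h d₁ s i)).le
  obtain ⟨Cl, hCl, hl⟩ := M.l_τ
  obtain ⟨CW, hCW, hW⟩ := win_norm M hc₂
  refine ⟨ρ + Cl * (1 + CW * ((1 - κ) * s)), fun z hz => ?_⟩
  have h1 := hρ _ hz.1
  have h2 := hW h hh _ hs (M.θ z) hz.2
  have h3 : (M.l (M.sec z) : ℝ) ≤ Cl * (1 + CW * ((1 - κ) * s)) := by
    refine hl _ _ (by positivity) fun i => ?_
    have h4 : |M.θ z i| ≤ ‖M.θ z‖ := norm_le_pi_norm (M.θ z) i
    exact h4.trans h2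
  have h4 : (M.l (z * (M.sec z)⁻¹ * M.sec z) : ℝ) ≤ M.l (z * (M.sec z)⁻¹) + M.l (M.sec z) := by
    exact_mod_cast M.len.mul _ _
  rw [inv_mul_cancel_right] at h4
  linarith

end Vale.Agent.P188.Z1.Lab

end

section

/-!
# P188, Z1: neutral moves of one box (NEUT), from NFp and DBOXH
-/

set_option linter.all false

open MeasureTheory Set Filter Topology
open Vale.Agent.P188.H540 (vec LP LP_finite lat_ratio' vec_injective tendsto_LP ball_dbl ball_finite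
  LP_ball)
open scoped Pointwise ENNReal

namespace Vale.Agent.P188.H540

/-- number of lattice points in a cube -/
theorem ball_count (k : ℕ) : ∃ C s₀ : ℝ, 0 < s₀ ∧ 0 ≤ C ∧ ∀ s : ℝ, s₀ ≤ s →
    (({w : Fin k → ℤ | ‖vec w‖ ≤ s}).ncard : ℝ) ≤ C * s ^ k := by
  have hT := tendsto_LP (k := k) (P := Metric.closedBall 0 1) (convex_closedBall _ _)
    Metric.isBounded_closedBall Metric.isClosed_closedBall.measurableSet
    (Metric.mem_closedBall_self zero_le_one)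
  have h1 := hT.eventually_lt_const (show volume.real (Metric.closedBall (0 : Fin k → ℝ) 1) <
    volume.real (Metric.closedBall (0 : Fin k → ℝ) 1) + 1 by linarith)
  obtain ⟨s₀, hs₀⟩ := (h1.and (eventually_gt_atTop 0)).exists_forall_of_atTop
  refine ⟨volume.real (Metric.closedBall (0 : Fin k → ℝ) 1) + 1, max s₀ 1, by positivity,
    by positivity, fun s hs => ?_⟩
  obtain ⟨h2, h3⟩ := hs₀ s ((le_max_left _ _).trans hs)
  rw [div_lt_iff₀ (by positivity), LP_ball h3] at h2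
  exact h2.le

end Vale.Agent.P188.H540

namespace Vale.Agent.P188.Z1

namespace DB

variable {S : Type} [Group S] [MeasurableSpace S] {Γ : Type} [Group Γ]
  {V : Type} [AddCommGroup V] [Module ℝ V] {k : ℕ} {M : RModel S Γ V k}

open RModel

/-- polynomial growth of the volumes of the boxes -/
theorem dbl_poly (B : M.NatBox) : ∃ (C : ℝ) (a : ℕ), 1 ≤ C ∧ ∀ Λ : ℝ, 1 ≤ Λ → ∀ R : M.ι → ℝ,
    (∀ i, 0 < R i) → M.μ (B.Bx fun i => Λ * R i) ≤ ENNReal.ofReal (C * Λ ^ a) * M.μ (B.Bx R) := by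
  obtain ⟨C', hC'⟩ := B.dbl 2 (by norm_num)
  obtain ⟨a, ha⟩ := pow_unbounded_of_one_lt (max C' 1) (one_lt_two (α := ℝ))
  have hC'a : C' ≤ 2 ^ a := (le_max_left _ _).trans ha.le
  have hpow : ∀ (n : ℕ) (R : M.ι → ℝ), (∀ i, 0 < R i) →
      M.μ (B.Bx fun i => 2 ^ n * R i) ≤ ENNReal.ofReal ((2 ^ a) ^ n) * M.μ (B.Bx R) := by
    intro n
    induction n with
    | zero => intro R hR; simp
    | succ n ih =>
      intro R hR
      have h1 := hC' (fun i => 2 ^ n * R i) fun i => by have := hR i; positivity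
      have h2 := ih R hR
      have h3 : (fun i => (2 : ℝ) ^ (n + 1) * R i) = fun i => 2 * (2 ^ n * R i) := by
        funext i; ring
      rw [h3]
      calc M.μ (B.Bx fun i => 2 * (2 ^ n * R i))
          ≤ ENNReal.ofReal C' * M.μ (B.Bx fun i => 2 ^ n * R i) := h1
        _ ≤ ENNReal.ofReal (2 ^ a) * (ENNReal.ofReal ((2 ^ a) ^ n) * M.μ (B.Bx R)) :=
            mul_le_mul' (ENNReal.ofReal_le_ofReal hC'a) h2
        _ = ENNReal.ofReal ((2 ^ a) ^ (n + 1)) * M.μ (B.Bx R) := by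
            rw [← mul_assoc, ← ENNReal.ofReal_mul (by positivity)]
            congr 2
            ring
  refine ⟨2 ^ a, a, one_le_pow₀ (by norm_num), fun Λ hΛ R hR => ?_⟩
  -- `2 ^ n ≤ Λ < 2 ^ (n + 1)`
  obtain ⟨n, hn1, hn2⟩ := exists_nat_pow_near hΛ (one_lt_two (α := ℝ))
  have h1 := hpow (n + 1) R hR
  have h2 : B.Bx (fun i => Λ * R i) ⊆ B.Bx (fun i => 2 ^ (n + 1) * R i) :=
    B.mono _ _ (fun i => by have := hR i; positivity) fun i =>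
      mul_le_mul_of_nonneg_right hn2.le (hR i).le
  refine (measure_mono h2).trans (h1.trans ?_)
  gcongr
  calc ((2 : ℝ) ^ a) ^ (n + 1) = 2 ^ a * (2 ^ n) ^ a := by
        rw [pow_succ, ← pow_mul, ← pow_mul, mul_comm a n]; ring
    _ ≤ 2 ^ a * Λ ^ a := by gcongr

/-- left translates of fat sets are fat -/
theorem fat_left {R κ : ℝ} {D Dp : Set S} (h : M.Fat R κ D Dp) (g : S) :
    M.Fat R κ {z | g * z ∈ D} {z | g * z ∈ Dp} where
  meas := (M.mpl g).measurable h.meas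
  meas' := (M.mpl g).measurable h.meas'
  pos := by
    have := (M.mpl g).measure_preimage h.meas.nullMeasurableSet
    show M.μ ((fun x => g * x) ⁻¹' D) ≠ 0
    rw [this]
    exact h.pos
  fin := by
    have := (M.mpl g).measure_preimage h.meas.nullMeasurableSet
    show M.μ ((fun x => g * x) ⁻¹' D) ≠ ⊤
    rw [this]
    exact h.fin
  sub := by
    intro z hz x hx
    show g * (z * x) ∈ Dp
    rw [← mul_assoc]
    exact h.sub _ hz x hx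
  le := by
    have h1 := (M.mpl g).measure_preimage h.meas.nullMeasurableSet
    have h2 := (M.mpl g).measure_preimage h.meas'.nullMeasurableSet
    show M.μ ((fun x => g * x) ⁻¹' Dp) ≤ _ * M.μ ((fun x => g * x) ⁻¹' D)
    rw [h1, h2]
    exact h.le

end DB

/-- **NEUT**: for every location `g` and every neutral move `ex y`, `|y| ≤ e ^ (A (d₁ s + 1))`, most
points `g n`, `n` in the (dilated) box, are displaced by at most `ε s`; exponentially small exceptional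
proportion, with a rate which does not depend on `A` and `d₁`. -/
def RModel.NEUT {S : Type} [Group S] [MeasurableSpace S] {Γ : Type} [Group Γ]
    {V : Type} [AddCommGroup V] [Module ℝ V] {k : ℕ} (M : RModel S Γ V k) (B : M.NatBox) : Prop :=
  ∀ K c ε Λ : ℝ, 0 < c → 0 < ε → 0 < Λ → ∃ c₁ : ℝ, 0 < c₁ ∧ ∀ A : ℝ, ∃ dm : ℝ, 0 < dm ∧
    ∀ d₁ : ℝ, 0 < d₁ → d₁ ≤ dm → ∃ s₀ : ℝ, ∀ s : ℝ, s₀ ≤ s →
    ∀ h : (Ht k →L[ℝ] ℝ) → ℝ, M.HB c h → ∀ F F' : Γ → Γ, M.QIm K F F' → ∀ g : S,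
    ∀ y ∈ M.Vw 0, M.nm y ≤ Real.exp (A * (d₁ * s + 1)) →
      M.μ {n | n ∈ B.Bx (fun i => Λ * M.szh h d₁ s i) ∧
        ε * s < ‖M.f F (g * (n * M.ex y)) - M.f F (g * n)‖} ≤
        ENNReal.ofReal (Real.exp (-(c₁ * s))) * M.μ (B.Bx (M.szh h d₁ s))

/-- the numerical estimate in `neut` -/
theorem DB.neut_num {c₀ ρ s Ck CQ Cv Λ0 A d₁ : ℝ} {k a : ℕ} (hs0 : 0 ≤ s) (hCk : 0 ≤ Ck)
    (hCQ : 0 ≤ CQ) (hCv : 0 ≤ Cv) (hΛ0 : 0 ≤ Λ0) (hd2 : (a : ℝ) * (A * d₁) ≤ c₀ * ρ / 4)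
    (hexp : (Ck * CQ ^ k * Cv * Λ0 ^ a) * (1 + s) ^ k ≤ Real.exp (c₀ * ρ / 4 * s)) :
    Real.exp (-(c₀ * (ρ * s))) * (Ck * (CQ * s) ^ k) * (Cv * (Λ0 * Real.exp (A * d₁ * s)) ^ a) ≤
      Real.exp (-(c₀ * ρ / 2 * s)) := by
  have h1 : (Λ0 * Real.exp (A * d₁ * s)) ^ a = Λ0 ^ a * Real.exp (a * (A * d₁) * s) := by
    rw [mul_pow, ← Real.exp_nat_mul]
    congr 2
    ring
  have h2 : s ^ k ≤ (1 + s) ^ k := pow_le_pow_left₀ hs0 (by linarith) _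
  have h3 : Real.exp (a * (A * d₁) * s) ≤ Real.exp (c₀ * ρ / 4 * s) :=
    Real.exp_le_exp.2 (mul_le_mul_of_nonneg_right hd2 hs0)
  have hK : 0 ≤ Ck * CQ ^ k * Cv * Λ0 ^ a := by positivity
  have h4 : (Ck * CQ ^ k * Cv * Λ0 ^ a) * s ^ k ≤ Real.exp (c₀ * ρ / 4 * s) :=
    (mul_le_mul_of_nonneg_left h2 hK).trans hexp
  have h5 : Real.exp (-(c₀ * (ρ * s))) * (Ck * (CQ * s) ^ k) *
      (Cv * (Λ0 * Real.exp (A * d₁ * s)) ^ a) =
      Real.exp (-(c₀ * (ρ * s))) * ((Ck * CQ ^ k * Cv * Λ0 ^ a) * s ^ k) *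
        Real.exp (a * (A * d₁) * s) := by rw [h1, mul_pow]; ring
  rw [h5]
  have h6 : Real.exp (-(c₀ * (ρ * s))) * ((Ck * CQ ^ k * Cv * Λ0 ^ a) * s ^ k) ≤
      Real.exp (-(c₀ * (ρ * s))) * Real.exp (c₀ * ρ / 4 * s) :=
    mul_le_mul_of_nonneg_left h4 (Real.exp_pos _).le
  refine (mul_le_mul h6 h3 (Real.exp_pos _).le (by positivity)).trans (le_of_eq ?_)
  rw [← Real.exp_add, ← Real.exp_add]
  congr 1
  ring

end Vale.Agent.P188.Z1

end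

section

/-!
# P188, Z1, block STRAIGHT, part F: straightness and neutral moves at a fixed scale
-/

set_option linter.all false

open MeasureTheory Set
open scoped ENNReal
open Vale.P188.H654

namespace Vale.Agent.P188.Z1

namespace RModel

variable {S : Type} [Group S] [MeasurableSpace S] {Γ : Type} [Group Γ]
  {V : Type} [AddCommGroup V] [Module ℝ V] {k : ℕ} (M : RModel S Γ V k)

open Classical in
/-- **Straightness along a Cartan path**, fixed scale. -/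
theorem ln_path_straight {K : ℝ} {F F' : Γ → Γ} (hQ : M.QIm K F F')
    {Φ₁ : Finset (Ht k →L[ℝ] ℝ)} {V₁ : Finset (Fin k → ℤ)} {σ : S → LnLab Φ₁ V₁} {c₀ L : ℝ}
    {T : (V₁ → Set (Ht k →L[ℝ] ℝ)) → (Ht k →L[ℝ] Ht k)} (hL : 0 ≤ L)
    (hgood : ∀ z, GoodLab Φ₁ V₁ c₀ L (T (σ z).1) (σ z).1)
    {D₁ D : Set S} {ρ ε₁ Cc : ℝ} (hρ : 0 ≤ ρ) (hε₁ : 0 ≤ ε₁)
    (hlin : ∀ x ∈ D₁, ∀ x' ∈ D₁, (M.l (x⁻¹ * x') : ℝ) ≤ ρ →
      ‖M.f F x' - M.f F x - T (σ x).1 (M.θ (x⁻¹ * x'))‖ ≤ ε₁)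
    (hCc0 : 0 ≤ Cc) (hCc : ∀ n, ∀ c ∈ M.CB n, (M.l c : ℝ) ≤ Cc * n) {B q₁ N n : ℕ}
    (hq₁ : 0 < q₁) (hq₁ρ : Cc * (q₁ * B : ℕ) ≤ ρ) (hn : n ≤ N * q₁)
    {q : ℕ → S} (hq0 : q 0 = 1) (hq : ∀ i < n, (q i)⁻¹ * q (i + 1) ∈ M.CB B)
    {Din : Set S} (hDin : ∀ z ∈ Din, ∀ i ≤ n, z * q i ∈ D) {e : ℝ≥0∞}
    (he : M.μ (D \ D₁) ≤ e) (hσ : ∀ j ≤ n, M.μ {z | z ∈ Din ∧ σ (z * q j) ≠ σ z} ≤ e) (m : ℕ)
    {E : ℝ} (hE : N * ε₁ + (M.lnLf K + L * M.C0) * ρ * (m + 1) ≤ E) :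
    (m : ℝ≥0∞) * M.μ {z | z ∈ Din ∧ ∃ i ≤ n,
      E < ‖M.f F (z * q i) - M.f F z - T (σ z).1 (M.θ (q i))‖} ≤ 3 * N * e := by
  have hLf := M.lnLf_nonneg hQ.K_nonneg
  have hC0 := M.ln_C0
  have hLC : 0 ≤ L * M.C0 := mul_nonneg hL hC0
  set T' : LnLab Φ₁ V₁ → (Ht k →L[ℝ] Ht k) := fun a => if ‖T a.1‖ ≤ L then T a.1 else 0 with hT'
  have hT'n : ∀ a, ‖T' a‖ ≤ L := by
    intro a
    simp only [hT']
    split_ifs with h
    · exact h
    · rw [norm_zero]; exact hL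
  have hT'σ : ∀ z, T' (σ z) = T (σ z).1 := by
    intro z
    simp only [hT']
    rw [if_pos (hgood z).norm_le]
  have hT'l : ∀ a g, ‖T' a (M.θ g)‖ ≤ L * M.C0 * M.l g := by
    intro a g
    refine ((T' a).le_opNorm _).trans ?_
    rw [mul_assoc]
    exact mul_le_mul (hT'n a) (M.θ_le g) (norm_nonneg _) hL
  set w : ℕ → S := fun i => q (min (i * q₁) n) with hw
  have hwstep : ∀ i, (M.l ((w i)⁻¹ * w (i + 1)) : ℝ) ≤ ρ := by
    intro i
    have h1 : min (i * q₁) n ≤ min ((i + 1) * q₁) n :=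
      min_le_min_right _ (Nat.mul_le_mul_right _ (Nat.le_succ i))
    have h2 := M.ln_path_CB hq h1 (min_le_right _ _)
    have h3 : min ((i + 1) * q₁) n - min (i * q₁) n ≤ q₁ := by
      have : (i + 1) * q₁ = i * q₁ + q₁ := Nat.succ_mul i q₁
      omega
    exact (hCc _ _ (M.CB_mono (Nat.mul_le_mul_right _ h3) h2)).trans hq₁ρ
  have hmain := mu_straight_le (μ := M.μ) Din (M.f F) M.θ M.θ_mul M.θ_one
    (fun a => (T' a).toLinearMap.toAddMonoidHom) σ D₁ (fun g => (M.l g : ℝ)) (M.lnLf K) (L * M.C0)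
    ρ ε₁ (fun z g => hQ.ln_lip z g) (fun a g => hT'l a g) hLf hLC hρ (by
      intro x u hx hxu hu
      have h1 := hlin x hx (x * u) hxu (by rw [inv_mul_cancel_left]; exact hu)
      rw [inv_mul_cancel_left] at h1
      have h2 : (T' (σ x)).toLinearMap.toAddMonoidHom (M.θ u) = T (σ x).1 (M.θ u) := by
        rw [← hT'σ]; rfl
      rw [h2]
      exact h1) hε₁ w (by simp [hw, hq0]) hwstep N e (by
      intro i hi
      have h1 : {z ∈ Din | z * w i ∉ D₁} ⊆ (fun z => z * w i) ⁻¹' (D \ D₁) := by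
        rintro z ⟨hz, hz'⟩
        exact ⟨hDin z hz _ (min_le_right _ _), hz'⟩
      exact (measure_mono h1).trans ((M.ln_ri _ _).trans he)) (by
      intro i hi
      exact hσ _ (min_le_right _ _)) m
  refine le_trans (mul_le_mul_right (measure_mono ?_) _) hmain
  rintro z ⟨hz, i, hi, hE'⟩
  refine ⟨hz, i / q₁, ?_, ?_⟩
  · exact Nat.div_le_of_le_mul (by rw [mul_comm]; exact hi.trans hn)
  · have h1 : i / q₁ * q₁ ≤ i := Nat.div_mul_le_self i q₁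
    have h2 : w (i / q₁) = q (i / q₁ * q₁) := by
      simp only [hw]
      rw [min_eq_left (h1.trans hi)]
    have h3 := M.ln_path_CB hq h1 hi
    have h4 : i - i / q₁ * q₁ ≤ q₁ := by
      have h5 := Nat.lt_div_mul_add (a := i) hq₁
      omega
    have h5 : (M.l ((w (i / q₁))⁻¹ * q i) : ℝ) ≤ ρ := by
      rw [h2]
      exact (hCc _ _ (M.CB_mono (Nat.mul_le_mul_right _ h4) h3)).trans hq₁ρ
    set u := (w (i / q₁))⁻¹ * q i with hu
    have h6 : q i = w (i / q₁) * u := by rw [hu, mul_inv_cancel_left]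
    have h7 : (T' (σ z)).toLinearMap.toAddMonoidHom (M.θ (w (i / q₁))) =
        T (σ z).1 (M.θ (w (i / q₁))) := by rw [← hT'σ]; rfl
    rw [h7]
    have h8 : M.f F (z * q i) - M.f F z - T (σ z).1 (M.θ (q i)) =
        (M.f F (z * w (i / q₁)) - M.f F z - T (σ z).1 (M.θ (w (i / q₁)))) +
        (M.f F (z * w (i / q₁) * u) - M.f F (z * w (i / q₁))) - T (σ z).1 (M.θ u) := by
      rw [h6, M.θ_mul, map_add, ← mul_assoc]; abel
    have h9 : ‖M.f F (z * w (i / q₁) * u) - M.f F (z * w (i / q₁))‖ ≤ M.lnLf K * ρ :=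
      (hQ.ln_lip _ _).trans (mul_le_mul_of_nonneg_left h5 hLf)
    have h10 : ‖T (σ z).1 (M.θ u)‖ ≤ L * M.C0 * ρ := by
      rw [← hT'σ]
      exact (hT'l _ _).trans (mul_le_mul_of_nonneg_left h5 hLC)
    have h11 := norm_sub_le ((M.f F (z * w (i / q₁)) - M.f F z - T (σ z).1 (M.θ (w (i / q₁)))) +
        (M.f F (z * w (i / q₁) * u) - M.f F (z * w (i / q₁)))) (T (σ z).1 (M.θ u))
    have h12 := norm_add_le (M.f F (z * w (i / q₁)) - M.f F z - T (σ z).1 (M.θ (w (i / q₁))))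
        (M.f F (z * w (i / q₁) * u) - M.f F (z * w (i / q₁)))
    rw [h8] at hE'
    have h13 : ((i / q₁ : ℕ) : ℝ) * ε₁ ≤ N * ε₁ := by
      refine mul_le_mul_of_nonneg_right ?_ hε₁
      exact_mod_cast Nat.div_le_of_le_mul (by rw [mul_comm]; exact hi.trans hn)
    linarith

/-- class-dependent right translations by elements of `ker η` do not increase the measure -/
theorem ln_class_trans (g : Multiplicative (Fin k → ℤ) → S) (hg : ∀ w, M.η (g w) = 1)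
    (A : Set S) : M.μ {z | z * g (M.η z) ∈ A} ≤ M.μ A := by
  have hc : Countable (Multiplicative (Fin k → ℤ)) :=
    Multiplicative.toAdd.injective.countable
  set A' := toMeasurable M.μ A with hA'
  have hA'm : MeasurableSet A' := measurableSet_toMeasurable _ _
  have hsub : {z | z * g (M.η z) ∈ A} ⊆ ⋃ w, (fun z => z * g w) ⁻¹' (A' ∩ {z | M.η z = w}) := by
    intro z hz
    simp only [mem_iUnion, mem_preimage]
    exact ⟨M.η z, subset_toMeasurable _ _ hz, by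
      show M.η (z * g (M.η z)) = M.η z
      rw [map_mul, hg, mul_one]⟩
  calc M.μ {z | z * g (M.η z) ∈ A} ≤ _ := measure_mono hsub
    _ ≤ ∑' w, M.μ ((fun z => z * g w) ⁻¹' (A' ∩ {z | M.η z = w})) := measure_iUnion_le _
    _ = ∑' w, M.μ (A' ∩ {z | M.η z = w}) := by
        congr 1
        funext w
        exact (M.mp (g w)).measure_preimage (hA'm.inter (M.η_meas w)).nullMeasurableSet
    _ = M.μ (⋃ w, A' ∩ {z | M.η z = w}) := by
        rw [measure_iUnion]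
        · intro w w' hww
          rw [Function.onFun, Set.disjoint_left]
          rintro z ⟨_, hz⟩ ⟨_, hz'⟩
          exact hww (hz.symm.trans hz')
        · exact fun w => hA'm.inter (M.η_meas w)
    _ ≤ M.μ A' := measure_mono (iUnion_subset fun w => inter_subset_left)
    _ = M.μ A := measure_toMeasurable A

open Classical in
/-- **Neutral moves**, fixed scale. -/
theorem ln_neutral {K : ℝ} {F F' : Γ → Γ} (hQ : M.QIm K F F')
    {Φ₁ : Finset (Ht k →L[ℝ] ℝ)} {V₁ : Finset (Fin k → ℤ)} {σ : S → LnLab Φ₁ V₁} {J lm : ℕ}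
    {m d d' R R' Y : ℝ} (hdm : d < m) (hd : 0 ≤ d) {D G : Set S}
    (hlm : ∀ v ∈ V₁, M.l (M.τ v) ≤ lm) (hlm' : ∀ v ∈ V₁, M.τ v ∈ M.CB lm)
    (hG : ∀ z ∈ G, (lnData hQ Φ₁ V₁).Good σ J m z) {eG eN : ℝ≥0∞} (hR0 : 0 ≤ R)
    (heG : M.μ (M.In R D \ G) ≤ eG) (hR : (J * lm : ℕ) + R' ≤ R)
    (hBd : (∑ b ∈ Φ₁, ‖b‖) * d' ≤ d)
    (hNF : ∀ y ∈ M.Vw 0, M.nm y ≤ Y → ∀ Din : Set S,
      (∀ z ∈ Din, ∀ x : ℝ, 0 ≤ x → x ≤ 1 → z * M.ex (x • y) ∈ M.In R' D) →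
      M.μ {x | x ∈ Din ∧ d' < ‖M.f F (x * M.ex y) - M.f F x‖} ≤ eN)
    (y : Multiplicative (Fin k → ℤ) → V) (hy : ∀ w, y w ∈ M.Vw 0)
    (hyY : ∀ w, M.C0 * (1 + (J * lm : ℕ)) ^ M.deg * M.nm (y w) ≤ Y)
    {Din : Set S} (W : Finset (Multiplicative (Fin k → ℤ))) (hW : ∀ z ∈ Din, M.η z ∈ W)
    (hDin : ∀ z ∈ Din, ∀ x : ℝ, 0 ≤ x → x ≤ 1 → z * M.ex (x • y (M.η z)) ∈ M.In R D) :
    M.μ {z | z ∈ Din ∧ (σ (z * M.ex (y (M.η z))) ≠ σ z ∨
        d' < ‖M.f F (z * M.ex (y (M.η z))) - M.f F z‖)} ≤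
      2 * eG + (W.card : ℕ) * ((1 + Fintype.card (V₁ × Bool) : ℕ) * eN) := by
  have hB0 : 0 ≤ ∑ b ∈ Φ₁, ‖b‖ := Finset.sum_nonneg fun b _ => norm_nonneg b
  have hb : ∀ b : Φ₁, ‖(b : Ht k →L[ℝ] ℝ)‖ ≤ ∑ b ∈ Φ₁, ‖b‖ := fun b =>
    Finset.single_le_sum (f := fun b : Ht k →L[ℝ] ℝ => ‖b‖) (fun b _ => norm_nonneg b) b.2
  have hdist : ∀ (b : Φ₁) (x y : Ht k), |(b : Ht k →L[ℝ] ℝ) x - (b : Ht k →L[ℝ] ℝ) y| ≤
      (∑ b ∈ Φ₁, ‖b‖) * ‖x - y‖ := by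
    intro b x y
    rw [← map_sub, ← Real.norm_eq_abs]
    exact ((b : Ht k →L[ℝ] ℝ).le_opNorm _).trans (mul_le_mul_of_nonneg_right (hb b) (norm_nonneg _))
  have hC0 := M.one_le_C0
  have hfac : 1 ≤ M.C0 * (1 + (J * lm : ℕ)) ^ M.deg := by
    have h1 : (1 : ℝ) ≤ (1 + (J * lm : ℕ)) ^ M.deg := one_le_pow₀ (by
      have : (0 : ℝ) ≤ (J * lm : ℕ) := Nat.cast_nonneg _
      linarith)
    nlinarith
  have hyY0 : ∀ w, M.nm (y w) ≤ Y := fun w =>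
    (le_mul_of_one_le_left (M.nm_nonneg _) hfac).trans (hyY w)
  have hRR' : R' ≤ R := by
    have : (0 : ℝ) ≤ (J * lm : ℕ) := Nat.cast_nonneg _
    linarith
  -- the conjugated vectors
  set y' : Multiplicative (Fin k → ℤ) → (V₁ × Bool) → V := fun w p =>
    M.Ad ((lnData hQ Φ₁ V₁).t p ^ J)⁻¹ (y w) with hy'
  have hy'0 : ∀ w p, y' w p ∈ M.Vw 0 := fun w p =>
    M.C_inv _ _ (M.CB_inv (M.CB_pow (M.ln_t_CB hQ (Φ₁ := Φ₁) hlm' p) J)) _ _ (hy w)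
  have hy'Y : ∀ w p, M.nm (y' w p) ≤ Y := by
    intro w p
    have h1 := M.C_le _ _ (M.CB_inv (M.CB_pow (M.ln_t_CB hQ (Φ₁ := Φ₁) hlm' p) J)) 0
      M.zero_mem_Wt _ (hy w)
    refine h1.trans ?_
    rw [ContinuousLinearMap.zero_apply, Real.exp_zero, mul_one]
    exact hyY w
  -- the bad sets
  set Dw : Multiplicative (Fin k → ℤ) → Set S := fun w => {z | z ∈ Din ∧ M.η z = w} with hDw
  set N1 : Multiplicative (Fin k → ℤ) → Set S := fun w =>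
    {x | x ∈ Dw w ∧ d' < ‖M.f F (x * M.ex (y w)) - M.f F x‖} with hN1
  set N2 : Multiplicative (Fin k → ℤ) → (V₁ × Bool) → Set S := fun w p =>
    {x | x ∈ {x | x * ((lnData hQ Φ₁ V₁).t p ^ J)⁻¹ ∈ Dw w} ∧
      d' < ‖M.f F (x * M.ex (y' w p)) - M.f F x‖} with hN2
  have hN1μ : ∀ w, M.μ (N1 w) ≤ eN := by
    intro w
    refine hNF (y w) (hy w) (hyY0 w) (Dw w) ?_
    rintro z ⟨hz, hzw⟩ x hx0 hx1
    have := hDin z hz x hx0 hx1
    rw [hzw] at this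
    exact ln_In_mono hRR' this
  have hN2μ : ∀ w p, M.μ (N2 w p) ≤ eN := by
    intro w p
    refine hNF (y' w p) (hy'0 w p) (hy'Y w p) _ ?_
    rintro z ⟨hz, hzw⟩ x hx0 hx1
    have h1 := hDin _ hz x hx0 hx1
    rw [hzw] at h1
    have h2 : z * M.ex (x • y' w p) = z * ((lnData hQ Φ₁ V₁).t p ^ J)⁻¹ * M.ex (x • y w) *
        (lnData hQ Φ₁ V₁).t p ^ J := by
      rw [hy', ← map_smul, M.ex_Ad, inv_inv]; group
    rw [h2]
    refine ln_In_mul h1 (le_trans ?_ hR)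
    have h3 : M.l ((lnData hQ Φ₁ V₁).t p ^ J) ≤ J * lm :=
      (M.ln_pow _ _).trans (Nat.mul_le_mul_left _ (M.ln_t_l hQ hlm p))
    have h4 : (M.l ((lnData hQ Φ₁ V₁).t p ^ J) : ℝ) ≤ (J * lm : ℕ) := by exact_mod_cast h3
    linarith
  -- decomposition
  have hsub : {z | z ∈ Din ∧ (σ (z * M.ex (y (M.η z))) ≠ σ z ∨
        d' < ‖M.f F (z * M.ex (y (M.η z))) - M.f F z‖)} ⊆
      (M.In R D \ G) ∪ ({z | z * M.ex (y (M.η z)) ∈ M.In R D \ G} ∪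
        ⋃ w ∈ W, (N1 w ∪ ⋃ p ∈ (Finset.univ : Finset (V₁ × Bool)),
          (fun z => z * (lnData hQ Φ₁ V₁).t p ^ J) ⁻¹' (N2 w p))) := by
    rintro z ⟨hz, hz'⟩
    by_contra hcon
    rw [mem_union, mem_union, not_or, not_or] at hcon
    obtain ⟨c1, c2, c3⟩ := hcon
    simp only [mem_iUnion, mem_union, not_exists, not_or] at c3
    have hzw := hW z hz
    obtain ⟨c4, c5⟩ := c3 (M.η z) hzw
    have d0 := hDin z hz 0 le_rfl zero_le_one
    rw [zero_smul, M.ex_zero, mul_one] at d0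
    have d1 := hDin z hz 1 zero_le_one le_rfl
    rw [one_smul] at d1
    have g0 : z ∈ G := by by_contra h; exact c1 ⟨d0, h⟩
    have g1 : z * M.ex (y (M.η z)) ∈ G := by by_contra h; exact c2 ⟨d1, h⟩
    have hfz : ‖M.f F (z * M.ex (y (M.η z))) - M.f F z‖ ≤ d' := by
      by_contra h
      exact c4 ⟨⟨hz, rfl⟩, not_le.1 h⟩
    rcases hz' with hz' | hz'
    · refine hz' (LData.sigma_eq_near (hG _ g0) (hG _ g1) ?_ hdm).symm
      intro p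
      refine Or.inl fun b => ⟨?_, ?_⟩
      · exact (hdist b _ _).trans ((mul_le_mul_of_nonneg_left hfz hB0).trans hBd)
      · have h5 : ‖M.f F (z * (lnData hQ Φ₁ V₁).t p ^ J * M.ex (y' (M.η z) p)) -
            M.f F (z * (lnData hQ Φ₁ V₁).t p ^ J)‖ ≤ d' := by
          by_contra h
          refine c5 p (Finset.mem_univ _) ⟨?_, not_le.1 h⟩
          show z * (lnData hQ Φ₁ V₁).t p ^ J * ((lnData hQ Φ₁ V₁).t p ^ J)⁻¹ ∈ Dw (M.η z)
          rw [mul_inv_cancel_right]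
          exact ⟨hz, rfl⟩
        have h6 : z * M.ex (y (M.η z)) * (lnData hQ Φ₁ V₁).t p ^ J =
            z * (lnData hQ Φ₁ V₁).t p ^ J * M.ex (y' (M.η z) p) := by
          rw [hy', M.ex_Ad, inv_inv]; group
        show |(b : Ht k →L[ℝ] ℝ) (M.f F (z * M.ex (y (M.η z)) * (lnData hQ Φ₁ V₁).t p ^ J)) -
          (b : Ht k →L[ℝ] ℝ) (M.f F (z * (lnData hQ Φ₁ V₁).t p ^ J))| ≤ d
        rw [h6]
        exact (hdist b _ _).trans ((mul_le_mul_of_nonneg_left h5 hB0).trans hBd)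
    · exact absurd hz' (not_lt.2 hfz)
  have hcl : M.μ {z | z * M.ex (y (M.η z)) ∈ M.In R D \ G} ≤ eG :=
    (M.ln_class_trans (fun w => M.ex (y w)) (fun w => M.η_ex _) _).trans heG
  refine (measure_mono hsub).trans ((measure_union_le _ _).trans ?_)
  have hlast : M.μ (⋃ w ∈ W, (N1 w ∪ ⋃ p ∈ (Finset.univ : Finset (V₁ × Bool)),
      (fun z => z * (lnData hQ Φ₁ V₁).t p ^ J) ⁻¹' (N2 w p))) ≤
      (W.card : ℕ) * ((1 + Fintype.card (V₁ × Bool) : ℕ) * eN) := by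
    refine (measure_biUnion_finset_le _ _).trans ?_
    have h1 : ∀ w ∈ W, M.μ (N1 w ∪ ⋃ p ∈ (Finset.univ : Finset (V₁ × Bool)),
      (fun z => z * (lnData hQ Φ₁ V₁).t p ^ J) ⁻¹' (N2 w p)) ≤
        (1 + Fintype.card (V₁ × Bool) : ℕ) * eN := by
      intro w _
      refine (measure_union_le _ _).trans ?_
      have h2 : M.μ (⋃ p ∈ (Finset.univ : Finset (V₁ × Bool)),
          (fun z => z * (lnData hQ Φ₁ V₁).t p ^ J) ⁻¹' (N2 w p)) ≤
          (Fintype.card (V₁ × Bool) : ℕ) * eN := by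
        refine (measure_biUnion_finset_le _ _).trans ?_
        refine (Finset.sum_le_sum fun p _ => (M.ln_ri _ _).trans (hN2μ w p)).trans ?_
        rw [Finset.sum_const, Finset.card_univ, nsmul_eq_mul]
      refine (add_le_add (hN1μ w) h2).trans (le_of_eq ?_)
      push_cast; ring
    refine (Finset.sum_le_sum h1).trans ?_
    rw [Finset.sum_const, nsmul_eq_mul]
  calc M.μ (M.In R D \ G) + M.μ _ ≤ eG + (eG + (W.card : ℕ) *
        ((1 + Fintype.card (V₁ × Bool) : ℕ) * eN)) :=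
        add_le_add heG ((measure_union_le _ _).trans (add_le_add hcl hlast))
    _ = _ := by ring

end RModel

end Vale.Agent.P188.Z1

end

section

/-!
# P188, Z1, block COH, part 9: one map
-/

set_option linter.all false

open MeasureTheory Set
open scoped ENNReal
open Agent.P188.H428 (IsLen)
open Vale.Agent.P188.H530 (hgt hgt_mul Crossed Mod TrP RayLin psi_pat rayMap_eq_of_pat
  exists_max_norm exists_rayLin exists_net_rays iv exists_measurable_sub)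

namespace Vale.Agent.P188.Z1

namespace RModel

variable {S : Type} [Group S] [MeasurableSpace S] {Γ : Type} [Group Γ]
  {V : Type} [AddCommGroup V] [Module ℝ V] {k : ℕ} {M : RModel S Γ V k}

theorem le_ofReal_of_real {A B : Set S} {c : ℝ} (hc : 0 ≤ c) (hA : M.μ A ≠ ⊤) (hB : M.μ B ≠ ⊤)
    (h : M.μ.real A ≤ c * M.μ.real B) : M.μ A ≤ ENNReal.ofReal c * M.μ B := by
  unfold Measure.real at h
  rw [← ENNReal.toReal_le_toReal hA (ENNReal.mul_ne_top ENNReal.ofReal_ne_top hB),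
    ENNReal.toReal_mul, ENNReal.toReal_ofReal hc]
  exact h

/-- The set where the linear parts are good, for one map. -/
theorem coh_set {K L c₁ εL ε' κ κ' r R a₁ a₂ ε : ℝ} {F F' : Γ → Γ} {D Dp D₀ : Set S}
    {T : S → Ht k →L[ℝ] Ht k} (G : (Ht k →L[ℝ] Ht k) → Prop) (hqi : M.QIm K F F')
    (hfat : M.Fat R κ D Dp) (hD₀D : D₀ ⊆ D) (hmost : M.μ (D \ D₀) ≤ ENNReal.ofReal εL * M.μ D)
    (hεL : 0 ≤ εL) (ha₁ : 0 ≤ a₁) (ha₂ : 0 ≤ a₂) (hr : 0 ≤ r)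
    (hnorm : M.μ {x | x ∈ D₀ ∧ ¬ ‖T x‖ ≤ L} ≤ ENNReal.ofReal a₁ * M.μ D)
    (hinv : M.μ {x | x ∈ D₀ ∧ ¬ ∀ w, c₁ * ‖w‖ ≤ ‖T x w‖} ≤ ENNReal.ofReal a₂ * M.μ D)
    (hlin : ∀ x ∈ D₀, ∀ x' ∈ D₀, (M.l (x⁻¹ * x') : ℝ) ≤ r →
      ‖M.f F x' - M.f F x - T x (M.θ (x⁻¹ * x'))‖ ≤ εL * r ∧ ‖T x' - T x‖ ≤ εL)
    (hE : εL + a₁ + a₂ ≤ ε')
    (HG : ∀ Da : Set S, M.LinOn K L ε' κ r R F F' D Dp Da T →
      (∀ x ∈ Da, ∀ w, c₁ * ‖w‖ ≤ ‖T x w‖) →
      M.μ.real {x ∈ D | x ∈ Da ∧ ¬ G (T x)} ≤ κ' * M.μ.real D) (hκ' : 0 ≤ κ')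
    (hsum : ε' + κ' ≤ ε) :
    ∃ D₁ : Set S, D₁ ⊆ D₀ ∧ MeasurableSet D₁ ∧ M.μ (D \ D₁) ≤ ENNReal.ofReal ε * M.μ D ∧
      ∀ x ∈ D₁, G (T x) := by
  set X₁ : Set S := {x | x ∈ D₀ ∧ ¬ ‖T x‖ ≤ L} with hX₁
  set X₂ : Set S := {x | x ∈ D₀ ∧ ¬ ∀ w, c₁ * ‖w‖ ≤ ‖T x w‖} with hX₂
  set Da : Set S := (D₀ \ X₁) \ X₂ with hDa
  have hmem : ∀ x ∈ Da, x ∈ D₀ ∧ ‖T x‖ ≤ L ∧ ∀ w, c₁ * ‖w‖ ≤ ‖T x w‖ := by
    rintro x ⟨⟨hx, h1⟩, h2⟩
    refine ⟨hx, ?_, ?_⟩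
    · by_contra hcon
      exact h1 ⟨hx, hcon⟩
    · by_contra hcon
      exact h2 ⟨hx, hcon⟩
  have hε' : 0 ≤ ε' := by linarith
  have hmostA : M.μ (D \ Da) ≤ ENNReal.ofReal ε' * M.μ D := by
    have hs : D \ Da ⊆ ((D \ D₀) ∪ X₁) ∪ X₂ := by
      rintro x ⟨hx, hx'⟩
      by_cases h1 : x ∈ D₀
      · by_cases h2 : x ∈ X₁
        · exact Or.inl (Or.inr h2)
        · by_cases h3 : x ∈ X₂
          · exact Or.inr h3
          · exact absurd ⟨⟨h1, h2⟩, h3⟩ hx'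
      · exact Or.inl (Or.inl ⟨hx, h1⟩)
    refine (measure_mono hs).trans ((measure_union_le _ _).trans ?_)
    refine (add_le_add ((measure_union_le _ _).trans (add_le_add hmost hnorm)) hinv).trans ?_
    rw [← add_mul, ← add_mul, ← ENNReal.ofReal_add hεL ha₁, ← ENNReal.ofReal_add (by positivity) ha₂]
    gcongr
  have hLin : M.LinOn K L ε' κ r R F F' D Dp Da T := by
    refine ⟨hqi, hfat, fun x hx => hD₀D (hmem x hx).1, hmostA, fun x hx => (hmem x hx).2.1, ?_⟩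
    intro x hx x' hx' hl
    obtain ⟨h1, h2⟩ := hlin x (hmem x hx).1 x' (hmem x' hx').1 hl
    have h3 : εL ≤ ε' := by linarith
    exact ⟨h1.trans (by gcongr), h2.trans h3⟩
  have hG := HG Da hLin fun x hx => (hmem x hx).2.2
  set X₃ : Set S := {x ∈ D | x ∈ Da ∧ ¬ G (T x)} with hX₃
  set Db : Set S := Da \ X₃ with hDb
  obtain ⟨D₁, h1, h2, h3, h4⟩ := exists_measurable_sub (μ := M.μ) (D₀ := Db) hfat.meas hfat.fin
  have hD₁ : M.μ.real (D \ D₁) ≤ ε * M.μ.real D := by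
    refine h4.trans ?_
    have hs : D \ Db ⊆ (D \ Da) ∪ X₃ := by
      rintro x ⟨hx, hx'⟩
      by_cases h1 : x ∈ Da
      · by_cases h2 : x ∈ X₃
        · exact Or.inr h2
        · exact absurd ⟨h1, h2⟩ hx'
      · exact Or.inl ⟨hx, h1⟩
    have hfin : M.μ ((D \ Da) ∪ X₃) ≠ ⊤ := by
      refine ne_top_of_le_ne_top hfat.fin (measure_mono ?_)
      rintro x (hx | hx)
      · exact hx.1
      · exact hx.1
    refine (measureReal_mono hs hfin).trans ((measureReal_union_le _ _).trans ?_)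
    have h5 := real_of_le hε' hfat.fin hmostA
    have hD0 : 0 ≤ M.μ.real D := measureReal_nonneg
    nlinarith
  refine ⟨D₁, fun x hx => (hmem x (h1 hx).1).1, h2, ?_, ?_⟩
  · exact le_ofReal_of_real (by linarith)
      (ne_top_of_le_ne_top hfat.fin (measure_mono Set.sdiff_subset)) hfat.fin hD₁
  · intro x hx
    have hx' := h1 hx
    by_contra hcon
    exact hx'.2 ⟨h3 hx, hx'.1, hcon⟩

/-- sign patterns do not change under small changes -/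
theorem patF_eq {Φ₁ : Finset (Ht k →L[ℝ] ℝ)} {V₁ : Finset (Fin k → ℤ)}
    {T T' : Ht k →L[ℝ] Ht k} {c₀ B VB εL : ℝ} (hB : ∀ b ∈ Φ₁, ‖b‖ ≤ B)
    (hVB : ∀ v ∈ V₁, ‖(ht v : Ht k)‖ ≤ VB) (hB0 : 0 ≤ B) (hεL : ‖T' - T‖ ≤ εL)
    (hsm : B * (εL * VB) < c₀)
    (hT : ∀ v : V₁, ∀ b ∈ Φ₁, (b ∈ patF Φ₁ V₁ T v → c₀ ≤ b (T (ht v))) ∧
          (b ∉ patF Φ₁ V₁ T v → b (T (ht v)) ≤ -c₀)) :
    patF Φ₁ V₁ T' = patF Φ₁ V₁ T := by
  funext v
  ext b
  have hd : ∀ b ∈ Φ₁, |b (T' (ht v)) - b (T (ht v))| ≤ B * (εL * VB) := by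
    intro b hb
    have e : b (T' (ht (v : Fin k → ℤ))) - b (T (ht v)) = b ((T' - T) (ht v)) := by
      rw [ContinuousLinearMap.sub_apply, map_sub]
    rw [e, ← Real.norm_eq_abs]
    refine (b.le_opNorm _).trans ?_
    have h1 : ‖(T' - T) (ht (v : Fin k → ℤ))‖ ≤ εL * VB := by
      refine ((T' - T).le_opNorm _).trans ?_
      exact mul_le_mul hεL (hVB v v.2) (norm_nonneg _) ((norm_nonneg _).trans hεL)
    exact mul_le_mul (hB b hb) h1 (norm_nonneg _) hB0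
  constructor
  · rintro ⟨hb, hpos⟩
    refine ⟨hb, ?_⟩
    by_contra hcon
    have h1 : b ∉ patF Φ₁ V₁ T v := fun h => hcon h.2
    have h2 := (hT v b hb).2 h1
    have h3 := abs_le.mp (hd b hb)
    linarith [h3.2]
  · intro hb
    have h2 := (hT v b hb.1).1 hb
    have h3 := abs_le.mp (hd b hb.1)
    exact ⟨hb.1, by linarith [h3.1]⟩

end RModel

end Vale.Agent.P188.Z1

end

section

/-!
# P188, route A, N2: a net of few neutral elements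

`neutral_net`: the neutral elements `ex y`, `nm y ≤ e ^ (δ R)`, are within bounded distance (from the
left) of `C₁ e ^ (C₁ δ R)` of them.
-/

set_option linter.all false

open MeasureTheory Set
open scoped ENNReal

namespace Vale.Agent.P188.H83

open Vale.Agent.P188.Z1 Vale.Agent.P188.Z1.RModel

variable {S : Type} [Group S] [MeasurableSpace S] {Γ : Type} [Group Γ]
  {V : Type} [AddCommGroup V] [Module ℝ V] {k : ℕ} {M : RModel S Γ V k}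

theorem l_prod_le (L : List S) (c : ℝ) (h : ∀ a ∈ L, (M.l a : ℝ) ≤ c) :
    (M.l L.prod : ℝ) ≤ L.length * c := by
  induction L with
  | nil => simp [M.len.one]
  | cons a L ih =>
    rw [List.prod_cons, List.length_cons]
    have h1 : (M.l (a * L.prod) : ℝ) ≤ M.l a + M.l L.prod := by exact_mod_cast M.len.mul a L.prod
    have h2 := ih fun b hb => h b (List.mem_cons_of_mem _ hb)
    have h3 := h a List.mem_cons_self
    push_cast
    linarith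

/-- the elements of a box of bounded size have bounded length -/
theorem len_Bx (B : M.NatBox) (r : ℝ) (hr : 0 ≤ r) : ∃ C : ℕ, ∀ u ∈ B.Bx (fun _ => r),
    M.l u ≤ C := by
  have hC0 : 0 ≤ M.C0 := le_trans zero_le_one M.one_le_C0
  have hC : 0 ≤ B.C := le_trans zero_le_one B.one_le
  refine ⟨⌈(B.m : ℝ) * (M.C0 * (1 + B.C * r))⌉₊, fun u hu => ?_⟩
  obtain ⟨x, hx, rfl⟩ := B.gen (fun _ => r) (fun _ => hr) u hu
  have h1 := l_prod_le (M := M) (List.ofFn fun t => M.ex (x t • M.X (B.J t)))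
    (M.C0 * (1 + B.C * r)) (by
      intro a ha
      obtain ⟨t, rfl⟩ := (List.mem_ofFn' _ _).1 ha
      refine (M.met_V _).trans (mul_le_mul_of_nonneg_left ?_ hC0)
      have h2 : M.nm (x t • M.X (B.J t)) = |x t| * M.nm (M.X (B.J t)) := by
        rw [map_smul_eq_mul, Real.norm_eq_abs]
      rw [h2]
      have h3 : |x t| * M.nm (M.X (B.J t)) ≤ B.C * r * 1 :=
        mul_le_mul (hx t) (M.X_le _) (apply_nonneg _ _) (by positivity)
      linarith)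
  rw [List.length_ofFn] at h1
  exact_mod_cast h1.trans (Nat.le_ceil _)

/-- **A net of few neutral elements.** -/
theorem neutral_net (B : M.NatBox) : ∃ C : ℕ, ∃ C₁ : ℝ, 0 < C₁ ∧ ∀ δ : ℝ, 0 < δ → ∀ R : ℕ,
    ∃ Nt : Finset S, (Nt.card : ℝ) ≤ C₁ * Real.exp (C₁ * δ * R) ∧
      (∀ ν ∈ Nt, ∃ y ∈ M.Vw 0, M.nm y ≤ Real.exp (δ * R) ∧ ν = M.ex y) ∧
      ∀ y ∈ M.Vw 0, M.nm y ≤ Real.exp (δ * R) → ∃ ν ∈ Nt, M.l (M.ex y * ν⁻¹) ≤ C := by
  classical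
  have hBC : 0 ≤ B.C := le_trans zero_le_one B.one_le
  obtain ⟨Cv, a, hCv, hvol⟩ := DB.dbl_poly B
  obtain ⟨C, hC⟩ := len_Bx B B.C hBC
  have hK0 : (0 : ℝ) ≤ Cv * (2 * B.C ^ 2) ^ a := by positivity
  refine ⟨C, max 1 (max (Cv * (2 * B.C ^ 2) ^ a) a), lt_max_of_lt_left one_pos,
    fun δ hδ R => ?_⟩
  set K : ℝ := max 1 (max (Cv * (2 * B.C ^ 2) ^ a) a) with hK
  have hK1 : Cv * (2 * B.C ^ 2) ^ a ≤ K := (le_max_left _ _).trans (le_max_right _ _)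
  have hKa : (a : ℝ) ≤ K := (le_max_right _ _).trans (le_max_right _ _)
  set E : ℝ := Real.exp (δ * R) with hE
  have hE1 : 1 ≤ E := Real.one_le_exp (by positivity)
  set r : ℝ := B.C * (1 + E) with hr
  have hr1 : 1 ≤ r := by
    calc (1 : ℝ) ≤ B.C * 1 := by rw [mul_one]; exact B.one_le
      _ ≤ B.C * (1 + E) := by gcongr; linarith
  set P : Set S := {z | ∃ y ∈ M.Vw 0, M.nm y ≤ E ∧ z = (M.ex y)⁻¹} with hPdef
  have hPB : P ⊆ B.Bx (fun _ => r) := by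
    rintro z ⟨y, hy, hny, rfl⟩
    refine B.inv _ _ (B.mono (M.two (B.C * (1 + M.nm y)) 1) _ ?_ ?_ (B.ball_0 y hy))
    · intro i
      unfold RModel.two
      split_ifs
      · have := apply_nonneg M.nm y; positivity
      · exact zero_le_one
    · intro i
      unfold RModel.two
      split_ifs
      · rw [hr]; gcongr
      · exact hr1
  have hmem1 : (1 : S) ∈ B.Bx (fun _ => 1) := B.one _ fun _ => zero_le_one
  obtain ⟨Y, hYP, hYcard, hYcov⟩ := H382.exists_net (S := S) M.μ M.mpl (P := P)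
    (P' := B.Bx (fun _ => B.C * r)) (B0 := B.Bx (fun _ => 1)) (B.meas _)
    (B.pos _ fun _ => one_pos) hmem1
    (fun y hy b hb => B.mul (fun _ => r) (fun _ => by positivity) y (hPB hy) b
      (B.mono _ _ (fun _ => zero_le_one) (fun _ => hr1) hb)) (B.fin _)
  -- the cardinality
  have hcard : (Y.card : ℝ) ≤ Cv * (B.C * r) ^ a := by
    have h1 : 1 ≤ B.C * r := one_le_mul_of_one_le_of_one_le B.one_le hr1
    have h2 := hvol (B.C * r) h1 (fun _ => 1) fun _ => one_pos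
    simp only [mul_one] at h2
    have h3 := hYcard.trans h2
    have h4 : (Y.card : ℝ≥0∞) ≤ ENNReal.ofReal (Cv * (B.C * r) ^ a) :=
      (ENNReal.mul_le_mul_iff_left (B.pos _ fun _ => one_pos) (B.fin _)).1 h3
    have h5 : (0 : ℝ) ≤ Cv * (B.C * r) ^ a := by positivity
    have h6 := ENNReal.toReal_mono ENNReal.ofReal_ne_top h4
    rwa [ENNReal.toReal_natCast, ENNReal.toReal_ofReal h5] at h6
  refine ⟨Y.image (·⁻¹), ?_, ?_, ?_⟩
  · have h1 : ((Y.image (·⁻¹)).card : ℝ) ≤ Y.card := by exact_mod_cast Finset.card_image_le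
    have h2 : B.C * r ≤ 2 * B.C ^ 2 * E := by
      rw [hr]
      have : B.C * (B.C * (1 + E)) = B.C ^ 2 * (1 + E) := by ring
      rw [this]
      have h3 : B.C ^ 2 * (1 + E) ≤ B.C ^ 2 * (E + E) := by gcongr
      linarith
    calc ((Y.image (·⁻¹)).card : ℝ) ≤ Cv * (B.C * r) ^ a := h1.trans hcard
      _ ≤ Cv * (2 * B.C ^ 2 * E) ^ a := by
          have : 0 ≤ B.C * r := by positivity
          gcongr
      _ = (Cv * (2 * B.C ^ 2) ^ a) * E ^ a := by rw [mul_pow]; ring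
      _ ≤ K * Real.exp (K * δ * R) := by
          have h7 : E ^ a = Real.exp (a * (δ * R)) := by rw [hE, ← Real.exp_nat_mul]
          rw [h7]
          have h8 : (a : ℝ) * (δ * R) ≤ K * δ * R := by
            rw [mul_assoc]
            exact mul_le_mul_of_nonneg_right hKa (by positivity)
          exact mul_le_mul hK1 (Real.exp_le_exp.2 h8) (Real.exp_pos _).le (hK0.trans hK1)
  · intro ν hν
    obtain ⟨z, hz, rfl⟩ := Finset.mem_image.1 hν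
    obtain ⟨y, hy, hny, rfl⟩ := hYP z hz
    exact ⟨y, hy, hny, inv_inv _⟩
  · intro y hy hny
    obtain ⟨y', hy', b, hb, b', hb', e⟩ := hYcov (M.ex y)⁻¹ ⟨y, hy, hny, rfl⟩
    refine ⟨y'⁻¹, Finset.mem_image_of_mem _ hy', ?_⟩
    have h1 : M.ex y * y'⁻¹⁻¹ = b * b'⁻¹ := by
      rw [inv_inv, eq_mul_inv_iff_mul_eq, mul_assoc, ← e, mul_inv_cancel_left]
    rw [h1]
    have h2 := B.mul (fun _ => 1) (fun _ => zero_le_one) b hb b'⁻¹ (B.inv _ _ hb')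
    simp only [mul_one] at h2
    exact hC _ h2

end Vale.Agent.P188.H83

end

section

/-!
# P188, Z1: NEUT from NFp and DBOXH
-/

set_option linter.all false

open MeasureTheory Set Filter Topology
open Vale.Agent.P188.H540 (vec ball_finite ball_count)
open scoped Pointwise ENNReal

namespace Vale.Agent.P188.Z1

namespace DB

variable {S : Type} [Group S] [MeasurableSpace S] {Γ : Type} [Group Γ]
  {V : Type} [AddCommGroup V] [Module ℝ V] {k : ℕ} {M : RModel S Γ V k}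

open RModel

/-- a box times a neutral element of smaller neutral size, at height `1` -/
theorem neut_mem (B : M.NatBox) {c A Λ d₁ : ℝ} (hc : 0 < c) (hA : 0 < A) (hΛ : 0 < Λ)
    (hd₁ : 0 < d₁) : ∀ᶠ s : ℝ in atTop, ∀ h : (Ht k →L[ℝ] ℝ) → ℝ, M.HB c h →
    ∀ n ∈ B.Bx (fun i => Λ * M.szh h d₁ s i), ∀ y ∈ M.Vw 0, M.nm y ≤ Real.exp (A * d₁ * s) →
      n * M.ex y ∈ B.DboxH h (B.C * (B.C * max Λ 1)) ((A + 1) * d₁) (1 / 2) s := by
  classical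
  have hBC := B.one_le
  -- the section at `0`
  obtain ⟨v₀, hv₀, hv₀', hv₀''⟩ := M.C_ker _ _ (M.τ_CB 0) (by rw [M.η_τ]; rfl)
  set T0 : ℝ := M.C0 * (1 + (⌈M.C0 * (1 + ‖(fun i => (((0 : Fin k → ℤ) i : ℤ) : ℝ))‖)⌉₊ : ℝ)) ^ M.deg
    with hT0
  have e1 : ∀ᶠ s : ℝ in atTop, (2 * B.C) * (1 + s) ^ 0 ≤ Real.exp (d₁ * s) := ev_poly _ _ hd₁
  have e2 : ∀ᶠ s : ℝ in atTop, (B.C * (1 + T0)) * (1 + s) ^ 0 ≤ Real.exp ((A + 1) * d₁ * s) :=
    ev_poly _ _ (by positivity)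
  filter_upwards [e1, e2, eventually_ge_atTop 1] with s h1 h2 hs1 h hh n hn y hy hny
  rw [pow_zero, mul_one] at h1 h2
  have hs0 : (0 : ℝ) < s := by linarith
  set R' : M.ι → ℝ := fun i => max Λ 1 * M.szh h ((A + 1) * d₁) s i with hR'
  have hmax1 : 1 ≤ max Λ 1 := le_max_right _ _
  have hsz1 : ∀ i, 1 ≤ M.szh h ((A + 1) * d₁) s i := by
    intro i
    unfold szh
    split_ifs with hi
    · exact Real.one_le_exp (by positivity)
    · refine Real.one_le_exp (mul_nonneg hs0.le ?_)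
      exact hc.le.trans (hh _ ((M.wt_mem i).resolve_right hi)).1
  have hR'0 : ∀ i, 0 ≤ R' i := fun i => by
    have := hsz1 i
    have : 0 < max Λ 1 := by linarith
    positivity
  have hR'1 : ∀ i, M.szh h ((A + 1) * d₁) s i ≤ R' i := fun i => by
    have := hsz1 i
    show M.szh h ((A + 1) * d₁) s i ≤ max Λ 1 * M.szh h ((A + 1) * d₁) s i
    nlinarith
  have hn' : n ∈ B.Bx R' := by
    refine B.mono _ _ (fun i => (mul_pos hΛ (szh_pos h d₁ s i)).le) (fun i => ?_) hn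
    have h3 : M.szh h d₁ s i ≤ M.szh h ((A + 1) * d₁) s i := by
      unfold szh
      split_ifs
      · apply Real.exp_le_exp.2
        have : 0 ≤ A * d₁ * s := by positivity
        nlinarith
      · exact le_rfl
    have h4 : 0 < M.szh h d₁ s i := szh_pos h d₁ s i
    exact mul_le_mul (le_max_left _ _) h3 h4.le (by linarith)
  have hball : ∀ v ∈ M.Vw 0, B.C * (1 + M.nm v) ≤ Real.exp ((A + 1) * d₁ * s) →
      M.ex v ∈ B.Bx R' := by
    intro v hv hnv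
    refine B.mono _ _ ?_ (fun i => (?_ : _ ≤ M.szh h ((A + 1) * d₁) s i).trans (hR'1 i))
      (B.ball_0 v hv)
    · intro i
      unfold two
      split_ifs
      · have := apply_nonneg M.nm v; positivity
      · exact zero_le_one
    · unfold two szh
      split_ifs with hi
      · exact hnv
      · refine Real.one_le_exp (mul_nonneg hs0.le ?_)
        exact hc.le.trans (hh _ ((M.wt_mem i).resolve_right hi)).1
  have hy' : M.ex y ∈ B.Bx R' := by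
    refine hball y hy ?_
    have h3 : 1 ≤ Real.exp (A * d₁ * s) := Real.one_le_exp (by positivity)
    calc B.C * (1 + M.nm y) ≤ B.C * (2 * Real.exp (A * d₁ * s)) := by
          apply mul_le_mul_of_nonneg_left _ (by linarith)
          linarith
      _ = (2 * B.C) * Real.exp (A * d₁ * s) := by ring
      _ ≤ Real.exp (d₁ * s) * Real.exp (A * d₁ * s) := by gcongr
      _ = Real.exp ((A + 1) * d₁ * s) := by rw [← Real.exp_add]; congr 1; ring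
  have hτ0 : (M.τ 0)⁻¹ ∈ B.Bx R' := by
    refine B.inv _ _ ?_
    rw [← hv₀']
    refine hball v₀ hv₀ (le_trans ?_ h2)
    apply mul_le_mul_of_nonneg_left _ (by linarith)
    linarith [hv₀'']
  have hη : M.η (n * M.ex y) = 1 := by
    rw [map_mul, B.sub _ _ hn, M.η_ex, one_mul]
  have hsec : M.sec (n * M.ex y) = M.τ 0 := by
    unfold sec
    rw [hη]
    rfl
  refine ⟨?_, ?_⟩
  · rw [hsec]
    have h3 := B.mul _ (fun i => mul_nonneg (by linarith) (hR'0 i)) _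
      (B.mul _ hR'0 _ hn' _ hy') _ (B.mono _ (fun i => B.C * R' i) hR'0
        (fun i => by have := hR'0 i; nlinarith) hτ0)
    have h4 : (fun i => B.C * (B.C * R' i)) =
        fun i => B.C * (B.C * max Λ 1) * M.szh h ((A + 1) * d₁) s i := by
      funext i
      show B.C * (B.C * (max Λ 1 * M.szh h ((A + 1) * d₁) s i)) = _
      ring
    rw [h4] at h3
    exact h3
  · intro b hb
    rw [θ_of_η M hη, map_zero]
    have := (hh b hb).1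
    have h5 : 0 ≤ h b := hc.le.trans this
    positivity

/-- the measure of the window box of neutral size `e ^ ((A + 1) d₁ s)` against the box -/
theorem DboxH_le (B : M.NatBox) {Cv : ℝ} {a : ℕ} (hCv : 0 < Cv)
    (hvol : ∀ Λ : ℝ, 1 ≤ Λ → ∀ R : M.ι → ℝ, (∀ i, 0 < R i) →
      M.μ (B.Bx fun i => Λ * R i) ≤ ENNReal.ofReal (Cv * Λ ^ a) * M.μ (B.Bx R))
    {CP : ℝ} (hCP : ∀ v : Ht k, ∀ t : ℝ, 0 ≤ t → (∀ b ∈ M.Φ, b v ≤ t) → ‖v‖ ≤ CP * t)
    {Ck sk : ℝ} (hcount : ∀ s : ℝ, sk ≤ s →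
      (({w : Fin k → ℤ | ‖vec w‖ ≤ s}.ncard : ℕ) : ℝ) ≤ Ck * s ^ k)
    {c Λ0 A d₁ s : ℝ} (hc : 0 < c) (hΛ0 : 1 ≤ Λ0) (hA : 0 < A) (hd₁ : 0 < d₁) (hs : 0 < s)
    (hssk : sk ≤ CP * c⁻¹ * s) {h : (Ht k →L[ℝ] ℝ) → ℝ} (hh : M.HB c h) :
    M.μ (B.DboxH h Λ0 ((A + 1) * d₁) (1 / 2) s) ≤
      ENNReal.ofReal (Ck * (CP * c⁻¹ * s) ^ k) *
        (ENNReal.ofReal (Cv * (Λ0 * Real.exp (A * d₁ * s)) ^ a) * M.μ (B.Bx (M.szh h d₁ s))) := by
  have hDb : M.μ (B.DboxH h Λ0 ((A + 1) * d₁) (1 / 2) s) = (WnH M h ((1 - 1 / 2) * s)).ncard *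
      M.μ (B.Bx fun i => Λ0 * M.szh h ((A + 1) * d₁) s i) :=
    BW_measure (B.meas _) (B.sub _) (WnH_finite h (by linarith))
  have hW : ((WnH M h ((1 - 1 / 2) * s)).ncard : ℝ) ≤ Ck * (CP * c⁻¹ * s) ^ k := by
    refine le_trans ?_ (hcount (CP * c⁻¹ * s) hssk)
    have hsub : WnH M h ((1 - 1 / 2) * s) ⊆ {w | ‖vec w‖ ≤ CP * c⁻¹ * s} := by
      intro w hw
      have h1 := hCP (vec w) (c⁻¹ * s) (by positivity) fun b hb => by
        obtain ⟨h3, h4⟩ := hh b hb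
        have h5 : 0 ≤ h b := hc.le.trans h3
        calc b (vec w) ≤ (1 - 1 / 2) * s * h b := hw b hb
          _ ≤ 1 * s * c⁻¹ := by
              have h6 : (1 - 1 / 2 : ℝ) * s ≤ 1 * s := by linarith
              exact mul_le_mul h6 h4 h5 (by linarith)
          _ = c⁻¹ * s := by ring
      rw [← mul_assoc] at h1
      exact h1
    exact_mod_cast Set.ncard_le_ncard hsub (ball_finite _)
  have hBx : M.μ (B.Bx fun i => Λ0 * M.szh h ((A + 1) * d₁) s i) ≤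
      ENNReal.ofReal (Cv * (Λ0 * Real.exp (A * d₁ * s)) ^ a) * M.μ (B.Bx (M.szh h d₁ s)) := by
    have hE1 : 1 ≤ Real.exp (A * d₁ * s) := Real.one_le_exp (by positivity)
    have h1 := hvol (Λ0 * Real.exp (A * d₁ * s)) (by nlinarith) (M.szh h d₁ s) (szh_pos h d₁ s)
    refine le_trans (measure_mono ?_) h1
    refine B.mono _ _ (fun i => (mul_pos (by linarith) (szh_pos h ((A + 1) * d₁) s i)).le)
      fun i => ?_
    have hre : Λ0 * Real.exp (A * d₁ * s) * M.szh h d₁ s i =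
        Λ0 * (Real.exp (A * d₁ * s) * M.szh h d₁ s i) := by ring
    show Λ0 * M.szh h ((A + 1) * d₁) s i ≤ Λ0 * Real.exp (A * d₁ * s) * M.szh h d₁ s i
    rw [hre]
    refine mul_le_mul_of_nonneg_left ?_ (by linarith)
    unfold szh
    split_ifs
    · rw [← Real.exp_add]
      apply Real.exp_le_exp.2
      apply le_of_eq
      ring
    · have := Real.exp_pos (s * h (M.wt i))
      nlinarith
  rw [hDb]
  refine mul_le_mul' ?_ hBx
  rw [← ENNReal.ofReal_natCast]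
  exact ENNReal.ofReal_le_ofReal hW

/-- one application of `NFp`, at a location `g` -/
theorem neut_step (B : M.NatBox) {K ε c₀ CR ρ δ s Λ0 d' κ₁ Λ d₁ : ℝ}
    (hNF : ∀ F F' : Γ → Γ, M.QIm K F F' → ∀ D Dp : Set S, M.Fat (CR * (ρ * s)) 1 D Dp →
      ∀ y ∈ M.Vw 0, M.nm y ≤ Real.exp (δ * (ρ * s)) → ∀ Din : Set S,
      (∀ z ∈ Din, ∀ x : ℝ, 0 ≤ x → x ≤ 1 → z * M.ex (x • y) ∈ D) →
      M.μ {z | z ∈ Din ∧ ε * (ρ * s) < ‖M.f F (z * M.ex y) - M.f F z‖} ≤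
        ENNReal.ofReal (Real.exp (-(c₀ * (ρ * s)))) * M.μ D)
    (hs : 0 ≤ s) (hε : 0 < ε) (hρ1 : ρ ≤ 1) (hCRρ : CR * ρ ≤ κ₁)
    {h : (Ht k →L[ℝ] ℝ) → ℝ} {Dp : Set S}
    (hDp : M.Fat (κ₁ * s) 1 (B.DboxH h Λ0 d' (1 / 2) s) Dp)
    {F F' : Γ → Γ} (hF : M.QIm K F F') (g : S) {y : V} (hy : y ∈ M.Vw 0)
    (hny : M.nm y ≤ Real.exp (δ * (ρ * s)))
    (hmem : ∀ n ∈ B.Bx (fun i => Λ * M.szh h d₁ s i), ∀ x : ℝ, 0 ≤ x → x ≤ 1 →
      n * M.ex (x • y) ∈ B.DboxH h Λ0 d' (1 / 2) s) :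
    M.μ {n | n ∈ B.Bx (fun i => Λ * M.szh h d₁ s i) ∧
        ε * s < ‖M.f F (g * (n * M.ex y)) - M.f F (g * n)‖} ≤
      ENNReal.ofReal (Real.exp (-(c₀ * (ρ * s)))) * M.μ (B.DboxH h Λ0 d' (1 / 2) s) := by
  set D : Set S := {z | g⁻¹ * z ∈ B.DboxH h Λ0 d' (1 / 2) s} with hD
  have hfat : M.Fat (CR * (ρ * s)) 1 D {z | g⁻¹ * z ∈ Dp} :=
    (fat_left hDp g⁻¹).mono (by
      have := mul_le_mul_of_nonneg_right hCRρ hs
      linarith) le_rfl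
  set Din : Set S := {z | g⁻¹ * z ∈ B.Bx (fun i => Λ * M.szh h d₁ s i)} with hDin
  have hmain := hNF F F' hF D _ hfat y hy hny Din (by
      intro z hz x hx0 hx1
      show g⁻¹ * (z * M.ex (x • y)) ∈ B.DboxH h Λ0 d' (1 / 2) s
      rw [← mul_assoc]
      exact hmem _ hz x hx0 hx1)
  -- transport to the box
  have hle : M.μ {n | n ∈ B.Bx (fun i => Λ * M.szh h d₁ s i) ∧
      ε * s < ‖M.f F (g * (n * M.ex y)) - M.f F (g * n)‖} ≤
      M.μ {x | x ∈ Din ∧ ε * (ρ * s) < ‖M.f F (x * M.ex y) - M.f F x‖} := by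
    have h1 : {n | n ∈ B.Bx (fun i => Λ * M.szh h d₁ s i) ∧
        ε * s < ‖M.f F (g * (n * M.ex y)) - M.f F (g * n)‖} ⊆
        (fun n => g * n) ⁻¹' {x | x ∈ Din ∧ ε * (ρ * s) < ‖M.f F (x * M.ex y) - M.f F x‖} := by
      rintro n ⟨hn1, hn2⟩
      refine ⟨?_, ?_⟩
      · show g⁻¹ * (g * n) ∈ B.Bx (fun i => Λ * M.szh h d₁ s i)
        rw [inv_mul_cancel_left]
        exact hn1
      · rw [← mul_assoc] at hn2
        refine lt_of_le_of_lt ?_ hn2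
        have : ρ * s ≤ s := by nlinarith
        exact mul_le_mul_of_nonneg_left this hε.le
    refine (measure_mono h1).trans ?_
    have h2 := Measure.le_map_apply (μ := M.μ) (M.mpl g).measurable.aemeasurable
      {x | x ∈ Din ∧ ε * (ρ * s) < ‖M.f F (x * M.ex y) - M.f F x‖}
    rw [(M.mpl g).map_eq] at h2
    exact h2
  -- the measure of `D`
  have hμD : M.μ D = M.μ (B.DboxH h Λ0 d' (1 / 2) s) :=
    (M.mpl g⁻¹).measure_preimage hDp.meas.nullMeasurableSet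
  rw [hμD] at hmain
  exact hle.trans hmain

/-- **NEUT** -/
theorem neut (B : M.NatBox) (hB : B.Fine) (hN : M.NFp) : M.NEUT B := by
  classical
  intro K c ε Λ hc hε hΛ
  have hBC := B.one_le
  have hmax1 : 1 ≤ max Λ 1 := le_max_right _ _
  obtain ⟨Λ0, hΛ0⟩ : ∃ Λ0 : ℝ, Λ0 = B.C * (B.C * max Λ 1) := ⟨_, rfl⟩
  have hΛ01 : 1 ≤ Λ0 := by
    have : 1 ≤ B.C * max Λ 1 := by nlinarith
    rw [hΛ0]
    nlinarith
  obtain ⟨κ₁, hκ₁, hbox⟩ := dboxH B hB c hc (1 / 2) (by norm_num) (by norm_num) Λ0 (by linarith)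
    1 one_pos
  obtain ⟨δ, c₀, CR, r₀, hδ, hc₀, hNF⟩ := hN K ε 1 hε
  obtain ⟨Cv, a, hCv1, hvol⟩ := dbl_poly B
  have hCv : 0 < Cv := one_pos.trans_le hCv1
  obtain ⟨CP, hCP0, hCP⟩ := exists_bdd M
  obtain ⟨Ck, sk, hsk, hCk, hcount⟩ := ball_count k
  obtain ⟨ρ, hρ⟩ : ∃ ρ : ℝ, ρ = min 1 (κ₁ / (|CR| + 1)) := ⟨_, rfl⟩
  have hρ0 : 0 < ρ := by rw [hρ]; exact lt_min one_pos (by positivity)
  have hρ1 : ρ ≤ 1 := by rw [hρ]; exact min_le_left _ _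
  have hCRρ : CR * ρ ≤ κ₁ := by
    have h1 : ρ ≤ κ₁ / (|CR| + 1) := by rw [hρ]; exact min_le_right _ _
    rw [le_div_iff₀ (by positivity)] at h1
    have h2 : CR * ρ ≤ |CR| * ρ := mul_le_mul_of_nonneg_right (le_abs_self _) hρ0.le
    nlinarith
  refine ⟨c₀ * ρ / 2, by positivity, fun A₀ => ?_⟩
  obtain ⟨A, hAdef⟩ : ∃ A : ℝ, A = 2 * |A₀| + 1 := ⟨_, rfl⟩
  have hA : 0 < A := by have := abs_nonneg A₀; rw [hAdef]; positivity
  refine ⟨min (δ * ρ / A) (c₀ * ρ / (4 * (a + 1) * A)), ?_, ?_⟩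
  · exact lt_min (by positivity) (by positivity)
  intro d₁ hd₁ hd₁m
  have hd1 : A * d₁ ≤ δ * ρ := by
    have h1 := hd₁m.trans (min_le_left _ _)
    rw [le_div_iff₀ hA] at h1
    linarith
  have hd2 : (a : ℝ) * (A * d₁) ≤ c₀ * ρ / 4 := by
    have h1 := hd₁m.trans (min_le_right _ _)
    rw [le_div_iff₀ (by positivity)] at h1
    have h2 : 0 < A * d₁ := by positivity
    nlinarith
  have hd'0 : 0 < (A + 1) * d₁ := by positivity
  obtain ⟨s₁, hs₁⟩ := hbox ((A + 1) * d₁) ((A + 1) * d₁ / (2 * κ₁)) hd'0 (by positivity) (by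
    have : (A + 1) * d₁ / (2 * κ₁) * κ₁ = (A + 1) * d₁ / 2 := by field_simp
    rw [this]
    linarith)
  have e1 := neut_mem B hc hA hΛ hd₁
  rw [← hΛ0] at e1
  have hCQ0 : 0 < CP * c⁻¹ := by positivity
  have e2 : ∀ᶠ s : ℝ in atTop, (Ck * (CP * c⁻¹) ^ k * Cv * Λ0 ^ a) * (1 + s) ^ k ≤
      Real.exp (c₀ * ρ / 4 * s) := ev_poly _ _ (by positivity)
  obtain ⟨s₂, hs₂⟩ := (e1.and e2).exists_forall_of_atTop
  refine ⟨max (max s₁ s₂) (max (max (max 1 (1 / d₁)) (r₀ / ρ)) (sk / (CP * c⁻¹))),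
    fun s hs h hh F F' hF g y hy hny₀ => ?_⟩
  have hs1' : s₁ ≤ s := (le_max_left _ _).trans ((le_max_left _ _).trans hs)
  have hs2' : s₂ ≤ s := (le_max_right _ _).trans ((le_max_left _ _).trans hs)
  have hs1 : 1 ≤ s := (le_max_left _ _).trans ((le_max_left _ _).trans
    ((le_max_left _ _).trans ((le_max_right _ _).trans hs)))
  have hs1d : 1 ≤ d₁ * s := by
    have h1 : 1 / d₁ ≤ s := (le_max_right _ _).trans ((le_max_left _ _).trans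
      ((le_max_left _ _).trans ((le_max_right _ _).trans hs)))
    rw [div_le_iff₀ hd₁] at h1
    linarith
  have hny : M.nm y ≤ Real.exp (A * d₁ * s) := by
    refine hny₀.trans (Real.exp_le_exp.2 ?_)
    have h1 : A₀ * (d₁ * s + 1) ≤ |A₀| * (d₁ * s + 1) :=
      mul_le_mul_of_nonneg_right (le_abs_self _) (by linarith)
    have h2 : |A₀| * 1 ≤ |A₀| * (d₁ * s) := mul_le_mul_of_nonneg_left hs1d (abs_nonneg _)
    have h3 : A * d₁ * s = 2 * (|A₀| * (d₁ * s)) + d₁ * s := by rw [hAdef]; ring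
    linarith
  have hsr : r₀ ≤ ρ * s := by
    have h1 : r₀ / ρ ≤ s := (le_max_right _ _).trans
      ((le_max_left _ _).trans ((le_max_right _ _).trans hs))
    rw [div_le_iff₀ hρ0] at h1
    linarith
  have hssk : sk ≤ CP * c⁻¹ * s := by
    have h1 : sk / (CP * c⁻¹) ≤ s := (le_max_right _ _).trans ((le_max_right _ _).trans hs)
    rw [div_le_iff₀ hCQ0] at h1
    linarith
  have hs0 : 0 < s := by linarith
  obtain ⟨hmem, hexp⟩ := hs₂ s hs2'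
  obtain ⟨Dp, hDp⟩ := hs₁ s hs1' h hh
  have hstep := neut_step B (hNF (ρ * s) hsr) hs0.le hε hρ1 hCRρ hDp.toFat hF g hy
    (Λ := Λ) (d₁ := d₁) (by
      refine hny.trans (Real.exp_le_exp.2 ?_)
      have := mul_le_mul_of_nonneg_right hd1 hs0.le
      linarith) (fun n hn x hx0 hx1 => by
      refine hmem h hh _ hn _ (Submodule.smul_mem _ _ hy) ?_
      rw [map_smul_eq_mul, Real.norm_eq_abs, abs_of_nonneg hx0]
      have h1 := apply_nonneg M.nm y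
      nlinarith)
  have hDle := DboxH_le B hCv hvol hCP hcount hc hΛ01 hA hd₁ hs0 hssk hh
  refine hstep.trans ((mul_le_mul_right hDle _).trans ?_)
  rw [← mul_assoc, ← mul_assoc, ← ENNReal.ofReal_mul (Real.exp_pos _).le,
    ← ENNReal.ofReal_mul (by positivity)]
  refine mul_le_mul' (ENNReal.ofReal_le_ofReal ?_) le_rfl
  exact neut_num hs0.le hCk hCQ0.le hCv.le (by linarith) hd2 hexp

end DB

end Vale.Agent.P188.Z1

end

section

/-!
# P188, Z1: NEUT holds for every model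
-/

namespace Vale.Agent.P188.Z1

/-- **NEUT** holds for every natural box structure. -/
theorem RModel.neut_holds {S : Type} [Group S] [MeasurableSpace S] {Γ : Type} [Group Γ]
    {V : Type} [AddCommGroup V] [Module ℝ V] {k : ℕ} (M : RModel S Γ V k) (B : M.NatBox)
    (hB : B.Fine) : M.NEUT B :=
  DB.neut B hB M.nfp_holds

end Vale.Agent.P188.Z1

end
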