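import Vale.Agent.P188.R.G096
import Vale.Agent.P188.R.G100
import Vale.Agent.P188.R.G067

section

/-!
# P188, route A, block hinput: neutral words, Cartan words, translates of fat sets
-/

set_option linter.all false

open MeasureTheory Set Filter Topology
open scoped ENNReal
open Vale.Agent.P188.H530 (hgt)
open Vale.Agent.P188.H540 (vec LP tendsto_LP)
open Vale.Agent.P188.Z1

namespace Vale.Agent.P188.H235

variable {S : Type} [Group S] [MeasurableSpace S] {Γ : Type} [Group Γ]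
  {V : Type} [AddCommGroup V] [Module ℝ V] {k : ℕ} {M : RModel S Γ V k}

/-- the size of a polynomial in an exponential -/
theorem rpow_exp_le {C t : ℝ} (hC : 0 ≤ C) (ht : 0 ≤ t) {x : ℝ} (hx0 : 0 ≤ x) (hx : x ≤ Real.exp t) :
    (1 + x) ^ C ≤ Real.exp (C * (t + 1)) := by
  have h1 : 1 + x ≤ Real.exp (t + 1) := by
    rw [Real.exp_add]
    have h2 : (2 : ℝ) ≤ Real.exp 1 := by have := Real.add_one_le_exp (1 : ℝ); linarith
    have h3 := Real.one_le_exp ht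
    nlinarith
  calc (1 + x) ^ C ≤ (Real.exp (t + 1)) ^ C := Real.rpow_le_rpow (by linarith) h1 hC
    _ = Real.exp (C * (t + 1)) := by rw [← Real.exp_mul, mul_comm]

/-- **Geometry of the neutral displacement.** -/
theorem nf_geom (B : M.NatBox) (A : ℝ) (hA : 0 ≤ A) : ∃ C : ℝ, 1 ≤ C ∧ ∀ d₁ : ℝ, 0 < d₁ →
    ∀ᶠ s : ℝ in atTop, ∀ n : ℕ, (n : ℝ) ≤ A * s → ∀ g ∈ M.CB n, ∀ L : List (M.ι × ℝ),
    L.length ≤ B.m → (∀ p ∈ L, M.wt p.1 = 0 ∧ |p.2| ≤ B.C * Real.exp (d₁ * s)) →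
    ∃ y₀ ∈ M.Vw 0, M.ex y₀ = lp M L ∧ M.nm y₀ ≤ Real.exp (C * d₁ * s) ∧
      M.Ad g⁻¹ y₀ ∈ M.Vw 0 ∧ M.nm (M.Ad g⁻¹ y₀) ≤ Real.exp (C * d₁ * s) ∧
      (∀ L₁ : List (M.ι × ℝ), (∀ p ∈ L₁, M.wt p.1 = 0 ∧
          |p.2| ≤ B.C * Real.exp (-(C * d₁ * s))) →
        ∀ p ∈ L₁, M.nm (M.Ad g⁻¹ (p.2 • M.X p.1)) ≤ 1 ∧
          M.nm (M.Ad (lp M L * g)⁻¹ (p.2 • M.X p.1)) ≤ 1) := by
  obtain ⟨Cw, hCw, hw⟩ := neutral_word M B.m
  have hC0 := M.one_le_C0
  have hBC := B.one_le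
  set C : ℝ := 2 * Cw * (M.C0 + 1) + M.C0 + 3 with hC
  have hC1 : 1 ≤ C := by rw [hC]; nlinarith
  refine ⟨C, hC1, fun d₁ hd => ?_⟩
  -- constants
  filter_upwards [hw (2 * d₁) (by positivity), eventually_ge_atTop (1 : ℝ),
    ev_const B.C hd, ev_poly (M.C0 * (1 + A) ^ M.deg) M.deg hd,
    ev_const (M.C0 * Real.exp M.C0 * B.C) hd] with s hw' hs1 hs2 hs3 hs4
  have hs0 : 0 ≤ s := by linarith
  have hds : 0 ≤ d₁ * s := by positivity
  intro n hn g hg L hL hp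
  -- Cartan words
  have hpoly : ∀ m : ℕ, (m : ℝ) ≤ A * s → M.C0 * (1 + (m : ℝ)) ^ M.deg ≤ Real.exp (d₁ * s) := by
    intro m hm
    refine le_trans ?_ hs3
    rw [mul_assoc, ← mul_pow]
    refine mul_le_mul_of_nonneg_left (pow_le_pow_left₀ (by positivity) ?_ _) (by linarith)
    nlinarith
  have hgi := M.CB_inv hg
  have hadg : ∀ v ∈ M.Vw 0, M.Ad g⁻¹ v ∈ M.Vw 0 ∧
      M.nm (M.Ad g⁻¹ v) ≤ Real.exp (d₁ * s) * M.nm v := by
    intro v hv
    refine ⟨M.Ad_CB hgi hv, (M.Ad_CB_0 hgi hv).trans ?_⟩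
    exact mul_le_mul_of_nonneg_right (hpoly n hn) (M.nm_nonneg _)
  obtain ⟨y₀, hy₀, hye, hyn⟩ := hw' L hL fun p hpL => by
    obtain ⟨h1, h2⟩ := hp p hpL
    refine ⟨h1, h2.trans ?_⟩
    calc B.C * Real.exp (d₁ * s) ≤ Real.exp (d₁ * s) * Real.exp (d₁ * s) :=
          mul_le_mul_of_nonneg_right hs2 (Real.exp_pos _).le
      _ = Real.exp (2 * d₁ * s) := by rw [← Real.exp_add]; congr 1; ring
  have hCwd : 0 ≤ Cw * (d₁ * s) := by positivity
  have hC0d : 0 ≤ M.C0 * (d₁ * s) := by positivity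
  have hCwC0 : 0 ≤ Cw * M.C0 * (d₁ * s) := by positivity
  have hyn2 : M.nm y₀ ≤ Real.exp (C * d₁ * s) := by
    refine hyn.trans (Real.exp_le_exp.2 ?_)
    rw [hC]; nlinarith
  refine ⟨y₀, hy₀, hye, hyn2, (hadg y₀ hy₀).1, ?_, ?_⟩
  · refine (hadg y₀ hy₀).2.trans ?_
    calc Real.exp (d₁ * s) * M.nm y₀ ≤ Real.exp (d₁ * s) * Real.exp (Cw * (2 * d₁) * s) :=
          mul_le_mul_of_nonneg_left hyn (Real.exp_pos _).le
      _ = Real.exp (d₁ * s + Cw * (2 * d₁) * s) := by rw [Real.exp_add]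
      _ ≤ _ := Real.exp_le_exp.2 (by rw [hC]; nlinarith)
  · intro L₁ hL₁ p hpL
    obtain ⟨hp0, hpx⟩ := hL₁ p hpL
    have hv : p.2 • M.X p.1 ∈ M.Vw 0 := by
      have := M.X_mem p.1
      rw [hp0] at this
      exact Submodule.smul_mem _ _ this
    have hvn : M.nm (p.2 • M.X p.1) ≤ B.C * Real.exp (-(C * d₁ * s)) := by
      rw [map_smul_eq_mul, Real.norm_eq_abs]
      have h5 := M.X_le p.1
      have h6 := M.nm_nonneg (M.X p.1)
      calc |p.2| * M.nm (M.X p.1) ≤ (B.C * Real.exp (-(C * d₁ * s))) * 1 :=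
            mul_le_mul hpx h5 h6 (by positivity)
        _ = _ := mul_one _
    constructor
    · refine (hadg _ hv).2.trans ?_
      calc Real.exp (d₁ * s) * M.nm (p.2 • M.X p.1)
          ≤ Real.exp (d₁ * s) * (Real.exp (d₁ * s) * Real.exp (-(C * d₁ * s))) :=
            mul_le_mul_of_nonneg_left (hvn.trans (mul_le_mul_of_nonneg_right hs2
              (Real.exp_pos _).le)) (Real.exp_pos _).le
        _ = Real.exp (d₁ * s + (d₁ * s + -(C * d₁ * s))) := by rw [Real.exp_add, Real.exp_add]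
        _ ≤ Real.exp 0 := Real.exp_le_exp.2 (by rw [hC]; nlinarith)
        _ = 1 := Real.exp_zero
    · have e1 : (lp M L * g)⁻¹ = g⁻¹ * M.ex (-y₀) := by rw [mul_inv_rev, M.ex_neg, hye]
      have hny : -y₀ ∈ M.Vw 0 := Submodule.neg_mem _ hy₀
      rw [e1, map_mul]
      show M.nm (M.Ad g⁻¹ (M.Ad (M.ex (-y₀)) (p.2 • M.X p.1))) ≤ 1
      have h7 := M.Ad_ex_le (-y₀) (p.2 • M.X p.1)
      rw [M.nm_neg] at h7
      have h8 : (1 + M.nm y₀) ^ M.C0 ≤ Real.exp (M.C0 * (Cw * (2 * d₁) * s + 1)) :=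
        rpow_exp_le (by linarith) (by nlinarith) (M.nm_nonneg _) hyn
      refine (hadg _ (M.Ad_ex_Vw hny hv)).2.trans ?_
      calc Real.exp (d₁ * s) * M.nm (M.Ad (M.ex (-y₀)) (p.2 • M.X p.1))
          ≤ Real.exp (d₁ * s) * (M.C0 * Real.exp (M.C0 * (Cw * (2 * d₁) * s + 1)) *
              (B.C * Real.exp (-(C * d₁ * s)))) := by
            refine mul_le_mul_of_nonneg_left (h7.trans ?_) (Real.exp_pos _).le
            exact mul_le_mul (mul_le_mul_of_nonneg_left h8 (by linarith)) hvn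
              (M.nm_nonneg _) (by positivity)
        _ = Real.exp (d₁ * s) * (M.C0 * Real.exp M.C0 * B.C) *
              Real.exp (M.C0 * Cw * (2 * d₁) * s + -(C * d₁ * s)) := by
            have e2 : Real.exp (M.C0 * (Cw * (2 * d₁) * s + 1)) =
                Real.exp (M.C0 * Cw * (2 * d₁) * s) * Real.exp M.C0 := by
              rw [← Real.exp_add]; congr 1; ring
            rw [e2, Real.exp_add]; ring
        _ ≤ Real.exp (d₁ * s) * Real.exp (d₁ * s) *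
              Real.exp (M.C0 * Cw * (2 * d₁) * s + -(C * d₁ * s)) := by
            gcongr
        _ = Real.exp (d₁ * s + d₁ * s + (M.C0 * Cw * (2 * d₁) * s + -(C * d₁ * s))) := by
            rw [← Real.exp_add, ← Real.exp_add]
        _ ≤ Real.exp 0 := Real.exp_le_exp.2 (by rw [hC]; nlinarith)
        _ = 1 := Real.exp_zero

end Vale.Agent.P188.H235

end

section

/-!
# P188, route A, block hinput: neutral displacements on the boxes of `E`
-/

set_option linter.all false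

open MeasureTheory Set Filter Topology
open scoped ENNReal
open Vale.Agent.P188.H530 (hgt)
open Vale.Agent.P188.Z1

namespace Vale.Agent.P188.H235

variable {S : Type} [Group S] [MeasurableSpace S] {Γ : Type} [Group Γ]
  {V : Type} [AddCommGroup V] [Module ℝ V] {k : ℕ} {M : RModel S Γ V k}

theorem szh_pos' (h : (Z1.Ht k →L[ℝ] ℝ) → ℝ) (d₁ s : ℝ) (i : M.ι) : 0 < M.szh h d₁ s i := by
  unfold RModel.szh
  split_ifs <;> positivity

theorem adm_szh {c₂ : ℝ} {h : (Z1.Ht k →L[ℝ] ℝ) → ℝ} (hc₂ : 0 < c₂) (hh : M.HGood c₂ h)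
    {d₁ s : ℝ} (h1 : 0 ≤ d₁) (h2 : 0 ≤ s) (h3 : d₁ ≤ c₂) : M.Adm (M.szh h d₁ s) := by
  have := Lab.adm_szt (M := M) (s := s) (t := 0) (d₁ := d₁) hc₂ hh (by positivity) h2
    (by rw [sub_zero, sub_zero, mul_comm]; exact mul_le_mul_of_nonneg_left h3 h2)
  have e : Lab.szt M h d₁ s 0 = M.szh h d₁ s := by
    funext i
    unfold Lab.szt RModel.szh
    rw [sub_zero, sub_zero]
  rwa [e] at this

theorem adm_scale {R : M.ι → ℝ} (h : M.Adm R) {a : ℝ} (ha : 1 ≤ a) (w : Z1.Ht k) :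
    M.Adm fun i => a * Real.exp (M.wt i w) * R i := by
  refine ⟨fun i => by have := h.pos i; positivity, fun i L hL hs => ?_⟩
  have h1 := h.le i L hL hs
  have h2 : ∀ L : List M.ι, (L.map fun i => a * Real.exp (M.wt i w) * R i).prod
      = a ^ L.length * Real.exp ((L.map M.wt).sum w) * (L.map R).prod := by
    intro L
    induction L with
    | nil => simp
    | cons i L ih =>
      simp only [List.map_cons, List.prod_cons, ih, List.length_cons, List.sum_cons,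
        ContinuousLinearMap.add_apply, Real.exp_add, pow_succ]
      ring
  rw [h2, hs]
  have h3 : a ≤ a ^ L.length := le_self_pow₀ ha (by simpa using hL)
  have h4 := h.pos i
  exact mul_le_mul (mul_le_mul_of_nonneg_right h3 (Real.exp_pos _).le) h1 h4.le (by positivity)

theorem conj_box (B : M.NatBox) {R R' : M.ι → ℝ} (hR : M.Adm R) {n : ℕ} {g : S}
    (hg : g ∈ M.CB n)
    (h : ∀ i, B.C * (1 + n) ^ B.dg * Real.exp (M.wt i (M.θ g)) * R i ≤ R' i) {x : S}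
    (hx : x ∈ B.Bx R) : g * x * g⁻¹ ∈ B.Bx R' := by
  have hC := B.one_le
  exact B.mono _ _ (fun i => by have := hR.pos i; positivity) h (B.conj n g hg R hR x hx)

/-- bound of the weights -/
theorem wt_bd (M : RModel S Γ V k) : ∃ Kφ : ℝ, 0 ≤ Kφ ∧ ∀ b ∈ M.Φ, ∀ x : Z1.Ht k, |b x| ≤ Kφ * ‖x‖ := by
  refine ⟨∑ b ∈ M.Φ, ‖b‖, Finset.sum_nonneg fun b _ => norm_nonneg _, fun b hb x => ?_⟩
  refine (b.le_opNorm x).trans (mul_le_mul_of_nonneg_right ?_ (norm_nonneg _))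
  exact Finset.single_le_sum (f := fun b => ‖b‖) (fun b _ => norm_nonneg _) hb

open Classical in
/-- sizes with tiny neutral part -/
noncomputable def szn (M : RModel S Γ V k) (h : (Z1.Ht k →L[ℝ] ℝ) → ℝ) (t s : ℝ) (i : M.ι) : ℝ :=
  if M.wt i = 0 then Real.exp (-t) else Real.exp (s * h (M.wt i))

theorem szn_pos (h : (Z1.Ht k →L[ℝ] ℝ) → ℝ) (t s : ℝ) (i : M.ι) : 0 < szn M h t s i := by
  unfold szn
  split_ifs <;> positivity

/-- the window seen from `g` -/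
theorem nf_window (B : M.NatBox) {c₂ A : ℝ} (hc₂ : 0 < c₂) (hA : 0 ≤ A) : ∃ cw : ℝ, 0 < cw ∧
    ∀ d₁ : ℝ, 0 < d₁ → d₁ ≤ c₂ → d₁ ≤ 1 → ∀ᶠ s : ℝ in atTop,
      ∀ h : (Z1.Ht k →L[ℝ] ℝ) → ℝ, M.HGood c₂ h →
      ∀ n : ℕ, (n : ℝ) ≤ A * s → ∀ g ∈ M.CB n, (∀ b ∈ M.Φ, b (M.θ g) ≤ 1 / 2 * s * h b) →
      ∃ h' : (Z1.Ht k →L[ℝ] ℝ) → ℝ, M.HB cw h' ∧
        (∀ x ∈ B.Bx (fun i => B.C ^ (B.m + 3) * M.szh h d₁ s i),
          g⁻¹ * x * g ∈ B.Bx (M.szh h' (2 * d₁) s)) ∧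
        ∀ x ∈ B.Bx (M.szh h' (2 * d₁) s),
          g * x * g⁻¹ ∈ B.Bx (fun i => Real.exp (2 * d₁ * s) * M.szh h d₁ s i) := by
  classical
  have hC0 := M.one_le_C0
  have hBC := B.one_le
  have hBC0 : 0 < B.C := by linarith
  obtain ⟨Kφ, hKφ, hφ⟩ := wt_bd M
  obtain ⟨Cl, hCl, hl⟩ := M.l_CB
  set cw : ℝ := min (c₂ / 2) (c₂⁻¹ + Kφ * (M.C0 * (Cl * A)) + 1)⁻¹ with hcw
  have hpos1 : 0 < c₂⁻¹ + Kφ * (M.C0 * (Cl * A)) + 1 := by positivity
  have hcw0 : 0 < cw := lt_min (by positivity) (by positivity)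
  refine ⟨cw, hcw0, fun d₁ hd₁ hd2 hd3 => ?_⟩
  filter_upwards [eventually_ge_atTop (1 : ℝ),
    ev_poly (B.C * (1 + A) ^ B.dg * B.C ^ (B.m + 3)) B.dg hd₁] with s hs1 hs2
  intro h hh n hn g hg hgh
  have hs0 : 0 < s := by linarith
  have hds : 0 < d₁ * s := by positivity
  -- polynomial factors
  have hpoly : B.C * (1 + (n : ℝ)) ^ B.dg * B.C ^ (B.m + 3) ≤ Real.exp (d₁ * s) := by
    refine le_trans ?_ hs2
    have h1 : (1 + (n : ℝ)) ^ B.dg ≤ ((1 + A) * (1 + s)) ^ B.dg := by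
      refine pow_le_pow_left₀ (by positivity) ?_ _
      nlinarith
    calc B.C * (1 + (n : ℝ)) ^ B.dg * B.C ^ (B.m + 3)
        ≤ B.C * ((1 + A) * (1 + s)) ^ B.dg * B.C ^ (B.m + 3) := by gcongr
      _ = _ := by rw [mul_pow]; ring
  have hpoly1 : B.C * (1 + (n : ℝ)) ^ B.dg ≤ Real.exp (d₁ * s) := by
    refine le_trans ?_ hpoly
    exact le_mul_of_one_le_right (by positivity) (one_le_pow₀ hBC)
  -- the window at `g`
  set h' : (Z1.Ht k →L[ℝ] ℝ) → ℝ := fun b => h b - b (M.θ g) / s + d₁ with hh'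
  have hθg : ‖M.θ g‖ ≤ M.C0 * (Cl * A) * s := by
    calc ‖M.θ g‖ ≤ M.C0 * M.l g := M.θ_le g
      _ ≤ M.C0 * (Cl * (A * s)) := by
          refine mul_le_mul_of_nonneg_left ((hl n g hg).trans ?_) (by linarith)
          exact mul_le_mul_of_nonneg_left hn (by linarith)
      _ = _ := by ring
  have hHB : M.HB cw h' := by
    intro b hb
    obtain ⟨hb1, hb2⟩ := hh.bd b hb
    have h1 := hgh b hb
    have h2 : b (M.θ g) / s ≤ 1 / 2 * h b := by
      rw [div_le_iff₀ hs0]; linarith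
    have h3 : -(Kφ * (M.C0 * (Cl * A))) ≤ b (M.θ g) / s := by
      rw [le_div_iff₀ hs0]
      have h4 := hφ b hb (M.θ g)
      have h5 := (abs_le.1 h4).1
      have h6 := mul_le_mul_of_nonneg_left hθg hKφ
      linarith
    constructor
    · refine (min_le_left _ _).trans ?_
      show c₂ / 2 ≤ h b - b (M.θ g) / s + d₁
      linarith
    · show h b - b (M.θ g) / s + d₁ ≤ cw⁻¹
      have h4 : cw ≤ (c₂⁻¹ + Kφ * (M.C0 * (Cl * A)) + 1)⁻¹ := min_le_right _ _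
      have h5 : c₂⁻¹ + Kφ * (M.C0 * (Cl * A)) + 1 ≤ cw⁻¹ := by
        rw [le_inv_comm₀ hpos1 hcw0]; exact h4
      linarith
  -- sizes
  set R : M.ι → ℝ := M.szh h d₁ s with hR
  have hR0 : ∀ i, 0 < R i := szh_pos' h d₁ s
  have hadm : M.Adm R := adm_szh hc₂ hh hd₁.le hs0.le hd2
  have hRc : ∀ i, M.szh h' (2 * d₁) s i =
      Real.exp (d₁ * s) * Real.exp (M.wt i (-M.θ g)) * R i := by
    intro i
    rw [hR]
    unfold RModel.szh
    split_ifs with hi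
    · rw [hi, ContinuousLinearMap.zero_apply, Real.exp_zero, mul_one, ← Real.exp_add]
      congr 1; ring
    · rw [← Real.exp_add, ← Real.exp_add]
      congr 1
      rw [hh', map_neg]
      field_simp
      ring
  have hRceq : M.szh h' (2 * d₁) s =
      fun i => Real.exp (d₁ * s) * Real.exp (M.wt i (-M.θ g)) * R i := funext hRc
  have hexp1 : 1 ≤ Real.exp (d₁ * s) := Real.one_le_exp hds.le
  have hadmc : M.Adm (M.szh h' (2 * d₁) s) := by
    rw [hRceq]; exact adm_scale hadm hexp1 _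
  have hadmB : M.Adm fun i => B.C ^ (B.m + 3) * R i := by
    have := adm_scale hadm (one_le_pow₀ hBC : 1 ≤ B.C ^ (B.m + 3)) 0
    simpa using this
  refine ⟨h', hHB, ?_, ?_⟩
  · intro x hx
    have h1 := conj_box B hadmB (M.CB_inv hg) (R' := M.szh h' (2 * d₁) s) ?_ hx
    · rwa [inv_inv] at h1
    · intro i
      rw [hRc, M.θ_inv]
      have h2 := hR0 i
      calc B.C * (1 + (n : ℝ)) ^ B.dg * Real.exp (M.wt i (-M.θ g)) * (B.C ^ (B.m + 3) * R i)
          = (B.C * (1 + (n : ℝ)) ^ B.dg * B.C ^ (B.m + 3)) * (Real.exp (M.wt i (-M.θ g)) * R i) := by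
            ring
        _ ≤ Real.exp (d₁ * s) * (Real.exp (M.wt i (-M.θ g)) * R i) :=
            mul_le_mul_of_nonneg_right hpoly (by positivity)
        _ = _ := by ring
  · intro x hx
    refine conj_box B hadmc hg ?_ hx
    intro i
    rw [hRc]
    have h2 := hR0 i
    have h3 : Real.exp (M.wt i (M.θ g)) * Real.exp (M.wt i (-M.θ g)) = 1 := by
      rw [← Real.exp_add, map_neg, add_neg_cancel, Real.exp_zero]
    calc B.C * (1 + (n : ℝ)) ^ B.dg * Real.exp (M.wt i (M.θ g)) *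
          (Real.exp (d₁ * s) * Real.exp (M.wt i (-M.θ g)) * R i)
        = (B.C * (1 + (n : ℝ)) ^ B.dg) * Real.exp (d₁ * s) * R i *
          (Real.exp (M.wt i (M.θ g)) * Real.exp (M.wt i (-M.θ g))) := by ring
      _ = (B.C * (1 + (n : ℝ)) ^ B.dg) * Real.exp (d₁ * s) * R i := by rw [h3, mul_one]
      _ ≤ Real.exp (d₁ * s) * Real.exp (d₁ * s) * R i := by gcongr
      _ = _ := by rw [← Real.exp_add]; congr 2; ring

/-- perturbation of the displacement -/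
theorem nf_disp {B : M.NatBox} {K κ s : ℝ} (hκ : 0 < κ)
    (hs : (M.C0 * K * (2 * M.C0 + 1) * (B.m * (2 * M.C0) + 1)) * 4 / κ ≤ s) {F F' : Γ → Γ}
    (hF : M.QIm K F F') (Y x g : S) (L Lu : List (M.ι × ℝ)) {y : V}
    (hexy : M.ex y = g⁻¹ * lp M L * g) (hLu : Lu.length ≤ B.m)
    (ht : ∀ p ∈ Lu, M.nm (M.Ad g⁻¹ (p.2 • M.X p.1)) ≤ 1 ∧
      M.nm (M.Ad (lp M L * g)⁻¹ (p.2 • M.X p.1)) ≤ 1)
    (hx : κ * s < ‖M.f F (Y * (x * lp M L * g)) - M.f F (Y * (x * g))‖) :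
    κ / 2 * s < ‖M.f F (Y * g * (g⁻¹ * (x * lp M Lu) * g * M.ex y)) -
        M.f F (Y * g * (g⁻¹ * (x * lp M Lu) * g))‖ := by
  have hC0 := M.one_le_C0
  have e1 : Y * g * (g⁻¹ * (x * lp M Lu) * g * M.ex y) =
      Y * (x * lp M L * g) * ((lp M L * g)⁻¹ * lp M Lu * (lp M L * g)⁻¹⁻¹) := by
    rw [hexy]; group
  have e2 : Y * g * (g⁻¹ * (x * lp M Lu) * g) =
      Y * (x * g) * (g⁻¹ * lp M Lu * g⁻¹⁻¹) := by group
  have l1 := len_conj (lp M L * g)⁻¹ Lu fun p hp => (ht p hp).2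
  have l2 := len_conj g⁻¹ Lu fun p hp => (ht p hp).1
  have hLu' : (Lu.length : ℝ) * (2 * M.C0) ≤ B.m * (2 * M.C0) :=
    mul_le_mul_of_nonneg_right (by exact_mod_cast hLu) (by linarith)
  have hKn := hF.K_nonneg
  have hcst : 0 ≤ M.C0 * K * (2 * M.C0 + 1) := by positivity
  rw [div_le_iff₀ hκ] at hs
  have f1 : ‖M.f F (Y * (x * lp M L * g) * ((lp M L * g)⁻¹ * lp M Lu * (lp M L * g)⁻¹⁻¹)) -
      M.f F (Y * (x * lp M L * g))‖ ≤ κ / 4 * s := by
    refine (hF.f_lip _ _).trans ?_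
    have h5 := mul_le_mul_of_nonneg_left (show (M.l ((lp M L * g)⁻¹ * lp M Lu *
      (lp M L * g)⁻¹⁻¹) : ℝ) + 1 ≤ B.m * (2 * M.C0) + 1 by linarith) hcst
    linarith
  have f2 : ‖M.f F (Y * (x * g) * (g⁻¹ * lp M Lu * g⁻¹⁻¹)) - M.f F (Y * (x * g))‖ ≤
      κ / 4 * s := by
    refine (hF.f_lip _ _).trans ?_
    have h5 := mul_le_mul_of_nonneg_left (show (M.l (g⁻¹ * lp M Lu * g⁻¹⁻¹) : ℝ) + 1 ≤
      B.m * (2 * M.C0) + 1 by linarith) hcst
    linarith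
  rw [e1, e2]
  generalize M.f F (Y * (x * lp M L * g) * ((lp M L * g)⁻¹ * lp M Lu * (lp M L * g)⁻¹⁻¹)) = a at *
  generalize M.f F (Y * (x * g) * (g⁻¹ * lp M Lu * g⁻¹⁻¹)) = b at *
  generalize M.f F (Y * (x * lp M L * g)) = a' at *
  generalize M.f F (Y * (x * g)) = b' at *
  have h7 : a' - b' = (a - b) - (a - a') + (b - b') := by abel
  have h6 : ‖a' - b'‖ ≤ ‖a - b‖ + κ / 4 * s + κ / 4 * s := by
    rw [h7]
    exact (norm_add_le _ _).trans (add_le_add ((norm_sub_le _ _).trans (add_le_add le_rfl f1)) f2)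
  linarith

/-- **Neutral displacements on the boxes of `E`.** -/
theorem nfE {B : M.NatBox} {d : ℕ} (c : EChart M B d) (hN : M.NEUT B) {K c₂ κ A : ℝ}
    (hc₂ : 0 < c₂) (hκ : 0 < κ) (hA : 0 ≤ A) :
    ∃ c₁ : ℝ, 0 < c₁ ∧ ∃ dm : ℝ, 0 < dm ∧ ∀ d₁ : ℝ, 0 < d₁ → d₁ ≤ dm → ∀ᶠ s : ℝ in atTop,
      ∀ h : (Z1.Ht k →L[ℝ] ℝ) → ℝ, M.HGood c₂ h → ∀ F F' : Γ → Γ, M.QIm K F F' → ∀ Y : S,
      ∀ n : ℕ, (n : ℝ) ≤ A * s → ∀ g ∈ M.CB n, (∀ b ∈ M.Φ, b (M.θ g) ≤ 1 / 2 * s * h b) →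
      ∀ L : List (M.ι × ℝ), L.length ≤ B.m →
      (∀ p ∈ L, M.wt p.1 = 0 ∧ |p.2| ≤ B.C * Real.exp (d₁ * s)) →
      c.ν {x | x ∈ B.Bx (M.szh h d₁ s) ∧
        κ * s < ‖M.f F (Y * (x * lp M L * g)) - M.f F (Y * (x * g))‖} ≤
        ENNReal.ofReal (Real.exp (-(c₁ * s))) * c.ν (B.Bx (M.szh h d₁ s)) := by
  classical
  haveI := M.mm
  haveI := M.mi
  have hC0 := M.one_le_C0
  have hBC := B.one_le
  have hBC0 : 0 < B.C := by linarith
  obtain ⟨Cg, hCg, hgeo⟩ := nf_geom B A hA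
  obtain ⟨Cv, D, hCv, hvol⟩ := mu_poly B
  obtain ⟨m₁, hm₁, hm₁'⟩ := c.nu_dbl B.C hBC
  obtain ⟨cw, hcw0, hwin⟩ := nf_window B hc₂ hA
  obtain ⟨c₁, hc₁, hNE⟩ := hN K cw (κ / 2) 1 hcw0 (by positivity) one_pos
  obtain ⟨dm, hdm, hNE⟩ := hNE Cg
  refine ⟨c₁ / 2, by positivity, min (min (dm / 2) c₂) (min 1 (c₁ / (4 * (D + 1) * (Cg + 3)))),
    lt_min (lt_min (by positivity) hc₂) (lt_min one_pos (by positivity)), ?_⟩
  intro d₁ hd₁ hd₁m
  have hd1 : 2 * d₁ ≤ dm := by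
    have := hd₁m.trans ((min_le_left _ _).trans (min_le_left _ _)); linarith
  have hd2 : d₁ ≤ c₂ := hd₁m.trans ((min_le_left _ _).trans (min_le_right _ _))
  have hd3 : d₁ ≤ 1 := hd₁m.trans ((min_le_right _ _).trans (min_le_left _ _))
  have hd4 : D * ((Cg + 3) * d₁) ≤ c₁ / 4 := by
    have h1 := hd₁m.trans ((min_le_right _ _).trans (min_le_right _ _))
    rw [le_div_iff₀ (by positivity)] at h1
    have h2 : 0 ≤ (Cg + 3) * d₁ := by positivity
    nlinarith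
  obtain ⟨s₀, hs₀⟩ := hNE (2 * d₁) (by positivity) hd1
  filter_upwards [hgeo d₁ hd₁, eventually_ge_atTop s₀, eventually_ge_atTop (1 : ℝ),
    hwin d₁ hd₁ hd2 hd3,
    ev_const (m₁ * Cv) (show 0 < c₁ / 4 by positivity),
    eventually_ge_atTop ((M.C0 * K * (2 * M.C0 + 1) * (B.m * (2 * M.C0) + 1)) * 4 / κ)]
    with s hgeo' hss₀ hs1 hwin' hs3 hs4
  intro h hh F F' hF Y n hn g hg hgh L hL hLp
  have hs0 : 0 < s := by linarith
  have hds : 0 < d₁ * s := by positivity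
  have hCgd : 0 ≤ Cg * d₁ * s := by positivity
  obtain ⟨y₀, hy₀, hye, -, hyg, hygn, htiny⟩ := hgeo' n hn g hg L hL hLp
  obtain ⟨h', hHB, hcj1, hcj2⟩ := hwin' h hh n hn g hg hgh
  -- sizes
  obtain ⟨R, hR⟩ : ∃ R : M.ι → ℝ, R = M.szh h d₁ s := ⟨_, rfl⟩
  rw [← hR] at hcj1 hcj2 ⊢
  have hR0 : ∀ i, 0 < R i := by rw [hR]; exact szh_pos' h d₁ s
  -- NEUT
  obtain ⟨y, hy⟩ : ∃ y : V, y = M.Ad g⁻¹ y₀ := ⟨_, rfl⟩
  rw [← hy] at hyg hygn
  have hexy : M.ex y = g⁻¹ * lp M L * g := by rw [hy, M.ex_Ad, hye, inv_inv]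
  have hbad := hs₀ s hss₀ h' hHB F F' hF (Y * g) y hyg (by
    refine hygn.trans (Real.exp_le_exp.2 ?_)
    linarith)
  set Bad : Set S := {n | n ∈ B.Bx (fun i => 1 * M.szh h' (2 * d₁) s i) ∧
    κ / 2 * s < ‖M.f F (Y * g * (n * M.ex y)) - M.f F (Y * g * n)‖} with hBad
  have hBadm : MeasurableSet Bad := by
    refine (B.meas _).inter (measurableSet_lt measurable_const (Measurable.norm ?_))
    refine ((M.measurable_f F).comp ?_).sub ((M.measurable_f F).comp ?_)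
    · exact (measurable_id.mul_const _).const_mul _
    · exact measurable_id.const_mul _
  set Aset : Set S := {x | g⁻¹ * x * g ∈ Bad} with hAset
  have hAm : MeasurableSet Aset := ((measurable_const_mul g⁻¹).mul_const g) hBadm
  have hμA : M.μ Aset = M.μ Bad := by
    have h1 : Aset = (fun x => g⁻¹ * x) ⁻¹' ((fun x => x * g) ⁻¹' Bad) := rfl
    rw [h1, (M.mpl g⁻¹).measure_preimage (((M.mp g).measurable hBadm)).nullMeasurableSet,
      (M.mp g).measure_preimage hBadm.nullMeasurableSet]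
  -- the thickening
  obtain ⟨RU, hRU⟩ : ∃ RU : M.ι → ℝ, RU = szn M h (Cg * d₁ * s) s := ⟨_, rfl⟩
  have hRU0 : ∀ i, 0 < RU i := by rw [hRU]; exact szn_pos h _ s
  have hRUle : ∀ i, RU i ≤ R i := by
    intro i
    rw [hRU, hR]
    unfold szn RModel.szh
    split_ifs
    · apply Real.exp_le_exp.2
      linarith
    · exact le_rfl
  have hRUge : ∀ i, Real.exp (2 * d₁ * s) * R i ≤ Real.exp ((Cg + 3) * d₁ * s) * RU i := by
    intro i
    rw [hRU, hR]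
    unfold szn RModel.szh
    split_ifs
    · rw [← Real.exp_add, ← Real.exp_add]
      apply Real.exp_le_exp.2
      apply le_of_eq; ring
    · refine mul_le_mul_of_nonneg_right (Real.exp_le_exp.2 ?_) (Real.exp_pos _).le
      linarith
  set A₀ : Set S := {x | x ∈ B.Bx R ∧
    κ * s < ‖M.f F (Y * (x * lp M L * g)) - M.f F (Y * (x * g))‖} with hA₀
  have hlow : c.ν A₀ * M.μ (B.Bx RU) ≤ c.ν (B.Bx fun i => B.C * RU i) * M.μ Aset := by
    refine c.emeas.low M.mpl (B.meas _) hAm (fun x => c.sup_le (fun i => (hRU0 i).le) x) ?_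
    intro u hu
    obtain ⟨e, he, Lu, hLu, hLup, hue, hlpu, -⟩ := split B (fun i => (hRU0 i).le) hu
    have hpre : {x | x * u ∈ Aset} = (fun x => x * e) ⁻¹' {x | x * lp M Lu ∈ Aset} := by
      ext x
      show x * u ∈ Aset ↔ x * e * lp M Lu ∈ Aset
      rw [hue, mul_assoc]
    have hm2 : MeasurableSet {x | x * lp M Lu ∈ Aset} := (measurable_mul_const (lp M Lu)) hAm
    rw [hpre, (c.emeas.mpr e he).measure_preimage hm2.nullMeasurableSet]
    refine measure_mono fun x hx => ?_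
    obtain ⟨hx1, hx2⟩ := hx
    -- in the box
    have hxl : x * lp M Lu ∈ B.Bx fun i => B.C ^ (B.m + 3) * R i := by
      have h1 : lp M Lu ∈ B.Bx fun i => B.C ^ (B.m + 1) * R i :=
        bx_mono B (fun i => by have := hRU0 i; positivity)
          (fun i => mul_le_mul_of_nonneg_left (hRUle i) (by positivity)) hlpu
      have h2 : x ∈ B.Bx fun i => 1 * R i := by simpa using hx1
      refine bx_mul B (fun i => (hR0 i).le) zero_le_one (by positivity) ?_ ?_ h2 h1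
      · rw [mul_one]
        calc B.C = B.C ^ 1 := by ring
          _ ≤ B.C ^ (B.m + 3) := pow_le_pow_right₀ hBC (by omega)
      · calc B.C * B.C ^ (B.m + 1) = B.C ^ (B.m + 2) := by ring
          _ ≤ B.C ^ (B.m + 3) := pow_le_pow_right₀ hBC (by omega)
    have ht := htiny Lu fun p hp => by
      obtain ⟨hp1, hp2⟩ := hLup p hp
      refine ⟨hp1, ?_⟩
      have : RU p.1 = Real.exp (-(Cg * d₁ * s)) := by rw [hRU]; unfold szn; rw [if_pos hp1]
      rw [this] at hp2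
      exact hp2
    refine ⟨?_, nf_disp hκ hs4 hF Y x g L Lu hexy hLu ht hx2⟩
    have := hcj1 _ hxl
    simpa using this
  -- conclusion
  have hμB : M.μ Aset ≤ ENNReal.ofReal (Real.exp (-(c₁ * s))) *
      (ENNReal.ofReal (Cv * Real.exp ((Cg + 3) * d₁ * s) ^ D) * M.μ (B.Bx RU)) := by
    rw [hμA]
    refine hbad.trans (mul_le_mul' le_rfl ?_)
    have h1 : M.μ (B.Bx (M.szh h' (2 * d₁) s)) ≤
        M.μ (B.Bx fun i => Real.exp (2 * d₁ * s) * R i) := by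
      have h2 : M.μ (B.Bx (M.szh h' (2 * d₁) s)) =
          M.μ ((fun x => g⁻¹ * x) ⁻¹' ((fun x => x * g) ⁻¹' (B.Bx (M.szh h' (2 * d₁) s)))) := by
        rw [(M.mpl g⁻¹).measure_preimage (((M.mp g).measurable (B.meas _))).nullMeasurableSet,
          (M.mp g).measure_preimage (B.meas _).nullMeasurableSet]
      rw [h2]
      refine measure_mono fun x hx => ?_
      have h3 := hcj2 _ hx
      have e : g * (g⁻¹ * x * g) * g⁻¹ = x := by group
      rwa [e] at h3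
    refine h1.trans (le_trans (measure_mono fun x hx => ?_)
      (hvol (Real.exp ((Cg + 3) * d₁ * s)) (Real.one_le_exp (by positivity)) RU hRU0))
    exact bx_mono B (fun i => by have := hR0 i; positivity) hRUge hx
  have hHle : c.ν (B.Bx fun i => B.C * RU i) ≤ m₁ * c.ν (B.Bx R) := by
    refine le_trans (measure_mono fun x hx => ?_) (hm₁' R hR0)
    exact bx_mono B (fun i => by have := hRU0 i; positivity)
      (fun i => mul_le_mul_of_nonneg_left (hRUle i) hBC0.le) hx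
  have hnum : (m₁ : ℝ) * (Real.exp (-(c₁ * s)) * (Cv * Real.exp ((Cg + 3) * d₁ * s) ^ D)) ≤
      Real.exp (-(c₁ / 2 * s)) := by
    have h1 : Real.exp ((Cg + 3) * d₁ * s) ^ D ≤ Real.exp (c₁ / 4 * s) := by
      rw [← Real.exp_nat_mul]
      apply Real.exp_le_exp.2
      have := mul_le_mul_of_nonneg_right hd4 hs0.le
      linarith
    calc (m₁ : ℝ) * (Real.exp (-(c₁ * s)) * (Cv * Real.exp ((Cg + 3) * d₁ * s) ^ D))
        ≤ m₁ * (Real.exp (-(c₁ * s)) * (Cv * Real.exp (c₁ / 4 * s))) := by gcongr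
      _ = (m₁ * Cv) * (Real.exp (-(c₁ * s)) * Real.exp (c₁ / 4 * s)) := by ring
      _ ≤ Real.exp (c₁ / 4 * s) * (Real.exp (-(c₁ * s)) * Real.exp (c₁ / 4 * s)) := by
          gcongr
      _ = Real.exp (-(c₁ / 2 * s)) := by
          rw [← Real.exp_add, ← Real.exp_add]; congr 1; ring
  have hfin : c.ν A₀ * M.μ (B.Bx RU) ≤
      (ENNReal.ofReal (Real.exp (-(c₁ / 2 * s))) * c.ν (B.Bx R)) * M.μ (B.Bx RU) := by
    calc c.ν A₀ * M.μ (B.Bx RU) ≤ c.ν (B.Bx fun i => B.C * RU i) * M.μ Aset := hlow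
      _ ≤ (m₁ * c.ν (B.Bx R)) * (ENNReal.ofReal (Real.exp (-(c₁ * s))) *
          (ENNReal.ofReal (Cv * Real.exp ((Cg + 3) * d₁ * s) ^ D) * M.μ (B.Bx RU))) :=
          mul_le_mul' hHle hμB
      _ = (ENNReal.ofReal (m₁ : ℝ) * (ENNReal.ofReal (Real.exp (-(c₁ * s))) *
          ENNReal.ofReal (Cv * Real.exp ((Cg + 3) * d₁ * s) ^ D))) * c.ν (B.Bx R) *
          M.μ (B.Bx RU) := by
          rw [ENNReal.ofReal_natCast]; ring
      _ ≤ _ := by
          refine mul_le_mul' (mul_le_mul' ?_ le_rfl) le_rfl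
          rw [← ENNReal.ofReal_mul (Real.exp_pos _).le, ← ENNReal.ofReal_mul (by positivity)]
          exact ENNReal.ofReal_le_ofReal hnum
  exact (ENNReal.mul_le_mul_iff_left (B.pos _ hRU0) (B.fin _)).1 hfin

end Vale.Agent.P188.H235

end

section

/-!
# P188, route A, block hinput: flatness on the boxes of `E`
-/

set_option linter.all false

open MeasureTheory Set Filter Topology
open scoped ENNReal
open Vale.Agent.P188.H530 (hgt)
open Vale.Agent.P188.Z1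

namespace Vale.Agent.P188.H235

variable {S : Type} [Group S] [MeasurableSpace S] {Γ : Type} [Group Γ]
  {V : Type} [AddCommGroup V] [Module ℝ V] {k : ℕ} {M : RModel S Γ V k}

/-- the size of the exponential part of the decomposition `s = ex v * c` -/
theorem dec_size' (M : RModel S Γ V k) : ∃ κ : ℝ, 0 ≤ κ ∧ ∀ s : S, ∃ v ∈ M.e,
    ∃ c ∈ M.CB ⌈M.C0 * M.l s⌉₊, s = M.ex v * c ∧ M.nm v ≤ Real.exp (κ * (M.l s + 1)) := by
  obtain ⟨C1, hC1, hCB⟩ := M.l_CB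
  have hC0 := M.C0_pos
  refine ⟨M.C0 * (1 + 1 + C1 * (M.C0 + 1)), by positivity, fun s => ?_⟩
  obtain ⟨v, hv, c, hc, h⟩ := M.dec s
  refine ⟨v, hv, c, hc, h, (M.met_lo v).trans (Real.exp_le_exp.2 ?_)⟩
  have h1 : M.ex v = s * c⁻¹ := by rw [h, mul_inv_cancel_right]
  have h2 : (M.l (M.ex v) : ℝ) ≤ M.l s + M.l c := by
    rw [h1]
    have := M.len.mul s c⁻¹
    rw [M.len.inv] at this
    exact_mod_cast this
  have h3 : (M.l c : ℝ) ≤ C1 * (M.C0 * M.l s + 1) := by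
    refine (hCB _ c hc).trans (mul_le_mul_of_nonneg_left ?_ (by linarith))
    exact (Nat.ceil_lt_add_one (by positivity)).le
  have hl : (0 : ℝ) ≤ M.l s := Nat.cast_nonneg _
  rw [mul_assoc]
  refine mul_le_mul_of_nonneg_left ?_ hC0.le
  nlinarith [mul_nonneg (mul_nonneg (by linarith : (0:ℝ) ≤ C1) hC0.le) hl,
    mul_nonneg (by linarith : (0:ℝ) ≤ C1) hl]

/-- one translate: the measure of the bad set of `E` -/
theorem lam_step {B : M.NatBox} {d : ℕ} (c : EChart M B d) {R : M.ι → ℝ} (hR : ∀ i, 0 < R i)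
    {F : Γ → Γ} {Y g₀ : S} {cY : Z1.Ht k} {s η ε' ε₁ Cμ : ℝ} {a₂ : ℝ}
    (ha₂ : a₂ = (B.C ^ (B.m + 2))⁻¹) (hs : 0 ≤ s) (hε'η : ε' ≤ η / 2) (hε' : 0 ≤ ε')
    (hCμ : M.μ (B.Bx R) ≤ ENNReal.ofReal Cμ * M.μ (B.Bx fun i => a₂ * R i))
    (hμ : M.μ {v | v ∈ B.Bx R ∧ ε' * s < ‖M.f F (Y * (v * g₀)) - cY - M.θ g₀‖} ≤
      ENNReal.ofReal ε' * M.μ (B.Bx R))
    (hnf : ∀ L : List (M.ι × ℝ), L.length ≤ B.m → (∀ p ∈ L, M.wt p.1 = 0 ∧ |p.2| ≤ B.C * R p.1) →
      c.ν {x | x ∈ B.Bx R ∧ η / 2 * s < ‖M.f F (Y * (x * lp M L * g₀)) - M.f F (Y * (x * g₀))‖} ≤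
        ENNReal.ofReal ε₁ * c.ν (B.Bx R)) :
    c.ν {x | x ∈ B.Bx (fun i => B.C⁻¹ * R i) ∧
      η * s < ‖M.f F (Y * (x * g₀)) - cY - M.θ g₀‖} ≤
      (ENNReal.ofReal ε₁ + ENNReal.ofReal ε' * ENNReal.ofReal Cμ) * c.ν (B.Bx R) := by
  haveI := M.mm
  haveI := M.mi
  have hBC := B.one_le
  have hBC0 : 0 < B.C := by linarith
  have ha₂0 : 0 < a₂ := by rw [ha₂]; positivity
  set U : Set S := B.Bx fun i => a₂ * R i with hU
  set A : Set S := {v | v ∈ B.Bx R ∧ ε' * s < ‖M.f F (Y * (v * g₀)) - cY - M.θ g₀‖} with hA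
  have hmeas : ∀ (τ : ℝ) (R' : M.ι → ℝ), MeasurableSet {v | v ∈ B.Bx R' ∧
      τ < ‖M.f F (Y * (v * g₀)) - cY - M.θ g₀‖} := by
    intro τ R'
    refine (B.meas _).inter (measurableSet_lt measurable_const (Measurable.norm ?_))
    refine (((M.measurable_f F).comp ?_).sub measurable_const).sub measurable_const
    exact (measurable_id.mul_const _).const_mul _
  have hAm : MeasurableSet A := hmeas _ _
  have hR2 : ∀ i, 0 < a₂ * R i := fun i => by have := hR i; positivity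
  obtain ⟨u, hu, hpick⟩ := c.emeas.pick M.mpl (U := U) (B.meas _) hAm
    (fun x => c.sup_le (fun i => (hR2 i).le) x) (B.pos _ hR2) (B.fin _)
  obtain ⟨e, he, L, hL, hLp, hue, hlp, -⟩ := split B (fun i => (hR2 i).le) hu
  have hpre : {x | x * u ∈ A} = (fun x => x * e) ⁻¹' {x | x * lp M L ∈ A} := by
    ext x
    show x * u ∈ A ↔ x * e * lp M L ∈ A
    rw [hue, mul_assoc]
  have hm2 : MeasurableSet {x | x * lp M L ∈ A} := (measurable_mul_const (lp M L)) hAm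
  rw [hpre, (c.emeas.mpr e he).measure_preimage hm2.nullMeasurableSet] at hpick
  -- cancel the measure of `U`
  have hCa : B.C * a₂ ≤ 1 := by
    rw [ha₂, pow_succ, mul_inv, mul_comm, mul_assoc, inv_mul_cancel₀ hBC0.ne', mul_one]
    exact inv_le_one_of_one_le₀ (one_le_pow₀ hBC)
  have h1 : c.ν {x | x * lp M L ∈ A} ≤
      ENNReal.ofReal ε' * ENNReal.ofReal Cμ * c.ν (B.Bx R) := by
    have h2 : c.ν {x | x * lp M L ∈ A} * M.μ U ≤
        (ENNReal.ofReal ε' * ENNReal.ofReal Cμ * c.ν (B.Bx R)) * M.μ U := by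
      refine hpick.trans ?_
      have h3 : c.ν (B.Bx fun i => B.C * (a₂ * R i)) ≤ c.ν (B.Bx R) := by
        refine measure_mono fun x hx => bx_mono B (fun i => by have := hR i; positivity)
          (fun i => ?_) hx
        have := hR i
        rw [← mul_assoc]
        nlinarith
      calc c.ν (B.Bx fun i => B.C * (a₂ * R i)) * M.μ A
          ≤ c.ν (B.Bx R) * (ENNReal.ofReal ε' * (ENNReal.ofReal Cμ * M.μ U)) :=
            mul_le_mul' h3 (hμ.trans (mul_le_mul' le_rfl hCμ))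
        _ = _ := by ring
    exact (ENNReal.mul_le_mul_iff_left (B.pos _ hR2) (B.fin _)).1 h2
  have h4 := hnf L hL fun p hp => by
    obtain ⟨hp1, hp2⟩ := hLp p hp
    refine ⟨hp1, hp2.trans (mul_le_mul_of_nonneg_left ?_ hBC0.le)⟩
    have := hR p.1
    nlinarith
  rw [add_mul]
  refine le_trans (measure_mono ?_) ((measure_union_le _ _).trans (add_le_add h4 h1))
  rintro x ⟨hx1, hx2⟩
  by_cases hx3 : η / 2 * s < ‖M.f F (Y * (x * lp M L * g₀)) - M.f F (Y * (x * g₀))‖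
  · left
    refine ⟨bx_mono B (fun i => by have := hR i; positivity) (fun i => ?_) hx1, hx3⟩
    have := hR i
    have h5 : B.C⁻¹ ≤ 1 := inv_le_one_of_one_le₀ hBC
    nlinarith
  · right
    rw [not_lt] at hx3
    refine ⟨?_, ?_⟩
    · have h5 : x * lp M L ∈ B.Bx fun i => 1 * R i := by
        refine bx_mul B (fun i => (hR i).le) (a := B.C⁻¹) (b := B.C ^ (B.m + 1) * a₂)
          (by positivity) (by positivity) ?_ ?_ hx1 ?_
        · rw [mul_inv_cancel₀ hBC0.ne']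
        · rw [ha₂, ← mul_assoc, ← pow_succ', mul_inv_cancel₀ (by positivity)]
        · refine bx_mono B (fun i => by have := hR i; positivity) (fun i => ?_) hlp
          rw [mul_assoc]
      simpa using h5
    · have h6 : ‖M.f F (Y * (x * g₀)) - cY - M.θ g₀‖ ≤
          ‖M.f F (Y * (x * lp M L * g₀)) - cY - M.θ g₀‖ +
            ‖M.f F (Y * (x * lp M L * g₀)) - M.f F (Y * (x * g₀))‖ := by
        have h7 : M.f F (Y * (x * g₀)) - cY - M.θ g₀ =
          (M.f F (Y * (x * lp M L * g₀)) - cY - M.θ g₀) -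
            (M.f F (Y * (x * lp M L * g₀)) - M.f F (Y * (x * g₀))) := by abel
        rw [h7]
        exact norm_sub_le _ _
      have h8 : ε' * s ≤ η / 2 * s := mul_le_mul_of_nonneg_right hε'η hs
      show ε' * s < ‖M.f F (Y * (x * lp M L * g₀)) - cY - M.θ g₀‖
      linarith

/-- **Flatness on the boxes of `E`.** -/
theorem lamflat {B : M.NatBox} {d : ℕ} (c : EChart M B d) (hN : M.NEUT B) {K : ℝ}
    {𝓕 : Set (Γ → Γ)} (hQ : ∀ F ∈ 𝓕, ∃ F', M.QIm K F F') (hF : M.FLAT1 B 𝓕) {c₂ : ℝ}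
    (hc₂ : 0 < c₂) : ∃ cu a : ℝ, 0 < cu ∧ 0 < a ∧ a ≤ 1 ∧ ∀ η ε : ℝ, 0 < η → 0 < ε →
      ∃ dm : ℝ, 0 < dm ∧ ∀ d₁ : ℝ, 0 < d₁ → d₁ ≤ dm → ∀ᶠ s : ℝ in atTop,
      ∀ h : (Z1.Ht k →L[ℝ] ℝ) → ℝ, M.HGood c₂ h → ∀ F ∈ 𝓕, ∀ Y : S, ∃ cY : Z1.Ht k, ∀ g : S,
        (M.l g : ℝ) ≤ cu * s →
        c.ν {x | x ∈ B.Bx (fun i => a * M.szh h d₁ s i) ∧
          η * s < ‖M.f F (Y * (x * g)) - cY - M.θ g‖} ≤
        ENNReal.ofReal ε * c.ν (B.Bx fun i => B.C⁻¹ * (a * M.szh h d₁ s i)) := by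
  haveI := M.mm
  haveI := M.mi
  have hC0 := M.one_le_C0
  have hBC := B.one_le
  have hBC0 : 0 < B.C := by linarith
  obtain ⟨c₁, hc₁, hFl⟩ := hF c₂ hc₂
  obtain ⟨κd, hκd, hdec⟩ := dec_size' M
  obtain ⟨Cl, hCl, hl⟩ := M.l_CB
  obtain ⟨Kφ, hKφ, hφ⟩ := wt_bd M
  obtain ⟨cu, hcu⟩ : ∃ cu : ℝ, cu = min (c₁ / (2 * (Cl * M.C0)))
    (min (c₂ / (2 * ((Kφ + 1) * M.C0))) (c₂ / (2 * (κd + 1)))) := ⟨_, rfl⟩
  have hcu0 : 0 < cu := by rw [hcu]; exact lt_min (by positivity) (lt_min (by positivity) (by positivity))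
  have hcu1 : Cl * M.C0 * cu ≤ c₁ / 2 := by
    have : cu ≤ c₁ / (2 * (Cl * M.C0)) := by rw [hcu]; exact min_le_left _ _
    rw [le_div_iff₀ (by positivity)] at this
    linarith
  have hcu2 : Kφ * (M.C0 * cu) ≤ c₂ / 2 := by
    have h1 : cu ≤ c₂ / (2 * ((Kφ + 1) * M.C0)) := by
      rw [hcu]; exact (min_le_right _ _).trans (min_le_left _ _)
    rw [le_div_iff₀ (by positivity)] at h1
    have h2 : 0 ≤ M.C0 * cu := by positivity
    linarith
  have hcu3 : κd * cu ≤ c₂ / 2 := by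
    have h1 : cu ≤ c₂ / (2 * (κd + 1)) := by
      rw [hcu]; exact (min_le_right _ _).trans (min_le_right _ _)
    rw [le_div_iff₀ (by positivity)] at h1
    linarith
  obtain ⟨a₂, ha₂⟩ : ∃ a₂ : ℝ, a₂ = (B.C ^ (B.m + 2))⁻¹ := ⟨_, rfl⟩
  have ha₂0 : 0 < a₂ := by rw [ha₂]; positivity
  obtain ⟨a, ha⟩ : ∃ a : ℝ, a = B.C⁻¹ * B.C⁻¹ := ⟨_, rfl⟩
  have hCi : B.C⁻¹ ≤ 1 := inv_le_one_of_one_le₀ hBC
  have hCi0 : 0 < B.C⁻¹ := by positivity
  have ha0 : 0 < a := by rw [ha]; positivity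
  have ha1 : a ≤ 1 := by rw [ha]; exact mul_le_one₀ hCi hCi0.le hCi
  refine ⟨cu, a, hcu0, ha0, ha1, fun η ε hη hε => ?_⟩
  obtain ⟨c₃, hc₃, dmN, hdmN, hnf⟩ := nfE c hN (K := K) hc₂ (show 0 < η / 2 by positivity)
    (show 0 ≤ M.C0 * cu + 1 by positivity)
  obtain ⟨Cμ', hCμ'⟩ := B.dbl a₂⁻¹ (by
    rw [ha₂, inv_inv]; exact one_le_pow₀ hBC)
  obtain ⟨m₂, hm₂, hm₂'⟩ := c.nu_dbl (B.C ^ 3) (one_le_pow₀ hBC)
  have hm₂0 : (0 : ℝ) < m₂ := by exact_mod_cast hm₂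
  obtain ⟨Cμ, hCμ⟩ : ∃ Cμ : ℝ, Cμ = max Cμ' 1 := ⟨_, rfl⟩
  have hCμ0 : 0 < Cμ := by rw [hCμ]; exact lt_of_lt_of_le one_pos (le_max_right _ _)
  obtain ⟨ε', hε'⟩ : ∃ ε' : ℝ, ε' = min (η / 2) (ε / (2 * (Cμ * m₂))) := ⟨_, rfl⟩
  have hε'0 : 0 < ε' := by rw [hε']; exact lt_min (by positivity) (by positivity)
  have hε'1 : ε' ≤ η / 2 := by rw [hε']; exact min_le_left _ _
  have hε'2 : ε' * Cμ * m₂ ≤ ε / 2 := by
    have h1 : ε' ≤ ε / (2 * (Cμ * m₂)) := by rw [hε']; exact min_le_right _ _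
    rw [le_div_iff₀ (by positivity)] at h1
    linarith
  obtain ⟨dmF, hdmF, hFl⟩ := hFl ε' (1 / 2) 0 hε'0 (by norm_num) (by norm_num)
  refine ⟨min dmF dmN, lt_min hdmF hdmN, fun d₁ hd₁ hd₁m => ?_⟩
  obtain ⟨s₀, hFl⟩ := hFl d₁ hd₁ (hd₁m.trans (min_le_left _ _))
  filter_upwards [eventually_ge_atTop s₀, eventually_ge_atTop (1 : ℝ),
    hnf d₁ hd₁ (hd₁m.trans (min_le_right _ _)), ev_const (2 * m₂ / ε) hc₃,
    eventually_ge_atTop (2 * Cl / c₁), ev_const a⁻¹ hd₁,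
    ev_const (2 * B.C * Real.exp κd / a) (show 0 < c₂ / 2 by positivity)]
    with s hs₀ hs1 hnf' hs2 hs3 hs4 hs5
  intro h hh F hFF Y
  have hs0 : 0 < s := by linarith
  obtain ⟨F', hF'⟩ := hQ F hFF
  obtain ⟨cY, hcY, -⟩ := hFl s hs₀ h hh F hFF Y
  refine ⟨cY, fun g hg => ?_⟩
  obtain ⟨v₁, hv₁, g₀, hg₀, hgd, hv₁n⟩ := hdec g
  obtain ⟨R, hRdef⟩ : ∃ R : M.ι → ℝ, R = M.szh h d₁ s := ⟨_, rfl⟩
  have hR : ∀ i, 0 < R i := by rw [hRdef]; exact szh_pos' h d₁ s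
  rw [← hRdef] at hcY ⊢
  have hθ : M.θ g = M.θ g₀ := by rw [hgd, M.θ_mul, M.θ_ex, zero_add]
  have hn : ((⌈M.C0 * M.l g⌉₊ : ℕ) : ℝ) ≤ M.C0 * (cu * s) + 1 := by
    refine (Nat.ceil_lt_add_one (by positivity)).le.trans ?_
    have := mul_le_mul_of_nonneg_left hg (show 0 ≤ M.C0 by linarith)
    linarith
  have hlg₀ : (M.l g₀ : ℝ) ≤ c₁ * s := by
    refine (hl _ g₀ hg₀).trans ?_
    have h1 := mul_le_mul_of_nonneg_left hn (show 0 ≤ Cl by linarith)
    have h2 := mul_le_mul_of_nonneg_right hcu1 hs0.le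
    rw [div_le_iff₀ hc₁] at hs3
    linarith
  have hwin : ∀ b ∈ M.Φ, b (M.θ g₀) ≤ 1 / 2 * s * h b := by
    intro b hb
    rw [← hθ]
    have h1 := (abs_le.1 (hφ b hb (M.θ g))).2
    have h2 : ‖M.θ g‖ ≤ M.C0 * (cu * s) :=
      (M.θ_le g).trans (mul_le_mul_of_nonneg_left hg (by linarith))
    have h3 := mul_le_mul_of_nonneg_left h2 hKφ
    have h4 := mul_le_mul_of_nonneg_right hcu2 hs0.le
    have h5 := mul_le_mul_of_nonneg_left (hh.bd b hb).1 hs0.le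
    linarith
  have hstep := lam_step c hR (F := F) (Y := Y) (g₀ := g₀) (cY := cY) (s := s) (η := η)
    (ε' := ε') (ε₁ := Real.exp (-(c₃ * s))) (Cμ := Cμ) ha₂ hs0.le hε'1 hε'0.le (by
      have h1 := hCμ' (fun i => a₂ * R i) fun i => by have := hR i; positivity
      have e : (fun i => a₂⁻¹ * (a₂ * R i)) = R := by
        funext i
        rw [← mul_assoc, inv_mul_cancel₀ ha₂0.ne', one_mul]
      rw [e] at h1
      refine h1.trans (mul_le_mul' (ENNReal.ofReal_le_ofReal ?_) le_rfl)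
      rw [hCμ]; exact le_max_left _ _) (hcY g₀ hlg₀) (by
      intro L hL hLp
      rw [hRdef]
      refine hnf' h hh F F' hF' Y ⌈M.C0 * M.l g⌉₊ ?_ g₀ hg₀ hwin L hL ?_
      · linarith
      · intro p hp
        obtain ⟨hp1, hp2⟩ := hLp p hp
        refine ⟨hp1, ?_⟩
        have : R p.1 = Real.exp (d₁ * s) := by
          rw [hRdef]; unfold RModel.szh; rw [if_pos hp1]
        rwa [this] at hp2)
  -- the part in `e`
  have hexv : M.ex v₁ ∈ B.Bx fun i => a * R i := by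
    refine B.mono _ _ ?_ ?_ (B.ball_e v₁ hv₁)
    · intro i
      unfold RModel.two
      split_ifs
      · exact zero_le_one
      · have := M.nm_nonneg v₁; positivity
    · intro i
      rw [hRdef]
      unfold RModel.two RModel.szh
      split_ifs with hi
      · have h1 := mul_le_mul_of_nonneg_left hs4 ha0.le
        rwa [mul_inv_cancel₀ ha0.ne'] at h1
      · have hb := (M.wt_mem i).resolve_right hi
        have h1 : Real.exp (κd * (M.l g + 1)) ≤ Real.exp κd * Real.exp (c₂ / 2 * s) := by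
          rw [← Real.exp_add]
          apply Real.exp_le_exp.2
          have h2 := mul_le_mul_of_nonneg_left hg hκd
          have h3 := mul_le_mul_of_nonneg_right hcu3 hs0.le
          linarith
        have h2 : Real.exp (c₂ * s) ≤ Real.exp (s * h (M.wt i)) := by
          apply Real.exp_le_exp.2
          have := mul_le_mul_of_nonneg_left (hh.bd _ hb).1 hs0.le
          linarith
        have h3 : 1 ≤ Real.exp κd * Real.exp (c₂ / 2 * s) := by
          rw [← Real.exp_add]; exact Real.one_le_exp (by positivity)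
        calc B.C * (1 + M.nm v₁) ≤ B.C * (2 * (Real.exp κd * Real.exp (c₂ / 2 * s))) :=
              mul_le_mul_of_nonneg_left (by linarith [hv₁n.trans h1]) hBC0.le
          _ = a * ((2 * B.C * Real.exp κd / a) * Real.exp (c₂ / 2 * s)) := by
              field_simp
          _ ≤ a * (Real.exp (c₂ / 2 * s) * Real.exp (c₂ / 2 * s)) := by gcongr
          _ = a * Real.exp (c₂ * s) := by rw [← Real.exp_add]; congr 2; ring
          _ ≤ _ := mul_le_mul_of_nonneg_left h2 ha0.le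
  have hvE : M.ex v₁ ∈ M.E := (M.mem_E _).2 ⟨v₁, hv₁, rfl⟩
  set T : Set S := {x | x ∈ B.Bx (fun i => B.C⁻¹ * R i) ∧
      η * s < ‖M.f F (Y * (x * g₀)) - cY - M.θ g₀‖} with hT
  have hTm : MeasurableSet T := by
    refine (B.meas _).inter (measurableSet_lt measurable_const (Measurable.norm ?_))
    refine (((M.measurable_f F).comp ?_).sub measurable_const).sub measurable_const
    exact (measurable_id.mul_const _).const_mul _
  have hsub : {x | x ∈ B.Bx (fun i => a * R i) ∧ η * s < ‖M.f F (Y * (x * g)) - cY - M.θ g‖} ⊆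
      (fun x => x * M.ex v₁) ⁻¹' T := by
    rintro x ⟨hx1, hx2⟩
    refine ⟨?_, ?_⟩
    · refine bx_mul B (fun i => (hR i).le) ha0.le ha0.le ?_ ?_ hx1 hexv
      · rw [ha, ← mul_assoc, mul_inv_cancel₀ hBC0.ne', one_mul]
      · rw [ha, ← mul_assoc, mul_inv_cancel₀ hBC0.ne', one_mul]
    · show η * s < ‖M.f F (Y * (x * M.ex v₁ * g₀)) - cY - M.θ g₀‖
      rw [hθ, hgd, ← mul_assoc x] at hx2
      exact hx2
  refine (measure_mono hsub).trans ?_
  rw [(c.emeas.mpr _ hvE).measure_preimage hTm.nullMeasurableSet]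
  refine hstep.trans ?_
  have h7 : c.ν (B.Bx R) ≤ m₂ * c.ν (B.Bx fun i => B.C⁻¹ * (a * R i)) := by
    have h8 := hm₂' (fun i => B.C⁻¹ * (a * R i)) fun i => by have := hR i; positivity
    have e : (fun i => B.C ^ 3 * (B.C⁻¹ * (a * R i))) = R := by
      funext i
      rw [ha]
      field_simp
    rwa [e] at h8
  calc (ENNReal.ofReal (Real.exp (-(c₃ * s))) + ENNReal.ofReal ε' * ENNReal.ofReal Cμ) *
        c.ν (B.Bx R)
      ≤ (ENNReal.ofReal (Real.exp (-(c₃ * s))) + ENNReal.ofReal ε' * ENNReal.ofReal Cμ) *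
        (m₂ * c.ν (B.Bx fun i => B.C⁻¹ * (a * R i))) := mul_le_mul' le_rfl h7
    _ = (ENNReal.ofReal (Real.exp (-(c₃ * s))) + ENNReal.ofReal ε' * ENNReal.ofReal Cμ) *
        ENNReal.ofReal (m₂ : ℝ) * c.ν (B.Bx fun i => B.C⁻¹ * (a * R i)) := by
        rw [ENNReal.ofReal_natCast, mul_assoc]
    _ ≤ ENNReal.ofReal ε * c.ν (B.Bx fun i => B.C⁻¹ * (a * R i)) := by
        refine mul_le_mul' ?_ le_rfl
        rw [← ENNReal.ofReal_mul hε'0.le, ← ENNReal.ofReal_add (Real.exp_pos _).le (by positivity),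
          ← ENNReal.ofReal_mul (by positivity)]
        refine ENNReal.ofReal_le_ofReal ?_
        have h9 : Real.exp (-(c₃ * s)) * m₂ ≤ ε / 2 := by
          rw [Real.exp_neg]
          have h10 : 2 * (m₂ : ℝ) ≤ ε * Real.exp (c₃ * s) := by
            rw [div_le_iff₀ hε] at hs2; linarith
          rw [inv_mul_le_iff₀ (Real.exp_pos _)]
          linarith
        linarith

end Vale.Agent.P188.H235

end
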