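import Vale.Agent.P188.R.G100
import Vale.Agent.P188.R.G069
import Vale.Agent.P188.R.G085
import Vale.Agent.P188.R.G067
import Vale.Agent.P188.R.G002

section

/-!
# P188, Z1, block LAB, part 5: overlap of the box sets with their left translates; test boxes
-/

set_option linter.all false

open MeasureTheory Set Filter
open scoped ENNReal
open Vale.Agent.P188.H540 (vec)

namespace Vale.Agent.P188.Z1.Lab

variable {S : Type} [Group S] [MeasurableSpace S] {Γ : Type} [Group Γ]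
  {V : Type} [AddCommGroup V] [Module ℝ V] {k : ℕ} {M : RModel S Γ V k}

open RModel

/-- left multiplication and the `N_R`-part -/
theorem left_part (z g : S) : g * z * (M.sec (g * z))⁻¹ =
    (g * (M.sec g)⁻¹) * (M.sec g * (z * (M.sec z)⁻¹) * (M.sec g)⁻¹) *
      (M.sec g * M.sec z * (M.sec (M.sec g * M.sec z))⁻¹) := by
  have h0 : M.η (g * z) = M.η (M.sec g * M.sec z) := by
    rw [map_mul, map_mul, DB.η_sec, DB.η_sec]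
  have h : M.sec (g * z) = M.sec (M.sec g * M.sec z) :=
    congrArg (fun t => M.τ (Multiplicative.toAdd t)) h0
  rw [h]
  group

/-- comparison of sizes -/
theorem szt_le {c₂ : ℝ} {h : (Ht k →L[ℝ] ℝ) → ℝ} (hh : M.HB c₂ h) {d₁ s t q : ℝ} (ht : 0 ≤ t)
    (h1 : Real.exp (-t) ≤ q) (h2 : Real.exp (-(t * c₂)) ≤ q) (i : M.ι) :
    szt M h d₁ s t i ≤ q * M.szh h d₁ s i := by
  unfold szt szh
  split_ifs with hi
  · rw [sub_eq_neg_add, Real.exp_add]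
    exact mul_le_mul_of_nonneg_right h1 (Real.exp_pos _).le
  · have h3 := (hh _ ((M.wt_mem i).resolve_right hi)).1
    have e : (s - t) * h (M.wt i) = -(t * h (M.wt i)) + s * h (M.wt i) := by ring
    rw [e, Real.exp_add]
    refine mul_le_mul_of_nonneg_right (le_trans (Real.exp_le_exp.2 ?_) h2) (Real.exp_pos _).le
    nlinarith

theorem le_szt {c₂ : ℝ} {h : (Ht k →L[ℝ] ℝ) → ℝ} (hh : M.HB c₂ h) {d₁ s t δ : ℝ} (ht : 0 ≤ t)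
    (h1 : δ ≤ Real.exp (-t)) (h2 : δ ≤ Real.exp (-(t * c₂⁻¹))) (i : M.ι) :
    δ * M.szh h d₁ s i ≤ szt M h d₁ s t i := by
  unfold szt szh
  split_ifs with hi
  · rw [sub_eq_neg_add, Real.exp_add]
    exact mul_le_mul_of_nonneg_right h1 (Real.exp_pos _).le
  · have h3 := (hh _ ((M.wt_mem i).resolve_right hi)).2
    have e : (s - t) * h (M.wt i) = -(t * h (M.wt i)) + s * h (M.wt i) := by ring
    rw [e, Real.exp_add]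
    refine mul_le_mul_of_nonneg_right (h2.trans (Real.exp_le_exp.2 ?_)) (Real.exp_pos _).le
    nlinarith

/-- the inclusion of the small box set in the overlap -/
theorem ovl_incl (B : M.NatBox) {c₂ : ℝ} (hc₂ : 0 < c₂) {h : (Ht k →L[ℝ] ℝ) → ℝ}
    (hh : M.HGood c₂ h) {d₁ s t q Fc δ κ₁ κ₄ Cl S₀ : ℝ} {nτ : ℕ}
    (hS₀0 : 0 ≤ S₀) (hbS : ∀ b ∈ M.Φ, ‖b‖ ≤ S₀) (hnτ : nτ = ⌈M.C0 * (1 + M.C0)⌉₊)
    (hFc : Fc = B.C * (1 + nτ) ^ B.dg * Real.exp (S₀ * M.C0)) (hq : q = 1 / (B.C * B.C))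
    (ht0 : 0 ≤ t) (ht1 : Real.exp (-t) ≤ q / Fc) (ht2 : Real.exp (-(t * c₂)) ≤ q / Fc)
    (hδ0 : 0 < δ) (hδ1 : δ ≤ 1) (hδt : δ ≤ Real.exp (-t)) (hδt' : δ ≤ Real.exp (-(t * c₂⁻¹)))
    (hl : ∀ w : Fin k → ℤ, ∀ R : ℝ, 0 ≤ R → (∀ i, |(w i : ℝ)| ≤ R) →
      (M.l (M.τ w) : ℝ) ≤ Cl * (1 + R))
    (hκ₄0 : 0 < κ₄) (hκ₄S : S₀ * κ₄ ≤ c₂ / 4) (hκ₄l : Cl * κ₄ ≤ κ₁ / 2)
    (hs₁' : ∀ w ∈ DB.WnH M h ((1 - 1 / 2) * s), ∀ g : S,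
      ((M.l g : ℝ) ≤ κ₁ * s ∨ g ∈ M.FB (d₁ / 2) (κ₁ * s)) →
      M.τ w * g * (M.sec (M.τ w * g))⁻¹ ∈ B.Bx (fun i => q * M.szh h d₁ s i))
    (u1 : t ≤ d₁ * s) (u2 : 2 * t ≤ s) (u3 : 0 ≤ s) (hd : d₁ * s ≤ c₂ / 2 * s)
    (u4 : S₀ * M.C0 ≤ 1 / 4 * s * c₂) (u5 : Cl ≤ κ₁ / 2 * s)
    (u6 : (M.l (M.τ (0 : Fin k → ℤ)) : ℝ) + 1 ≤ κ₁ * s) {g : S} (hg : M.l g ≤ 1) :
    B.DsmH h δ d₁ κ₄ s ⊆
      {z | z ∈ B.DboxH h 1 d₁ (1 / 2) s ∧ g * z ∈ B.DboxH h 1 d₁ (1 / 2) s} := by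
  classical
  have hC0 := M.one_le_C0
  have hBC := B.one_le
  have hgR : (M.l g : ℝ) ≤ 1 := by exact_mod_cast hg
  have hθg : ‖M.θ g‖ ≤ M.C0 := (M.θ_le g).trans (by nlinarith)
  have hadm : M.Adm (szt M h d₁ s t) := by
    refine adm_szt hc₂ hh u1 (by linarith) ?_
    have h5 : t * c₂ ≤ s / 2 * c₂ := mul_le_mul_of_nonneg_right (by linarith) hc₂.le
    have h6 : (s - t) * c₂ = s * c₂ - t * c₂ := by ring
    rw [h6]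
    linarith
  have hszt : ∀ i, szt M h d₁ s t i ≤ q / Fc * M.szh h d₁ s i := szt_le hh.bd ht0 ht1 ht2
  have hszt' : ∀ i, δ * M.szh h d₁ s i ≤ szt M h d₁ s t i := le_szt hh.bd ht0 hδt hδt'
  have hszp : ∀ i, 0 < M.szh h d₁ s i := DB.szh_pos h d₁ s
  have hq0 : 0 < q := by rw [hq]; positivity
  have hsc : 0 ≤ s * c₂ := by positivity
  have hhc : ∀ b ∈ M.Φ, s * c₂ ≤ s * h b := fun b hb =>
    mul_le_mul_of_nonneg_left (hh.bd b hb).1 u3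
  have hbg : ∀ b ∈ M.Φ, b (M.θ g) ≤ 1 / 4 * (s * c₂) := by
    intro b hb
    calc b (M.θ g) ≤ ‖b‖ * ‖M.θ g‖ := (le_abs_self _).trans (b.le_opNorm _)
      _ ≤ S₀ * M.C0 := mul_le_mul (hbS b hb) hθg (norm_nonneg _) hS₀0
      _ ≤ _ := u4
      _ = _ := by ring
  rintro z ⟨hz1, hz2⟩
  have hbz : ∀ b ∈ M.Φ, b (M.θ z) ≤ 1 / 4 * (s * c₂) := by
    intro b hb
    calc b (M.θ z) ≤ ‖b‖ * ‖M.θ z‖ := (le_abs_self _).trans (b.le_opNorm _)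
      _ ≤ S₀ * (κ₄ * s) := mul_le_mul (hbS b hb) hz2 (norm_nonneg _) hS₀0
      _ = (S₀ * κ₄) * s := by ring
      _ ≤ c₂ / 4 * s := mul_le_mul_of_nonneg_right hκ₄S u3
      _ = _ := by ring
  refine ⟨⟨?_, ?_⟩, ?_, ?_⟩
  · refine B.mono _ _ (fun i => (mul_pos hδ0 (hszp i)).le) (fun i => ?_) hz1
    exact mul_le_mul_of_nonneg_right hδ1 (hszp i).le
  · intro b hb
    have h1 := hbz b hb
    have h2 := hhc b hb
    have h3 : (1 - 1 / 2 : ℝ) * s * h b = 1 / 2 * (s * h b) := by ring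
    rw [h3]
    linarith
  · rw [left_part]
    -- first factor
    have f1 : g * (M.sec g)⁻¹ ∈ B.Bx fun i => q * M.szh h d₁ s i := by
      have h5 := hs₁' 0 (DB.zero_mem_WnH hc₂ hh.bd (by linarith)) ((M.τ 0)⁻¹ * g)
        (Or.inl ?_)
      · rw [mul_inv_cancel_left] at h5
        exact h5
      · have h6 : (M.l ((M.τ 0)⁻¹ * g) : ℝ) ≤ M.l (M.τ (0 : Fin k → ℤ))⁻¹ + M.l g := by
          exact_mod_cast M.len.mul _ _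
        rw [M.len.inv] at h6
        linarith
    -- second factor
    have f2 : M.sec g * (z * (M.sec z)⁻¹) * (M.sec g)⁻¹ ∈ B.Bx fun i => q * M.szh h d₁ s i := by
      have h5 : z * (M.sec z)⁻¹ ∈ B.Bx (szt M h d₁ s t) :=
        B.mono _ _ (fun i => (mul_pos hδ0 (hszp i)).le) hszt' hz1
      have hτ : M.sec g ∈ M.CB nτ := by
        have h6 := M.τ_CB (Multiplicative.toAdd (M.η g))
        rw [hnτ]
        refine M.CB_mono (Nat.ceil_mono ?_) h6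
        have h7 : ‖(fun i => ((Multiplicative.toAdd (M.η g)) i : ℝ))‖ ≤ M.C0 := hθg
        exact mul_le_mul_of_nonneg_left (by linarith) (by linarith)
      have h6 := B.conj nτ _ hτ _ hadm _ h5
      refine B.mono _ _ (fun i => ?_) (fun i => ?_) h6
      · have := szt_pos (M := M) h d₁ s t i
        positivity
      · have h7 : Real.exp (M.wt i (M.θ (M.sec g))) ≤ Real.exp (S₀ * M.C0) := by
          apply Real.exp_le_exp.2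
          rw [DB.θ_sec]
          by_cases hi : M.wt i = 0
          · rw [hi, ContinuousLinearMap.zero_apply]; positivity
          · have hb := (M.wt_mem i).resolve_right hi
            calc M.wt i (M.θ g) ≤ ‖M.wt i‖ * ‖M.θ g‖ := (le_abs_self _).trans ((M.wt i).le_opNorm _)
              _ ≤ S₀ * M.C0 := mul_le_mul (hbS _ hb) hθg (norm_nonneg _) hS₀0
        have h8 := hszt i
        have h9 : 0 ≤ szt M h d₁ s t i := (szt_pos h d₁ s t i).le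
        have hFc0 : Fc ≠ 0 := by rw [hFc]; positivity
        calc B.C * (1 + (nτ : ℝ)) ^ B.dg * Real.exp (M.wt i (M.θ (M.sec g))) * szt M h d₁ s t i
            ≤ B.C * (1 + (nτ : ℝ)) ^ B.dg * Real.exp (S₀ * M.C0) *
              (q / Fc * M.szh h d₁ s i) := by gcongr
          _ = Fc * (q / Fc * M.szh h d₁ s i) := by rw [hFc]
          _ = q * M.szh h d₁ s i := by field_simp
    -- third factor
    have f3 : M.sec g * M.sec z * (M.sec (M.sec g * M.sec z))⁻¹ ∈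
        B.Bx fun i => q * M.szh h d₁ s i := by
      refine hs₁' (Multiplicative.toAdd (M.η g)) ?_ (M.sec z) (Or.inl ?_)
      · intro b hb
        have h5 : b (vec (Multiplicative.toAdd (M.η g))) = b (M.θ g) := rfl
        rw [h5]
        have h1 := hbg b hb
        have h2 := hhc b hb
        have h3 : (1 - 1 / 2 : ℝ) * s * h b = 1 / 2 * (s * h b) := by ring
        rw [h3]
        linarith
      · have h5 : (M.l (M.sec z) : ℝ) ≤ Cl * (1 + κ₄ * s) := by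
          refine hl _ _ (by positivity) fun i => ?_
          have h6 : |M.θ z i| ≤ ‖M.θ z‖ := norm_le_pi_norm (M.θ z) i
          exact h6.trans hz2
        have h6 : Cl * (1 + κ₄ * s) = Cl + (Cl * κ₄) * s := by ring
        have h7 : (Cl * κ₄) * s ≤ κ₁ / 2 * s := mul_le_mul_of_nonneg_right hκ₄l u3
        linarith
    have hq' : ∀ i, 0 ≤ q * M.szh h d₁ s i := fun i => (mul_pos hq0 (hszp i)).le
    have h5 := B.mul _ hq' _ f1 _ f2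
    have h6 := B.mul _ (fun i => mul_nonneg (by linarith) (hq' i)) _ h5 _
      (B.mono _ _ hq' (fun i => le_mul_of_one_le_left (hq' i) hBC) f3)
    have h7 : (fun i => B.C * (B.C * (q * M.szh h d₁ s i))) = fun i => 1 * M.szh h d₁ s i := by
      funext i
      rw [hq]
      field_simp
    rw [h7] at h6
    exact h6
  · intro b hb
    rw [M.θ_mul, map_add]
    have h1 := hbz b hb
    have h1' := hbg b hb
    have h2 := hhc b hb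
    have h3 : (1 - 1 / 2 : ℝ) * s * h b = 1 / 2 * (s * h b) := by ring
    rw [h3]
    linarith

/-- the constants -/
theorem ovl_const {X c₂ : ℝ} (hX : 0 < X) (hc₂ : 0 < c₂) : ∃ t : ℝ, 0 ≤ t ∧
    Real.exp (-t) ≤ X ∧ Real.exp (-(t * c₂)) ≤ X := by
  set a : ℝ := |Real.log X| with ha
  have ha0 : 0 ≤ a := abs_nonneg _
  have hea : Real.exp (-a) ≤ X := by
    rw [← Real.le_log_iff_exp_le hX]
    exact neg_abs_le _
  refine ⟨a + a / c₂, by positivity, le_trans (Real.exp_le_exp.2 ?_) hea,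
    le_trans (Real.exp_le_exp.2 ?_) hea⟩
  · have : 0 ≤ a / c₂ := by positivity
    linarith
  · have : (a + a / c₂) * c₂ = a * c₂ + a := by field_simp
    have h2 : 0 ≤ a * c₂ := by positivity
    linarith

theorem ovl_s {t d₁ X c₂ Cl κ₁ y : ℝ} (ht0 : 0 ≤ t) (hd₁ : 0 < d₁) (hX : 0 ≤ X) (hc₂ : 0 < c₂)
    (hCl : 0 ≤ Cl) (hκ₁0 : 0 < κ₁) (hy : 0 ≤ y) : ∃ s₂ : ℝ, ∀ s, s₂ ≤ s → t ≤ d₁ * s ∧ 2 * t ≤ s ∧
      0 ≤ s ∧ X ≤ 1 / 4 * s * c₂ ∧ Cl ≤ κ₁ / 2 * s ∧ y ≤ κ₁ * s := by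
  refine ⟨t / d₁ + 2 * t + 4 * X / c₂ + 2 * Cl / κ₁ + y / κ₁, fun s hs => ?_⟩
  have p1 : 0 ≤ t / d₁ := by positivity
  have p2 : 0 ≤ 4 * X / c₂ := by positivity
  have p3 : 0 ≤ 2 * Cl / κ₁ := by positivity
  have p4 : 0 ≤ y / κ₁ := by positivity
  refine ⟨?_, by linarith, by linarith, ?_, ?_, ?_⟩
  · have : t / d₁ ≤ s := by linarith
    rw [div_le_iff₀ hd₁] at this
    linarith
  · have : 4 * X / c₂ ≤ s := by linarith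
    rw [div_le_iff₀ hc₂] at this
    linarith
  · have : 2 * Cl / κ₁ ≤ s := by linarith
    rw [div_le_iff₀ hκ₁0] at this
    linarith
  · have : y / κ₁ ≤ s := by linarith
    rw [div_le_iff₀ hκ₁0] at this
    linarith

/-- **Overlap.** -/
theorem ovl (B : M.NatBox) (hV : M.DVOLH B) {c₂ : ℝ} (hc₂ : 0 < c₂) : ∃ c : ℝ, 0 < c ∧
    ∀ d₁ : ℝ, 0 < d₁ → d₁ ≤ c₂ / 2 → ∃ s₀ : ℝ, ∀ s : ℝ, s₀ ≤ s →
    ∀ h : (Ht k →L[ℝ] ℝ) → ℝ, M.HGood c₂ h → ∀ g : S, M.l g ≤ 1 →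
    ENNReal.ofReal c * M.μ (B.DboxH h 1 d₁ (1 / 2) s) ≤
      M.μ {z | z ∈ B.DboxH h 1 d₁ (1 / 2) s ∧ g * z ∈ B.DboxH h 1 d₁ (1 / 2) s} := by
  classical
  have hC0 := M.one_le_C0
  have hBC := B.one_le
  obtain ⟨C', hC'1, hsm⟩ := DB.small_memH B hc₂
  obtain ⟨Cl, hCl, hl⟩ := M.l_τ
  set S₀ : ℝ := ∑ b ∈ M.Φ, ‖b‖ with hS₀
  have hS₀0 : 0 ≤ S₀ := Finset.sum_nonneg fun b _ => norm_nonneg b
  have hbS : ∀ b ∈ M.Φ, ‖b‖ ≤ S₀ := fun b hb =>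
    Finset.single_le_sum (f := fun b : Ht k →L[ℝ] ℝ => ‖b‖) (fun _ _ => norm_nonneg _) hb
  set nτ : ℕ := ⌈M.C0 * (1 + M.C0)⌉₊ with hnτ
  set Fc : ℝ := B.C * (1 + nτ) ^ B.dg * Real.exp (S₀ * M.C0) with hFc
  have hFc0 : 0 < Fc := by positivity
  set q : ℝ := 1 / (B.C * B.C) with hq
  have hq0 : 0 < q := by positivity
  -- the reduction `t`
  obtain ⟨t, ht0, ht1, ht2⟩ := ovl_const (X := q / Fc) (by positivity) hc₂
  set δ : ℝ := min (min (Real.exp (-t)) (Real.exp (-(t * c₂⁻¹)))) 1 with hδ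
  have hδ0 : 0 < δ := lt_min (lt_min (Real.exp_pos _) (Real.exp_pos _)) one_pos
  have hδ1 : δ ≤ 1 := min_le_right _ _
  have hδt : δ ≤ Real.exp (-t) := (min_le_left _ _).trans (min_le_left _ _)
  have hδt' : δ ≤ Real.exp (-(t * c₂⁻¹)) := (min_le_left _ _).trans (min_le_right _ _)
  -- the scale `κ₁`
  set κ₁ : ℝ := min 1 (c₂ / (4 * C')) with hκ₁
  have hκ₁0 : 0 < κ₁ := lt_min one_pos (by positivity)
  have hκ₁1 : κ₁ ≤ 1 := min_le_left _ _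
  have hκ₁C : C' * κ₁ < 1 / 2 * c₂ := by
    have h1 : κ₁ ≤ c₂ / (4 * C') := min_le_right _ _
    rw [le_div_iff₀ (by positivity)] at h1
    linarith
  set κ₄ : ℝ := min (c₂ / (4 * (S₀ + 1))) (κ₁ / (2 * Cl)) with hκ₄
  have hκ₄0 : 0 < κ₄ := lt_min (by positivity) (by positivity)
  have hκ₄S : S₀ * κ₄ ≤ c₂ / 4 := by
    have h1 : κ₄ ≤ c₂ / (4 * (S₀ + 1)) := min_le_left _ _
    rw [le_div_iff₀ (by positivity)] at h1
    have h2 : κ₄ * (4 * (S₀ + 1)) = 4 * (S₀ * κ₄) + 4 * κ₄ := by ring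
    linarith
  have hκ₄l : Cl * κ₄ ≤ κ₁ / 2 := by
    have h1 : κ₄ ≤ κ₁ / (2 * Cl) := min_le_right _ _
    rw [le_div_iff₀ (by positivity)] at h1
    linarith
  obtain ⟨Cv, hCv⟩ := hV c₂ hc₂ (1 / 2) κ₄ 1 δ (by norm_num) (by norm_num) hκ₄0 one_pos hδ0
  refine ⟨1 / max Cv 1, by positivity, ?_⟩
  intro d₁ hd₁ hd₁c
  obtain ⟨sv, hsv⟩ := hCv d₁ hd₁
  have hsm' := hsm (1 / 2) κ₁ (d₁ / 2) d₁ q (by norm_num) (by norm_num) hκ₁0 hκ₁1 hκ₁C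
    (by positivity) (by
      have : d₁ / 2 * κ₁ ≤ d₁ / 2 * 1 := mul_le_mul_of_nonneg_left hκ₁1 (by linarith)
      linarith) hq0
  obtain ⟨s₁, hs₁⟩ := hsm'.exists_forall_of_atTop
  obtain ⟨s₂, hs₂⟩ := ovl_s (t := t) (d₁ := d₁) (X := S₀ * M.C0) (c₂ := c₂) (Cl := Cl) (κ₁ := κ₁)
    (y := (M.l (M.τ (0 : Fin k → ℤ)) : ℝ) + 1) ht0 hd₁ (by positivity) hc₂ (by linarith) hκ₁0
    (by positivity)
  refine ⟨max (max sv s₁) s₂, fun s hs h hh g hg => ?_⟩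
  have hsv' := hsv s ((le_max_left _ _).trans ((le_max_left _ _).trans hs)) h hh.bd
  have hs₁' := hs₁ s ((le_max_right _ _).trans ((le_max_left _ _).trans hs)) h hh.bd
  obtain ⟨u1, u2, u3, u4, u5, u6⟩ := hs₂ s ((le_max_right _ _).trans hs)
  have hincl := ovl_incl B hc₂ hh hS₀0 hbS hnτ hFc hq ht0 ht1 ht2 hδ0 hδ1 hδt hδt' hl hκ₄0 hκ₄S
    hκ₄l hs₁' u1 u2 u3 (mul_le_mul_of_nonneg_right hd₁c u3) u4 u5 u6 hg
  calc ENNReal.ofReal (1 / max Cv 1) * M.μ (B.DboxH h 1 d₁ (1 / 2) s)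
      ≤ ENNReal.ofReal (1 / max Cv 1) *
        (ENNReal.ofReal (max Cv 1) * M.μ (B.DsmH h δ d₁ κ₄ s)) := by
        gcongr
        refine hsv'.trans ?_
        gcongr
        exact le_max_left _ _
    _ = M.μ (B.DsmH h δ d₁ κ₄ s) := by
        rw [← mul_assoc, ← ENNReal.ofReal_mul (by positivity), one_div,
          inv_mul_cancel₀ (by positivity), ENNReal.ofReal_one, one_mul]
    _ ≤ _ := measure_mono hincl

/-- **The box sets are test boxes.** -/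
theorem tb (B : M.NatBox) (hD : M.DBOXH B) (hV : M.DVOLH B) {c₂ : ℝ} (hc₂ : 0 < c₂) :
    ∃ c CA : ℝ, 0 < c ∧ 0 < CA ∧ ∀ κ₂ : ℝ, 0 < κ₂ → ∃ κ₁ : ℝ, 0 < κ₁ ∧
    ∀ d₁ : ℝ, 0 < d₁ → d₁ ≤ c₂ / 2 → ∃ s₀ : ℝ, ∀ s : ℝ, s₀ ≤ s →
    ∀ h : (Ht k →L[ℝ] ℝ) → ℝ, M.HGood c₂ h →
      TB M (κ₁ * s) κ₂ c (CA * s) (B.DboxH h 1 d₁ (1 / 2) s) := by
  obtain ⟨c, hc, hov⟩ := ovl B hV hc₂
  obtain ⟨CA, hCA, hw⟩ := win_norm M hc₂
  refine ⟨c, CA, hc, hCA, fun κ₂ hκ₂ => ?_⟩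
  obtain ⟨κ₁, hκ₁, h1⟩ := hD c₂ hc₂ (1 / 2) (by norm_num) (by norm_num) 1 one_pos κ₂ hκ₂
  refine ⟨κ₁, hκ₁, fun d₁ hd₁ hd₁c => ?_⟩
  obtain ⟨s₁, hs₁⟩ := h1 d₁ (d₁ / (2 * κ₁)) hd₁ (by positivity) (by
    have : d₁ / (2 * κ₁) * κ₁ = d₁ / 2 := by field_simp
    linarith)
  obtain ⟨s₂, hs₂⟩ := hov d₁ hd₁ hd₁c
  refine ⟨max (max s₁ s₂) 0, fun s hs h hh => ?_⟩
  have hs0 : 0 ≤ s := (le_max_right _ _).trans hs
  obtain ⟨Dp, hF⟩ := hs₁ s ((le_max_left _ _).trans ((le_max_left _ _).trans hs)) h hh.bd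
  refine ⟨hF.meas, hF.pos, hF.fin, dbox_bdd B hc₂ hh.bd one_pos d₁ (1 / 2) s (by linarith), ?_, ?_,
    hs₂ s ((le_max_right _ _).trans ((le_max_left _ _).trans hs)) h hh⟩
  · intro z hz
    refine hw h hh.bd s hs0 _ fun b hb => ?_
    have h3 := hz.2 b hb
    have h4 := (hh.bd b hb).1
    have h5 : 0 ≤ s * h b := mul_nonneg hs0 (hc₂.le.trans h4)
    nlinarith
  · intro g hg
    exact hF.toFat.fol (by positivity) hκ₂.le hg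

end Vale.Agent.P188.Z1.Lab

end

section

/-!
# P188, Z1, block COH: `LIN` and `RAY` imply `COH`
-/

set_option linter.all false

open MeasureTheory Set
open scoped ENNReal
open Agent.P188.H428 (IsLen)
open Vale.Agent.P188.H530 (hgt hgt_mul Crossed Mod TrP RayLin psi_pat rayMap_eq_of_pat
  exists_max_norm exists_rayLin exists_net_rays iv exists_measurable_sub)

namespace Vale.Agent.P188.Z1

namespace RModel

variable {S : Type} [Group S] [MeasurableSpace S] {Γ : Type} [Group Γ]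
  {V : Type} [AddCommGroup V] [Module ℝ V] {k : ℕ} {M : RModel S Γ V k}

/-- heights on balls and fat balls -/
theorem θ_ball {δ' ρ : ℝ} (hρ : 0 ≤ ρ) {g : S} (h : (M.l g : ℝ) ≤ ρ ∨ g ∈ M.FB δ' ρ) :
    ‖M.θ g‖ ≤ M.C0 * ρ := by
  rcases h with h | h
  · exact (M.θ_le g).trans (mul_le_mul_of_nonneg_left h M.C0_nn)
  · obtain ⟨v, hv, -, y, hy, -, w, hw, rfl⟩ := h
    rw [M.θ_mul, M.θ_mul, M.θ_ex, M.θ_ex, zero_add, zero_add, θ_τC]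
    have h1 : ‖(ht w : Ht k)‖ ≤ ρ := by
      rw [pi_norm_le_iff_of_nonneg hρ]
      intro i
      simpa [ht] using hw i
    refine h1.trans ?_
    have := M.one_le_C0
    nlinarith

/-- the conclusion for one map -/
theorem coh_alpha {Φ₁ : Finset (Ht k →L[ℝ] ℝ)} {q : Par} {n : ℕ} (hΦ₁ : M.Rays Φ₁)
    {V₁ : Finset (Fin k → ℤ)} (hV₁ : M.Dirs Φ₁ V₁)
    {δ₁ c₀ VB κ B εL ε r δ' : ℝ} {ρ : ℕ} (hδ₁ : 0 < δ₁)
    (hδ₁' : ∀ v ∈ V₁, ∀ b ∈ Φ₁, δ₁ ≤ |b (ht v)|)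
    (hVB : ∀ v ∈ V₁, ‖(ht v : Ht k)‖ ≤ VB) (ht₀ : 0 ≤ q.t₀) (hδ : 0 ≤ q.δ) (hc₀ : 0 < c₀)
    (hc : c₀ + q.δ * VB ≤ q.t₀ * δ₁) (hB : ∀ b ∈ Φ₁, ‖b‖ ≤ B) (hB0 : 0 ≤ B)
    (hsm : B * (εL * VB) < c₀) (hρr : (ρ : ℝ) ≤ r) (hr2 : r ≤ 2 * ρ) (hεL : 0 ≤ εL)
    (herr : 2 * εL + κ * M.C0 ≤ ε)
    (Hcl : ∀ T₁ T₂ : Ht k →L[ℝ] Ht k, M.GT Φ₁ q n T₁ → M.GT Φ₁ q n T₂ →
      patF Φ₁ V₁ T₁ = patF Φ₁ V₁ T₂ → ‖T₂ - T₁‖ ≤ κ)
    {F : Γ → Γ} {D₀ D₁ : Set S} {T : S → Ht k →L[ℝ] Ht k} (hD₁ : D₁ ⊆ D₀)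
    (hGT : ∀ x ∈ D₁, M.GT Φ₁ q n (T x))
    (hlin : ∀ x ∈ D₀, ∀ x' ∈ D₀, ((M.l (x⁻¹ * x') : ℝ) ≤ r ∨ x⁻¹ * x' ∈ M.FB δ' r) →
      ‖M.f F x' - M.f F x - T x (M.θ (x⁻¹ * x'))‖ ≤ εL * r ∧ ‖T x' - T x‖ ≤ εL)
    (hδ' : 0 ≤ δ') :
    ∀ x ∈ D₁, (‖M.selT Φ₁ V₁ q n (patF Φ₁ V₁ (T x))‖ ≤ q.L ∧
      ∀ v : V₁, (∀ b ∈ Φ₁, (b ∈ patF Φ₁ V₁ (T x) v →
            c₀ ≤ b (M.selT Φ₁ V₁ q n (patF Φ₁ V₁ (T x)) (ht v))) ∧
          (b ∉ patF Φ₁ V₁ (T x) v → b (M.selT Φ₁ V₁ q n (patF Φ₁ V₁ (T x)) (ht v)) ≤ -c₀)) ∧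
        (patF Φ₁ V₁ (T x) v).ncard = {b | b ∈ Φ₁ ∧ 0 < b (ht (v : Fin k → ℤ))}.ncard ∧
        patF Φ₁ V₁ (T x) v ⊆ ↑Φ₁) ∧
      ∀ x' ∈ D₁, ((M.l (x⁻¹ * x') : ℝ) ≤ ρ ∨ x⁻¹ * x' ∈ M.FB δ' ρ) →
        ‖M.f F x' - M.f F x - M.selT Φ₁ V₁ q n (patF Φ₁ V₁ (T x)) (M.θ (x⁻¹ * x'))‖ ≤ ε * ρ ∧
          patF Φ₁ V₁ (T x') = patF Φ₁ V₁ (T x) := by
  intro x hx
  have hC0 := M.C0_nn
  have hg := hGT x hx
  obtain ⟨s1, s2⟩ := selT_spec (M := M) (V₁ := V₁) hg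
  have hlab := s1.label hΦ₁ hV₁ hδ₁ hδ₁' hVB ht₀ hδ hc₀ hc
  have hlab0 := hg.label hΦ₁ hV₁ hδ₁ hδ₁' hVB ht₀ hδ hc₀ hc
  rw [s2] at hlab
  refine ⟨⟨s1.norm, hlab⟩, fun x' hx' hn => ?_⟩
  have hρ0 : (0 : ℝ) ≤ ρ := Nat.cast_nonneg _
  have hr0 : 0 ≤ r := hρ0.trans hρr
  have hn' : (M.l (x⁻¹ * x') : ℝ) ≤ r ∨ x⁻¹ * x' ∈ M.FB δ' r := by
    rcases hn with h | h
    · exact Or.inl (h.trans hρr)
    · exact Or.inr (M.FB_mono' hδ' hρ0 hρr le_rfl h)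
  obtain ⟨h1, h2⟩ := hlin x (hD₁ hx) x' (hD₁ hx') hn'
  refine ⟨?_, patF_eq hB hVB hB0 h2 hsm fun v => (hlab0 v).1⟩
  have h3 := Hcl (M.selT Φ₁ V₁ q n (patF Φ₁ V₁ (T x))) (T x) s1 hg s2
  have hκ : 0 ≤ κ := (norm_nonneg _).trans h3
  have h4 : ‖(T x - M.selT Φ₁ V₁ q n (patF Φ₁ V₁ (T x))) (M.θ (x⁻¹ * x'))‖ ≤ κ * (M.C0 * ρ) :=
    (ContinuousLinearMap.le_opNorm _ _).trans
      (mul_le_mul h3 (θ_ball hρ0 hn) (norm_nonneg _) hκ)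
  have e : M.f F x' - M.f F x - M.selT Φ₁ V₁ q n (patF Φ₁ V₁ (T x)) (M.θ (x⁻¹ * x')) =
      (M.f F x' - M.f F x - T x (M.θ (x⁻¹ * x'))) +
        (T x - M.selT Φ₁ V₁ q n (patF Φ₁ V₁ (T x))) (M.θ (x⁻¹ * x')) := by
    rw [ContinuousLinearMap.sub_apply]; abel
  rw [e]
  refine (norm_add_le _ _).trans ((add_le_add h1 h4).trans ?_)
  calc εL * r + κ * (M.C0 * ρ) ≤ εL * (2 * ρ) + κ * (M.C0 * ρ) := by gcongr
    _ = (2 * εL + κ * M.C0) * ρ := by ring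
    _ ≤ ε * ρ := by gcongr

/-- numerical facts on scales -/
theorem coh_scale {Λ₂ r lam a : ℝ} {n₀ : ℕ} (hΛ₂ : 1 ≤ Λ₂) (hlam : 0 < lam) (hr1 : lam * a ≤ r)
    (hbig : 4 * Λ₂ * ((n₀ : ℝ) + 3) ≤ lam * a) :
    lam / 2 * a ≤ (⌊r⌋₊ : ℝ) ∧ (⌊r⌋₊ : ℝ) ≤ r ∧ r ≤ 2 * (⌊r⌋₊ : ℝ) ∧
      n₀ ≤ ⌊(⌊r⌋₊ : ℝ) / Λ₂⌋₊ ∧ Λ₂ * (⌊(⌊r⌋₊ : ℝ) / Λ₂⌋₊ : ℝ) ≤ r ∧
      r ≤ 2 * Λ₂ * (⌊(⌊r⌋₊ : ℝ) / Λ₂⌋₊ : ℝ) := by
  have hn₀ : (0 : ℝ) ≤ n₀ := Nat.cast_nonneg _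
  have hΛ₂0 : 0 < Λ₂ := by linarith
  have h1 : 12 ≤ lam * a := by nlinarith
  have hr0 : 12 ≤ r := h1.trans hr1
  have h2 := Nat.lt_floor_add_one r
  have h3 : (⌊r⌋₊ : ℝ) ≤ r := Nat.floor_le (by linarith)
  set ρ : ℝ := (⌊r⌋₊ : ℝ) with hρ
  have h4 := Nat.lt_floor_add_one (ρ / Λ₂)
  have h5 : (⌊ρ / Λ₂⌋₊ : ℝ) ≤ ρ / Λ₂ := Nat.floor_le (by positivity)
  rw [div_lt_iff₀ hΛ₂0] at h4
  rw [le_div_iff₀ hΛ₂0] at h5
  refine ⟨by linarith, h3, by linarith, ?_, by linarith, ?_⟩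
  · refine Nat.le_floor ?_
    rw [le_div_iff₀ hΛ₂0]
    nlinarith
  · nlinarith

/-- the constants independent of `ε` -/
structure CohConst (M : RModel S Γ V k) (K : ℝ) (Φ₁ : Finset (Ht k →L[ℝ] ℝ))
    (V₁ : Finset (Fin k → ℤ)) (L c₁ t₀ t₁ δr δ₁ VB B : ℝ) : Prop where
  L1 : 1 ≤ L
  c₁0 : 0 < c₁
  c₁L : c₁⁻¹ ≤ L
  t₀0 : 0 < t₀
  δr0 : 0 < δr
  δ₁0 : 0 < δ₁
  δ₁' : ∀ v ∈ V₁, ∀ b ∈ Φ₁, δ₁ ≤ |b (ht v)|
  VB0 : 0 < VB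
  VB' : ∀ v ∈ V₁, ‖(ht v : Ht k)‖ ≤ VB
  B0 : 0 < B
  B' : ∀ b ∈ Φ₁, ‖b‖ ≤ B
  ray : ∀ δ : ℝ, δ ≤ δr → ∀ T : Ht k →L[ℝ] Ht k, ‖T‖ ≤ L → (∀ w, c₁ * ‖w‖ ≤ ‖T w‖) →
      (∀ b ∈ Φ₁, ∃ b' ∈ M.Φ, ∃ t : ℝ, 0 ≤ t ∧ ‖b.comp T - t • b'‖ ≤ δ) →
      ∃ β t, RayLin Φ₁ T β t t₀ t₁ δ

theorem exists_cohConst (M : RModel S Γ V k) (K : ℝ) {Φ₁ : Finset (Ht k →L[ℝ] ℝ)}
    (hΦ₁ : M.Rays Φ₁) {V₁ : Finset (Fin k → ℤ)} (hV₁ : M.Dirs Φ₁ V₁) {Lm c₁ : ℝ}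
    (hc₁ : 0 < c₁) :
    ∃ L t₀ t₁ δr δ₁ VB B : ℝ, Lm ≤ L ∧ M.CohConst K Φ₁ V₁ L c₁ t₀ t₁ δr δ₁ VB B := by
  obtain ⟨L, hL⟩ : ∃ L : ℝ, L = max 1 (max Lm c₁⁻¹) := ⟨_, rfl⟩
  have hL1 : 1 ≤ L := by rw [hL]; exact le_max_left _ _
  obtain ⟨t₀, t₁, δr, ht₀, ht₁, hδr, Hr⟩ := exists_rayLin M.Φ Φ₁ M.Φ_ne hΦ₁.sub hΦ₁.ex hΦ₁.uniq
    (L := L) (by linarith) hc₁
  obtain ⟨δ₁, hδ₁, hδ₁'⟩ := exists_min_pair Φ₁ V₁ fun b hb v hv =>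
    hV₁.generic v hv b (M.Φ_sub (hΦ₁.sub hb)) (M.Φ_ne b (hΦ₁.sub hb))
  obtain ⟨VB, hVB0, hVB⟩ := exists_max_ht V₁
  obtain ⟨B, hB0, hB⟩ := exists_max_norm Φ₁
  exact ⟨L, t₀, t₁, δr, δ₁, VB, B,
    by rw [hL]; exact (le_max_left _ _).trans (le_max_right _ _),
    ⟨hL1, hc₁, by rw [hL]; exact (le_max_right _ _).trans (le_max_right _ _), ht₀, hδr, hδ₁,
      hδ₁', hVB0, hVB, hB0, hB, Hr⟩⟩

/-- the parameters depending on `ε` -/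
theorem exists_par (M : RModel S Γ V k) (hRAY : M.RAY) (K : ℝ) {Φ₁ : Finset (Ht k →L[ℝ] ℝ)}
    (hΦ₁ : M.Rays Φ₁) {V₁ : Finset (Fin k → ℤ)} (hV₁ : M.Dirs Φ₁ V₁)
    {L c₁ t₀ t₁ δr δ₁ VB B : ℝ} (h : M.CohConst K Φ₁ V₁ L c₁ t₀ t₁ δr δ₁ VB B) {κψ κ' : ℝ}
    (hκψ : 0 < κψ) (hκ' : 0 < κ') :
    ∃ q : Par, q.L = L ∧ q.c₁ = c₁ ∧ q.t₀ = t₀ ∧ 0 < q.δ ∧
      t₀ * δ₁ / 2 + q.δ * VB ≤ q.t₀ * δ₁ ∧
      ∃ Λ₂ : ℝ, 1 ≤ Λ₂ ∧ ∃ (ε₀ Cf : ℝ) (n₀ : ℕ), 0 < ε₀ ∧ ∀ n : ℕ, n₀ ≤ n →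
      (∀ T₁ T₂ : Ht k →L[ℝ] Ht k, M.GT Φ₁ q n T₁ → M.GT Φ₁ q n T₂ →
        patF Φ₁ V₁ T₁ = patF Φ₁ V₁ T₂ → ‖T₂ - T₁‖ ≤ κψ) ∧
      ∀ r : ℝ, Λ₂ * n ≤ r → r ≤ 2 * Λ₂ * n → ∀ ε' κ R : ℝ, 0 ≤ ε' → ε' ≤ ε₀ → 0 ≤ κ → κ ≤ ε₀ →
      Cf * r ≤ R → ∀ (F F' : Γ → Γ) (D Dp D₀ : Set S) (T : S → Ht k →L[ℝ] Ht k),
      M.LinOn K q.L ε' κ r R F F' D Dp D₀ T → (∀ x ∈ D₀, ∀ w, q.c₁ * ‖w‖ ≤ ‖T x w‖) →
      M.μ.real {x ∈ D | x ∈ D₀ ∧ ¬ M.GT Φ₁ q n (T x)} ≤ κ' * M.μ.real D := by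
  have hL1 := h.L1
  obtain ⟨P, W, εp, δp, np, hεp, hδp, hP, Hpsi⟩ := psi_pat M.md Φ₁ hΦ₁.span hΦ₁.crossed
    (2 * M.cnt K) (M.stp K) (C := L) (L := L) (t₀ := t₀) t₁ (by unfold stp; omega) h.L1 h.L1
    h.t₀0 hκψ
  obtain ⟨δ, hδ⟩ : ∃ δ : ℝ, δ = min (min δr δp) (t₀ * δ₁ / (2 * VB)) := ⟨_, rfl⟩
  have ht₀0 := h.t₀0
  have hδ₁0 := h.δ₁0
  have hVB0 := h.VB0
  have hδ0 : 0 < δ := by
    rw [hδ]
    exact lt_min (lt_min h.δr0 hδp) (by positivity)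
  have hδ1 : δ ≤ δr := by rw [hδ]; exact (min_le_left _ _).trans (min_le_left _ _)
  have hδ2 : δ ≤ δp := by rw [hδ]; exact (min_le_left _ _).trans (min_le_right _ _)
  have hδ3 : δ * VB ≤ t₀ * δ₁ / 2 := by
    have : δ ≤ t₀ * δ₁ / (2 * VB) := by rw [hδ]; exact min_le_right _ _
    rw [le_div_iff₀ (by positivity)] at this
    linarith
  obtain ⟨q, hq⟩ : ∃ q : Par, q = ⟨L, c₁, t₀, t₁, δ, L, W, εp, 2 * M.cnt K, M.stp K, P⟩ := ⟨_, rfl⟩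
  have q1 : q.L = L := by rw [hq]
  have q2 : q.c₁ = c₁ := by rw [hq]
  have q3 : q.t₀ = t₀ := by rw [hq]
  have q4 : q.δ = δ := by rw [hq]
  have q5 : q.t₁ = t₁ := by rw [hq]
  have q6 : q.C = L := by rw [hq]
  obtain ⟨Λ₂, hΛ₂, ε₀, Cf, n₀, hε₀, HG⟩ := most_GT M hRAY K hΦ₁ q (by rw [q1]; linarith)
    (by rw [q2]; exact h.c₁0) (by rw [q4]; exact hδ0) (by rw [q6]; exact h.L1)
    (by rw [q1, q6]) (by rw [q2, q6]; exact h.c₁L) (by rw [hq]; exact hεp) (by rw [hq])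
    (by rw [hq]) (by rw [hq]; exact hP)
    (by rw [q1, q2, q3, q4, q5]; exact h.ray δ hδ1) hκ'
  refine ⟨q, q1, q2, q3, by rw [q4]; exact hδ0, by rw [q3, q4]; linarith, Λ₂, hΛ₂, ε₀, Cf,
    max n₀ np, hε₀, fun n hn => ⟨?_, HG n ((le_max_left _ _).trans hn)⟩⟩
  intro T₁ T₂ g1 g2 hpat
  refine g1.close g2 hΦ₁ hV₁ (κ := κψ) h.δ₁0 h.δ₁' h.VB' (c₀ := t₀ * δ₁ / 2) (VB := VB)
    (by rw [q3]; exact h.t₀0.le) (by rw [q4]; exact hδ0.le) (by positivity)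
    (by rw [q3, q4]; linarith) (by rw [q1, q2]; exact h.c₁L) ?_ hpat
  have := Hpsi δ hδ2 n ((le_max_right _ _).trans hn)
  rw [hq]
  exact this

end RModel

end Vale.Agent.P188.Z1

end

section

/-!
# P188, Z1, block STRAIGHT, part G: neutral flatness with constants independent of the fatness
-/

set_option linter.all false

open MeasureTheory Set
open scoped ENNReal
open Vale.P188.H654

namespace Vale.Agent.P188.Z1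

/-- in an increasing tower of sets of finite measure either one step is small, or the first set is
small -/
theorem ln_tower {S : Type} [MeasurableSpace S] {μ : Measure S} (D : ℕ → Set S) (N : ℕ)
    (h : ∀ j < N, 2 * μ (D j) < μ (D (j + 1))) : 2 ^ N * μ (D 0) ≤ μ (D N) := by
  induction N with
  | zero => simp
  | succ N ih =>
    have h1 := ih fun j hj => h j (by omega)
    have h2 := h N (by omega)
    calc 2 ^ (N + 1) * μ (D 0) = 2 * (2 ^ N * μ (D 0)) := by ring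
      _ ≤ 2 * μ (D N) := mul_le_mul_right h1 _
      _ ≤ μ (D (N + 1)) := h2.le

namespace RModel

variable {S : Type} [Group S] [MeasurableSpace S] {Γ : Type} [Group Γ]
  {V : Type} [AddCommGroup V] [Module ℝ V] {k : ℕ} (M : RModel S Γ V k)

/-- **Neutral flatness in the inner sets**: the size `e ^ (dm s)` of the neutral moves does not
depend on the fatness of `D`. -/
theorem ln_nf2 (hN : M.NFp) (K κ ε κ₁ : ℝ) (hκ : 0 < κ) (hε : 0 < ε) (hκ₁ : 0 < κ₁) :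
    ∃ dm c s₀ : ℝ, 0 < dm ∧ 0 < c ∧ ∀ s : ℝ, s₀ ≤ s → ∀ F F' : Γ → Γ, M.QIm K F F' →
      ∀ D : Set S, M.μ D ≠ ⊤ →
      M.μ (M.In (κ₁ * s) D) ≤ ENNReal.ofReal ε * M.μ D ∨
      ∀ y ∈ M.Vw 0, M.nm y ≤ Real.exp (dm * s) → ∀ Din : Set S,
        (∀ z ∈ Din, ∀ x : ℝ, 0 ≤ x → x ≤ 1 → z * M.ex (x • y) ∈ M.In (3 / 4 * (κ₁ * s)) D) →
        M.μ {x | x ∈ Din ∧ κ * s < ‖M.f F (x * M.ex y) - M.f F x‖} ≤
          ENNReal.ofReal (Real.exp (-(c * s))) * M.μ D := by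
  obtain ⟨δN, c₀, CR, r₀, hδN, hc₀, hNF⟩ := hN K κ 1 hκ
  have hC0 := M.ln_C0
  obtain ⟨CR', hCR'⟩ : ∃ CR', CR' = max CR 1 := ⟨_, rfl⟩
  have hCR'1 : 1 ≤ CR' := by rw [hCR']; exact le_max_right _ _
  have hCRC : CR ≤ CR' := by rw [hCR']; exact le_max_left _ _
  -- number of steps
  obtain ⟨Nt, hNt⟩ : ∃ Nt : ℕ, 1 / ε < 2 ^ Nt := pow_unbounded_of_one_lt _ (by norm_num)
  have hNt1 : (0 : ℝ) < Nt + 1 := by positivity
  obtain ⟨cr, hcr⟩ : ∃ cr, cr = min 1 (κ₁ / (8 * (Nt + 1) * CR')) := ⟨_, rfl⟩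
  have hcr0 : 0 < cr := by rw [hcr]; exact lt_min one_pos (by positivity)
  have hcr1 : cr ≤ 1 := by rw [hcr]; exact min_le_left _ _
  have hcr2 : (Nt + 1) * (CR' * cr) ≤ κ₁ / 8 := by
    have h1 : cr ≤ κ₁ / (8 * (Nt + 1) * CR') := by rw [hcr]; exact min_le_right _ _
    rw [le_div_iff₀ (by positivity)] at h1
    linarith
  refine ⟨δN * cr, c₀ * cr, max 0 (max (|r₀| / cr) (8 * (2 * (Nt + 1) * M.C0 + M.C0) / κ₁)),
    by positivity, by positivity, ?_⟩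
  intro s hs F F' hQ D hDfin
  have hs0 : 0 ≤ s := (le_max_left _ _).trans hs
  have t4 : |r₀| / cr ≤ s := (le_max_left _ _).trans ((le_max_right _ _).trans hs)
  have t5 : 8 * (2 * (Nt + 1) * M.C0 + M.C0) / κ₁ ≤ s :=
    (le_max_right _ _).trans ((le_max_right _ _).trans hs)
  rw [div_le_iff₀ hcr0] at t4
  rw [div_le_iff₀ hκ₁] at t5
  obtain ⟨r, hr⟩ : ∃ r, r = cr * s := ⟨_, rfl⟩
  have hr0 : r₀ ≤ r := by rw [hr]; exact (le_abs_self _).trans (by linarith)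
  have hrs : r ≤ s := by rw [hr]; exact mul_le_of_le_one_left hs0 hcr1
  have hrp : 0 ≤ r := by rw [hr]; positivity
  obtain ⟨w, hw⟩ : ∃ w, w = 2 * M.C0 + CR' * r := ⟨_, rfl⟩
  have hw0 : 0 ≤ w := by rw [hw]; have : 0 ≤ CR' * r := mul_nonneg (by linarith) hrp; linarith
  have hNw : (Nt + 1) * w + M.C0 ≤ κ₁ * s / 2 := by
    have h1 : (Nt + 1) * (CR' * r) ≤ κ₁ / 8 * s := by
      rw [hr]
      have := mul_le_mul_of_nonneg_right hcr2 hs0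
      linarith
    have h2 : 0 ≤ κ₁ * s := by positivity
    rw [hw]
    linarith
  -- the tower
  set DD : ℕ → Set S := fun j => M.lnC (κ₁ * s / 2 - j * w) D with hDD
  have hrad : ∀ j : ℕ, j ≤ Nt → M.C0 ≤ κ₁ * s / 2 - j * w := by
    intro j hj
    have h1 : (j : ℝ) * w ≤ (Nt + 1) * w := by
      refine mul_le_mul_of_nonneg_right ?_ hw0
      have : (j : ℝ) ≤ Nt := by exact_mod_cast hj
      linarith
    linarith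
  have hDsub : ∀ j ≤ Nt, DD j ⊆ D := fun j hj => M.ln_C_sub (hrad j hj)
  have hin : ∀ j : ℕ, M.In (3 / 4 * (κ₁ * s)) D ⊆ DD j := by
    intro j z hz
    refine M.ln_mem_C hz ?_
    have h1 : 0 ≤ (j : ℝ) * w := by positivity
    have h2 : 8 * M.C0 ≤ s * κ₁ := by
      have : 0 ≤ 8 * (2 * (Nt + 1) * M.C0) := by positivity
      linarith
    linarith
  have hin0 : M.In (κ₁ * s) D ⊆ DD 0 :=
    (ln_In_mono (by have : 0 ≤ κ₁ * s := by positivity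
                    linarith)).trans (hin 0)
  have hstep : ∀ j, ∀ z ∈ DD j, ∀ g, (M.l g : ℝ) ≤ CR * r → z * g ∈ DD (j + 1) := by
    intro j z hz g hg
    refine M.ln_C_C hz ?_
    have h1 : CR * r ≤ CR' * r := mul_le_mul_of_nonneg_right hCRC hrp
    push_cast
    rw [hw] at *
    linarith
  by_cases hsmall : M.μ (DD 0) ≤ ENNReal.ofReal ε * M.μ D
  · exact Or.inl ((measure_mono hin0).trans hsmall)
  right
  have hex : ∃ j < Nt, M.μ (DD (j + 1)) ≤ 2 * M.μ (DD j) := by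
    by_contra hcon
    push Not at hcon
    apply hsmall
    have h1 := (ln_tower (μ := M.μ) DD Nt hcon).trans (measure_mono (hDsub Nt le_rfl))
    have h2 : (1 : ℝ≥0∞) ≤ ENNReal.ofReal ε * 2 ^ Nt := by
      have h3 : (2 : ℝ≥0∞) ^ Nt = ENNReal.ofReal (2 ^ Nt) := by
        rw [ENNReal.ofReal_pow (by norm_num)]; norm_num
      rw [h3, ← ENNReal.ofReal_mul hε.le, ← ENNReal.ofReal_one]
      refine ENNReal.ofReal_le_ofReal ?_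
      rw [div_lt_iff₀ hε] at hNt
      linarith
    calc M.μ (DD 0) = 1 * M.μ (DD 0) := (one_mul _).symm
      _ ≤ ENNReal.ofReal ε * 2 ^ Nt * M.μ (DD 0) := mul_le_mul_left h2 _
      _ = ENNReal.ofReal ε * (2 ^ Nt * M.μ (DD 0)) := by ring
      _ ≤ ENNReal.ofReal ε * M.μ D := mul_le_mul_right h1 _
  obtain ⟨j, hj, hjμ⟩ := hex
  intro y hy hyn Din hDin
  have hmono0 : DD 0 ⊆ DD j := by
    have : ∀ i, DD 0 ⊆ DD i := by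
      intro i z hz
      have h1 : M.inG (M.fl z) ∈ M.In (κ₁ * s / 2 - (0 : ℕ) * w) D := hz
      show M.inG (M.fl z) ∈ M.In (κ₁ * s / 2 - i * w) D
      refine ln_In_mono ?_ h1
      have : 0 ≤ (i : ℝ) * w := by positivity
      push_cast
      linarith
    exact this j
  have hpos : M.μ (DD j) ≠ 0 := by
    intro h0
    apply hsmall
    have : M.μ (DD 0) ≤ 0 := (measure_mono hmono0).trans h0.le
    exact this.trans bot_le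
  have hFat : M.Fat (CR * r) 1 (DD j) (DD (j + 1)) :=
    { meas := M.ln_C_meas _ _
      meas' := M.ln_C_meas _ _
      pos := hpos
      fin := ne_top_of_le_ne_top hDfin (measure_mono (hDsub j hj.le))
      sub := hstep j
      le := hjμ.trans (le_of_eq (by norm_num)) }
  have h1 := hNF r hr0 F F' hQ (DD j) (DD (j + 1)) hFat y hy (by
    refine hyn.trans (Real.exp_le_exp.2 ?_)
    rw [hr, mul_assoc]) Din (fun z hz x hx0 hx1 => hin j (hDin z hz x hx0 hx1))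
  calc M.μ {x | x ∈ Din ∧ κ * s < ‖M.f F (x * M.ex y) - M.f F x‖}
      ≤ M.μ {x | x ∈ Din ∧ κ * r < ‖M.f F (x * M.ex y) - M.f F x‖} := by
        refine measure_mono fun x hx => ⟨hx.1, lt_of_le_of_lt ?_ hx.2⟩
        exact mul_le_mul_of_nonneg_left hrs hκ.le
    _ ≤ ENNReal.ofReal (Real.exp (-(c₀ * r))) * M.μ (DD j) := h1
    _ ≤ ENNReal.ofReal (Real.exp (-(c₀ * cr * s))) * M.μ D := by
        rw [hr, mul_assoc]
        exact mul_le_mul_right (measure_mono (hDsub j hj.le)) _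

end RModel

end Vale.Agent.P188.Z1

end

section

/-!
# P188, Z1, block COH: `LIN` and `RAY` imply `COH`
-/

set_option linter.all false

open MeasureTheory Set
open scoped ENNReal

namespace Vale.Agent.P188.Z1

namespace RModel

variable {S : Type} [Group S] [MeasurableSpace S] {Γ : Type} [Group Γ]
  {V : Type} [AddCommGroup V] [Module ℝ V] {k : ℕ} {M : RModel S Γ V k}

/-- choice of the precision of `LIN` -/
theorem exists_epsL {εi ε₀ ε c₀ B VB Ci kk : ℝ} (hεi : 0 < εi) (hε₀ : 0 < ε₀) (hε : 0 < ε)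
    (hc₀ : 0 < c₀) (hB : 0 < B) (hVB : 0 < VB) (hCi : 0 ≤ Ci) (hk : 0 ≤ kk) :
    ∃ εL : ℝ, 0 < εL ∧ εL ≤ 1 ∧ εL ≤ εi ∧ (1 + 2 * kk + 2 * Ci) * εL ≤ ε₀ ∧
      (1 + 2 * kk + 2 * Ci) * εL ≤ ε / 2 ∧ 2 * εL ≤ ε / 4 ∧ B * (εL * VB) < c₀ := by
  have hE : 0 < 1 + 2 * kk + 2 * Ci := by positivity
  refine ⟨min (min (min 1 εi) (min ε₀ (ε / 2) / (1 + 2 * kk + 2 * Ci)))
    (min (ε / 8) (c₀ / (2 * (B * VB)))), ?_, ?_, ?_, ?_, ?_, ?_, ?_⟩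
  · exact lt_min (lt_min (lt_min one_pos hεi) (div_pos (lt_min hε₀ (by positivity)) hE))
      (lt_min (by positivity) (by positivity))
  · exact (min_le_left _ _).trans ((min_le_left _ _).trans (min_le_left _ _))
  · exact (min_le_left _ _).trans ((min_le_left _ _).trans (min_le_right _ _))
  · have h1 : min (min (min 1 εi) (min ε₀ (ε / 2) / (1 + 2 * kk + 2 * Ci)))
      (min (ε / 8) (c₀ / (2 * (B * VB)))) ≤ min ε₀ (ε / 2) / (1 + 2 * kk + 2 * Ci) :=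
      (min_le_left _ _).trans (min_le_right _ _)
    rw [le_div_iff₀ hE] at h1
    have := min_le_left ε₀ (ε / 2)
    linarith
  · have h1 : min (min (min 1 εi) (min ε₀ (ε / 2) / (1 + 2 * kk + 2 * Ci)))
      (min (ε / 8) (c₀ / (2 * (B * VB)))) ≤ min ε₀ (ε / 2) / (1 + 2 * kk + 2 * Ci) :=
      (min_le_left _ _).trans (min_le_right _ _)
    rw [le_div_iff₀ hE] at h1
    have := min_le_right ε₀ (ε / 2)
    linarith
  · have h1 : min (min (min 1 εi) (min ε₀ (ε / 2) / (1 + 2 * kk + 2 * Ci)))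
      (min (ε / 8) (c₀ / (2 * (B * VB)))) ≤ ε / 8 := (min_le_right _ _).trans (min_le_left _ _)
    linarith
  · have h1 : min (min (min 1 εi) (min ε₀ (ε / 2) / (1 + 2 * kk + 2 * Ci)))
      (min (ε / 8) (c₀ / (2 * (B * VB)))) ≤ c₀ / (2 * (B * VB)) :=
      (min_le_right _ _).trans (min_le_right _ _)
    rw [le_div_iff₀ (by positivity)] at h1
    nlinarith

/-- **COH.** -/
theorem coh_of (M : RModel S Γ V k) (hLIN : M.LIN) (hRAY : M.RAY) : M.COH := by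
  intro p K Φ₁ hΦ₁ V₁ hV₁
  obtain ⟨Ln, rn, hLn0, Hn⟩ := normT M K
  obtain ⟨c₁, εi, Ci, ri, hc₁, hεi, hCi, Hi⟩ := M.invT K
  obtain ⟨L, t₀, t₁, δr, δ₁, VB, B, hLnL, hc⟩ := exists_cohConst M K hΦ₁ hV₁ (Lm := Ln) hc₁
  have hc₀ : 0 < t₀ * δ₁ / 2 := by
    have := hc.t₀0
    have := hc.δ₁0
    positivity
  refine ⟨t₀ * δ₁ / 2, L, hc₀, fun ε hε => ?_⟩
  have hC0 := M.C0_nn
  have hC1 := M.one_le_C0
  have hk0 : (0 : ℝ) ≤ k := Nat.cast_nonneg _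
  obtain ⟨q, q1, q2, q3, q4, q5, Λ₂, hΛ₂, ε₀, Cf, n₀, hε₀, H⟩ := exists_par M hRAY K hΦ₁ hV₁ hc
    (κψ := ε / (4 * M.C0)) (κ' := ε / 2) (by positivity) (by positivity)
  obtain ⟨εL, l0, l1, l2, l3, l4, l5, l6⟩ := exists_epsL hεi hε₀ hε hc₀ hc.B0 hc.VB0 hCi hk0
  obtain ⟨κL, lamL, CRL, hκL, hlamL, hlamL1, HLIN⟩ := hLIN p K εL l0
  refine ⟨min κL εL, lamL / 2, max CRL (max |Cf| 1), lt_min hκL l0, by positivity, by linarith,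
    fun δf hδf => ?_⟩
  obtain ⟨δ', aL, hδ'0, hδ'δ, HL⟩ := HLIN δf hδf
  refine ⟨δ', max (max aL 0) (max (max rn ri) (4 * Λ₂ * ((n₀ : ℝ) + 3)) / lamL), hδ'0, hδ'δ,
    fun ρ s => M.selT Φ₁ V₁ q ⌊(ρ : ℝ) / Λ₂⌋₊ s, ?_⟩
  intro a ha F F' D Dp hqi hfat
  obtain ⟨ha1, ha2⟩ := max_le_iff.mp ha
  obtain ⟨ha3, ha4⟩ := max_le_iff.mp ha1
  rw [div_le_iff₀ hlamL, mul_comm a lamL] at ha2
  obtain ⟨ha5, ha6⟩ := max_le_iff.mp ha2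
  obtain ⟨ha7, ha8⟩ := max_le_iff.mp ha5
  have hCR1 : CRL * a ≤ max CRL (max |Cf| 1) * a :=
    mul_le_mul_of_nonneg_right (le_max_left _ _) ha4
  obtain ⟨r, hr1, hr2, Hα⟩ := HL a ha3 F F' D Dp hqi fun α =>
    (hfat α).mono hCR1 (mul_le_mul_of_nonneg_left hCR1 hδf.le) (min_le_left _ _)
  obtain ⟨s1, s2, s3, s4, s5, s6⟩ := coh_scale hΛ₂ hlamL hr1 ha6
  refine ⟨⌊r⌋₊, s1, s2.trans hr2, fun α => ?_⟩
  obtain ⟨D₀, T, hD₀D, hD₀m, hD₀, hlin⟩ := Hα α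
  have hr0 : 0 ≤ r := (Nat.cast_nonneg _).trans s2
  have hκ0 : 0 ≤ min κL εL := (lt_min hκL l0).le
  have hκl : min κL εL ≤ εL := min_le_right _ _
  have hRr : r ≤ max CRL (max |Cf| 1) * a := by
    refine hr2.trans ?_
    have : 1 * a ≤ max CRL (max |Cf| 1) * a :=
      mul_le_mul_of_nonneg_right ((le_max_right _ _).trans (le_max_right _ _)) ha4
    linarith
  have hRC : Cf * r ≤ max CRL (max |Cf| 1) * a := by
    calc Cf * r ≤ |Cf| * r := mul_le_mul_of_nonneg_right (le_abs_self _) hr0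
      _ ≤ max CRL (max |Cf| 1) * r :=
          mul_le_mul_of_nonneg_right ((le_max_left _ _).trans (le_max_right _ _)) hr0
      _ ≤ _ := mul_le_mul_of_nonneg_left hr2
          (zero_le_one.trans ((le_max_right _ _).trans (le_max_right _ _)))
  have hfr : M.Fat r (min κL εL) (D α) (Dp α) := (hfat α).toFat.mono hRr le_rfl
  have hlin1 : ∀ x ∈ D₀, ∀ x' ∈ D₀, (M.l (x⁻¹ * x') : ℝ) ≤ r →
      ‖M.f (F α) x' - M.f (F α) x - T x (M.θ (x⁻¹ * x'))‖ ≤ εL * r ∧ ‖T x' - T x‖ ≤ εL :=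
    fun x hx x' hx' hl => hlin x hx x' hx' (Or.inl hl)
  have hnorm := Hn r (ha7.trans hr1) εL l0.le l1 _ hκ0 (F α) (F' α) (hqi α) (D α) (Dp α) D₀ hfr
    hD₀D hD₀ T fun x hx x' hx' hl => (hlin1 x hx x' hx' hl).1
  have hinv := Hi r (ha8.trans hr1) εL l0.le l2 _ hκ0 (F α) (F' α) (hqi α) (D α) (Dp α) D₀ hfr
    hD₀D hD₀m hD₀ T fun x hx x' hx' hl => (hlin1 x hx x' hx' hl).1
  have hnorm' : M.μ {x | x ∈ D₀ ∧ ¬ ‖T x‖ ≤ q.L} ≤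
      ENNReal.ofReal (k * (εL + min κL εL)) * M.μ (D α) := by
    refine (measure_mono ?_).trans hnorm
    rintro x ⟨hx, h1⟩
    exact ⟨hx, fun h2 => h1 (h2.trans (by rw [q1]; exact hLnL))⟩
  rw [← q2] at hinv
  obtain ⟨D₁, d1, d2, d3, d4⟩ := coh_set (M := M) (ε' := (1 + 2 * (k : ℝ) + 2 * Ci) * εL)
    (κ' := ε / 2) (R := max CRL (max |Cf| 1) * a) (ε := ε)
    (M.GT Φ₁ q ⌊(⌊r⌋₊ : ℝ) / Λ₂⌋₊) (hqi α) (hfat α).toFat hD₀D hD₀ l0.le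
    (by positivity) (by positivity) hr0 hnorm' hinv hlin1
    (by
      have h1 : (k : ℝ) * (εL + min κL εL) ≤ k * (εL + εL) := by gcongr
      have h2 : Ci * (εL + min κL εL) ≤ Ci * (εL + εL) := by gcongr
      linarith)
    (fun Da hDa hDa' => (H _ s4).2 r s5 s6 _ _ _ (by positivity) l3 hκ0
      (hκl.trans (le_trans (by nlinarith) l3)) hRC (F α) (F' α) (D α) (Dp α) Da T hDa hDa')
    (by positivity) (by linarith)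
  refine ⟨D₁, fun x => patF Φ₁ V₁ (T x), d1.trans hD₀D, d2, d3, ?_⟩
  have key := coh_alpha (M := M) hΦ₁ hV₁ (κ := ε / (4 * M.C0)) (εL := εL) (ε := ε) (r := r)
    (δ' := δ') (ρ := ⌊r⌋₊) hc.δ₁0 hc.δ₁' hc.VB' (by rw [q3]; exact hc.t₀0.le) q4.le hc₀ q5
    hc.B' hc.B0.le l6 s2 s3 l0.le (by
      have : ε / (4 * M.C0) * M.C0 = ε / 4 := by field_simp
      linarith) (H _ s4).1 d1 d4 hlin hδ'0.le
  rw [q1] at key
  exact key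

end RModel

end Vale.Agent.P188.Z1

end

section

/-!
# P188, Z1, block LAB, part 6: translations, flat slices, labels
-/

set_option linter.all false

open MeasureTheory Set Filter
open scoped ENNReal
open Vale.Agent.P188.H540 (vec)

namespace Vale.Agent.P188.Z1.Lab

variable {S : Type} [Group S] [MeasurableSpace S] {Γ : Type} [Group Γ]
  {V : Type} [AddCommGroup V] [Module ℝ V] {k : ℕ} {M : RModel S Γ V k}

open RModel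

/-! ### translations -/

/-- the map `F`, read at the location `Y` -/
def trL (M : RModel S Γ V k) (Y : S) (F : Γ → Γ) (g : Γ) : Γ := F (M.fl (Y * M.inG g))

/-- the inverse map -/
def trR (M : RModel S Γ V k) (Y : S) (F' : Γ → Γ) (g : Γ) : Γ := M.fl (Y⁻¹ * M.inG (F' g))

noncomputable def K2 (M : RModel S Γ V k) (K : ℝ) : ℝ := K * (2 * M.C0 + 1) + K + 2 * M.C0

noncomputable def cT (M : RModel S Γ V k) (K : ℝ) : ℝ := M.C0 * (K * (3 * M.C0 + 1))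

theorem fl_dist (M : RModel S Γ V k) (x y : S) :
    (M.l (M.inG ((M.fl x)⁻¹ * M.fl y)) : ℝ) ≤ M.l (x⁻¹ * y) + 2 * M.C0 := by
  have t1 := M.fl_close x
  have t2 := M.fl_close y
  have t3 := M.l_triR (M.inG (M.fl x)) x (M.inG (M.fl y))
  have t4 := M.l_triR x y (M.inG (M.fl y))
  have t5 : (M.l (y⁻¹ * M.inG (M.fl y)) : ℝ) = M.l ((M.inG (M.fl y))⁻¹ * y) := by rw [M.l_comm]
  rw [map_mul, map_inv]
  linarith

theorem lip' {K : ℝ} {F F' : Γ → Γ} (h : M.QIm K F F') (a b : Γ) :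
    (M.l (M.inG ((F a)⁻¹ * F b)) : ℝ) ≤ K * (M.l (M.inG (a⁻¹ * b)) + 1) := by
  have := h.lip a (a⁻¹ * b)
  rwa [mul_inv_cancel_left] at this

theorem l_inG_tri (a b c : Γ) :
    (M.l (M.inG (a⁻¹ * c)) : ℝ) ≤ M.l (M.inG (a⁻¹ * b)) + M.l (M.inG (b⁻¹ * c)) := by
  have := M.l_triR (M.inG a) (M.inG b) (M.inG c)
  simpa only [map_mul, map_inv] using this

theorem QIm_trL {K : ℝ} {F F' : Γ → Γ} (h : M.QIm K F F') (Y : S) :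
    M.QIm (K2 M K) (trL M Y F) (trR M Y F') := by
  have hK := h.K_nonneg
  have hC0 := M.C0_pos
  refine ⟨fun g y => ?_, fun g y => ?_, fun g => ?_, fun g => ?_⟩
  · have h1 := lip' h (M.fl (Y * M.inG g)) (M.fl (Y * M.inG (g * y)))
    have h2 := fl_dist M (Y * M.inG g) (Y * M.inG (g * y))
    have h3 : (Y * M.inG g)⁻¹ * (Y * M.inG (g * y)) = M.inG y := by rw [map_mul]; group
    rw [h3] at h2
    have hy : (0 : ℝ) ≤ M.l (M.inG y) := Nat.cast_nonneg _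
    refine h1.trans ?_
    calc K * ((M.l (M.inG ((M.fl (Y * M.inG g))⁻¹ * M.fl (Y * M.inG (g * y)))) : ℝ) + 1)
        ≤ K * (M.l (M.inG y) + 2 * M.C0 + 1) := mul_le_mul_of_nonneg_left (by linarith) hK
      _ ≤ K2 M K * (M.l (M.inG y) + 1) := by
        unfold K2
        have h4 : 0 ≤ K * (2 * M.C0) * M.l (M.inG y) := by positivity
        have h5 : 0 ≤ (K + 2 * M.C0) * (M.l (M.inG y) + 1) := by positivity
        nlinarith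
  · have h1 := h.lip' g y
    have h2 := fl_dist M (Y⁻¹ * M.inG (F' g)) (Y⁻¹ * M.inG (F' (g * y)))
    have h3 : (Y⁻¹ * M.inG (F' g))⁻¹ * (Y⁻¹ * M.inG (F' (g * y))) =
        M.inG ((F' g)⁻¹ * F' (g * y)) := by rw [map_mul, map_inv]; group
    rw [h3] at h2
    have hy : (0 : ℝ) ≤ M.l (M.inG y) := Nat.cast_nonneg _
    refine (h2.trans (add_le_add_left h1 _)).trans ?_
    unfold K2
    have h4 : 0 ≤ K * (2 * M.C0 + 1) * (M.l (M.inG y) + 1) := by positivity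
    have h5 : 0 ≤ 2 * M.C0 * M.l (M.inG y) := by positivity
    nlinarith
  · have h1 := h.inv (M.fl (Y * M.inG g))
    set p := M.fl (Y * M.inG g) with hp
    have h2 := M.fl_close (Y⁻¹ * M.inG (F' (F p)))
    have h3 := M.fl_close (Y * M.inG g)
    have h4 := M.l_triR (M.inG g) (Y⁻¹ * M.inG (F' (F p)))
      (M.inG (M.fl (Y⁻¹ * M.inG (F' (F p)))))
    have h5 : (M.l ((Y⁻¹ * M.inG (F' (F p)))⁻¹ * M.inG (M.fl (Y⁻¹ * M.inG (F' (F p))))) : ℝ) =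
      M.l ((M.inG (M.fl (Y⁻¹ * M.inG (F' (F p)))))⁻¹ * (Y⁻¹ * M.inG (F' (F p)))) := by
      rw [M.l_comm]
    have h6 := M.l_triR (Y * M.inG g) (M.inG p) (M.inG (F' (F p)))
    have h7 : (Y * M.inG g)⁻¹ * M.inG (F' (F p)) = (M.inG g)⁻¹ * (Y⁻¹ * M.inG (F' (F p))) := by
      group
    have h8 : (M.l ((Y * M.inG g)⁻¹ * M.inG p) : ℝ) = M.l ((M.inG p)⁻¹ * (Y * M.inG g)) := by
      rw [M.l_comm]
    rw [h7, h8, ← map_inv M.inG p, ← map_mul] at h6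
    show (M.l (M.inG (g⁻¹ * M.fl (Y⁻¹ * M.inG (F' (F p))))) : ℝ) ≤ K2 M K
    rw [map_mul, map_inv]
    have h9 : (M.l (M.inG p⁻¹ * (Y * M.inG g)) : ℝ) = M.l ((M.inG p)⁻¹ * (Y * M.inG g)) := by
      rw [map_inv]
    unfold K2
    have h10 : 0 ≤ K * (2 * M.C0 + 1) := by positivity
    rw [← hp] at h3
    first
      | linarith
      | (rw [map_inv] at h6; linarith)
  · set q := M.fl (Y⁻¹ * M.inG (F' g)) with hq
    have h1 := M.fl_close (Y⁻¹ * M.inG (F' g))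
    rw [← hq] at h1
    have h2 := M.fl_close (Y * M.inG q)
    have h3 := M.l_triR (M.inG (F' g)) (Y * M.inG q) (M.inG (M.fl (Y * M.inG q)))
    have h4 : (M.l ((Y * M.inG q)⁻¹ * M.inG (M.fl (Y * M.inG q))) : ℝ) =
      M.l ((M.inG (M.fl (Y * M.inG q)))⁻¹ * (Y * M.inG q)) := by rw [M.l_comm]
    have h5 : (M.l ((M.inG (F' g))⁻¹ * (Y * M.inG q)) : ℝ) =
        M.l ((M.inG q)⁻¹ * (Y⁻¹ * M.inG (F' g))) := by
      rw [M.l_comm]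
      congr 2
      group
    have h6 := lip' h (F' g) (M.fl (Y * M.inG q))
    have h7 : (M.l (M.inG ((F' g)⁻¹ * M.fl (Y * M.inG q))) : ℝ) ≤ 2 * M.C0 := by
      rw [map_mul, map_inv]
      linarith
    have h8 := h.inv' g
    have h9 := l_inG_tri (M := M) g (F (F' g)) (F (M.fl (Y * M.inG q)))
    show (M.l (M.inG (g⁻¹ * F (M.fl (Y * M.inG q)))) : ℝ) ≤ K2 M K
    have h10 : K * ((M.l (M.inG ((F' g)⁻¹ * M.fl (Y * M.inG q))) : ℝ) + 1) ≤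
        K * (2 * M.C0 + 1) := mul_le_mul_of_nonneg_left (by linarith) hK
    unfold K2
    linarith

theorem f_trL {K : ℝ} {F F' : Γ → Γ} (h : M.QIm K F F') (Y z : S) :
    ‖M.f (trL M Y F) z - M.f F (Y * z)‖ ≤ cT M K := by
  have hK := h.K_nonneg
  have h1 := lip' h (M.fl (Y * z)) (M.fl (Y * M.inG (M.fl z)))
  have h2 := fl_dist M (Y * z) (Y * M.inG (M.fl z))
  have h3 : (Y * z)⁻¹ * (Y * M.inG (M.fl z)) = z⁻¹ * M.inG (M.fl z) := by group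
  rw [h3, M.l_comm] at h2
  have h4 := M.fl_close z
  refine (θ_inG_le M (g := F (M.fl (Y * z))) (g' := F (M.fl (Y * M.inG (M.fl z)))) h1).trans ?_
  unfold cT
  refine mul_le_mul_of_nonneg_left (mul_le_mul_of_nonneg_left ?_ hK) M.C0_pos.le
  linarith

/-! ### flat slices -/

/-- flat slices (the two clauses of FLATG) -/
def SF (B : M.NatBox) (h : (Ht k →L[ℝ] ℝ) → ℝ) (d₁ s c₁ ε κ A : ℝ) (g : S → Ht k)
    (T : Ht k →L[ℝ] Ht k) : Prop :=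
  ∃ c : Ht k, (∀ x : S, (M.l x : ℝ) ≤ c₁ * s →
      M.μ {v | v ∈ B.Bx (M.szh h d₁ s) ∧ ε * s < ‖g (v * x) - c - T (M.θ x)‖} ≤
        ENNReal.ofReal ε * M.μ (B.Bx (M.szh h d₁ s))) ∧
    (∀ n : ℕ, (n : ℝ) ≤ A * s → ∀ x ∈ M.CB n, (∀ b ∈ M.Φ, b (M.θ x) ≤ (1 - κ) * s * h b) →
      M.μ {v | v ∈ B.Bx (M.szh h d₁ s) ∧ ε * s < ‖g (v * x) - c - T (M.θ x)‖} ≤
        ENNReal.ofReal ε * M.μ (B.Bx (M.szh h d₁ s)))

theorem SF.congr {B : M.NatBox} {h : (Ht k →L[ℝ] ℝ) → ℝ} {d₁ s c₁ ε κ A : ℝ} {g g' : S → Ht k}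
    {T T' : Ht k →L[ℝ] Ht k} {ε' κ' A' δ' t X : ℝ} (hS : SF B h d₁ s c₁ ε κ A g T) (hs : 0 ≤ s)
    (hh : ∀ b ∈ M.Φ, 0 ≤ h b)
    (hε : ε ≤ ε') (hκ : κ ≤ κ') (hA : A' ≤ A) (hg : ∀ z, ‖g' z - g z‖ ≤ δ') (hT : ‖T' - T‖ ≤ t)
    (hX : ∀ x : S, (M.l x : ℝ) ≤ c₁ * s → ‖M.θ x‖ ≤ X)
    (hX' : ∀ n : ℕ, (n : ℝ) ≤ A' * s → ∀ x ∈ M.CB n, ‖M.θ x‖ ≤ X)
    (hsum : ε * s + δ' + t * X ≤ ε' * s) : SF B h d₁ s c₁ ε' κ' A' g' T' := by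
  obtain ⟨c, h1, h2⟩ := hS
  have key : ∀ x : S, ‖M.θ x‖ ≤ X →
      M.μ {v | v ∈ B.Bx (M.szh h d₁ s) ∧ ε * s < ‖g (v * x) - c - T (M.θ x)‖} ≤
        ENNReal.ofReal ε * M.μ (B.Bx (M.szh h d₁ s)) →
      M.μ {v | v ∈ B.Bx (M.szh h d₁ s) ∧ ε' * s < ‖g' (v * x) - c - T' (M.θ x)‖} ≤
        ENNReal.ofReal ε' * M.μ (B.Bx (M.szh h d₁ s)) := by
    intro x hx h3
    refine (measure_mono ?_).trans (h3.trans (by gcongr))
    rintro v ⟨hv, hv'⟩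
    refine ⟨hv, ?_⟩
    by_contra h4
    rw [not_lt] at h4
    have e : g' (v * x) - c - T' (M.θ x) = (g (v * x) - c - T (M.θ x)) +
        ((g' (v * x) - g (v * x)) - (T' - T) (M.θ x)) := by
      rw [ContinuousLinearMap.sub_apply]; abel
    rw [e] at hv'
    have n1 := norm_add_le (g (v * x) - c - T (M.θ x))
      ((g' (v * x) - g (v * x)) - (T' - T) (M.θ x))
    have n2 := norm_sub_le (g' (v * x) - g (v * x)) ((T' - T) (M.θ x))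
    have n3 := (T' - T).le_opNorm (M.θ x)
    have n4 : ‖T' - T‖ * ‖M.θ x‖ ≤ t * X :=
      mul_le_mul hT hx (norm_nonneg _) ((norm_nonneg _).trans hT)
    have n5 := hg (v * x)
    linarith
  refine ⟨c, fun x hx => key x (hX x hx) (h1 x hx), fun n hn x hx hb => ?_⟩
  have hn' : (n : ℝ) ≤ A * s := hn.trans (mul_le_mul_of_nonneg_right hA hs)
  refine key x (hX' n hn x hx) (h2 n hn' x hx fun b hb' => (hb b hb').trans ?_)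
  refine mul_le_mul_of_nonneg_right (mul_le_mul_of_nonneg_right (by linarith) hs) (hh b hb')

/-- flat slices give flatness on the box set -/
theorem SF.flt {B : M.NatBox} {h : (Ht k →L[ℝ] ℝ) → ℝ} {d₁ s c₁ ε κ A : ℝ} {g : S → Ht k}
    {T : Ht k →L[ℝ] Ht k} (hS : SF B h d₁ s c₁ ε κ A g T) (hs : 0 < s)
    (hh : ∀ b ∈ M.Φ, 0 ≤ h b) (hκ : κ ≤ 1 / 2) {CW : ℝ}
    (hW : ∀ x : Ht k, (∀ b ∈ M.Φ, b x ≤ s * h b) → ‖x‖ ≤ CW * s)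
    (hA : M.C0 * (1 + CW * s) + 1 ≤ A * s) :
    Flt M g (B.DboxH h 1 d₁ (1 / 2) s) T (ε * s) ε := by
  classical
  obtain ⟨c, -, h2⟩ := hS
  refine ⟨c, ?_⟩
  have hs2 : 0 < (1 - 1 / 2 : ℝ) * s := by linarith
  set W := DB.WnH M h ((1 - 1 / 2) * s) with hWdef
  have hWf : W.Finite := DB.WnH_finite h hs2
  have hD : B.DboxH h 1 d₁ (1 / 2) s = BW M (B.Bx (M.szh h d₁ s)) W := by
    have : (fun i => 1 * M.szh h d₁ s i) = M.szh h d₁ s := by funext i; rw [one_mul]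
    unfold NatBox.DboxH
    rw [this]
    rfl
  have hμ : M.μ (B.DboxH h 1 d₁ (1 / 2) s) = W.ncard * M.μ (B.Bx (M.szh h d₁ s)) := by
    rw [hD]; exact BW_measure (B.meas _) (B.sub _) hWf
  set E : (Fin k → ℤ) → Set S := fun w =>
    {v | v ∈ B.Bx (M.szh h d₁ s) ∧ ε * s < ‖g (v * M.τ w) - c - T (M.θ (M.τ w))‖} with hE
  have hEw : ∀ w ∈ W, M.μ (E w) ≤ ENNReal.ofReal ε * M.μ (B.Bx (M.szh h d₁ s)) := by
    intro w hw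
    have hw1 : ∀ b ∈ M.Φ, b (vec w) ≤ (1 - 1 / 2) * s * h b := hw
    have hw2 : ∀ b ∈ M.Φ, b (vec w) ≤ s * h b := by
      intro b hb
      refine (hw1 b hb).trans (mul_le_mul_of_nonneg_right (by linarith) (hh b hb))
    have hw3 : ‖vec w‖ ≤ CW * s := hW _ hw2
    refine h2 ⌈M.C0 * (1 + ‖(fun i => (w i : ℝ))‖)⌉₊ ?_ (M.τ w) (M.τ_CB w) ?_
    · have h4 : M.C0 * (1 + ‖(fun i => (w i : ℝ))‖) ≤ M.C0 * (1 + CW * s) :=
        mul_le_mul_of_nonneg_left (by have : ‖(fun i => (w i : ℝ))‖ ≤ CW * s := hw3; linarith)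
          M.C0_pos.le
      have h5 := (Nat.ceil_lt_add_one (a := M.C0 * (1 + ‖(fun i => (w i : ℝ))‖))
        (by have := M.C0_pos; positivity)).le
      linarith
    · intro b hb
      rw [DB.θ_vec]
      refine (hw1 b hb).trans (mul_le_mul_of_nonneg_right
        (mul_le_mul_of_nonneg_right (by linarith) hs.le) (hh b hb))
  have hsub : {z | z ∈ B.DboxH h 1 d₁ (1 / 2) s ∧ ε * s < ‖g z - c - T (M.θ z)‖} ⊆
      ⋃ w ∈ hWf.toFinset, {z | z * (M.τ w)⁻¹ ∈ E w} := by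
    rintro z ⟨hz, hz'⟩
    rw [hD] at hz
    simp only [mem_iUnion, Finite.mem_toFinset, exists_prop]
    refine ⟨_, hz.2, hz.1, ?_⟩
    have e : z * (M.τ (Multiplicative.toAdd (M.η z)))⁻¹ * M.τ (Multiplicative.toAdd (M.η z)) = z :=
      inv_mul_cancel_right _ _
    show ε * s < ‖g (z * (M.τ (Multiplicative.toAdd (M.η z)))⁻¹ *
      M.τ (Multiplicative.toAdd (M.η z))) - c - T (M.θ (M.τ (Multiplicative.toAdd (M.η z))))‖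
    rw [e, DB.θ_vec]
    exact hz'
  calc M.μ {z | z ∈ B.DboxH h 1 d₁ (1 / 2) s ∧ ε * s < ‖g z - c - T (M.θ z)‖}
      ≤ ∑ w ∈ hWf.toFinset, M.μ {z | z * (M.τ w)⁻¹ ∈ E w} :=
        (measure_mono hsub).trans (measure_biUnion_finset_le _ _)
    _ ≤ ∑ w ∈ hWf.toFinset, ENNReal.ofReal ε * M.μ (B.Bx (M.szh h d₁ s)) := by
        refine Finset.sum_le_sum fun w hw => ?_
        rw [preimage_right]
        exact hEw w (hWf.mem_toFinset.1 hw)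
    _ = ENNReal.ofReal ε * M.μ (B.DboxH h 1 d₁ (1 / 2) s) := by
        rw [hμ, Finset.sum_const, nsmul_eq_mul, ← ncard_eq_toFinset_card W hWf]
        ring

/-! ### labels -/

theorem lab_sub {Φ₁ : Finset (Ht k →L[ℝ] ℝ)} {V₁ : Finset (Fin k → ℤ)} {c₀ X : ℝ} (hc₀ : 0 < c₀)
    (hX0 : 0 < X) (hle : ∀ b ∈ Φ₁, ∀ v ∈ V₁, ‖b‖ * ‖(RModel.ht v : Ht k)‖ ≤ X)
    {L L' : ℝ} {T T' : Ht k →L[ℝ] Ht k} {a a' : V₁ → Set (Ht k →L[ℝ] ℝ)}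
    (ha : GoodLab Φ₁ V₁ c₀ L T a) (ha' : GoodLab Φ₁ V₁ c₀ L' T' a') (hTT : ‖T - T'‖ < c₀ / X)
    (v : V₁) : a v ⊆ a' v := by
  intro b hb
  have hbΦ : b ∈ Φ₁ := ha.sub v hb
  by_contra hb'
  have h1 := ha.pos v b hbΦ hb
  have h2 := ha'.neg v b hbΦ hb'
  set x : Ht k := RModel.ht (v : Fin k → ℤ) with hx
  have hle' : ‖b‖ * ‖x‖ ≤ X := hle b hbΦ v v.2
  have h3 : b ((T - T') x) = b (T x) - b (T' x) := by
    rw [ContinuousLinearMap.sub_apply, map_sub]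
  have h4 : b ((T - T') x) ≤ ‖b‖ * (‖T - T'‖ * ‖x‖) :=
    (le_abs_self _).trans ((b.le_opNorm _).trans
      (mul_le_mul_of_nonneg_left ((T - T').le_opNorm _) (norm_nonneg _)))
  have h5 : ‖b‖ * (‖T - T'‖ * ‖x‖) = ‖T - T'‖ * (‖b‖ * ‖x‖) := by ring
  have h6 : ‖T - T'‖ * (‖b‖ * ‖x‖) ≤ ‖T - T'‖ * X :=
    mul_le_mul_of_nonneg_left hle' (norm_nonneg _)
  rw [lt_div_iff₀ hX0] at hTT
  linarith

/-- good labels are separated -/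
theorem lab_sep {Φ₁ : Finset (Ht k →L[ℝ] ℝ)} {V₁ : Finset (Fin k → ℤ)} {c₀ : ℝ} (hc₀ : 0 < c₀) :
    ∃ c : ℝ, 0 < c ∧ ∀ (L L' : ℝ) (T T' : Ht k →L[ℝ] Ht k) (a a' : V₁ → Set (Ht k →L[ℝ] ℝ)),
      GoodLab Φ₁ V₁ c₀ L T a → GoodLab Φ₁ V₁ c₀ L' T' a' → ‖T - T'‖ < c → a = a' := by
  set X : ℝ := 1 + ∑ b ∈ Φ₁, ∑ v ∈ V₁, ‖b‖ * ‖(RModel.ht v : Ht k)‖ with hX
  have hsum : 0 ≤ ∑ b ∈ Φ₁, ∑ v ∈ V₁, ‖b‖ * ‖(RModel.ht v : Ht k)‖ :=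
    Finset.sum_nonneg fun b _ => Finset.sum_nonneg fun v _ =>
      mul_nonneg (norm_nonneg _) (norm_nonneg _)
  have hX0 : 0 < X := by linarith
  have hle : ∀ b ∈ Φ₁, ∀ v ∈ V₁, ‖b‖ * ‖(RModel.ht v : Ht k)‖ ≤ X := by
    intro b hb v hv
    have h1 : ‖b‖ * ‖(RModel.ht v : Ht k)‖ ≤ ∑ v ∈ V₁, ‖b‖ * ‖(RModel.ht v : Ht k)‖ :=
      Finset.single_le_sum (f := fun v => ‖b‖ * ‖(RModel.ht v : Ht k)‖)
        (fun _ _ => mul_nonneg (norm_nonneg _) (norm_nonneg _)) hv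
    have h2 : ∑ v ∈ V₁, ‖b‖ * ‖(RModel.ht v : Ht k)‖ ≤
        ∑ b ∈ Φ₁, ∑ v ∈ V₁, ‖b‖ * ‖(RModel.ht v : Ht k)‖ :=
      Finset.single_le_sum
        (f := fun b : Ht k →L[ℝ] ℝ => ∑ v ∈ V₁, ‖b‖ * ‖(RModel.ht v : Ht k)‖)
        (fun _ _ => Finset.sum_nonneg fun _ _ => mul_nonneg (norm_nonneg _) (norm_nonneg _)) hb
    linarith
  refine ⟨c₀ / X, div_pos hc₀ hX0, ?_⟩
  intro L L' T T' a a' ha ha' hTT
  funext v
  refine Subset.antisymm (lab_sub hc₀ hX0 hle ha ha' hTT v) (lab_sub hc₀ hX0 hle ha' ha ?_ v)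
  rw [norm_sub_rev]
  exact hTT

/-- **Labels from pairs.** -/
theorem labels {𝓧 𝓐 E : Type*} [NormedAddCommGroup E] (Fl : 𝓧 → E → Prop) (Tf : ℕ → 𝓐 → E)
    (GLb : E → 𝓐 → Prop) {η : ℝ}
    (pair : ∀ F₁ F₂ : 𝓧, ∃ (ρ : ℕ) (a₁ a₂ : 𝓐), (GLb (Tf ρ a₁) a₁ ∧ Fl F₁ (Tf ρ a₁)) ∧
      GLb (Tf ρ a₂) a₂ ∧ Fl F₂ (Tf ρ a₂))
    (uni : ∀ F T T', Fl F T → Fl F T' → ‖T - T'‖ ≤ η)
    (sep : ∀ T T' a a', GLb T a → GLb T' a' → ‖T - T'‖ ≤ η → a = a') :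
    ∃ (lab : 𝓧 → 𝓐) (𝕋 : 𝓧 → E), (∀ F, GLb (𝕋 F) (lab F) ∧ Fl F (𝕋 F)) ∧
      (∀ F₁ F₂, lab F₁ = lab F₂ → ‖𝕋 F₁ - 𝕋 F₂‖ ≤ 2 * η) ∧
      (∀ F₁ F₂, (∀ T T', Fl F₁ T → Fl F₂ T' → ‖T - T'‖ ≤ η) → lab F₁ = lab F₂) := by
  have h1 : ∀ F : 𝓧, ∃ (a : 𝓐) (T : E), GLb T a ∧ Fl F T := fun F => by
    obtain ⟨ρ, a₁, a₂, h1, h2⟩ := pair F F
    exact ⟨a₁, _, h1⟩
  choose lab 𝕋 hlab using h1
  refine ⟨lab, 𝕋, hlab, ?_, ?_⟩
  · intro F₁ F₂ h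
    obtain ⟨ρ, a₁, a₂, ⟨h1, h2⟩, h3, h4⟩ := pair F₁ F₂
    have e1 := sep _ _ _ _ h1 (hlab F₁).1 (uni F₁ _ _ h2 (hlab F₁).2)
    have e2 := sep _ _ _ _ h3 (hlab F₂).1 (uni F₂ _ _ h4 (hlab F₂).2)
    have e3 : a₁ = a₂ := by rw [e1, e2, h]
    subst e3
    have d1 := uni F₁ _ _ (hlab F₁).2 h2
    have d2 := uni F₂ _ _ h4 (hlab F₂).2
    have d3 := norm_add_le (𝕋 F₁ - Tf ρ a₁) (Tf ρ a₁ - 𝕋 F₂)
    rw [sub_add_sub_cancel] at d3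
    linarith
  · intro F₁ F₂ h
    exact sep _ _ _ _ (hlab F₁).1 (hlab F₂).1 (h _ _ (hlab F₁).2 (hlab F₂).2)

end Vale.Agent.P188.Z1.Lab

end
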