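import Vale.Agent.P188.R.G100
import Vale.Agent.P188.R.G079
import Vale.Agent.P188.R.G105

section

/-!
# P188, Z1: neutral displacement, counting form (block N3 of route A)
-/

set_option linter.all false

open MeasureTheory Set Filter Topology
open scoped Pointwise ENNReal

namespace Vale.Agent.P188.Z1

namespace NDev

section sep

variable {S : Type*} [Group S] [MeasurableSpace S]

theorem cell_meas (μ : Measure S) (hl : ∀ g : S, MeasurePreserving (fun x => g * x) μ μ)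
    {B0 : Set S} (hB0 : MeasurableSet B0) (y : S) : MeasurableSet ((fun x => y⁻¹ * x) ⁻¹' B0) :=
  (hl y⁻¹).measurable hB0

theorem cell_mu (μ : Measure S) (hl : ∀ g : S, MeasurePreserving (fun x => g * x) μ μ)
    {B0 : Set S} (hB0 : MeasurableSet B0) (y : S) : μ ((fun x => y⁻¹ * x) ⁻¹' B0) = μ B0 :=
  (hl y⁻¹).measure_preimage hB0.nullMeasurableSet

theorem card_le (μ : Measure S) (hl : ∀ g : S, MeasurePreserving (fun x => g * x) μ μ)
    {Y : Finset S} {B0 A : Set S} (hB0 : MeasurableSet B0)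
    (hsep : ∀ y ∈ Y, ∀ y' ∈ Y, y ≠ y' → ∀ b ∈ B0, ∀ b' ∈ B0, y * b ≠ y' * b')
    (hsub : ∀ y ∈ Y, ∀ b ∈ B0, y * b ∈ A) : (Y.card : ℝ≥0∞) * μ B0 ≤ μ A := by
  classical
  have h1 : μ (⋃ y ∈ Y, (fun x => y⁻¹ * x) ⁻¹' B0) = ∑ y ∈ Y, μ ((fun x => y⁻¹ * x) ⁻¹' B0) := by
    refine measure_biUnion_finset ?_ fun y _ => cell_meas μ hl hB0 y
    intro y hy y' hy' hne
    show Disjoint ((fun x => y⁻¹ * x) ⁻¹' B0) ((fun x => y'⁻¹ * x) ⁻¹' B0)
    rw [Set.disjoint_left]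
    intro x hx hx'
    refine hsep y hy y' hy' hne (y⁻¹ * x) hx (y'⁻¹ * x) hx' ?_
    rw [mul_inv_cancel_left, mul_inv_cancel_left]
  have h2 : ∑ y ∈ Y, μ ((fun x => y⁻¹ * x) ⁻¹' B0) = (Y.card : ℝ≥0∞) * μ B0 := by
    rw [Finset.sum_congr rfl fun y _ => cell_mu μ hl hB0 y, Finset.sum_const, nsmul_eq_mul]
  rw [← h2, ← h1]
  refine measure_mono ?_
  intro x hx
  simp only [mem_iUnion, mem_preimage, exists_prop] at hx
  obtain ⟨y, hy, hx⟩ := hx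
  have := hsub y hy _ hx
  rwa [mul_inv_cancel_left] at this

theorem cover_le (μ : Measure S) (hl : ∀ g : S, MeasurePreserving (fun x => g * x) μ μ)
    {Y : Finset S} {P B1 : Set S} (hB1 : MeasurableSet B1)
    (hcov : ∀ y ∈ P, ∃ y' ∈ Y, y'⁻¹ * y ∈ B1) : μ P ≤ (Y.card : ℝ≥0∞) * μ B1 := by
  classical
  have h1 : P ⊆ ⋃ y ∈ Y, (fun x => y⁻¹ * x) ⁻¹' B1 := by
    intro y hy
    obtain ⟨y', hy', h⟩ := hcov y hy
    simp only [mem_iUnion, mem_preimage, exists_prop]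
    exact ⟨y', hy', h⟩
  refine (measure_mono h1).trans ((measure_biUnion_finset_le _ _).trans ?_)
  rw [Finset.sum_congr rfl fun y _ => cell_mu μ hl hB1 y, Finset.sum_const, nsmul_eq_mul]

/-- maximal separated families -/
theorem exists_sep (μ : Measure S) (hl : ∀ g : S, MeasurePreserving (fun x => g * x) μ μ)
    {P P' B0 : Set S} (hB0 : MeasurableSet B0) (hpos : μ B0 ≠ 0)
    (hP : ∀ y ∈ P, ∀ b ∈ B0, y * b ∈ P') (hfin : μ P' ≠ ⊤) :
    ∃ Y : Finset S, (∀ y ∈ Y, y ∈ P) ∧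
      (∀ y ∈ Y, ∀ y' ∈ Y, y ≠ y' → ∀ b ∈ B0, ∀ b' ∈ B0, y * b ≠ y' * b') ∧
      ∀ y ∈ P, ∃ y' ∈ Y, ∃ b ∈ B0, ∃ b' ∈ B0, y * b = y' * b' := by
  classical
  set A : Set ℕ := {n | ∃ Y : Finset S, Y.card = n ∧ (∀ y ∈ Y, y ∈ P) ∧
    ∀ y ∈ Y, ∀ y' ∈ Y, y ≠ y' → ∀ b ∈ B0, ∀ b' ∈ B0, y * b ≠ y' * b'} with hA
  have h0 : (0 : ℕ) ∈ A := ⟨∅, rfl, by simp, by simp⟩
  obtain ⟨b0, hb0⟩ : B0.Nonempty := nonempty_of_measure_ne_zero hpos
  have hBtop : μ P' / μ B0 ≠ ⊤ := ENNReal.div_ne_top hfin hpos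
  obtain ⟨N, hN⟩ := exists_nat_gt (μ P' / μ B0).toReal
  have hbdd : BddAbove A := by
    refine ⟨N, ?_⟩
    rintro n ⟨Y, rfl, h1, h2⟩
    by_contra hlt
    push Not at hlt
    have h3 := card_le μ hl hB0 h2 (fun y hy b hb => hP y (h1 y hy) b hb)
    have hB0top : μ B0 ≠ ⊤ := by
      intro h
      rcases Nat.eq_zero_or_pos Y.card with h4 | h4
      · omega
      · rw [h, ENNReal.mul_top (by exact_mod_cast h4.ne')] at h3
        exact hfin (top_le_iff.1 h3)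
    have h4 : (Y.card : ℝ≥0∞) ≤ μ P' / μ B0 := by
      rw [ENNReal.le_div_iff_mul_le (Or.inl hpos) (Or.inl hB0top)]
      exact h3
    have h5 : (Y.card : ℝ) ≤ (μ P' / μ B0).toReal := by
      have := ENNReal.toReal_mono hBtop h4
      simpa using this
    have h6 : (N : ℝ) < Y.card := by exact_mod_cast hlt
    linarith
  obtain ⟨Y, hYc, hY1, hY2⟩ : sSup A ∈ A := Nat.sSup_mem ⟨0, h0⟩ hbdd
  refine ⟨Y, hY1, hY2, fun y hy => ?_⟩
  by_contra hno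
  push Not at hno
  have hyY : y ∉ Y := fun h => hno y h b0 hb0 b0 hb0 rfl
  have hmem : (insert y Y).card ∈ A := by
    refine ⟨insert y Y, rfl, ?_, ?_⟩
    · intro z hz
      rcases Finset.mem_insert.1 hz with rfl | hz
      · exact hy
      · exact hY1 z hz
    · intro z hz z' hz' hne b hb b' hb'
      rcases Finset.mem_insert.1 hz with h1 | hz
      · rcases Finset.mem_insert.1 hz' with h2 | hz'
        · exact absurd (h1.trans h2.symm) hne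
        · rw [h1]; exact hno z' hz' b hb b' hb'
      · rcases Finset.mem_insert.1 hz' with h2 | hz'
        · rw [h2]; exact fun h => hno z hz b' hb' b hb h.symm
        · exact hY2 z hz z' hz' hne b hb b' hb'
  have h1 := le_csSup hbdd hmem
  rw [Finset.card_insert_of_notMem hyY] at h1
  omega

end sep

variable {S : Type} [Group S] [MeasurableSpace S] {Γ : Type} [Group Γ]
  {V : Type} [AddCommGroup V] [Module ℝ V] {k : ℕ} {M : RModel S Γ V k}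

open RModel

/-- a product of `m` exponentials of small vectors has bounded length -/
theorem l_prod_ex {m : ℕ} (v : Fin m → V) (hv : ∀ t, M.nm (v t) ≤ 1) :
    (M.l (List.ofFn fun t => M.ex (v t)).prod : ℝ) ≤ 2 * M.C0 * m := by
  induction m with
  | zero =>
    rw [List.ofFn_zero, List.prod_nil, M.len.one]
    simp
  | succ m ih =>
    rw [List.ofFn_succ, List.prod_cons]
    have h1 : (M.l (M.ex (v 0) * (List.ofFn fun t => M.ex (v (Fin.succ t))).prod) : ℝ) ≤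
        M.l (M.ex (v 0)) + M.l (List.ofFn fun t => M.ex (v (Fin.succ t))).prod := by
      exact_mod_cast M.len.mul _ _
    have h2 := M.met_V (v 0)
    have h3 := ih (fun t => v (Fin.succ t)) fun t => hv _
    have h4 : M.C0 * (1 + M.nm (v 0)) ≤ M.C0 * 2 := by
      have := M.one_le_C0
      have := hv 0
      apply mul_le_mul_of_nonneg_left _ (by linarith)
      linarith
    push_cast
    linarith

/-- conjugates of tiny boxes by neutral elements have bounded length -/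
theorem l_conj_tiny (B : M.NatBox) {r : ℝ} (hr : 0 ≤ r) {w : V}
    (h : B.C * r * (M.C0 * (1 + M.nm w) ^ M.C0) ≤ 1) {q : S} (hq : q ∈ B.Bx fun _ => r) :
    (M.l (M.ex w * q * (M.ex w)⁻¹) : ℝ) ≤ 2 * M.C0 * B.m := by
  obtain ⟨x, hx, hxq⟩ := B.gen _ (fun _ => hr) q hq
  have h1 : M.ex w * q * (M.ex w)⁻¹ =
      (List.ofFn fun t => M.ex (M.Ad (M.ex w) (x t • M.X (B.J t)))).prod := by
    rw [hxq]
    have h2 := map_list_prod (MulAut.conj (M.ex w)).toMonoidHom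
      (List.ofFn fun t => M.ex (x t • M.X (B.J t)))
    have h3 : (MulAut.conj (M.ex w)).toMonoidHom (List.ofFn fun t => M.ex (x t • M.X (B.J t))).prod
        = M.ex w * (List.ofFn fun t => M.ex (x t • M.X (B.J t))).prod * (M.ex w)⁻¹ := rfl
    rw [← h3, h2, List.map_ofFn]
    congr 1
    apply congrArg
    funext t
    show M.ex w * M.ex (x t • M.X (B.J t)) * (M.ex w)⁻¹ = _
    rw [M.ex_Ad]
  rw [h1]
  refine l_prod_ex _ fun t => ?_
  refine (M.Ad_ex_le _ _).trans ?_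
  rw [map_smul_eq_mul, Real.norm_eq_abs]
  have h4 : 0 ≤ M.C0 * (1 + M.nm w) ^ M.C0 := by
    have := M.one_le_C0
    have := apply_nonneg M.nm w
    positivity
  have h5 : |x t| * M.nm (M.X (B.J t)) ≤ B.C * r * 1 :=
    mul_le_mul (hx t) (M.X_le _) (apply_nonneg _ _) (by
      have := B.one_le
      positivity)
  calc M.C0 * (1 + M.nm w) ^ M.C0 * (|x t| * M.nm (M.X (B.J t)))
      ≤ M.C0 * (1 + M.nm w) ^ M.C0 * (B.C * r * 1) := mul_le_mul_of_nonneg_left h5 h4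
    _ = B.C * r * (M.C0 * (1 + M.nm w) ^ M.C0) := by ring
    _ ≤ 1 := h

/-- bad cells are seen from all their points -/
theorem bad_cell {K ξ R Lc D : ℝ} {F F' : Γ → Γ} (hF : M.QIm K F F') {Y t q : S} {y : V}
    (hLc : Lc = M.C0 * K * (2 * M.C0 + 1)) (h1 : (M.l q : ℝ) ≤ D)
    (h2 : (M.l (M.ex (-y) * q * (M.ex (-y))⁻¹) : ℝ) ≤ D)
    (hR : 2 * (Lc * (D + 1)) < 3 * (ξ / 4 * R))
    (hbad : ξ * R < ‖M.f F (Y * t * M.ex y) - M.f F (Y * t)‖) :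
    ξ / 4 * R < ‖M.f F (Y * (t * q * M.ex y)) - M.f F (Y * (t * q))‖ := by
  have hL : 0 ≤ Lc := by
    rw [hLc]
    have := hF.K_nonneg
    have := M.one_le_C0
    positivity
  have e1 := hF.f_lip (Y * t) q
  have e2 := hF.f_lip (Y * t * M.ex y) (M.ex (-y) * q * (M.ex (-y))⁻¹)
  rw [← hLc] at e1 e2
  have hinv : M.ex y * M.ex (-y) = 1 := by
    have h3 := M.ex_add 1 (-1) y
    rw [one_smul, neg_one_smul] at h3
    rw [← h3, add_neg_cancel, zero_smul, M.ex_zero]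
  have hinv' : (M.ex (-y))⁻¹ = M.ex y := (eq_inv_of_mul_eq_one_left hinv).symm
  have e3 : Y * t * M.ex y * (M.ex (-y) * q * (M.ex (-y))⁻¹) = Y * (t * q * M.ex y) := by
    rw [hinv']
    calc Y * t * M.ex y * (M.ex (-y) * q * M.ex y)
        = Y * t * (M.ex y * M.ex (-y)) * q * M.ex y := by group
      _ = Y * (t * q * M.ex y) := by rw [hinv]; group
  rw [e3] at e2
  rw [mul_assoc Y t q] at e1
  have e4 : Lc * (M.l q + 1) ≤ Lc * (D + 1) := mul_le_mul_of_nonneg_left (by linarith) hL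
  have e5 : Lc * ((M.l (M.ex (-y) * q * (M.ex (-y))⁻¹) : ℝ) + 1) ≤ Lc * (D + 1) :=
    mul_le_mul_of_nonneg_left (by linarith) hL
  have e6 : ‖M.f F (Y * t * M.ex y) - M.f F (Y * t)‖ ≤
      ‖M.f F (Y * (t * q * M.ex y)) - M.f F (Y * t * M.ex y)‖ +
      ‖M.f F (Y * (t * q * M.ex y)) - M.f F (Y * (t * q))‖ +
      ‖M.f F (Y * (t * q)) - M.f F (Y * t)‖ := by
    have h4 : M.f F (Y * t * M.ex y) - M.f F (Y * t) =
        -(M.f F (Y * (t * q * M.ex y)) - M.f F (Y * t * M.ex y)) +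
        (M.f F (Y * (t * q * M.ex y)) - M.f F (Y * (t * q))) +
        (M.f F (Y * (t * q)) - M.f F (Y * t)) := by abel
    rw [h4]
    refine (norm_add_le _ _).trans (add_le_add_left ((norm_add_le _ _).trans ?_) _)
    rw [norm_neg]
  linarith

end NDev

open NDev in
/-- **(N3)** neutral displacement, counting form: a finite family `T` (depending on the scale only)
such that every neutral move `ex y`, `|y| ≤ e ^ (δ₀ R)`, displaces most points `Y t` by at most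
`ξ R`, for all maps and all locations; the exceptional proportion is exponentially small. -/
theorem neutral_dev {S : Type} [Group S] [MeasurableSpace S] {Γ : Type} [Group Γ]
    {V : Type} [AddCommGroup V] [Module ℝ V] {k : ℕ} (M : RModel S Γ V k) (B : M.NatBox)
    (hB : B.Fine) : ∀ K ξ : ℝ, 0 < ξ →
    ∃ c₁ δ₀ : ℝ, 0 < c₁ ∧ 0 < δ₀ ∧ ∃ R1 : ℕ, ∀ R : ℕ, R1 ≤ R → ∃ T : Finset S, T.Nonempty ∧
      ∀ F F' : Γ → Γ, M.QIm K F F' → ∀ Y : S, ∀ y ∈ M.Vw 0, M.nm y ≤ Real.exp (δ₀ * R) →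
        (((T.filter fun t => ξ * R < ‖M.f F (Y * t * M.ex y) - M.f F (Y * t)‖).card : ℕ) : ℝ) ≤
          Real.exp (-(c₁ * R)) * T.card := by
  classical
  intro K ξ hξ
  have hBC := B.one_le
  have hBC0 : 0 < B.C := by linarith
  have hC0 := M.one_le_C0
  obtain ⟨c, hc, hg⟩ := RModel.F6.exists_hgood_en M
  obtain ⟨c₁, hc₁, H⟩ := M.neut_holds B hB K c (ξ / 4) B.C hc (by positivity) hBC0
  obtain ⟨dm, hdm, H⟩ := H 1
  obtain ⟨s₀, H⟩ := H dm hdm le_rfl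
  obtain ⟨C', hC'⟩ := B.dbl B.C hBC
  obtain ⟨Lc, hLc⟩ : ∃ Lc : ℝ, Lc = M.C0 * K * (2 * M.C0 + 1) := ⟨_, rfl⟩
  set D : ℝ := 2 * M.C0 * B.m with hD
  have e1 : ∀ᶠ s : ℝ in atTop, (|C'| + 1) * (1 + s) ^ 0 ≤ Real.exp (c₁ / 2 * s) :=
    ev_poly _ _ (by positivity)
  have e2 : ∀ᶠ s : ℝ in atTop, 2 * (Lc * (D + 1)) < 3 * (ξ / 4 * s) := by
    have h1 : Tendsto (fun s : ℝ => 3 * (ξ / 4) * s) atTop atTop :=
      tendsto_id.const_mul_atTop (by positivity)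
    filter_upwards [h1.eventually_gt_atTop (2 * (Lc * (D + 1)))] with s hs
    linarith
  obtain ⟨s₁, hs₁⟩ := ((e1.and e2).and (eventually_ge_atTop s₀)).exists_forall_of_atTop
  refine ⟨c₁ / 2, dm, by positivity, hdm, ⌈s₁⌉₊, fun R hR => ?_⟩
  have hRs : s₁ ≤ (R : ℝ) := Nat.ceil_le.1 hR
  obtain ⟨⟨hex, hlin⟩, hs0⟩ := hs₁ R hRs
  have H := H R hs0 en hg.bd
  have hR0 : (0 : ℝ) ≤ R := Nat.cast_nonneg _
  -- the boxes
  set W : ℝ := M.C0 * (1 + Real.exp (dm * R)) ^ M.C0 with hW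
  have hW1 : 1 ≤ W := by
    have h1 : (1 : ℝ) ≤ (1 + Real.exp (dm * R)) ^ M.C0 :=
      Real.one_le_rpow (by have := Real.exp_pos (dm * R); linarith) (by linarith)
    nlinarith
  set r : ℝ := (B.C * W)⁻¹ with hr
  have hBW : 1 ≤ B.C * W := by nlinarith
  have hr0 : 0 < r := by rw [hr]; positivity
  have hr1 : r ≤ 1 := inv_le_one_of_one_le₀ hBW
  set P : Set S := B.Bx (M.szh en dm R) with hP
  set B0 : Set S := B.Bx (fun _ => r) with hB0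
  set P' : Set S := B.Bx (fun i => B.C * M.szh en dm R i) with hP'
  have hsz1 : ∀ i, 1 ≤ M.szh en dm R i := by
    intro i
    unfold RModel.szh
    split_ifs with hi
    · exact Real.one_le_exp (by positivity)
    · refine Real.one_le_exp (mul_nonneg hR0 ?_)
      exact RModel.F6.en_nonneg _
  have hsub : ∀ y ∈ P, ∀ b ∈ B0, y * b ∈ P' := by
    intro y hy b hb
    refine B.mul _ (fun i => by have := hsz1 i; linarith) y hy b ?_
    exact B.mono _ _ (fun _ => hr0.le) (fun i => hr1.trans (hsz1 i)) hb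
  have hmB0 : MeasurableSet B0 := B.meas _
  have hpos : M.μ B0 ≠ 0 := B.pos _ fun _ => hr0
  obtain ⟨T, hT1, hT2, hT3⟩ := exists_sep M.μ M.mpl hmB0 hpos hsub (B.fin _)
  have hcov : ∀ y ∈ P, ∃ y' ∈ T, y'⁻¹ * y ∈ B.Bx (fun _ => B.C * r) := by
    intro y hy
    obtain ⟨y', hy', b, hb, b', hb', h⟩ := hT3 y hy
    refine ⟨y', hy', ?_⟩
    have h1 : y'⁻¹ * y = b' * b⁻¹ := by
      rw [eq_mul_inv_iff_mul_eq, mul_assoc, h, inv_mul_cancel_left]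
    rw [h1]
    exact B.mul _ (fun _ => hr0.le) _ hb' _ (B.inv _ _ hb)
  refine ⟨T, ?_, ?_⟩
  · obtain ⟨y', hy', -⟩ := hcov 1 (B.one _ fun i => by have := hsz1 i; linarith)
    exact ⟨y', hy'⟩
  intro F F' hF Y y hy hny
  have hny' : M.nm y ≤ Real.exp (1 * (dm * R + 1)) :=
    hny.trans (Real.exp_le_exp.2 (by linarith))
  have hmain := H F F' hF Y y hy hny'
  have hvol := cover_le M.μ M.mpl (B.meas _) hcov
  have hdbl := hC' (fun _ => r) fun _ => hr0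
  set Bd := T.filter fun t => ξ * R < ‖M.f F (Y * t * M.ex y) - M.f F (Y * t)‖ with hBd
  -- small conjugates
  have hconj : ∀ w : V, M.nm w ≤ Real.exp (dm * R) → ∀ q ∈ B0,
      (M.l (M.ex w * q * (M.ex w)⁻¹) : ℝ) ≤ D := by
    intro w hw q hq
    refine l_conj_tiny B hr0.le ?_ hq
    have h1 : M.C0 * (1 + M.nm w) ^ M.C0 ≤ W := by
      apply mul_le_mul_of_nonneg_left _ (by linarith)
      have := apply_nonneg M.nm w
      exact Real.rpow_le_rpow (by linarith) (by linarith) (by linarith)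
    calc B.C * r * (M.C0 * (1 + M.nm w) ^ M.C0) ≤ B.C * r * W :=
          mul_le_mul_of_nonneg_left h1 (by positivity)
      _ = 1 := by rw [hr]; field_simp
  have hcard : (Bd.card : ℝ≥0∞) * M.μ B0 ≤ M.μ {n | n ∈ B.Bx (fun i => B.C * M.szh en dm R i) ∧
      ξ / 4 * R < ‖M.f F (Y * (n * M.ex y)) - M.f F (Y * n)‖} := by
    refine card_le M.μ M.mpl hmB0 ?_ ?_
    · intro t ht t' ht' hne
      exact hT2 t (Finset.mem_filter.1 ht).1 t' (Finset.mem_filter.1 ht').1 hne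
    · intro t ht q hq
      obtain ⟨ht1, ht2⟩ := Finset.mem_filter.1 ht
      refine ⟨hsub t (hT1 t ht1) q hq, ?_⟩
      refine bad_cell hF hLc ?_ ?_ hlin ht2
      · have h1 := hconj 0 (by rw [map_zero]; exact (Real.exp_pos _).le) q hq
        rwa [M.ex_zero, one_mul, inv_one, mul_one] at h1
      · exact hconj (-y) (by rw [map_neg_eq_map]; exact hny) q hq
  have hfin0 : M.μ B0 ≠ ⊤ := B.fin _
  have h3 : (Bd.card : ℝ≥0∞) * M.μ B0 ≤
      (ENNReal.ofReal (Real.exp (-(c₁ * R))) * ((T.card : ℝ≥0∞) * ENNReal.ofReal C')) *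
        M.μ B0 := by
    refine (hcard.trans hmain).trans ?_
    rw [mul_assoc, mul_assoc]
    refine mul_le_mul' le_rfl (hvol.trans (mul_le_mul' le_rfl hdbl))
  have h4 : (Bd.card : ℝ≥0∞) ≤
      ENNReal.ofReal (Real.exp (-(c₁ * R))) * ((T.card : ℝ≥0∞) * ENNReal.ofReal C') :=
    (ENNReal.mul_le_mul_iff_left hpos hfin0).1 h3
  have h5 : (Bd.card : ℝ) ≤ Real.exp (-(c₁ * R)) * (T.card * |C'|) := by
    have h6 : ENNReal.ofReal C' ≤ ENNReal.ofReal |C'| := ENNReal.ofReal_le_ofReal (le_abs_self _)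
    have h7 : (Bd.card : ℝ≥0∞) ≤ ENNReal.ofReal (Real.exp (-(c₁ * R)) * (T.card * |C'|)) := by
      refine h4.trans ?_
      rw [ENNReal.ofReal_mul (Real.exp_pos _).le, ENNReal.ofReal_mul (Nat.cast_nonneg _),
        ENNReal.ofReal_natCast]
      exact mul_le_mul' le_rfl (mul_le_mul' le_rfl h6)
    have h8 := ENNReal.toReal_mono ENNReal.ofReal_ne_top h7
    rwa [ENNReal.toReal_ofReal (by positivity), ENNReal.toReal_natCast] at h8
  refine h5.trans ?_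
  have h6 : |C'| ≤ Real.exp (c₁ / 2 * R) := by
    have : (|C'| + 1) * (1 + (R : ℝ)) ^ 0 ≤ Real.exp (c₁ / 2 * R) := hex
    rw [pow_zero, mul_one] at this
    linarith
  have hTc : (0 : ℝ) ≤ T.card := Nat.cast_nonneg _
  calc Real.exp (-(c₁ * R)) * (T.card * |C'|)
      ≤ Real.exp (-(c₁ * R)) * (T.card * Real.exp (c₁ / 2 * R)) := by gcongr
    _ = (Real.exp (-(c₁ * R)) * Real.exp (c₁ / 2 * R)) * T.card := by ring
    _ = Real.exp (-(c₁ / 2 * R)) * T.card := by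
        rw [← Real.exp_add]
        congr 2
        ring

end Vale.Agent.P188.Z1

end

section

/-!
# P188, Z1, block LAB, part 7: the labels at one scale
-/

set_option linter.all false

open MeasureTheory Set Filter
open scoped ENNReal

namespace Vale.Agent.P188.Z1.Lab

variable {S : Type} [Group S] [MeasurableSpace S] {Γ : Type} [Group Γ]
  {V : Type} [AddCommGroup V] [Module ℝ V] {k : ℕ} {M : RModel S Γ V k}

open RModel

theorem cT_nonneg {K : ℝ} (hK : 0 ≤ K) : 0 ≤ cT M K := by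
  have := M.C0_pos
  unfold cT
  positivity

/-- flatness at a location -/
theorem flt_at {K : ℝ} {H : Type} [Group H] {Ps : H → Γ → Γ} (hF : M.Fam K Ps)
    {B : M.NatBox} {h : (Ht k →L[ℝ] ℝ) → ℝ} {d₁ s c₁ ε κ A : ℝ} {D : Set S}
    (flt : ∀ (g : S → Ht k) (T : Ht k →L[ℝ] Ht k), SF B h d₁ s c₁ ε κ A g T →
      Flt M g D T (ε * s) ε) {x : H} {Y : S} {T : Ht k →L[ℝ] Ht k}
    (hS : SF B h d₁ s c₁ ε κ A (M.f (trL M Y (Ps x))) T) :
    Flt M (fun z => M.f (Ps x) (Y * z)) D T (ε * s + cT M K) ε := by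
  refine (flt _ _ hS).congr fun z _ => ?_
  rw [norm_sub_rev]
  exact f_trL (hF.qi x) Y z

/-- **Labels at one scale.** -/
theorem stepA {K : ℝ} {H : Type} [Group H] {Ps : H → Γ → Γ} (hF : M.Fam K Ps)
    {Φ₁ : Finset (Ht k →L[ℝ] ℝ)} {V₁ : Finset (Fin k → ℤ)} {c₀ L : ℝ} {B : M.NatBox}
    {h : (Ht k →L[ℝ] ℝ) → ℝ} {d₁ s c₁ ε κ A : ℝ}
    {Tf : ℕ → (V₁ → Set (Ht k →L[ℝ] ℝ)) → (Ht k →L[ℝ] Ht k)}
    (pair : ∀ F F' : Fin 2 → Γ → Γ, (∀ α, M.QIm (K2 M K) (F α) (F' α)) → ∃ ρ : ℕ, ∀ α,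
      ∃ a : V₁ → Set (Ht k →L[ℝ] ℝ), GoodLab Φ₁ V₁ c₀ L (Tf ρ a) a ∧
        SF B h d₁ s c₁ ε κ A (M.f (F α)) (Tf ρ a))
    {D : Set S} {δ₂ η csep : ℝ}
    (flt : ∀ (g : S → Ht k) (T : Ht k →L[ℝ] Ht k), SF B h d₁ s c₁ ε κ A g T →
      Flt M g D T (ε * s) ε)
    (hδ₂ : ε * s + cT M K ≤ δ₂)
    (hu : ∀ (f : S → Ht k) (T T' : Ht k →L[ℝ] Ht k) (g : S), M.l g ≤ 1 → Flt M f D T δ₂ ε →
      Flt M (fun z => f (g * z)) D T' δ₂ ε → ‖T - T'‖ ≤ η)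
    (hsep : ∀ (T T' : Ht k →L[ℝ] Ht k) (a a' : V₁ → Set (Ht k →L[ℝ] ℝ)),
      GoodLab Φ₁ V₁ c₀ L T a → GoodLab Φ₁ V₁ c₀ L T' a' → ‖T - T'‖ < csep → a = a')
    (hη : η < csep) :
    ∃ (lab : H → V₁ → Set (Ht k →L[ℝ] ℝ)) (𝕋 : H → Ht k →L[ℝ] Ht k)
      (𝕋' : H → S → (Ht k →L[ℝ] Ht k)),
      (∀ x, GoodLab Φ₁ V₁ c₀ L (𝕋 x) (lab x)) ∧
      (∀ x Y, ‖𝕋' x Y - 𝕋 x‖ ≤ 2 * η ∧
        SF B h d₁ s c₁ ε κ A (M.f (trL M Y (Ps x))) (𝕋' x Y)) ∧
      (∀ x y, lab x = lab y → ‖𝕋 x - 𝕋 y‖ ≤ 2 * η) := by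
  have hK : 0 ≤ K := (hF.qi 1).K_nonneg
  have hcT := cT_nonneg (M := M) hK
  obtain ⟨lab, 𝕋, h1, h2, h3⟩ := labels
    (𝓧 := {p : (Γ → Γ) × (Γ → Γ) // M.QIm (K2 M K) p.1 p.2})
    (fun p T => SF B h d₁ s c₁ ε κ A (M.f p.1.1) T) Tf
    (fun T a => GoodLab Φ₁ V₁ c₀ L T a) (η := η)
    (by
      intro p₁ p₂
      obtain ⟨ρ, hρ⟩ := pair ![p₁.1.1, p₂.1.1] ![p₁.1.2, p₂.1.2] (by
        intro α
        fin_cases α
        · exact p₁.2
        · exact p₂.2)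
      obtain ⟨a₁, ha₁⟩ := hρ 0
      obtain ⟨a₂, ha₂⟩ := hρ 1
      exact ⟨ρ, a₁, a₂, ha₁, ha₂⟩)
    (by
      intro p T T' hT hT'
      refine hu (M.f p.1.1) T T' 1 (by rw [M.len.one]; exact zero_le_one)
        ((flt _ _ hT).mono (by linarith) le_rfl) ?_
      simp only [one_mul]
      exact (flt _ _ hT').mono (by linarith) le_rfl)
    (fun T T' a a' ha ha' hTT => hsep T T' a a' ha ha' (hTT.trans_lt hη))
  set pt : H → S → {p : (Γ → Γ) × (Γ → Γ) // M.QIm (K2 M K) p.1 p.2} := fun x Y =>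
    ⟨(trL M Y (Ps x), trR M Y (Ps x⁻¹)), QIm_trL (hF.qi x) Y⟩ with hpt
  -- neighbours
  have hnb : ∀ (x : H) (Y g : S), M.l g ≤ 1 → lab (pt x Y) = lab (pt x (Y * g)) := by
    intro x Y g hg
    refine h3 _ _ fun T T' hT hT' => ?_
    have e1 := (flt_at hF flt (x := x) (Y := Y) hT).mono hδ₂ le_rfl
    have e2 := (flt_at hF flt (x := x) (Y := Y * g) hT').mono hδ₂ le_rfl
    refine hu (fun z => M.f (Ps x) (Y * z)) T T' g hg e1 ?_
    simp only [mul_assoc] at e2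
    exact e2
  have hall : ∀ (x : H) (Y : S), lab (pt x Y) = lab (pt x 1) := by
    intro x Y
    obtain ⟨p, hp0, hp1, hp2⟩ := M.l_path Y
    have key : ∀ i, lab (pt x (p i)) = lab (pt x 1) := by
      intro i
      induction i with
      | zero => rw [hp0]
      | succ i ih =>
        rw [← ih, hnb x (p i) _ (hp2 i), mul_inv_cancel_left]
    rw [← hp1]
    exact key _
  refine ⟨fun x => lab (pt x 1), fun x => 𝕋 (pt x 1), fun x Y => 𝕋 (pt x Y), fun x => (h1 _).1,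
    fun x Y => ⟨h2 _ _ (hall x Y), (h1 (pt x Y)).2⟩, fun x y hxy => h2 _ _ hxy⟩

/-- the map `Ps 1` is flat with linear part `1` -/
theorem flt_one {K : ℝ} {H : Type} [Group H] {Ps : H → Γ → Γ} (hF : M.Fam K Ps) {D : Set S}
    {δ ε : ℝ} (hδ : M.C0 * K + M.C0 * M.C0 ≤ δ) :
    Flt M (M.f (Ps 1)) D (1 : Ht k →L[ℝ] Ht k) δ ε := by
  refine ⟨0, ?_⟩
  have : {z | z ∈ D ∧ δ < ‖M.f (Ps 1) z - 0 - (1 : Ht k →L[ℝ] Ht k) (M.θ z)‖} = ∅ := by
    rw [Set.eq_empty_iff_forall_notMem]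
    rintro z ⟨-, hz⟩
    have h1 := θ_inG_le M (hF.one (M.fl z))
    have h2 := θ_inG_close M z
    have e : M.f (Ps 1) z - 0 - (1 : Ht k →L[ℝ] Ht k) (M.θ z) =
        (M.θ (M.inG (Ps 1 (M.fl z))) - M.θ (M.inG (M.fl z))) -
          (M.θ z - M.θ (M.inG (M.fl z))) := by
      rw [sub_zero, ContinuousLinearMap.one_apply]
      show M.θ (M.inG (Ps 1 (M.fl z))) - M.θ z = _
      abel
    rw [e] at hz
    have := norm_sub_le (M.θ (M.inG (Ps 1 (M.fl z))) - M.θ (M.inG (M.fl z)))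
      (M.θ z - M.θ (M.inG (M.fl z)))
    linarith
  rw [this, measure_empty]
  exact zero_le

/-- **The linear parts are trivial on a subgroup of bounded index** (at one scale). -/
theorem scale {K : ℝ} {H : Type} [Group H] {Ps : H → Γ → Γ} (hF : M.Fam K Ps)
    {Φ₁ : Finset (Ht k →L[ℝ] ℝ)} {V₁ : Finset (Fin k → ℤ)} {c₀ L : ℝ} {B : M.NatBox}
    {h : (Ht k →L[ℝ] ℝ) → ℝ} {d₁ s c₁ ε κ A : ℝ}
    {Tf : ℕ → (V₁ → Set (Ht k →L[ℝ] ℝ)) → (Ht k →L[ℝ] Ht k)}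
    (pair : ∀ F F' : Fin 2 → Γ → Γ, (∀ α, M.QIm (K2 M K) (F α) (F' α)) → ∃ ρ : ℕ, ∀ α,
      ∃ a : V₁ → Set (Ht k →L[ℝ] ℝ), GoodLab Φ₁ V₁ c₀ L (Tf ρ a) a ∧
        SF B h d₁ s c₁ ε κ A (M.f (F α)) (Tf ρ a))
    {D : Set S} {δ₂ η csep : ℝ}
    (flt : ∀ (g : S → Ht k) (T : Ht k →L[ℝ] Ht k), SF B h d₁ s c₁ ε κ A g T →
      Flt M g D T (ε * s) ε)
    (hδ₂ : ε * s + cT M K ≤ δ₂) (hδ₂' : M.C0 * K + M.C0 * M.C0 ≤ δ₂)
    (hu : ∀ (f : S → Ht k) (T T' : Ht k →L[ℝ] Ht k) (g : S), M.l g ≤ 1 → Flt M f D T δ₂ ε →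
      Flt M (fun z => f (g * z)) D T' δ₂ ε → ‖T - T'‖ ≤ η)
    (hsep : ∀ (T T' : Ht k →L[ℝ] Ht k) (a a' : V₁ → Set (Ht k →L[ℝ] ℝ)),
      GoodLab Φ₁ V₁ c₀ L T a → GoodLab Φ₁ V₁ c₀ L T' a' → ‖T - T'‖ < csep → a = a')
    {r κ₂ c AD : ℝ} (hD : TB M r κ₂ c AD D) (hκ₂ : κ₂ ≤ 1 / 8) (hε : 0 ≤ ε) (hs : 0 ≤ s)
    (hcst : cst M K * ε ≤ 1)
    (hbig : ∀ R : ℝ, ∃ Db Dbp, M.Fat R (1 / 8) Db Dbp)
    {r' Cn η₀ L' : ℝ} (hr0 : 0 ≤ r') (hr' : r' ≤ r)
    (hr'' : K * (r' + 2 * M.C0 + 1) + 2 * M.C0 ≤ r) (hCn : 0 ≤ Cn)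
    (hn : ∀ (Bm : Ht k →L[ℝ] Ht k) (δ : ℝ), 0 ≤ δ →
      (∀ u : S, (M.l u : ℝ) ≤ r' → ‖Bm (M.θ u)‖ ≤ δ) → ‖Bm‖ ≤ Cn * δ / r')
    (hL : L ≤ L') (hL' : 1 ≤ L') (hη0 : 0 ≤ η) (hAD : 0 ≤ AD)
    (hη₀ : Cn * ((8 + 4 * L') * (δ₂ + 2 * η * AD) +
      (2 * M.C0 * K + 2 * L' * M.C0 * M.C0)) / r' ≤ η₀)
    (h3η : 3 * η ≤ η₀) (h8 : 8 * L' * η₀ < csep) :
    ∃ H₁ : Subgroup H, H₁.index ≠ 0 ∧ H₁.index ≤ Nat.card (V₁ → Set Φ₁) ∧
      ∀ x ∈ H₁, ∀ Y, ∃ T', ‖T' - 1‖ ≤ 3 * η₀ ∧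
        SF B h d₁ s c₁ ε κ A (M.f (trL M Y (Ps x))) T' := by
  classical
  have hK : 0 ≤ K := (hF.qi 1).K_nonneg
  have hcT := cT_nonneg (M := M) hK
  have hC0 := M.C0_pos
  have hηη₀ : η ≤ η₀ := by linarith
  have hη₀0 : 0 ≤ η₀ := by linarith
  have hcs : η₀ < csep := by nlinarith
  obtain ⟨lab, 𝕋, 𝕋', a1, a2, a3⟩ := stepA hF pair flt hδ₂ hu hsep (by linarith)
  have hδ₂0 : 0 ≤ δ₂ := le_trans (by positivity) hδ₂'
  -- flatness at all locations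
  have hflt : ∀ (x : H) (Y : S), Flt M (fun z => M.f (Ps x) (Y * z)) D (𝕋 x)
      (δ₂ + 2 * η * AD) ε := by
    intro x Y
    obtain ⟨b1, b2⟩ := a2 x Y
    have e1 := (flt_at hF flt b2).mono hδ₂ le_rfl
    refine e1.congrT hD.hts ?_
    rw [norm_sub_rev]
    exact b1
  have hnorm : ∀ x, ‖𝕋 x‖ ≤ L' := fun x => (a1 x).norm_le.trans hL
  -- multiplicativity
  have hmul : ∀ x y, ‖𝕋 (x * y) - 𝕋 x * 𝕋 y‖ ≤ η₀ := by
    intro x y
    obtain ⟨R₀, hR₀⟩ := hD.bd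
    set R : ℝ := max (max R₀ r) 0 with hR
    obtain ⟨Db, Dbp, hDb⟩ := hbig (R + 2 * M.C0 + K + K * (K + 2 * M.C0 + R + 1))
    refine (hn _ ((8 + 4 * L') * (δ₂ + 2 * η * AD) + (2 * M.C0 * K + 2 * L' * M.C0 * M.C0))
      (by positivity) fun u hu' => ?_).trans hη₀
    refine comp (hF.qi y) (hF.mul x y) hD hκ₂ (by positivity) hε (hnorm x) (hflt x) (hflt y)
      (hflt (x * y)) hcst (le_max_right _ _) ((le_max_right _ _).trans (le_max_left _ _))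
      (fun z hz => (hR₀ z hz).trans ((le_max_left _ _).trans (le_max_left _ _))) hDb
      (hu'.trans hr') ?_
    have : K * ((M.l u : ℝ) + 2 * M.C0 + 1) ≤ K * (r' + 2 * M.C0 + 1) :=
      mul_le_mul_of_nonneg_left (by linarith) hK
    linarith
  -- the identity
  have hone : ‖𝕋 1 - 1‖ ≤ 3 * η := by
    obtain ⟨b1, b2⟩ := a2 1 1
    have e1 := (flt_at hF flt b2).mono hδ₂ le_rfl
    have e2 := flt_one hF (D := D) (ε := ε) hδ₂'
    have e3 := hu (fun z => M.f (Ps 1) (1 * z)) (𝕋' 1 1) 1 1 (by rw [M.len.one]; exact zero_le_one)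
      e1 (by simpa only [one_mul] using e2)
    have e4 := norm_add_le (𝕋 1 - 𝕋' 1 1) (𝕋' 1 1 - 1)
    rw [sub_add_sub_cancel, norm_sub_rev (𝕋 1) (𝕋' 1 1)] at e4
    linarith
  -- the labels
  obtain ⟨H₁, i1, i2, i3⟩ := Vale.Agent.P188.H671.lab_subgroup
    (ι := V₁ → Set Φ₁) (lab := fun x v => {b : Φ₁ | (b : Ht k →L[ℝ] ℝ) ∈ lab x v}) 𝕋
    (L := L') (ε := η₀) (c := csep) hL' hnorm hη₀0 hmul (hone.trans h3η)
    (by
      intro x y hxy
      refine (a3 x y ?_).trans (by linarith)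
      funext v
      have h1 := congrFun hxy v
      ext b
      constructor
      · intro hb
        have h2 : (⟨b, (a1 x).sub v hb⟩ : Φ₁) ∈ {b : Φ₁ | (b : Ht k →L[ℝ] ℝ) ∈ lab x v} := hb
        rw [h1] at h2
        exact h2
      · intro hb
        have h2 : (⟨b, (a1 y).sub v hb⟩ : Φ₁) ∈ {b : Φ₁ | (b : Ht k →L[ℝ] ℝ) ∈ lab y v} := hb
        rw [← h1] at h2
        exact h2)
    (by
      intro x y hxy
      have h1 := hsep _ _ _ _ (a1 x) (a1 y) hxy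
      simp only [h1])
    h8
  refine ⟨H₁, i1, i2, fun x hx Y => ⟨𝕋' x Y, ?_, (a2 x Y).2⟩⟩
  have e1 := norm_add_le (𝕋' x Y - 𝕋 x) (𝕋 x - 1)
  rw [sub_add_sub_cancel] at e1
  have e2 := (a2 x Y).1
  have e3 := i3 x hx
  linarith

end Vale.Agent.P188.Z1.Lab

end
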