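import Vale.Agent.P188.R.G106
import Vale.Agent.P188.R.G105
import Vale.Agent.P188.R.G086
import Vale.Agent.P188.R.G100

section

/-!
# P188, Z1, block STRAIGHT: COH + PEAK + NFp imply STRAIGHT
-/

set_option linter.all false

open MeasureTheory Set
open scoped ENNReal
open Vale.P188.H654

namespace Vale.Agent.P188.Z1

theorem ln_num0 {c s : ℝ} (hc : 0 < c) (hs : 2 ≤ c * s) :
    ∃ q : ℕ, 0 < q ∧ (q : ℝ) ≤ c * s ∧ c * s ≤ 2 * q := by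
  obtain ⟨q, hq⟩ : ∃ q : ℕ, q = ⌊c * s⌋₊ := ⟨_, rfl⟩
  have h1 : (q : ℝ) ≤ c * s := by rw [hq]; exact Nat.floor_le (by linarith)
  have h2 : c * s < q + 1 := by rw [hq]; exact Nat.lt_floor_add_one _
  have h3 : (0 : ℝ) < q := by linarith
  exact ⟨q, by exact_mod_cast h3, h1, by linarith⟩

theorem ln_numA {A B : ℕ} {ρ s Cc LK LL CN δ₂ ca ε εm : ℝ} (hCc : 1 ≤ Cc) (hs : 0 < s)
    (hρ : 2 * (Cc * (B + 1)) ≤ ρ) (hρs : ρ ≤ s) (hρca : ρ ≤ ca * s) (hLK : LK ≤ LL) (hLL : 0 < LL)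
    (hCN : CN = 2 * (Cc * (B + 1)) * A + 2) (hδ₂ : δ₂ = ε / (4 * LL * CN)) (hε : 0 < ε)
    (hca : ca ≤ ε / (8 * LL)) (hεm0 : 0 ≤ εm) (hεm : εm ≤ ε / (4 * CN)) :
    ∃ q₁ N m' : ℕ, 0 < q₁ ∧ Cc * (q₁ * B : ℕ) ≤ ρ ∧ A * s ≤ (N * q₁ : ℕ) ∧
      N * (εm * ρ) + LK * ρ * (m' + 1) ≤ ε * s ∧ 0 < m' ∧ (N : ℝ) ≤ 1 / δ₂ * m' := by
  have hD : 0 < Cc * (B + 1) := by positivity
  have hρ0 : 0 < ρ := by linarith
  have hCN0 : 0 < CN := by rw [hCN]; positivity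
  have hδ₂0 : 0 < δ₂ := by rw [hδ₂]; positivity
  obtain ⟨q₁, hq0, hq1, hq2⟩ := ln_num0 (c := 1 / (Cc * (B + 1))) (s := ρ) (by positivity) (by
    rw [div_mul_eq_mul_div, one_mul, le_div_iff₀ hD]; exact hρ)
  rw [div_mul_eq_mul_div, one_mul] at hq1 hq2
  rw [le_div_iff₀ hD] at hq1
  rw [div_le_iff₀ hD] at hq2
  have hq₁0 : (0 : ℝ) < q₁ := by exact_mod_cast hq0
  obtain ⟨N, hN⟩ : ∃ N : ℕ, N = ⌈A * s / q₁⌉₊ + 1 := ⟨_, rfl⟩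
  have hN1 : A * s / q₁ ≤ N := by rw [hN]; push_cast; linarith [Nat.le_ceil (A * s / (q₁ : ℝ))]
  have hN2 : (N : ℝ) ≤ A * s / q₁ + 2 := by
    rw [hN]; push_cast
    have := (Nat.ceil_lt_add_one (show 0 ≤ A * s / (q₁ : ℝ) by positivity)).le
    linarith
  have hN0 : (0 : ℝ) < N := by
    have : 0 < N := by rw [hN]; omega
    exact_mod_cast this
  -- `N ρ ≤ CN s`
  have hNρ : N * ρ ≤ CN * s := by
    have h1 : A * s / q₁ * ρ ≤ 2 * (Cc * (B + 1)) * A * s := by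
      rw [div_mul_eq_mul_div, div_le_iff₀ hq₁0]
      have h2 : A * s * ρ ≤ A * s * (2 * q₁ * (Cc * (B + 1))) :=
        mul_le_mul_of_nonneg_left hq2 (by positivity)
      linarith
    have h3 := mul_le_mul_of_nonneg_right hN2 hρ0.le
    rw [hCN]
    linarith
  obtain ⟨m', hm'⟩ : ∃ m' : ℕ, m' = ⌈δ₂ * N⌉₊ := ⟨_, rfl⟩
  have hm1 : δ₂ * N ≤ m' := by rw [hm']; exact Nat.le_ceil _
  have hm2 : (m' : ℝ) ≤ δ₂ * N + 1 := by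
    rw [hm']; exact (Nat.ceil_lt_add_one (by positivity)).le
  have hm0 : (0 : ℝ) < m' := lt_of_lt_of_le (by positivity) hm1
  refine ⟨q₁, N, m', hq0, ?_, ?_, ?_, by exact_mod_cast hm0, ?_⟩
  · push_cast
    have : Cc * (q₁ * B) ≤ q₁ * (Cc * (B + 1)) := by
      have : 0 ≤ q₁ * Cc := by positivity
      nlinarith
    linarith
  · push_cast
    rw [div_le_iff₀ hq₁0] at hN1
    exact hN1
  · have h1 : N * (εm * ρ) ≤ ε / 4 * s := by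
      calc N * (εm * ρ) = εm * (N * ρ) := by ring
        _ ≤ ε / (4 * CN) * (CN * s) := mul_le_mul hεm hNρ (by positivity) (by positivity)
        _ = ε / 4 * s := by field_simp
    have h2 : LK * ρ * (m' + 1) ≤ LL * ρ * (δ₂ * N + 2) := by
      refine mul_le_mul (mul_le_mul_of_nonneg_right hLK hρ0.le) (by linarith) (by positivity)
        (by positivity)
    have h3 : LL * ρ * (δ₂ * N + 2) = LL * δ₂ * (N * ρ) + 2 * LL * ρ := by ring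
    have h4 : LL * δ₂ * (N * ρ) ≤ ε / 4 * s := by
      calc LL * δ₂ * (N * ρ) ≤ LL * δ₂ * (CN * s) := mul_le_mul_of_nonneg_left hNρ (by positivity)
        _ = ε / 4 * s := by rw [hδ₂]; field_simp
    have h5 : 2 * LL * ρ ≤ ε / 4 * s := by
      calc 2 * LL * ρ ≤ 2 * LL * (ε / (8 * LL) * s) := by
            refine mul_le_mul_of_nonneg_left (hρca.trans ?_) (by positivity)
            exact mul_le_mul_of_nonneg_right hca hs.le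
        _ = ε / 4 * s := by field_simp; ring
    have h6 : 0 ≤ ε * s := by positivity
    linarith
  · rw [div_mul_eq_mul_div, one_mul, le_div_iff₀ hδ₂0]
    linarith

theorem ln_numC {c₀ κ₁ s lm J dd BΦ κN : ℝ} (hc₀ : 0 < c₀) (hlm : 0 < lm)
    (hdd : dd = c₀ * κ₁ / (64 * lm)) (hJ : κ₁ * s ≤ 8 * lm * J) (hB : 0 ≤ BΦ)
    (hκN : κN ≤ dd / (BΦ + 1)) (hκN0 : 0 ≤ κN) (hs : 0 ≤ s) :
    dd * s ≤ c₀ * J / 8 ∧ BΦ * (κN * s) ≤ c₀ * J / 8 := by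
  have h1 : dd * s ≤ c₀ * J / 8 := by
    rw [hdd, div_mul_eq_mul_div, div_le_iff₀ (by positivity)]
    have := mul_le_mul_of_nonneg_left hJ hc₀.le
    linarith
  refine ⟨h1, le_trans ?_ h1⟩
  rw [le_div_iff₀ (by positivity)] at hκN
  have h2 : BΦ * κN ≤ dd := by linarith
  have := mul_le_mul_of_nonneg_right h2 hs
  linarith

theorem ln_numD {C0 x s : ℝ} {m a : ℕ} (hC0 : 0 ≤ C0) (hs : 0 ≤ s) (hx : 0 ≤ x)
    (h : (a : ℝ) ≤ x * s) : C0 * (1 + (a : ℝ)) ^ m ≤ C0 * (1 + x) ^ m * (1 + s) ^ m := by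
  rw [mul_assoc, ← mul_pow]
  refine mul_le_mul_of_nonneg_left (pow_le_pow_left₀ (by positivity) ?_ m) hC0
  nlinarith

theorem ln_a1 {qb B J lm : ℕ} {c₇ s κ₁ : ℝ} (h1 : (qb : ℝ) ≤ c₇ * s)
    (h2 : ((J * lm : ℕ) : ℝ) ≤ κ₁ * s / 4) (h3 : 0 ≤ κ₁ * s) :
    ((2 * (qb * B) + 2 * (J * lm) : ℕ) : ℝ) ≤ (2 * (c₇ * B) + 2 * κ₁) * s := by
  have h4 : (((2 * (qb * B) + 2 * (J * lm) : ℕ)) : ℝ) =
      2 * (qb * B) + 2 * ((J * lm : ℕ) : ℝ) := by push_cast; ring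
  have h5 : (qb : ℝ) * B ≤ c₇ * s * B := mul_le_mul_of_nonneg_right h1 (Nat.cast_nonneg _)
  rw [h4]
  linarith

theorem ln_a2 {BΦ Lk Lf Cc c₇ s dd X : ℝ} {m B : ℕ} (hB : 0 ≤ BΦ) (hLk : Lk ≤ Lf) (hLf : 0 ≤ Lf)
    (hCc : 0 ≤ Cc) (hc₇ : 0 ≤ c₇) (hs : 0 ≤ s) (h : Cc * (m : ℝ) ≤ c₇ * (Cc * (B + 1)) * s)
    (h2 : c₇ * ((BΦ * Lf + 1) * (Cc * (B + 1))) ≤ dd) (hX : dd * s ≤ X) :
    BΦ * (Lk * (Cc * (m : ℝ))) ≤ X := by
  refine le_trans ?_ hX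
  have h1 : Lk * (Cc * (m : ℝ)) ≤ Lf * (c₇ * (Cc * (B + 1)) * s) :=
    (mul_le_mul_of_nonneg_right hLk (by positivity)).trans (mul_le_mul_of_nonneg_left h hLf)
  have h3 := mul_le_mul_of_nonneg_left h1 hB
  have h4 : 0 ≤ c₇ * (Cc * (B + 1)) * s := by positivity
  have h5 := mul_le_mul_of_nonneg_right h2 hs
  linarith

theorem ln_a3 {Cc c₇ s κ₁ : ℝ} {m B J lm : ℕ} (h : Cc * (m : ℝ) ≤ c₇ * (Cc * (B + 1)) * s)
    (h2 : c₇ * (4 * (Cc * (B + 1))) ≤ κ₁) (hs : 0 ≤ s) (h3 : ((J * lm : ℕ) : ℝ) ≤ κ₁ * s / 4)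
    (h4 : 0 ≤ κ₁ * s) : ((J * lm : ℕ) : ℝ) + Cc * (m : ℝ) ≤ κ₁ * s := by
  have h1 := mul_le_mul_of_nonneg_right h2 hs
  linarith

theorem ln_a4 {n Nb qb A : ℕ} {c₇ s : ℝ} (hn : (n : ℝ) ≤ A * s) (h : 2 * (A : ℝ) ≤ Nb * c₇)
    (h2 : c₇ * s ≤ 2 * qb) (hs : 0 ≤ s) : n ≤ Nb * qb := by
  have h1 : (n : ℝ) ≤ (Nb * qb : ℕ) := by
    push_cast
    have h3 : (Nb : ℝ) * (c₇ * s) ≤ Nb * (2 * qb) :=
      mul_le_mul_of_nonneg_left h2 (Nat.cast_nonneg _)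
    have h4 := mul_le_mul_of_nonneg_right h hs
    linarith
  exact_mod_cast h1

theorem ln_a5 {Q εT ε εm t c : ℝ} {Nb pc : ℕ} (hQ : 0 ≤ Q) (hεT : εT = ε / (1 + 3 * Q))
    (h1 : (Nb + 2) * εm ≤ εT / 2) (h2 : Nb * pc * t ≤ εT / 2) :
    (1 + 3 * Q) * ((Nb + 2) * εm + Nb * (pc * t)) ≤ ε := by
  have h4 : 0 < 1 + 3 * Q := by positivity
  have h5 : (1 + 3 * Q) * εT = ε := by rw [hεT]; field_simp
  have h3 : (Nb + 2) * εm + Nb * (pc * t) ≤ εT := by linarith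
  calc _ ≤ (1 + 3 * Q) * εT := mul_le_mul_of_nonneg_left h3 h4.le
    _ = ε := h5

theorem ln_b1 {A pc k : ℕ} {εm ε s t : ℝ} (h1 : εm ≤ ε / 4) (hs : 0 ≤ s) (ht : 0 ≤ t)
    (h : (1 + pc) * (2 * (A : ℝ) + 1) ^ k * (1 + s) ^ k * t ≤ ε / 2) :
    2 * εm + (2 * (A * s) + 1) ^ k * (((1 + pc : ℕ) : ℝ) * t) ≤ ε := by
  have h2 : (2 * (A * s) + 1) ^ k ≤ (2 * (A : ℝ) + 1) ^ k * (1 + s) ^ k := by
    rw [← mul_pow]
    refine pow_le_pow_left₀ (by positivity) ?_ k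
    have : (0 : ℝ) ≤ A := Nat.cast_nonneg _
    nlinarith
  have h3 := mul_le_mul_of_nonneg_right h2 (show 0 ≤ ((1 + pc : ℕ) : ℝ) * t by positivity)
  push_cast at h3 ⊢
  linarith

theorem ln_b2 {C0 κ₁ s dm nm : ℝ} {a m : ℕ} (hC0 : 0 ≤ C0) (hs : 0 ≤ s) (hκ₁ : 0 ≤ κ₁)
    (ha : (a : ℝ) ≤ κ₁ * s / 4) (hnm : 0 ≤ nm)
    (h : C0 * (1 + κ₁) ^ m * (1 + s) ^ m * Real.exp (-(dm / 2 * s)) ≤ 1)
    (h2 : nm ≤ Real.exp (dm / 2 * s)) : C0 * (1 + (a : ℝ)) ^ m * nm ≤ Real.exp (dm * s) := by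
  have h3 : 0 ≤ κ₁ * s := by positivity
  have h1 : C0 * (1 + (a : ℝ)) ^ m ≤ C0 * (1 + κ₁) ^ m * (1 + s) ^ m :=
    ln_numD hC0 hs hκ₁ (by linarith)
  rw [Real.exp_neg, mul_inv_le_iff₀ (Real.exp_pos _), one_mul] at h
  calc C0 * (1 + (a : ℝ)) ^ m * nm ≤ Real.exp (dm / 2 * s) * Real.exp (dm / 2 * s) :=
        mul_le_mul (h1.trans h) h2 hnm (Real.exp_pos _).le
    _ = Real.exp (dm * s) := by rw [← Real.exp_add]; congr 1; ring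

/-- the constants of the straightness lemma -/
theorem ln_c7 {dd BΦ Lf Cc κ₁ : ℝ} {A B : ℕ} (hdd : 0 < dd) (hB : 0 ≤ BΦ) (hLf : 0 ≤ Lf)
    (hCc : 0 < Cc) (hκ₁ : 0 < κ₁) : ∃ (c₇ : ℝ) (Nb : ℕ), 0 < c₇ ∧
      c₇ * ((BΦ * Lf + 1) * (Cc * (B + 1))) ≤ dd ∧ c₇ * (4 * (Cc * (B + 1))) ≤ κ₁ ∧
      2 * (A : ℝ) ≤ Nb * c₇ := by
  obtain ⟨c₇, hc₇⟩ : ∃ c₇, c₇ = min (dd / ((BΦ * Lf + 1) * (Cc * (B + 1))))
    (κ₁ / (4 * (Cc * (B + 1)))) := ⟨_, rfl⟩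
  have hc₇0 : 0 < c₇ := by rw [hc₇]; exact lt_min (by positivity) (by positivity)
  refine ⟨c₇, ⌈2 * A / c₇⌉₊, hc₇0, ?_, ?_, ?_⟩
  · have h1 : c₇ ≤ dd / ((BΦ * Lf + 1) * (Cc * (B + 1))) := by rw [hc₇]; exact min_le_left _ _
    rwa [le_div_iff₀ (by positivity)] at h1
  · have h1 : c₇ ≤ κ₁ / (4 * (Cc * (B + 1))) := by rw [hc₇]; exact min_le_right _ _
    rwa [le_div_iff₀ (by positivity)] at h1
  · have h1 : 2 * A / c₇ ≤ ⌈2 * A / c₇⌉₊ := Nat.le_ceil _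
    rwa [div_le_iff₀ hc₇0] at h1

theorem ln_em {ε CN Q : ℝ} {Nb : ℕ} (hε : 0 < ε) (hCN : 0 < CN) (hQ : 0 ≤ Q) :
    ∃ εT εm : ℝ, 0 < εT ∧ 0 < εm ∧ εT = ε / (1 + 3 * Q) ∧ εm ≤ ε / (4 * CN) ∧ εm ≤ ε / 4 ∧
      (Nb + 2) * εm ≤ εT / 2 := by
  obtain ⟨εT, hεT⟩ : ∃ εT, εT = ε / (1 + 3 * Q) := ⟨_, rfl⟩
  have hεT0 : 0 < εT := by rw [hεT]; positivity
  obtain ⟨εm, hεm⟩ : ∃ εm, εm = min (min (ε / (4 * CN)) (ε / 4)) (εT / (2 * (Nb + 2))) := ⟨_, rfl⟩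
  refine ⟨εT, εm, hεT0, ?_, hεT, ?_, ?_, ?_⟩
  · rw [hεm]; exact lt_min (lt_min (by positivity) (by positivity)) (by positivity)
  · rw [hεm]; exact (min_le_left _ _).trans (min_le_left _ _)
  · rw [hεm]; exact (min_le_left _ _).trans (min_le_right _ _)
  · have h1 : εm ≤ εT / (2 * (Nb + 2)) := by rw [hεm]; exact min_le_right _ _
    rw [le_div_iff₀ (by positivity)] at h1
    linarith

namespace RModel

variable {S : Type} [Group S] [MeasurableSpace S] {Γ : Type} [Group Γ]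
  {V : Type} [AddCommGroup V] [Module ℝ V] {k : ℕ} (M : RModel S Γ V k)

open Classical in
/-- **STRAIGHT.** -/
theorem straight (hC : M.COH) (hP : M.PEAK) (hN : M.NFp) : M.STRAIGHT := by
  intro p K Φ₁ hRays V₁ hDirs
  obtain ⟨lm, hlm1, hlm, hlm'⟩ := M.ln_lm V₁
  obtain ⟨c₀, L, hc₀, hL, hmar⟩ := M.ln_margin hC hP p K Φ₁ hRays V₁ hDirs lm hlm1 hlm
  refine ⟨c₀, L, hc₀, ?_⟩
  intro A B ε κ₁ hε hκ₁
  obtain ⟨Cc, hCc1, hCc⟩ := M.l_CB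
  have hC0 := M.ln_C0
  have hlmR : (1 : ℝ) ≤ lm := by exact_mod_cast hlm1
  have hlm0 : (0 : ℝ) < lm := by linarith
  have hCc0 : 0 < Cc := by linarith
  obtain ⟨BΦ, hBΦ⟩ : ∃ BΦ, BΦ = ∑ b ∈ Φ₁, ‖b‖ := ⟨_, rfl⟩
  have hB0 : 0 ≤ BΦ := by rw [hBΦ]; exact Finset.sum_nonneg fun b _ => norm_nonneg b
  obtain ⟨Lf, hLf⟩ : ∃ Lf, Lf = |M.lnLf K| := ⟨_, rfl⟩
  have hLf0 : 0 ≤ Lf := by rw [hLf]; exact abs_nonneg _
  have hLfK : M.lnLf K ≤ Lf := by rw [hLf]; exact le_abs_self _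
  obtain ⟨pc, hpc⟩ : ∃ pc : ℕ, pc = Fintype.card (V₁ × Bool) := ⟨_, rfl⟩
  obtain ⟨dd, hdd⟩ : ∃ dd, dd = c₀ * κ₁ / (64 * lm) := ⟨_, rfl⟩
  have hdd0 : 0 < dd := by rw [hdd]; positivity
  obtain ⟨κN, hκN⟩ : ∃ κN, κN = min ε (dd / (BΦ + 1)) := ⟨_, rfl⟩
  have hκN0 : 0 < κN := by rw [hκN]; exact lt_min hε (by positivity)
  have hκNε : κN ≤ ε := by rw [hκN]; exact min_le_left _ _
  have hκNd : κN ≤ dd / (BΦ + 1) := by rw [hκN]; exact min_le_right _ _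
  -- `NFp` in the inner sets
  obtain ⟨dm, c₂, s₂, hdm, hc₂, hNF2⟩ := M.ln_nf2 hN K κN ε κ₁ hκN0 hε hκ₁
  -- the blocks
  obtain ⟨c₇, Nb, hc₇0, hc₇1, hc₇2, hNb1⟩ := ln_c7 (A := A) (B := B) hdd0 hB0 hLf0 hCc0 hκ₁
  obtain ⟨LL, hLL⟩ : ∃ LL, LL = Lf + L * M.C0 + 1 := ⟨_, rfl⟩
  have hLL0 : 0 < LL := by rw [hLL]; positivity
  obtain ⟨CN, hCN⟩ : ∃ CN : ℝ, CN = 2 * (Cc * (B + 1)) * A + 2 := ⟨_, rfl⟩
  have hCN0 : 0 < CN := by rw [hCN]; positivity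
  obtain ⟨δ₂, hδ₂⟩ : ∃ δ₂, δ₂ = ε / (4 * LL * CN) := ⟨_, rfl⟩
  have hδ₂0 : 0 < δ₂ := by rw [hδ₂]; positivity
  obtain ⟨ca, hca⟩ : ∃ ca, ca = min 1 (ε / (8 * LL)) := ⟨_, rfl⟩
  have hca0 : 0 < ca := by rw [hca]; exact lt_min one_pos (by positivity)
  have hca1 : ca ≤ 1 := by rw [hca]; exact min_le_left _ _
  have hca2 : ca ≤ ε / (8 * LL) := by rw [hca]; exact min_le_right _ _
  have hQ0 : 0 ≤ 1 / δ₂ := by positivity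
  obtain ⟨εT, εm, hεT0, hεm0, hεT, hεm1, hεm2, hεm3⟩ := ln_em (Nb := Nb) hε hCN0 hQ0
  obtain ⟨κ₂, hκ₂, hκ₂1, hmar2⟩ := hmar εm κ₁ ca hεm0 hκ₁ hca0
  refine ⟨dm / 2, κ₂, by positivity, hκ₂, ?_⟩
  intro κ₃ δ hκ₃ hδ
  obtain ⟨lam, s₁, hlam, T, hmar3⟩ := hmar2 κ₃ δ hκ₃ hδ
  obtain ⟨x₃, hx₃⟩ : ∃ x₃ : ℝ, x₃ = 2 * (c₇ * B) + 2 * κ₁ := ⟨_, rfl⟩
  have hx₃0 : 0 ≤ x₃ := by rw [hx₃]; positivity
  obtain ⟨c₃, s₃, hc₃, hNF3⟩ := M.ln_nf hN K κN κ₃ δ (M.C0 * (1 + x₃) ^ M.deg) M.deg hκN0 hκ₃ hδ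
  obtain ⟨s₄, hs₄, hs₄'⟩ := ln_poly_exp (Nb * pc) c₃ (εT / 2) 0 hc₃ (by positivity)
  obtain ⟨s₅, hs₅, hs₅'⟩ := ln_poly_exp ((1 + pc) * (2 * A + 1) ^ k) c₂ (ε / 2) k hc₂
    (by positivity)
  obtain ⟨s₆, hs₆, hs₆'⟩ := ln_poly_exp (M.C0 * (1 + κ₁) ^ M.deg) (dm / 2) 1 M.deg (by positivity)
    one_pos
  refine ⟨lam, max (max (max s₁ s₂) (max s₃ s₄)) (max (max s₅ s₆) (max (max 1 (2 / c₇))
    (2 * (Cc * (B + 1)) / lam))), hlam, T, ?_⟩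
  intro s hs F F' D Dp hQ hF
  have t1 : s₁ ≤ s := (le_max_left _ _).trans ((le_max_left _ _).trans ((le_max_left _ _).trans hs))
  have t2 : s₂ ≤ s := (le_max_right _ _).trans ((le_max_left _ _).trans ((le_max_left _ _).trans hs))
  have t3 : s₃ ≤ s := (le_max_left _ _).trans ((le_max_right _ _).trans ((le_max_left _ _).trans hs))
  have t4 : s₄ ≤ s :=
    (le_max_right _ _).trans ((le_max_right _ _).trans ((le_max_left _ _).trans hs))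
  have t5 : s₅ ≤ s := (le_max_left _ _).trans ((le_max_left _ _).trans ((le_max_right _ _).trans hs))
  have t6 : s₆ ≤ s :=
    (le_max_right _ _).trans ((le_max_left _ _).trans ((le_max_right _ _).trans hs))
  have t7 : max 1 (2 / c₇) ≤ s :=
    (le_max_left _ _).trans ((le_max_right _ _).trans ((le_max_right _ _).trans hs))
  have t8 : 2 * (Cc * (B + 1)) / lam ≤ s :=
    (le_max_right _ _).trans ((le_max_right _ _).trans ((le_max_right _ _).trans hs))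
  have hs1 : 1 ≤ s := (le_max_left _ _).trans t7
  have hs7 : 2 / c₇ ≤ s := (le_max_right _ _).trans t7
  have hs0 : 0 < s := by linarith
  rw [div_le_iff₀ hlam] at t8
  rw [div_le_iff₀ hc₇0] at hs7
  obtain ⟨ρ, hρ1, hρ2, hα⟩ := hmar3 s t1 F F' D Dp hQ hF
  refine ⟨ρ, hρ1, hρ2.trans (mul_le_of_le_one_left hs0.le hca1), fun α => ?_⟩
  obtain ⟨σ, D₁, J, hσm, hσg, hlin, hJ1, hJ2, hμ1, hμG⟩ := hα α
  have hJ0 : 0 < J := by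
    rcases Nat.eq_zero_or_pos J with h | h
    · exfalso
      rw [h] at hJ1
      have : 0 < κ₁ * s := by positivity
      simp at hJ1
      linarith
    · exact h
  obtain ⟨n1, n2⟩ := ln_numC (BΦ := BΦ) (κN := κN) hc₀ hlm0 hdd hJ1 hB0 hκNd hκN0.le hs0.le
  have hJlm : ((J * lm : ℕ) : ℝ) ≤ κ₁ * s / 4 := by push_cast; linarith
  obtain ⟨qb, hqb0, hqb1, hqb2⟩ := ln_num0 (c := c₇) (s := s) hc₇0 (by linarith)
  have hqbB : Cc * (qb * B : ℕ) ≤ c₇ * (Cc * (B + 1)) * s := by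
    push_cast
    have h1 : Cc * (qb * B) ≤ Cc * (qb * (B + 1)) :=
      mul_le_mul_of_nonneg_left (mul_le_mul_of_nonneg_left (by linarith) (Nat.cast_nonneg _))
        hCc0.le
    have h2 : qb * (Cc * (B + 1)) ≤ c₇ * s * (Cc * (B + 1)) :=
      mul_le_mul_of_nonneg_right hqb1 (by positivity)
    linarith
  obtain ⟨q₁, N, m', w1, w2, w3, w4, w5, w6⟩ := ln_numA (A := A) (B := B) (ρ := ρ) (s := s)
    (Cc := Cc) (LK := M.lnLf K + L * M.C0) (LL := LL) (CN := CN) (δ₂ := δ₂) (ca := ca) (ε := ε)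
    (εm := εm) hCc1 hs0 (by linarith) (hρ2.trans (mul_le_of_le_one_left hs0.le hca1)) hρ2
    (by rw [hLL]; linarith) hLL0 hCN hδ₂ hε hca2 hεm0.le hεm1
  have hκs : 0 ≤ κ₁ * s := mul_nonneg hκ₁.le hs0.le
  refine ⟨fun z => (σ z).1, hσm, hσg, ?_, ?_⟩
  · -- (a)
    intro n hn q hq0 hq Din hDin
    refine M.ln_partA (hQ α) (σ := σ) (T := T ρ) (c₀ := c₀) (L := L) hL hc₀ hσg (D₁ := D₁)
      (D := D α) (ρ := ρ) (εm := εm) (Cc := Cc) (d' := κN * s) (R := κ₁ * s) (E := ε * s)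
      (ε := ε) (t := Real.exp (-(c₃ * s))) (Q := 1 / δ₂) (J := J) (lm := lm) (qb := qb) (Nb := Nb)
      (q₁ := q₁) (N := N) (m' := m') (B := B) (n := n) (Nat.cast_nonneg _) hεm0.le
      (Real.exp_pos _).le hJ0 hlin hCc0.le hCc hlm hlm' hμ1 hμG ?_ ?_ ?_ ?_ ?_ w1 w2 ?_ w4 w5
      hQ0 w6 ?_ hq0 hq hDin
    · intro y hy hyn
      exact hNF3 s t3 (F α) (F' α) (hQ α) (D α) (Dp α) ((hF α).mono le_rfl le_rfl hκ₂1) y hy
        (hyn.trans (ln_numD hC0 hs0.le hx₃0 (by rw [hx₃]; exact ln_a1 hqb1 hJlm hκs)))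
    · rw [← hBΦ]
      exact ln_a2 hB0 hLfK hLf0 hCc0.le hc₇0.le hs0.le hqbB hc₇1 n1
    · rw [← hBΦ]; exact n2
    · exact ln_a3 hqbB hc₇2 hs0.le hJlm hκs
    · exact ln_a4 hn hNb1 hqb2 hs0.le
    · exact_mod_cast hn.trans w3
    · rw [← hpc]
      have h1 := hs₄' s t4
      rw [pow_zero, mul_one] at h1
      exact ln_a5 (c := 0) hQ0 hεT hεm3 h1
  · -- (b)
    intro y hy Din hDin
    rcases hNF2 s t2 (F α) (F' α) (hQ α) (D α) (hF α).fin with hsm | hNF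
    · refine le_trans (measure_mono ?_) hsm
      rintro z ⟨hz, _⟩
      have := (hDin z hz).2 0 le_rfl zero_le_one
      rwa [zero_smul, M.ex_zero, mul_one] at this
    · refine M.ln_partB (hQ α) (σ := σ) (c₀ := c₀) hc₀ (D := D α) (εm := εm) (d' := κN * s)
        (R := κ₁ * s) (R' := 3 / 4 * (κ₁ * s)) (E := ε * s) (ε := ε)
        (t := Real.exp (-(c₂ * s))) (Y := Real.exp (dm * s)) (r := A * s) (J := J) (lm := lm)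
        hεm0.le (Real.exp_pos _).le hJ0 (mul_nonneg (Nat.cast_nonneg _) hs0.le) hκs hlm hlm' hμG
        hNF ?_ ?_ ?_ ?_ y (fun w => (hy w).1) ?_ (fun z hz => (hDin z hz).1)
        (fun z hz => (hDin z hz).2)
      · rw [← hBΦ]; exact n2
      · linarith
      · exact mul_le_mul_of_nonneg_right hκNε hs0.le
      · rw [← hpc]
        exact ln_b1 hεm2 hs0.le (Real.exp_pos _).le (hs₅' s t5)
      · intro w
        exact ln_b2 hC0 hs0.le hκ₁.le hJlm (M.nm_nonneg _) (hs₆' s t6) (hy w).2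

end RModel

end Vale.Agent.P188.Z1

end

section

/-!
# P188, Z1: STRAIGHT holds
-/

set_option linter.all false

open MeasureTheory Set

namespace Vale.Agent.P188.Z1

namespace RModel

variable {S : Type} [Group S] [MeasurableSpace S] {Γ : Type} [Group Γ]
  {V : Type} [AddCommGroup V] [Module ℝ V] {k : ℕ} (M : RModel S Γ V k)

/-- **STRAIGHT holds** in every model with natural boxes. -/
theorem straight_holds (B : M.NatBox) (hB : B.Fine) : M.STRAIGHT :=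
  M.straight (coh_of M (M.lin M.nfp_holds (M.boxq B hB)) M.ray_holds) M.peak_holds M.nfp_holds

end RModel

end Vale.Agent.P188.Z1

end
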