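import Vale.Agent.P188.R.G107
import Vale.Agent.P188.R.G068

/-!
# P188, Z1, block LAB, part 8: the theorem LAB
-/

set_option linter.all false

open MeasureTheory Set Filter
open scoped ENNReal

namespace Vale.Agent.P188.Z1.Lab

variable {S : Type} [Group S] [MeasurableSpace S] {Γ : Type} [Group Γ]
  {V : Type} [AddCommGroup V] [Module ℝ V] {k : ℕ} {M : RModel S Γ V k}

open RModel

/-- sets with small boundary at every scale -/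
theorem big {B : M.NatBox} (hD : M.DBOXH B) (R : ℝ) : ∃ Db Dbp, M.Fat R (1 / 8) Db Dbp := by
  obtain ⟨κ₁, hκ₁, h1⟩ := hD 1 one_pos (1 / 2) (by norm_num) (by norm_num) 1 one_pos (1 / 8)
    (by norm_num)
  obtain ⟨s₀, h2⟩ := h1 1 (1 / (2 * κ₁)) one_pos (by positivity) (by
    have : 1 / (2 * κ₁) * κ₁ = 1 / 2 := by field_simp
    linarith)
  obtain ⟨Dp, h3⟩ := h2 (max s₀ (R / κ₁)) (le_max_left _ _) (fun _ => 1)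
    (fun b _ => ⟨le_rfl, by norm_num⟩)
  refine ⟨_, _, h3.toFat.mono ?_ le_rfl⟩
  have h4 : R / κ₁ ≤ max s₀ (R / κ₁) := le_max_right _ _
  rw [div_le_iff₀ hκ₁] at h4
  linarith

theorem evlin (A : ℝ) {B : ℝ} (hB : 0 < B) : ∀ᶠ s : ℝ in atTop, A ≤ B * s :=
  (tendsto_id.const_mul_atTop hB).eventually_ge_atTop A

theorem n1 {Cn L' ε₁ s a CA q κ₁ K : ℝ} (hCn : 0 ≤ Cn) (hκ₁ : 0 < κ₁) (hs : 0 < s) (hK : 0 ≤ K)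
    (hq : q ≤ ε₁ * s) :
    Cn * ((8 + 4 * L') * (2 * ε₁ * s + 2 * (a * ε₁) * (CA * s)) + q) / (κ₁ * s / (2 * (K + 1))) ≤
      (Cn * ((8 + 4 * L') * (2 + 2 * a * CA) + 1) * (2 * (K + 1)) / κ₁) * ε₁ := by
  rw [div_le_iff₀ (by positivity)]
  have e1 : (Cn * ((8 + 4 * L') * (2 + 2 * a * CA) + 1) * (2 * (K + 1)) / κ₁) * ε₁ *
      (κ₁ * s / (2 * (K + 1))) = Cn * ((8 + 4 * L') * (2 * ε₁ * s + 2 * (a * ε₁) * (CA * s)) +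
        ε₁ * s) := by
    field_simp
  rw [e1]
  exact mul_le_mul_of_nonneg_left (by linarith) hCn

theorem n2 {K X C0 : ℝ} (hK : 0 ≤ K) (hX : 0 ≤ X) (h : K * (2 * C0 + 1) + 2 * C0 ≤ 1 / 2 * X) :
    K * (X / (2 * (K + 1)) + 2 * C0 + 1) + 2 * C0 ≤ X := by
  have h1 : K * (X / (2 * (K + 1))) ≤ 1 / 2 * X := by
    rw [mul_div_assoc', div_le_iff₀ (by positivity)]
    nlinarith
  linarith

/-- choice of the accuracy -/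
theorem num_eps {e XC ε csep c cs L' : ℝ} (he : 0 ≤ e) (hXC : 0 ≤ XC) (hε : 0 < ε)
    (hcsep : 0 < csep) (hc : 0 < c) (hcs : 0 ≤ cs) (hL' : 0 ≤ L') : ∃ ε₁ : ℝ, 0 < ε₁ ∧
    ε₁ * (2 + 3 * e * XC) ≤ ε ∧ 8 * L' * (e * ε₁) < csep ∧ 16 * ε₁ ≤ c ∧ cs * ε₁ ≤ 1 := by
  set W : ℝ := (2 + 3 * e * XC) / ε + 8 * L' * e / csep + 16 / c + cs + 1 with hW
  have w1 : 0 ≤ (2 + 3 * e * XC) / ε := by positivity
  have w2 : 0 ≤ 8 * L' * e / csep := by positivity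
  have w3 : 0 ≤ 16 / c := by positivity
  have hW0 : 0 < W := by linarith
  have key : ∀ y d : ℝ, 0 < d → y / d ≤ W → W⁻¹ * y ≤ d := by
    intro y d hd hy
    rw [div_le_iff₀ hd] at hy
    rw [inv_mul_le_iff₀ hW0]
    linarith
  refine ⟨W⁻¹, by positivity, key _ _ hε (by linarith), ?_, ?_, ?_⟩
  · have h1 : 8 * L' * e / csep < W := by linarith
    rw [div_lt_iff₀ hcsep] at h1
    have h2 : 8 * L' * (e * W⁻¹) = W⁻¹ * (8 * L' * e) := by ring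
    rw [h2, inv_mul_lt_iff₀ hW0]
    linarith
  · have := key 16 c hc (by linarith)
    linarith
  · have := key cs 1 one_pos (by rw [div_one]; linarith)
    linarith

/-- the last step -/
theorem lab_fin {K : ℝ} {F F' : Γ → Γ} (hF : M.QIm K F F') {B : M.NatBox}
    {h : (Ht k →L[ℝ] ℝ) → ℝ} {d₁ s c₁ ε κ A ε₁ κ' A₁ η₀ Cl XC : ℝ} {T' : Ht k →L[ℝ] Ht k} {Y : S}
    (hS : SF B h d₁ s c₁ ε₁ κ' A₁ (M.f (trL M Y F)) T') (ht : ‖T' - 1‖ ≤ 3 * η₀) (hs : 0 ≤ s)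
    (hh0 : ∀ b ∈ M.Φ, 0 ≤ h b) (hκ : κ' ≤ κ) (hA : A ≤ A₁)
    (hl : ∀ n, ∀ c ∈ M.CB n, (M.l c : ℝ) ≤ Cl * n) (hCl : 0 ≤ Cl) (hc₁ : 0 ≤ c₁)
    (hXC : XC = M.C0 * (c₁ + Cl * |A|)) (hη₀ : 0 ≤ η₀) (hε₁ : 0 ≤ ε₁) (hcT : cT M K ≤ ε₁ * s)
    (E1 : ε₁ * 2 + 3 * η₀ * XC ≤ ε) :
    SF B h d₁ s c₁ ε κ A (fun z => M.f F (Y * z)) (1 : Ht k →L[ℝ] Ht k) := by
  have hC0 := M.C0_pos
  have hXC0 : 0 ≤ XC := by rw [hXC]; positivity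
  have h3 : 0 ≤ 3 * η₀ * XC := by positivity
  refine hS.congr (δ' := cT M K) (t := 3 * η₀) (X := XC * s) hs hh0 (by linarith) hκ hA
    (fun z => by rw [norm_sub_rev]; exact f_trL hF Y z) (by rw [norm_sub_rev]; exact ht) ?_ ?_ ?_
  · intro z hz
    have k1 : M.C0 * (M.l z : ℝ) ≤ M.C0 * (c₁ * s) := mul_le_mul_of_nonneg_left hz hC0.le
    have k2 : 0 ≤ M.C0 * (Cl * |A|) * s := by positivity
    have k3 : XC * s = M.C0 * (c₁ * s) + M.C0 * (Cl * |A|) * s := by rw [hXC]; ring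
    exact (M.θ_le z).trans (by linarith)
  · intro n hn z hz
    have k0 := hl n z hz
    have k1 : Cl * (n : ℝ) ≤ Cl * (|A| * s) := mul_le_mul_of_nonneg_left
      (hn.trans (mul_le_mul_of_nonneg_right (le_abs_self A) hs)) hCl
    have k2 : M.C0 * (M.l z : ℝ) ≤ M.C0 * (Cl * (|A| * s)) :=
      mul_le_mul_of_nonneg_left (k0.trans k1) hC0.le
    have k3 : 0 ≤ M.C0 * c₁ * s := by positivity
    have k4 : XC * s = M.C0 * c₁ * s + M.C0 * (Cl * (|A| * s)) := by rw [hXC]; ring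
    exact (M.θ_le z).trans (by linarith)
  · have k1 : (ε₁ * 2 + 3 * η₀ * XC) * s ≤ ε * s := mul_le_mul_of_nonneg_right E1 hs
    have k2 : (ε₁ * 2 + 3 * η₀ * XC) * s = ε₁ * s + ε₁ * s + 3 * η₀ * (XC * s) := by ring
    linarith

/-- the subgroup, with the constants -/
theorem lab_H₁ {K : ℝ} {H : Type} [Group H] {Ps : H → Γ → Γ} (hFam : M.Fam K Ps)
    {Φ₁ : Finset (Ht k →L[ℝ] ℝ)} {V₁ : Finset (Fin k → ℤ)} {c₀ L : ℝ} {B : M.NatBox}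
    (hD : M.DBOXH B)
    {h : (Ht k →L[ℝ] ℝ) → ℝ} {d₁ s c₁ ε₁ κ' A₁ : ℝ}
    {Tf : ℕ → (V₁ → Set (Ht k →L[ℝ] ℝ)) → (Ht k →L[ℝ] Ht k)}
    (pair : ∀ F F' : Fin 2 → Γ → Γ, (∀ α, M.QIm (K2 M K) (F α) (F' α)) → ∃ ρ : ℕ, ∀ α,
      ∃ a : V₁ → Set (Ht k →L[ℝ] ℝ), GoodLab Φ₁ V₁ c₀ L (Tf ρ a) a ∧
        SF B h d₁ s c₁ ε₁ κ' A₁ (M.f (F α)) (Tf ρ a))
    {D : Set S}
    (flt : ∀ (g : S → Ht k) (T : Ht k →L[ℝ] Ht k), SF B h d₁ s c₁ ε₁ κ' A₁ g T →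
      Flt M g D T (ε₁ * s) ε₁)
    {csep : ℝ}
    (hsep : ∀ (L L' : ℝ) (T T' : Ht k →L[ℝ] Ht k) (a a' : V₁ → Set (Ht k →L[ℝ] ℝ)),
      GoodLab Φ₁ V₁ c₀ L T a → GoodLab Φ₁ V₁ c₀ L' T' a' → ‖T - T'‖ < csep → a = a')
    {κ₁ κ₂ c CA Cu Cn L' a b : ℝ} (hTB : TB M (κ₁ * s) κ₂ c (CA * s) D) (hκ₁ : 0 < κ₁)
    (hκ₂0 : 0 ≤ κ₂) (hκ₂ : κ₂ ≤ 1 / 8) (hκ₂c : κ₂ ≤ c / 8) (hCA : 0 ≤ CA) (hCu : 0 ≤ Cu)
    (hCn : 0 ≤ Cn)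
    (hu : ∀ (r κ c A : ℝ) (D : Set S),
      TB M r κ c A D → Cu ≤ r → 0 ≤ κ → ∀ (h : S → Ht k) (T T' : Ht k →L[ℝ] Ht k)
      (δ ε : ℝ) (g : S), M.l g ≤ 1 → 0 ≤ δ → 0 ≤ ε → 2 * κ + 4 * ε < c →
      Flt M h D T δ ε → Flt M (fun z => h (g * z)) D T' δ ε → ‖T - T'‖ ≤ Cu * δ / r)
    (hn : ∀ r : ℝ, Cn ≤ r → ∀ (B : Ht k →L[ℝ] Ht k) (δ : ℝ), 0 ≤ δ →
      (∀ u : S, (M.l u : ℝ) ≤ r → ‖B (M.θ u)‖ ≤ δ) → ‖B‖ ≤ Cn * δ / r)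
    (hL : L ≤ L') (hL'1 : 1 ≤ L') (ha : a = 2 * Cu / κ₁)
    (hb : b = Cn * ((8 + 4 * L') * (2 + 2 * a * CA) + 1) * (2 * (K + 1)) / κ₁)
    (hε₁ : 0 < ε₁) (E2 : 8 * L' * ((b + 3 * a) * ε₁) < csep) (E4 : 16 * ε₁ ≤ c) (hc : 0 < c)
    (E5 : cst M K * ε₁ ≤ 1) (hs0 : 0 < s) (f1 : cT M K ≤ ε₁ * s)
    (f2 : M.C0 * K + M.C0 * M.C0 ≤ ε₁ * s)
    (f3 : 2 * M.C0 * K + 2 * L' * M.C0 * M.C0 ≤ ε₁ * s) (f4 : Cu ≤ κ₁ * s)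
    (f5 : Cn ≤ κ₁ / (2 * (K + 1)) * s)
    (f6 : K * (2 * M.C0 + 1) + 2 * M.C0 ≤ κ₁ / 2 * s) :
    ∃ H₁ : Subgroup H, H₁.index ≠ 0 ∧ H₁.index ≤ Nat.card (V₁ → Set Φ₁) ∧
      ∀ x ∈ H₁, ∀ Y, ∃ T', ‖T' - 1‖ ≤ 3 * ((b + 3 * a) * ε₁) ∧
        SF B h d₁ s c₁ ε₁ κ' A₁ (M.f (trL M Y (Ps x))) T' := by
  have hK : 0 ≤ K := (hFam.qi 1).K_nonneg
  have hC0 := M.C0_pos
  have ha0 : 0 ≤ a := by rw [ha]; positivity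
  have hb0 : 0 ≤ b := by rw [hb]; positivity
  have hηe : Cu * (2 * ε₁ * s) / (κ₁ * s) = a * ε₁ := by
    rw [ha]; field_simp
  have hc2 : 2 * κ₂ + 4 * ε₁ < c := by linarith
  have hr'e : κ₁ / (2 * (K + 1)) * s = κ₁ * s / (2 * (K + 1)) := by ring
  have hs1 : 0 ≤ ε₁ * s := by positivity
  have hbe : 0 ≤ b * ε₁ := by positivity
  have hae : 0 ≤ a * ε₁ := by positivity
  refine scale hFam pair (D := D) (δ₂ := 2 * ε₁ * s) (η := a * ε₁) (csep := csep) flt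
    (by linarith) (by linarith)
    (fun f T T' g hg e1 e2 => (hu (κ₁ * s) κ₂ c (CA * s) _ hTB f4 hκ₂0 f T T' (2 * ε₁ * s) ε₁ g
      hg (by positivity) hε₁.le hc2 e1 e2).trans hηe.le)
    (fun T T' a a' q1 q2 q3 => hsep L L T T' a a' q1 q2 q3) hTB hκ₂ hε₁.le hs0.le E5
    (fun R => big hD R) (r' := κ₁ * s / (2 * (K + 1))) (Cn := Cn) (η₀ := (b + 3 * a) * ε₁)
    (L' := L')
    (by positivity) (div_le_self (by positivity) (by linarith))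
    (n2 hK (by positivity) (by linarith)) hCn
    (fun Bm δ hδ hB => hn _ (by rw [← hr'e]; exact f5) Bm δ hδ hB) hL hL'1
    hae (by positivity)
    ((n1 hCn hκ₁ hs0 hK f3).trans (by rw [← hb]; linarith)) (by linarith) E2

theorem lab_ev {K ε₁ κ₁ x1 x2 x3 x4 x5 x6 : ℝ} (hε₁ : 0 < ε₁) (hκ₁ : 0 < κ₁) (hK : 0 ≤ K) :
    ∃ s₂ : ℝ, ∀ s, s₂ ≤ s → x1 ≤ ε₁ * s ∧ x2 ≤ ε₁ * s ∧ x3 ≤ ε₁ * s ∧ x4 ≤ κ₁ * s ∧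
      x5 ≤ κ₁ / (2 * (K + 1)) * s ∧ x6 ≤ κ₁ / 2 * s :=
  ((evlin x1 hε₁).and ((evlin x2 hε₁).and ((evlin x3 hε₁).and ((evlin x4 hκ₁).and
    ((evlin x5 (B := κ₁ / (2 * (K + 1))) (by positivity)).and
    ((evlin x6 (B := κ₁ / 2) (by positivity)))))))).exists_forall_of_atTop

/-- **LAB**: on a subgroup of bounded index the linear parts are trivial. -/
theorem lab (B : M.NatBox) (hD : M.DBOXH B) (hV : M.DVOLH B) (hF : M.FLATG B) : M.LAB B := by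
  classical
  obtain ⟨Φ₁, hΦ₁⟩ := M.exists_rays
  obtain ⟨V₁, hV₁⟩ := M.exists_dirs hΦ₁
  refine ⟨Nat.card (V₁ → Set Φ₁), ?_⟩
  intro K H _ Ps hFam H₀ hH₀ c₂ hc₂
  obtain ⟨c₀, L, c₁, hc₀, hc₁, hmain⟩ := hF 2 (K2 M K) Φ₁ hΦ₁ V₁ hV₁ c₂ hc₂
  refine ⟨c₁, hc₁, ?_⟩
  intro ε κ A hε hκ hκ1
  have hK : 0 ≤ K := (hFam.qi 1).K_nonneg
  have hC0 := M.C0_pos
  obtain ⟨csep, hcsep, hsep⟩ := lab_sep (Φ₁ := Φ₁) (V₁ := V₁) hc₀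
  obtain ⟨c, CA, hc, hCA, htb⟩ := tb B hD hV hc₂
  obtain ⟨κ₂, hκ₂0, hκ₂, hκ₂c⟩ : ∃ κ₂ : ℝ, 0 < κ₂ ∧ κ₂ ≤ 1 / 8 ∧ κ₂ ≤ c / 8 :=
    ⟨min (1 / 8) (c / 8), lt_min (by norm_num) (by positivity), min_le_left _ _, min_le_right _ _⟩
  obtain ⟨κ₁, hκ₁, htb'⟩ := htb κ₂ hκ₂0
  obtain ⟨Cu, hCu, hu⟩ := uniq_norm M
  obtain ⟨Cn, hCn, hn⟩ := norm_of_heights M
  obtain ⟨CW, hCW, hW⟩ := win_norm M hc₂
  obtain ⟨Cl, hCl, hl⟩ := M.l_CB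
  obtain ⟨L', hLL', hL'1⟩ : ∃ L' : ℝ, L ≤ L' ∧ 1 ≤ L' := ⟨max L 1, le_max_left _ _, le_max_right _ _⟩
  obtain ⟨A₁, hA₁, hA₁'⟩ : ∃ A₁ : ℝ, A ≤ A₁ ∧ M.C0 * (1 + CW) + 1 ≤ A₁ :=
    ⟨max A (M.C0 * (1 + CW) + 1), le_max_left _ _, le_max_right _ _⟩
  obtain ⟨κ', hκ'0, hκ'κ, hκ'2⟩ : ∃ κ' : ℝ, 0 < κ' ∧ κ' ≤ κ ∧ κ' ≤ 1 / 2 :=
    ⟨min κ (1 / 2), lt_min hκ (by norm_num), min_le_left _ _, min_le_right _ _⟩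
  obtain ⟨a, ha⟩ : ∃ a : ℝ, a = 2 * Cu / κ₁ := ⟨_, rfl⟩
  have ha0 : 0 ≤ a := by rw [ha]; positivity
  obtain ⟨b, hb⟩ : ∃ b : ℝ, b = Cn * ((8 + 4 * L') * (2 + 2 * a * CA) + 1) * (2 * (K + 1)) / κ₁ :=
    ⟨_, rfl⟩
  have hb0 : 0 ≤ b := by rw [hb]; positivity
  obtain ⟨XC, hXC⟩ : ∃ XC : ℝ, XC = M.C0 * (c₁ + Cl * |A|) := ⟨_, rfl⟩
  have hXC0 : 0 ≤ XC := by rw [hXC]; positivity
  obtain ⟨ε₁, hε₁, E1, E2, E4, E5⟩ := num_eps (e := b + 3 * a) (XC := XC) (ε := ε) (csep := csep)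
    (c := c) (cs := cst M K) (L' := L') (by positivity) hXC0 hε hcsep hc
    (zero_le_one.trans (cst_pos M K)) (by linarith)
  obtain ⟨dm, hdm, h1⟩ := hmain ε₁ κ' A₁ hε₁ hκ'0 (by linarith)
  refine ⟨min dm (c₂ / 2), lt_min hdm (by positivity), ?_⟩
  intro d₁ hd₁ hd₁m
  obtain ⟨lam, s₀, hlam, Tf, h2⟩ := h1 d₁ hd₁ (hd₁m.trans (min_le_left _ _))
  obtain ⟨s₁, hs₁⟩ := htb' d₁ hd₁ (hd₁m.trans (min_le_right _ _))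
  obtain ⟨s₂, hs₂⟩ := lab_ev (K := K) (ε₁ := ε₁) (κ₁ := κ₁) (x1 := cT M K)
    (x2 := M.C0 * K + M.C0 * M.C0) (x3 := 2 * M.C0 * K + 2 * L' * M.C0 * M.C0) (x4 := Cu)
    (x5 := Cn) (x6 := K * (2 * M.C0 + 1) + 2 * M.C0) hε₁ hκ₁ hK
  refine ⟨max (max (max s₀ s₁) s₂) 1, ?_⟩
  intro s hs h hh F hFF Y
  obtain ⟨x, hx, rfl⟩ := hFF
  have g0 : s₀ ≤ s := (le_max_left _ _).trans ((le_max_left _ _).trans ((le_max_left _ _).trans hs))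
  have g1 : s₁ ≤ s := (le_max_right _ _).trans ((le_max_left _ _).trans ((le_max_left _ _).trans hs))
  have g2 : s₂ ≤ s := (le_max_right _ _).trans ((le_max_left _ _).trans hs)
  have g3 : 1 ≤ s := (le_max_right _ _).trans hs
  have hs0 : 0 < s := by linarith
  obtain ⟨f1, f2, f3, f4, f5, f6⟩ := hs₂ s g2
  have hTB := hs₁ s g1 h hh
  have hh0 : ∀ b ∈ M.Φ, 0 ≤ h b := fun b hb => hc₂.le.trans (hh.bd b hb).1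
  have hA₁s : M.C0 * (1 + CW * s) + 1 ≤ A₁ * s := by
    have k2 : (M.C0 * (1 + CW) + 1) * s ≤ A₁ * s := mul_le_mul_of_nonneg_right hA₁' hs0.le
    have k3 : M.C0 * 1 ≤ M.C0 * s := mul_le_mul_of_nonneg_left g3 hC0.le
    have k4 : (M.C0 * (1 + CW) + 1) * s = M.C0 * s + M.C0 * (CW * s) + s := by ring
    have k5 : M.C0 * (1 + CW * s) + 1 = M.C0 * 1 + M.C0 * (CW * s) + 1 := by ring
    linarith
  obtain ⟨H₁, i1, i2, i3⟩ := lab_H₁ hFam (Φ₁ := Φ₁) (V₁ := V₁) (c₀ := c₀) (L := L) (B := B) hD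
    (h := h) (d₁ := d₁) (s := s) (c₁ := c₁) (ε₁ := ε₁) (κ' := κ') (A₁ := A₁) (Tf := Tf)
    (fun F F' hFF' => by
      obtain ⟨ρ, _, _, hρ⟩ := h2 s g0 h hh F F' hFF'
      refine ⟨ρ, fun α => ?_⟩
      obtain ⟨a, c, h3, h4, h5⟩ := hρ α
      exact ⟨a, h3, c, h4, h5⟩)
    (D := B.DboxH h 1 d₁ (1 / 2) s)
    (fun g T hS => hS.flt hs0 hh0 hκ'2 (CW := CW)
      (fun x hx => hW h hh.bd s hs0.le x hx) hA₁s)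
    hsep hTB hκ₁ hκ₂0.le hκ₂ hκ₂c hCA.le (by linarith) (by linarith) hu hn hLL' hL'1 ha hb hε₁ E2
    E4 hc E5 hs0 f1 f2 f3 f4 f5 f6
  obtain ⟨T', t1, t2⟩ := i3 x (hH₀ H₁ i1 i2 hx) Y
  have hE1 : ε₁ * 2 + 3 * ((b + 3 * a) * ε₁) * XC ≤ ε := by
    have : ε₁ * 2 + 3 * ((b + 3 * a) * ε₁) * XC = ε₁ * (2 + 3 * (b + 3 * a) * XC) := by ring
    rw [this]; exact E1
  exact lab_fin (hFam.qi x) t2 t1 hs0.le hh0 hκ'κ hA₁ hl (by linarith) hc₁.le hXC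
    (by positivity) hε₁.le f1 hE1

end Vale.Agent.P188.Z1.Lab
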