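import Vale.Agent.P188.R.G100
import Vale.Agent.P188.R.G105
import Vale.Agent.P188.R.G082
import Vale.Agent.P188.R.G101

/-!
# P188, Z1: everything unconditional

`RModel.holds`: all the blocks which are proved for an arbitrary model with fine natural boxes, in one
statement.
-/

set_option linter.all false

namespace Vale.Agent.P188.Z1

namespace RModel

variable {S : Type} [Group S] [MeasurableSpace S] {Γ : Type} [Group Γ]
  {V : Type} [AddCommGroup V] [Module ℝ V] {k : ℕ} (M : RModel S Γ V k)

theorem dboxH_holds (B : M.NatBox) (hB : B.Fine) : M.DBOXH B := DB.dboxH B hB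

theorem dvolH_holds (B : M.NatBox) : M.DVOLH B := DB.dvolH B

end RModel

end Vale.Agent.P188.Z1
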