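import Vale.Agent.P188.R.G077
import Vale.Agent.P188.R.G073
import Vale.Agent.P188.R.G101

/-!
# Route A: all the facts about the real model, in one lemma
-/

set_option linter.all false

open MeasureTheory Set
open scoped ENNReal commutatorElement

namespace Vale.Agent.P188.H382

open Vale.Agent.P188 Agent.P188.H428 Vale.Agent.P188.H789
open Vale.Agent.P188.H796 Vale.Agent.P188.H615 Vale.Agent.P188.H269 Vale.Agent.P188.H131
open Vale.Agent.P188.Z1 (RModel Conc)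

/-- **All the facts about the real model which are needed in route A.** -/
structure ModelA {S : Type} [Group S] [MeasurableSpace S] {Γ : Type} [Group Γ]
    {V : Type} [AddCommGroup V] [Module ℝ V] {k : ℕ} (M : RModel S Γ V k) (B : M.NatBox)
    (η : Γ →* Multiplicative (Fin k → ℤ)) : Prop where
  extra : M.Extra
  fine : B.Fine
  eta : M.η.comp M.inG = η
  meanS : HasMean S
  meanΓ : HasMean Γ
  nil : ∃ c, lcs M.E c = ⊥
  gen : ∃ p Cg : ℕ, 1 ≤ Cg ∧ Gen M.l M.E p Cg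
  hbox : ∃ M' C : ℕ, ∀ ε : ℝ, 0 < ε → ∃ Cε : ℝ, ∀ R : ℕ, ∃ P X1 X2 : Finset S,
    HBox M.l M' C Cε ε R P X1 X2

/-- the boxes of 615 -/
theorem conc_hbox {Γ : Type} [Group Γ] {k : ℕ} {η : Γ →* Multiplicative (Fin k → ℤ)} {d n : ℕ}
    {D : MB η.ker d n} {hη : Function.Surjective η} {F : Set Γ} (hF : F.Finite)
    (hgen : Subgroup.closure F = ⊤) {t : D.S} {M : RModel D.S Γ D.R.V k}
    (hM : Conc D hη F t M) : ∃ M' C : ℕ, ∀ ε : ℝ, 0 < ε → ∃ Cε : ℝ, ∀ R : ℕ,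
      ∃ P X1 X2 : Finset D.S, HBox M.l M' C Cε ε R P X1 X2 := by
  obtain ⟨M', C, H⟩ := hypBox_model hF hgen hM
  refine ⟨M', C, fun ε hε => ?_⟩
  obtain ⟨Cε, h⟩ := H ε hε
  refine ⟨Cε, fun R => ?_⟩
  obtain ⟨P, X1, X2, h1, h2, h3, _, _, h6, h7, h8, h9⟩ := h R
  exact ⟨P, X1, X2, h1, h2, h3, h6, h7, h8, h9⟩

/-- **The real model for route A.** -/
theorem exists_modelA {Γ : Type} [Group Γ] {k : ℕ} {η : Γ →* Multiplicative (Fin k → ℤ)}
    (h : H187.Z0 Γ k η) : ∃ (d n : ℕ) (D : MB η.ker d n) (F : Set Γ) (t : D.S)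
      (M : RModel D.S Γ D.R.V k) (B : M.NatBox), BoxData D h.surj F t M B ∧ ModelA M B η := by
  obtain ⟨d, n, D, F₁, t, M, B, hC, hX, hη, hF₁, hgen, hN, hB, hfine⟩ := Z1.exists_model_box h
  obtain ⟨m, hm⟩ := h.polyZ
  exact ⟨d, n, D, F₁, t, M, B, ⟨hC, hX, hN, hB, hfine⟩,
    { extra := hX
      fine := hfine
      eta := hη
      meanS := hasMean_S hC
      meanΓ := hasMean_of_PolyZ m Γ hm
      nil := ⟨_, conc_lcs hC⟩
      gen := conc_gen hF₁ hgen hC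
      hbox := conc_hbox hF₁ hgen hC }⟩

end Vale.Agent.P188.H382
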