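import Vale.Agent.P188.R.G081
import Vale.Agent.P188.R.G111
import Vale.Agent.P188.R.G108

/-!
# P188, Z1: FLATG holds
-/

set_option linter.all false

open MeasureTheory Set

namespace Vale.Agent.P188.Z1

namespace RModel

variable {S : Type} [Group S] [MeasurableSpace S] {Γ : Type} [Group Γ]
  {V : Type} [AddCommGroup V] [Module ℝ V] {k : ℕ} (M : RModel S Γ V k)

/-- **FLATG holds** in every model with fine natural boxes. -/
theorem flatg_holds (B : M.NatBox) (hB : B.Fine) : M.FLATG B :=
  F6.flatg_of (M.straight_holds B hB) M.spread_holds B (M.dboxH_holds B hB) (M.dvolH_holds B)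

end RModel

end Vale.Agent.P188.Z1
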